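import Vale.Agent.Lib.P154.PChain.BY.L

set_option linter.all false

namespace Vale.Agent.Lib.P154.PChain.BY.S0

open Vale.Agent.Lib.P154.Chain

noncomputable def pc0 : PT := (PT.nd (nat_lit 3072966) (PT.nd (nat_lit 2979288) (PT.nd (nat_lit 2885766) (PT.nd (nat_lit 2854488) (PT.nd (nat_lit 2854410) (PT.nd (nat_lit 2823210) PT.nil (PT.lf (nat_lit 76) (nat_lit 3) (nat_lit 1) (nat_lit 1) (nat_lit 105) (nat_lit 90) (nat_lit 105))) (PT.lf (nat_lit 152) (nat_lit 6) (nat_lit 2) (nat_lit 3) (nat_lit 104) (nat_lit 91) (nat_lit 105))) (PT.nd (nat_lit 31122) (PT.lf (nat_lit 152) (nat_lit 6) (nat_lit 2) (nat_lit 1) (nat_lit 105) (nat_lit 91) (nat_lit 104)) (PT.nd (nat_lit 78) (PT.lf (nat_lit 228) (nat_lit 6) (nat_lit 3) (nat_lit 3) (nat_lit 103) (nat_lit 92) (nat_lit 105)) (PT.lf (nat_lit 304) (nat_lit 3) (nat_lit 4) (nat_lit 1) (nat_lit 104) (nat_lit 92) (nat_lit 104))))) (PT.nd (nat_lit 62322)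 (PT.nd (nat_lit 31122) (PT.lf (nat_lit 228) (nat_lit 6) (nat_lit 3) (nat_lit 1) (nat_lit 105) (nat_lit 92) (nat_lit 103)) (PT.nd (nat_lit 78) (PT.lf (nat_lit 380) (nat_lit 6) (nat_lit 5) (nat_lit 3) (nat_lit 103) (nat_lit 93) (nat_lit 104)) (PT.lf (nat_lit 380) (nat_lit 6) (nat_lit 5) (nat_lit 1) (nat_lit 104) (nat_lit 93) (nat_lit 103)))) (PT.nd (nat_lit 78) (PT.lf (nat_lit 456) (nat_lit 6) (nat_lit 6) (nat_lit 3) (nat_lit 102) (nat_lit 94) (nat_lit 104)) (PT.nd (nat_lit 78) (PT.lf (nat_lit 532) (nat_lit 3) (nat_lit 7) (nat_lit 1) (nat_lit 103) (nat_lit 94) (nat_lit 103)) (PT.lf (nat_lit 456) (nat_lit 6) (nat_lit 6) (nat_lit 1) (nat_lit 104) (nat_lit 94) (nat_lit 102)))))) (PT.nd (nat_lit 31356) (PT.nd (nat_lit 156) (PT.nd (nat_lit 78) (PT.lf (nat_lit 608) (nat_lit 6) (nat_lit 8) (nat_lit 3) (nat_lit 101) (nat_lit 95) (nat_lit 104)) (PT.lf (nat_lit 684) (nat_lit 6) (nat_lit 9) (nat_lit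 3) (nat_lit 102) (nat_lit 95) (nat_lit 103))) (PT.nd (nat_lit 78) (PT.lf (nat_lit 684) (nat_lit 6) (nat_lit 9) (nat_lit 1) (nat_lit 103) (nat_lit 95) (nat_lit 102)) (PT.nd (nat_lit 31044) (PT.lf (nat_lit 608) (nat_lit 6) (nat_lit 8) (nat_lit 1) (nat_lit 104) (nat_lit 95) (nat_lit 101)) (PT.lf (nat_lit 760) (nat_lit 6) (nat_lit 10) (nat_lit 3) (nat_lit 101) (nat_lit 96) (nat_lit 103))))) (PT.nd (nat_lit 31200) (PT.nd (nat_lit 78) (PT.lf (nat_lit 836) (nat_lit 3) (nat_lit 11) (nat_lit 1) (nat_lit 102) (nat_lit 96) (nat_lit 102)) (PT.nd (nat_lit 31044) (PT.lf (nat_lit 760) (nat_lit 6) (nat_lit 10) (nat_lit 1) (nat_lit 103) (nat_lit 96) (nat_lit 101)) (PT.lf (nat_lit 988) (nat_lit 6) (nat_lit 13) (nat_lit 3) (nat_lit 100) (nat_lit 97) (nat_lit 103)))) (PT.nd (nat_lit 78) (PT.lf (nat_lit 1064) (nat_lit 6) (nat_lit 14) (nat_lit 3) (nat_lit 101) (nat_lit 97) (nat_lit 102)) (PT.nd (nat_lit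 78) (PT.lf (nat_lit 1064) (nat_lit 6) (nat_lit 14) (nat_lit 1) (nat_lit 102) (nat_lit 97) (nat_lit 101)) (PT.lf (nat_lit 988) (nat_lit 6) (nat_lit 13) (nat_lit 1) (nat_lit 103) (nat_lit 97) (nat_lit 100))))))) (PT.nd (nat_lit 62400) (PT.nd (nat_lit 31200) (PT.nd (nat_lit 156) (PT.nd (nat_lit 78) (PT.lf (nat_lit 912) (nat_lit 6) (nat_lit 12) (nat_lit 3) (nat_lit 99) (nat_lit 98) (nat_lit 103)) (PT.lf (nat_lit 1216) (nat_lit 6) (nat_lit 16) (nat_lit 3) (nat_lit 100) (nat_lit 98) (nat_lit 102))) (PT.nd (nat_lit 78) (PT.lf (nat_lit 1292) (nat_lit 3) (nat_lit 17) (nat_lit 1) (nat_lit 101) (nat_lit 98) (nat_lit 101)) (PT.nd (nat_lit 78) (PT.lf (nat_lit 1216) (nat_lit 6) (nat_lit 16) (nat_lit 1) (nat_lit 102) (nat_lit 98) (nat_lit 100)) (PT.lf (nat_lit 912) (nat_lit 6) (nat_lit 12) (nat_lit 1) (nat_lit 103) (nat_lit 98) (nat_lit 99))))) (PT.nd (nat_lit 234) (PT.nd (nat_lit 78) (PT.lf (nat_lit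 912) (nat_lit 6) (nat_lit 12) (nat_lit 5) (nat_lit 98) (nat_lit 99) (nat_lit 103)) (PT.nd (nat_lit 78) (PT.lf (nat_lit 1140) (nat_lit 3) (nat_lit 15) (nat_lit 3) (nat_lit 99) (nat_lit 99) (nat_lit 102)) (PT.lf (nat_lit 1368) (nat_lit 6) (nat_lit 18) (nat_lit 3) (nat_lit 100) (nat_lit 99) (nat_lit 101)))) (PT.nd (nat_lit 78) (PT.lf (nat_lit 1368) (nat_lit 6) (nat_lit 18) (nat_lit 1) (nat_lit 101) (nat_lit 99) (nat_lit 100)) (PT.nd (nat_lit 78) (PT.lf (nat_lit 1140) (nat_lit 3) (nat_lit 15) (nat_lit 0) (nat_lit 102) (nat_lit 99) (nat_lit 99)) (PT.lf (nat_lit 912) (nat_lit 6) (nat_lit 12) (nat_lit 0) (nat_lit 103) (nat_lit 99) (nat_lit 98)))))) (PT.nd (nat_lit 468) (PT.nd (nat_lit 234) (PT.nd (nat_lit 78) (PT.lf (nat_lit 988) (nat_lit 6) (nat_lit 13) (nat_lit 5) (nat_lit 97) (nat_lit 100) (nat_lit 103)) (PT.nd (nat_lit 78) (PT.lf (nat_lit 1216) (nat_lit 6) (nat_lit 16) (nat_lit 5) (nat_lit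 98) (nat_lit 100) (nat_lit 102)) (PT.lf (nat_lit 1368) (nat_lit 6) (nat_lit 18) (nat_lit 5) (nat_lit 99) (nat_lit 100) (nat_lit 101)))) (PT.nd (nat_lit 78) (PT.lf (nat_lit 1444) (nat_lit 1) (nat_lit 19) (nat_lit 0) (nat_lit 100) (nat_lit 100) (nat_lit 100)) (PT.nd (nat_lit 78) (PT.lf (nat_lit 1368) (nat_lit 6) (nat_lit 18) (nat_lit 0) (nat_lit 101) (nat_lit 100) (nat_lit 99)) (PT.lf (nat_lit 1216) (nat_lit 6) (nat_lit 16) (nat_lit 0) (nat_lit 102) (nat_lit 100) (nat_lit 98))))) (PT.nd (nat_lit 30810) (PT.nd (nat_lit 30654) (PT.lf (nat_lit 988) (nat_lit 6) (nat_lit 13) (nat_lit 0) (nat_lit 103) (nat_lit 100) (nat_lit 97)) (PT.nd (nat_lit 78) (PT.lf (nat_lit 608) (nat_lit 6) (nat_lit 8) (nat_lit 5) (nat_lit 95) (nat_lit 101) (nat_lit 104)) (PT.lf (nat_lit 760) (nat_lit 6) (nat_lit 10) (nat_lit 5) (nat_lit 96) (nat_lit 101) (nat_lit 103)))) (PT.nd (nat_lit 78) (PT.lf (nat_lit 1064) (nat_lit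 6) (nat_lit 14) (nat_lit 5) (nat_lit 97) (nat_lit 101) (nat_lit 102)) (PT.nd (nat_lit 78) (PT.lf (nat_lit 1292) (nat_lit 3) (nat_lit 17) (nat_lit 4) (nat_lit 98) (nat_lit 101) (nat_lit 101)) (PT.lf (nat_lit 1368) (nat_lit 6) (nat_lit 18) (nat_lit 4) (nat_lit 99) (nat_lit 101) (nat_lit 100))))))))
noncomputable def pc1 : PT := (PT.nd (nat_lit 62478) (PT.nd (nat_lit 31278) (PT.nd (nat_lit 30810) (PT.nd (nat_lit 156) (PT.nd (nat_lit 78) (PT.lf (nat_lit 1368) (nat_lit 6) (nat_lit 18) (nat_lit 2) (nat_lit 100) (nat_lit 101) (nat_lit 99)) (PT.lf (nat_lit 1292) (nat_lit 3) (nat_lit 17) (nat_lit 0) (nat_lit 101) (nat_lit 101) (nat_lit 98))) (PT.nd (nat_lit 78) (PT.lf (nat_lit 1064) (nat_lit 6) (nat_lit 14) (nat_lit 0) (nat_lit 102) (nat_lit 101) (nat_lit 97)) (PT.nd (nat_lit 78) (PT.lf (nat_lit 760) (nat_lit 6) (nat_lit 10) (nat_lit 0) (nat_lit 103) (nat_lit 101) (nat_lit 96)) (PT.lf (nat_lit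 608) (nat_lit 6) (nat_lit 8) (nat_lit 0) (nat_lit 104) (nat_lit 101) (nat_lit 95))))) (PT.nd (nat_lit 234) (PT.nd (nat_lit 78) (PT.lf (nat_lit 456) (nat_lit 6) (nat_lit 6) (nat_lit 5) (nat_lit 94) (nat_lit 102) (nat_lit 104)) (PT.nd (nat_lit 78) (PT.lf (nat_lit 684) (nat_lit 6) (nat_lit 9) (nat_lit 5) (nat_lit 95) (nat_lit 102) (nat_lit 103)) (PT.lf (nat_lit 836) (nat_lit 3) (nat_lit 11) (nat_lit 4) (nat_lit 96) (nat_lit 102) (nat_lit 102)))) (PT.nd (nat_lit 78) (PT.lf (nat_lit 1064) (nat_lit 6) (nat_lit 14) (nat_lit 4) (nat_lit 97) (nat_lit 102) (nat_lit 101)) (PT.nd (nat_lit 78) (PT.lf (nat_lit 1216) (nat_lit 6) (nat_lit 16) (nat_lit 4) (nat_lit 98) (nat_lit 102) (nat_lit 100)) (PT.lf (nat_lit 1140) (nat_lit 3) (nat_lit 15) (nat_lit 2) (nat_lit 99) (nat_lit 102) (nat_lit 99)))))) (PT.nd (nat_lit 30732) (PT.nd (nat_lit 234) (PT.nd (nat_lit 78) (PT.lf (nat_lit 1216) (nat_lit 6) (nat_lit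 16) (nat_lit 2) (nat_lit 100) (nat_lit 102) (nat_lit 98)) (PT.nd (nat_lit 78) (PT.lf (nat_lit 1064) (nat_lit 6) (nat_lit 14) (nat_lit 2) (nat_lit 101) (nat_lit 102) (nat_lit 97)) (PT.lf (nat_lit 836) (nat_lit 3) (nat_lit 11) (nat_lit 0) (nat_lit 102) (nat_lit 102) (nat_lit 96)))) (PT.nd (nat_lit 78) (PT.lf (nat_lit 684) (nat_lit 6) (nat_lit 9) (nat_lit 0) (nat_lit 103) (nat_lit 102) (nat_lit 95)) (PT.nd (nat_lit 30342) (PT.lf (nat_lit 456) (nat_lit 6) (nat_lit 6) (nat_lit 0) (nat_lit 104) (nat_lit 102) (nat_lit 94)) (PT.lf (nat_lit 228) (nat_lit 6) (nat_lit 3) (nat_lit 5) (nat_lit 92) (nat_lit 103) (nat_lit 105))))) (PT.nd (nat_lit 234) (PT.nd (nat_lit 78) (PT.lf (nat_lit 380) (nat_lit 6) (nat_lit 5) (nat_lit 5) (nat_lit 93) (nat_lit 103) (nat_lit 104)) (PT.nd (nat_lit 78) (PT.lf (nat_lit 532) (nat_lit 3) (nat_lit 7) (nat_lit 4) (nat_lit 94) (nat_lit 103) (nat_lit 103)) (PT.lf (nat_lit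 684) (nat_lit 6) (nat_lit 9) (nat_lit 4) (nat_lit 95) (nat_lit 103) (nat_lit 102)))) (PT.nd (nat_lit 78) (PT.lf (nat_lit 760) (nat_lit 6) (nat_lit 10) (nat_lit 4) (nat_lit 96) (nat_lit 103) (nat_lit 101)) (PT.nd (nat_lit 78) (PT.lf (nat_lit 988) (nat_lit 6) (nat_lit 13) (nat_lit 4) (nat_lit 97) (nat_lit 103) (nat_lit 100)) (PT.lf (nat_lit 912) (nat_lit 6) (nat_lit 12) (nat_lit 4) (nat_lit 98) (nat_lit 103) (nat_lit 99))))))) (PT.nd (nat_lit 30966) (PT.nd (nat_lit 390) (PT.nd (nat_lit 156) (PT.nd (nat_lit 78) (PT.lf (nat_lit 912) (nat_lit 6) (nat_lit 12) (nat_lit 2) (nat_lit 99) (nat_lit 103) (nat_lit 98)) (PT.lf (nat_lit 988) (nat_lit 6) (nat_lit 13) (nat_lit 2) (nat_lit 100) (nat_lit 103) (nat_lit 97))) (PT.nd (nat_lit 78) (PT.lf (nat_lit 760) (nat_lit 6) (nat_lit 10) (nat_lit 2) (nat_lit 101) (nat_lit 103) (nat_lit 96)) (PT.nd (nat_lit 78) (PT.lf (nat_lit 684) (nat_lit 6) (nat_lit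 9) (nat_lit 2) (nat_lit 102) (nat_lit 103) (nat_lit 95)) (PT.lf (nat_lit 532) (nat_lit 3) (nat_lit 7) (nat_lit 0) (nat_lit 103) (nat_lit 103) (nat_lit 94))))) (PT.nd (nat_lit 30342) (PT.nd (nat_lit 78) (PT.lf (nat_lit 380) (nat_lit 6) (nat_lit 5) (nat_lit 0) (nat_lit 104) (nat_lit 103) (nat_lit 93)) (PT.nd (nat_lit 30186) (PT.lf (nat_lit 228) (nat_lit 6) (nat_lit 3) (nat_lit 0) (nat_lit 105) (nat_lit 103) (nat_lit 92)) (PT.lf (nat_lit 152) (nat_lit 6) (nat_lit 2) (nat_lit 5) (nat_lit 91) (nat_lit 104) (nat_lit 105)))) (PT.nd (nat_lit 78) (PT.lf (nat_lit 304) (nat_lit 3) (nat_lit 4) (nat_lit 4) (nat_lit 92) (nat_lit 104) (nat_lit 104)) (PT.nd (nat_lit 78) (PT.lf (nat_lit 380) (nat_lit 6) (nat_lit 5) (nat_lit 4) (nat_lit 93) (nat_lit 104) (nat_lit 103)) (PT.lf (nat_lit 456) (nat_lit 6) (nat_lit 6) (nat_lit 4) (nat_lit 94) (nat_lit 104) (nat_lit 102)))))) (PT.nd (nat_lit 30888) (PT.nd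 (nat_lit 624) (PT.nd (nat_lit 468) (PT.lf (nat_lit 608) (nat_lit 6) (nat_lit 8) (nat_lit 4) (nat_lit 95) (nat_lit 104) (nat_lit 101)) (PT.nd (nat_lit 78) (PT.lf (nat_lit 608) (nat_lit 6) (nat_lit 8) (nat_lit 2) (nat_lit 101) (nat_lit 104) (nat_lit 95)) (PT.lf (nat_lit 456) (nat_lit 6) (nat_lit 6) (nat_lit 2) (nat_lit 102) (nat_lit 104) (nat_lit 94)))) (PT.nd (nat_lit 78) (PT.lf (nat_lit 380) (nat_lit 6) (nat_lit 5) (nat_lit 2) (nat_lit 103) (nat_lit 104) (nat_lit 93)) (PT.nd (nat_lit 78) (PT.lf (nat_lit 304) (nat_lit 3) (nat_lit 4) (nat_lit 0) (nat_lit 104) (nat_lit 104) (nat_lit 92)) (PT.lf (nat_lit 152) (nat_lit 6) (nat_lit 2) (nat_lit 0) (nat_lit 105) (nat_lit 104) (nat_lit 91))))) (PT.nd (nat_lit 1014) (PT.nd (nat_lit 78) (PT.lf (nat_lit 76) (nat_lit 3) (nat_lit 1) (nat_lit 4) (nat_lit 90) (nat_lit 105) (nat_lit 105)) (PT.nd (nat_lit 78) (PT.lf (nat_lit 152) (nat_lit 6) (nat_lit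 2) (nat_lit 4) (nat_lit 91) (nat_lit 105) (nat_lit 104)) (PT.lf (nat_lit 228) (nat_lit 6) (nat_lit 3) (nat_lit 4) (nat_lit 92) (nat_lit 105) (nat_lit 103)))) (PT.nd (nat_lit 78) (PT.lf (nat_lit 228) (nat_lit 6) (nat_lit 3) (nat_lit 2) (nat_lit 103) (nat_lit 105) (nat_lit 92)) (PT.nd (nat_lit 78) (PT.lf (nat_lit 152) (nat_lit 6) (nat_lit 2) (nat_lit 2) (nat_lit 104) (nat_lit 105) (nat_lit 91)) (PT.lf (nat_lit 76) (nat_lit 3) (nat_lit 1) (nat_lit 0) (nat_lit 105) (nat_lit 105) (nat_lit 90))))))))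
noncomputable def xc0 : XT := (XT.nd (nat_lit 218010) (nat_lit 0) (nat_lit 0) (XT.nd (nat_lit 155766) (nat_lit 0) (nat_lit 0) (XT.nd (nat_lit 93366) (nat_lit 0) (nat_lit 0) (XT.nd (nat_lit 31278) (nat_lit 0) (nat_lit 0) (XT.nd (nat_lit 31122) (nat_lit 0) (nat_lit 0) (XT.nd (nat_lit 78) (nat_lit 0) (nat_lit 0) (XT.lf (nat_lit 0) (nat_lit 27617683386620) (nat_lit 76) (nat_lit 35394583743277) (nat_lit 76) (nat_lit 35394583743277) (nat_lit 1) (nat_lit 4) (nat_lit 2) (nat_lit 5) (nat_lit 2) (nat_lit 4) (nat_lit 284) (nat_lit 158) (nat_lit 158)) (XT.lf (nat_lit 0) (nat_lit 63520730433655) (nat_lit 76) (nat_lit 81407512494817) (nat_lit 76) (nat_lit 81407508878116) (nat_lit 1) (nat_lit 4) (nat_lit 2) (nat_lit 5) (nat_lit 2) (nat_lit 4) (nat_lit 285) (nat_lit 158) (nat_lit 157))) (XT.nd (nat_lit 78) (nat_lit 0) (nat_lit 0) (XT.lf (nat_lit 0) (nat_lit 20882882737388) (nat_lit 76) (nat_lit 26763419564327)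 (nat_lit 76) (nat_lit 26763419564327) (nat_lit 1) (nat_lit 4) (nat_lit 2) (nat_lit 5) (nat_lit 2) (nat_lit 4) (nat_lit 282) (nat_lit 159) (nat_lit 159)) (XT.lf (nat_lit 0) (nat_lit 48030697737087) (nat_lit 76) (nat_lit 61555830366022) (nat_lit 76) (nat_lit 61555826206816) (nat_lit 1) (nat_lit 4) (nat_lit 2) (nat_lit 5) (nat_lit 2) (nat_lit 4) (nat_lit 283) (nat_lit 159) (nat_lit 158)))) (XT.nd (nat_lit 31122) (nat_lit 0) (nat_lit 0) (XT.nd (nat_lit 78) (nat_lit 0) (nat_lit 0) (XT.lf (nat_lit 0) (nat_lit 55235364107584) (nat_lit 76) (nat_lit 70789172825558) (nat_lit 76) (nat_lit 70789165049650) (nat_lit 1) (nat_lit 4) (nat_lit 2) (nat_lit 5) (nat_lit 2) (nat_lit 4) (nat_lit 284) (nat_lit 159) (nat_lit 157)) (XT.lf (nat_lit 0) (nat_lit 63520725450037) (nat_lit 76) (nat_lit 81407518859729) (nat_lit 76) (nat_lit 81407507938864) (nat_lit 1) (nat_lit 4) (nat_lit 2) (nat_lit 5) (nat_lit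 2) (nat_lit 4) (nat_lit 285) (nat_lit 159) (nat_lit 156))) (XT.nd (nat_lit 78) (nat_lit 0) (nat_lit 0) (XT.lf (nat_lit 0) (nat_lit 41765762409273) (nat_lit 76) (nat_lit 53526845268507) (nat_lit 76) (nat_lit 53526836326213) (nat_lit 1) (nat_lit 4) (nat_lit 2) (nat_lit 5) (nat_lit 2) (nat_lit 4) (nat_lit 282) (nat_lit 160) (nat_lit 158)) (XT.lf (nat_lit 0) (nat_lit 48030692005927) (nat_lit 76) (nat_lit 61555837685671) (nat_lit 76) (nat_lit 61555825126676) (nat_lit 1) (nat_lit 4) (nat_lit 2) (nat_lit 5) (nat_lit 2) (nat_lit 4) (nat_lit 283) (nat_lit 160) (nat_lit 157))))) (XT.nd (nat_lit 31278) (nat_lit 0) (nat_lit 0) (XT.nd (nat_lit 31122) (nat_lit 0) (nat_lit 0) (XT.nd (nat_lit 78) (nat_lit 0) (nat_lit 0) (XT.lf (nat_lit 0) (nat_lit 11939738354441) (nat_lit 76) (nat_lit 15302136029827) (nat_lit 76) (nat_lit 15302136029827) (nat_lit 1) (nat_lit 4) (nat_lit 2) (nat_lit 5) (nat_lit 2)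 (nat_lit 4) (nat_lit 278) (nat_lit 161) (nat_lit 161)) (XT.lf (nat_lit 0) (nat_lit 27461487406062) (nat_lit 76) (nat_lit 35194867067875) (nat_lit 76) (nat_lit 35194861567325) (nat_lit 1) (nat_lit 4) (nat_lit 2) (nat_lit 5) (nat_lit 2) (nat_lit 4) (nat_lit 279) (nat_lit 161) (nat_lit 160))) (XT.nd (nat_lit 78) (nat_lit 0) (nat_lit 0) (XT.lf (nat_lit 0) (nat_lit 9028075934504) (nat_lit 76) (nat_lit 11570657680194) (nat_lit 76) (nat_lit 11570657680194) (nat_lit 1) (nat_lit 4) (nat_lit 2) (nat_lit 5) (nat_lit 2) (nat_lit 4) (nat_lit 276) (nat_lit 162) (nat_lit 162)) (XT.lf (nat_lit 0) (nat_lit 20764677218834) (nat_lit 76) (nat_lit 26612459993610) (nat_lit 76) (nat_lit 26612453667978) (nat_lit 1) (nat_lit 4) (nat_lit 2) (nat_lit 5) (nat_lit 2) (nat_lit 4) (nat_lit 277) (nat_lit 162) (nat_lit 161)))) (XT.nd (nat_lit 30966) (nat_lit 0) (nat_lit 0) (XT.nd (nat_lit 78) (nat_lit 0) (nat_lit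 0) (XT.lf (nat_lit 0) (nat_lit 23879472654754) (nat_lit 76) (nat_lit 30604280179609) (nat_lit 76) (nat_lit 30604268353426) (nat_lit 1) (nat_lit 4) (nat_lit 2) (nat_lit 5) (nat_lit 2) (nat_lit 4) (nat_lit 278) (nat_lit 162) (nat_lit 160)) (XT.lf (nat_lit 0) (nat_lit 27461479826603) (nat_lit 76) (nat_lit 35194876748111) (nat_lit 76) (nat_lit 35194860138840) (nat_lit 1) (nat_lit 4) (nat_lit 2) (nat_lit 5) (nat_lit 2) (nat_lit 4) (nat_lit 279) (nat_lit 162) (nat_lit 159))) (XT.nd (nat_lit 78) (nat_lit 0) (nat_lit 0) (XT.lf (nat_lit 0) (nat_lit 6826428592655) (nat_lit 76) (nat_lit 8749130620233) (nat_lit 76) (nat_lit 8749130620233) (nat_lit 1) (nat_lit 4) (nat_lit 2) (nat_lit 5) (nat_lit 2) (nat_lit 4) (nat_lit 274) (nat_lit 163) (nat_lit 163)) (XT.lf (nat_lit 0) (nat_lit 15700903718001) (nat_lit 76) (nat_lit 20122939855075) (nat_lit 76) (nat_lit 20122932580597) (nat_lit 1) (nat_lit 4)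 (nat_lit 2) (nat_lit 5) (nat_lit 2) (nat_lit 4) (nat_lit 275) (nat_lit 163) (nat_lit 162)))))) (XT.nd (nat_lit 31356) (nat_lit 0) (nat_lit 0) (XT.nd (nat_lit 31044) (nat_lit 0) (nat_lit 0) (XT.nd (nat_lit 156) (nat_lit 0) (nat_lit 0) (XT.nd (nat_lit 78) (nat_lit 0) (nat_lit 0) (XT.lf (nat_lit 0) (nat_lit 18056147206760) (nat_lit 76) (nat_lit 23141324698337) (nat_lit 76) (nat_lit 23141311098226) (nat_lit 1) (nat_lit 4) (nat_lit 2) (nat_lit 5) (nat_lit 2) (nat_lit 4) (nat_lit 276) (nat_lit 163) (nat_lit 161)) (XT.lf (nat_lit 0) (nat_lit 20764668502455) (nat_lit 76) (nat_lit 26612471125881) (nat_lit 76) (nat_lit 26612452025221) (nat_lit 1) (nat_lit 4) (nat_lit 2) (nat_lit 5) (nat_lit 2) (nat_lit 4) (nat_lit 277) (nat_lit 163) (nat_lit 160))) (XT.nd (nat_lit 30810) (nat_lit 0) (nat_lit 0) (XT.lf (nat_lit 0) (nat_lit 23879460413046) (nat_lit 76) (nat_lit 30604292872161) (nat_lit 76) (nat_lit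 30604268988413) (nat_lit 1) (nat_lit 4) (nat_lit 2) (nat_lit 5) (nat_lit 2) (nat_lit 4) (nat_lit 278) (nat_lit 163) (nat_lit 159)) (XT.lf (nat_lit 0) (nat_lit 5161652819530) (nat_lit 76) (nat_lit 6615658465071) (nat_lit 76) (nat_lit 6615658465071) (nat_lit 1) (nat_lit 4) (nat_lit 2) (nat_lit 5) (nat_lit 2) (nat_lit 4) (nat_lit 272) (nat_lit 164) (nat_lit 164)))) (XT.nd (nat_lit 156) (nat_lit 0) (nat_lit 0) (XT.nd (nat_lit 78) (nat_lit 0) (nat_lit 0) (XT.lf (nat_lit 0) (nat_lit 11871937133048) (nat_lit 76) (nat_lit 15215944812484) (nat_lit 76) (nat_lit 15215936446834) (nat_lit 1) (nat_lit 4) (nat_lit 2) (nat_lit 5) (nat_lit 2) (nat_lit 4) (nat_lit 273) (nat_lit 164) (nat_lit 163)) (XT.lf (nat_lit 0) (nat_lit 13652851823724) (nat_lit 76) (nat_lit 17498271979107) (nat_lit 76) (nat_lit 17498256338980) (nat_lit 1) (nat_lit 4) (nat_lit 2) (nat_lit 5) (nat_lit 2) (nat_lit 4) (nat_lit 274)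 (nat_lit 164) (nat_lit 162))) (XT.nd (nat_lit 78) (nat_lit 0) (nat_lit 0) (XT.lf (nat_lit 0) (nat_lit 15700893694166) (nat_lit 76) (nat_lit 20122952657186) (nat_lit 76) (nat_lit 20122930691427) (nat_lit 1) (nat_lit 4) (nat_lit 2) (nat_lit 5) (nat_lit 2) (nat_lit 4) (nat_lit 275) (nat_lit 164) (nat_lit 161)) (XT.lf (nat_lit 0) (nat_lit 18056133128796) (nat_lit 76) (nat_lit 23141339294771) (nat_lit 76) (nat_lit 23141311828461) (nat_lit 1) (nat_lit 4) (nat_lit 2) (nat_lit 5) (nat_lit 2) (nat_lit 4) (nat_lit 276) (nat_lit 164) (nat_lit 160))))) (XT.nd (nat_lit 312) (nat_lit 0) (nat_lit 0) (XT.nd (nat_lit 156) (nat_lit 0) (nat_lit 0) (XT.nd (nat_lit 78) (nat_lit 0) (nat_lit 0) (XT.lf (nat_lit 0) (nat_lit 20764650899161) (nat_lit 76) (nat_lit 26612487282596) (nat_lit 76) (nat_lit 26612455033199) (nat_lit 1) (nat_lit 4) (nat_lit 2) (nat_lit 5) (nat_lit 2) (nat_lit 4) (nat_lit 277) (nat_lit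 164) (nat_lit 159)) (XT.lf (nat_lit 0) (nat_lit 23879439744247) (nat_lit 76) (nat_lit 30604310385641) (nat_lit 76) (nat_lit 30604273977037) (nat_lit 1) (nat_lit 4) (nat_lit 2) (nat_lit 5) (nat_lit 2) (nat_lit 4) (nat_lit 278) (nat_lit 164) (nat_lit 158))) (XT.nd (nat_lit 78) (nat_lit 0) (nat_lit 0) (XT.lf (nat_lit 0) (nat_lit 27461441184936) (nat_lit 76) (nat_lit 35194909490704) (nat_lit 76) (nat_lit 35194869465399) (nat_lit 1) (nat_lit 4) (nat_lit 2) (nat_lit 5) (nat_lit 2) (nat_lit 4) (nat_lit 279) (nat_lit 164) (nat_lit 157)) (XT.lf (nat_lit 0) (nat_lit 31580737858111) (nat_lit 76) (nat_lit 40474100667232) (nat_lit 76) (nat_lit 40474057496970) (nat_lit 1) (nat_lit 4) (nat_lit 2) (nat_lit 5) (nat_lit 2) (nat_lit 4) (nat_lit 280) (nat_lit 164) (nat_lit 156)))) (XT.nd (nat_lit 30420) (nat_lit 0) (nat_lit 0) (XT.nd (nat_lit 78) (nat_lit 0) (nat_lit 0) (XT.lf (nat_lit 0) (nat_lit 36317924698681)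 (nat_lit 76) (nat_lit 46545172438245) (nat_lit 76) (nat_lit 46545126533238) (nat_lit 1) (nat_lit 4) (nat_lit 2) (nat_lit 5) (nat_lit 2) (nat_lit 4) (nat_lit 281) (nat_lit 164) (nat_lit 155)) (XT.lf (nat_lit 0) (nat_lit 41765685797006) (nat_lit 76) (nat_lit 53526906642741) (nat_lit 76) (nat_lit 53526858359693) (nat_lit 1) (nat_lit 4) (nat_lit 2) (nat_lit 5) (nat_lit 2) (nat_lit 4) (nat_lit 282) (nat_lit 164) (nat_lit 154))) (XT.nd (nat_lit 78) (nat_lit 0) (nat_lit 0) (XT.lf (nat_lit 0) (nat_lit 3902826971554) (nat_lit 76) (nat_lit 5002455818426) (nat_lit 76) (nat_lit 5002455818426) (nat_lit 1) (nat_lit 4) (nat_lit 2) (nat_lit 5) (nat_lit 2) (nat_lit 4) (nat_lit 270) (nat_lit 165) (nat_lit 165)) (XT.lf (nat_lit 0) (nat_lit 8976658029922) (nat_lit 76) (nat_lit 11505568276623) (nat_lit 76) (nat_lit 11505558656126) (nat_lit 1) (nat_lit 4) (nat_lit 2) (nat_lit 5) (nat_lit 2) (nat_lit 4)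 (nat_lit 271) (nat_lit 165) (nat_lit 164))))))) (XT.nd (nat_lit 31356) (nat_lit 0) (nat_lit 0) (XT.nd (nat_lit 624) (nat_lit 0) (nat_lit 0) (XT.nd (nat_lit 312) (nat_lit 0) (nat_lit 0) (XT.nd (nat_lit 156) (nat_lit 0) (nat_lit 0) (XT.nd (nat_lit 78) (nat_lit 0) (nat_lit 0) (XT.lf (nat_lit 0) (nat_lit 10323299473237) (nat_lit 76) (nat_lit 13231329279580) (nat_lit 76) (nat_lit 13231311293434) (nat_lit 1) (nat_lit 4) (nat_lit 2) (nat_lit 5) (nat_lit 2) (nat_lit 4) (nat_lit 272) (nat_lit 165) (nat_lit 163)) (XT.lf (nat_lit 0) (nat_lit 11871925605638) (nat_lit 76) (nat_lit 15215959534912) (nat_lit 76) (nat_lit 15215934274288) (nat_lit 1) (nat_lit 4) (nat_lit 2) (nat_lit 5) (nat_lit 2) (nat_lit 4) (nat_lit 273) (nat_lit 165) (nat_lit 162))) (XT.nd (nat_lit 78) (nat_lit 0) (nat_lit 0) (XT.lf (nat_lit 0) (nat_lit 13652835634065) (nat_lit 76) (nat_lit 17498288765006) (nat_lit 76) (nat_lit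 17498257178750) (nat_lit 1) (nat_lit 4) (nat_lit 2) (nat_lit 5) (nat_lit 2) (nat_lit 4) (nat_lit 274) (nat_lit 165) (nat_lit 161)) (XT.lf (nat_lit 0) (nat_lit 15700873450378) (nat_lit 76) (nat_lit 20122971237408) (nat_lit 76) (nat_lit 20122934150601) (nat_lit 1) (nat_lit 4) (nat_lit 2) (nat_lit 5) (nat_lit 2) (nat_lit 4) (nat_lit 275) (nat_lit 165) (nat_lit 160)))) (XT.nd (nat_lit 156) (nat_lit 0) (nat_lit 0) (XT.nd (nat_lit 78) (nat_lit 0) (nat_lit 0) (XT.lf (nat_lit 0) (nat_lit 18056109359678) (nat_lit 76) (nat_lit 23141359435273) (nat_lit 76) (nat_lit 23141317565379) (nat_lit 1) (nat_lit 4) (nat_lit 2) (nat_lit 5) (nat_lit 2) (nat_lit 4) (nat_lit 276) (nat_lit 165) (nat_lit 159)) (XT.lf (nat_lit 0) (nat_lit 20764624064539) (nat_lit 76) (nat_lit 26612508779864) (nat_lit 76) (nat_lit 26612462750763) (nat_lit 1) (nat_lit 4) (nat_lit 2) (nat_lit 5) (nat_lit 2) (nat_lit 4) (nat_lit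 277) (nat_lit 165) (nat_lit 158))) (XT.nd (nat_lit 78) (nat_lit 0) (nat_lit 0) (XT.lf (nat_lit 0) (nat_lit 23879410243969) (nat_lit 76) (nat_lit 30604333062705) (nat_lit 76) (nat_lit 30604283416903) (nat_lit 1) (nat_lit 4) (nat_lit 2) (nat_lit 5) (nat_lit 2) (nat_lit 4) (nat_lit 278) (nat_lit 165) (nat_lit 157)) (XT.lf (nat_lit 0) (nat_lit 27461409366696) (nat_lit 76) (nat_lit 35194933193677) (nat_lit 76) (nat_lit 35194880402919) (nat_lit 1) (nat_lit 4) (nat_lit 2) (nat_lit 5) (nat_lit 2) (nat_lit 4) (nat_lit 279) (nat_lit 165) (nat_lit 156))))) (XT.nd (nat_lit 30420) (nat_lit 0) (nat_lit 0) (XT.nd (nat_lit 156) (nat_lit 0) (nat_lit 0) (XT.nd (nat_lit 78) (nat_lit 0) (nat_lit 0) (XT.lf (nat_lit 0) (nat_lit 31580704024252) (nat_lit 76) (nat_lit 40474125262301) (nat_lit 76) (nat_lit 40474069736797) (nat_lit 1) (nat_lit 4) (nat_lit 2) (nat_lit 5) (nat_lit 2) (nat_lit 4) (nat_lit 280)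 (nat_lit 165) (nat_lit 155)) (XT.lf (nat_lit 0) (nat_lit 36317889112110) (nat_lit 76) (nat_lit 46545197809049) (nat_lit 76) (nat_lit 46545139905505) (nat_lit 1) (nat_lit 4) (nat_lit 2) (nat_lit 5) (nat_lit 2) (nat_lit 4) (nat_lit 281) (nat_lit 165) (nat_lit 154))) (XT.nd (nat_lit 30186) (nat_lit 0) (nat_lit 0) (XT.lf (nat_lit 0) (nat_lit 41765648686338) (nat_lit 76) (nat_lit 53526932688097) (nat_lit 76) (nat_lit 53526872716692) (nat_lit 1) (nat_lit 4) (nat_lit 2) (nat_lit 5) (nat_lit 2) (nat_lit 4) (nat_lit 282) (nat_lit 165) (nat_lit 153)) (XT.lf (nat_lit 0) (nat_lit 2950955160270) (nat_lit 76) (nat_lit 3782652987859) (nat_lit 76) (nat_lit 3782652987859) (nat_lit 1) (nat_lit 4) (nat_lit 2) (nat_lit 5) (nat_lit 2) (nat_lit 4) (nat_lit 268) (nat_lit 166) (nat_lit 166)))) (XT.nd (nat_lit 156) (nat_lit 0) (nat_lit 0) (XT.nd (nat_lit 78) (nat_lit 0) (nat_lit 0) (XT.lf (nat_lit 0) (nat_lit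 6787376263270) (nat_lit 76) (nat_lit 8700009750454) (nat_lit 76) (nat_lit 8699998686883) (nat_lit 1) (nat_lit 4) (nat_lit 2) (nat_lit 5) (nat_lit 2) (nat_lit 4) (nat_lit 269) (nat_lit 166) (nat_lit 165)) (XT.lf (nat_lit 0) (nat_lit 7805646852411) (nat_lit 76) (nat_lit 10004925838705) (nat_lit 76) (nat_lit 10004905154637) (nat_lit 1) (nat_lit 4) (nat_lit 2) (nat_lit 5) (nat_lit 2) (nat_lit 4) (nat_lit 270) (nat_lit 166) (nat_lit 164))) (XT.nd (nat_lit 78) (nat_lit 0) (nat_lit 0) (XT.lf (nat_lit 0) (nat_lit 8976644773401) (nat_lit 76) (nat_lit 11505585207416) (nat_lit 76) (nat_lit 11505556157698) (nat_lit 1) (nat_lit 4) (nat_lit 2) (nat_lit 5) (nat_lit 2) (nat_lit 4) (nat_lit 271) (nat_lit 166) (nat_lit 163)) (XT.lf (nat_lit 0) (nat_lit 10323280855129) (nat_lit 76) (nat_lit 13231348583364) (nat_lit 76) (nat_lit 13231312259169) (nat_lit 1) (nat_lit 4) (nat_lit 2) (nat_lit 5) (nat_lit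 2) (nat_lit 4) (nat_lit 272) (nat_lit 166) (nat_lit 162)))))) (XT.nd (nat_lit 624) (nat_lit 0) (nat_lit 0) (XT.nd (nat_lit 312) (nat_lit 0) (nat_lit 0) (XT.nd (nat_lit 156) (nat_lit 0) (nat_lit 0) (XT.nd (nat_lit 78) (nat_lit 0) (nat_lit 0) (XT.lf (nat_lit 0) (nat_lit 11871902325282) (nat_lit 76) (nat_lit 15215980902167) (nat_lit 76) (nat_lit 15215938252339) (nat_lit 1) (nat_lit 4) (nat_lit 2) (nat_lit 5) (nat_lit 2) (nat_lit 4) (nat_lit 273) (nat_lit 166) (nat_lit 161)) (XT.lf (nat_lit 0) (nat_lit 13652808299579) (nat_lit 76) (nat_lit 17498311926584) (nat_lit 76) (nat_lit 17498263776206) (nat_lit 1) (nat_lit 4) (nat_lit 2) (nat_lit 5) (nat_lit 2) (nat_lit 4) (nat_lit 274) (nat_lit 166) (nat_lit 160))) (XT.nd (nat_lit 78) (nat_lit 0) (nat_lit 0) (XT.lf (nat_lit 0) (nat_lit 15700842590562) (nat_lit 76) (nat_lit 20122995959266) (nat_lit 76) (nat_lit 20122943025801) (nat_lit 1) (nat_lit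 4) (nat_lit 2) (nat_lit 5) (nat_lit 2) (nat_lit 4) (nat_lit 275) (nat_lit 166) (nat_lit 159)) (XT.lf (nat_lit 0) (nat_lit 18056075434358) (nat_lit 76) (nat_lit 23141385513896) (nat_lit 76) (nat_lit 23141328421225) (nat_lit 1) (nat_lit 4) (nat_lit 2) (nat_lit 5) (nat_lit 2) (nat_lit 4) (nat_lit 276) (nat_lit 166) (nat_lit 158)))) (XT.nd (nat_lit 156) (nat_lit 0) (nat_lit 0) (XT.nd (nat_lit 78) (nat_lit 0) (nat_lit 0) (XT.lf (nat_lit 0) (nat_lit 20764587473563) (nat_lit 76) (nat_lit 26612536038283) (nat_lit 76) (nat_lit 26612475328911) (nat_lit 1) (nat_lit 4) (nat_lit 2) (nat_lit 5) (nat_lit 2) (nat_lit 4) (nat_lit 277) (nat_lit 166) (nat_lit 157)) (XT.lf (nat_lit 0) (nat_lit 23879371335031) (nat_lit 76) (nat_lit 30604361347034) (nat_lit 76) (nat_lit 30604297492704) (nat_lit 1) (nat_lit 4) (nat_lit 2) (nat_lit 5) (nat_lit 2) (nat_lit 4) (nat_lit 278) (nat_lit 166) (nat_lit 156))) (XT.nd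 (nat_lit 78) (nat_lit 0) (nat_lit 0) (XT.lf (nat_lit 0) (nat_lit 27461368442140) (nat_lit 76) (nat_lit 35194962370102) (nat_lit 76) (nat_lit 35194895781026) (nat_lit 1) (nat_lit 4) (nat_lit 2) (nat_lit 5) (nat_lit 2) (nat_lit 4) (nat_lit 279) (nat_lit 166) (nat_lit 155)) (XT.lf (nat_lit 0) (nat_lit 31580661346984) (nat_lit 76) (nat_lit 40474155214461) (nat_lit 76) (nat_lit 40474086247346) (nat_lit 1) (nat_lit 4) (nat_lit 2) (nat_lit 5) (nat_lit 2) (nat_lit 4) (nat_lit 280) (nat_lit 166) (nat_lit 154))))) (XT.nd (nat_lit 30264) (nat_lit 0) (nat_lit 0) (XT.nd (nat_lit 30108) (nat_lit 0) (nat_lit 0) (XT.nd (nat_lit 78) (nat_lit 0) (nat_lit 0) (XT.lf (nat_lit 0) (nat_lit 36317844910745) (nat_lit 76) (nat_lit 46545228435761) (nat_lit 76) (nat_lit 46545157400786) (nat_lit 1) (nat_lit 4) (nat_lit 2) (nat_lit 5) (nat_lit 2) (nat_lit 4) (nat_lit 281) (nat_lit 166) (nat_lit 153)) (XT.lf (nat_lit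 0) (nat_lit 41765603159670) (nat_lit 76) (nat_lit 53526963901376) (nat_lit 76) (nat_lit 53526891068261) (nat_lit 1) (nat_lit 4) (nat_lit 2) (nat_lit 5) (nat_lit 2) (nat_lit 4) (nat_lit 282) (nat_lit 166) (nat_lit 152))) (XT.nd (nat_lit 78) (nat_lit 0) (nat_lit 0) (XT.lf (nat_lit 0) (nat_lit 2231181907265) (nat_lit 76) (nat_lit 2860318457148) (nat_lit 76) (nat_lit 2860318457148) (nat_lit 1) (nat_lit 4) (nat_lit 2) (nat_lit 5) (nat_lit 2) (nat_lit 4) (nat_lit 266) (nat_lit 167) (nat_lit 167)) (XT.lf (nat_lit 0) (nat_lit 5131924690557) (nat_lit 76) (nat_lit 6578626511577) (nat_lit 76) (nat_lit 6578613788470) (nat_lit 1) (nat_lit 4) (nat_lit 2) (nat_lit 5) (nat_lit 2) (nat_lit 4) (nat_lit 267) (nat_lit 167) (nat_lit 166)))) (XT.nd (nat_lit 156) (nat_lit 0) (nat_lit 0) (XT.nd (nat_lit 78) (nat_lit 0) (nat_lit 0) (XT.lf (nat_lit 0) (nat_lit 5901902166237) (nat_lit 76) (nat_lit 7565322307848)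 (nat_lit 76) (nat_lit 7565298521170) (nat_lit 1) (nat_lit 4) (nat_lit 2) (nat_lit 5) (nat_lit 2) (nat_lit 4) (nat_lit 268) (nat_lit 167) (nat_lit 165)) (XT.lf (nat_lit 0) (nat_lit 6787361018271) (nat_lit 76) (nat_lit 8700029220866) (nat_lit 76) (nat_lit 8699995813691) (nat_lit 1) (nat_lit 4) (nat_lit 2) (nat_lit 5) (nat_lit 2) (nat_lit 4) (nat_lit 269) (nat_lit 167) (nat_lit 164))) (XT.nd (nat_lit 78) (nat_lit 0) (nat_lit 0) (XT.lf (nat_lit 0) (nat_lit 7805625441587) (nat_lit 76) (nat_lit 10004948038057) (nat_lit 76) (nat_lit 10004906265233) (nat_lit 1) (nat_lit 4) (nat_lit 2) (nat_lit 5) (nat_lit 2) (nat_lit 4) (nat_lit 270) (nat_lit 167) (nat_lit 163)) (XT.lf (nat_lit 0) (nat_lit 8976618000991) (nat_lit 76) (nat_lit 11505609779759) (nat_lit 76) (nat_lit 11505560732457) (nat_lit 1) (nat_lit 4) (nat_lit 2) (nat_lit 5) (nat_lit 2) (nat_lit 4) (nat_lit 271) (nat_lit 167) (nat_lit 162))))))))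
noncomputable def xc1 : XT := (XT.nd (nat_lit 61932) (nat_lit 0) (nat_lit 0) (XT.nd (nat_lit 31044) (nat_lit 0) (nat_lit 0) (XT.nd (nat_lit 624) (nat_lit 0) (nat_lit 0) (XT.nd (nat_lit 312) (nat_lit 0) (nat_lit 0) (XT.nd (nat_lit 156) (nat_lit 0) (nat_lit 0) (XT.nd (nat_lit 78) (nat_lit 0) (nat_lit 0) (XT.lf (nat_lit 0) (nat_lit 10323249420470) (nat_lit 76) (nat_lit 13231375219178) (nat_lit 76) (nat_lit 13231319846243) (nat_lit 1) (nat_lit 4) (nat_lit 2) (nat_lit 5) (nat_lit 2) (nat_lit 4) (nat_lit 272) (nat_lit 167) (nat_lit 161)) (XT.lf (nat_lit 0) (nat_lit 11871866836494) (nat_lit 76) (nat_lit 15216009332304) (nat_lit 76) (nat_lit 15215948458819) (nat_lit 1) (nat_lit 4) (nat_lit 2) (nat_lit 5) (nat_lit 2) (nat_lit 4) (nat_lit 273) (nat_lit 167) (nat_lit 160))) (XT.nd (nat_lit 78) (nat_lit 0) (nat_lit 0) (XT.lf (nat_lit 0) (nat_lit 13652769285461) (nat_lit 76) (nat_lit 17498341917001)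 (nat_lit 76) (nat_lit 17498276260429) (nat_lit 1) (nat_lit 4) (nat_lit 2) (nat_lit 5) (nat_lit 2) (nat_lit 4) (nat_lit 274) (nat_lit 167) (nat_lit 159)) (XT.lf (nat_lit 0) (nat_lit 15700800510940) (nat_lit 76) (nat_lit 20123027306449) (nat_lit 76) (nat_lit 20122957490670) (nat_lit 1) (nat_lit 4) (nat_lit 2) (nat_lit 5) (nat_lit 2) (nat_lit 4) (nat_lit 275) (nat_lit 167) (nat_lit 158)))) (XT.nd (nat_lit 156) (nat_lit 0) (nat_lit 0) (XT.nd (nat_lit 78) (nat_lit 0) (nat_lit 0) (XT.lf (nat_lit 0) (nat_lit 18056030689080) (nat_lit 76) (nat_lit 23141418040875) (nat_lit 76) (nat_lit 23141344608396) (nat_lit 1) (nat_lit 4) (nat_lit 2) (nat_lit 5) (nat_lit 2) (nat_lit 4) (nat_lit 276) (nat_lit 167) (nat_lit 157)) (XT.lf (nat_lit 0) (nat_lit 20764540410323) (nat_lit 76) (nat_lit 26612569591172) (nat_lit 76) (nat_lit 26612493013735) (nat_lit 1) (nat_lit 4) (nat_lit 2) (nat_lit 5) (nat_lit 2)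 (nat_lit 4) (nat_lit 277) (nat_lit 167) (nat_lit 156))) (XT.nd (nat_lit 78) (nat_lit 0) (nat_lit 0) (XT.lf (nat_lit 0) (nat_lit 23879322256173) (nat_lit 76) (nat_lit 30604395792018) (nat_lit 76) (nat_lit 30604316479835) (nat_lit 1) (nat_lit 4) (nat_lit 2) (nat_lit 5) (nat_lit 2) (nat_lit 4) (nat_lit 278) (nat_lit 167) (nat_lit 155)) (XT.lf (nat_lit 0) (nat_lit 27461317610569) (nat_lit 76) (nat_lit 35194997590821) (nat_lit 76) (nat_lit 35194915900599) (nat_lit 1) (nat_lit 4) (nat_lit 2) (nat_lit 5) (nat_lit 2) (nat_lit 4) (nat_lit 279) (nat_lit 167) (nat_lit 154))))) (XT.nd (nat_lit 30108) (nat_lit 0) (nat_lit 0) (XT.nd (nat_lit 156) (nat_lit 0) (nat_lit 0) (XT.nd (nat_lit 78) (nat_lit 0) (nat_lit 0) (XT.lf (nat_lit 0) (nat_lit 31580608991316) (nat_lit 76) (nat_lit 40474191109732) (nat_lit 76) (nat_lit 40474107351649) (nat_lit 1) (nat_lit 4) (nat_lit 2) (nat_lit 5) (nat_lit 2) (nat_lit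 4) (nat_lit 280) (nat_lit 167) (nat_lit 153)) (XT.lf (nat_lit 0) (nat_lit 36317791229775) (nat_lit 76) (nat_lit 46545264917600) (nat_lit 76) (nat_lit 46545179361377) (nat_lit 1) (nat_lit 4) (nat_lit 2) (nat_lit 5) (nat_lit 2) (nat_lit 4) (nat_lit 281) (nat_lit 167) (nat_lit 152))) (XT.nd (nat_lit 29874) (nat_lit 0) (nat_lit 0) (XT.lf (nat_lit 0) (nat_lit 41765548326264) (nat_lit 76) (nat_lit 53527000893273) (nat_lit 76) (nat_lit 53526913773451) (nat_lit 1) (nat_lit 4) (nat_lit 2) (nat_lit 5) (nat_lit 2) (nat_lit 4) (nat_lit 282) (nat_lit 167) (nat_lit 151)) (XT.lf (nat_lit 0) (nat_lit 1686905297668) (nat_lit 76) (nat_lit 2162914445842) (nat_lit 76) (nat_lit 2162914445842) (nat_lit 1) (nat_lit 4) (nat_lit 2) (nat_lit 5) (nat_lit 2) (nat_lit 4) (nat_lit 264) (nat_lit 168) (nat_lit 168)))) (XT.nd (nat_lit 156) (nat_lit 0) (nat_lit 0) (XT.nd (nat_lit 78) (nat_lit 0) (nat_lit 0) (XT.lf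 (nat_lit 0) (nat_lit 3880119434061) (nat_lit 76) (nat_lit 4974581394592) (nat_lit 76) (nat_lit 4974566763019) (nat_lit 1) (nat_lit 4) (nat_lit 2) (nat_lit 5) (nat_lit 2) (nat_lit 4) (nat_lit 265) (nat_lit 168) (nat_lit 167)) (XT.lf (nat_lit 0) (nat_lit 4462354437082) (nat_lit 76) (nat_lit 5720655696247) (nat_lit 76) (nat_lit 5720628341567) (nat_lit 1) (nat_lit 4) (nat_lit 2) (nat_lit 5) (nat_lit 2) (nat_lit 4) (nat_lit 266) (nat_lit 168) (nat_lit 166))) (XT.nd (nat_lit 78) (nat_lit 0) (nat_lit 0) (XT.lf (nat_lit 0) (nat_lit 5131907158807) (nat_lit 76) (nat_lit 6578648902550) (nat_lit 76) (nat_lit 6578610484299) (nat_lit 1) (nat_lit 4) (nat_lit 2) (nat_lit 5) (nat_lit 2) (nat_lit 4) (nat_lit 267) (nat_lit 168) (nat_lit 165)) (XT.lf (nat_lit 0) (nat_lit 5901877543790) (nat_lit 76) (nat_lit 7565347837103) (nat_lit 76) (nat_lit 7565299798355) (nat_lit 1) (nat_lit 4) (nat_lit 2) (nat_lit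 5) (nat_lit 2) (nat_lit 4) (nat_lit 268) (nat_lit 168) (nat_lit 164)))))) (XT.nd (nat_lit 624) (nat_lit 0) (nat_lit 0) (XT.nd (nat_lit 312) (nat_lit 0) (nat_lit 0) (XT.nd (nat_lit 156) (nat_lit 0) (nat_lit 0) (XT.nd (nat_lit 78) (nat_lit 0) (nat_lit 0) (XT.lf (nat_lit 0) (nat_lit 6787330229999) (nat_lit 76) (nat_lit 8700057479061) (nat_lit 76) (nat_lit 8700001074663) (nat_lit 1) (nat_lit 4) (nat_lit 2) (nat_lit 5) (nat_lit 2) (nat_lit 4) (nat_lit 269) (nat_lit 168) (nat_lit 163)) (XT.lf (nat_lit 0) (nat_lit 7805589291729) (nat_lit 76) (nat_lit 10004978669243) (nat_lit 76) (nat_lit 10004914990368) (nat_lit 1) (nat_lit 4) (nat_lit 2) (nat_lit 5) (nat_lit 2) (nat_lit 4) (nat_lit 270) (nat_lit 168) (nat_lit 162))) (XT.nd (nat_lit 78) (nat_lit 0) (nat_lit 0) (XT.lf (nat_lit 0) (nat_lit 8976577188884) (nat_lit 76) (nat_lit 11505642474416) (nat_lit 76) (nat_lit 11505572469908) (nat_lit 1)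 (nat_lit 4) (nat_lit 2) (nat_lit 5) (nat_lit 2) (nat_lit 4) (nat_lit 271) (nat_lit 168) (nat_lit 161)) (XT.lf (nat_lit 0) (nat_lit 10323204554235) (nat_lit 76) (nat_lit 13231409708158) (nat_lit 76) (nat_lit 13231334203100) (nat_lit 1) (nat_lit 4) (nat_lit 2) (nat_lit 5) (nat_lit 2) (nat_lit 4) (nat_lit 272) (nat_lit 168) (nat_lit 160)))) (XT.nd (nat_lit 156) (nat_lit 0) (nat_lit 0) (XT.nd (nat_lit 78) (nat_lit 0) (nat_lit 0) (XT.lf (nat_lit 0) (nat_lit 11871818444928) (nat_lit 76) (nat_lit 15216045381564) (nat_lit 76) (nat_lit 15215965093418) (nat_lit 1) (nat_lit 4) (nat_lit 2) (nat_lit 5) (nat_lit 2) (nat_lit 4) (nat_lit 273) (nat_lit 168) (nat_lit 159)) (XT.lf (nat_lit 0) (nat_lit 13652717828391) (nat_lit 76) (nat_lit 17498379323026) (nat_lit 76) (nat_lit 17498294875675) (nat_lit 1) (nat_lit 4) (nat_lit 2) (nat_lit 5) (nat_lit 2) (nat_lit 4) (nat_lit 274) (nat_lit 168) (nat_lit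 158))) (XT.nd (nat_lit 78) (nat_lit 0) (nat_lit 0) (XT.lf (nat_lit 0) (nat_lit 15700746388214) (nat_lit 76) (nat_lit 20123065892270) (nat_lit 76) (nat_lit 20122977828218) (nat_lit 1) (nat_lit 4) (nat_lit 2) (nat_lit 5) (nat_lit 2) (nat_lit 4) (nat_lit 275) (nat_lit 168) (nat_lit 157)) (XT.lf (nat_lit 0) (nat_lit 18055974248392) (nat_lit 76) (nat_lit 23141457652606) (nat_lit 76) (nat_lit 23141366443596) (nat_lit 1) (nat_lit 4) (nat_lit 2) (nat_lit 5) (nat_lit 2) (nat_lit 4) (nat_lit 276) (nat_lit 168) (nat_lit 156))))) (XT.nd (nat_lit 312) (nat_lit 0) (nat_lit 0) (XT.nd (nat_lit 156) (nat_lit 0) (nat_lit 0) (XT.nd (nat_lit 78) (nat_lit 0) (nat_lit 0) (XT.lf (nat_lit 0) (nat_lit 20764481954017) (nat_lit 76) (nat_lit 26612610094998) (nat_lit 76) (nat_lit 26612516151243) (nat_lit 1) (nat_lit 4) (nat_lit 2) (nat_lit 5) (nat_lit 2) (nat_lit 4) (nat_lit 277) (nat_lit 168) (nat_lit 155))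 (XT.lf (nat_lit 0) (nat_lit 23879262047155) (nat_lit 76) (nat_lit 30604437071579) (nat_lit 76) (nat_lit 30604340749784) (nat_lit 1) (nat_lit 4) (nat_lit 2) (nat_lit 5) (nat_lit 2) (nat_lit 4) (nat_lit 278) (nat_lit 168) (nat_lit 154))) (XT.nd (nat_lit 78) (nat_lit 0) (nat_lit 0) (XT.lf (nat_lit 0) (nat_lit 27461255877454) (nat_lit 76) (nat_lit 35195039544935) (nat_lit 76) (nat_lit 35194941155279) (nat_lit 1) (nat_lit 4) (nat_lit 2) (nat_lit 5) (nat_lit 2) (nat_lit 4) (nat_lit 279) (nat_lit 168) (nat_lit 153)) (XT.lf (nat_lit 0) (nat_lit 31580545932898) (nat_lit 76) (nat_lit 40474233650413) (nat_lit 76) (nat_lit 40474133462618) (nat_lit 1) (nat_lit 4) (nat_lit 2) (nat_lit 5) (nat_lit 2) (nat_lit 4) (nat_lit 280) (nat_lit 168) (nat_lit 152)))) (XT.nd (nat_lit 29796) (nat_lit 0) (nat_lit 0) (XT.nd (nat_lit 78) (nat_lit 0) (nat_lit 0) (XT.lf (nat_lit 0) (nat_lit 36317727018920) (nat_lit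 76) (nat_lit 46545307968339) (nat_lit 76) (nat_lit 46545206216944) (nat_lit 1) (nat_lit 4) (nat_lit 2) (nat_lit 5) (nat_lit 2) (nat_lit 4) (nat_lit 281) (nat_lit 168) (nat_lit 151)) (XT.lf (nat_lit 0) (nat_lit 41765483113291) (nat_lit 76) (nat_lit 53527044387542) (nat_lit 76) (nat_lit 53526941276495) (nat_lit 1) (nat_lit 4) (nat_lit 2) (nat_lit 5) (nat_lit 2) (nat_lit 4) (nat_lit 282) (nat_lit 168) (nat_lit 150))) (XT.nd (nat_lit 78) (nat_lit 0) (nat_lit 0) (XT.lf (nat_lit 0) (nat_lit 1275325670249) (nat_lit 76) (nat_lit 1635592232848) (nat_lit 76) (nat_lit 1635592232848) (nat_lit 1) (nat_lit 4) (nat_lit 2) (nat_lit 5) (nat_lit 2) (nat_lit 4) (nat_lit 262) (nat_lit 169) (nat_lit 169)) (XT.lf (nat_lit 0) (nat_lit 2933521878411) (nat_lit 76) (nat_lit 3761722030079) (nat_lit 76) (nat_lit 3761705203770) (nat_lit 1) (nat_lit 4) (nat_lit 2) (nat_lit 5) (nat_lit 2) (nat_lit 4) (nat_lit 263)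 (nat_lit 169) (nat_lit 168))))))) (XT.nd (nat_lit 1248) (nat_lit 0) (nat_lit 0) (XT.nd (nat_lit 624) (nat_lit 0) (nat_lit 0) (XT.nd (nat_lit 312) (nat_lit 0) (nat_lit 0) (XT.nd (nat_lit 156) (nat_lit 0) (nat_lit 0) (XT.nd (nat_lit 78) (nat_lit 0) (nat_lit 0) (XT.lf (nat_lit 0) (nat_lit 3373799811272) (nat_lit 76) (nat_lit 4325850490926) (nat_lit 76) (nat_lit 4325819033045) (nat_lit 1) (nat_lit 4) (nat_lit 2) (nat_lit 5) (nat_lit 2) (nat_lit 4) (nat_lit 264) (nat_lit 169) (nat_lit 167)) (XT.lf (nat_lit 0) (nat_lit 3880099272549) (nat_lit 76) (nat_lit 4974607144211) (nat_lit 76) (nat_lit 4974562963223) (nat_lit 1) (nat_lit 4) (nat_lit 2) (nat_lit 5) (nat_lit 2) (nat_lit 4) (nat_lit 265) (nat_lit 169) (nat_lit 166))) (XT.nd (nat_lit 78) (nat_lit 0) (nat_lit 0) (XT.lf (nat_lit 0) (nat_lit 4462326121268) (nat_lit 76) (nat_lit 5720685054889) (nat_lit 76) (nat_lit 5720629810329) (nat_lit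 1) (nat_lit 4) (nat_lit 2) (nat_lit 5) (nat_lit 2) (nat_lit 4) (nat_lit 266) (nat_lit 169) (nat_lit 165)) (XT.lf (nat_lit 0) (nat_lit 5131871752295) (nat_lit 76) (nat_lit 6578681399474) (nat_lit 76) (nat_lit 6578616534417) (nat_lit 1) (nat_lit 4) (nat_lit 2) (nat_lit 5) (nat_lit 2) (nat_lit 4) (nat_lit 267) (nat_lit 169) (nat_lit 164)))) (XT.nd (nat_lit 156) (nat_lit 0) (nat_lit 0) (XT.nd (nat_lit 78) (nat_lit 0) (nat_lit 0) (XT.lf (nat_lit 0) (nat_lit 5901835971454) (nat_lit 76) (nat_lit 7565383062967) (nat_lit 76) (nat_lit 7565309832261) (nat_lit 1) (nat_lit 4) (nat_lit 2) (nat_lit 5) (nat_lit 2) (nat_lit 4) (nat_lit 268) (nat_lit 169) (nat_lit 163)) (XT.lf (nat_lit 0) (nat_lit 6787283296077) (nat_lit 76) (nat_lit 8700095077916) (nat_lit 76) (nat_lit 8700014572732) (nat_lit 1) (nat_lit 4) (nat_lit 2) (nat_lit 5) (nat_lit 2) (nat_lit 4) (nat_lit 269) (nat_lit 169) (nat_lit 162)))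 (XT.nd (nat_lit 78) (nat_lit 0) (nat_lit 0) (XT.lf (nat_lit 0) (nat_lit 7805537695558) (nat_lit 76) (nat_lit 10005018331570) (nat_lit 76) (nat_lit 10004931500753) (nat_lit 1) (nat_lit 4) (nat_lit 2) (nat_lit 5) (nat_lit 2) (nat_lit 4) (nat_lit 270) (nat_lit 169) (nat_lit 161)) (XT.lf (nat_lit 0) (nat_lit 8976521538584) (nat_lit 76) (nat_lit 11505683931065) (nat_lit 76) (nat_lit 11505591599698) (nat_lit 1) (nat_lit 4) (nat_lit 2) (nat_lit 5) (nat_lit 2) (nat_lit 4) (nat_lit 271) (nat_lit 169) (nat_lit 160))))) (XT.nd (nat_lit 312) (nat_lit 0) (nat_lit 0) (XT.nd (nat_lit 156) (nat_lit 0) (nat_lit 0) (XT.nd (nat_lit 78) (nat_lit 0) (nat_lit 0) (XT.lf (nat_lit 0) (nat_lit 10323145378604) (nat_lit 76) (nat_lit 13231452725087) (nat_lit 76) (nat_lit 13231355610633) (nat_lit 1) (nat_lit 4) (nat_lit 2) (nat_lit 5) (nat_lit 2) (nat_lit 4) (nat_lit 272) (nat_lit 169) (nat_lit 159)) (XT.lf (nat_lit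 0) (nat_lit 11871756203793) (nat_lit 76) (nat_lit 15216089755258) (nat_lit 76) (nat_lit 15215988481598) (nat_lit 1) (nat_lit 4) (nat_lit 2) (nat_lit 5) (nat_lit 2) (nat_lit 4) (nat_lit 273) (nat_lit 169) (nat_lit 158))) (XT.nd (nat_lit 78) (nat_lit 0) (nat_lit 0) (XT.lf (nat_lit 0) (nat_lit 13652652921601) (nat_lit 76) (nat_lit 17498424876517) (nat_lit 76) (nat_lit 17498319986156) (nat_lit 1) (nat_lit 4) (nat_lit 2) (nat_lit 5) (nat_lit 2) (nat_lit 4) (nat_lit 274) (nat_lit 169) (nat_lit 157)) (XT.lf (nat_lit 0) (nat_lit 15700679163462) (nat_lit 76) (nat_lit 20123112471671) (nat_lit 76) (nat_lit 20123004436352) (nat_lit 1) (nat_lit 4) (nat_lit 2) (nat_lit 5) (nat_lit 2) (nat_lit 4) (nat_lit 275) (nat_lit 169) (nat_lit 156)))) (XT.nd (nat_lit 156) (nat_lit 0) (nat_lit 0) (XT.nd (nat_lit 78) (nat_lit 0) (nat_lit 0) (XT.lf (nat_lit 0) (nat_lit 18055905008021) (nat_lit 76) (nat_lit 23141505124103)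 (nat_lit 76) (nat_lit 23141394354038) (nat_lit 1) (nat_lit 4) (nat_lit 2) (nat_lit 5) (nat_lit 2) (nat_lit 4) (nat_lit 276) (nat_lit 169) (nat_lit 155)) (XT.lf (nat_lit 0) (nat_lit 20764410960934) (nat_lit 76) (nat_lit 26612658342230) (nat_lit 76) (nat_lit 26612545194125) (nat_lit 1) (nat_lit 4) (nat_lit 2) (nat_lit 5) (nat_lit 2) (nat_lit 4) (nat_lit 277) (nat_lit 169) (nat_lit 154))) (XT.nd (nat_lit 78) (nat_lit 0) (nat_lit 0) (XT.lf (nat_lit 0) (nat_lit 23879189529974) (nat_lit 76) (nat_lit 30604485993363) (nat_lit 76) (nat_lit 30604370777398) (nat_lit 1) (nat_lit 4) (nat_lit 2) (nat_lit 5) (nat_lit 2) (nat_lit 4) (nat_lit 278) (nat_lit 169) (nat_lit 153)) (XT.lf (nat_lit 0) (nat_lit 27461182034971) (nat_lit 76) (nat_lit 35195089053286) (nat_lit 76) (nat_lit 35194972039181) (nat_lit 1) (nat_lit 4) (nat_lit 2) (nat_lit 5) (nat_lit 2) (nat_lit 4) (nat_lit 279) (nat_lit 169) (nat_lit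 152)))))) (XT.nd (nat_lit 30186) (nat_lit 0) (nat_lit 0) (XT.nd (nat_lit 29874) (nat_lit 0) (nat_lit 0) (XT.nd (nat_lit 29718) (nat_lit 0) (nat_lit 0) (XT.nd (nat_lit 78) (nat_lit 0) (nat_lit 0) (XT.lf (nat_lit 0) (nat_lit 31580470937979) (nat_lit 76) (nat_lit 40474283668822) (nat_lit 76) (nat_lit 40474165091119) (nat_lit 1) (nat_lit 4) (nat_lit 2) (nat_lit 5) (nat_lit 2) (nat_lit 4) (nat_lit 280) (nat_lit 169) (nat_lit 151)) (XT.lf (nat_lit 0) (nat_lit 36317651021882) (nat_lit 76) (nat_lit 46545358430278) (nat_lit 76) (nat_lit 46545238492922) (nat_lit 1) (nat_lit 4) (nat_lit 2) (nat_lit 5) (nat_lit 2) (nat_lit 4) (nat_lit 281) (nat_lit 169) (nat_lit 150))) (XT.nd (nat_lit 78) (nat_lit 0) (nat_lit 0) (XT.lf (nat_lit 0) (nat_lit 964079778201) (nat_lit 76) (nat_lit 1236878606625) (nat_lit 76) (nat_lit 1236878606625) (nat_lit 1) (nat_lit 4) (nat_lit 2) (nat_lit 5) (nat_lit 2) (nat_lit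 4) (nat_lit 260) (nat_lit 170) (nat_lit 170)) (XT.lf (nat_lit 0) (nat_lit 2217697252227) (nat_lit 76) (nat_lit 2844659673947) (nat_lit 76) (nat_lit 2844640323691) (nat_lit 1) (nat_lit 4) (nat_lit 2) (nat_lit 5) (nat_lit 2) (nat_lit 4) (nat_lit 261) (nat_lit 170) (nat_lit 169)))) (XT.nd (nat_lit 156) (nat_lit 0) (nat_lit 0) (XT.nd (nat_lit 78) (nat_lit 0) (nat_lit 0) (XT.lf (nat_lit 0) (nat_lit 2550638938824) (nat_lit 76) (nat_lit 3271209304825) (nat_lit 76) (nat_lit 3271173128260) (nat_lit 1) (nat_lit 4) (nat_lit 2) (nat_lit 5) (nat_lit 2) (nat_lit 4) (nat_lit 262) (nat_lit 170) (nat_lit 168)) (XT.lf (nat_lit 0) (nat_lit 2933498692672) (nat_lit 76) (nat_lit 3761751642141) (nat_lit 76) (nat_lit 3761700834004) (nat_lit 1) (nat_lit 4) (nat_lit 2) (nat_lit 5) (nat_lit 2) (nat_lit 4) (nat_lit 263) (nat_lit 170) (nat_lit 167))) (XT.nd (nat_lit 78) (nat_lit 0) (nat_lit 0) (XT.lf (nat_lit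 0) (nat_lit 3373767248085) (nat_lit 76) (nat_lit 4325884253366) (nat_lit 76) (nat_lit 4325820722121) (nat_lit 1) (nat_lit 4) (nat_lit 2) (nat_lit 5) (nat_lit 2) (nat_lit 4) (nat_lit 264) (nat_lit 170) (nat_lit 166)) (XT.lf (nat_lit 0) (nat_lit 3880058555060) (nat_lit 76) (nat_lit 4974644515674) (nat_lit 76) (nat_lit 4974569920858) (nat_lit 1) (nat_lit 4) (nat_lit 2) (nat_lit 5) (nat_lit 2) (nat_lit 4) (nat_lit 265) (nat_lit 170) (nat_lit 165))))) (XT.nd (nat_lit 312) (nat_lit 0) (nat_lit 0) (XT.nd (nat_lit 156) (nat_lit 0) (nat_lit 0) (XT.nd (nat_lit 78) (nat_lit 0) (nat_lit 0) (XT.lf (nat_lit 0) (nat_lit 4462278313081) (nat_lit 76) (nat_lit 5720725564633) (nat_lit 76) (nat_lit 5720641349321) (nat_lit 1) (nat_lit 4) (nat_lit 2) (nat_lit 5) (nat_lit 2) (nat_lit 4) (nat_lit 266) (nat_lit 170) (nat_lit 164)) (XT.lf (nat_lit 0) (nat_lit 5131817778284) (nat_lit 76) (nat_lit 6578724638158)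 (nat_lit 76) (nat_lit 6578632057196) (nat_lit 1) (nat_lit 4) (nat_lit 2) (nat_lit 5) (nat_lit 2) (nat_lit 4) (nat_lit 267) (nat_lit 170) (nat_lit 163))) (XT.nd (nat_lit 78) (nat_lit 0) (nat_lit 0) (XT.lf (nat_lit 0) (nat_lit 5901776635857) (nat_lit 76) (nat_lit 7565428674642) (nat_lit 76) (nat_lit 7565328819203) (nat_lit 1) (nat_lit 4) (nat_lit 2) (nat_lit 5) (nat_lit 2) (nat_lit 4) (nat_lit 268) (nat_lit 170) (nat_lit 162)) (XT.lf (nat_lit 0) (nat_lit 6787219298231) (nat_lit 76) (nat_lit 8700142753062) (nat_lit 76) (nat_lit 8700036571990) (nat_lit 1) (nat_lit 4) (nat_lit 2) (nat_lit 5) (nat_lit 2) (nat_lit 4) (nat_lit 269) (nat_lit 170) (nat_lit 161)))) (XT.nd (nat_lit 156) (nat_lit 0) (nat_lit 0) (XT.nd (nat_lit 78) (nat_lit 0) (nat_lit 0) (XT.lf (nat_lit 0) (nat_lit 7805469643583) (nat_lit 76) (nat_lit 10005067801038) (nat_lit 76) (nat_lit 10004956119416) (nat_lit 1) (nat_lit 4)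 (nat_lit 2) (nat_lit 5) (nat_lit 2) (nat_lit 4) (nat_lit 270) (nat_lit 170) (nat_lit 160)) (XT.lf (nat_lit 0) (nat_lit 8976449961279) (nat_lit 76) (nat_lit 11505734960814) (nat_lit 76) (nat_lit 11505618496104) (nat_lit 1) (nat_lit 4) (nat_lit 2) (nat_lit 5) (nat_lit 2) (nat_lit 4) (nat_lit 271) (nat_lit 170) (nat_lit 159))) (XT.nd (nat_lit 78) (nat_lit 0) (nat_lit 0) (XT.lf (nat_lit 0) (nat_lit 10323070735795) (nat_lit 76) (nat_lit 13231505111602) (nat_lit 76) (nat_lit 13231384487686) (nat_lit 1) (nat_lit 4) (nat_lit 2) (nat_lit 5) (nat_lit 2) (nat_lit 4) (nat_lit 272) (nat_lit 170) (nat_lit 158)) (XT.lf (nat_lit 0) (nat_lit 11871678895328) (nat_lit 76) (nat_lit 15216143321569) (nat_lit 76) (nat_lit 15216019080952) (nat_lit 1) (nat_lit 4) (nat_lit 2) (nat_lit 5) (nat_lit 2) (nat_lit 4) (nat_lit 273) (nat_lit 170) (nat_lit 157))))))))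
noncomputable def xc2 : XT := (XT.nd (nat_lit 61152) (nat_lit 0) (nat_lit 0) (XT.nd (nat_lit 30732) (nat_lit 0) (nat_lit 0) (XT.nd (nat_lit 30108) (nat_lit 0) (nat_lit 0) (XT.nd (nat_lit 312) (nat_lit 0) (nat_lit 0) (XT.nd (nat_lit 156) (nat_lit 0) (nat_lit 0) (XT.nd (nat_lit 78) (nat_lit 0) (nat_lit 0) (XT.lf (nat_lit 0) (nat_lit 13652573295174) (nat_lit 76) (nat_lit 17498479468738) (nat_lit 76) (nat_lit 17498352083163) (nat_lit 1) (nat_lit 4) (nat_lit 2) (nat_lit 5) (nat_lit 2) (nat_lit 4) (nat_lit 274) (nat_lit 170) (nat_lit 156)) (XT.lf (nat_lit 0) (nat_lit 15700597521416) (nat_lit 76) (nat_lit 20123167955987) (nat_lit 76) (nat_lit 20123037835667) (nat_lit 1) (nat_lit 4) (nat_lit 2) (nat_lit 5) (nat_lit 2) (nat_lit 4) (nat_lit 275) (nat_lit 170) (nat_lit 155))) (XT.nd (nat_lit 78) (nat_lit 0) (nat_lit 0) (XT.lf (nat_lit 0) (nat_lit 18055821613264) (nat_lit 76) (nat_lit 23141561384154)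 (nat_lit 76) (nat_lit 23141428885794) (nat_lit 1) (nat_lit 4) (nat_lit 2) (nat_lit 5) (nat_lit 2) (nat_lit 4) (nat_lit 276) (nat_lit 170) (nat_lit 154)) (XT.lf (nat_lit 0) (nat_lit 20764326042079) (nat_lit 76) (nat_lit 26612715276833) (nat_lit 76) (nat_lit 26612580710613) (nat_lit 1) (nat_lit 4) (nat_lit 2) (nat_lit 5) (nat_lit 2) (nat_lit 4) (nat_lit 277) (nat_lit 170) (nat_lit 153)))) (XT.nd (nat_lit 156) (nat_lit 0) (nat_lit 0) (XT.nd (nat_lit 78) (nat_lit 0) (nat_lit 0) (XT.lf (nat_lit 0) (nat_lit 23879103285818) (nat_lit 76) (nat_lit 30604543514533) (nat_lit 76) (nat_lit 30604407150174) (nat_lit 1) (nat_lit 4) (nat_lit 2) (nat_lit 5) (nat_lit 2) (nat_lit 4) (nat_lit 278) (nat_lit 170) (nat_lit 152)) (XT.lf (nat_lit 0) (nat_lit 27461094638378) (nat_lit 76) (nat_lit 35195147084515) (nat_lit 76) (nat_lit 35195009156555) (nat_lit 1) (nat_lit 4) (nat_lit 2) (nat_lit 5) (nat_lit 2)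 (nat_lit 4) (nat_lit 279) (nat_lit 170) (nat_lit 151))) (XT.nd (nat_lit 29562) (nat_lit 0) (nat_lit 0) (XT.lf (nat_lit 0) (nat_lit 31580382539267) (nat_lit 76) (nat_lit 40474342143581) (nat_lit 76) (nat_lit 40474202855969) (nat_lit 1) (nat_lit 4) (nat_lit 2) (nat_lit 5) (nat_lit 2) (nat_lit 4) (nat_lit 280) (nat_lit 170) (nat_lit 150)) (XT.lf (nat_lit 0) (nat_lit 728695720292) (nat_lit 76) (nat_lit 935414207714) (nat_lit 76) (nat_lit 935414207714) (nat_lit 1) (nat_lit 4) (nat_lit 2) (nat_lit 5) (nat_lit 2) (nat_lit 4) (nat_lit 258) (nat_lit 171) (nat_lit 171))))) (XT.nd (nat_lit 312) (nat_lit 0) (nat_lit 0) (XT.nd (nat_lit 156) (nat_lit 0) (nat_lit 0) (XT.nd (nat_lit 78) (nat_lit 0) (nat_lit 0) (XT.lf (nat_lit 0) (nat_lit 1676360983390) (nat_lit 76) (nat_lit 2151267388257) (nat_lit 76) (nat_lit 2151245135463) (nat_lit 1) (nat_lit 4) (nat_lit 2) (nat_lit 5) (nat_lit 2) (nat_lit 4)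 (nat_lit 259) (nat_lit 171) (nat_lit 170)) (XT.lf (nat_lit 0) (nat_lit 1928145294477) (nat_lit 76) (nat_lit 2473785778249) (nat_lit 76) (nat_lit 2473744175200) (nat_lit 1) (nat_lit 4) (nat_lit 2) (nat_lit 5) (nat_lit 2) (nat_lit 4) (nat_lit 260) (nat_lit 171) (nat_lit 169))) (XT.nd (nat_lit 78) (nat_lit 0) (nat_lit 0) (XT.lf (nat_lit 0) (nat_lit 2217670588627) (nat_lit 76) (nat_lit 2844693727818) (nat_lit 76) (nat_lit 2844635298460) (nat_lit 1) (nat_lit 4) (nat_lit 2) (nat_lit 5) (nat_lit 2) (nat_lit 4) (nat_lit 261) (nat_lit 171) (nat_lit 168)) (XT.lf (nat_lit 0) (nat_lit 2550601491159) (nat_lit 76) (nat_lit 3271248131630) (nat_lit 76) (nat_lit 3271175070699) (nat_lit 1) (nat_lit 4) (nat_lit 2) (nat_lit 5) (nat_lit 2) (nat_lit 4) (nat_lit 262) (nat_lit 171) (nat_lit 167)))) (XT.nd (nat_lit 156) (nat_lit 0) (nat_lit 0) (XT.nd (nat_lit 78) (nat_lit 0) (nat_lit 0) (XT.lf (nat_lit 0)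 (nat_lit 2933451867560) (nat_lit 76) (nat_lit 3761794619323) (nat_lit 76) (nat_lit 3761708835285) (nat_lit 1) (nat_lit 4) (nat_lit 2) (nat_lit 5) (nat_lit 2) (nat_lit 4) (nat_lit 263) (nat_lit 171) (nat_lit 166)) (XT.lf (nat_lit 0) (nat_lit 3373712268670) (nat_lit 76) (nat_lit 4325930839571) (nat_lit 76) (nat_lit 4325833991962) (nat_lit 1) (nat_lit 4) (nat_lit 2) (nat_lit 5) (nat_lit 2) (nat_lit 4) (nat_lit 264) (nat_lit 171) (nat_lit 165))) (XT.nd (nat_lit 78) (nat_lit 0) (nat_lit 0) (XT.lf (nat_lit 0) (nat_lit 3879996484948) (nat_lit 76) (nat_lit 4974694240160) (nat_lit 76) (nat_lit 4974587772055) (nat_lit 1) (nat_lit 4) (nat_lit 2) (nat_lit 5) (nat_lit 2) (nat_lit 4) (nat_lit 265) (nat_lit 171) (nat_lit 164)) (XT.lf (nat_lit 0) (nat_lit 4462210077145) (nat_lit 76) (nat_lit 5720778018060) (nat_lit 76) (nat_lit 5720663184305) (nat_lit 1) (nat_lit 4) (nat_lit 2) (nat_lit 5) (nat_lit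 2) (nat_lit 4) (nat_lit 266) (nat_lit 171) (nat_lit 163)))))) (XT.nd (nat_lit 624) (nat_lit 0) (nat_lit 0) (XT.nd (nat_lit 312) (nat_lit 0) (nat_lit 0) (XT.nd (nat_lit 156) (nat_lit 0) (nat_lit 0) (XT.nd (nat_lit 78) (nat_lit 0) (nat_lit 0) (XT.lf (nat_lit 0) (nat_lit 5131744180762) (nat_lit 76) (nat_lit 6578779464576) (nat_lit 76) (nat_lit 6578657356343) (nat_lit 1) (nat_lit 4) (nat_lit 2) (nat_lit 5) (nat_lit 2) (nat_lit 4) (nat_lit 267) (nat_lit 171) (nat_lit 162)) (XT.lf (nat_lit 0) (nat_lit 5901698376086) (nat_lit 76) (nat_lit 7565485564531) (nat_lit 76) (nat_lit 7565357130666) (nat_lit 1) (nat_lit 4) (nat_lit 2) (nat_lit 5) (nat_lit 2) (nat_lit 4) (nat_lit 268) (nat_lit 171) (nat_lit 161))) (XT.nd (nat_lit 78) (nat_lit 0) (nat_lit 0) (XT.lf (nat_lit 0) (nat_lit 6787136984331) (nat_lit 76) (nat_lit 8700201437274) (nat_lit 76) (nat_lit 8700067502858) (nat_lit 1) (nat_lit 4) (nat_lit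 2) (nat_lit 5) (nat_lit 2) (nat_lit 4) (nat_lit 269) (nat_lit 171) (nat_lit 160)) (XT.lf (nat_lit 0) (nat_lit 7805383804353) (nat_lit 76) (nat_lit 10005128045530) (nat_lit 76) (nat_lit 10004989328027) (nat_lit 1) (nat_lit 4) (nat_lit 2) (nat_lit 5) (nat_lit 2) (nat_lit 4) (nat_lit 270) (nat_lit 171) (nat_lit 159)))) (XT.nd (nat_lit 156) (nat_lit 0) (nat_lit 0) (XT.nd (nat_lit 78) (nat_lit 0) (nat_lit 0) (XT.lf (nat_lit 0) (nat_lit 8976361056544) (nat_lit 76) (nat_lit 11505796562071) (nat_lit 76) (nat_lit 11505653685362) (nat_lit 1) (nat_lit 4) (nat_lit 2) (nat_lit 5) (nat_lit 2) (nat_lit 4) (nat_lit 271) (nat_lit 171) (nat_lit 158)) (XT.lf (nat_lit 0) (nat_lit 10322979165405) (nat_lit 76) (nat_lit 13231567892655) (nat_lit 76) (nat_lit 13231421399245) (nat_lit 1) (nat_lit 4) (nat_lit 2) (nat_lit 5) (nat_lit 2) (nat_lit 4) (nat_lit 272) (nat_lit 171) (nat_lit 157))) (XT.nd (nat_lit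 78) (nat_lit 0) (nat_lit 0) (XT.lf (nat_lit 0) (nat_lit 11871585006976) (nat_lit 76) (nat_lit 15216207128532) (nat_lit 76) (nat_lit 15216057490165) (nat_lit 1) (nat_lit 4) (nat_lit 2) (nat_lit 5) (nat_lit 2) (nat_lit 4) (nat_lit 273) (nat_lit 171) (nat_lit 156)) (XT.lf (nat_lit 0) (nat_lit 13652477391203) (nat_lit 76) (nat_lit 17498544167796) (nat_lit 76) (nat_lit 17498391794683) (nat_lit 1) (nat_lit 4) (nat_lit 2) (nat_lit 5) (nat_lit 2) (nat_lit 4) (nat_lit 274) (nat_lit 171) (nat_lit 155))))) (XT.nd (nat_lit 312) (nat_lit 0) (nat_lit 0) (XT.nd (nat_lit 156) (nat_lit 0) (nat_lit 0) (XT.nd (nat_lit 78) (nat_lit 0) (nat_lit 0) (XT.lf (nat_lit 0) (nat_lit 15700499864733) (nat_lit 76) (nat_lit 20123233430780) (nat_lit 76) (nat_lit 20123078679627) (nat_lit 1) (nat_lit 4) (nat_lit 2) (nat_lit 5) (nat_lit 2) (nat_lit 4) (nat_lit 275) (nat_lit 171) (nat_lit 154)) (XT.lf (nat_lit 0) (nat_lit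 18055722432483) (nat_lit 76) (nat_lit 23141627533500) (nat_lit 76) (nat_lit 23141470714486) (nat_lit 1) (nat_lit 4) (nat_lit 2) (nat_lit 5) (nat_lit 2) (nat_lit 4) (nat_lit 276) (nat_lit 171) (nat_lit 153))) (XT.nd (nat_lit 78) (nat_lit 0) (nat_lit 0) (XT.lf (nat_lit 0) (nat_lit 20764225535997) (nat_lit 76) (nat_lit 26612782012746) (nat_lit 76) (nat_lit 26612623395593) (nat_lit 1) (nat_lit 4) (nat_lit 2) (nat_lit 5) (nat_lit 2) (nat_lit 4) (nat_lit 277) (nat_lit 171) (nat_lit 152)) (XT.lf (nat_lit 0) (nat_lit 23879001627298) (nat_lit 76) (nat_lit 30604610760505) (nat_lit 76) (nat_lit 30604450579752) (nat_lit 1) (nat_lit 4) (nat_lit 2) (nat_lit 5) (nat_lit 2) (nat_lit 4) (nat_lit 278) (nat_lit 171) (nat_lit 151)))) (XT.nd (nat_lit 390) (nat_lit 0) (nat_lit 0) (XT.nd (nat_lit 312) (nat_lit 0) (nat_lit 0) (XT.lf (nat_lit 0) (nat_lit 27460991977740) (nat_lit 76) (nat_lit 35195214774015)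 (nat_lit 76) (nat_lit 35195053233610) (nat_lit 1) (nat_lit 4) (nat_lit 2) (nat_lit 5) (nat_lit 2) (nat_lit 4) (nat_lit 279) (nat_lit 171) (nat_lit 150)) (XT.lf (nat_lit 0) (nat_lit 48030126913658) (nat_lit 76) (nat_lit 61556221725020) (nat_lit 76) (nat_lit 61556056302838) (nat_lit 1) (nat_lit 4) (nat_lit 2) (nat_lit 5) (nat_lit 2) (nat_lit 4) (nat_lit 283) (nat_lit 171) (nat_lit 146))) (XT.nd (nat_lit 78) (nat_lit 0) (nat_lit 0) (XT.lf (nat_lit 0) (nat_lit 55234778834650) (nat_lit 76) (nat_lit 70789570579780) (nat_lit 76) (nat_lit 70789404481611) (nat_lit 1) (nat_lit 4) (nat_lit 2) (nat_lit 5) (nat_lit 2) (nat_lit 4) (nat_lit 284) (nat_lit 171) (nat_lit 145)) (XT.lf (nat_lit 0) (nat_lit 63520127612317) (nat_lit 76) (nat_lit 81407922175017) (nat_lit 76) (nat_lit 81407755489033) (nat_lit 1) (nat_lit 4) (nat_lit 2) (nat_lit 5) (nat_lit 2) (nat_lit 4) (nat_lit 285) (nat_lit 171) (nat_lit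 144))))))) (XT.nd (nat_lit 1248) (nat_lit 0) (nat_lit 0) (XT.nd (nat_lit 624) (nat_lit 0) (nat_lit 0) (XT.nd (nat_lit 312) (nat_lit 0) (nat_lit 0) (XT.nd (nat_lit 156) (nat_lit 0) (nat_lit 0) (XT.nd (nat_lit 78) (nat_lit 0) (nat_lit 0) (XT.lf (nat_lit 0) (nat_lit 550668490707) (nat_lit 76) (nat_lit 707487253876) (nat_lit 76) (nat_lit 707487253876) (nat_lit 1) (nat_lit 4) (nat_lit 2) (nat_lit 5) (nat_lit 2) (nat_lit 4) (nat_lit 256) (nat_lit 172) (nat_lit 172)) (XT.lf (nat_lit 0) (nat_lit 1266952479352) (nat_lit 76) (nat_lit 1627007601008) (nat_lit 76) (nat_lit 1626982010295) (nat_lit 1) (nat_lit 4) (nat_lit 2) (nat_lit 5) (nat_lit 2) (nat_lit 4) (nat_lit 257) (nat_lit 172) (nat_lit 171))) (XT.nd (nat_lit 78) (nat_lit 0) (nat_lit 0) (XT.lf (nat_lit 0) (nat_lit 1457375039370) (nat_lit 76) (nat_lit 1870861265176) (nat_lit 76) (nat_lit 1870813421670) (nat_lit 1) (nat_lit 4) (nat_lit 2)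 (nat_lit 5) (nat_lit 2) (nat_lit 4) (nat_lit 258) (nat_lit 172) (nat_lit 170)) (XT.lf (nat_lit 0) (nat_lit 1676330320250) (nat_lit 76) (nat_lit 2151306550209) (nat_lit 76) (nat_lit 2151239356447) (nat_lit 1) (nat_lit 4) (nat_lit 2) (nat_lit 5) (nat_lit 2) (nat_lit 4) (nat_lit 259) (nat_lit 172) (nat_lit 169)))) (XT.nd (nat_lit 156) (nat_lit 0) (nat_lit 0) (XT.nd (nat_lit 78) (nat_lit 0) (nat_lit 0) (XT.lf (nat_lit 0) (nat_lit 1928102229662) (nat_lit 76) (nat_lit 2473830429075) (nat_lit 76) (nat_lit 2473746409004) (nat_lit 1) (nat_lit 4) (nat_lit 2) (nat_lit 5) (nat_lit 2) (nat_lit 4) (nat_lit 260) (nat_lit 172) (nat_lit 168)) (XT.lf (nat_lit 0) (nat_lit 2217616739747) (nat_lit 76) (nat_lit 2844743151577) (nat_lit 76) (nat_lit 2844644499934) (nat_lit 1) (nat_lit 4) (nat_lit 2) (nat_lit 5) (nat_lit 2) (nat_lit 4) (nat_lit 261) (nat_lit 172) (nat_lit 167))) (XT.nd (nat_lit 78) (nat_lit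 0) (nat_lit 0) (XT.lf (nat_lit 0) (nat_lit 2550538264832) (nat_lit 76) (nat_lit 3271301705766) (nat_lit 76) (nat_lit 3271190331015) (nat_lit 1) (nat_lit 4) (nat_lit 2) (nat_lit 5) (nat_lit 2) (nat_lit 4) (nat_lit 262) (nat_lit 172) (nat_lit 166)) (XT.lf (nat_lit 0) (nat_lit 2933380486931) (nat_lit 76) (nat_lit 3761851802482) (nat_lit 76) (nat_lit 3761729364161) (nat_lit 1) (nat_lit 4) (nat_lit 2) (nat_lit 5) (nat_lit 2) (nat_lit 4) (nat_lit 263) (nat_lit 172) (nat_lit 165))))) (XT.nd (nat_lit 312) (nat_lit 0) (nat_lit 0) (XT.nd (nat_lit 156) (nat_lit 0) (nat_lit 0) (XT.nd (nat_lit 78) (nat_lit 0) (nat_lit 0) (XT.lf (nat_lit 0) (nat_lit 3373633797344) (nat_lit 76) (nat_lit 4325991161012) (nat_lit 76) (nat_lit 4325859102193) (nat_lit 1) (nat_lit 4) (nat_lit 2) (nat_lit 5) (nat_lit 2) (nat_lit 4) (nat_lit 264) (nat_lit 172) (nat_lit 164)) (XT.lf (nat_lit 0) (nat_lit 3879911847797) (nat_lit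 76) (nat_lit 4974757290541) (nat_lit 76) (nat_lit 4974616866073) (nat_lit 1) (nat_lit 4) (nat_lit 2) (nat_lit 5) (nat_lit 2) (nat_lit 4) (nat_lit 265) (nat_lit 172) (nat_lit 163))) (XT.nd (nat_lit 78) (nat_lit 0) (nat_lit 0) (XT.lf (nat_lit 0) (nat_lit 4462120078408) (nat_lit 76) (nat_lit 5720843441432) (nat_lit 76) (nat_lit 5720695742487) (nat_lit 1) (nat_lit 4) (nat_lit 2) (nat_lit 5) (nat_lit 2) (nat_lit 4) (nat_lit 266) (nat_lit 172) (nat_lit 162)) (XT.lf (nat_lit 0) (nat_lit 5131649519776) (nat_lit 76) (nat_lit 6578846951419) (nat_lit 76) (nat_lit 6578692926841) (nat_lit 1) (nat_lit 4) (nat_lit 2) (nat_lit 5) (nat_lit 2) (nat_lit 4) (nat_lit 267) (nat_lit 172) (nat_lit 161)))) (XT.nd (nat_lit 156) (nat_lit 0) (nat_lit 0) (XT.nd (nat_lit 78) (nat_lit 0) (nat_lit 0) (XT.lf (nat_lit 0) (nat_lit 5901599660971) (nat_lit 76) (nat_lit 7565554845697) (nat_lit 76) (nat_lit 7565395320568)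 (nat_lit 1) (nat_lit 4) (nat_lit 2) (nat_lit 5) (nat_lit 2) (nat_lit 4) (nat_lit 268) (nat_lit 172) (nat_lit 160)) (XT.lf (nat_lit 0) (nat_lit 6787034743886) (nat_lit 76) (nat_lit 8700272278720) (nat_lit 76) (nat_lit 8700107970504) (nat_lit 1) (nat_lit 4) (nat_lit 2) (nat_lit 5) (nat_lit 2) (nat_lit 4) (nat_lit 269) (nat_lit 172) (nat_lit 159))) (XT.nd (nat_lit 78) (nat_lit 0) (nat_lit 0) (XT.lf (nat_lit 0) (nat_lit 7805278498404) (nat_lit 76) (nat_lit 10005200243742) (nat_lit 76) (nat_lit 10005031776320) (nat_lit 1) (nat_lit 4) (nat_lit 2) (nat_lit 5) (nat_lit 2) (nat_lit 4) (nat_lit 270) (nat_lit 172) (nat_lit 158)) (XT.lf (nat_lit 0) (nat_lit 8976253084939) (nat_lit 76) (nat_lit 11505869940079) (nat_lit 76) (nat_lit 11505697855956) (nat_lit 1) (nat_lit 4) (nat_lit 2) (nat_lit 5) (nat_lit 2) (nat_lit 4) (nat_lit 271) (nat_lit 172) (nat_lit 157)))))) (XT.nd (nat_lit 858) (nat_lit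 0) (nat_lit 0) (XT.nd (nat_lit 312) (nat_lit 0) (nat_lit 0) (XT.nd (nat_lit 156) (nat_lit 0) (nat_lit 0) (XT.nd (nat_lit 78) (nat_lit 0) (nat_lit 0) (XT.lf (nat_lit 0) (nat_lit 10322868875838) (nat_lit 76) (nat_lit 13231642296573) (nat_lit 76) (nat_lit 13231467067492) (nat_lit 1) (nat_lit 4) (nat_lit 2) (nat_lit 5) (nat_lit 2) (nat_lit 4) (nat_lit 272) (nat_lit 172) (nat_lit 156)) (XT.lf (nat_lit 0) (nat_lit 11871472701791) (nat_lit 76) (nat_lit 15216282424545) (nat_lit 76) (nat_lit 15216104460719) (nat_lit 1) (nat_lit 4) (nat_lit 2) (nat_lit 5) (nat_lit 2) (nat_lit 4) (nat_lit 273) (nat_lit 172) (nat_lit 155))) (XT.nd (nat_lit 78) (nat_lit 0) (nat_lit 0) (XT.lf (nat_lit 0) (nat_lit 13652363333306) (nat_lit 76) (nat_lit 17498620239544) (nat_lit 76) (nat_lit 17498439897679) (nat_lit 1) (nat_lit 4) (nat_lit 2) (nat_lit 5) (nat_lit 2) (nat_lit 4) (nat_lit 274) (nat_lit 172) (nat_lit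 154)) (XT.lf (nat_lit 0) (nat_lit 15700384282738) (nat_lit 76) (nat_lit 20123310177081) (nat_lit 76) (nat_lit 20123127767354) (nat_lit 1) (nat_lit 4) (nat_lit 2) (nat_lit 5) (nat_lit 2) (nat_lit 4) (nat_lit 275) (nat_lit 172) (nat_lit 153)))) (XT.nd (nat_lit 156) (nat_lit 0) (nat_lit 0) (XT.nd (nat_lit 78) (nat_lit 0) (nat_lit 0) (XT.lf (nat_lit 0) (nat_lit 18055605525187) (nat_lit 76) (nat_lit 23141704866367) (nat_lit 76) (nat_lit 23141520658501) (nat_lit 1) (nat_lit 4) (nat_lit 2) (nat_lit 5) (nat_lit 2) (nat_lit 4) (nat_lit 276) (nat_lit 172) (nat_lit 152)) (XT.lf (nat_lit 0) (nat_lit 20764107476263) (nat_lit 76) (nat_lit 26612859855672) (nat_lit 76) (nat_lit 26612674084206) (nat_lit 1) (nat_lit 4) (nat_lit 2) (nat_lit 5) (nat_lit 2) (nat_lit 4) (nat_lit 277) (nat_lit 172) (nat_lit 151))) (XT.nd (nat_lit 312) (nat_lit 0) (nat_lit 0) (XT.lf (nat_lit 0) (nat_lit 23878882565446) (nat_lit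 76) (nat_lit 30604689046960) (nat_lit 76) (nat_lit 30604501915842) (nat_lit 1) (nat_lit 4) (nat_lit 2) (nat_lit 5) (nat_lit 2) (nat_lit 4) (nat_lit 278) (nat_lit 172) (nat_lit 150)) (XT.lf (nat_lit 0) (nat_lit 41765089345399) (nat_lit 76) (nat_lit 53527302685863) (nat_lit 76) (nat_lit 53527111672969) (nat_lit 1) (nat_lit 4) (nat_lit 2) (nat_lit 5) (nat_lit 2) (nat_lit 4) (nat_lit 282) (nat_lit 172) (nat_lit 146))))) (XT.nd (nat_lit 29094) (nat_lit 0) (nat_lit 0) (XT.nd (nat_lit 156) (nat_lit 0) (nat_lit 0) (XT.nd (nat_lit 78) (nat_lit 0) (nat_lit 0) (XT.lf (nat_lit 0) (nat_lit 48030004492548) (nat_lit 76) (nat_lit 61556301498253) (nat_lit 76) (nat_lit 61556109809371) (nat_lit 1) (nat_lit 4) (nat_lit 2) (nat_lit 5) (nat_lit 2) (nat_lit 4) (nat_lit 283) (nat_lit 172) (nat_lit 145)) (XT.lf (nat_lit 0) (nat_lit 55234655980297) (nat_lit 76) (nat_lit 70789650544764) (nat_lit 76) (nat_lit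 70789458268067) (nat_lit 1) (nat_lit 4) (nat_lit 2) (nat_lit 5) (nat_lit 2) (nat_lit 4) (nat_lit 284) (nat_lit 172) (nat_lit 144))) (XT.nd (nat_lit 28860) (nat_lit 0) (nat_lit 0) (XT.lf (nat_lit 0) (nat_lit 63520004381230) (nat_lit 76) (nat_lit 81408002306739) (nat_lit 76) (nat_lit 81407809518899) (nat_lit 1) (nat_lit 4) (nat_lit 2) (nat_lit 5) (nat_lit 2) (nat_lit 4) (nat_lit 285) (nat_lit 172) (nat_lit 143)) (XT.lf (nat_lit 0) (nat_lit 416004803913) (nat_lit 76) (nat_lit 535168689788) (nat_lit 76) (nat_lit 535168689788) (nat_lit 1) (nat_lit 4) (nat_lit 2) (nat_lit 5) (nat_lit 2) (nat_lit 4) (nat_lit 254) (nat_lit 173) (nat_lit 173)))) (XT.nd (nat_lit 156) (nat_lit 0) (nat_lit 0) (XT.nd (nat_lit 78) (nat_lit 0) (nat_lit 0) (XT.lf (nat_lit 0) (nat_lit 957288242336) (nat_lit 76) (nat_lit 1230642941169) (nat_lit 76) (nat_lit 1230613511849) (nat_lit 1) (nat_lit 4) (nat_lit 2) (nat_lit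 5) (nat_lit 2) (nat_lit 4) (nat_lit 255) (nat_lit 173) (nat_lit 172)) (XT.lf (nat_lit 0) (nat_lit 1101318120018) (nat_lit 76) (nat_lit 1415012284963) (nat_lit 76) (nat_lit 1414957264931) (nat_lit 1) (nat_lit 4) (nat_lit 2) (nat_lit 5) (nat_lit 2) (nat_lit 4) (nat_lit 256) (nat_lit 173) (nat_lit 171))) (XT.nd (nat_lit 78) (nat_lit 0) (nat_lit 0) (XT.lf (nat_lit 0) (nat_lit 1266917216741) (nat_lit 76) (nat_lit 1627052637253) (nat_lit 76) (nat_lit 1626975364427) (nat_lit 1) (nat_lit 4) (nat_lit 2) (nat_lit 5) (nat_lit 2) (nat_lit 4) (nat_lit 257) (nat_lit 173) (nat_lit 170)) (XT.lf (nat_lit 0) (nat_lit 1457325514833) (nat_lit 76) (nat_lit 1870912613626) (nat_lit 76) (nat_lit 1870815990544) (nat_lit 1) (nat_lit 4) (nat_lit 2) (nat_lit 5) (nat_lit 2) (nat_lit 4) (nat_lit 258) (nat_lit 173) (nat_lit 169))))))))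
noncomputable def xc3 : XT := (XT.nd (nat_lit 31356) (nat_lit 0) (nat_lit 0) (XT.nd (nat_lit 1248) (nat_lit 0) (nat_lit 0) (XT.nd (nat_lit 624) (nat_lit 0) (nat_lit 0) (XT.nd (nat_lit 312) (nat_lit 0) (nat_lit 0) (XT.nd (nat_lit 156) (nat_lit 0) (nat_lit 0) (XT.nd (nat_lit 78) (nat_lit 0) (nat_lit 0) (XT.lf (nat_lit 0) (nat_lit 1676268394039) (nat_lit 76) (nat_lit 2151363387532) (nat_lit 76) (nat_lit 2151249938142) (nat_lit 1) (nat_lit 4) (nat_lit 2) (nat_lit 5) (nat_lit 2) (nat_lit 4) (nat_lit 259) (nat_lit 173) (nat_lit 168)) (XT.lf (nat_lit 0) (nat_lit 1928029519387) (nat_lit 76) (nat_lit 2473892039331) (nat_lit 76) (nat_lit 2473763958368) (nat_lit 1) (nat_lit 4) (nat_lit 2) (nat_lit 5) (nat_lit 2) (nat_lit 4) (nat_lit 260) (nat_lit 173) (nat_lit 167))) (XT.nd (nat_lit 78) (nat_lit 0) (nat_lit 0) (XT.lf (nat_lit 0) (nat_lit 2217534652024) (nat_lit 76) (nat_lit 2844808912211) (nat_lit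 76) (nat_lit 2844668108141) (nat_lit 1) (nat_lit 4) (nat_lit 2) (nat_lit 5) (nat_lit 2) (nat_lit 4) (nat_lit 261) (nat_lit 173) (nat_lit 166)) (XT.lf (nat_lit 0) (nat_lit 2550448022807) (nat_lit 76) (nat_lit 3271371075422) (nat_lit 76) (nat_lit 3271219207781) (nat_lit 1) (nat_lit 4) (nat_lit 2) (nat_lit 5) (nat_lit 2) (nat_lit 4) (nat_lit 262) (nat_lit 173) (nat_lit 165)))) (XT.nd (nat_lit 156) (nat_lit 0) (nat_lit 0) (XT.nd (nat_lit 78) (nat_lit 0) (nat_lit 0) (XT.lf (nat_lit 0) (nat_lit 2933283154207) (nat_lit 76) (nat_lit 3761924310420) (nat_lit 76) (nat_lit 3761762822282) (nat_lit 1) (nat_lit 4) (nat_lit 2) (nat_lit 5) (nat_lit 2) (nat_lit 4) (nat_lit 263) (nat_lit 173) (nat_lit 164)) (XT.lf (nat_lit 0) (nat_lit 3373530298796) (nat_lit 76) (nat_lit 4326066397890) (nat_lit 76) (nat_lit 4325896544102) (nat_lit 1) (nat_lit 4) (nat_lit 2) (nat_lit 5) (nat_lit 2) (nat_lit 4) (nat_lit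 264) (nat_lit 173) (nat_lit 163))) (XT.nd (nat_lit 78) (nat_lit 0) (nat_lit 0) (XT.lf (nat_lit 0) (nat_lit 3879802987663) (nat_lit 76) (nat_lit 4974834900411) (nat_lit 76) (nat_lit 4974657772146) (nat_lit 1) (nat_lit 4) (nat_lit 2) (nat_lit 5) (nat_lit 2) (nat_lit 4) (nat_lit 265) (nat_lit 173) (nat_lit 162)) (XT.lf (nat_lit 0) (nat_lit 4462006556026) (nat_lit 76) (nat_lit 5720923114773) (nat_lit 76) (nat_lit 5720739660875) (nat_lit 1) (nat_lit 4) (nat_lit 2) (nat_lit 5) (nat_lit 2) (nat_lit 4) (nat_lit 266) (nat_lit 173) (nat_lit 161))))) (XT.nd (nat_lit 312) (nat_lit 0) (nat_lit 0) (XT.nd (nat_lit 156) (nat_lit 0) (nat_lit 0) (XT.nd (nat_lit 78) (nat_lit 0) (nat_lit 0) (XT.lf (nat_lit 0) (nat_lit 5131531943264) (nat_lit 76) (nat_lit 6578928419082) (nat_lit 76) (nat_lit 6578739464634) (nat_lit 1) (nat_lit 4) (nat_lit 2) (nat_lit 5) (nat_lit 2) (nat_lit 4) (nat_lit 267) (nat_lit 173)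 (nat_lit 160)) (XT.lf (nat_lit 0) (nat_lit 5901478559129) (nat_lit 76) (nat_lit 7565637873640) (nat_lit 76) (nat_lit 7565444136105) (nat_lit 1) (nat_lit 4) (nat_lit 2) (nat_lit 5) (nat_lit 2) (nat_lit 4) (nat_lit 268) (nat_lit 173) (nat_lit 159))) (XT.nd (nat_lit 78) (nat_lit 0) (nat_lit 0) (XT.lf (nat_lit 0) (nat_lit 6786910576540) (nat_lit 76) (nat_lit 8700356663429) (nat_lit 76) (nat_lit 8700158766687) (nat_lit 1) (nat_lit 4) (nat_lit 2) (nat_lit 5) (nat_lit 2) (nat_lit 4) (nat_lit 269) (nat_lit 173) (nat_lit 158)) (XT.lf (nat_lit 0) (nat_lit 7805151665402) (nat_lit 76) (nat_lit 10005285808247) (nat_lit 76) (nat_lit 10005084294804) (nat_lit 1) (nat_lit 4) (nat_lit 2) (nat_lit 5) (nat_lit 2) (nat_lit 4) (nat_lit 270) (nat_lit 173) (nat_lit 157)))) (XT.nd (nat_lit 156) (nat_lit 0) (nat_lit 0) (XT.nd (nat_lit 78) (nat_lit 0) (nat_lit 0) (XT.lf (nat_lit 0) (nat_lit 8976123933976) (nat_lit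 76) (nat_lit 11505956530494) (nat_lit 76) (nat_lit 11505751872094) (nat_lit 1) (nat_lit 4) (nat_lit 2) (nat_lit 5) (nat_lit 2) (nat_lit 4) (nat_lit 271) (nat_lit 173) (nat_lit 156)) (XT.lf (nat_lit 0) (nat_lit 10322737709256) (nat_lit 76) (nat_lit 13231729779083) (nat_lit 76) (nat_lit 13231522385937) (nat_lit 1) (nat_lit 4) (nat_lit 2) (nat_lit 5) (nat_lit 2) (nat_lit 4) (nat_lit 272) (nat_lit 173) (nat_lit 155))) (XT.nd (nat_lit 78) (nat_lit 0) (nat_lit 0) (XT.lf (nat_lit 0) (nat_lit 11871339782497) (nat_lit 76) (nat_lit 15216370682791) (nat_lit 76) (nat_lit 15216160911605) (nat_lit 1) (nat_lit 4) (nat_lit 2) (nat_lit 5) (nat_lit 2) (nat_lit 4) (nat_lit 273) (nat_lit 173) (nat_lit 154)) (XT.lf (nat_lit 0) (nat_lit 13652228889914) (nat_lit 76) (nat_lit 17498709172342) (nat_lit 76) (nat_lit 17498497333296) (nat_lit 1) (nat_lit 4) (nat_lit 2) (nat_lit 5) (nat_lit 2) (nat_lit 4) (nat_lit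 274) (nat_lit 173) (nat_lit 153)))))) (XT.nd (nat_lit 29484) (nat_lit 0) (nat_lit 0) (XT.nd (nat_lit 312) (nat_lit 0) (nat_lit 0) (XT.nd (nat_lit 156) (nat_lit 0) (nat_lit 0) (XT.nd (nat_lit 78) (nat_lit 0) (nat_lit 0) (XT.lf (nat_lit 0) (nat_lit 15700248514045) (nat_lit 76) (nat_lit 20123399696445) (nat_lit 76) (nat_lit 20123186059260) (nat_lit 1) (nat_lit 4) (nat_lit 2) (nat_lit 5) (nat_lit 2) (nat_lit 4) (nat_lit 275) (nat_lit 173) (nat_lit 152)) (XT.lf (nat_lit 0) (nat_lit 18055468604056) (nat_lit 76) (nat_lit 23141794895790) (nat_lit 76) (nat_lit 23141579695005) (nat_lit 1) (nat_lit 4) (nat_lit 2) (nat_lit 5) (nat_lit 2) (nat_lit 4) (nat_lit 276) (nat_lit 173) (nat_lit 151))) (XT.nd (nat_lit 78) (nat_lit 0) (nat_lit 0) (XT.lf (nat_lit 0) (nat_lit 20763969553014) (nat_lit 76) (nat_lit 26612950328624) (nat_lit 76) (nat_lit 26612733768187) (nat_lit 1) (nat_lit 4) (nat_lit 2) (nat_lit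 5) (nat_lit 2) (nat_lit 4) (nat_lit 277) (nat_lit 173) (nat_lit 150)) (XT.lf (nat_lit 0) (nat_lit 23878743770789) (nat_lit 76) (nat_lit 30604779905590) (nat_lit 76) (nat_lit 30604562162847) (nat_lit 1) (nat_lit 4) (nat_lit 2) (nat_lit 5) (nat_lit 2) (nat_lit 4) (nat_lit 278) (nat_lit 173) (nat_lit 149)))) (XT.nd (nat_lit 312) (nat_lit 0) (nat_lit 0) (XT.nd (nat_lit 234) (nat_lit 0) (nat_lit 0) (XT.lf (nat_lit 0) (nat_lit 27460732492078) (nat_lit 76) (nat_lit 35195384640149) (nat_lit 76) (nat_lit 35195165869314) (nat_lit 1) (nat_lit 4) (nat_lit 2) (nat_lit 5) (nat_lit 2) (nat_lit 4) (nat_lit 279) (nat_lit 173) (nat_lit 148)) (XT.lf (nat_lit 0) (nat_lit 41764948062893) (nat_lit 76) (nat_lit 53527394645593) (nat_lit 76) (nat_lit 53527173527392) (nat_lit 1) (nat_lit 4) (nat_lit 2) (nat_lit 5) (nat_lit 2) (nat_lit 4) (nat_lit 282) (nat_lit 173) (nat_lit 145))) (XT.nd (nat_lit 78) (nat_lit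 0) (nat_lit 0) (XT.lf (nat_lit 0) (nat_lit 48029862776799) (nat_lit 76) (nat_lit 61556393649733) (nat_lit 76) (nat_lit 61556171943717) (nat_lit 1) (nat_lit 4) (nat_lit 2) (nat_lit 5) (nat_lit 2) (nat_lit 4) (nat_lit 283) (nat_lit 173) (nat_lit 144)) (XT.lf (nat_lit 0) (nat_lit 55234513887813) (nat_lit 76) (nat_lit 70789742862983) (nat_lit 76) (nat_lit 70789520645823) (nat_lit 1) (nat_lit 4) (nat_lit 2) (nat_lit 5) (nat_lit 2) (nat_lit 4) (nat_lit 284) (nat_lit 173) (nat_lit 143))))) (XT.nd (nat_lit 312) (nat_lit 0) (nat_lit 0) (XT.nd (nat_lit 156) (nat_lit 0) (nat_lit 0) (XT.nd (nat_lit 78) (nat_lit 0) (nat_lit 0) (XT.lf (nat_lit 0) (nat_lit 314122756712) (nat_lit 76) (nat_lit 404902101257) (nat_lit 76) (nat_lit 404902101257) (nat_lit 1) (nat_lit 4) (nat_lit 2) (nat_lit 5) (nat_lit 2) (nat_lit 4) (nat_lit 252) (nat_lit 174) (nat_lit 174)) (XT.lf (nat_lit 0) (nat_lit 723031112773)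 (nat_lit 76) (nat_lit 930993030744) (nat_lit 76) (nat_lit 930959187027) (nat_lit 1) (nat_lit 4) (nat_lit 2) (nat_lit 5) (nat_lit 2) (nat_lit 4) (nat_lit 253) (nat_lit 174) (nat_lit 173))) (XT.nd (nat_lit 78) (nat_lit 0) (nat_lit 0) (XT.lf (nat_lit 0) (nat_lit 831987917221) (nat_lit 76) (nat_lit 1070380823368) (nat_lit 76) (nat_lit 1070317550331) (nat_lit 1) (nat_lit 4) (nat_lit 2) (nat_lit 5) (nat_lit 2) (nat_lit 4) (nat_lit 254) (nat_lit 174) (nat_lit 172)) (XT.lf (nat_lit 0) (nat_lit 957247690333) (nat_lit 76) (nat_lit 1230694732851) (nat_lit 76) (nat_lit 1230605869101) (nat_lit 1) (nat_lit 4) (nat_lit 2) (nat_lit 5) (nat_lit 2) (nat_lit 4) (nat_lit 255) (nat_lit 174) (nat_lit 171)))) (XT.nd (nat_lit 156) (nat_lit 0) (nat_lit 0) (XT.nd (nat_lit 78) (nat_lit 0) (nat_lit 0) (XT.lf (nat_lit 0) (nat_lit 1101261166801) (nat_lit 76) (nat_lit 1415071335680) (nat_lit 76) (nat_lit 1414960219137)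 (nat_lit 1) (nat_lit 4) (nat_lit 2) (nat_lit 5) (nat_lit 2) (nat_lit 4) (nat_lit 256) (nat_lit 174) (nat_lit 170)) (XT.lf (nat_lit 0) (nat_lit 1266846001599) (nat_lit 76) (nat_lit 1627118000174) (nat_lit 76) (nat_lit 1626987533376) (nat_lit 1) (nat_lit 4) (nat_lit 2) (nat_lit 5) (nat_lit 2) (nat_lit 4) (nat_lit 257) (nat_lit 174) (nat_lit 169))) (XT.nd (nat_lit 78) (nat_lit 0) (nat_lit 0) (XT.lf (nat_lit 0) (nat_lit 1457241898016) (nat_lit 76) (nat_lit 1870983465420) (nat_lit 76) (nat_lit 1870836172313) (nat_lit 1) (nat_lit 4) (nat_lit 2) (nat_lit 5) (nat_lit 2) (nat_lit 4) (nat_lit 258) (nat_lit 174) (nat_lit 168)) (XT.lf (nat_lit 0) (nat_lit 1676173993157) (nat_lit 76) (nat_lit 2151439012260) (nat_lit 76) (nat_lit 2151277087580) (nat_lit 1) (nat_lit 4) (nat_lit 2) (nat_lit 5) (nat_lit 2) (nat_lit 4) (nat_lit 259) (nat_lit 174) (nat_lit 167))))))) (XT.nd (nat_lit 1248) (nat_lit 0)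 (nat_lit 0) (XT.nd (nat_lit 624) (nat_lit 0) (nat_lit 0) (XT.nd (nat_lit 312) (nat_lit 0) (nat_lit 0) (XT.nd (nat_lit 156) (nat_lit 0) (nat_lit 0) (XT.nd (nat_lit 78) (nat_lit 0) (nat_lit 0) (XT.lf (nat_lit 0) (nat_lit 1927925741057) (nat_lit 76) (nat_lit 2473971814436) (nat_lit 76) (nat_lit 2473797166649) (nat_lit 1) (nat_lit 4) (nat_lit 2) (nat_lit 5) (nat_lit 2) (nat_lit 4) (nat_lit 260) (nat_lit 174) (nat_lit 166)) (XT.lf (nat_lit 0) (nat_lit 2217422719392) (nat_lit 76) (nat_lit 2844892296339) (nat_lit 76) (nat_lit 2844706584981) (nat_lit 1) (nat_lit 4) (nat_lit 2) (nat_lit 5) (nat_lit 2) (nat_lit 4) (nat_lit 261) (nat_lit 174) (nat_lit 165))) (XT.nd (nat_lit 78) (nat_lit 0) (nat_lit 0) (XT.lf (nat_lit 0) (nat_lit 2550328999477) (nat_lit 76) (nat_lit 3271457597832) (nat_lit 76) (nat_lit 3271262265977) (nat_lit 1) (nat_lit 4) (nat_lit 2) (nat_lit 5) (nat_lit 2) (nat_lit 4) (nat_lit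 262) (nat_lit 174) (nat_lit 164)) (XT.lf (nat_lit 0) (nat_lit 2933157965054) (nat_lit 76) (nat_lit 3762013561771) (nat_lit 76) (nat_lit 3761809864266) (nat_lit 1) (nat_lit 4) (nat_lit 2) (nat_lit 5) (nat_lit 2) (nat_lit 4) (nat_lit 263) (nat_lit 174) (nat_lit 163)))) (XT.nd (nat_lit 156) (nat_lit 0) (nat_lit 0) (XT.nd (nat_lit 78) (nat_lit 0) (nat_lit 0) (XT.lf (nat_lit 0) (nat_lit 3373399748057) (nat_lit 76) (nat_lit 4326158022231) (nat_lit 76) (nat_lit 4325947050249) (nat_lit 1) (nat_lit 4) (nat_lit 2) (nat_lit 5) (nat_lit 2) (nat_lit 4) (nat_lit 264) (nat_lit 174) (nat_lit 162)) (XT.lf (nat_lit 0) (nat_lit 3879667774675) (nat_lit 76) (nat_lit 4974928588223) (nat_lit 76) (nat_lit 4974711290608) (nat_lit 1) (nat_lit 4) (nat_lit 2) (nat_lit 5) (nat_lit 2) (nat_lit 4) (nat_lit 265) (nat_lit 174) (nat_lit 161))) (XT.nd (nat_lit 78) (nat_lit 0) (nat_lit 0) (XT.lf (nat_lit 0) (nat_lit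 4461867288908) (nat_lit 76) (nat_lit 5721018596907) (nat_lit 76) (nat_lit 5720795798742) (nat_lit 1) (nat_lit 4) (nat_lit 2) (nat_lit 5) (nat_lit 2) (nat_lit 4) (nat_lit 266) (nat_lit 174) (nat_lit 160)) (XT.lf (nat_lit 0) (nat_lit 5131389150817) (nat_lit 76) (nat_lit 6579025461497) (nat_lit 76) (nat_lit 6578797880244) (nat_lit 1) (nat_lit 4) (nat_lit 2) (nat_lit 5) (nat_lit 2) (nat_lit 4) (nat_lit 267) (nat_lit 174) (nat_lit 159))))) (XT.nd (nat_lit 312) (nat_lit 0) (nat_lit 0) (XT.nd (nat_lit 156) (nat_lit 0) (nat_lit 0) (XT.nd (nat_lit 78) (nat_lit 0) (nat_lit 0) (XT.lf (nat_lit 0) (nat_lit 5901332701177) (nat_lit 76) (nat_lit 7565736272821) (nat_lit 76) (nat_lit 7565504532362) (nat_lit 1) (nat_lit 4) (nat_lit 2) (nat_lit 5) (nat_lit 2) (nat_lit 4) (nat_lit 268) (nat_lit 174) (nat_lit 158)) (XT.lf (nat_lit 0) (nat_lit 6786762052932) (nat_lit 76) (nat_lit 8700456242406) (nat_lit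 76) (nat_lit 8700220885246) (nat_lit 1) (nat_lit 4) (nat_lit 2) (nat_lit 5) (nat_lit 2) (nat_lit 4) (nat_lit 269) (nat_lit 174) (nat_lit 157))) (XT.nd (nat_lit 78) (nat_lit 0) (nat_lit 0) (XT.lf (nat_lit 0) (nat_lit 7805000823833) (nat_lit 76) (nat_lit 10005386413134) (nat_lit 76) (nat_lit 10005147911016) (nat_lit 1) (nat_lit 4) (nat_lit 2) (nat_lit 5) (nat_lit 2) (nat_lit 4) (nat_lit 270) (nat_lit 174) (nat_lit 156)) (XT.lf (nat_lit 0) (nat_lit 8975971076788) (nat_lit 76) (nat_lit 11506058027476) (nat_lit 76) (nat_lit 11505816790613) (nat_lit 1) (nat_lit 4) (nat_lit 2) (nat_lit 5) (nat_lit 2) (nat_lit 4) (nat_lit 271) (nat_lit 174) (nat_lit 155)))) (XT.nd (nat_lit 156) (nat_lit 0) (nat_lit 0) (XT.nd (nat_lit 78) (nat_lit 0) (nat_lit 0) (XT.lf (nat_lit 0) (nat_lit 10322583099356) (nat_lit 76) (nat_lit 13231832051800) (nat_lit 76) (nat_lit 13231588436897) (nat_lit 1) (nat_lit 4) (nat_lit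 2) (nat_lit 5) (nat_lit 2) (nat_lit 4) (nat_lit 272) (nat_lit 174) (nat_lit 154)) (XT.lf (nat_lit 0) (nat_lit 11871183648499) (nat_lit 76) (nat_lit 15216473630060) (nat_lit 76) (nat_lit 15216227947297) (nat_lit 1) (nat_lit 4) (nat_lit 2) (nat_lit 5) (nat_lit 2) (nat_lit 4) (nat_lit 273) (nat_lit 174) (nat_lit 153))) (XT.nd (nat_lit 78) (nat_lit 0) (nat_lit 0) (XT.lf (nat_lit 0) (nat_lit 13652071430614) (nat_lit 76) (nat_lit 17498812706179) (nat_lit 76) (nat_lit 17498565225276) (nat_lit 1) (nat_lit 4) (nat_lit 2) (nat_lit 5) (nat_lit 2) (nat_lit 4) (nat_lit 274) (nat_lit 174) (nat_lit 152)) (XT.lf (nat_lit 0) (nat_lit 15700089902309) (nat_lit 76) (nat_lit 20123503740341) (nat_lit 76) (nat_lit 20123254695838) (nat_lit 1) (nat_lit 4) (nat_lit 2) (nat_lit 5) (nat_lit 2) (nat_lit 4) (nat_lit 275) (nat_lit 174) (nat_lit 151)))))) (XT.nd (nat_lit 29406) (nat_lit 0) (nat_lit 0) (XT.nd (nat_lit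 468) (nat_lit 0) (nat_lit 0) (XT.nd (nat_lit 156) (nat_lit 0) (nat_lit 0) (XT.nd (nat_lit 78) (nat_lit 0) (nat_lit 0) (XT.lf (nat_lit 0) (nat_lit 18055308990201) (nat_lit 76) (nat_lit 23141899383214) (nat_lit 76) (nat_lit 23141648979060) (nat_lit 1) (nat_lit 4) (nat_lit 2) (nat_lit 5) (nat_lit 2) (nat_lit 4) (nat_lit 276) (nat_lit 174) (nat_lit 150)) (XT.lf (nat_lit 0) (nat_lit 20763809067752) (nat_lit 76) (nat_lit 26613055201726) (nat_lit 76) (nat_lit 26612803615265) (nat_lit 1) (nat_lit 4) (nat_lit 2) (nat_lit 5) (nat_lit 2) (nat_lit 4) (nat_lit 277) (nat_lit 174) (nat_lit 149))) (XT.nd (nat_lit 78) (nat_lit 0) (nat_lit 0) (XT.lf (nat_lit 0) (nat_lit 23878582527781) (nat_lit 76) (nat_lit 30604885114063) (nat_lit 76) (nat_lit 30604632499510) (nat_lit 1) (nat_lit 4) (nat_lit 2) (nat_lit 5) (nat_lit 2) (nat_lit 4) (nat_lit 278) (nat_lit 174) (nat_lit 148)) (XT.lf (nat_lit 0) (nat_lit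 27460570590160) (nat_lit 76) (nat_lit 35195490140250) (nat_lit 76) (nat_lit 35195236631704) (nat_lit 1) (nat_lit 4) (nat_lit 2) (nat_lit 5) (nat_lit 2) (nat_lit 4) (nat_lit 279) (nat_lit 174) (nat_lit 147)))) (XT.nd (nat_lit 28782) (nat_lit 0) (nat_lit 0) (XT.nd (nat_lit 78) (nat_lit 0) (nat_lit 0) (XT.lf (nat_lit 0) (nat_lit 41764784656536) (nat_lit 76) (nat_lit 53527500811546) (nat_lit 76) (nat_lit 53527245261812) (nat_lit 1) (nat_lit 4) (nat_lit 2) (nat_lit 5) (nat_lit 2) (nat_lit 4) (nat_lit 282) (nat_lit 174) (nat_lit 144)) (XT.lf (nat_lit 0) (nat_lit 48029698993709) (nat_lit 76) (nat_lit 61556499982424) (nat_lit 76) (nat_lit 61556243921547) (nat_lit 1) (nat_lit 4) (nat_lit 2) (nat_lit 5) (nat_lit 2) (nat_lit 4) (nat_lit 283) (nat_lit 174) (nat_lit 143))) (XT.nd (nat_lit 78) (nat_lit 0) (nat_lit 0) (XT.lf (nat_lit 0) (nat_lit 237019795710) (nat_lit 76) (nat_lit 306437498109)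 (nat_lit 76) (nat_lit 306437498109) (nat_lit 1) (nat_lit 4) (nat_lit 2) (nat_lit 5) (nat_lit 2) (nat_lit 4) (nat_lit 250) (nat_lit 175) (nat_lit 175)) (XT.lf (nat_lit 0) (nat_lit 545776618318) (nat_lit 76) (nat_lit 704482173183) (nat_lit 76) (nat_lit 704443252908) (nat_lit 1) (nat_lit 4) (nat_lit 2) (nat_lit 5) (nat_lit 2) (nat_lit 4) (nat_lit 251) (nat_lit 175) (nat_lit 174))))) (XT.nd (nat_lit 312) (nat_lit 0) (nat_lit 0) (XT.nd (nat_lit 156) (nat_lit 0) (nat_lit 0) (XT.nd (nat_lit 78) (nat_lit 0) (nat_lit 0) (XT.lf (nat_lit 0) (nat_lit 628220569227) (nat_lit 76) (nat_lit 809854162874) (nat_lit 76) (nat_lit 809781398882) (nat_lit 1) (nat_lit 4) (nat_lit 2) (nat_lit 5) (nat_lit 2) (nat_lit 4) (nat_lit 252) (nat_lit 175) (nat_lit 173)) (XT.lf (nat_lit 0) (nat_lit 722984477970) (nat_lit 76) (nat_lit 931052591179) (nat_lit 76) (nat_lit 930950397867) (nat_lit 1) (nat_lit 4) (nat_lit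 2) (nat_lit 5) (nat_lit 2) (nat_lit 4) (nat_lit 253) (nat_lit 175) (nat_lit 172))) (XT.nd (nat_lit 78) (nat_lit 0) (nat_lit 0) (XT.lf (nat_lit 0) (nat_lit 831922421021) (nat_lit 76) (nat_lit 1070448731693) (nat_lit 76) (nat_lit 1070320947668) (nat_lit 1) (nat_lit 4) (nat_lit 2) (nat_lit 5) (nat_lit 2) (nat_lit 4) (nat_lit 254) (nat_lit 175) (nat_lit 171)) (XT.lf (nat_lit 0) (nat_lit 957165792919) (nat_lit 76) (nat_lit 1230769900210) (nat_lit 76) (nat_lit 1230619863392) (nat_lit 1) (nat_lit 4) (nat_lit 2) (nat_lit 5) (nat_lit 2) (nat_lit 4) (nat_lit 255) (nat_lit 175) (nat_lit 170)))) (XT.nd (nat_lit 156) (nat_lit 0) (nat_lit 0) (XT.nd (nat_lit 78) (nat_lit 0) (nat_lit 0) (XT.lf (nat_lit 0) (nat_lit 1101165007461) (nat_lit 76) (nat_lit 1415152815245) (nat_lit 76) (nat_lit 1414983428171) (nat_lit 1) (nat_lit 4) (nat_lit 2) (nat_lit 5) (nat_lit 2) (nat_lit 4) (nat_lit 256) (nat_lit 175)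 (nat_lit 169)) (XT.lf (nat_lit 0) (nat_lit 1266737440584) (nat_lit 76) (nat_lit 1627204968612) (nat_lit 76) (nat_lit 1627018755230) (nat_lit 1) (nat_lit 4) (nat_lit 2) (nat_lit 5) (nat_lit 2) (nat_lit 4) (nat_lit 257) (nat_lit 175) (nat_lit 168))) (XT.nd (nat_lit 78) (nat_lit 0) (nat_lit 0) (XT.lf (nat_lit 0) (nat_lit 1457122552937) (nat_lit 76) (nat_lit 1871075206792) (nat_lit 76) (nat_lit 1870874361836) (nat_lit 1) (nat_lit 4) (nat_lit 2) (nat_lit 5) (nat_lit 2) (nat_lit 4) (nat_lit 258) (nat_lit 175) (nat_lit 167)) (XT.lf (nat_lit 0) (nat_lit 1676045270630) (nat_lit 76) (nat_lit 2151534904008) (nat_lit 76) (nat_lit 2151321335946) (nat_lit 1) (nat_lit 4) (nat_lit 2) (nat_lit 5) (nat_lit 2) (nat_lit 4) (nat_lit 259) (nat_lit 175) (nat_lit 166))))))))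
noncomputable def xc4 : XT := (XT.nd (nat_lit 31278) (nat_lit 0) (nat_lit 0) (XT.nd (nat_lit 1248) (nat_lit 0) (nat_lit 0) (XT.nd (nat_lit 624) (nat_lit 0) (nat_lit 0) (XT.nd (nat_lit 312) (nat_lit 0) (nat_lit 0) (XT.nd (nat_lit 156) (nat_lit 0) (nat_lit 0) (XT.nd (nat_lit 78) (nat_lit 0) (nat_lit 0) (XT.lf (nat_lit 0) (nat_lit 1927788864228) (nat_lit 76) (nat_lit 2474071315208) (nat_lit 76) (nat_lit 2473846683574) (nat_lit 1) (nat_lit 4) (nat_lit 2) (nat_lit 5) (nat_lit 2) (nat_lit 4) (nat_lit 260) (nat_lit 175) (nat_lit 165)) (XT.lf (nat_lit 0) (nat_lit 2217278751865) (nat_lit 76) (nat_lit 2844994935392) (nat_lit 76) (nat_lit 2844760683261) (nat_lit 1) (nat_lit 4) (nat_lit 2) (nat_lit 5) (nat_lit 2) (nat_lit 4) (nat_lit 261) (nat_lit 175) (nat_lit 164))) (XT.nd (nat_lit 78) (nat_lit 0) (nat_lit 0) (XT.lf (nat_lit 0) (nat_lit 2550178866127) (nat_lit 76) (nat_lit 3271562965825) (nat_lit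 76) (nat_lit 3271320348045) (nat_lit 1) (nat_lit 4) (nat_lit 2) (nat_lit 5) (nat_lit 2) (nat_lit 4) (nat_lit 262) (nat_lit 175) (nat_lit 163)) (XT.lf (nat_lit 0) (nat_lit 2933002470117) (nat_lit 76) (nat_lit 3762121302755) (nat_lit 76) (nat_lit 3761871410497) (nat_lit 1) (nat_lit 4) (nat_lit 2) (nat_lit 5) (nat_lit 2) (nat_lit 4) (nat_lit 263) (nat_lit 175) (nat_lit 162)))) (XT.nd (nat_lit 156) (nat_lit 0) (nat_lit 0) (XT.nd (nat_lit 78) (nat_lit 0) (nat_lit 0) (XT.lf (nat_lit 0) (nat_lit 3373239590871) (nat_lit 76) (nat_lit 4326267826686) (nat_lit 76) (nat_lit 4326011608796) (nat_lit 1) (nat_lit 4) (nat_lit 2) (nat_lit 5) (nat_lit 2) (nat_lit 4) (nat_lit 264) (nat_lit 175) (nat_lit 161)) (XT.lf (nat_lit 0) (nat_lit 3879503563360) (nat_lit 76) (nat_lit 4975040187001) (nat_lit 76) (nat_lit 4974778468560) (nat_lit 1) (nat_lit 4) (nat_lit 2) (nat_lit 5) (nat_lit 2) (nat_lit 4) (nat_lit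 265) (nat_lit 175) (nat_lit 160))) (XT.nd (nat_lit 78) (nat_lit 0) (nat_lit 0) (XT.lf (nat_lit 0) (nat_lit 4461699552263) (nat_lit 76) (nat_lit 5721131755965) (nat_lit 76) (nat_lit 5720865254438) (nat_lit 1) (nat_lit 4) (nat_lit 2) (nat_lit 5) (nat_lit 2) (nat_lit 4) (nat_lit 266) (nat_lit 175) (nat_lit 159)) (XT.lf (nat_lit 0) (nat_lit 5131218348668) (nat_lit 76) (nat_lit 6579139977321) (nat_lit 76) (nat_lit 6578869316587) (nat_lit 1) (nat_lit 4) (nat_lit 2) (nat_lit 5) (nat_lit 2) (nat_lit 4) (nat_lit 267) (nat_lit 175) (nat_lit 158))))) (XT.nd (nat_lit 312) (nat_lit 0) (nat_lit 0) (XT.nd (nat_lit 156) (nat_lit 0) (nat_lit 0) (XT.nd (nat_lit 78) (nat_lit 0) (nat_lit 0) (XT.lf (nat_lit 0) (nat_lit 5901159233373) (nat_lit 76) (nat_lit 7565851968441) (nat_lit 76) (nat_lit 7565577691006) (nat_lit 1) (nat_lit 4) (nat_lit 2) (nat_lit 5) (nat_lit 2) (nat_lit 4) (nat_lit 268) (nat_lit 175)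 (nat_lit 157)) (XT.lf (nat_lit 0) (nat_lit 6786586267166) (nat_lit 76) (nat_lit 8700572963935) (nat_lit 76) (nat_lit 8700295541542) (nat_lit 1) (nat_lit 4) (nat_lit 2) (nat_lit 5) (nat_lit 2) (nat_lit 4) (nat_lit 269) (nat_lit 175) (nat_lit 156))) (XT.nd (nat_lit 78) (nat_lit 0) (nat_lit 0) (XT.lf (nat_lit 0) (nat_lit 7804823022448) (nat_lit 76) (nat_lit 10005504026758) (nat_lit 76) (nat_lit 10005223869620) (nat_lit 1) (nat_lit 4) (nat_lit 2) (nat_lit 5) (nat_lit 2) (nat_lit 4) (nat_lit 270) (nat_lit 175) (nat_lit 155)) (XT.lf (nat_lit 0) (nat_lit 8975791522691) (nat_lit 76) (nat_lit 11506176416836) (nat_lit 76) (nat_lit 11505893881658) (nat_lit 1) (nat_lit 4) (nat_lit 2) (nat_lit 5) (nat_lit 2) (nat_lit 4) (nat_lit 271) (nat_lit 175) (nat_lit 154)))) (XT.nd (nat_lit 156) (nat_lit 0) (nat_lit 0) (XT.nd (nat_lit 78) (nat_lit 0) (nat_lit 0) (XT.lf (nat_lit 0) (nat_lit 10322402021161)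 (nat_lit 76) (nat_lit 13231951115712) (nat_lit 76) (nat_lit 13231666512674) (nat_lit 1) (nat_lit 4) (nat_lit 2) (nat_lit 5) (nat_lit 2) (nat_lit 4) (nat_lit 272) (nat_lit 175) (nat_lit 153)) (XT.lf (nat_lit 0) (nat_lit 11871001245002) (nat_lit 76) (nat_lit 15216593280539) (nat_lit 76) (nat_lit 15216306879361) (nat_lit 1) (nat_lit 4) (nat_lit 2) (nat_lit 5) (nat_lit 2) (nat_lit 4) (nat_lit 273) (nat_lit 175) (nat_lit 152))) (XT.nd (nat_lit 78) (nat_lit 0) (nat_lit 0) (XT.lf (nat_lit 0) (nat_lit 13651887874681) (nat_lit 76) (nat_lit 17498932866716) (nat_lit 76) (nat_lit 17498644901939) (nat_lit 1) (nat_lit 4) (nat_lit 2) (nat_lit 5) (nat_lit 2) (nat_lit 4) (nat_lit 274) (nat_lit 175) (nat_lit 151)) (XT.lf (nat_lit 0) (nat_lit 15699905344256) (nat_lit 76) (nat_lit 20123624344407) (nat_lit 76) (nat_lit 20123335019978) (nat_lit 1) (nat_lit 4) (nat_lit 2) (nat_lit 5) (nat_lit 2) (nat_lit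 4) (nat_lit 275) (nat_lit 175) (nat_lit 150)))))) (XT.nd (nat_lit 29406) (nat_lit 0) (nat_lit 0) (XT.nd (nat_lit 29094) (nat_lit 0) (nat_lit 0) (XT.nd (nat_lit 156) (nat_lit 0) (nat_lit 0) (XT.nd (nat_lit 78) (nat_lit 0) (nat_lit 0) (XT.lf (nat_lit 0) (nat_lit 18055123560742) (nat_lit 76) (nat_lit 23142020372959) (nat_lit 76) (nat_lit 23141729866223) (nat_lit 1) (nat_lit 4) (nat_lit 2) (nat_lit 5) (nat_lit 2) (nat_lit 4) (nat_lit 276) (nat_lit 175) (nat_lit 149)) (XT.lf (nat_lit 0) (nat_lit 20763622880546) (nat_lit 76) (nat_lit 26613176526842) (nat_lit 76) (nat_lit 26612884992014) (nat_lit 1) (nat_lit 4) (nat_lit 2) (nat_lit 5) (nat_lit 2) (nat_lit 4) (nat_lit 277) (nat_lit 175) (nat_lit 148))) (XT.nd (nat_lit 78) (nat_lit 0) (nat_lit 0) (XT.lf (nat_lit 0) (nat_lit 23878395681666) (nat_lit 76) (nat_lit 30605006730807) (nat_lit 76) (nat_lit 30604714301986) (nat_lit 1) (nat_lit 4) (nat_lit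 2) (nat_lit 5) (nat_lit 2) (nat_lit 4) (nat_lit 278) (nat_lit 175) (nat_lit 147)) (XT.lf (nat_lit 0) (nat_lit 27460383171080) (nat_lit 76) (nat_lit 35195612010583) (nat_lit 76) (nat_lit 35195318804376) (nat_lit 1) (nat_lit 4) (nat_lit 2) (nat_lit 5) (nat_lit 2) (nat_lit 4) (nat_lit 279) (nat_lit 175) (nat_lit 146)))) (XT.nd (nat_lit 156) (nat_lit 0) (nat_lit 0) (XT.nd (nat_lit 78) (nat_lit 0) (nat_lit 0) (XT.lf (nat_lit 0) (nat_lit 178643559388) (nat_lit 76) (nat_lit 232025112741) (nat_lit 76) (nat_lit 232025112741) (nat_lit 1) (nat_lit 4) (nat_lit 2) (nat_lit 5) (nat_lit 2) (nat_lit 4) (nat_lit 248) (nat_lit 176) (nat_lit 176)) (XT.lf (nat_lit 0) (nat_lit 411605938007) (nat_lit 76) (nat_lit 533285075966) (nat_lit 76) (nat_lit 533240317650) (nat_lit 1) (nat_lit 4) (nat_lit 2) (nat_lit 5) (nat_lit 2) (nat_lit 4) (nat_lit 249) (nat_lit 176) (nat_lit 175))) (XT.nd (nat_lit 78) (nat_lit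 0) (nat_lit 0) (XT.lf (nat_lit 0) (nat_lit 474010905593) (nat_lit 76) (nat_lit 612932450633) (nat_lit 76) (nat_lit 612848772041) (nat_lit 1) (nat_lit 4) (nat_lit 2) (nat_lit 5) (nat_lit 2) (nat_lit 4) (nat_lit 250) (nat_lit 176) (nat_lit 174)) (XT.lf (nat_lit 0) (nat_lit 545722988295) (nat_lit 76) (nat_lit 704550667682) (nat_lit 76) (nat_lit 704433145373) (nat_lit 1) (nat_lit 4) (nat_lit 2) (nat_lit 5) (nat_lit 2) (nat_lit 4) (nat_lit 251) (nat_lit 176) (nat_lit 173))))) (XT.nd (nat_lit 312) (nat_lit 0) (nat_lit 0) (XT.nd (nat_lit 156) (nat_lit 0) (nat_lit 0) (XT.nd (nat_lit 78) (nat_lit 0) (nat_lit 0) (XT.lf (nat_lit 0) (nat_lit 628145248598) (nat_lit 76) (nat_lit 809932257447) (nat_lit 76) (nat_lit 809785305819) (nat_lit 1) (nat_lit 4) (nat_lit 2) (nat_lit 5) (nat_lit 2) (nat_lit 4) (nat_lit 252) (nat_lit 176) (nat_lit 172)) (XT.lf (nat_lit 0) (nat_lit 722890295943) (nat_lit 76)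 (nat_lit 931139033642) (nat_lit 76) (nat_lit 930966491301) (nat_lit 1) (nat_lit 4) (nat_lit 2) (nat_lit 5) (nat_lit 2) (nat_lit 4) (nat_lit 253) (nat_lit 176) (nat_lit 171))) (XT.nd (nat_lit 78) (nat_lit 0) (nat_lit 0) (XT.lf (nat_lit 0) (nat_lit 831811837780) (nat_lit 76) (nat_lit 1070542433192) (nat_lit 76) (nat_lit 1070347638057) (nat_lit 1) (nat_lit 4) (nat_lit 2) (nat_lit 5) (nat_lit 2) (nat_lit 4) (nat_lit 254) (nat_lit 176) (nat_lit 170)) (XT.lf (nat_lit 0) (nat_lit 957040947752) (nat_lit 76) (nat_lit 1230869913913) (nat_lit 76) (nat_lit 1230655768524) (nat_lit 1) (nat_lit 4) (nat_lit 2) (nat_lit 5) (nat_lit 2) (nat_lit 4) (nat_lit 255) (nat_lit 176) (nat_lit 169)))) (XT.nd (nat_lit 156) (nat_lit 0) (nat_lit 0) (XT.nd (nat_lit 78) (nat_lit 0) (nat_lit 0) (XT.lf (nat_lit 0) (nat_lit 1101027760620) (nat_lit 76) (nat_lit 1415258317821) (nat_lit 76) (nat_lit 1415027346122) (nat_lit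 1) (nat_lit 4) (nat_lit 2) (nat_lit 5) (nat_lit 2) (nat_lit 4) (nat_lit 256) (nat_lit 176) (nat_lit 168)) (XT.lf (nat_lit 0) (nat_lit 1266589409679) (nat_lit 76) (nat_lit 1627315244122) (nat_lit 76) (nat_lit 1627069640850) (nat_lit 1) (nat_lit 4) (nat_lit 2) (nat_lit 5) (nat_lit 2) (nat_lit 4) (nat_lit 257) (nat_lit 176) (nat_lit 167))) (XT.nd (nat_lit 78) (nat_lit 0) (nat_lit 0) (XT.lf (nat_lit 0) (nat_lit 1456965144584) (nat_lit 76) (nat_lit 1871189632679) (nat_lit 76) (nat_lit 1870931306300) (nat_lit 1) (nat_lit 4) (nat_lit 2) (nat_lit 5) (nat_lit 2) (nat_lit 4) (nat_lit 258) (nat_lit 176) (nat_lit 166)) (XT.lf (nat_lit 0) (nat_lit 1675879707975) (nat_lit 76) (nat_lit 2151652938919) (nat_lit 76) (nat_lit 2151383548969) (nat_lit 1) (nat_lit 4) (nat_lit 2) (nat_lit 5) (nat_lit 2) (nat_lit 4) (nat_lit 259) (nat_lit 176) (nat_lit 165))))))) (XT.nd (nat_lit 1248) (nat_lit 0) (nat_lit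 0) (XT.nd (nat_lit 624) (nat_lit 0) (nat_lit 0) (XT.nd (nat_lit 312) (nat_lit 0) (nat_lit 0) (XT.nd (nat_lit 156) (nat_lit 0) (nat_lit 0) (XT.nd (nat_lit 78) (nat_lit 0) (nat_lit 0) (XT.lf (nat_lit 0) (nat_lit 1927616210875) (nat_lit 76) (nat_lit 2474192488399) (nat_lit 76) (nat_lit 2473913477953) (nat_lit 1) (nat_lit 4) (nat_lit 2) (nat_lit 5) (nat_lit 2) (nat_lit 4) (nat_lit 260) (nat_lit 176) (nat_lit 164)) (XT.lf (nat_lit 0) (nat_lit 2217099932688) (nat_lit 76) (nat_lit 2845118837524) (nat_lit 76) (nat_lit 2844831461428) (nat_lit 1) (nat_lit 4) (nat_lit 2) (nat_lit 5) (nat_lit 2) (nat_lit 4) (nat_lit 261) (nat_lit 176) (nat_lit 163))) (XT.nd (nat_lit 78) (nat_lit 0) (nat_lit 0) (XT.lf (nat_lit 0) (nat_lit 2549994685363) (nat_lit 76) (nat_lit 3271689240948) (nat_lit 76) (nat_lit 3271394590374) (nat_lit 1) (nat_lit 4) (nat_lit 2) (nat_lit 5) (nat_lit 2) (nat_lit 4) (nat_lit 262)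 (nat_lit 176) (nat_lit 162)) (XT.lf (nat_lit 0) (nat_lit 2932813627105) (nat_lit 76) (nat_lit 3762249641349) (nat_lit 76) (nat_lit 3761948665142) (nat_lit 1) (nat_lit 4) (nat_lit 2) (nat_lit 5) (nat_lit 2) (nat_lit 4) (nat_lit 263) (nat_lit 176) (nat_lit 161)))) (XT.nd (nat_lit 156) (nat_lit 0) (nat_lit 0) (XT.nd (nat_lit 78) (nat_lit 0) (nat_lit 0) (XT.lf (nat_lit 0) (nat_lit 3373046693730) (nat_lit 76) (nat_lit 4326397959603) (nat_lit 76) (nat_lit 4326091482846) (nat_lit 1) (nat_lit 4) (nat_lit 2) (nat_lit 5) (nat_lit 2) (nat_lit 4) (nat_lit 264) (nat_lit 176) (nat_lit 160)) (XT.lf (nat_lit 0) (nat_lit 3879307140889) (nat_lit 76) (nat_lit 4975171880198) (nat_lit 76) (nat_lit 4974860620354) (nat_lit 1) (nat_lit 4) (nat_lit 2) (nat_lit 5) (nat_lit 2) (nat_lit 4) (nat_lit 265) (nat_lit 176) (nat_lit 159))) (XT.nd (nat_lit 78) (nat_lit 0) (nat_lit 0) (XT.lf (nat_lit 0) (nat_lit 4461500064288)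 (nat_lit 76) (nat_lit 5721264805928) (nat_lit 76) (nat_lit 5720949386878) (nat_lit 1) (nat_lit 4) (nat_lit 2) (nat_lit 5) (nat_lit 2) (nat_lit 4) (nat_lit 266) (nat_lit 176) (nat_lit 158)) (XT.lf (nat_lit 0) (nat_lit 5131016195036) (nat_lit 76) (nat_lit 6579274207079) (nat_lit 76) (nat_lit 6578955171328) (nat_lit 1) (nat_lit 4) (nat_lit 2) (nat_lit 5) (nat_lit 2) (nat_lit 4) (nat_lit 267) (nat_lit 176) (nat_lit 157))))) (XT.nd (nat_lit 312) (nat_lit 0) (nat_lit 0) (XT.nd (nat_lit 156) (nat_lit 0) (nat_lit 0) (XT.nd (nat_lit 78) (nat_lit 0) (nat_lit 0) (XT.lf (nat_lit 0) (nat_lit 5900954761780) (nat_lit 76) (nat_lit 7565987224109) (nat_lit 76) (nat_lit 7565665043400) (nat_lit 1) (nat_lit 4) (nat_lit 2) (nat_lit 5) (nat_lit 2) (nat_lit 4) (nat_lit 268) (nat_lit 176) (nat_lit 156)) (XT.lf (nat_lit 0) (nat_lit 6786379779954) (nat_lit 76) (nat_lit 8700709111699) (nat_lit 76) (nat_lit 8700384196244)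 (nat_lit 1) (nat_lit 4) (nat_lit 2) (nat_lit 5) (nat_lit 2) (nat_lit 4) (nat_lit 269) (nat_lit 176) (nat_lit 155))) (XT.nd (nat_lit 78) (nat_lit 0) (nat_lit 0) (XT.lf (nat_lit 0) (nat_lit 7804614782524) (nat_lit 76) (nat_lit 10005640950257) (nat_lit 76) (nat_lit 10005313656763) (nat_lit 1) (nat_lit 4) (nat_lit 2) (nat_lit 5) (nat_lit 2) (nat_lit 4) (nat_lit 270) (nat_lit 176) (nat_lit 154)) (XT.lf (nat_lit 0) (nat_lit 8975581758670) (nat_lit 76) (nat_lit 11506314014887) (nat_lit 76) (nat_lit 11505984653532) (nat_lit 1) (nat_lit 4) (nat_lit 2) (nat_lit 5) (nat_lit 2) (nat_lit 4) (nat_lit 271) (nat_lit 176) (nat_lit 153)))) (XT.nd (nat_lit 156) (nat_lit 0) (nat_lit 0) (XT.nd (nat_lit 78) (nat_lit 0) (nat_lit 0) (XT.lf (nat_lit 0) (nat_lit 10322190931838) (nat_lit 76) (nat_lit 13232089300330) (nat_lit 76) (nat_lit 13231758140836) (nat_lit 1) (nat_lit 4) (nat_lit 2) (nat_lit 5) (nat_lit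 2) (nat_lit 4) (nat_lit 272) (nat_lit 176) (nat_lit 152)) (XT.lf (nat_lit 0) (nat_lit 11870789003242) (nat_lit 76) (nat_lit 15216731975216) (nat_lit 76) (nat_lit 15216399252122) (nat_lit 1) (nat_lit 4) (nat_lit 2) (nat_lit 5) (nat_lit 2) (nat_lit 4) (nat_lit 273) (nat_lit 176) (nat_lit 151))) (XT.nd (nat_lit 78) (nat_lit 0) (nat_lit 0) (XT.lf (nat_lit 0) (nat_lit 13651674630802) (nat_lit 76) (nat_lit 17499072004922) (nat_lit 76) (nat_lit 17498737922176) (nat_lit 1) (nat_lit 4) (nat_lit 2) (nat_lit 5) (nat_lit 2) (nat_lit 4) (nat_lit 274) (nat_lit 176) (nat_lit 150)) (XT.lf (nat_lit 0) (nat_lit 15699691228970) (nat_lit 76) (nat_lit 20123763868291) (nat_lit 76) (nat_lit 20123428603239) (nat_lit 1) (nat_lit 4) (nat_lit 2) (nat_lit 5) (nat_lit 2) (nat_lit 4) (nat_lit 275) (nat_lit 176) (nat_lit 149)))))) (XT.nd (nat_lit 29250) (nat_lit 0) (nat_lit 0) (XT.nd (nat_lit 28938) (nat_lit 0)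 (nat_lit 0) (XT.nd (nat_lit 156) (nat_lit 0) (nat_lit 0) (XT.nd (nat_lit 78) (nat_lit 0) (nat_lit 0) (XT.lf (nat_lit 0) (nat_lit 18054908687709) (nat_lit 76) (nat_lit 23142160232214) (nat_lit 76) (nat_lit 23141823939070) (nat_lit 1) (nat_lit 4) (nat_lit 2) (nat_lit 5) (nat_lit 2) (nat_lit 4) (nat_lit 276) (nat_lit 176) (nat_lit 148)) (XT.lf (nat_lit 0) (nat_lit 20763407348605) (nat_lit 76) (nat_lit 26613316677724) (nat_lit 76) (nat_lit 26612979490587) (nat_lit 1) (nat_lit 4) (nat_lit 2) (nat_lit 5) (nat_lit 2) (nat_lit 4) (nat_lit 277) (nat_lit 176) (nat_lit 147))) (XT.nd (nat_lit 78) (nat_lit 0) (nat_lit 0) (XT.lf (nat_lit 0) (nat_lit 23878179576760) (nat_lit 76) (nat_lit 30605147135278) (nat_lit 76) (nat_lit 30604809170756) (nat_lit 1) (nat_lit 4) (nat_lit 2) (nat_lit 5) (nat_lit 2) (nat_lit 4) (nat_lit 278) (nat_lit 176) (nat_lit 146)) (XT.lf (nat_lit 0) (nat_lit 27460166567944)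 (nat_lit 76) (nat_lit 35195752635567) (nat_lit 76) (nat_lit 35195413995057) (nat_lit 1) (nat_lit 4) (nat_lit 2) (nat_lit 5) (nat_lit 2) (nat_lit 4) (nat_lit 279) (nat_lit 176) (nat_lit 145)))) (XT.nd (nat_lit 156) (nat_lit 0) (nat_lit 0) (XT.nd (nat_lit 78) (nat_lit 0) (nat_lit 0) (XT.lf (nat_lit 0) (nat_lit 134416119249) (nat_lit 76) (nat_lit 175805809646) (nat_lit 76) (nat_lit 175805809646) (nat_lit 1) (nat_lit 4) (nat_lit 2) (nat_lit 5) (nat_lit 2) (nat_lit 4) (nat_lit 246) (nat_lit 177) (nat_lit 177)) (XT.lf (nat_lit 0) (nat_lit 309991688398) (nat_lit 76) (nat_lit 403924776345) (nat_lit 76) (nat_lit 403873304282) (nat_lit 1) (nat_lit 4) (nat_lit 2) (nat_lit 5) (nat_lit 2) (nat_lit 4) (nat_lit 247) (nat_lit 177) (nat_lit 176))) (XT.nd (nat_lit 78) (nat_lit 0) (nat_lit 0) (XT.lf (nat_lit 0) (nat_lit 357254130077) (nat_lit 76) (nat_lit 464116298059) (nat_lit 76) (nat_lit 464020067679)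 (nat_lit 1) (nat_lit 4) (nat_lit 2) (nat_lit 5) (nat_lit 2) (nat_lit 4) (nat_lit 248) (nat_lit 177) (nat_lit 175)) (XT.lf (nat_lit 0) (nat_lit 411544263480) (nat_lit 76) (nat_lit 533363844641) (nat_lit 76) (nat_lit 533228693985) (nat_lit 1) (nat_lit 4) (nat_lit 2) (nat_lit 5) (nat_lit 2) (nat_lit 4) (nat_lit 249) (nat_lit 177) (nat_lit 174))))) (XT.nd (nat_lit 312) (nat_lit 0) (nat_lit 0) (XT.nd (nat_lit 156) (nat_lit 0) (nat_lit 0) (XT.nd (nat_lit 78) (nat_lit 0) (nat_lit 0) (XT.lf (nat_lit 0) (nat_lit 473924286869) (nat_lit 76) (nat_lit 613022259392) (nat_lit 76) (nat_lit 612853265019) (nat_lit 1) (nat_lit 4) (nat_lit 2) (nat_lit 5) (nat_lit 2) (nat_lit 4) (nat_lit 250) (nat_lit 177) (nat_lit 173)) (XT.lf (nat_lit 0) (nat_lit 545614678964) (nat_lit 76) (nat_lit 704650076515) (nat_lit 76) (nat_lit 704451652823) (nat_lit 1) (nat_lit 4) (nat_lit 2) (nat_lit 5) (nat_lit 2) (nat_lit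 4) (nat_lit 251) (nat_lit 177) (nat_lit 172))) (XT.nd (nat_lit 78) (nat_lit 0) (nat_lit 0) (XT.lf (nat_lit 0) (nat_lit 628018077871) (nat_lit 76) (nat_lit 810040014171) (nat_lit 76) (nat_lit 809815999766) (nat_lit 1) (nat_lit 4) (nat_lit 2) (nat_lit 5) (nat_lit 2) (nat_lit 4) (nat_lit 252) (nat_lit 177) (nat_lit 171)) (XT.lf (nat_lit 0) (nat_lit 722746724002) (nat_lit 76) (nat_lit 931254049401) (nat_lit 76) (nat_lit 931007782203) (nat_lit 1) (nat_lit 4) (nat_lit 2) (nat_lit 5) (nat_lit 2) (nat_lit 4) (nat_lit 253) (nat_lit 177) (nat_lit 170)))) (XT.nd (nat_lit 156) (nat_lit 0) (nat_lit 0) (XT.nd (nat_lit 78) (nat_lit 0) (nat_lit 0) (XT.lf (nat_lit 0) (nat_lit 831654003913) (nat_lit 76) (nat_lit 1070663761155) (nat_lit 76) (nat_lit 1070398143701) (nat_lit 1) (nat_lit 4) (nat_lit 2) (nat_lit 5) (nat_lit 2) (nat_lit 4) (nat_lit 254) (nat_lit 177) (nat_lit 169)) (XT.lf (nat_lit 0) (nat_lit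 956870712211) (nat_lit 76) (nat_lit 1230996730750) (nat_lit 76) (nat_lit 1230714286988) (nat_lit 1) (nat_lit 4) (nat_lit 2) (nat_lit 5) (nat_lit 2) (nat_lit 4) (nat_lit 255) (nat_lit 177) (nat_lit 168))) (XT.nd (nat_lit 78) (nat_lit 0) (nat_lit 0) (XT.lf (nat_lit 0) (nat_lit 1100846741014) (nat_lit 76) (nat_lit 1415389907591) (nat_lit 76) (nat_lit 1415092832256) (nat_lit 1) (nat_lit 4) (nat_lit 2) (nat_lit 5) (nat_lit 2) (nat_lit 4) (nat_lit 256) (nat_lit 177) (nat_lit 167)) (XT.lf (nat_lit 0) (nat_lit 1266399012625) (nat_lit 76) (nat_lit 1627450984269) (nat_lit 76) (nat_lit 1627141185827) (nat_lit 1) (nat_lit 4) (nat_lit 2) (nat_lit 5) (nat_lit 2) (nat_lit 4) (nat_lit 257) (nat_lit 177) (nat_lit 166))))))))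
noncomputable def xc5 : XT := (XT.nd (nat_lit 31044) (nat_lit 0) (nat_lit 0) (XT.nd (nat_lit 1248) (nat_lit 0) (nat_lit 0) (XT.nd (nat_lit 624) (nat_lit 0) (nat_lit 0) (XT.nd (nat_lit 312) (nat_lit 0) (nat_lit 0) (XT.nd (nat_lit 156) (nat_lit 0) (nat_lit 0) (XT.nd (nat_lit 78) (nat_lit 0) (nat_lit 0) (XT.lf (nat_lit 0) (nat_lit 1456766593228) (nat_lit 76) (nat_lit 1871328981849) (nat_lit 76) (nat_lit 1871008119835) (nat_lit 1) (nat_lit 4) (nat_lit 2) (nat_lit 5) (nat_lit 2) (nat_lit 4) (nat_lit 258) (nat_lit 177) (nat_lit 165)) (XT.lf (nat_lit 0) (nat_lit 1675674065921) (nat_lit 76) (nat_lit 2151795426370) (nat_lit 76) (nat_lit 2151464943860) (nat_lit 1) (nat_lit 4) (nat_lit 2) (nat_lit 5) (nat_lit 2) (nat_lit 4) (nat_lit 259) (nat_lit 177) (nat_lit 164))) (XT.nd (nat_lit 78) (nat_lit 0) (nat_lit 0) (XT.lf (nat_lit 0) (nat_lit 1927404402997) (nat_lit 76) (nat_lit 2474337704791) (nat_lit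 76) (nat_lit 2473998856631) (nat_lit 1) (nat_lit 4) (nat_lit 2) (nat_lit 5) (nat_lit 2) (nat_lit 4) (nat_lit 260) (nat_lit 177) (nat_lit 163)) (XT.lf (nat_lit 0) (nat_lit 2216882763224) (nat_lit 76) (nat_lit 2845266426907) (nat_lit 76) (nat_lit 2844920304269) (nat_lit 1) (nat_lit 4) (nat_lit 2) (nat_lit 5) (nat_lit 2) (nat_lit 4) (nat_lit 261) (nat_lit 177) (nat_lit 162)))) (XT.nd (nat_lit 156) (nat_lit 0) (nat_lit 0) (XT.nd (nat_lit 78) (nat_lit 0) (nat_lit 0) (XT.lf (nat_lit 0) (nat_lit 2549772853651) (nat_lit 76) (nat_lit 3271838893802) (nat_lit 76) (nat_lit 3271486445532) (nat_lit 1) (nat_lit 4) (nat_lit 2) (nat_lit 5) (nat_lit 2) (nat_lit 4) (nat_lit 262) (nat_lit 177) (nat_lit 161)) (XT.lf (nat_lit 0) (nat_lit 2932587741263) (nat_lit 76) (nat_lit 3762401088526) (nat_lit 76) (nat_lit 3762043139705) (nat_lit 1) (nat_lit 4) (nat_lit 2) (nat_lit 5) (nat_lit 2) (nat_lit 4) (nat_lit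 263) (nat_lit 177) (nat_lit 160))) (XT.nd (nat_lit 78) (nat_lit 0) (nat_lit 0) (XT.lf (nat_lit 0) (nat_lit 3372817282558) (nat_lit 76) (nat_lit 4326550967060) (nat_lit 76) (nat_lit 4326188235152) (nat_lit 1) (nat_lit 4) (nat_lit 2) (nat_lit 5) (nat_lit 2) (nat_lit 4) (nat_lit 264) (nat_lit 177) (nat_lit 159)) (XT.lf (nat_lit 0) (nat_lit 3879074664213) (nat_lit 76) (nat_lit 4975326244420) (nat_lit 76) (nat_lit 4974959353306) (nat_lit 1) (nat_lit 4) (nat_lit 2) (nat_lit 5) (nat_lit 2) (nat_lit 4) (nat_lit 265) (nat_lit 177) (nat_lit 158))))) (XT.nd (nat_lit 312) (nat_lit 0) (nat_lit 0) (XT.nd (nat_lit 156) (nat_lit 0) (nat_lit 0) (XT.nd (nat_lit 78) (nat_lit 0) (nat_lit 0) (XT.lf (nat_lit 0) (nat_lit 4461264921956) (nat_lit 76) (nat_lit 5721420349947) (nat_lit 76) (nat_lit 5721049842132) (nat_lit 1) (nat_lit 4) (nat_lit 2) (nat_lit 5) (nat_lit 2) (nat_lit 4) (nat_lit 266) (nat_lit 177)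 (nat_lit 157)) (XT.lf (nat_lit 0) (nat_lit 5130778734743) (nat_lit 76) (nat_lit 6579430777008) (nat_lit 76) (nat_lit 6579057124235) (nat_lit 1) (nat_lit 4) (nat_lit 2) (nat_lit 5) (nat_lit 2) (nat_lit 4) (nat_lit 267) (nat_lit 177) (nat_lit 156))) (XT.nd (nat_lit 78) (nat_lit 0) (nat_lit 0) (XT.lf (nat_lit 0) (nat_lit 5900715285867) (nat_lit 76) (nat_lit 7566144686133) (nat_lit 76) (nat_lit 7565768298615) (nat_lit 1) (nat_lit 4) (nat_lit 2) (nat_lit 5) (nat_lit 2) (nat_lit 4) (nat_lit 268) (nat_lit 177) (nat_lit 155)) (XT.lf (nat_lit 0) (nat_lit 6786138551330) (nat_lit 76) (nat_lit 8700867349458) (nat_lit 76) (nat_lit 8700488583900) (nat_lit 1) (nat_lit 4) (nat_lit 2) (nat_lit 5) (nat_lit 2) (nat_lit 4) (nat_lit 269) (nat_lit 177) (nat_lit 154)))) (XT.nd (nat_lit 156) (nat_lit 0) (nat_lit 0) (XT.nd (nat_lit 78) (nat_lit 0) (nat_lit 0) (XT.lf (nat_lit 0) (nat_lit 7804372029802) (nat_lit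 76) (nat_lit 10005799862568) (nat_lit 76) (nat_lit 10005419029150) (nat_lit 1) (nat_lit 4) (nat_lit 2) (nat_lit 5) (nat_lit 2) (nat_lit 4) (nat_lit 270) (nat_lit 177) (nat_lit 153)) (XT.lf (nat_lit 0) (nat_lit 8975337680646) (nat_lit 76) (nat_lit 11506473513765) (nat_lit 76) (nat_lit 11506090882207) (nat_lit 1) (nat_lit 4) (nat_lit 2) (nat_lit 5) (nat_lit 2) (nat_lit 4) (nat_lit 271) (nat_lit 177) (nat_lit 152))) (XT.nd (nat_lit 78) (nat_lit 0) (nat_lit 0) (XT.lf (nat_lit 0) (nat_lit 10321945701377) (nat_lit 76) (nat_lit 13232249309267) (nat_lit 76) (nat_lit 13231865114110) (nat_lit 1) (nat_lit 4) (nat_lit 2) (nat_lit 5) (nat_lit 2) (nat_lit 4) (nat_lit 272) (nat_lit 177) (nat_lit 151)) (XT.lf (nat_lit 0) (nat_lit 11870542770663) (nat_lit 76) (nat_lit 15216892427682) (nat_lit 76) (nat_lit 15216506872872) (nat_lit 1) (nat_lit 4) (nat_lit 2) (nat_lit 5) (nat_lit 2) (nat_lit 4) (nat_lit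 273) (nat_lit 177) (nat_lit 150)))))) (XT.nd (nat_lit 29172) (nat_lit 0) (nat_lit 0) (XT.nd (nat_lit 312) (nat_lit 0) (nat_lit 0) (XT.nd (nat_lit 156) (nat_lit 0) (nat_lit 0) (XT.nd (nat_lit 78) (nat_lit 0) (nat_lit 0) (XT.lf (nat_lit 0) (nat_lit 13651427526816) (nat_lit 76) (nat_lit 17499232843066) (nat_lit 76) (nat_lit 17498846105950) (nat_lit 1) (nat_lit 4) (nat_lit 2) (nat_lit 5) (nat_lit 2) (nat_lit 4) (nat_lit 274) (nat_lit 177) (nat_lit 149)) (XT.lf (nat_lit 0) (nat_lit 15699443367237) (nat_lit 76) (nat_lit 20123925041806) (nat_lit 76) (nat_lit 20123537276598) (nat_lit 1) (nat_lit 4) (nat_lit 2) (nat_lit 5) (nat_lit 2) (nat_lit 4) (nat_lit 275) (nat_lit 177) (nat_lit 148))) (XT.nd (nat_lit 78) (nat_lit 0) (nat_lit 0) (XT.lf (nat_lit 0) (nat_lit 18054660167067) (nat_lit 76) (nat_lit 23142321697356) (nat_lit 76) (nat_lit 23141933038155) (nat_lit 1) (nat_lit 4) (nat_lit 2) (nat_lit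 5) (nat_lit 2) (nat_lit 4) (nat_lit 276) (nat_lit 177) (nat_lit 147)) (XT.lf (nat_lit 0) (nat_lit 20763158254998) (nat_lit 76) (nat_lit 26613478396456) (nat_lit 76) (nat_lit 26613088959870) (nat_lit 1) (nat_lit 4) (nat_lit 2) (nat_lit 5) (nat_lit 2) (nat_lit 4) (nat_lit 277) (nat_lit 177) (nat_lit 146)))) (XT.nd (nat_lit 28704) (nat_lit 0) (nat_lit 0) (XT.nd (nat_lit 28626) (nat_lit 0) (nat_lit 0) (XT.lf (nat_lit 0) (nat_lit 23877929984923) (nat_lit 76) (nat_lit 30605309074522) (nat_lit 76) (nat_lit 30604918961949) (nat_lit 1) (nat_lit 4) (nat_lit 2) (nat_lit 5) (nat_lit 2) (nat_lit 4) (nat_lit 278) (nat_lit 177) (nat_lit 145)) (XT.lf (nat_lit 0) (nat_lit 100874208934) (nat_lit 76) (nat_lit 133350163129) (nat_lit 76) (nat_lit 133350163129) (nat_lit 1) (nat_lit 4) (nat_lit 2) (nat_lit 5) (nat_lit 2) (nat_lit 4) (nat_lit 244) (nat_lit 178) (nat_lit 178))) (XT.nd (nat_lit 78) (nat_lit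 0) (nat_lit 0) (XT.lf (nat_lit 0) (nat_lit 232970486793) (nat_lit 76) (nat_lit 306212501481) (nat_lit 76) (nat_lit 306153308608) (nat_lit 1) (nat_lit 4) (nat_lit 2) (nat_lit 5) (nat_lit 2) (nat_lit 4) (nat_lit 245) (nat_lit 178) (nat_lit 177)) (XT.lf (nat_lit 0) (nat_lit 268794301493) (nat_lit 76) (nat_lit 351687602754) (nat_lit 76) (nat_lit 351576937817) (nat_lit 1) (nat_lit 4) (nat_lit 2) (nat_lit 5) (nat_lit 2) (nat_lit 4) (nat_lit 246) (nat_lit 178) (nat_lit 176))))) (XT.nd (nat_lit 312) (nat_lit 0) (nat_lit 0) (XT.nd (nat_lit 156) (nat_lit 0) (nat_lit 0) (XT.nd (nat_lit 78) (nat_lit 0) (nat_lit 0) (XT.lf (nat_lit 0) (nat_lit 309920762692) (nat_lit 76) (nat_lit 404015360321) (nat_lit 76) (nat_lit 403859937067) (nat_lit 1) (nat_lit 4) (nat_lit 2) (nat_lit 5) (nat_lit 2) (nat_lit 4) (nat_lit 247) (nat_lit 178) (nat_lit 175)) (XT.lf (nat_lit 0) (nat_lit 357154518544) (nat_lit 76)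 (nat_lit 464219578132) (nat_lit 76) (nat_lit 464025234604) (nat_lit 1) (nat_lit 4) (nat_lit 2) (nat_lit 5) (nat_lit 2) (nat_lit 4) (nat_lit 248) (nat_lit 178) (nat_lit 174))) (XT.nd (nat_lit 78) (nat_lit 0) (nat_lit 0) (XT.lf (nat_lit 0) (nat_lit 411419707750) (nat_lit 76) (nat_lit 533478164799) (nat_lit 76) (nat_lit 533249977553) (nat_lit 1) (nat_lit 4) (nat_lit 2) (nat_lit 5) (nat_lit 2) (nat_lit 4) (nat_lit 249) (nat_lit 178) (nat_lit 173)) (XT.lf (nat_lit 0) (nat_lit 473778040533) (nat_lit 76) (nat_lit 613146179624) (nat_lit 76) (nat_lit 612888563059) (nat_lit 1) (nat_lit 4) (nat_lit 2) (nat_lit 5) (nat_lit 2) (nat_lit 4) (nat_lit 250) (nat_lit 178) (nat_lit 172)))) (XT.nd (nat_lit 156) (nat_lit 0) (nat_lit 0) (XT.nd (nat_lit 78) (nat_lit 0) (nat_lit 0) (XT.lf (nat_lit 0) (nat_lit 545449571232) (nat_lit 76) (nat_lit 704782344638) (nat_lit 76) (nat_lit 704499137359) (nat_lit 1)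 (nat_lit 4) (nat_lit 2) (nat_lit 5) (nat_lit 2) (nat_lit 4) (nat_lit 251) (nat_lit 178) (nat_lit 171)) (XT.lf (nat_lit 0) (nat_lit 627836568924) (nat_lit 76) (nat_lit 810179541329) (nat_lit 76) (nat_lit 809874081257) (nat_lit 1) (nat_lit 4) (nat_lit 2) (nat_lit 5) (nat_lit 2) (nat_lit 4) (nat_lit 252) (nat_lit 178) (nat_lit 170))) (XT.nd (nat_lit 78) (nat_lit 0) (nat_lit 0) (XT.lf (nat_lit 0) (nat_lit 722550953129) (nat_lit 76) (nat_lit 931399888763) (nat_lit 76) (nat_lit 931075078436) (nat_lit 1) (nat_lit 4) (nat_lit 2) (nat_lit 5) (nat_lit 2) (nat_lit 4) (nat_lit 253) (nat_lit 178) (nat_lit 169)) (XT.lf (nat_lit 0) (nat_lit 831445831366) (nat_lit 76) (nat_lit 1070815089391) (nat_lit 76) (nat_lit 1070473452755) (nat_lit 1) (nat_lit 4) (nat_lit 2) (nat_lit 5) (nat_lit 2) (nat_lit 4) (nat_lit 254) (nat_lit 178) (nat_lit 168))))))) (XT.nd (nat_lit 1248) (nat_lit 0) (nat_lit 0) (XT.nd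 (nat_lit 624) (nat_lit 0) (nat_lit 0) (XT.nd (nat_lit 312) (nat_lit 0) (nat_lit 0) (XT.nd (nat_lit 156) (nat_lit 0) (nat_lit 0) (XT.nd (nat_lit 78) (nat_lit 0) (nat_lit 0) (XT.lf (nat_lit 0) (nat_lit 956651755599) (nat_lit 76) (nat_lit 1231152831919) (nat_lit 76) (nat_lit 1230796563710) (nat_lit 1) (nat_lit 4) (nat_lit 2) (nat_lit 5) (nat_lit 2) (nat_lit 4) (nat_lit 255) (nat_lit 178) (nat_lit 167)) (XT.lf (nat_lit 0) (nat_lit 1100618406954) (nat_lit 76) (nat_lit 1415550159137) (nat_lit 76) (nat_lit 1415181167821) (nat_lit 1) (nat_lit 4) (nat_lit 2) (nat_lit 5) (nat_lit 2) (nat_lit 4) (nat_lit 256) (nat_lit 178) (nat_lit 166))) (XT.nd (nat_lit 78) (nat_lit 0) (nat_lit 0) (XT.lf (nat_lit 0) (nat_lit 1266162524263) (nat_lit 76) (nat_lit 1627614844839) (nat_lit 76) (nat_lit 1627234789951) (nat_lit 1) (nat_lit 4) (nat_lit 2) (nat_lit 5) (nat_lit 2) (nat_lit 4) (nat_lit 257) (nat_lit 178)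 (nat_lit 165)) (XT.lf (nat_lit 0) (nat_lit 1456523014168) (nat_lit 76) (nat_lit 1871495980700) (nat_lit 76) (nat_lit 1871106305316) (nat_lit 1) (nat_lit 4) (nat_lit 2) (nat_lit 5) (nat_lit 2) (nat_lit 4) (nat_lit 258) (nat_lit 178) (nat_lit 164)))) (XT.nd (nat_lit 156) (nat_lit 0) (nat_lit 0) (XT.nd (nat_lit 78) (nat_lit 0) (nat_lit 0) (XT.lf (nat_lit 0) (nat_lit 1675424321038) (nat_lit 76) (nat_lit 2151965154161) (nat_lit 76) (nat_lit 2151567113128) (nat_lit 1) (nat_lit 4) (nat_lit 2) (nat_lit 5) (nat_lit 2) (nat_lit 4) (nat_lit 259) (nat_lit 178) (nat_lit 163)) (XT.lf (nat_lit 0) (nat_lit 1927149296528) (nat_lit 76) (nat_lit 2474509805574) (nat_lit 76) (nat_lit 2474104490063) (nat_lit 1) (nat_lit 4) (nat_lit 2) (nat_lit 5) (nat_lit 2) (nat_lit 4) (nat_lit 260) (nat_lit 178) (nat_lit 162))) (XT.nd (nat_lit 78) (nat_lit 0) (nat_lit 0) (XT.lf (nat_lit 0) (nat_lit 2216622994506) (nat_lit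 76) (nat_lit 2845440591160) (nat_lit 76) (nat_lit 2845028950016) (nat_lit 1) (nat_lit 4) (nat_lit 2) (nat_lit 5) (nat_lit 2) (nat_lit 4) (nat_lit 261) (nat_lit 178) (nat_lit 161)) (XT.lf (nat_lit 0) (nat_lit 2549509030803) (nat_lit 76) (nat_lit 3272014852378) (nat_lit 76) (nat_lit 3271597710684) (nat_lit 1) (nat_lit 4) (nat_lit 2) (nat_lit 5) (nat_lit 2) (nat_lit 4) (nat_lit 262) (nat_lit 178) (nat_lit 160))))) (XT.nd (nat_lit 312) (nat_lit 0) (nat_lit 0) (XT.nd (nat_lit 156) (nat_lit 0) (nat_lit 0) (XT.nd (nat_lit 78) (nat_lit 0) (nat_lit 0) (XT.lf (nat_lit 0) (nat_lit 2932320393086) (nat_lit 76) (nat_lit 3762578607381) (nat_lit 76) (nat_lit 3762156682600) (nat_lit 1) (nat_lit 4) (nat_lit 2) (nat_lit 5) (nat_lit 2) (nat_lit 4) (nat_lit 263) (nat_lit 178) (nat_lit 159)) (XT.lf (nat_lit 0) (nat_lit 3372546868876) (nat_lit 76) (nat_lit 4326729842681) (nat_lit 76) (nat_lit 4326303758694)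 (nat_lit 1) (nat_lit 4) (nat_lit 2) (nat_lit 5) (nat_lit 2) (nat_lit 4) (nat_lit 264) (nat_lit 178) (nat_lit 158))) (XT.nd (nat_lit 78) (nat_lit 0) (nat_lit 0) (XT.lf (nat_lit 0) (nat_lit 3878801584875) (nat_lit 76) (nat_lit 4975506299838) (nat_lit 76) (nat_lit 4975076599150) (nat_lit 1) (nat_lit 4) (nat_lit 2) (nat_lit 5) (nat_lit 2) (nat_lit 4) (nat_lit 265) (nat_lit 178) (nat_lit 157)) (XT.lf (nat_lit 0) (nat_lit 4460989524656) (nat_lit 76) (nat_lit 5721601431274) (nat_lit 76) (nat_lit 5721168585628) (nat_lit 1) (nat_lit 4) (nat_lit 2) (nat_lit 5) (nat_lit 2) (nat_lit 4) (nat_lit 266) (nat_lit 178) (nat_lit 156)))) (XT.nd (nat_lit 156) (nat_lit 0) (nat_lit 0) (XT.nd (nat_lit 78) (nat_lit 0) (nat_lit 0) (XT.lf (nat_lit 0) (nat_lit 5130501321825) (nat_lit 76) (nat_lit 6579612750431) (nat_lit 76) (nat_lit 6579177170039) (nat_lit 1) (nat_lit 4) (nat_lit 2) (nat_lit 5) (nat_lit 2) (nat_lit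 4) (nat_lit 267) (nat_lit 178) (nat_lit 155)) (XT.lf (nat_lit 0) (nat_lit 5900436120237) (nat_lit 76) (nat_lit 7566327435291) (nat_lit 76) (nat_lit 7565889476860) (nat_lit 1) (nat_lit 4) (nat_lit 2) (nat_lit 5) (nat_lit 2) (nat_lit 4) (nat_lit 268) (nat_lit 178) (nat_lit 154))) (XT.nd (nat_lit 78) (nat_lit 0) (nat_lit 0) (XT.lf (nat_lit 0) (nat_lit 6785857861602) (nat_lit 76) (nat_lit 8701050773168) (nat_lit 76) (nat_lit 8700610746876) (nat_lit 1) (nat_lit 4) (nat_lit 2) (nat_lit 5) (nat_lit 2) (nat_lit 4) (nat_lit 269) (nat_lit 178) (nat_lit 153)) (XT.lf (nat_lit 0) (nat_lit 7804090014772) (nat_lit 76) (nat_lit 10005983872846) (nat_lit 76) (nat_lit 10005542048414) (nat_lit 1) (nat_lit 4) (nat_lit 2) (nat_lit 5) (nat_lit 2) (nat_lit 4) (nat_lit 270) (nat_lit 178) (nat_lit 152)))))) (XT.nd (nat_lit 624) (nat_lit 0) (nat_lit 0) (XT.nd (nat_lit 312) (nat_lit 0) (nat_lit 0) (XT.nd (nat_lit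 156) (nat_lit 0) (nat_lit 0) (XT.nd (nat_lit 78) (nat_lit 0) (nat_lit 0) (XT.lf (nat_lit 0) (nat_lit 8975054513179) (nat_lit 76) (nat_lit 11506658034101) (nat_lit 76) (nat_lit 11506214646070) (nat_lit 1) (nat_lit 4) (nat_lit 2) (nat_lit 5) (nat_lit 2) (nat_lit 4) (nat_lit 271) (nat_lit 178) (nat_lit 151)) (XT.lf (nat_lit 0) (nat_lit 10321661531792) (nat_lit 76) (nat_lit 13232434273132) (nat_lit 76) (nat_lit 13231989525449) (nat_lit 1) (nat_lit 4) (nat_lit 2) (nat_lit 5) (nat_lit 2) (nat_lit 4) (nat_lit 272) (nat_lit 178) (nat_lit 150))) (XT.nd (nat_lit 78) (nat_lit 0) (nat_lit 0) (XT.lf (nat_lit 0) (nat_lit 11870257729671) (nat_lit 76) (nat_lit 15217077777224) (nat_lit 76) (nat_lit 15216631847235) (nat_lit 1) (nat_lit 4) (nat_lit 2) (nat_lit 5) (nat_lit 2) (nat_lit 4) (nat_lit 273) (nat_lit 178) (nat_lit 149)) (XT.lf (nat_lit 0) (nat_lit 13651141728077) (nat_lit 76) (nat_lit 17499418527980)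 (nat_lit 76) (nat_lit 17498971569898) (nat_lit 1) (nat_lit 4) (nat_lit 2) (nat_lit 5) (nat_lit 2) (nat_lit 4) (nat_lit 274) (nat_lit 178) (nat_lit 148)))) (XT.nd (nat_lit 156) (nat_lit 0) (nat_lit 0) (XT.nd (nat_lit 78) (nat_lit 0) (nat_lit 0) (XT.lf (nat_lit 0) (nat_lit 15699156909590) (nat_lit 76) (nat_lit 20124111018347) (nat_lit 76) (nat_lit 20123663166273) (nat_lit 1) (nat_lit 4) (nat_lit 2) (nat_lit 5) (nat_lit 2) (nat_lit 4) (nat_lit 275) (nat_lit 178) (nat_lit 147)) (XT.lf (nat_lit 0) (nat_lit 18054373136455) (nat_lit 76) (nat_lit 23142507927487) (nat_lit 76) (nat_lit 23142059298027) (nat_lit 1) (nat_lit 4) (nat_lit 2) (nat_lit 5) (nat_lit 2) (nat_lit 4) (nat_lit 276) (nat_lit 178) (nat_lit 146))) (XT.nd (nat_lit 78) (nat_lit 0) (nat_lit 0) (XT.lf (nat_lit 0) (nat_lit 20762870726155) (nat_lit 76) (nat_lit 26613664847099) (nat_lit 76) (nat_lit 26613215541652) (nat_lit 1) (nat_lit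 4) (nat_lit 2) (nat_lit 5) (nat_lit 2) (nat_lit 4) (nat_lit 277) (nat_lit 178) (nat_lit 145)) (XT.lf (nat_lit 0) (nat_lit 23877642022837) (nat_lit 76) (nat_lit 30605495716915) (nat_lit 76) (nat_lit 30605045823653) (nat_lit 1) (nat_lit 4) (nat_lit 2) (nat_lit 5) (nat_lit 2) (nat_lit 4) (nat_lit 278) (nat_lit 178) (nat_lit 144))))) (XT.nd (nat_lit 28392) (nat_lit 0) (nat_lit 0) (XT.nd (nat_lit 156) (nat_lit 0) (nat_lit 0) (XT.nd (nat_lit 78) (nat_lit 0) (nat_lit 0) (XT.lf (nat_lit 0) (nat_lit 27459628204044) (nat_lit 76) (nat_lit 35196101575693) (nat_lit 76) (nat_lit 35195651171287) (nat_lit 1) (nat_lit 4) (nat_lit 2) (nat_lit 5) (nat_lit 2) (nat_lit 4) (nat_lit 279) (nat_lit 178) (nat_lit 143)) (XT.lf (nat_lit 0) (nat_lit 31578911608104) (nat_lit 76) (nat_lit 40475298625016) (nat_lit 76) (nat_lit 40474847776138) (nat_lit 1) (nat_lit 4) (nat_lit 2) (nat_lit 5) (nat_lit 2) (nat_lit 4)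 (nat_lit 280) (nat_lit 178) (nat_lit 142))) (XT.nd (nat_lit 78) (nat_lit 0) (nat_lit 0) (XT.lf (nat_lit 0) (nat_lit 36316086910313) (nat_lit 76) (nat_lit 46546375502808) (nat_lit 76) (nat_lit 46545924267432) (nat_lit 1) (nat_lit 4) (nat_lit 2) (nat_lit 5) (nat_lit 2) (nat_lit 4) (nat_lit 281) (nat_lit 178) (nat_lit 141)) (XT.lf (nat_lit 0) (nat_lit 41763837975281) (nat_lit 76) (nat_lit 53528114147980) (nat_lit 76) (nat_lit 53527662576519) (nat_lit 1) (nat_lit 4) (nat_lit 2) (nat_lit 5) (nat_lit 2) (nat_lit 4) (nat_lit 282) (nat_lit 178) (nat_lit 140)))) (XT.nd (nat_lit 156) (nat_lit 0) (nat_lit 0) (XT.nd (nat_lit 78) (nat_lit 0) (nat_lit 0) (XT.lf (nat_lit 0) (nat_lit 75397152598) (nat_lit 76) (nat_lit 101309951898) (nat_lit 76) (nat_lit 101309951898) (nat_lit 1) (nat_lit 4) (nat_lit 2) (nat_lit 5) (nat_lit 2) (nat_lit 4) (nat_lit 242) (nat_lit 179) (nat_lit 179)) (XT.lf (nat_lit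 0) (nat_lit 174517228156) (nat_lit 76) (nat_lit 232446084592) (nat_lit 76) (nat_lit 232378012788) (nat_lit 1) (nat_lit 4) (nat_lit 2) (nat_lit 5) (nat_lit 2) (nat_lit 4) (nat_lit 243) (nat_lit 179) (nat_lit 178))) (XT.nd (nat_lit 78) (nat_lit 0) (nat_lit 0) (XT.lf (nat_lit 0) (nat_lit 201704790312) (nat_lit 76) (nat_lit 266787707240) (nat_lit 76) (nat_lit 266660442563) (nat_lit 1) (nat_lit 4) (nat_lit 2) (nat_lit 5) (nat_lit 2) (nat_lit 4) (nat_lit 244) (nat_lit 179) (nat_lit 177)) (XT.lf (nat_lit 0) (nat_lit 232888922231) (nat_lit 76) (nat_lit 306316673052) (nat_lit 76) (nat_lit 306137936311) (nat_lit 1) (nat_lit 4) (nat_lit 2) (nat_lit 5) (nat_lit 2) (nat_lit 4) (nat_lit 245) (nat_lit 179) (nat_lit 176))))))))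
noncomputable def xc6 : XT := (XT.nd (nat_lit 2496) (nat_lit 0) (nat_lit 0) (XT.nd (nat_lit 1248) (nat_lit 0) (nat_lit 0) (XT.nd (nat_lit 624) (nat_lit 0) (nat_lit 0) (XT.nd (nat_lit 312) (nat_lit 0) (nat_lit 0) (XT.nd (nat_lit 156) (nat_lit 0) (nat_lit 0) (XT.nd (nat_lit 78) (nat_lit 0) (nat_lit 0) (XT.lf (nat_lit 0) (nat_lit 268679748230) (nat_lit 76) (nat_lit 351806374838) (nat_lit 76) (nat_lit 351582879781) (nat_lit 1) (nat_lit 4) (nat_lit 2) (nat_lit 5) (nat_lit 2) (nat_lit 4) (nat_lit 246) (nat_lit 179) (nat_lit 175)) (XT.lf (nat_lit 0) (nat_lit 309777523603) (nat_lit 76) (nat_lit 404146828503) (nat_lit 76) (nat_lit 403884413170) (nat_lit 1) (nat_lit 4) (nat_lit 2) (nat_lit 5) (nat_lit 2) (nat_lit 4) (nat_lit 247) (nat_lit 179) (nat_lit 174))) (XT.nd (nat_lit 78) (nat_lit 0) (nat_lit 0) (XT.lf (nat_lit 0) (nat_lit 356986335257) (nat_lit 76) (nat_lit 464362086399) (nat_lit 76)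 (nat_lit 464065827349) (nat_lit 1) (nat_lit 4) (nat_lit 2) (nat_lit 5) (nat_lit 2) (nat_lit 4) (nat_lit 248) (nat_lit 179) (nat_lit 173)) (XT.lf (nat_lit 0) (nat_lit 411229833857) (nat_lit 76) (nat_lit 533630273140) (nat_lit 76) (nat_lit 533304584770) (nat_lit 1) (nat_lit 4) (nat_lit 2) (nat_lit 5) (nat_lit 2) (nat_lit 4) (nat_lit 249) (nat_lit 179) (nat_lit 172)))) (XT.nd (nat_lit 156) (nat_lit 0) (nat_lit 0) (XT.nd (nat_lit 78) (nat_lit 0) (nat_lit 0) (XT.lf (nat_lit 0) (nat_lit 473569305244) (nat_lit 76) (nat_lit 613306635855) (nat_lit 76) (nat_lit 612955356773) (nat_lit 1) (nat_lit 4) (nat_lit 2) (nat_lit 5) (nat_lit 2) (nat_lit 4) (nat_lit 250) (nat_lit 179) (nat_lit 171)) (XT.lf (nat_lit 0) (nat_lit 545224434728) (nat_lit 76) (nat_lit 704950059904) (nat_lit 76) (nat_lit 704576528028) (nat_lit 1) (nat_lit 4) (nat_lit 2) (nat_lit 5) (nat_lit 2) (nat_lit 4) (nat_lit 251) (nat_lit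 179) (nat_lit 170))) (XT.nd (nat_lit 78) (nat_lit 0) (nat_lit 0) (XT.lf (nat_lit 0) (nat_lit 627597170494) (nat_lit 76) (nat_lit 810353568800) (nat_lit 76) (nat_lit 809960686668) (nat_lit 1) (nat_lit 4) (nat_lit 2) (nat_lit 5) (nat_lit 2) (nat_lit 4) (nat_lit 252) (nat_lit 179) (nat_lit 169)) (XT.lf (nat_lit 0) (nat_lit 722299153026) (nat_lit 76) (nat_lit 931579405108) (nat_lit 76) (nat_lit 931169696667) (nat_lit 1) (nat_lit 4) (nat_lit 2) (nat_lit 5) (nat_lit 2) (nat_lit 4) (nat_lit 253) (nat_lit 179) (nat_lit 168))))) (XT.nd (nat_lit 312) (nat_lit 0) (nat_lit 0) (XT.nd (nat_lit 156) (nat_lit 0) (nat_lit 0) (XT.nd (nat_lit 78) (nat_lit 0) (nat_lit 0) (XT.lf (nat_lit 0) (nat_lit 831183247197) (nat_lit 76) (nat_lit 1070999378669) (nat_lit 76) (nat_lit 1070575038655) (nat_lit 1) (nat_lit 4) (nat_lit 2) (nat_lit 5) (nat_lit 2) (nat_lit 4) (nat_lit 254) (nat_lit 179) (nat_lit 167)) (XT.lf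 (nat_lit 0) (nat_lit 956379793983) (nat_lit 76) (nat_lit 1231341271574) (nat_lit 76) (nat_lit 1230904208454) (nat_lit 1) (nat_lit 4) (nat_lit 2) (nat_lit 5) (nat_lit 2) (nat_lit 4) (nat_lit 255) (nat_lit 179) (nat_lit 166))) (XT.nd (nat_lit 78) (nat_lit 0) (nat_lit 0) (XT.lf (nat_lit 0) (nat_lit 1100338291036) (nat_lit 76) (nat_lit 1415742207816) (nat_lit 76) (nat_lit 1415294081124) (nat_lit 1) (nat_lit 4) (nat_lit 2) (nat_lit 5) (nat_lit 2) (nat_lit 4) (nat_lit 256) (nat_lit 179) (nat_lit 165)) (XT.lf (nat_lit 0) (nat_lit 1265875317647) (nat_lit 76) (nat_lit 1627810031798) (nat_lit 76) (nat_lit 1627352284610) (nat_lit 1) (nat_lit 4) (nat_lit 2) (nat_lit 5) (nat_lit 2) (nat_lit 4) (nat_lit 257) (nat_lit 179) (nat_lit 164)))) (XT.nd (nat_lit 156) (nat_lit 0) (nat_lit 0) (XT.nd (nat_lit 78) (nat_lit 0) (nat_lit 0) (XT.lf (nat_lit 0) (nat_lit 1456229641729) (nat_lit 76) (nat_lit 1871693896599)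 (nat_lit 76) (nat_lit 1871227783762) (nat_lit 1) (nat_lit 4) (nat_lit 2) (nat_lit 5) (nat_lit 2) (nat_lit 4) (nat_lit 258) (nat_lit 179) (nat_lit 163)) (XT.lf (nat_lit 0) (nat_lit 1675125587012) (nat_lit 76) (nat_lit 2152165443052) (nat_lit 76) (nat_lit 2151692055737) (nat_lit 1) (nat_lit 4) (nat_lit 2) (nat_lit 5) (nat_lit 2) (nat_lit 4) (nat_lit 259) (nat_lit 179) (nat_lit 162))) (XT.nd (nat_lit 78) (nat_lit 0) (nat_lit 0) (XT.lf (nat_lit 0) (nat_lit 1926845900253) (nat_lit 76) (nat_lit 2474712157935) (nat_lit 76) (nat_lit 2474232444987) (nat_lit 1) (nat_lit 4) (nat_lit 2) (nat_lit 5) (nat_lit 2) (nat_lit 4) (nat_lit 260) (nat_lit 179) (nat_lit 161)) (XT.lf (nat_lit 0) (nat_lit 2216315544102) (nat_lit 76) (nat_lit 2845644737845) (nat_lit 76) (nat_lit 2845159524346) (nat_lit 1) (nat_lit 4) (nat_lit 2) (nat_lit 5) (nat_lit 2) (nat_lit 4) (nat_lit 261) (nat_lit 179) (nat_lit 160))))))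 (XT.nd (nat_lit 624) (nat_lit 0) (nat_lit 0) (XT.nd (nat_lit 312) (nat_lit 0) (nat_lit 0) (XT.nd (nat_lit 156) (nat_lit 0) (nat_lit 0) (XT.nd (nat_lit 78) (nat_lit 0) (nat_lit 0) (XT.lf (nat_lit 0) (nat_lit 2549198055069) (nat_lit 76) (nat_lit 3272220559343) (nat_lit 76) (nat_lit 3271730562757) (nat_lit 1) (nat_lit 4) (nat_lit 2) (nat_lit 5) (nat_lit 2) (nat_lit 4) (nat_lit 262) (nat_lit 179) (nat_lit 159)) (XT.lf (nat_lit 0) (nat_lit 2932006351847) (nat_lit 76) (nat_lit 3762785671112) (nat_lit 76) (nat_lit 3762291515320) (nat_lit 1) (nat_lit 4) (nat_lit 2) (nat_lit 5) (nat_lit 2) (nat_lit 4) (nat_lit 263) (nat_lit 179) (nat_lit 158))) (XT.nd (nat_lit 78) (nat_lit 0) (nat_lit 0) (XT.lf (nat_lit 0) (nat_lit 3372230161982) (nat_lit 76) (nat_lit 4326938086208) (nat_lit 76) (nat_lit 4326440313715) (nat_lit 1) (nat_lit 4) (nat_lit 2) (nat_lit 5) (nat_lit 2) (nat_lit 4) (nat_lit 264) (nat_lit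 179) (nat_lit 157)) (XT.lf (nat_lit 0) (nat_lit 3878482560019) (nat_lit 76) (nat_lit 4975715569274) (nat_lit 76) (nat_lit 4975214651824) (nat_lit 1) (nat_lit 4) (nat_lit 2) (nat_lit 5) (nat_lit 2) (nat_lit 4) (nat_lit 265) (nat_lit 179) (nat_lit 156)))) (XT.nd (nat_lit 156) (nat_lit 0) (nat_lit 0) (XT.nd (nat_lit 78) (nat_lit 0) (nat_lit 0) (XT.lf (nat_lit 0) (nat_lit 4460668484182) (nat_lit 76) (nat_lit 5721811592806) (nat_lit 76) (nat_lit 5721307940610) (nat_lit 1) (nat_lit 4) (nat_lit 2) (nat_lit 5) (nat_lit 2) (nat_lit 4) (nat_lit 266) (nat_lit 179) (nat_lit 155)) (XT.lf (nat_lit 0) (nat_lit 5130178528638) (nat_lit 76) (nat_lit 6579823687697) (nat_lit 76) (nat_lit 6579317657462) (nat_lit 1) (nat_lit 4) (nat_lit 2) (nat_lit 5) (nat_lit 2) (nat_lit 4) (nat_lit 267) (nat_lit 179) (nat_lit 154))) (XT.nd (nat_lit 78) (nat_lit 0) (nat_lit 0) (XT.lf (nat_lit 0) (nat_lit 5900111802953)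 (nat_lit 76) (nat_lit 7566539047110) (nat_lit 76) (nat_lit 7566030949014) (nat_lit 1) (nat_lit 4) (nat_lit 2) (nat_lit 5) (nat_lit 2) (nat_lit 4) (nat_lit 268) (nat_lit 179) (nat_lit 153)) (XT.lf (nat_lit 0) (nat_lit 6785532219016) (nat_lit 76) (nat_lit 8701262971554) (nat_lit 76) (nat_lit 8700753075318) (nat_lit 1) (nat_lit 4) (nat_lit 2) (nat_lit 5) (nat_lit 2) (nat_lit 4) (nat_lit 269) (nat_lit 179) (nat_lit 152))))) (XT.nd (nat_lit 312) (nat_lit 0) (nat_lit 0) (XT.nd (nat_lit 156) (nat_lit 0) (nat_lit 0) (XT.nd (nat_lit 78) (nat_lit 0) (nat_lit 0) (XT.lf (nat_lit 0) (nat_lit 7803763219750) (nat_lit 76) (nat_lit 10006196581290) (nat_lit 76) (nat_lit 10005685121455) (nat_lit 1) (nat_lit 4) (nat_lit 2) (nat_lit 5) (nat_lit 2) (nat_lit 4) (nat_lit 270) (nat_lit 179) (nat_lit 151)) (XT.lf (nat_lit 0) (nat_lit 8974726716038) (nat_lit 76) (nat_lit 11506871186075) (nat_lit 76) (nat_lit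 11506358366587) (nat_lit 1) (nat_lit 4) (nat_lit 2) (nat_lit 5) (nat_lit 2) (nat_lit 4) (nat_lit 271) (nat_lit 179) (nat_lit 150))) (XT.nd (nat_lit 78) (nat_lit 0) (nat_lit 0) (XT.lf (nat_lit 0) (nat_lit 10321332863243) (nat_lit 76) (nat_lit 13232647810783) (nat_lit 76) (nat_lit 13232133808990) (nat_lit 1) (nat_lit 4) (nat_lit 2) (nat_lit 5) (nat_lit 2) (nat_lit 4) (nat_lit 272) (nat_lit 179) (nat_lit 149)) (XT.lf (nat_lit 0) (nat_lit 11869928303376) (nat_lit 76) (nat_lit 15217291650247) (nat_lit 76) (nat_lit 15216776620362) (nat_lit 1) (nat_lit 4) (nat_lit 2) (nat_lit 5) (nat_lit 2) (nat_lit 4) (nat_lit 273) (nat_lit 179) (nat_lit 148)))) (XT.nd (nat_lit 156) (nat_lit 0) (nat_lit 0) (XT.nd (nat_lit 78) (nat_lit 0) (nat_lit 0) (XT.lf (nat_lit 0) (nat_lit 13650811642873) (nat_lit 76) (nat_lit 17499632692630) (nat_lit 76) (nat_lit 17499116768751) (nat_lit 1) (nat_lit 4) (nat_lit 2)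 (nat_lit 5) (nat_lit 2) (nat_lit 4) (nat_lit 274) (nat_lit 179) (nat_lit 147)) (XT.lf (nat_lit 0) (nat_lit 15698826251421) (nat_lit 76) (nat_lit 20124325436587) (nat_lit 76) (nat_lit 20123808735323) (nat_lit 1) (nat_lit 4) (nat_lit 2) (nat_lit 5) (nat_lit 2) (nat_lit 4) (nat_lit 275) (nat_lit 179) (nat_lit 146))) (XT.nd (nat_lit 78) (nat_lit 0) (nat_lit 0) (XT.lf (nat_lit 0) (nat_lit 18054041980056) (nat_lit 76) (nat_lit 23142722566239) (nat_lit 76) (nat_lit 23142205188988) (nat_lit 1) (nat_lit 4) (nat_lit 2) (nat_lit 5) (nat_lit 2) (nat_lit 4) (nat_lit 276) (nat_lit 179) (nat_lit 145)) (XT.lf (nat_lit 0) (nat_lit 20762539136513) (nat_lit 76) (nat_lit 26613879677601) (nat_lit 76) (nat_lit 26613361712534) (nat_lit 1) (nat_lit 4) (nat_lit 2) (nat_lit 5) (nat_lit 2) (nat_lit 4) (nat_lit 277) (nat_lit 179) (nat_lit 144))))))) (XT.nd (nat_lit 29172) (nat_lit 0) (nat_lit 0) (XT.nd (nat_lit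 28548) (nat_lit 0) (nat_lit 0) (XT.nd (nat_lit 312) (nat_lit 0) (nat_lit 0) (XT.nd (nat_lit 156) (nat_lit 0) (nat_lit 0) (XT.nd (nat_lit 78) (nat_lit 0) (nat_lit 0) (XT.lf (nat_lit 0) (nat_lit 23877310056461) (nat_lit 76) (nat_lit 30605710714156) (nat_lit 76) (nat_lit 30605192237946) (nat_lit 1) (nat_lit 4) (nat_lit 2) (nat_lit 5) (nat_lit 2) (nat_lit 4) (nat_lit 278) (nat_lit 179) (nat_lit 143)) (XT.lf (nat_lit 0) (nat_lit 27459295910073) (nat_lit 76) (nat_lit 35196316717924) (nat_lit 76) (nat_lit 35195797797242) (nat_lit 1) (nat_lit 4) (nat_lit 2) (nat_lit 5) (nat_lit 2) (nat_lit 4) (nat_lit 279) (nat_lit 179) (nat_lit 142))) (XT.nd (nat_lit 78) (nat_lit 0) (nat_lit 0) (XT.lf (nat_lit 0) (nat_lit 31578579029268) (nat_lit 76) (nat_lit 40475513893326) (nat_lit 76) (nat_lit 40474994586146) (nat_lit 1) (nat_lit 4) (nat_lit 2) (nat_lit 5) (nat_lit 2) (nat_lit 4) (nat_lit 280) (nat_lit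 179) (nat_lit 141)) (XT.lf (nat_lit 0) (nat_lit 36315754083770) (nat_lit 76) (nat_lit 46546590880751) (nat_lit 76) (nat_lit 46546071237485) (nat_lit 1) (nat_lit 4) (nat_lit 2) (nat_lit 5) (nat_lit 2) (nat_lit 4) (nat_lit 281) (nat_lit 179) (nat_lit 140)))) (XT.nd (nat_lit 28080) (nat_lit 0) (nat_lit 0) (XT.nd (nat_lit 28002) (nat_lit 0) (nat_lit 0) (XT.lf (nat_lit 0) (nat_lit 41763504933339) (nat_lit 76) (nat_lit 53528329621257) (nat_lit 76) (nat_lit 53527809685743) (nat_lit 1) (nat_lit 4) (nat_lit 2) (nat_lit 5) (nat_lit 2) (nat_lit 4) (nat_lit 282) (nat_lit 179) (nat_lit 139)) (XT.lf (nat_lit 0) (nat_lit 56001101535) (nat_lit 76) (nat_lit 77154659654) (nat_lit 76) (nat_lit 77154659654) (nat_lit 1) (nat_lit 4) (nat_lit 2) (nat_lit 5) (nat_lit 2) (nat_lit 4) (nat_lit 240) (nat_lit 180) (nat_lit 180))) (XT.nd (nat_lit 78) (nat_lit 0) (nat_lit 0) (XT.lf (nat_lit 0) (nat_lit 130071877289)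 (nat_lit 76) (nat_lit 176803891716) (nat_lit 76) (nat_lit 176725609141) (nat_lit 1) (nat_lit 4) (nat_lit 2) (nat_lit 5) (nat_lit 2) (nat_lit 4) (nat_lit 241) (nat_lit 180) (nat_lit 179)) (XT.lf (nat_lit 0) (nat_lit 150744133506) (nat_lit 76) (nat_lit 202720391926) (nat_lit 76) (nat_lit 202574037546) (nat_lit 1) (nat_lit 4) (nat_lit 2) (nat_lit 5) (nat_lit 2) (nat_lit 4) (nat_lit 242) (nat_lit 180) (nat_lit 178))))) (XT.nd (nat_lit 312) (nat_lit 0) (nat_lit 0) (XT.nd (nat_lit 156) (nat_lit 0) (nat_lit 0) (XT.nd (nat_lit 78) (nat_lit 0) (nat_lit 0) (XT.lf (nat_lit 0) (nat_lit 174423428909) (nat_lit 76) (nat_lit 232565881900) (nat_lit 76) (nat_lit 232360334647) (nat_lit 1) (nat_lit 4) (nat_lit 2) (nat_lit 5) (nat_lit 2) (nat_lit 4) (nat_lit 243) (nat_lit 180) (nat_lit 177)) (XT.lf (nat_lit 0) (nat_lit 201573054060) (nat_lit 76) (nat_lit 266924295137) (nat_lit 76) (nat_lit 266667275820)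 (nat_lit 1) (nat_lit 4) (nat_lit 2) (nat_lit 5) (nat_lit 2) (nat_lit 4) (nat_lit 244) (nat_lit 180) (nat_lit 176))) (XT.nd (nat_lit 78) (nat_lit 0) (nat_lit 0) (XT.lf (nat_lit 0) (nat_lit 232724197278) (nat_lit 76) (nat_lit 306467861462) (nat_lit 76) (nat_lit 306166083829) (nat_lit 1) (nat_lit 4) (nat_lit 2) (nat_lit 5) (nat_lit 2) (nat_lit 4) (nat_lit 245) (nat_lit 180) (nat_lit 175)) (XT.lf (nat_lit 0) (nat_lit 268486337451) (nat_lit 76) (nat_lit 351970259345) (nat_lit 76) (nat_lit 351629561438) (nat_lit 1) (nat_lit 4) (nat_lit 2) (nat_lit 5) (nat_lit 2) (nat_lit 4) (nat_lit 246) (nat_lit 180) (nat_lit 174)))) (XT.nd (nat_lit 156) (nat_lit 0) (nat_lit 0) (XT.nd (nat_lit 78) (nat_lit 0) (nat_lit 0) (XT.lf (nat_lit 0) (nat_lit 309559168626) (nat_lit 76) (nat_lit 404321753095) (nat_lit 76) (nat_lit 403947211469) (nat_lit 1) (nat_lit 4) (nat_lit 2) (nat_lit 5) (nat_lit 2) (nat_lit 4)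 (nat_lit 247) (nat_lit 180) (nat_lit 173)) (XT.lf (nat_lit 0) (nat_lit 356746289675) (nat_lit 76) (nat_lit 464546611065) (nat_lit 76) (nat_lit 464142640121) (nat_lit 1) (nat_lit 4) (nat_lit 2) (nat_lit 5) (nat_lit 2) (nat_lit 4) (nat_lit 248) (nat_lit 180) (nat_lit 172))) (XT.nd (nat_lit 78) (nat_lit 0) (nat_lit 0) (XT.lf (nat_lit 0) (nat_lit 410970926878) (nat_lit 76) (nat_lit 533823145696) (nat_lit 76) (nat_lit 533393584039) (nat_lit 1) (nat_lit 4) (nat_lit 2) (nat_lit 5) (nat_lit 2) (nat_lit 4) (nat_lit 249) (nat_lit 180) (nat_lit 171)) (XT.lf (nat_lit 0) (nat_lit 473293997050) (nat_lit 76) (nat_lit 613506767447) (nat_lit 76) (nat_lit 613054952996) (nat_lit 1) (nat_lit 4) (nat_lit 2) (nat_lit 5) (nat_lit 2) (nat_lit 4) (nat_lit 250) (nat_lit 180) (nat_lit 170)))))) (XT.nd (nat_lit 624) (nat_lit 0) (nat_lit 0) (XT.nd (nat_lit 312) (nat_lit 0) (nat_lit 0) (XT.nd (nat_lit 156) (nat_lit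 0) (nat_lit 0) (XT.nd (nat_lit 78) (nat_lit 0) (nat_lit 0) (XT.lf (nat_lit 0) (nat_lit 544934864609) (nat_lit 76) (nat_lit 705156503700) (nat_lit 76) (nat_lit 704685338994) (nat_lit 1) (nat_lit 4) (nat_lit 2) (nat_lit 5) (nat_lit 2) (nat_lit 4) (nat_lit 251) (nat_lit 180) (nat_lit 169)) (XT.lf (nat_lit 0) (nat_lit 627295198701) (nat_lit 76) (nat_lit 810565501469) (nat_lit 76) (nat_lit 810077510454) (nat_lit 1) (nat_lit 4) (nat_lit 2) (nat_lit 5) (nat_lit 2) (nat_lit 4) (nat_lit 252) (nat_lit 180) (nat_lit 168))) (XT.nd (nat_lit 78) (nat_lit 0) (nat_lit 0) (XT.lf (nat_lit 0) (nat_lit 721986397167) (nat_lit 76) (nat_lit 931796110711) (nat_lit 76) (nat_lit 931293488122) (nat_lit 1) (nat_lit 4) (nat_lit 2) (nat_lit 5) (nat_lit 2) (nat_lit 4) (nat_lit 253) (nat_lit 180) (nat_lit 167)) (XT.lf (nat_lit 0) (nat_lit 830861113891) (nat_lit 76) (nat_lit 1071220234648) (nat_lit 76) (nat_lit 1070704888953)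 (nat_lit 1) (nat_lit 4) (nat_lit 2) (nat_lit 5) (nat_lit 2) (nat_lit 4) (nat_lit 254) (nat_lit 180) (nat_lit 166)))) (XT.nd (nat_lit 156) (nat_lit 0) (nat_lit 0) (XT.nd (nat_lit 78) (nat_lit 0) (nat_lit 0) (XT.lf (nat_lit 0) (nat_lit 956049506374) (nat_lit 76) (nat_lit 1231565736577) (nat_lit 76) (nat_lit 1231039327311) (nat_lit 1) (nat_lit 4) (nat_lit 2) (nat_lit 5) (nat_lit 2) (nat_lit 4) (nat_lit 255) (nat_lit 180) (nat_lit 165)) (XT.lf (nat_lit 0) (nat_lit 1100000912730) (nat_lit 76) (nat_lit 1415969811100) (nat_lit 76) (nat_lit 1415433781337) (nat_lit 1) (nat_lit 4) (nat_lit 2) (nat_lit 5) (nat_lit 2) (nat_lit 4) (nat_lit 256) (nat_lit 180) (nat_lit 164))) (XT.nd (nat_lit 78) (nat_lit 0) (nat_lit 0) (XT.lf (nat_lit 0) (nat_lit 1265531773517) (nat_lit 76) (nat_lit 1628040364023) (nat_lit 76) (nat_lit 1627495968610) (nat_lit 1) (nat_lit 4) (nat_lit 2) (nat_lit 5) (nat_lit 2) (nat_lit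 4) (nat_lit 257) (nat_lit 180) (nat_lit 163)) (XT.lf (nat_lit 0) (nat_lit 1455880736013) (nat_lit 76) (nat_lit 1871926601815) (nat_lit 76) (nat_lit 1871374931925) (nat_lit 1) (nat_lit 4) (nat_lit 2) (nat_lit 5) (nat_lit 2) (nat_lit 4) (nat_lit 258) (nat_lit 180) (nat_lit 162))))) (XT.nd (nat_lit 312) (nat_lit 0) (nat_lit 0) (XT.nd (nat_lit 156) (nat_lit 0) (nat_lit 0) (XT.nd (nat_lit 78) (nat_lit 0) (nat_lit 0) (XT.lf (nat_lit 0) (nat_lit 1674772019047) (nat_lit 76) (nat_lit 2152400211739) (nat_lit 76) (nat_lit 2151842216216) (nat_lit 1) (nat_lit 4) (nat_lit 2) (nat_lit 5) (nat_lit 2) (nat_lit 4) (nat_lit 259) (nat_lit 180) (nat_lit 161)) (XT.lf (nat_lit 0) (nat_lit 1926488278159) (nat_lit 76) (nat_lit 2474948720945) (nat_lit 76) (nat_lit 2474385224872) (nat_lit 1) (nat_lit 4) (nat_lit 2) (nat_lit 5) (nat_lit 2) (nat_lit 4) (nat_lit 260) (nat_lit 180) (nat_lit 160))) (XT.nd (nat_lit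 78) (nat_lit 0) (nat_lit 0) (XT.lf (nat_lit 0) (nat_lit 2215954396678) (nat_lit 76) (nat_lit 2845882861134) (nat_lit 76) (nat_lit 2845314581974) (nat_lit 1) (nat_lit 4) (nat_lit 2) (nat_lit 5) (nat_lit 2) (nat_lit 4) (nat_lit 261) (nat_lit 180) (nat_lit 159)) (XT.lf (nat_lit 0) (nat_lit 2548833842141) (nat_lit 76) (nat_lit 3272460039398) (nat_lit 76) (nat_lit 3271887601031) (nat_lit 1) (nat_lit 4) (nat_lit 2) (nat_lit 5) (nat_lit 2) (nat_lit 4) (nat_lit 262) (nat_lit 180) (nat_lit 158)))) (XT.nd (nat_lit 156) (nat_lit 0) (nat_lit 0) (XT.nd (nat_lit 78) (nat_lit 0) (nat_lit 0) (XT.lf (nat_lit 0) (nat_lit 2931639473263) (nat_lit 76) (nat_lit 3763026330963) (nat_lit 76) (nat_lit 3762450275896) (nat_lit 1) (nat_lit 4) (nat_lit 2) (nat_lit 5) (nat_lit 2) (nat_lit 4) (nat_lit 263) (nat_lit 180) (nat_lit 157)) (XT.lf (nat_lit 0) (nat_lit 3371860965436) (nat_lit 76) (nat_lit 4327179771969)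 (nat_lit 76) (nat_lit 4326600571944) (nat_lit 1) (nat_lit 4) (nat_lit 2) (nat_lit 5) (nat_lit 2) (nat_lit 4) (nat_lit 264) (nat_lit 180) (nat_lit 156))) (XT.nd (nat_lit 78) (nat_lit 0) (nat_lit 0) (XT.lf (nat_lit 0) (nat_lit 3878111347855) (nat_lit 76) (nat_lit 4975958147131) (nat_lit 76) (nat_lit 4975376212360) (nat_lit 1) (nat_lit 4) (nat_lit 2) (nat_lit 5) (nat_lit 2) (nat_lit 4) (nat_lit 265) (nat_lit 180) (nat_lit 155)) (XT.lf (nat_lit 0) (nat_lit 4460295519305) (nat_lit 76) (nat_lit 5722054946397) (nat_lit 76) (nat_lit 5721470633587) (nat_lit 1) (nat_lit 4) (nat_lit 2) (nat_lit 5) (nat_lit 2) (nat_lit 4) (nat_lit 266) (nat_lit 180) (nat_lit 154))))))))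
noncomputable def xc7 : XT := (XT.nd (nat_lit 30264) (nat_lit 0) (nat_lit 0) (XT.nd (nat_lit 29016) (nat_lit 0) (nat_lit 0) (XT.nd (nat_lit 624) (nat_lit 0) (nat_lit 0) (XT.nd (nat_lit 312) (nat_lit 0) (nat_lit 0) (XT.nd (nat_lit 156) (nat_lit 0) (nat_lit 0) (XT.nd (nat_lit 78) (nat_lit 0) (nat_lit 0) (XT.lf (nat_lit 0) (nat_lit 5129804039664) (nat_lit 76) (nat_lit 6580067715841) (nat_lit 76) (nat_lit 6579481335170) (nat_lit 1) (nat_lit 4) (nat_lit 2) (nat_lit 5) (nat_lit 2) (nat_lit 4) (nat_lit 267) (nat_lit 180) (nat_lit 153)) (XT.lf (nat_lit 0) (nat_lit 5899735988677) (nat_lit 76) (nat_lit 7566783661821) (nat_lit 76) (nat_lit 7566195483010) (nat_lit 1) (nat_lit 4) (nat_lit 2) (nat_lit 5) (nat_lit 2) (nat_lit 4) (nat_lit 268) (nat_lit 180) (nat_lit 152))) (XT.nd (nat_lit 78) (nat_lit 0) (nat_lit 0) (XT.lf (nat_lit 0) (nat_lit 6785155252303) (nat_lit 76) (nat_lit 8701508096324) (nat_lit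 76) (nat_lit 8700918353913) (nat_lit 1) (nat_lit 4) (nat_lit 2) (nat_lit 5) (nat_lit 2) (nat_lit 4) (nat_lit 269) (nat_lit 180) (nat_lit 151)) (XT.lf (nat_lit 0) (nat_lit 7803385250918) (nat_lit 76) (nat_lit 10006442149589) (nat_lit 76) (nat_lit 10005851047527) (nat_lit 1) (nat_lit 4) (nat_lit 2) (nat_lit 5) (nat_lit 2) (nat_lit 4) (nat_lit 270) (nat_lit 180) (nat_lit 150)))) (XT.nd (nat_lit 156) (nat_lit 0) (nat_lit 0) (XT.nd (nat_lit 78) (nat_lit 0) (nat_lit 0) (XT.lf (nat_lit 0) (nat_lit 8974347875799) (nat_lit 76) (nat_lit 11507117140051) (nat_lit 76) (nat_lit 11506524855683) (nat_lit 1) (nat_lit 4) (nat_lit 2) (nat_lit 5) (nat_lit 2) (nat_lit 4) (nat_lit 271) (nat_lit 180) (nat_lit 149)) (XT.lf (nat_lit 0) (nat_lit 10320953265258) (nat_lit 76) (nat_lit 13232894100131) (nat_lit 76) (nat_lit 13232300787671) (nat_lit 1) (nat_lit 4) (nat_lit 2) (nat_lit 5) (nat_lit 2) (nat_lit 4)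 (nat_lit 272) (nat_lit 180) (nat_lit 148))) (XT.nd (nat_lit 78) (nat_lit 0) (nat_lit 0) (XT.lf (nat_lit 0) (nat_lit 11869548046481) (nat_lit 76) (nat_lit 15217538231223) (nat_lit 76) (nat_lit 15216944024769) (nat_lit 1) (nat_lit 4) (nat_lit 2) (nat_lit 5) (nat_lit 2) (nat_lit 4) (nat_lit 273) (nat_lit 180) (nat_lit 147)) (XT.lf (nat_lit 0) (nat_lit 13650430813014) (nat_lit 76) (nat_lit 17499879527195) (nat_lit 76) (nat_lit 17499284543356) (nat_lit 1) (nat_lit 4) (nat_lit 2) (nat_lit 5) (nat_lit 2) (nat_lit 4) (nat_lit 274) (nat_lit 180) (nat_lit 146))))) (XT.nd (nat_lit 312) (nat_lit 0) (nat_lit 0) (XT.nd (nat_lit 156) (nat_lit 0) (nat_lit 0) (XT.nd (nat_lit 78) (nat_lit 0) (nat_lit 0) (XT.lf (nat_lit 0) (nat_lit 15698444923332) (nat_lit 76) (nat_lit 20124572491664) (nat_lit 76) (nat_lit 20123976831838) (nat_lit 1) (nat_lit 4) (nat_lit 2) (nat_lit 5) (nat_lit 2) (nat_lit 4) (nat_lit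 275) (nat_lit 180) (nat_lit 145)) (XT.lf (nat_lit 0) (nat_lit 18053660218723) (nat_lit 76) (nat_lit 23142969813066) (nat_lit 76) (nat_lit 23142373565424) (nat_lit 1) (nat_lit 4) (nat_lit 2) (nat_lit 5) (nat_lit 2) (nat_lit 4) (nat_lit 276) (nat_lit 180) (nat_lit 144))) (XT.nd (nat_lit 78) (nat_lit 0) (nat_lit 0) (XT.lf (nat_lit 0) (nat_lit 20762156998447) (nat_lit 76) (nat_lit 26614127091167) (nat_lit 76) (nat_lit 26613530332382) (nat_lit 1) (nat_lit 4) (nat_lit 2) (nat_lit 5) (nat_lit 2) (nat_lit 4) (nat_lit 277) (nat_lit 180) (nat_lit 143)) (XT.lf (nat_lit 0) (nat_lit 23876927590800) (nat_lit 76) (nat_lit 30605958272713) (nat_lit 76) (nat_lit 30605361069455) (nat_lit 1) (nat_lit 4) (nat_lit 2) (nat_lit 5) (nat_lit 2) (nat_lit 4) (nat_lit 278) (nat_lit 180) (nat_lit 142)))) (XT.nd (nat_lit 156) (nat_lit 0) (nat_lit 0) (XT.nd (nat_lit 78) (nat_lit 0) (nat_lit 0) (XT.lf (nat_lit 0)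 (nat_lit 27458913159548) (nat_lit 76) (nat_lit 35196564402559) (nat_lit 76) (nat_lit 35195966812804) (nat_lit 1) (nat_lit 4) (nat_lit 2) (nat_lit 5) (nat_lit 2) (nat_lit 4) (nat_lit 279) (nat_lit 180) (nat_lit 141)) (XT.lf (nat_lit 0) (nat_lit 31578196031035) (nat_lit 76) (nat_lit 40475761687595) (nat_lit 76) (nat_lit 40475163761754) (nat_lit 1) (nat_lit 4) (nat_lit 2) (nat_lit 5) (nat_lit 2) (nat_lit 4) (nat_lit 280) (nat_lit 180) (nat_lit 140))) (XT.nd (nat_lit 78) (nat_lit 0) (nat_lit 0) (XT.lf (nat_lit 0) (nat_lit 36315370870137) (nat_lit 76) (nat_lit 46546838770353) (nat_lit 76) (nat_lit 46546240552265) (nat_lit 1) (nat_lit 4) (nat_lit 2) (nat_lit 5) (nat_lit 2) (nat_lit 4) (nat_lit 281) (nat_lit 180) (nat_lit 139)) (XT.lf (nat_lit 0) (nat_lit 41763121532403) (nat_lit 76) (nat_lit 53528577593758) (nat_lit 76) (nat_lit 53527979121540) (nat_lit 1) (nat_lit 4) (nat_lit 2) (nat_lit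 5) (nat_lit 2) (nat_lit 4) (nat_lit 282) (nat_lit 180) (nat_lit 138)))))) (XT.nd (nat_lit 624) (nat_lit 0) (nat_lit 0) (XT.nd (nat_lit 312) (nat_lit 0) (nat_lit 0) (XT.nd (nat_lit 156) (nat_lit 0) (nat_lit 0) (XT.nd (nat_lit 78) (nat_lit 0) (nat_lit 0) (XT.lf (nat_lit 0) (nat_lit 41183403664) (nat_lit 76) (nat_lit 58972255556) (nat_lit 76) (nat_lit 58972255556) (nat_lit 1) (nat_lit 4) (nat_lit 2) (nat_lit 5) (nat_lit 2) (nat_lit 4) (nat_lit 238) (nat_lit 181) (nat_lit 181)) (XT.lf (nat_lit 0) (nat_lit 96181573749) (nat_lit 76) (nat_lit 134886588467) (nat_lit 76) (nat_lit 134796563505) (nat_lit 1) (nat_lit 4) (nat_lit 2) (nat_lit 5) (nat_lit 2) (nat_lit 4) (nat_lit 239) (nat_lit 181) (nat_lit 180))) (XT.nd (nat_lit 78) (nat_lit 0) (nat_lit 0) (XT.lf (nat_lit 0) (nat_lit 111944505628) (nat_lit 76) (nat_lit 154424880657) (nat_lit 76) (nat_lit 154256573121) (nat_lit 1) (nat_lit 4) (nat_lit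 2) (nat_lit 5) (nat_lit 2) (nat_lit 4) (nat_lit 240) (nat_lit 181) (nat_lit 179)) (XT.lf (nat_lit 0) (nat_lit 129964008156) (nat_lit 76) (nat_lit 176941658619) (nat_lit 76) (nat_lit 176705279278) (nat_lit 1) (nat_lit 4) (nat_lit 2) (nat_lit 5) (nat_lit 2) (nat_lit 4) (nat_lit 241) (nat_lit 181) (nat_lit 178)))) (XT.nd (nat_lit 156) (nat_lit 0) (nat_lit 0) (XT.nd (nat_lit 78) (nat_lit 0) (nat_lit 0) (XT.lf (nat_lit 0) (nat_lit 150592636816) (nat_lit 76) (nat_lit 202877468007) (nat_lit 76) (nat_lit 202581895793) (nat_lit 1) (nat_lit 4) (nat_lit 2) (nat_lit 5) (nat_lit 2) (nat_lit 4) (nat_lit 242) (nat_lit 181) (nat_lit 177)) (XT.lf (nat_lit 0) (nat_lit 174233995213) (nat_lit 76) (nat_lit 232739748570) (nat_lit 76) (nat_lit 232392704292) (nat_lit 1) (nat_lit 4) (nat_lit 2) (nat_lit 5) (nat_lit 2) (nat_lit 4) (nat_lit 243) (nat_lit 181) (nat_lit 176))) (XT.nd (nat_lit 78) (nat_lit 0)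 (nat_lit 0) (XT.lf (nat_lit 0) (nat_lit 201350631664) (nat_lit 76) (nat_lit 267112762320) (nat_lit 76) (nat_lit 266720959726) (nat_lit 1) (nat_lit 4) (nat_lit 2) (nat_lit 5) (nat_lit 2) (nat_lit 4) (nat_lit 244) (nat_lit 181) (nat_lit 175)) (XT.lf (nat_lit 0) (nat_lit 232473089055) (nat_lit 76) (nat_lit 306669024743) (nat_lit 76) (nat_lit 306238301873) (nat_lit 1) (nat_lit 4) (nat_lit 2) (nat_lit 5) (nat_lit 2) (nat_lit 4) (nat_lit 245) (nat_lit 181) (nat_lit 174))))) (XT.nd (nat_lit 312) (nat_lit 0) (nat_lit 0) (XT.nd (nat_lit 156) (nat_lit 0) (nat_lit 0) (XT.nd (nat_lit 78) (nat_lit 0) (nat_lit 0) (XT.lf (nat_lit 0) (nat_lit 268210285031) (nat_lit 76) (nat_lit 352182462711) (nat_lit 76) (nat_lit 351717896125) (nat_lit 1) (nat_lit 4) (nat_lit 2) (nat_lit 5) (nat_lit 2) (nat_lit 4) (nat_lit 246) (nat_lit 181) (nat_lit 173)) (XT.lf (nat_lit 0) (nat_lit 309261425600) (nat_lit 76) (nat_lit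 404543556535) (nat_lit 76) (nat_lit 404049560629) (nat_lit 1) (nat_lit 4) (nat_lit 2) (nat_lit 5) (nat_lit 2) (nat_lit 4) (nat_lit 247) (nat_lit 181) (nat_lit 172))) (XT.nd (nat_lit 78) (nat_lit 0) (nat_lit 0) (XT.lf (nat_lit 0) (nat_lit 356429685252) (nat_lit 76) (nat_lit 464776762396) (nat_lit 76) (nat_lit 464257175777) (nat_lit 1) (nat_lit 4) (nat_lit 2) (nat_lit 5) (nat_lit 2) (nat_lit 4) (nat_lit 248) (nat_lit 181) (nat_lit 171)) (XT.lf (nat_lit 0) (nat_lit 410637921241) (nat_lit 76) (nat_lit 534060556062) (nat_lit 76) (nat_lit 533518716649) (nat_lit 1) (nat_lit 4) (nat_lit 2) (nat_lit 5) (nat_lit 2) (nat_lit 4) (nat_lit 249) (nat_lit 181) (nat_lit 170)))) (XT.nd (nat_lit 156) (nat_lit 0) (nat_lit 0) (XT.nd (nat_lit 78) (nat_lit 0) (nat_lit 0) (XT.lf (nat_lit 0) (nat_lit 472946729488) (nat_lit 76) (nat_lit 613750490017) (nat_lit 76) (nat_lit 613189300349) (nat_lit 1) (nat_lit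 4) (nat_lit 2) (nat_lit 5) (nat_lit 2) (nat_lit 4) (nat_lit 250) (nat_lit 181) (nat_lit 169)) (XT.lf (nat_lit 0) (nat_lit 544575195372) (nat_lit 76) (nat_lit 705405715144) (nat_lit 76) (nat_lit 704827699167) (nat_lit 1) (nat_lit 4) (nat_lit 2) (nat_lit 5) (nat_lit 2) (nat_lit 4) (nat_lit 251) (nat_lit 181) (nat_lit 168))) (XT.nd (nat_lit 78) (nat_lit 0) (nat_lit 0) (XT.lf (nat_lit 0) (nat_lit 626924745399) (nat_lit 76) (nat_lit 810819485846) (nat_lit 76) (nat_lit 810226838297) (nat_lit 1) (nat_lit 4) (nat_lit 2) (nat_lit 5) (nat_lit 2) (nat_lit 4) (nat_lit 252) (nat_lit 181) (nat_lit 167)) (XT.lf (nat_lit 0) (nat_lit 721606566418) (nat_lit 76) (nat_lit 932054245464) (nat_lit 76) (nat_lit 931448874808) (nat_lit 1) (nat_lit 4) (nat_lit 2) (nat_lit 5) (nat_lit 2) (nat_lit 4) (nat_lit 253) (nat_lit 181) (nat_lit 166))))))) (XT.nd (nat_lit 1248) (nat_lit 0) (nat_lit 0) (XT.nd (nat_lit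 624) (nat_lit 0) (nat_lit 0) (XT.nd (nat_lit 312) (nat_lit 0) (nat_lit 0) (XT.nd (nat_lit 156) (nat_lit 0) (nat_lit 0) (XT.nd (nat_lit 78) (nat_lit 0) (nat_lit 0) (XT.lf (nat_lit 0) (nat_lit 830473128840) (nat_lit 76) (nat_lit 1071481978426) (nat_lit 76) (nat_lit 1070865544198) (nat_lit 1) (nat_lit 4) (nat_lit 2) (nat_lit 5) (nat_lit 2) (nat_lit 4) (nat_lit 254) (nat_lit 181) (nat_lit 165)) (XT.lf (nat_lit 0) (nat_lit 955654430625) (nat_lit 76) (nat_lit 1231830618636) (nat_lit 76) (nat_lit 1231204563911) (nat_lit 1) (nat_lit 4) (nat_lit 2) (nat_lit 5) (nat_lit 2) (nat_lit 4) (nat_lit 255) (nat_lit 181) (nat_lit 164))) (XT.nd (nat_lit 78) (nat_lit 0) (nat_lit 0) (XT.lf (nat_lit 0) (nat_lit 1099599671157) (nat_lit 76) (nat_lit 1416237422099) (nat_lit 76) (nat_lit 1415603001725) (nat_lit 1) (nat_lit 4) (nat_lit 2) (nat_lit 5) (nat_lit 2) (nat_lit 4) (nat_lit 256) (nat_lit 181) (nat_lit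 163)) (XT.lf (nat_lit 0) (nat_lit 1265125170358) (nat_lit 76) (nat_lit 1628310348013) (nat_lit 76) (nat_lit 1627668653161) (nat_lit 1) (nat_lit 4) (nat_lit 2) (nat_lit 5) (nat_lit 2) (nat_lit 4) (nat_lit 257) (nat_lit 181) (nat_lit 162)))) (XT.nd (nat_lit 156) (nat_lit 0) (nat_lit 0) (XT.nd (nat_lit 78) (nat_lit 0) (nat_lit 0) (XT.lf (nat_lit 0) (nat_lit 1455469470604) (nat_lit 76) (nat_lit 1872198649276) (nat_lit 76) (nat_lit 1871550628792) (nat_lit 1) (nat_lit 4) (nat_lit 2) (nat_lit 5) (nat_lit 2) (nat_lit 4) (nat_lit 258) (nat_lit 181) (nat_lit 161)) (XT.lf (nat_lit 0) (nat_lit 1674356699510) (nat_lit 76) (nat_lit 2152674053523) (nat_lit 76) (nat_lit 2152020532488) (nat_lit 1) (nat_lit 4) (nat_lit 2) (nat_lit 5) (nat_lit 2) (nat_lit 4) (nat_lit 259) (nat_lit 181) (nat_lit 160))) (XT.nd (nat_lit 78) (nat_lit 0) (nat_lit 0) (XT.lf (nat_lit 0) (nat_lit 1926069433291) (nat_lit 76)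 (nat_lit 2475224123009) (nat_lit 76) (nat_lit 2474565818887) (nat_lit 1) (nat_lit 4) (nat_lit 2) (nat_lit 5) (nat_lit 2) (nat_lit 4) (nat_lit 260) (nat_lit 181) (nat_lit 159)) (XT.lf (nat_lit 0) (nat_lit 2215532486306) (nat_lit 76) (nat_lit 2846159619964) (nat_lit 76) (nat_lit 2845497156636) (nat_lit 1) (nat_lit 4) (nat_lit 2) (nat_lit 5) (nat_lit 2) (nat_lit 4) (nat_lit 261) (nat_lit 181) (nat_lit 158))))) (XT.nd (nat_lit 312) (nat_lit 0) (nat_lit 0) (XT.nd (nat_lit 156) (nat_lit 0) (nat_lit 0) (XT.nd (nat_lit 78) (nat_lit 0) (nat_lit 0) (XT.lf (nat_lit 0) (nat_lit 2548409266113) (nat_lit 76) (nat_lit 3272737978024) (nat_lit 76) (nat_lit 3272071897995) (nat_lit 1) (nat_lit 4) (nat_lit 2) (nat_lit 5) (nat_lit 2) (nat_lit 4) (nat_lit 262) (nat_lit 181) (nat_lit 157)) (XT.lf (nat_lit 0) (nat_lit 2931212579274) (nat_lit 76) (nat_lit 3763305295499) (nat_lit 76) (nat_lit 3762636070512)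 (nat_lit 1) (nat_lit 4) (nat_lit 2) (nat_lit 5) (nat_lit 2) (nat_lit 4) (nat_lit 263) (nat_lit 181) (nat_lit 156))) (XT.nd (nat_lit 78) (nat_lit 0) (nat_lit 0) (XT.lf (nat_lit 0) (nat_lit 3371432055828) (nat_lit 76) (nat_lit 4327459628600) (nat_lit 76) (nat_lit 4326787668868) (nat_lit 1) (nat_lit 4) (nat_lit 2) (nat_lit 5) (nat_lit 2) (nat_lit 4) (nat_lit 264) (nat_lit 181) (nat_lit 155)) (XT.lf (nat_lit 0) (nat_lit 3877680685535) (nat_lit 76) (nat_lit 4976238779497) (nat_lit 76) (nat_lit 4975564441725) (nat_lit 1) (nat_lit 4) (nat_lit 2) (nat_lit 5) (nat_lit 2) (nat_lit 4) (nat_lit 265) (nat_lit 181) (nat_lit 154)))) (XT.nd (nat_lit 156) (nat_lit 0) (nat_lit 0) (XT.nd (nat_lit 78) (nat_lit 0) (nat_lit 0) (XT.lf (nat_lit 0) (nat_lit 4459863332888) (nat_lit 76) (nat_lit 5722336253315) (nat_lit 76) (nat_lit 5721659847683) (nat_lit 1) (nat_lit 4) (nat_lit 2) (nat_lit 5) (nat_lit 2) (nat_lit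 4) (nat_lit 266) (nat_lit 181) (nat_lit 153)) (XT.lf (nat_lit 0) (nat_lit 5129370527944) (nat_lit 76) (nat_lit 6580349609327) (nat_lit 76) (nat_lit 6579671405554) (nat_lit 1) (nat_lit 4) (nat_lit 2) (nat_lit 5) (nat_lit 2) (nat_lit 4) (nat_lit 267) (nat_lit 181) (nat_lit 152))) (XT.nd (nat_lit 78) (nat_lit 0) (nat_lit 0) (XT.lf (nat_lit 0) (nat_lit 5899301324521) (nat_lit 76) (nat_lit 7567066065365) (nat_lit 76) (nat_lit 7566386297993) (nat_lit 1) (nat_lit 4) (nat_lit 2) (nat_lit 5) (nat_lit 2) (nat_lit 4) (nat_lit 268) (nat_lit 181) (nat_lit 151)) (XT.lf (nat_lit 0) (nat_lit 6784719586028) (nat_lit 76) (nat_lit 8701790943397) (nat_lit 76) (nat_lit 8701109816373) (nat_lit 1) (nat_lit 4) (nat_lit 2) (nat_lit 5) (nat_lit 2) (nat_lit 4) (nat_lit 269) (nat_lit 181) (nat_lit 150)))))) (XT.nd (nat_lit 624) (nat_lit 0) (nat_lit 0) (XT.nd (nat_lit 312) (nat_lit 0) (nat_lit 0) (XT.nd (nat_lit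 156) (nat_lit 0) (nat_lit 0) (XT.nd (nat_lit 78) (nat_lit 0) (nat_lit 0) (XT.lf (nat_lit 0) (nat_lit 7802948713236) (nat_lit 76) (nat_lit 10006725382339) (nat_lit 76) (nat_lit 10006043073010) (nat_lit 1) (nat_lit 4) (nat_lit 2) (nat_lit 5) (nat_lit 2) (nat_lit 4) (nat_lit 270) (nat_lit 181) (nat_lit 149)) (XT.lf (nat_lit 0) (nat_lit 8973910580371) (nat_lit 76) (nat_lit 11507400708173) (nat_lit 76) (nat_lit 11506717370751) (nat_lit 1) (nat_lit 4) (nat_lit 2) (nat_lit 5) (nat_lit 2) (nat_lit 4) (nat_lit 271) (nat_lit 181) (nat_lit 148))) (XT.nd (nat_lit 78) (nat_lit 0) (nat_lit 0) (XT.lf (nat_lit 0) (nat_lit 10320515310921) (nat_lit 76) (nat_lit 13233177959881) (nat_lit 76) (nat_lit 13232493728466) (nat_lit 1) (nat_lit 4) (nat_lit 2) (nat_lit 5) (nat_lit 2) (nat_lit 4) (nat_lit 272) (nat_lit 181) (nat_lit 147)) (XT.lf (nat_lit 0) (nat_lit 11869109519179) (nat_lit 76) (nat_lit 15217822344561)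 (nat_lit 76) (nat_lit 15217137335761) (nat_lit 1) (nat_lit 4) (nat_lit 2) (nat_lit 5) (nat_lit 2) (nat_lit 4) (nat_lit 273) (nat_lit 181) (nat_lit 146)))) (XT.nd (nat_lit 156) (nat_lit 0) (nat_lit 0) (XT.nd (nat_lit 78) (nat_lit 0) (nat_lit 0) (XT.lf (nat_lit 0) (nat_lit 13649991787482) (nat_lit 76) (nat_lit 17500163861046) (nat_lit 76) (nat_lit 17499478176258) (nat_lit 1) (nat_lit 4) (nat_lit 2) (nat_lit 5) (nat_lit 2) (nat_lit 4) (nat_lit 274) (nat_lit 181) (nat_lit 145)) (XT.lf (nat_lit 0) (nat_lit 15698005464556) (nat_lit 76) (nat_lit 20124857017265) (nat_lit 76) (nat_lit 20124170744662) (nat_lit 1) (nat_lit 4) (nat_lit 2) (nat_lit 5) (nat_lit 2) (nat_lit 4) (nat_lit 275) (nat_lit 181) (nat_lit 144))) (XT.nd (nat_lit 78) (nat_lit 0) (nat_lit 0) (XT.lf (nat_lit 0) (nat_lit 18053220383214) (nat_lit 76) (nat_lit 23143254505406) (nat_lit 76) (nat_lit 23142567721659) (nat_lit 1) (nat_lit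 4) (nat_lit 2) (nat_lit 5) (nat_lit 2) (nat_lit 4) (nat_lit 276) (nat_lit 181) (nat_lit 143)) (XT.lf (nat_lit 0) (nat_lit 20761716835342) (nat_lit 76) (nat_lit 26614411928497) (nat_lit 76) (nat_lit 26613724700278) (nat_lit 1) (nat_lit 4) (nat_lit 2) (nat_lit 5) (nat_lit 2) (nat_lit 4) (nat_lit 277) (nat_lit 181) (nat_lit 142))))) (XT.nd (nat_lit 312) (nat_lit 0) (nat_lit 0) (XT.nd (nat_lit 156) (nat_lit 0) (nat_lit 0) (XT.nd (nat_lit 78) (nat_lit 0) (nat_lit 0) (XT.lf (nat_lit 0) (nat_lit 23876487142831) (nat_lit 76) (nat_lit 30606243236122) (nat_lit 76) (nat_lit 30605555621405) (nat_lit 1) (nat_lit 4) (nat_lit 2) (nat_lit 5) (nat_lit 2) (nat_lit 4) (nat_lit 278) (nat_lit 181) (nat_lit 141)) (XT.lf (nat_lit 0) (nat_lit 27458472463871) (nat_lit 76) (nat_lit 35196849475602) (nat_lit 76) (nat_lit 35196161524800) (nat_lit 1) (nat_lit 4) (nat_lit 2) (nat_lit 5) (nat_lit 2) (nat_lit 4)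 (nat_lit 279) (nat_lit 181) (nat_lit 140))) (XT.nd (nat_lit 78) (nat_lit 0) (nat_lit 0) (XT.lf (nat_lit 0) (nat_lit 31577755119959) (nat_lit 76) (nat_lit 40476046855971) (nat_lit 76) (nat_lit 40475358612921) (nat_lit 1) (nat_lit 4) (nat_lit 2) (nat_lit 5) (nat_lit 2) (nat_lit 4) (nat_lit 280) (nat_lit 181) (nat_lit 139)) (XT.lf (nat_lit 0) (nat_lit 36314929771758) (nat_lit 76) (nat_lit 46547124021628) (nat_lit 76) (nat_lit 46546435524449) (nat_lit 1) (nat_lit 4) (nat_lit 2) (nat_lit 5) (nat_lit 2) (nat_lit 4) (nat_lit 281) (nat_lit 181) (nat_lit 138)))) (XT.nd (nat_lit 27768) (nat_lit 0) (nat_lit 0) (XT.nd (nat_lit 27690) (nat_lit 0) (nat_lit 0) (XT.lf (nat_lit 0) (nat_lit 41762680271152) (nat_lit 76) (nat_lit 53528862917118) (nat_lit 76) (nat_lit 53528174198958) (nat_lit 1) (nat_lit 4) (nat_lit 2) (nat_lit 5) (nat_lit 2) (nat_lit 4) (nat_lit 282) (nat_lit 181) (nat_lit 137)) (XT.lf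 (nat_lit 0) (nat_lit 29804874061) (nat_lit 76) (nat_lit 45318583079) (nat_lit 76) (nat_lit 45318583079) (nat_lit 1) (nat_lit 4) (nat_lit 2) (nat_lit 5) (nat_lit 2) (nat_lit 4) (nat_lit 236) (nat_lit 182) (nat_lit 182))) (XT.nd (nat_lit 78) (nat_lit 0) (nat_lit 0) (XT.lf (nat_lit 0) (nat_lit 70229917460) (nat_lit 76) (nat_lit 103370701874) (nat_lit 76) (nat_lit 103267173168) (nat_lit 1) (nat_lit 4) (nat_lit 2) (nat_lit 5) (nat_lit 2) (nat_lit 4) (nat_lit 237) (nat_lit 182) (nat_lit 181)) (XT.lf (nat_lit 0) (nat_lit 82300455269) (nat_lit 76) (nat_lit 118077406664) (nat_lit 76) (nat_lit 117883852997) (nat_lit 1) (nat_lit 4) (nat_lit 2) (nat_lit 5) (nat_lit 2) (nat_lit 4) (nat_lit 238) (nat_lit 182) (nat_lit 180))))))))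
noncomputable def xc8 : XT := (XT.nd (nat_lit 2496) (nat_lit 0) (nat_lit 0) (XT.nd (nat_lit 1248) (nat_lit 0) (nat_lit 0) (XT.nd (nat_lit 624) (nat_lit 0) (nat_lit 0) (XT.nd (nat_lit 312) (nat_lit 0) (nat_lit 0) (XT.nd (nat_lit 156) (nat_lit 0) (nat_lit 0) (XT.nd (nat_lit 78) (nat_lit 0) (nat_lit 0) (XT.lf (nat_lit 0) (nat_lit 96057524245) (nat_lit 76) (nat_lit 135045020406) (nat_lit 76) (nat_lit 134773184164) (nat_lit 1) (nat_lit 4) (nat_lit 2) (nat_lit 5) (nat_lit 2) (nat_lit 4) (nat_lit 239) (nat_lit 182) (nat_lit 179)) (XT.lf (nat_lit 0) (nat_lit 111770284434) (nat_lit 76) (nat_lit 154605518151) (nat_lit 76) (nat_lit 154265610105) (nat_lit 1) (nat_lit 4) (nat_lit 2) (nat_lit 5) (nat_lit 2) (nat_lit 4) (nat_lit 240) (nat_lit 182) (nat_lit 178))) (XT.nd (nat_lit 78) (nat_lit 0) (nat_lit 0) (XT.lf (nat_lit 0) (nat_lit 129746159406) (nat_lit 76) (nat_lit 177141605290) (nat_lit 76)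 (nat_lit 176742504371) (nat_lit 1) (nat_lit 4) (nat_lit 2) (nat_lit 5) (nat_lit 2) (nat_lit 4) (nat_lit 241) (nat_lit 182) (nat_lit 177)) (XT.lf (nat_lit 0) (nat_lit 150336851060) (nat_lit 76) (nat_lit 203094205267) (nat_lit 76) (nat_lit 202643632284) (nat_lit 1) (nat_lit 4) (nat_lit 2) (nat_lit 5) (nat_lit 2) (nat_lit 4) (nat_lit 242) (nat_lit 182) (nat_lit 176)))) (XT.nd (nat_lit 156) (nat_lit 0) (nat_lit 0) (XT.nd (nat_lit 78) (nat_lit 0) (nat_lit 0) (XT.lf (nat_lit 0) (nat_lit 173945220757) (nat_lit 76) (nat_lit 232971086343) (nat_lit 76) (nat_lit 232475755044) (nat_lit 1) (nat_lit 4) (nat_lit 2) (nat_lit 5) (nat_lit 2) (nat_lit 4) (nat_lit 243) (nat_lit 182) (nat_lit 175)) (XT.lf (nat_lit 0) (nat_lit 201033171381) (nat_lit 76) (nat_lit 267356796191) (nat_lit 76) (nat_lit 266822544616) (nat_lit 1) (nat_lit 4) (nat_lit 2) (nat_lit 5) (nat_lit 2) (nat_lit 4) (nat_lit 244) (nat_lit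 182) (nat_lit 174))) (XT.nd (nat_lit 78) (nat_lit 0) (nat_lit 0) (XT.lf (nat_lit 0) (nat_lit 232130684575) (nat_lit 76) (nat_lit 306924098699) (nat_lit 76) (nat_lit 306356003406) (nat_lit 1) (nat_lit 4) (nat_lit 2) (nat_lit 5) (nat_lit 2) (nat_lit 4) (nat_lit 245) (nat_lit 182) (nat_lit 173)) (XT.lf (nat_lit 0) (nat_lit 267846189945) (nat_lit 76) (nat_lit 352447136741) (nat_lit 76) (nat_lit 351849612130) (nat_lit 1) (nat_lit 4) (nat_lit 2) (nat_lit 5) (nat_lit 2) (nat_lit 4) (nat_lit 246) (nat_lit 182) (nat_lit 172))))) (XT.nd (nat_lit 312) (nat_lit 0) (nat_lit 0) (XT.nd (nat_lit 156) (nat_lit 0) (nat_lit 0) (XT.nd (nat_lit 78) (nat_lit 0) (nat_lit 0) (XT.lf (nat_lit 0) (nat_lit 308878469118) (nat_lit 76) (nat_lit 404816578455) (nat_lit 76) (nat_lit 404193463131) (nat_lit 1) (nat_lit 4) (nat_lit 2) (nat_lit 5) (nat_lit 2) (nat_lit 4) (nat_lit 247) (nat_lit 182) (nat_lit 171)) (XT.lf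 (nat_lit 0) (nat_lit 356030327555) (nat_lit 76) (nat_lit 465057043351) (nat_lit 76) (nat_lit 464411675234) (nat_lit 1) (nat_lit 4) (nat_lit 2) (nat_lit 5) (nat_lit 2) (nat_lit 4) (nat_lit 248) (nat_lit 182) (nat_lit 170))) (XT.nd (nat_lit 78) (nat_lit 0) (nat_lit 0) (XT.lf (nat_lit 0) (nat_lit 410224301618) (nat_lit 76) (nat_lit 534347149222) (nat_lit 76) (nat_lit 533682430849) (nat_lit 1) (nat_lit 4) (nat_lit 2) (nat_lit 5) (nat_lit 2) (nat_lit 4) (nat_lit 249) (nat_lit 182) (nat_lit 169)) (XT.lf (nat_lit 0) (nat_lit 472520708191) (nat_lit 76) (nat_lit 614042572051) (nat_lit 76) (nat_lit 613361027368) (nat_lit 1) (nat_lit 4) (nat_lit 2) (nat_lit 5) (nat_lit 2) (nat_lit 4) (nat_lit 250) (nat_lit 182) (nat_lit 168)))) (XT.nd (nat_lit 156) (nat_lit 0) (nat_lit 0) (XT.nd (nat_lit 78) (nat_lit 0) (nat_lit 0) (XT.lf (nat_lit 0) (nat_lit 544138390010) (nat_lit 76) (nat_lit 705702570111)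 (nat_lit 76) (nat_lit 705006393856) (nat_lit 1) (nat_lit 4) (nat_lit 2) (nat_lit 5) (nat_lit 2) (nat_lit 4) (nat_lit 251) (nat_lit 182) (nat_lit 167)) (XT.lf (nat_lit 0) (nat_lit 626478562589) (nat_lit 76) (nat_lit 811120491190) (nat_lit 76) (nat_lit 810411591828) (nat_lit 1) (nat_lit 4) (nat_lit 2) (nat_lit 5) (nat_lit 2) (nat_lit 4) (nat_lit 252) (nat_lit 182) (nat_lit 166))) (XT.nd (nat_lit 78) (nat_lit 0) (nat_lit 0) (XT.lf (nat_lit 0) (nat_lit 721152229306) (nat_lit 76) (nat_lit 932358859832) (nat_lit 76) (nat_lit 931638896898) (nat_lit 1) (nat_lit 4) (nat_lit 2) (nat_lit 5) (nat_lit 2) (nat_lit 4) (nat_lit 253) (nat_lit 182) (nat_lit 165)) (XT.lf (nat_lit 0) (nat_lit 830011701030) (nat_lit 76) (nat_lit 1071789731074) (nat_lit 76) (nat_lit 1071060147644) (nat_lit 1) (nat_lit 4) (nat_lit 2) (nat_lit 5) (nat_lit 2) (nat_lit 4) (nat_lit 254) (nat_lit 182) (nat_lit 164)))))) (XT.nd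 (nat_lit 624) (nat_lit 0) (nat_lit 0) (XT.nd (nat_lit 312) (nat_lit 0) (nat_lit 0) (XT.nd (nat_lit 156) (nat_lit 0) (nat_lit 0) (XT.nd (nat_lit 78) (nat_lit 0) (nat_lit 0) (XT.lf (nat_lit 0) (nat_lit 955186836992) (nat_lit 76) (nat_lit 1232141100224) (nat_lit 76) (nat_lit 1231403151145) (nat_lit 1) (nat_lit 4) (nat_lit 2) (nat_lit 5) (nat_lit 2) (nat_lit 4) (nat_lit 255) (nat_lit 182) (nat_lit 163)) (XT.lf (nat_lit 0) (nat_lit 1099126715937) (nat_lit 76) (nat_lit 1416550276679) (nat_lit 76) (nat_lit 1415805053122) (nat_lit 1) (nat_lit 4) (nat_lit 2) (nat_lit 5) (nat_lit 2) (nat_lit 4) (nat_lit 256) (nat_lit 182) (nat_lit 162))) (XT.nd (nat_lit 78) (nat_lit 0) (nat_lit 0) (XT.lf (nat_lit 0) (nat_lit 1264647552889) (nat_lit 76) (nat_lit 1628625266064) (nat_lit 76) (nat_lit 1627873716874) (nat_lit 1) (nat_lit 4) (nat_lit 2) (nat_lit 5) (nat_lit 2) (nat_lit 4) (nat_lit 257) (nat_lit 182)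 (nat_lit 161)) (XT.lf (nat_lit 0) (nat_lit 1454987799007) (nat_lit 76) (nat_lit 1872515361650) (nat_lit 76) (nat_lit 1871758311910) (nat_lit 1) (nat_lit 4) (nat_lit 2) (nat_lit 5) (nat_lit 2) (nat_lit 4) (nat_lit 258) (nat_lit 182) (nat_lit 160)))) (XT.nd (nat_lit 156) (nat_lit 0) (nat_lit 0) (XT.nd (nat_lit 78) (nat_lit 0) (nat_lit 0) (XT.lf (nat_lit 0) (nat_lit 1673871502582) (nat_lit 76) (nat_lit 2152992326176) (nat_lit 76) (nat_lit 2152230493349) (nat_lit 1) (nat_lit 4) (nat_lit 2) (nat_lit 5) (nat_lit 2) (nat_lit 4) (nat_lit 259) (nat_lit 182) (nat_lit 159)) (XT.lf (nat_lit 0) (nat_lit 1925581170859) (nat_lit 76) (nat_lit 2475543752428) (nat_lit 76) (nat_lit 2474777760395) (nat_lit 1) (nat_lit 4) (nat_lit 2) (nat_lit 5) (nat_lit 2) (nat_lit 4) (nat_lit 260) (nat_lit 182) (nat_lit 158))) (XT.nd (nat_lit 78) (nat_lit 0) (nat_lit 0) (XT.lf (nat_lit 0) (nat_lit 2215041558219) (nat_lit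 76) (nat_lit 2846480429179) (nat_lit 76) (nat_lit 2845710820445) (nat_lit 1) (nat_lit 4) (nat_lit 2) (nat_lit 5) (nat_lit 2) (nat_lit 4) (nat_lit 261) (nat_lit 182) (nat_lit 157)) (XT.lf (nat_lit 0) (nat_lit 2547916020064) (nat_lit 76) (nat_lit 3273059813149) (nat_lit 76) (nat_lit 3272287059457) (nat_lit 1) (nat_lit 4) (nat_lit 2) (nat_lit 5) (nat_lit 2) (nat_lit 4) (nat_lit 262) (nat_lit 182) (nat_lit 156))))) (XT.nd (nat_lit 312) (nat_lit 0) (nat_lit 0) (XT.nd (nat_lit 156) (nat_lit 0) (nat_lit 0) (XT.nd (nat_lit 78) (nat_lit 0) (nat_lit 0) (XT.lf (nat_lit 0) (nat_lit 2930717317606) (nat_lit 76) (nat_lit 3763628022719) (nat_lit 76) (nat_lit 3762852534282) (nat_lit 1) (nat_lit 4) (nat_lit 2) (nat_lit 5) (nat_lit 2) (nat_lit 4) (nat_lit 263) (nat_lit 182) (nat_lit 155)) (XT.lf (nat_lit 0) (nat_lit 3370935041448) (nat_lit 76) (nat_lit 4327783131555) (nat_lit 76) (nat_lit 4327005265078)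 (nat_lit 1) (nat_lit 4) (nat_lit 2) (nat_lit 5) (nat_lit 2) (nat_lit 4) (nat_lit 264) (nat_lit 182) (nat_lit 154))) (XT.nd (nat_lit 78) (nat_lit 0) (nat_lit 0) (XT.lf (nat_lit 0) (nat_lit 3877182147057) (nat_lit 76) (nat_lit 4976562957005) (nat_lit 76) (nat_lit 4975783022667) (nat_lit 1) (nat_lit 4) (nat_lit 2) (nat_lit 5) (nat_lit 2) (nat_lit 4) (nat_lit 265) (nat_lit 182) (nat_lit 153)) (XT.lf (nat_lit 0) (nat_lit 4459363469108) (nat_lit 76) (nat_lit 5722661017391) (nat_lit 76) (nat_lit 5721879284913) (nat_lit 1) (nat_lit 4) (nat_lit 2) (nat_lit 5) (nat_lit 2) (nat_lit 4) (nat_lit 266) (nat_lit 182) (nat_lit 152)))) (XT.nd (nat_lit 156) (nat_lit 0) (nat_lit 0) (XT.nd (nat_lit 78) (nat_lit 0) (nat_lit 0) (XT.lf (nat_lit 0) (nat_lit 5128869511728) (nat_lit 76) (nat_lit 6580674883460) (nat_lit 76) (nat_lit 6579891587383) (nat_lit 1) (nat_lit 4) (nat_lit 2) (nat_lit 5) (nat_lit 2) (nat_lit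 4) (nat_lit 267) (nat_lit 182) (nat_lit 151)) (XT.lf (nat_lit 0) (nat_lit 5898799306186) (nat_lit 76) (nat_lit 7567391783028) (nat_lit 76) (nat_lit 7566607127298) (nat_lit 1) (nat_lit 4) (nat_lit 2) (nat_lit 5) (nat_lit 2) (nat_lit 4) (nat_lit 268) (nat_lit 182) (nat_lit 150))) (XT.nd (nat_lit 78) (nat_lit 0) (nat_lit 0) (XT.lf (nat_lit 0) (nat_lit 6784216696286) (nat_lit 76) (nat_lit 8702117046737) (nat_lit 76) (nat_lit 8701331208702) (nat_lit 1) (nat_lit 4) (nat_lit 2) (nat_lit 5) (nat_lit 2) (nat_lit 4) (nat_lit 269) (nat_lit 182) (nat_lit 149)) (XT.lf (nat_lit 0) (nat_lit 7802445065747) (nat_lit 76) (nat_lit 10007051821051) (nat_lit 76) (nat_lit 10006264954924) (nat_lit 1) (nat_lit 4) (nat_lit 2) (nat_lit 5) (nat_lit 2) (nat_lit 4) (nat_lit 270) (nat_lit 182) (nat_lit 148))))))) (XT.nd (nat_lit 28704) (nat_lit 0) (nat_lit 0) (XT.nd (nat_lit 624) (nat_lit 0) (nat_lit 0) (XT.nd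 (nat_lit 312) (nat_lit 0) (nat_lit 0) (XT.nd (nat_lit 156) (nat_lit 0) (nat_lit 0) (XT.nd (nat_lit 78) (nat_lit 0) (nat_lit 0) (XT.lf (nat_lit 0) (nat_lit 8973406273973) (nat_lit 76) (nat_lit 11507727438512) (nat_lit 76) (nat_lit 11506939678392) (nat_lit 1) (nat_lit 4) (nat_lit 2) (nat_lit 5) (nat_lit 2) (nat_lit 4) (nat_lit 271) (nat_lit 182) (nat_lit 147)) (XT.lf (nat_lit 0) (nat_lit 10320010431558) (nat_lit 76) (nat_lit 13233504943809) (nat_lit 76) (nat_lit 13232716406303) (nat_lit 1) (nat_lit 4) (nat_lit 2) (nat_lit 5) (nat_lit 2) (nat_lit 4) (nat_lit 272) (nat_lit 182) (nat_lit 146))) (XT.nd (nat_lit 78) (nat_lit 0) (nat_lit 0) (XT.lf (nat_lit 0) (nat_lit 11868604141586) (nat_lit 76) (nat_lit 15218149549002) (nat_lit 76) (nat_lit 15217360335509) (nat_lit 1) (nat_lit 4) (nat_lit 2) (nat_lit 5) (nat_lit 2) (nat_lit 4) (nat_lit 273) (nat_lit 182) (nat_lit 145)) (XT.lf (nat_lit 0)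 (nat_lit 13649485976645) (nat_lit 76) (nat_lit 17500491257236) (nat_lit 76) (nat_lit 17499701455928) (nat_lit 1) (nat_lit 4) (nat_lit 2) (nat_lit 5) (nat_lit 2) (nat_lit 4) (nat_lit 274) (nat_lit 182) (nat_lit 144)))) (XT.nd (nat_lit 156) (nat_lit 0) (nat_lit 0) (XT.nd (nat_lit 78) (nat_lit 0) (nat_lit 0) (XT.lf (nat_lit 0) (nat_lit 15697499276986) (nat_lit 76) (nat_lit 20125184580195) (nat_lit 76) (nat_lit 20124394267743) (nat_lit 1) (nat_lit 4) (nat_lit 2) (nat_lit 5) (nat_lit 2) (nat_lit 4) (nat_lit 275) (nat_lit 182) (nat_lit 143)) (XT.lf (nat_lit 0) (nat_lit 18052713868050) (nat_lit 76) (nat_lit 23143582213326) (nat_lit 76) (nat_lit 23142791456402) (nat_lit 1) (nat_lit 4) (nat_lit 2) (nat_lit 5) (nat_lit 2) (nat_lit 4) (nat_lit 276) (nat_lit 182) (nat_lit 142))) (XT.nd (nat_lit 78) (nat_lit 0) (nat_lit 0) (XT.lf (nat_lit 0) (nat_lit 20761210035314) (nat_lit 76) (nat_lit 26614739762496)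 (nat_lit 76) (nat_lit 26613948619074) (nat_lit 1) (nat_lit 4) (nat_lit 2) (nat_lit 5) (nat_lit 2) (nat_lit 4) (nat_lit 277) (nat_lit 182) (nat_lit 141)) (XT.lf (nat_lit 0) (nat_lit 23875980095094) (nat_lit 76) (nat_lit 30606571179754) (nat_lit 76) (nat_lit 30605779700247) (nat_lit 1) (nat_lit 4) (nat_lit 2) (nat_lit 5) (nat_lit 2) (nat_lit 4) (nat_lit 278) (nat_lit 182) (nat_lit 140))))) (XT.nd (nat_lit 27768) (nat_lit 0) (nat_lit 0) (XT.nd (nat_lit 156) (nat_lit 0) (nat_lit 0) (XT.nd (nat_lit 78) (nat_lit 0) (nat_lit 0) (XT.lf (nat_lit 0) (nat_lit 27457965200735) (nat_lit 76) (nat_lit 35197177514568) (nat_lit 76) (nat_lit 35196385742812) (nat_lit 1) (nat_lit 4) (nat_lit 2) (nat_lit 5) (nat_lit 2) (nat_lit 4) (nat_lit 279) (nat_lit 182) (nat_lit 139)) (XT.lf (nat_lit 0) (nat_lit 31577247669520) (nat_lit 76) (nat_lit 40476374977836) (nat_lit 76) (nat_lit 40475582951952) (nat_lit 1)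 (nat_lit 4) (nat_lit 2) (nat_lit 5) (nat_lit 2) (nat_lit 4) (nat_lit 280) (nat_lit 182) (nat_lit 138))) (XT.nd (nat_lit 78) (nat_lit 0) (nat_lit 0) (XT.lf (nat_lit 0) (nat_lit 36314422158447) (nat_lit 76) (nat_lit 46547452215579) (nat_lit 76) (nat_lit 46546659968713) (nat_lit 1) (nat_lit 4) (nat_lit 2) (nat_lit 5) (nat_lit 2) (nat_lit 4) (nat_lit 281) (nat_lit 182) (nat_lit 137)) (XT.lf (nat_lit 0) (nat_lit 41762172516213) (nat_lit 76) (nat_lit 53529191173752) (nat_lit 76) (nat_lit 53528398734729) (nat_lit 1) (nat_lit 4) (nat_lit 2) (nat_lit 5) (nat_lit 2) (nat_lit 4) (nat_lit 282) (nat_lit 182) (nat_lit 136)))) (XT.nd (nat_lit 156) (nat_lit 0) (nat_lit 0) (XT.nd (nat_lit 78) (nat_lit 0) (nat_lit 0) (XT.lf (nat_lit 0) (nat_lit 21000716586) (nat_lit 76) (nat_lit 35103507925) (nat_lit 76) (nat_lit 35103507925) (nat_lit 1) (nat_lit 4) (nat_lit 2) (nat_lit 5) (nat_lit 2) (nat_lit 4) (nat_lit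 234) (nat_lit 183) (nat_lit 183)) (XT.lf (nat_lit 0) (nat_lit 50232161336) (nat_lit 76) (nat_lit 79746723138) (nat_lit 76) (nat_lit 79627665126) (nat_lit 1) (nat_lit 4) (nat_lit 2) (nat_lit 5) (nat_lit 2) (nat_lit 4) (nat_lit 235) (nat_lit 183) (nat_lit 182))) (XT.nd (nat_lit 78) (nat_lit 0) (nat_lit 0) (XT.lf (nat_lit 0) (nat_lit 59533443254) (nat_lit 76) (nat_lit 90789996043) (nat_lit 76) (nat_lit 90567409327) (nat_lit 1) (nat_lit 4) (nat_lit 2) (nat_lit 5) (nat_lit 2) (nat_lit 4) (nat_lit 236) (nat_lit 183) (nat_lit 181)) (XT.lf (nat_lit 0) (nat_lit 70087260531) (nat_lit 76) (nat_lit 103552898604) (nat_lit 76) (nat_lit 103240286926) (nat_lit 1) (nat_lit 4) (nat_lit 2) (nat_lit 5) (nat_lit 2) (nat_lit 4) (nat_lit 237) (nat_lit 183) (nat_lit 180)))))) (XT.nd (nat_lit 624) (nat_lit 0) (nat_lit 0) (XT.nd (nat_lit 312) (nat_lit 0) (nat_lit 0) (XT.nd (nat_lit 156) (nat_lit 0) (nat_lit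 0) (XT.nd (nat_lit 78) (nat_lit 0) (nat_lit 0) (XT.lf (nat_lit 0) (nat_lit 82100100896) (nat_lit 76) (nat_lit 118285139781) (nat_lit 76) (nat_lit 117894245528) (nat_lit 1) (nat_lit 4) (nat_lit 2) (nat_lit 5) (nat_lit 2) (nat_lit 4) (nat_lit 238) (nat_lit 183) (nat_lit 179)) (XT.lf (nat_lit 0) (nat_lit 95806998183) (nat_lit 76) (nat_lit 135274959077) (nat_lit 76) (nat_lit 134815993020) (nat_lit 1) (nat_lit 4) (nat_lit 2) (nat_lit 5) (nat_lit 2) (nat_lit 4) (nat_lit 239) (nat_lit 183) (nat_lit 178))) (XT.nd (nat_lit 78) (nat_lit 0) (nat_lit 0) (XT.lf (nat_lit 0) (nat_lit 111476130815) (nat_lit 76) (nat_lit 154854766000) (nat_lit 76) (nat_lit 154336607070) (nat_lit 1) (nat_lit 4) (nat_lit 2) (nat_lit 5) (nat_lit 2) (nat_lit 4) (nat_lit 240) (nat_lit 183) (nat_lit 177)) (XT.lf (nat_lit 0) (nat_lit 129414068781) (nat_lit 76) (nat_lit 177407643729) (nat_lit 76) (nat_lit 176838012735) (nat_lit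 1) (nat_lit 4) (nat_lit 2) (nat_lit 5) (nat_lit 2) (nat_lit 4) (nat_lit 241) (nat_lit 183) (nat_lit 176)))) (XT.nd (nat_lit 156) (nat_lit 0) (nat_lit 0) (XT.nd (nat_lit 78) (nat_lit 0) (nat_lit 0) (XT.lf (nat_lit 0) (nat_lit 149971771735) (nat_lit 76) (nat_lit 203374844219) (nat_lit 76) (nat_lit 202760454908) (nat_lit 1) (nat_lit 4) (nat_lit 2) (nat_lit 5) (nat_lit 2) (nat_lit 4) (nat_lit 242) (nat_lit 183) (nat_lit 175)) (XT.lf (nat_lit 0) (nat_lit 173551455605) (nat_lit 76) (nat_lit 233264421393) (nat_lit 76) (nat_lit 232611111807) (nat_lit 1) (nat_lit 4) (nat_lit 2) (nat_lit 5) (nat_lit 2) (nat_lit 4) (nat_lit 243) (nat_lit 183) (nat_lit 174))) (XT.nd (nat_lit 78) (nat_lit 0) (nat_lit 0) (XT.lf (nat_lit 0) (nat_lit 200614462032) (nat_lit 76) (nat_lit 267661171325) (nat_lit 76) (nat_lit 266974018022) (nat_lit 1) (nat_lit 4) (nat_lit 2) (nat_lit 5) (nat_lit 2) (nat_lit 4) (nat_lit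 244) (nat_lit 183) (nat_lit 173)) (XT.lf (nat_lit 0) (nat_lit 231690284620) (nat_lit 76) (nat_lit 307238073907) (nat_lit 76) (nat_lit 306521491284) (nat_lit 1) (nat_lit 4) (nat_lit 2) (nat_lit 5) (nat_lit 2) (nat_lit 4) (nat_lit 245) (nat_lit 183) (nat_lit 172))))) (XT.nd (nat_lit 312) (nat_lit 0) (nat_lit 0) (XT.nd (nat_lit 156) (nat_lit 0) (nat_lit 0) (XT.nd (nat_lit 78) (nat_lit 0) (nat_lit 0) (XT.lf (nat_lit 0) (nat_lit 267386928593) (nat_lit 76) (nat_lit 352769459840) (nat_lit 76) (nat_lit 352027286505) (nat_lit 1) (nat_lit 4) (nat_lit 2) (nat_lit 5) (nat_lit 2) (nat_lit 4) (nat_lit 246) (nat_lit 183) (nat_lit 171)) (XT.lf (nat_lit 0) (nat_lit 308402806551) (nat_lit 76) (nat_lit 405146160589) (nat_lit 76) (nat_lit 404381734460) (nat_lit 1) (nat_lit 4) (nat_lit 2) (nat_lit 5) (nat_lit 2) (nat_lit 4) (nat_lit 247) (nat_lit 183) (nat_lit 170))) (XT.nd (nat_lit 78) (nat_lit 0) (nat_lit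 0) (XT.lf (nat_lit 0) (nat_lit 355540403063) (nat_lit 76) (nat_lit 465392937690) (nat_lit 76) (nat_lit 464609161305) (nat_lit 1) (nat_lit 4) (nat_lit 2) (nat_lit 5) (nat_lit 2) (nat_lit 4) (nat_lit 248) (nat_lit 183) (nat_lit 169)) (XT.lf (nat_lit 0) (nat_lit 409721975452) (nat_lit 76) (nat_lit 534688532434) (nat_lit 76) (nat_lit 533887929740) (nat_lit 1) (nat_lit 4) (nat_lit 2) (nat_lit 5) (nat_lit 2) (nat_lit 4) (nat_lit 249) (nat_lit 183) (nat_lit 168)))) (XT.nd (nat_lit 156) (nat_lit 0) (nat_lit 0) (XT.nd (nat_lit 78) (nat_lit 0) (nat_lit 0) (XT.lf (nat_lit 0) (nat_lit 472007597960) (nat_lit 76) (nat_lit 614388728196) (nat_lit 76) (nat_lit 613573493930) (nat_lit 1) (nat_lit 4) (nat_lit 2) (nat_lit 5) (nat_lit 2) (nat_lit 4) (nat_lit 250) (nat_lit 183) (nat_lit 167)) (XT.lf (nat_lit 0) (nat_lit 543615902331) (nat_lit 76) (nat_lit 706052876633) (nat_lit 76) (nat_lit 705224919260)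 (nat_lit 1) (nat_lit 4) (nat_lit 2) (nat_lit 5) (nat_lit 2) (nat_lit 4) (nat_lit 251) (nat_lit 183) (nat_lit 166))) (XT.nd (nat_lit 78) (nat_lit 0) (nat_lit 0) (XT.lf (nat_lit 0) (nat_lit 625947920608) (nat_lit 76) (nat_lit 811474406736) (nat_lit 76) (nat_lit 810635385791) (nat_lit 1) (nat_lit 4) (nat_lit 2) (nat_lit 5) (nat_lit 2) (nat_lit 4) (nat_lit 252) (nat_lit 183) (nat_lit 165)) (XT.lf (nat_lit 0) (nat_lit 720614496628) (nat_lit 76) (nat_lit 932715913658) (nat_lit 76) (nat_lit 931867272217) (nat_lit 1) (nat_lit 4) (nat_lit 2) (nat_lit 5) (nat_lit 2) (nat_lit 4) (nat_lit 253) (nat_lit 183) (nat_lit 164))))))))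
noncomputable def xc9 : XT := (XT.nd (nat_lit 29874) (nat_lit 0) (nat_lit 0) (XT.nd (nat_lit 1248) (nat_lit 0) (nat_lit 0) (XT.nd (nat_lit 624) (nat_lit 0) (nat_lit 0) (XT.nd (nat_lit 312) (nat_lit 0) (nat_lit 0) (XT.nd (nat_lit 156) (nat_lit 0) (nat_lit 0) (XT.nd (nat_lit 78) (nat_lit 0) (nat_lit 0) (XT.lf (nat_lit 0) (nat_lit 829467802528) (nat_lit 76) (nat_lit 1072149513841) (nat_lit 76) (nat_lit 1071292506750) (nat_lit 1) (nat_lit 4) (nat_lit 2) (nat_lit 5) (nat_lit 2) (nat_lit 4) (nat_lit 254) (nat_lit 183) (nat_lit 163)) (XT.lf (nat_lit 0) (nat_lit 954637576903) (nat_lit 76) (nat_lit 1232503255983) (nat_lit 76) (nat_lit 1231638974414) (nat_lit 1) (nat_lit 4) (nat_lit 2) (nat_lit 5) (nat_lit 2) (nat_lit 4) (nat_lit 255) (nat_lit 183) (nat_lit 162))) (XT.nd (nat_lit 78) (nat_lit 0) (nat_lit 0) (XT.lf (nat_lit 0) (nat_lit 1098572793600) (nat_lit 76) (nat_lit 1416914495908) (nat_lit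 76) (nat_lit 1416043888707) (nat_lit 1) (nat_lit 4) (nat_lit 2) (nat_lit 5) (nat_lit 2) (nat_lit 4) (nat_lit 256) (nat_lit 183) (nat_lit 161)) (XT.lf (nat_lit 0) (nat_lit 1264089576423) (nat_lit 76) (nat_lit 1628991279616) (nat_lit 76) (nat_lit 1628115171864) (nat_lit 1) (nat_lit 4) (nat_lit 2) (nat_lit 5) (nat_lit 2) (nat_lit 4) (nat_lit 257) (nat_lit 183) (nat_lit 160)))) (XT.nd (nat_lit 156) (nat_lit 0) (nat_lit 0) (XT.nd (nat_lit 78) (nat_lit 0) (nat_lit 0) (XT.lf (nat_lit 0) (nat_lit 1454426297210) (nat_lit 76) (nat_lit 1872882935482) (nat_lit 76) (nat_lit 1872002044643) (nat_lit 1) (nat_lit 4) (nat_lit 2) (nat_lit 5) (nat_lit 2) (nat_lit 4) (nat_lit 258) (nat_lit 183) (nat_lit 159)) (XT.lf (nat_lit 0) (nat_lit 1673306935281) (nat_lit 76) (nat_lit 2153361256774) (nat_lit 76) (nat_lit 2152476206729) (nat_lit 1) (nat_lit 4) (nat_lit 2) (nat_lit 5) (nat_lit 2) (nat_lit 4) (nat_lit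 259) (nat_lit 183) (nat_lit 158))) (XT.nd (nat_lit 78) (nat_lit 0) (nat_lit 0) (XT.lf (nat_lit 0) (nat_lit 1925013937903) (nat_lit 76) (nat_lit 2475913862822) (nat_lit 76) (nat_lit 2475025196076) (nat_lit 1) (nat_lit 4) (nat_lit 2) (nat_lit 5) (nat_lit 2) (nat_lit 4) (nat_lit 260) (nat_lit 183) (nat_lit 157)) (XT.lf (nat_lit 0) (nat_lit 2214472007300) (nat_lit 76) (nat_lit 2846851565483) (nat_lit 76) (nat_lit 2845959753780) (nat_lit 1) (nat_lit 4) (nat_lit 2) (nat_lit 5) (nat_lit 2) (nat_lit 4) (nat_lit 261) (nat_lit 183) (nat_lit 156))))) (XT.nd (nat_lit 312) (nat_lit 0) (nat_lit 0) (XT.nd (nat_lit 156) (nat_lit 0) (nat_lit 0) (XT.nd (nat_lit 78) (nat_lit 0) (nat_lit 0) (XT.lf (nat_lit 0) (nat_lit 2547344453527) (nat_lit 76) (nat_lit 3273431841548) (nat_lit 76) (nat_lit 3272537295099) (nat_lit 1) (nat_lit 4) (nat_lit 2) (nat_lit 5) (nat_lit 2) (nat_lit 4) (nat_lit 262) (nat_lit 183)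 (nat_lit 155)) (XT.lf (nat_lit 0) (nat_lit 2930143998357) (nat_lit 76) (nat_lit 3764000826853) (nat_lit 76) (nat_lit 3763103902365) (nat_lit 1) (nat_lit 4) (nat_lit 2) (nat_lit 5) (nat_lit 2) (nat_lit 4) (nat_lit 263) (nat_lit 183) (nat_lit 154))) (XT.nd (nat_lit 78) (nat_lit 0) (nat_lit 0) (XT.lf (nat_lit 0) (nat_lit 3370360198101) (nat_lit 76) (nat_lit 4328156610242) (nat_lit 76) (nat_lit 4327257617893) (nat_lit 1) (nat_lit 4) (nat_lit 2) (nat_lit 5) (nat_lit 2) (nat_lit 4) (nat_lit 264) (nat_lit 183) (nat_lit 153)) (XT.lf (nat_lit 0) (nat_lit 3876605978408) (nat_lit 76) (nat_lit 4976937022258) (nat_lit 76) (nat_lit 4976036231769) (nat_lit 1) (nat_lit 4) (nat_lit 2) (nat_lit 5) (nat_lit 2) (nat_lit 4) (nat_lit 265) (nat_lit 183) (nat_lit 152)))) (XT.nd (nat_lit 156) (nat_lit 0) (nat_lit 0) (XT.nd (nat_lit 78) (nat_lit 0) (nat_lit 0) (XT.lf (nat_lit 0) (nat_lit 4458786148023) (nat_lit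 76) (nat_lit 5723035592703) (nat_lit 76) (nat_lit 5722133238614) (nat_lit 1) (nat_lit 4) (nat_lit 2) (nat_lit 5) (nat_lit 2) (nat_lit 4) (nat_lit 266) (nat_lit 183) (nat_lit 151)) (XT.lf (nat_lit 0) (nat_lit 5128291188524) (nat_lit 76) (nat_lit 6581049902301) (nat_lit 76) (nat_lit 6580146188561) (nat_lit 1) (nat_lit 4) (nat_lit 2) (nat_lit 5) (nat_lit 2) (nat_lit 4) (nat_lit 267) (nat_lit 183) (nat_lit 150))) (XT.nd (nat_lit 78) (nat_lit 0) (nat_lit 0) (XT.lf (nat_lit 0) (nat_lit 5898220111574) (nat_lit 76) (nat_lit 7567767187546) (nat_lit 76) (nat_lit 7566862291500) (nat_lit 1) (nat_lit 4) (nat_lit 2) (nat_lit 5) (nat_lit 2) (nat_lit 4) (nat_lit 268) (nat_lit 183) (nat_lit 149)) (XT.lf (nat_lit 0) (nat_lit 6783636743928) (nat_lit 76) (nat_lit 8702492786627) (nat_lit 76) (nat_lit 8701586862488) (nat_lit 1) (nat_lit 4) (nat_lit 2) (nat_lit 5) (nat_lit 2) (nat_lit 4) (nat_lit 269) (nat_lit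 183) (nat_lit 148)))))) (XT.nd (nat_lit 624) (nat_lit 0) (nat_lit 0) (XT.nd (nat_lit 312) (nat_lit 0) (nat_lit 0) (XT.nd (nat_lit 156) (nat_lit 0) (nat_lit 0) (XT.nd (nat_lit 78) (nat_lit 0) (nat_lit 0) (XT.lf (nat_lit 0) (nat_lit 7801864454480) (nat_lit 76) (nat_lit 10007427852569) (nat_lit 76) (nat_lit 10006521034437) (nat_lit 1) (nat_lit 4) (nat_lit 2) (nat_lit 5) (nat_lit 2) (nat_lit 4) (nat_lit 270) (nat_lit 183) (nat_lit 147)) (XT.lf (nat_lit 0) (nat_lit 8972825089741) (nat_lit 76) (nat_lit 11508103723619) (nat_lit 76) (nat_lit 11507196128102) (nat_lit 1) (nat_lit 4) (nat_lit 2) (nat_lit 5) (nat_lit 2) (nat_lit 4) (nat_lit 271) (nat_lit 183) (nat_lit 146))) (XT.nd (nat_lit 78) (nat_lit 0) (nat_lit 0) (XT.lf (nat_lit 0) (nat_lit 10319428749097) (nat_lit 76) (nat_lit 13233881449429) (nat_lit 76) (nat_lit 13232973177924) (nat_lit 1) (nat_lit 4) (nat_lit 2) (nat_lit 5) (nat_lit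 2) (nat_lit 4) (nat_lit 272) (nat_lit 183) (nat_lit 145)) (XT.lf (nat_lit 0) (nat_lit 11868022025881) (nat_lit 76) (nat_lit 15218526246372) (nat_lit 76) (nat_lit 15217617387052) (nat_lit 1) (nat_lit 4) (nat_lit 2) (nat_lit 5) (nat_lit 2) (nat_lit 4) (nat_lit 273) (nat_lit 183) (nat_lit 144)))) (XT.nd (nat_lit 156) (nat_lit 0) (nat_lit 0) (XT.nd (nat_lit 78) (nat_lit 0) (nat_lit 0) (XT.lf (nat_lit 0) (nat_lit 13648903484207) (nat_lit 76) (nat_lit 17500868121345) (nat_lit 76) (nat_lit 17499958750882) (nat_lit 1) (nat_lit 4) (nat_lit 2) (nat_lit 5) (nat_lit 2) (nat_lit 4) (nat_lit 274) (nat_lit 183) (nat_lit 143)) (XT.lf (nat_lit 0) (nat_lit 15696916456953) (nat_lit 76) (nat_lit 20125561589293) (nat_lit 76) (nat_lit 20124651774358) (nat_lit 1) (nat_lit 4) (nat_lit 2) (nat_lit 5) (nat_lit 2) (nat_lit 4) (nat_lit 275) (nat_lit 183) (nat_lit 142))) (XT.nd (nat_lit 78) (nat_lit 0) (nat_lit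 0) (XT.lf (nat_lit 0) (nat_lit 18052130763152) (nat_lit 76) (nat_lit 23143959348503) (nat_lit 76) (nat_lit 23143049147070) (nat_lit 1) (nat_lit 4) (nat_lit 2) (nat_lit 5) (nat_lit 2) (nat_lit 4) (nat_lit 276) (nat_lit 183) (nat_lit 141)) (XT.lf (nat_lit 0) (nat_lit 20760626682707) (nat_lit 76) (nat_lit 26615117007307) (nat_lit 76) (nat_lit 26614206469788) (nat_lit 1) (nat_lit 4) (nat_lit 2) (nat_lit 5) (nat_lit 2) (nat_lit 4) (nat_lit 277) (nat_lit 183) (nat_lit 140))))) (XT.nd (nat_lit 27690) (nat_lit 0) (nat_lit 0) (XT.nd (nat_lit 156) (nat_lit 0) (nat_lit 0) (XT.nd (nat_lit 78) (nat_lit 0) (nat_lit 0) (XT.lf (nat_lit 0) (nat_lit 23875396527089) (nat_lit 76) (nat_lit 30606948519898) (nat_lit 76) (nat_lit 30606037690132) (nat_lit 1) (nat_lit 4) (nat_lit 2) (nat_lit 5) (nat_lit 2) (nat_lit 4) (nat_lit 278) (nat_lit 183) (nat_lit 139)) (XT.lf (nat_lit 0) (nat_lit 27457381445427) (nat_lit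 76) (nat_lit 35197554937611) (nat_lit 76) (nat_lit 35196643853716) (nat_lit 1) (nat_lit 4) (nat_lit 2) (nat_lit 5) (nat_lit 2) (nat_lit 4) (nat_lit 279) (nat_lit 183) (nat_lit 138))) (XT.nd (nat_lit 78) (nat_lit 0) (nat_lit 0) (XT.lf (nat_lit 0) (nat_lit 31576663751339) (nat_lit 76) (nat_lit 40476752472965) (nat_lit 76) (nat_lit 40475841168088) (nat_lit 1) (nat_lit 4) (nat_lit 2) (nat_lit 5) (nat_lit 2) (nat_lit 4) (nat_lit 280) (nat_lit 183) (nat_lit 137)) (XT.lf (nat_lit 0) (nat_lit 36313838098638) (nat_lit 76) (nat_lit 46547829773391) (nat_lit 76) (nat_lit 46546918276357) (nat_lit 1) (nat_lit 4) (nat_lit 2) (nat_lit 5) (nat_lit 2) (nat_lit 4) (nat_lit 281) (nat_lit 183) (nat_lit 136)))) (XT.nd (nat_lit 156) (nat_lit 0) (nat_lit 0) (XT.nd (nat_lit 78) (nat_lit 0) (nat_lit 0) (XT.lf (nat_lit 0) (nat_lit 14113101137) (nat_lit 76) (nat_lit 27504865784) (nat_lit 76) (nat_lit 27504865784)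 (nat_lit 1) (nat_lit 4) (nat_lit 2) (nat_lit 5) (nat_lit 2) (nat_lit 4) (nat_lit 232) (nat_lit 184) (nat_lit 184)) (XT.lf (nat_lit 0) (nat_lit 34680222781) (nat_lit 76) (nat_lit 62121144450) (nat_lit 76) (nat_lit 61984227737) (nat_lit 1) (nat_lit 4) (nat_lit 2) (nat_lit 5) (nat_lit 2) (nat_lit 4) (nat_lit 233) (nat_lit 184) (nat_lit 183))) (XT.nd (nat_lit 78) (nat_lit 0) (nat_lit 0) (XT.lf (nat_lit 0) (nat_lit 41913682574) (nat_lit 76) (nat_lit 70382770218) (nat_lit 76) (nat_lit 70126795493) (nat_lit 1) (nat_lit 4) (nat_lit 2) (nat_lit 5) (nat_lit 2) (nat_lit 4) (nat_lit 234) (nat_lit 184) (nat_lit 182)) (XT.lf (nat_lit 0) (nat_lit 50068105867) (nat_lit 76) (nat_lit 79956249377) (nat_lit 76) (nat_lit 79596745947) (nat_lit 1) (nat_lit 4) (nat_lit 2) (nat_lit 5) (nat_lit 2) (nat_lit 4) (nat_lit 235) (nat_lit 184) (nat_lit 181))))))) (XT.nd (nat_lit 1248) (nat_lit 0) (nat_lit 0) (XT.nd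 (nat_lit 624) (nat_lit 0) (nat_lit 0) (XT.nd (nat_lit 312) (nat_lit 0) (nat_lit 0) (XT.nd (nat_lit 156) (nat_lit 0) (nat_lit 0) (XT.nd (nat_lit 78) (nat_lit 0) (nat_lit 0) (XT.lf (nat_lit 0) (nat_lit 59303035726) (nat_lit 76) (nat_lit 91028889128) (nat_lit 76) (nat_lit 90579360737) (nat_lit 1) (nat_lit 4) (nat_lit 2) (nat_lit 5) (nat_lit 2) (nat_lit 4) (nat_lit 236) (nat_lit 184) (nat_lit 180)) (XT.lf (nat_lit 0) (nat_lit 69799155559) (nat_lit 76) (nat_lit 103817328076) (nat_lit 76) (nat_lit 103289517110) (nat_lit 1) (nat_lit 4) (nat_lit 2) (nat_lit 5) (nat_lit 2) (nat_lit 4) (nat_lit 237) (nat_lit 184) (nat_lit 179))) (XT.nd (nat_lit 78) (nat_lit 0) (nat_lit 0) (XT.lf (nat_lit 0) (nat_lit 81761824234) (nat_lit 76) (nat_lit 118571774808) (nat_lit 76) (nat_lit 117975892038) (nat_lit 1) (nat_lit 4) (nat_lit 2) (nat_lit 5) (nat_lit 2) (nat_lit 4) (nat_lit 238) (nat_lit 184) (nat_lit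 178)) (XT.lf (nat_lit 0) (nat_lit 95425093964) (nat_lit 76) (nat_lit 135580903282) (nat_lit 76) (nat_lit 134925827639) (nat_lit 1) (nat_lit 4) (nat_lit 2) (nat_lit 5) (nat_lit 2) (nat_lit 4) (nat_lit 239) (nat_lit 184) (nat_lit 177)))) (XT.nd (nat_lit 156) (nat_lit 0) (nat_lit 0) (XT.nd (nat_lit 78) (nat_lit 0) (nat_lit 0) (XT.lf (nat_lit 0) (nat_lit 111056289591) (nat_lit 76) (nat_lit 155177500795) (nat_lit 76) (nat_lit 154470953087) (nat_lit 1) (nat_lit 4) (nat_lit 2) (nat_lit 5) (nat_lit 2) (nat_lit 4) (nat_lit 240) (nat_lit 184) (nat_lit 176)) (XT.lf (nat_lit 0) (nat_lit 128961238856) (nat_lit 76) (nat_lit 177744979036) (nat_lit 76) (nat_lit 176993673012) (nat_lit 1) (nat_lit 4) (nat_lit 2) (nat_lit 5) (nat_lit 2) (nat_lit 4) (nat_lit 241) (nat_lit 184) (nat_lit 175))) (XT.nd (nat_lit 78) (nat_lit 0) (nat_lit 0) (XT.lf (nat_lit 0) (nat_lit 149490255984) (nat_lit 76) (nat_lit 203724875624)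 (nat_lit 76) (nat_lit 202934649325) (nat_lit 1) (nat_lit 4) (nat_lit 2) (nat_lit 5) (nat_lit 2) (nat_lit 4) (nat_lit 242) (nat_lit 184) (nat_lit 174)) (XT.lf (nat_lit 0) (nat_lit 173044995657) (nat_lit 76) (nat_lit 233625492882) (nat_lit 76) (nat_lit 232801422866) (nat_lit 1) (nat_lit 4) (nat_lit 2) (nat_lit 5) (nat_lit 2) (nat_lit 4) (nat_lit 243) (nat_lit 184) (nat_lit 173))))) (XT.nd (nat_lit 312) (nat_lit 0) (nat_lit 0) (XT.nd (nat_lit 156) (nat_lit 0) (nat_lit 0) (XT.nd (nat_lit 78) (nat_lit 0) (nat_lit 0) (XT.lf (nat_lit 0) (nat_lit 200086311478) (nat_lit 76) (nat_lit 268031842889) (nat_lit 76) (nat_lit 267178343553) (nat_lit 1) (nat_lit 4) (nat_lit 2) (nat_lit 5) (nat_lit 2) (nat_lit 4) (nat_lit 244) (nat_lit 184) (nat_lit 172)) (XT.lf (nat_lit 0) (nat_lit 231143272669) (nat_lit 76) (nat_lit 307617093361) (nat_lit 76) (nat_lit 306738003313) (nat_lit 1) (nat_lit 4) (nat_lit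 2) (nat_lit 5) (nat_lit 2) (nat_lit 4) (nat_lit 245) (nat_lit 184) (nat_lit 171))) (XT.nd (nat_lit 78) (nat_lit 0) (nat_lit 0) (XT.lf (nat_lit 0) (nat_lit 266823515428) (nat_lit 76) (nat_lit 353155738329) (nat_lit 76) (nat_lit 352254395487) (nat_lit 1) (nat_lit 4) (nat_lit 2) (nat_lit 5) (nat_lit 2) (nat_lit 4) (nat_lit 246) (nat_lit 184) (nat_lit 170)) (XT.lf (nat_lit 0) (nat_lit 307825131460) (nat_lit 76) (nat_lit 405538751283) (nat_lit 76) (nat_lit 404618058185) (nat_lit 1) (nat_lit 4) (nat_lit 2) (nat_lit 5) (nat_lit 2) (nat_lit 4) (nat_lit 247) (nat_lit 184) (nat_lit 169)))) (XT.nd (nat_lit 156) (nat_lit 0) (nat_lit 0) (XT.nd (nat_lit 78) (nat_lit 0) (nat_lit 0) (XT.lf (nat_lit 0) (nat_lit 354950326298) (nat_lit 76) (nat_lit 465791017257) (nat_lit 76) (nat_lit 464853497851) (nat_lit 1) (nat_lit 4) (nat_lit 2) (nat_lit 5) (nat_lit 2) (nat_lit 4) (nat_lit 248) (nat_lit 184) (nat_lit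 168)) (XT.lf (nat_lit 0) (nat_lit 409121114622) (nat_lit 76) (nat_lit 535091384934) (nat_lit 76) (nat_lit 534139233955) (nat_lit 1) (nat_lit 4) (nat_lit 2) (nat_lit 5) (nat_lit 2) (nat_lit 4) (nat_lit 249) (nat_lit 184) (nat_lit 167))) (XT.nd (nat_lit 78) (nat_lit 0) (nat_lit 0) (XT.lf (nat_lit 0) (nat_lit 471397359682) (nat_lit 76) (nat_lit 614795731073) (nat_lit 76) (nat_lit 613830856987) (nat_lit 1) (nat_lit 4) (nat_lit 2) (nat_lit 5) (nat_lit 2) (nat_lit 4) (nat_lit 250) (nat_lit 184) (nat_lit 166)) (XT.lf (nat_lit 0) (nat_lit 542997509751) (nat_lit 76) (nat_lit 706463488534) (nat_lit 76) (nat_lit 705487550876) (nat_lit 1) (nat_lit 4) (nat_lit 2) (nat_lit 5) (nat_lit 2) (nat_lit 4) (nat_lit 251) (nat_lit 184) (nat_lit 165)))))) (XT.nd (nat_lit 624) (nat_lit 0) (nat_lit 0) (XT.nd (nat_lit 312) (nat_lit 0) (nat_lit 0) (XT.nd (nat_lit 156) (nat_lit 0) (nat_lit 0) (XT.nd (nat_lit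 78) (nat_lit 0) (nat_lit 0) (XT.lf (nat_lit 0) (nat_lit 625322437331) (nat_lit 76) (nat_lit 811888156918) (nat_lit 76) (nat_lit 810902598763) (nat_lit 1) (nat_lit 4) (nat_lit 2) (nat_lit 5) (nat_lit 2) (nat_lit 4) (nat_lit 252) (nat_lit 184) (nat_lit 164)) (XT.lf (nat_lit 0) (nat_lit 719982847526) (nat_lit 76) (nat_lit 933132392781) (nat_lit 76) (nat_lit 932138468977) (nat_lit 1) (nat_lit 4) (nat_lit 2) (nat_lit 5) (nat_lit 2) (nat_lit 4) (nat_lit 253) (nat_lit 184) (nat_lit 163))) (XT.nd (nat_lit 78) (nat_lit 0) (nat_lit 0) (XT.lf (nat_lit 0) (nat_lit 828830791840) (nat_lit 76) (nat_lit 1072568365955) (nat_lit 76) (nat_lit 1071567167674) (nat_lit 1) (nat_lit 4) (nat_lit 2) (nat_lit 5) (nat_lit 2) (nat_lit 4) (nat_lit 254) (nat_lit 184) (nat_lit 162)) (XT.lf (nat_lit 0) (nat_lit 953995903966) (nat_lit 76) (nat_lit 1232924171567) (nat_lit 76) (nat_lit 1231916647653) (nat_lit 1) (nat_lit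 4) (nat_lit 2) (nat_lit 5) (nat_lit 2) (nat_lit 4) (nat_lit 255) (nat_lit 184) (nat_lit 161)))) (XT.nd (nat_lit 156) (nat_lit 0) (nat_lit 0) (XT.nd (nat_lit 78) (nat_lit 0) (nat_lit 0) (XT.lf (nat_lit 0) (nat_lit 1097927066534) (nat_lit 76) (nat_lit 1417337205815) (nat_lit 76) (nat_lit 1416324181351) (nat_lit 1) (nat_lit 4) (nat_lit 2) (nat_lit 5) (nat_lit 2) (nat_lit 4) (nat_lit 256) (nat_lit 184) (nat_lit 160)) (XT.lf (nat_lit 0) (nat_lit 1263440324027) (nat_lit 76) (nat_lit 1629415549803) (nat_lit 76) (nat_lit 1628397742251) (nat_lit 1) (nat_lit 4) (nat_lit 2) (nat_lit 5) (nat_lit 2) (nat_lit 4) (nat_lit 257) (nat_lit 184) (nat_lit 159))) (XT.nd (nat_lit 78) (nat_lit 0) (nat_lit 0) (XT.lf (nat_lit 0) (nat_lit 1453773979310) (nat_lit 76) (nat_lit 1873308562435) (nat_lit 76) (nat_lit 1872286595677) (nat_lit 1) (nat_lit 4) (nat_lit 2) (nat_lit 5) (nat_lit 2) (nat_lit 4) (nat_lit 258)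 (nat_lit 184) (nat_lit 158)) (XT.lf (nat_lit 0) (nat_lit 1672651951725) (nat_lit 76) (nat_lit 2153788063523) (nat_lit 76) (nat_lit 2152762480065) (nat_lit 1) (nat_lit 4) (nat_lit 2) (nat_lit 5) (nat_lit 2) (nat_lit 4) (nat_lit 259) (nat_lit 184) (nat_lit 157))))) (XT.nd (nat_lit 312) (nat_lit 0) (nat_lit 0) (XT.nd (nat_lit 156) (nat_lit 0) (nat_lit 0) (XT.nd (nat_lit 78) (nat_lit 0) (nat_lit 0) (XT.lf (nat_lit 0) (nat_lit 1924356636385) (nat_lit 76) (nat_lit 2476341695481) (nat_lit 76) (nat_lit 2475312967065) (nat_lit 1) (nat_lit 4) (nat_lit 2) (nat_lit 5) (nat_lit 2) (nat_lit 4) (nat_lit 260) (nat_lit 184) (nat_lit 156)) (XT.lf (nat_lit 0) (nat_lit 2213812690164) (nat_lit 76) (nat_lit 2847280290237) (nat_lit 76) (nat_lit 2846248827075) (nat_lit 1) (nat_lit 4) (nat_lit 2) (nat_lit 5) (nat_lit 2) (nat_lit 4) (nat_lit 261) (nat_lit 184) (nat_lit 155))) (XT.nd (nat_lit 78) (nat_lit 0)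 (nat_lit 0) (XT.lf (nat_lit 0) (nat_lit 2546683383678) (nat_lit 76) (nat_lit 3273861342037) (nat_lit 76) (nat_lit 3272827500836) (nat_lit 1) (nat_lit 4) (nat_lit 2) (nat_lit 5) (nat_lit 2) (nat_lit 4) (nat_lit 262) (nat_lit 184) (nat_lit 154)) (XT.lf (nat_lit 0) (nat_lit 2929481404411) (nat_lit 76) (nat_lit 3764431001895) (nat_lit 76) (nat_lit 3763395092833) (nat_lit 1) (nat_lit 4) (nat_lit 2) (nat_lit 5) (nat_lit 2) (nat_lit 4) (nat_lit 263) (nat_lit 184) (nat_lit 153)))) (XT.nd (nat_lit 156) (nat_lit 0) (nat_lit 0) (XT.nd (nat_lit 78) (nat_lit 0) (nat_lit 0) (XT.lf (nat_lit 0) (nat_lit 3369696278853) (nat_lit 76) (nat_lit 4328587371851) (nat_lit 76) (nat_lit 4327549664649) (nat_lit 1) (nat_lit 4) (nat_lit 2) (nat_lit 5) (nat_lit 2) (nat_lit 4) (nat_lit 264) (nat_lit 184) (nat_lit 152)) (XT.lf (nat_lit 0) (nat_lit 3875940906724) (nat_lit 76) (nat_lit 4977368293926) (nat_lit 76) (nat_lit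 4976329023124) (nat_lit 1) (nat_lit 4) (nat_lit 2) (nat_lit 5) (nat_lit 2) (nat_lit 4) (nat_lit 265) (nat_lit 184) (nat_lit 151))) (XT.nd (nat_lit 78) (nat_lit 0) (nat_lit 0) (XT.lf (nat_lit 0) (nat_lit 4458120074220) (nat_lit 76) (nat_lit 5723467307899) (nat_lit 76) (nat_lit 5722426677446) (nat_lit 1) (nat_lit 4) (nat_lit 2) (nat_lit 5) (nat_lit 2) (nat_lit 4) (nat_lit 266) (nat_lit 184) (nat_lit 150)) (XT.lf (nat_lit 0) (nat_lit 5127624243313) (nat_lit 76) (nat_lit 6581482003175) (nat_lit 76) (nat_lit 6580440190416) (nat_lit 1) (nat_lit 4) (nat_lit 2) (nat_lit 5) (nat_lit 2) (nat_lit 4) (nat_lit 267) (nat_lit 184) (nat_lit 149))))))))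
noncomputable def xc10 : XT := (XT.nd (nat_lit 29796) (nat_lit 0) (nat_lit 0) (XT.nd (nat_lit 28548) (nat_lit 0) (nat_lit 0) (XT.nd (nat_lit 624) (nat_lit 0) (nat_lit 0) (XT.nd (nat_lit 312) (nat_lit 0) (nat_lit 0) (XT.nd (nat_lit 156) (nat_lit 0) (nat_lit 0) (XT.nd (nat_lit 78) (nat_lit 0) (nat_lit 0) (XT.lf (nat_lit 0) (nat_lit 5897552408617) (nat_lit 76) (nat_lit 7568199623792) (nat_lit 76) (nat_lit 7567156782940) (nat_lit 1) (nat_lit 4) (nat_lit 2) (nat_lit 5) (nat_lit 2) (nat_lit 4) (nat_lit 268) (nat_lit 184) (nat_lit 148)) (XT.lf (nat_lit 0) (nat_lit 6782968382062) (nat_lit 76) (nat_lit 8702925514500) (nat_lit 76) (nat_lit 8701881779655) (nat_lit 1) (nat_lit 4) (nat_lit 2) (nat_lit 5) (nat_lit 2) (nat_lit 4) (nat_lit 269) (nat_lit 184) (nat_lit 147))) (XT.nd (nat_lit 78) (nat_lit 0) (nat_lit 0) (XT.lf (nat_lit 0) (nat_lit 7801195519650) (nat_lit 76) (nat_lit 10007860834031)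 (nat_lit 76) (nat_lit 10006816321801) (nat_lit 1) (nat_lit 4) (nat_lit 2) (nat_lit 5) (nat_lit 2) (nat_lit 4) (nat_lit 270) (nat_lit 184) (nat_lit 146)) (XT.lf (nat_lit 0) (nat_lit 8972155656680) (nat_lit 76) (nat_lit 11508536925594) (nat_lit 76) (nat_lit 11507491737377) (nat_lit 1) (nat_lit 4) (nat_lit 2) (nat_lit 5) (nat_lit 2) (nat_lit 4) (nat_lit 271) (nat_lit 184) (nat_lit 145)))) (XT.nd (nat_lit 156) (nat_lit 0) (nat_lit 0) (XT.nd (nat_lit 78) (nat_lit 0) (nat_lit 0) (XT.lf (nat_lit 0) (nat_lit 10318758882792) (nat_lit 76) (nat_lit 13234314843153) (nat_lit 76) (nat_lit 13233269067121) (nat_lit 1) (nat_lit 4) (nat_lit 2) (nat_lit 5) (nat_lit 2) (nat_lit 4) (nat_lit 272) (nat_lit 184) (nat_lit 144)) (XT.lf (nat_lit 0) (nat_lit 11867351782843) (nat_lit 76) (nat_lit 15218959806835) (nat_lit 76) (nat_lit 15217913519659) (nat_lit 1) (nat_lit 4) (nat_lit 2) (nat_lit 5) (nat_lit 2)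 (nat_lit 4) (nat_lit 273) (nat_lit 184) (nat_lit 143))) (XT.nd (nat_lit 78) (nat_lit 0) (nat_lit 0) (XT.lf (nat_lit 0) (nat_lit 13648232913574) (nat_lit 76) (nat_lit 17501301826799) (nat_lit 76) (nat_lit 17500255095150) (nat_lit 1) (nat_lit 4) (nat_lit 2) (nat_lit 5) (nat_lit 2) (nat_lit 4) (nat_lit 274) (nat_lit 184) (nat_lit 142)) (XT.lf (nat_lit 0) (nat_lit 15696245601456) (nat_lit 76) (nat_lit 20125995420826) (nat_lit 76) (nat_lit 20124948302679) (nat_lit 1) (nat_lit 4) (nat_lit 2) (nat_lit 5) (nat_lit 2) (nat_lit 4) (nat_lit 275) (nat_lit 184) (nat_lit 141))))) (XT.nd (nat_lit 312) (nat_lit 0) (nat_lit 0) (XT.nd (nat_lit 156) (nat_lit 0) (nat_lit 0) (XT.nd (nat_lit 78) (nat_lit 0) (nat_lit 0) (XT.lf (nat_lit 0) (nat_lit 18051459659946) (nat_lit 76) (nat_lit 23144393289669) (nat_lit 76) (nat_lit 23143345835438) (nat_lit 1) (nat_lit 4) (nat_lit 2) (nat_lit 5) (nat_lit 2) (nat_lit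 4) (nat_lit 276) (nat_lit 184) (nat_lit 140)) (XT.lf (nat_lit 0) (nat_lit 20759955364103) (nat_lit 76) (nat_lit 26615551043807) (nat_lit 76) (nat_lit 26614503297327) (nat_lit 1) (nat_lit 4) (nat_lit 2) (nat_lit 5) (nat_lit 2) (nat_lit 4) (nat_lit 277) (nat_lit 184) (nat_lit 139))) (XT.nd (nat_lit 78) (nat_lit 0) (nat_lit 0) (XT.lf (nat_lit 0) (nat_lit 23874725021182) (nat_lit 76) (nat_lit 30607382639297) (nat_lit 76) (nat_lit 30606334638689) (nat_lit 1) (nat_lit 4) (nat_lit 2) (nat_lit 5) (nat_lit 2) (nat_lit 4) (nat_lit 278) (nat_lit 184) (nat_lit 138)) (XT.lf (nat_lit 0) (nat_lit 27456709776647) (nat_lit 76) (nat_lit 35197989129095) (nat_lit 76) (nat_lit 35196940907506) (nat_lit 1) (nat_lit 4) (nat_lit 2) (nat_lit 5) (nat_lit 2) (nat_lit 4) (nat_lit 279) (nat_lit 184) (nat_lit 137)))) (XT.nd (nat_lit 27456) (nat_lit 0) (nat_lit 0) (XT.nd (nat_lit 27378) (nat_lit 0) (nat_lit 0) (XT.lf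 (nat_lit 0) (nat_lit 31575991940931) (nat_lit 76) (nat_lit 40477186727133) (nat_lit 76) (nat_lit 40476138313385) (nat_lit 1) (nat_lit 4) (nat_lit 2) (nat_lit 5) (nat_lit 2) (nat_lit 4) (nat_lit 280) (nat_lit 184) (nat_lit 136)) (XT.lf (nat_lit 0) (nat_lit 8640105675) (nat_lit 76) (nat_lit 21903436234) (nat_lit 76) (nat_lit 21903436234) (nat_lit 1) (nat_lit 4) (nat_lit 2) (nat_lit 5) (nat_lit 2) (nat_lit 4) (nat_lit 230) (nat_lit 185) (nat_lit 185))) (XT.nd (nat_lit 78) (nat_lit 0) (nat_lit 0) (XT.lf (nat_lit 0) (nat_lit 22425346743) (nat_lit 76) (nat_lit 49066849457) (nat_lit 76) (nat_lit 48909395237) (nat_lit 1) (nat_lit 4) (nat_lit 2) (nat_lit 5) (nat_lit 2) (nat_lit 4) (nat_lit 231) (nat_lit 185) (nat_lit 184)) (XT.lf (nat_lit 0) (nat_lit 28125289086) (nat_lit 76) (nat_lit 55211849091) (nat_lit 76) (nat_lit 54917478158) (nat_lit 1) (nat_lit 4) (nat_lit 2) (nat_lit 5) (nat_lit 2)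 (nat_lit 4) (nat_lit 232) (nat_lit 185) (nat_lit 183)))))) (XT.nd (nat_lit 624) (nat_lit 0) (nat_lit 0) (XT.nd (nat_lit 312) (nat_lit 0) (nat_lit 0) (XT.nd (nat_lit 156) (nat_lit 0) (nat_lit 0) (XT.nd (nat_lit 78) (nat_lit 0) (nat_lit 0) (XT.lf (nat_lit 0) (nat_lit 34491558992) (nat_lit 76) (nat_lit 62362099625) (nat_lit 76) (nat_lit 61948670681) (nat_lit 1) (nat_lit 4) (nat_lit 2) (nat_lit 5) (nat_lit 2) (nat_lit 4) (nat_lit 233) (nat_lit 185) (nat_lit 182)) (XT.lf (nat_lit 0) (nat_lit 41648713916) (nat_lit 76) (nat_lit 70657497265) (nat_lit 76) (nat_lit 70140539616) (nat_lit 1) (nat_lit 4) (nat_lit 2) (nat_lit 5) (nat_lit 2) (nat_lit 4) (nat_lit 234) (nat_lit 185) (nat_lit 181))) (XT.nd (nat_lit 78) (nat_lit 0) (nat_lit 0) (XT.lf (nat_lit 0) (nat_lit 49736785149) (nat_lit 76) (nat_lit 80260343270) (nat_lit 76) (nat_lit 79653360659) (nat_lit 1) (nat_lit 4) (nat_lit 2) (nat_lit 5)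 (nat_lit 2) (nat_lit 4) (nat_lit 235) (nat_lit 185) (nat_lit 180)) (XT.lf (nat_lit 0) (nat_lit 58914017564) (nat_lit 76) (nat_lit 91358519409) (nat_lit 76) (nat_lit 90673254224) (nat_lit 1) (nat_lit 4) (nat_lit 2) (nat_lit 5) (nat_lit 2) (nat_lit 4) (nat_lit 236) (nat_lit 185) (nat_lit 179)))) (XT.nd (nat_lit 156) (nat_lit 0) (nat_lit 0) (XT.nd (nat_lit 78) (nat_lit 0) (nat_lit 0) (XT.lf (nat_lit 0) (nat_lit 69359965708) (nat_lit 76) (nat_lit 104169163912) (nat_lit 76) (nat_lit 103415826922) (nat_lit 1) (nat_lit 4) (nat_lit 2) (nat_lit 5) (nat_lit 2) (nat_lit 4) (nat_lit 237) (nat_lit 185) (nat_lit 178)) (XT.lf (nat_lit 0) (nat_lit 81279006827) (nat_lit 76) (nat_lit 118942919822) (nat_lit 76) (nat_lit 118130389958) (nat_lit 1) (nat_lit 4) (nat_lit 2) (nat_lit 5) (nat_lit 2) (nat_lit 4) (nat_lit 238) (nat_lit 185) (nat_lit 177))) (XT.nd (nat_lit 78) (nat_lit 0) (nat_lit 0) (XT.lf (nat_lit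 0) (nat_lit 94904339551) (nat_lit 76) (nat_lit 135968838885) (nat_lit 76) (nat_lit 135104836958) (nat_lit 1) (nat_lit 4) (nat_lit 2) (nat_lit 5) (nat_lit 2) (nat_lit 4) (nat_lit 239) (nat_lit 185) (nat_lit 176)) (XT.lf (nat_lit 0) (nat_lit 110502546477) (nat_lit 76) (nat_lit 155580036910) (nat_lit 76) (nat_lit 154671276666) (nat_lit 1) (nat_lit 4) (nat_lit 2) (nat_lit 5) (nat_lit 2) (nat_lit 4) (nat_lit 240) (nat_lit 185) (nat_lit 175))))) (XT.nd (nat_lit 312) (nat_lit 0) (nat_lit 0) (XT.nd (nat_lit 156) (nat_lit 0) (nat_lit 0) (XT.nd (nat_lit 78) (nat_lit 0) (nat_lit 0) (XT.lf (nat_lit 0) (nat_lit 128378809916) (nat_lit 76) (nat_lit 178160211249) (nat_lit 76) (nat_lit 177212530730) (nat_lit 1) (nat_lit 4) (nat_lit 2) (nat_lit 5) (nat_lit 2) (nat_lit 4) (nat_lit 241) (nat_lit 185) (nat_lit 174)) (XT.lf (nat_lit 0) (nat_lit 148882882846) (nat_lit 76) (nat_lit 204151147922) (nat_lit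 76) (nat_lit 203169623686) (nat_lit 1) (nat_lit 4) (nat_lit 2) (nat_lit 5) (nat_lit 2) (nat_lit 4) (nat_lit 242) (nat_lit 185) (nat_lit 173))) (XT.nd (nat_lit 78) (nat_lit 0) (nat_lit 0) (XT.lf (nat_lit 0) (nat_lit 172415931913) (nat_lit 76) (nat_lit 234061365254) (nat_lit 76) (nat_lit 233050411699) (nat_lit 1) (nat_lit 4) (nat_lit 2) (nat_lit 5) (nat_lit 2) (nat_lit 4) (nat_lit 243) (nat_lit 185) (nat_lit 172)) (XT.lf (nat_lit 0) (nat_lit 199438386337) (nat_lit 76) (nat_lit 268476063152) (nat_lit 76) (nat_lit 267439518883) (nat_lit 1) (nat_lit 4) (nat_lit 2) (nat_lit 5) (nat_lit 2) (nat_lit 4) (nat_lit 244) (nat_lit 185) (nat_lit 171)))) (XT.nd (nat_lit 156) (nat_lit 0) (nat_lit 0) (XT.nd (nat_lit 78) (nat_lit 0) (nat_lit 0) (XT.lf (nat_lit 0) (nat_lit 230478946314) (nat_lit 76) (nat_lit 308068572659) (nat_lit 76) (nat_lit 307009775597) (nat_lit 1) (nat_lit 4) (nat_lit 2) (nat_lit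 5) (nat_lit 2) (nat_lit 4) (nat_lit 245) (nat_lit 185) (nat_lit 170)) (XT.lf (nat_lit 0) (nat_lit 266144927147) (nat_lit 76) (nat_lit 353613529832) (nat_lit 76) (nat_lit 352535382514) (nat_lit 1) (nat_lit 4) (nat_lit 2) (nat_lit 5) (nat_lit 2) (nat_lit 4) (nat_lit 246) (nat_lit 185) (nat_lit 169))) (XT.nd (nat_lit 78) (nat_lit 0) (nat_lit 0) (XT.lf (nat_lit 0) (nat_lit 307134141505) (nat_lit 76) (nat_lit 406002031658) (nat_lit 76) (nat_lit 404907058032) (nat_lit 1) (nat_lit 4) (nat_lit 2) (nat_lit 5) (nat_lit 2) (nat_lit 4) (nat_lit 247) (nat_lit 185) (nat_lit 168)) (XT.lf (nat_lit 0) (nat_lit 354248552278) (nat_lit 76) (nat_lit 466259070566) (nat_lit 76) (nat_lit 465149465367) (nat_lit 1) (nat_lit 4) (nat_lit 2) (nat_lit 5) (nat_lit 2) (nat_lit 4) (nat_lit 248) (nat_lit 185) (nat_lit 167))))))) (XT.nd (nat_lit 1248) (nat_lit 0) (nat_lit 0) (XT.nd (nat_lit 624) (nat_lit 0) (nat_lit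 0) (XT.nd (nat_lit 312) (nat_lit 0) (nat_lit 0) (XT.nd (nat_lit 156) (nat_lit 0) (nat_lit 0) (XT.nd (nat_lit 78) (nat_lit 0) (nat_lit 0) (XT.lf (nat_lit 0) (nat_lit 408409963154) (nat_lit 76) (nat_lit 535563588620) (nat_lit 76) (nat_lit 534441260314) (nat_lit 1) (nat_lit 4) (nat_lit 2) (nat_lit 5) (nat_lit 2) (nat_lit 4) (nat_lit 249) (nat_lit 185) (nat_lit 166)) (XT.lf (nat_lit 0) (nat_lit 470678053912) (nat_lit 76) (nat_lit 615271543783) (nat_lit 76) (nat_lit 614138151905) (nat_lit 1) (nat_lit 4) (nat_lit 2) (nat_lit 5) (nat_lit 2) (nat_lit 4) (nat_lit 250) (nat_lit 185) (nat_lit 165))) (XT.nd (nat_lit 78) (nat_lit 0) (nat_lit 0) (XT.lf (nat_lit 0) (nat_lit 542271113284) (nat_lit 76) (nat_lit 706942439524) (nat_lit 76) (nat_lit 705799427150) (nat_lit 1) (nat_lit 4) (nat_lit 2) (nat_lit 5) (nat_lit 2) (nat_lit 4) (nat_lit 251) (nat_lit 185) (nat_lit 164)) (XT.lf (nat_lit 0) (nat_lit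 624589875040) (nat_lit 76) (nat_lit 812369836849) (nat_lit 76) (nat_lit 811218458825) (nat_lit 1) (nat_lit 4) (nat_lit 2) (nat_lit 5) (nat_lit 2) (nat_lit 4) (nat_lit 252) (nat_lit 185) (nat_lit 163)))) (XT.nd (nat_lit 156) (nat_lit 0) (nat_lit 0) (XT.nd (nat_lit 78) (nat_lit 0) (nat_lit 0) (XT.lf (nat_lit 0) (nat_lit 719244923649) (nat_lit 76) (nat_lit 933616445703) (nat_lit 76) (nat_lit 932457793202) (nat_lit 1) (nat_lit 4) (nat_lit 2) (nat_lit 5) (nat_lit 2) (nat_lit 4) (nat_lit 253) (nat_lit 185) (nat_lit 162)) (XT.lf (nat_lit 0) (nat_lit 828088205714) (nat_lit 76) (nat_lit 1073054482348) (nat_lit 76) (nat_lit 1071889504214) (nat_lit 1) (nat_lit 4) (nat_lit 2) (nat_lit 5) (nat_lit 2) (nat_lit 4) (nat_lit 254) (nat_lit 185) (nat_lit 161))) (XT.nd (nat_lit 78) (nat_lit 0) (nat_lit 0) (XT.lf (nat_lit 0) (nat_lit 953249263711) (nat_lit 76) (nat_lit 1233412082283) (nat_lit 76) (nat_lit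 1232241603599) (nat_lit 1) (nat_lit 4) (nat_lit 2) (nat_lit 5) (nat_lit 2) (nat_lit 4) (nat_lit 255) (nat_lit 185) (nat_lit 160)) (XT.lf (nat_lit 0) (nat_lit 1097176900948) (nat_lit 76) (nat_lit 1417826676811) (nat_lit 76) (nat_lit 1416651415040) (nat_lit 1) (nat_lit 4) (nat_lit 2) (nat_lit 5) (nat_lit 2) (nat_lit 4) (nat_lit 256) (nat_lit 185) (nat_lit 159))))) (XT.nd (nat_lit 312) (nat_lit 0) (nat_lit 0) (XT.nd (nat_lit 156) (nat_lit 0) (nat_lit 0) (XT.nd (nat_lit 78) (nat_lit 0) (nat_lit 0) (XT.lf (nat_lit 0) (nat_lit 1262687092937) (nat_lit 76) (nat_lit 1629906377565) (nat_lit 76) (nat_lit 1628726956587) (nat_lit 1) (nat_lit 4) (nat_lit 2) (nat_lit 5) (nat_lit 2) (nat_lit 4) (nat_lit 257) (nat_lit 185) (nat_lit 158)) (XT.lf (nat_lit 0) (nat_lit 1453018082564) (nat_lit 76) (nat_lit 1873800569993) (nat_lit 76) (nat_lit 1872617532314) (nat_lit 1) (nat_lit 4) (nat_lit 2) (nat_lit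 5) (nat_lit 2) (nat_lit 4) (nat_lit 258) (nat_lit 185) (nat_lit 157))) (XT.nd (nat_lit 78) (nat_lit 0) (nat_lit 0) (XT.lf (nat_lit 0) (nat_lit 1671893737018) (nat_lit 76) (nat_lit 2154281096991) (nat_lit 76) (nat_lit 2153094914355) (nat_lit 1) (nat_lit 4) (nat_lit 2) (nat_lit 5) (nat_lit 2) (nat_lit 4) (nat_lit 259) (nat_lit 185) (nat_lit 156)) (XT.lf (nat_lit 0) (nat_lit 1923596406059) (nat_lit 76) (nat_lit 2476835621044) (nat_lit 76) (nat_lit 2475646703662) (nat_lit 1) (nat_lit 4) (nat_lit 2) (nat_lit 5) (nat_lit 2) (nat_lit 4) (nat_lit 260) (nat_lit 185) (nat_lit 155)))) (XT.nd (nat_lit 156) (nat_lit 0) (nat_lit 0) (XT.nd (nat_lit 78) (nat_lit 0) (nat_lit 0) (XT.lf (nat_lit 0) (nat_lit 2213050707126) (nat_lit 76) (nat_lit 2847774991535) (nat_lit 76) (nat_lit 2846583696114) (nat_lit 1) (nat_lit 4) (nat_lit 2) (nat_lit 5) (nat_lit 2) (nat_lit 4) (nat_lit 261) (nat_lit 185) (nat_lit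 154)) (XT.lf (nat_lit 0) (nat_lit 2545919876543) (nat_lit 76) (nat_lit 3274356717888) (nat_lit 76) (nat_lit 3273163354606) (nat_lit 1) (nat_lit 4) (nat_lit 2) (nat_lit 5) (nat_lit 2) (nat_lit 4) (nat_lit 262) (nat_lit 185) (nat_lit 153))) (XT.nd (nat_lit 78) (nat_lit 0) (nat_lit 0) (XT.lf (nat_lit 0) (nat_lit 2928716571973) (nat_lit 76) (nat_lit 3764926964312) (nat_lit 76) (nat_lit 3763731802891) (nat_lit 1) (nat_lit 4) (nat_lit 2) (nat_lit 5) (nat_lit 2) (nat_lit 4) (nat_lit 263) (nat_lit 185) (nat_lit 152)) (XT.lf (nat_lit 0) (nat_lit 3368930293979) (nat_lit 76) (nat_lit 4329083844327) (nat_lit 76) (nat_lit 4327887119305) (nat_lit 1) (nat_lit 4) (nat_lit 2) (nat_lit 5) (nat_lit 2) (nat_lit 4) (nat_lit 264) (nat_lit 185) (nat_lit 151)))))) (XT.nd (nat_lit 624) (nat_lit 0) (nat_lit 0) (XT.nd (nat_lit 312) (nat_lit 0) (nat_lit 0) (XT.nd (nat_lit 156) (nat_lit 0) (nat_lit 0) (XT.nd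 (nat_lit 78) (nat_lit 0) (nat_lit 0) (XT.lf (nat_lit 0) (nat_lit 3875173919731) (nat_lit 76) (nat_lit 4977865209930) (nat_lit 76) (nat_lit 4976667125257) (nat_lit 1) (nat_lit 4) (nat_lit 2) (nat_lit 5) (nat_lit 2) (nat_lit 4) (nat_lit 265) (nat_lit 185) (nat_lit 150)) (XT.lf (nat_lit 0) (nat_lit 4457352215819) (nat_lit 76) (nat_lit 5723964609581) (nat_lit 76) (nat_lit 5722765342602) (nat_lit 1) (nat_lit 4) (nat_lit 2) (nat_lit 5) (nat_lit 2) (nat_lit 4) (nat_lit 266) (nat_lit 185) (nat_lit 149))) (XT.nd (nat_lit 78) (nat_lit 0) (nat_lit 0) (XT.lf (nat_lit 0) (nat_lit 5126855627167) (nat_lit 76) (nat_lit 6581979640229) (nat_lit 76) (nat_lit 6580779345158) (nat_lit 1) (nat_lit 4) (nat_lit 2) (nat_lit 5) (nat_lit 2) (nat_lit 4) (nat_lit 267) (nat_lit 185) (nat_lit 148)) (XT.lf (nat_lit 0) (nat_lit 5896783133562) (nat_lit 76) (nat_lit 7568697552473) (nat_lit 76) (nat_lit 7567496363409)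 (nat_lit 1) (nat_lit 4) (nat_lit 2) (nat_lit 5) (nat_lit 2) (nat_lit 4) (nat_lit 268) (nat_lit 185) (nat_lit 147)))) (XT.nd (nat_lit 156) (nat_lit 0) (nat_lit 0) (XT.nd (nat_lit 78) (nat_lit 0) (nat_lit 0) (XT.lf (nat_lit 0) (nat_lit 6782198534042) (nat_lit 76) (nat_lit 8703423696771) (nat_lit 76) (nat_lit 8702221730321) (nat_lit 1) (nat_lit 4) (nat_lit 2) (nat_lit 5) (nat_lit 2) (nat_lit 4) (nat_lit 269) (nat_lit 185) (nat_lit 146)) (XT.lf (nat_lit 0) (nat_lit 7800425173399) (nat_lit 76) (nat_lit 10008359236815) (nat_lit 76) (nat_lit 10007156594377) (nat_lit 1) (nat_lit 4) (nat_lit 2) (nat_lit 5) (nat_lit 2) (nat_lit 4) (nat_lit 270) (nat_lit 185) (nat_lit 145))) (XT.nd (nat_lit 78) (nat_lit 0) (nat_lit 0) (XT.lf (nat_lit 0) (nat_lit 8971384877186) (nat_lit 76) (nat_lit 11509035520127) (nat_lit 76) (nat_lit 11507832289875) (nat_lit 1) (nat_lit 4) (nat_lit 2) (nat_lit 5) (nat_lit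 2) (nat_lit 4) (nat_lit 271) (nat_lit 185) (nat_lit 144)) (XT.lf (nat_lit 0) (nat_lit 10317987726565) (nat_lit 76) (nat_lit 13234813604425) (nat_lit 76) (nat_lit 13233609863029) (nat_lit 1) (nat_lit 4) (nat_lit 2) (nat_lit 5) (nat_lit 2) (nat_lit 4) (nat_lit 272) (nat_lit 185) (nat_lit 143))))) (XT.nd (nat_lit 312) (nat_lit 0) (nat_lit 0) (XT.nd (nat_lit 156) (nat_lit 0) (nat_lit 0) (XT.nd (nat_lit 78) (nat_lit 0) (nat_lit 0) (XT.lf (nat_lit 0) (nat_lit 11866580299021) (nat_lit 76) (nat_lit 15219458713097) (nat_lit 76) (nat_lit 15218254527229) (nat_lit 1) (nat_lit 4) (nat_lit 2) (nat_lit 5) (nat_lit 2) (nat_lit 4) (nat_lit 273) (nat_lit 185) (nat_lit 142)) (XT.lf (nat_lit 0) (nat_lit 13647461144888) (nat_lit 76) (nat_lit 17501800859140) (nat_lit 76) (nat_lit 17500596286773) (nat_lit 1) (nat_lit 4) (nat_lit 2) (nat_lit 5) (nat_lit 2) (nat_lit 4) (nat_lit 274) (nat_lit 185) (nat_lit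 141))) (XT.nd (nat_lit 78) (nat_lit 0) (nat_lit 0) (XT.lf (nat_lit 0) (nat_lit 15695473585061) (nat_lit 76) (nat_lit 20126494562801) (nat_lit 76) (nat_lit 20125289654349) (nat_lit 1) (nat_lit 4) (nat_lit 2) (nat_lit 5) (nat_lit 2) (nat_lit 4) (nat_lit 275) (nat_lit 185) (nat_lit 140)) (XT.lf (nat_lit 0) (nat_lit 18050687428152) (nat_lit 76) (nat_lit 23144892526978) (nat_lit 76) (nat_lit 23143687326278) (nat_lit 1) (nat_lit 4) (nat_lit 2) (nat_lit 5) (nat_lit 2) (nat_lit 4) (nat_lit 276) (nat_lit 185) (nat_lit 139)))) (XT.nd (nat_lit 156) (nat_lit 0) (nat_lit 0) (XT.nd (nat_lit 78) (nat_lit 0) (nat_lit 0) (XT.lf (nat_lit 0) (nat_lit 20759182945006) (nat_lit 76) (nat_lit 26616050364014) (nat_lit 76) (nat_lit 26614844909186) (nat_lit 1) (nat_lit 4) (nat_lit 2) (nat_lit 5) (nat_lit 2) (nat_lit 4) (nat_lit 277) (nat_lit 185) (nat_lit 138)) (XT.lf (nat_lit 0) (nat_lit 23873952439213) (nat_lit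 76) (nat_lit 30607882031590) (nat_lit 76) (nat_lit 30606676355780) (nat_lit 1) (nat_lit 4) (nat_lit 2) (nat_lit 5) (nat_lit 2) (nat_lit 4) (nat_lit 278) (nat_lit 185) (nat_lit 137))) (XT.nd (nat_lit 390) (nat_lit 0) (nat_lit 0) (XT.lf (nat_lit 0) (nat_lit 27455937053050) (nat_lit 76) (nat_lit 35198488584072) (nat_lit 76) (nat_lit 35197282716104) (nat_lit 1) (nat_lit 4) (nat_lit 2) (nat_lit 5) (nat_lit 2) (nat_lit 4) (nat_lit 279) (nat_lit 185) (nat_lit 136)) (XT.lf (nat_lit 0) (nat_lit 55229704679972) (nat_lit 76) (nat_lit 70792852900862) (nat_lit 76) (nat_lit 70791646388752) (nat_lit 1) (nat_lit 4) (nat_lit 2) (nat_lit 5) (nat_lit 2) (nat_lit 4) (nat_lit 284) (nat_lit 185) (nat_lit 131))))))))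
noncomputable def xc11 : XT := (XT.nd (nat_lit 2496) (nat_lit 0) (nat_lit 0) (XT.nd (nat_lit 1248) (nat_lit 0) (nat_lit 0) (XT.nd (nat_lit 624) (nat_lit 0) (nat_lit 0) (XT.nd (nat_lit 312) (nat_lit 0) (nat_lit 0) (XT.nd (nat_lit 156) (nat_lit 0) (nat_lit 0) (XT.nd (nat_lit 78) (nat_lit 0) (nat_lit 0) (XT.lf (nat_lit 0) (nat_lit 4197020859) (nat_lit 76) (nat_lit 17833821675) (nat_lit 76) (nat_lit 17833821675) (nat_lit 1) (nat_lit 4) (nat_lit 2) (nat_lit 5) (nat_lit 2) (nat_lit 4) (nat_lit 228) (nat_lit 186) (nat_lit 186)) (XT.lf (nat_lit 0) (nat_lit 12589217219) (nat_lit 76) (nat_lit 39510077888) (nat_lit 76) (nat_lit 39329005535) (nat_lit 1) (nat_lit 4) (nat_lit 2) (nat_lit 5) (nat_lit 2) (nat_lit 4) (nat_lit 229) (nat_lit 186) (nat_lit 185))) (XT.nd (nat_lit 78) (nat_lit 0) (nat_lit 0) (XT.lf (nat_lit 0) (nat_lit 17164161183) (nat_lit 76) (nat_lit 44039307619) (nat_lit 76) (nat_lit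 43700781046) (nat_lit 1) (nat_lit 4) (nat_lit 2) (nat_lit 5) (nat_lit 2) (nat_lit 4) (nat_lit 230) (nat_lit 186) (nat_lit 184)) (XT.lf (nat_lit 0) (nat_lit 22208383386) (nat_lit 76) (nat_lit 49343947908) (nat_lit 76) (nat_lit 48868504622) (nat_lit 1) (nat_lit 4) (nat_lit 2) (nat_lit 5) (nat_lit 2) (nat_lit 4) (nat_lit 231) (nat_lit 186) (nat_lit 183)))) (XT.nd (nat_lit 156) (nat_lit 0) (nat_lit 0) (XT.nd (nat_lit 78) (nat_lit 0) (nat_lit 0) (XT.lf (nat_lit 0) (nat_lit 27820575130) (nat_lit 76) (nat_lit 55527785195) (nat_lit 76) (nat_lit 54933283898) (nat_lit 1) (nat_lit 4) (nat_lit 2) (nat_lit 5) (nat_lit 2) (nat_lit 4) (nat_lit 232) (nat_lit 186) (nat_lit 182)) (XT.lf (nat_lit 0) (nat_lit 34110540167) (nat_lit 76) (nat_lit 62711807602) (nat_lit 76) (nat_lit 62013777600) (nat_lit 1) (nat_lit 4) (nat_lit 2) (nat_lit 5) (nat_lit 2) (nat_lit 4) (nat_lit 233) (nat_lit 186) (nat_lit 181)))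 (XT.nd (nat_lit 78) (nat_lit 0) (nat_lit 0) (XT.lf (nat_lit 0) (nat_lit 41201343031) (nat_lit 76) (nat_lit 71036572088) (nat_lit 76) (nat_lit 70248517125) (nat_lit 1) (nat_lit 4) (nat_lit 2) (nat_lit 5) (nat_lit 2) (nat_lit 4) (nat_lit 234) (nat_lit 186) (nat_lit 180)) (XT.lf (nat_lit 0) (nat_lit 49231716821) (nat_lit 76) (nat_lit 80664954481) (nat_lit 76) (nat_lit 79798616942) (nat_lit 1) (nat_lit 4) (nat_lit 2) (nat_lit 5) (nat_lit 2) (nat_lit 4) (nat_lit 235) (nat_lit 186) (nat_lit 179))))) (XT.nd (nat_lit 312) (nat_lit 0) (nat_lit 0) (XT.nd (nat_lit 156) (nat_lit 0) (nat_lit 0) (XT.nd (nat_lit 78) (nat_lit 0) (nat_lit 0) (XT.lf (nat_lit 0) (nat_lit 58358777545) (nat_lit 76) (nat_lit 91785336175) (nat_lit 76) (nat_lit 90850926832) (nat_lit 1) (nat_lit 4) (nat_lit 2) (nat_lit 5) (nat_lit 2) (nat_lit 4) (nat_lit 236) (nat_lit 186) (nat_lit 178)) (XT.lf (nat_lit 0) (nat_lit 68761098132)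 (nat_lit 76) (nat_lit 104615289855) (nat_lit 76) (nat_lit 103621687639) (nat_lit 1) (nat_lit 4) (nat_lit 2) (nat_lit 5) (nat_lit 2) (nat_lit 4) (nat_lit 237) (nat_lit 186) (nat_lit 177))) (XT.nd (nat_lit 78) (nat_lit 0) (nat_lit 0) (XT.lf (nat_lit 0) (nat_lit 80642202245) (nat_lit 76) (nat_lit 119405836354) (nat_lit 76) (nat_lit 118360762074) (nat_lit 1) (nat_lit 4) (nat_lit 2) (nat_lit 5) (nat_lit 2) (nat_lit 4) (nat_lit 238) (nat_lit 186) (nat_lit 176)) (XT.lf (nat_lit 0) (nat_lit 94234546269) (nat_lit 76) (nat_lit 136446355930) (nat_lit 76) (nat_lit 135356523334) (nat_lit 1) (nat_lit 4) (nat_lit 2) (nat_lit 5) (nat_lit 2) (nat_lit 4) (nat_lit 239) (nat_lit 186) (nat_lit 175)))) (XT.nd (nat_lit 156) (nat_lit 0) (nat_lit 0) (XT.nd (nat_lit 78) (nat_lit 0) (nat_lit 0) (XT.lf (nat_lit 0) (nat_lit 109804067369) (nat_lit 76) (nat_lit 156070250053) (nat_lit 76) (nat_lit 154941497181)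 (nat_lit 1) (nat_lit 4) (nat_lit 2) (nat_lit 5) (nat_lit 2) (nat_lit 4) (nat_lit 240) (nat_lit 186) (nat_lit 174)) (XT.lf (nat_lit 0) (nat_lit 127655386610) (nat_lit 76) (nat_lit 178661464477) (nat_lit 76) (nat_lit 177498867888) (nat_lit 1) (nat_lit 4) (nat_lit 2) (nat_lit 5) (nat_lit 2) (nat_lit 4) (nat_lit 241) (nat_lit 186) (nat_lit 173))) (XT.nd (nat_lit 78) (nat_lit 0) (nat_lit 0) (XT.lf (nat_lit 0) (nat_lit 148137768935) (nat_lit 76) (nat_lit 204662001224) (nat_lit 76) (nat_lit 203469975315) (nat_lit 1) (nat_lit 4) (nat_lit 2) (nat_lit 5) (nat_lit 2) (nat_lit 4) (nat_lit 242) (nat_lit 186) (nat_lit 172)) (XT.lf (nat_lit 0) (nat_lit 171651956605) (nat_lit 76) (nat_lit 234580566447) (nat_lit 76) (nat_lit 233362949826) (nat_lit 1) (nat_lit 4) (nat_lit 2) (nat_lit 5) (nat_lit 2) (nat_lit 4) (nat_lit 243) (nat_lit 186) (nat_lit 171)))))) (XT.nd (nat_lit 624) (nat_lit 0) (nat_lit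 0) (XT.nd (nat_lit 312) (nat_lit 0) (nat_lit 0) (XT.nd (nat_lit 156) (nat_lit 0) (nat_lit 0) (XT.nd (nat_lit 78) (nat_lit 0) (nat_lit 0) (XT.lf (nat_lit 0) (nat_lit 198658009815) (nat_lit 76) (nat_lit 269002523379) (nat_lit 76) (nat_lit 267762653964) (nat_lit 1) (nat_lit 4) (nat_lit 2) (nat_lit 5) (nat_lit 2) (nat_lit 4) (nat_lit 244) (nat_lit 186) (nat_lit 170)) (XT.lf (nat_lit 0) (nat_lit 229684307866) (nat_lit 76) (nat_lit 308601345091) (nat_lit 76) (nat_lit 307342125421) (nat_lit 1) (nat_lit 4) (nat_lit 2) (nat_lit 5) (nat_lit 2) (nat_lit 4) (nat_lit 245) (nat_lit 186) (nat_lit 169))) (XT.nd (nat_lit 78) (nat_lit 0) (nat_lit 0) (XT.lf (nat_lit 0) (nat_lit 265337887025) (nat_lit 76) (nat_lit 354151791137) (nat_lit 76) (nat_lit 352875745158) (nat_lit 1) (nat_lit 4) (nat_lit 2) (nat_lit 5) (nat_lit 2) (nat_lit 4) (nat_lit 246) (nat_lit 186) (nat_lit 168)) (XT.lf (nat_lit 0) (nat_lit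 306316317318) (nat_lit 76) (nat_lit 406545065897) (nat_lit 76) (nat_lit 405254388345) (nat_lit 1) (nat_lit 4) (nat_lit 2) (nat_lit 5) (nat_lit 2) (nat_lit 4) (nat_lit 247) (nat_lit 186) (nat_lit 167)))) (XT.nd (nat_lit 156) (nat_lit 0) (nat_lit 0) (XT.nd (nat_lit 78) (nat_lit 0) (nat_lit 0) (XT.lf (nat_lit 0) (nat_lit 353421350643) (nat_lit 76) (nat_lit 466806255182) (nat_lit 76) (nat_lit 465502854523) (nat_lit 1) (nat_lit 4) (nat_lit 2) (nat_lit 5) (nat_lit 2) (nat_lit 4) (nat_lit 248) (nat_lit 186) (nat_lit 166)) (XT.lf (nat_lit 0) (nat_lit 407574607217) (nat_lit 76) (nat_lit 536114382259) (nat_lit 76) (nat_lit 534799918029) (nat_lit 1) (nat_lit 4) (nat_lit 2) (nat_lit 5) (nat_lit 2) (nat_lit 4) (nat_lit 249) (nat_lit 186) (nat_lit 165))) (XT.nd (nat_lit 78) (nat_lit 0) (nat_lit 0) (XT.lf (nat_lit 0) (nat_lit 469835607277) (nat_lit 76) (nat_lit 615825475703) (nat_lit 76) (nat_lit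 614501390976) (nat_lit 1) (nat_lit 4) (nat_lit 2) (nat_lit 5) (nat_lit 2) (nat_lit 4) (nat_lit 250) (nat_lit 186) (nat_lit 164)) (XT.lf (nat_lit 0) (nat_lit 541422500825) (nat_lit 76) (nat_lit 707499100385) (nat_lit 76) (nat_lit 706166650009) (nat_lit 1) (nat_lit 4) (nat_lit 2) (nat_lit 5) (nat_lit 2) (nat_lit 4) (nat_lit 251) (nat_lit 186) (nat_lit 163))))) (XT.nd (nat_lit 312) (nat_lit 0) (nat_lit 0) (XT.nd (nat_lit 156) (nat_lit 0) (nat_lit 0) (XT.nd (nat_lit 78) (nat_lit 0) (nat_lit 0) (XT.lf (nat_lit 0) (nat_lit 623735900995) (nat_lit 76) (nat_lit 812928870701) (nat_lit 76) (nat_lit 811589145847) (nat_lit 1) (nat_lit 4) (nat_lit 2) (nat_lit 5) (nat_lit 2) (nat_lit 4) (nat_lit 252) (nat_lit 186) (nat_lit 162)) (XT.lf (nat_lit 0) (nat_lit 718386287355) (nat_lit 76) (nat_lit 934177543026) (nat_lit 76) (nat_lit 932831492539) (nat_lit 1) (nat_lit 4) (nat_lit 2) (nat_lit 5) (nat_lit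 2) (nat_lit 4) (nat_lit 253) (nat_lit 186) (nat_lit 161))) (XT.nd (nat_lit 78) (nat_lit 0) (nat_lit 0) (XT.lf (nat_lit 0) (nat_lit 827225515291) (nat_lit 76) (nat_lit 1073617373993) (nat_lit 76) (nat_lit 1072265822956) (nat_lit 1) (nat_lit 4) (nat_lit 2) (nat_lit 5) (nat_lit 2) (nat_lit 4) (nat_lit 254) (nat_lit 186) (nat_lit 160)) (XT.lf (nat_lit 0) (nat_lit 952383047958) (nat_lit 76) (nat_lit 1233976534209) (nat_lit 76) (nat_lit 1232620200085) (nat_lit 1) (nat_lit 4) (nat_lit 2) (nat_lit 5) (nat_lit 2) (nat_lit 4) (nat_lit 255) (nat_lit 186) (nat_lit 159)))) (XT.nd (nat_lit 156) (nat_lit 0) (nat_lit 0) (XT.nd (nat_lit 78) (nat_lit 0) (nat_lit 0) (XT.lf (nat_lit 0) (nat_lit 1096307619691) (nat_lit 76) (nat_lit 1418392485503) (nat_lit 76) (nat_lit 1417031992172) (nat_lit 1) (nat_lit 4) (nat_lit 2) (nat_lit 5) (nat_lit 2) (nat_lit 4) (nat_lit 256) (nat_lit 186) (nat_lit 158)) (XT.lf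 (nat_lit 0) (nat_lit 1261815146024) (nat_lit 76) (nat_lit 1630473366052) (nat_lit 76) (nat_lit 1629109256021) (nat_lit 1) (nat_lit 4) (nat_lit 2) (nat_lit 5) (nat_lit 2) (nat_lit 4) (nat_lit 257) (nat_lit 186) (nat_lit 157))) (XT.nd (nat_lit 78) (nat_lit 0) (nat_lit 0) (XT.lf (nat_lit 0) (nat_lit 1452143817690) (nat_lit 76) (nat_lit 1874368584390) (nat_lit 76) (nat_lit 1873001329401) (nat_lit 1) (nat_lit 4) (nat_lit 2) (nat_lit 5) (nat_lit 2) (nat_lit 4) (nat_lit 258) (nat_lit 186) (nat_lit 156)) (XT.lf (nat_lit 0) (nat_lit 1671017456525) (nat_lit 76) (nat_lit 2154850003483) (nat_lit 76) (nat_lit 2153480013749) (nat_lit 1) (nat_lit 4) (nat_lit 2) (nat_lit 5) (nat_lit 2) (nat_lit 4) (nat_lit 259) (nat_lit 186) (nat_lit 155))))))) (XT.nd (nat_lit 1248) (nat_lit 0) (nat_lit 0) (XT.nd (nat_lit 624) (nat_lit 0) (nat_lit 0) (XT.nd (nat_lit 312) (nat_lit 0) (nat_lit 0) (XT.nd (nat_lit 156)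 (nat_lit 0) (nat_lit 0) (XT.nd (nat_lit 78) (nat_lit 0) (nat_lit 0) (XT.lf (nat_lit 0) (nat_lit 1922718372854) (nat_lit 76) (nat_lit 2477405303271) (nat_lit 76) (nat_lit 2476032935497) (nat_lit 1) (nat_lit 4) (nat_lit 2) (nat_lit 5) (nat_lit 2) (nat_lit 4) (nat_lit 260) (nat_lit 186) (nat_lit 154)) (XT.lf (nat_lit 0) (nat_lit 2212171149823) (nat_lit 76) (nat_lit 2848345348315) (nat_lit 76) (nat_lit 2846970912680) (nat_lit 1) (nat_lit 4) (nat_lit 2) (nat_lit 5) (nat_lit 2) (nat_lit 4) (nat_lit 261) (nat_lit 186) (nat_lit 153))) (XT.nd (nat_lit 78) (nat_lit 0) (nat_lit 0) (XT.lf (nat_lit 0) (nat_lit 2545038993938) (nat_lit 76) (nat_lit 3274927661235) (nat_lit 76) (nat_lit 3273551427460) (nat_lit 1) (nat_lit 4) (nat_lit 2) (nat_lit 5) (nat_lit 2) (nat_lit 4) (nat_lit 262) (nat_lit 186) (nat_lit 152)) (XT.lf (nat_lit 0) (nat_lit 2927834536932) (nat_lit 76) (nat_lit 3765498417718) (nat_lit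 76) (nat_lit 3764120620344) (nat_lit 1) (nat_lit 4) (nat_lit 2) (nat_lit 5) (nat_lit 2) (nat_lit 4) (nat_lit 263) (nat_lit 186) (nat_lit 151)))) (XT.nd (nat_lit 156) (nat_lit 0) (nat_lit 0) (XT.nd (nat_lit 78) (nat_lit 0) (nat_lit 0) (XT.lf (nat_lit 0) (nat_lit 3368047256819) (nat_lit 76) (nat_lit 4329655741261) (nat_lit 76) (nat_lit 4328276584235) (nat_lit 1) (nat_lit 4) (nat_lit 2) (nat_lit 5) (nat_lit 2) (nat_lit 4) (nat_lit 264) (nat_lit 186) (nat_lit 150)) (XT.lf (nat_lit 0) (nat_lit 3874290011163) (nat_lit 76) (nat_lit 4978437492543) (nat_lit 76) (nat_lit 4977057153211) (nat_lit 1) (nat_lit 4) (nat_lit 2) (nat_lit 5) (nat_lit 2) (nat_lit 4) (nat_lit 265) (nat_lit 186) (nat_lit 149))) (XT.nd (nat_lit 78) (nat_lit 0) (nat_lit 0) (XT.lf (nat_lit 0) (nat_lit 4456467549505) (nat_lit 76) (nat_lit 5724537227565) (nat_lit 76) (nat_lit 5723155860141) (nat_lit 1) (nat_lit 4) (nat_lit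 2) (nat_lit 5) (nat_lit 2) (nat_lit 4) (nat_lit 266) (nat_lit 186) (nat_lit 148)) (XT.lf (nat_lit 0) (nat_lit 5125970301944) (nat_lit 76) (nat_lit 6582552549841) (nat_lit 76) (nat_lit 6581170288423) (nat_lit 1) (nat_lit 4) (nat_lit 2) (nat_lit 5) (nat_lit 2) (nat_lit 4) (nat_lit 267) (nat_lit 186) (nat_lit 147))))) (XT.nd (nat_lit 312) (nat_lit 0) (nat_lit 0) (XT.nd (nat_lit 156) (nat_lit 0) (nat_lit 0) (XT.nd (nat_lit 78) (nat_lit 0) (nat_lit 0) (XT.lf (nat_lit 0) (nat_lit 5895897235374) (nat_lit 76) (nat_lit 7569270715674) (nat_lit 76) (nat_lit 7567887676871) (nat_lit 1) (nat_lit 4) (nat_lit 2) (nat_lit 5) (nat_lit 2) (nat_lit 4) (nat_lit 268) (nat_lit 186) (nat_lit 146)) (XT.lf (nat_lit 0) (nat_lit 6781312137624) (nat_lit 76) (nat_lit 8703997080484) (nat_lit 76) (nat_lit 8702613365694) (nat_lit 1) (nat_lit 4) (nat_lit 2) (nat_lit 5) (nat_lit 2) (nat_lit 4) (nat_lit 269) (nat_lit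 186) (nat_lit 145))) (XT.nd (nat_lit 78) (nat_lit 0) (nat_lit 0) (XT.lf (nat_lit 0) (nat_lit 7799538343738) (nat_lit 76) (nat_lit 10008932812277) (nat_lit 76) (nat_lit 10007548509672) (nat_lit 1) (nat_lit 4) (nat_lit 2) (nat_lit 5) (nat_lit 2) (nat_lit 4) (nat_lit 270) (nat_lit 186) (nat_lit 144)) (XT.lf (nat_lit 0) (nat_lit 8970497670791) (nat_lit 76) (nat_lit 11509609262329) (nat_lit 76) (nat_lit 11508224448580) (nat_lit 1) (nat_lit 4) (nat_lit 2) (nat_lit 5) (nat_lit 2) (nat_lit 4) (nat_lit 271) (nat_lit 186) (nat_lit 143)))) (XT.nd (nat_lit 156) (nat_lit 0) (nat_lit 0) (XT.nd (nat_lit 78) (nat_lit 0) (nat_lit 0) (XT.lf (nat_lit 0) (nat_lit 10317100192575) (nat_lit 76) (nat_lit 13235387491617) (nat_lit 76) (nat_lit 13234002233396) (nat_lit 1) (nat_lit 4) (nat_lit 2) (nat_lit 5) (nat_lit 2) (nat_lit 4) (nat_lit 272) (nat_lit 186) (nat_lit 142)) (XT.lf (nat_lit 0) (nat_lit 11865692480167)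 (nat_lit 76) (nat_lit 15220032726368) (nat_lit 76) (nat_lit 15218647081649) (nat_lit 1) (nat_lit 4) (nat_lit 2) (nat_lit 5) (nat_lit 2) (nat_lit 4) (nat_lit 273) (nat_lit 186) (nat_lit 141))) (XT.nd (nat_lit 78) (nat_lit 0) (nat_lit 0) (XT.lf (nat_lit 0) (nat_lit 13646573078325) (nat_lit 76) (nat_lit 17502374982044) (nat_lit 76) (nat_lit 17500989001240) (nat_lit 1) (nat_lit 4) (nat_lit 2) (nat_lit 5) (nat_lit 2) (nat_lit 4) (nat_lit 274) (nat_lit 186) (nat_lit 140)) (XT.lf (nat_lit 0) (nat_lit 15694585303099) (nat_lit 76) (nat_lit 20127068781039) (nat_lit 76) (nat_lit 20125682507986) (nat_lit 1) (nat_lit 4) (nat_lit 2) (nat_lit 5) (nat_lit 2) (nat_lit 4) (nat_lit 275) (nat_lit 186) (nat_lit 139)))))) (XT.nd (nat_lit 27612) (nat_lit 0) (nat_lit 0) (XT.nd (nat_lit 624) (nat_lit 0) (nat_lit 0) (XT.nd (nat_lit 156) (nat_lit 0) (nat_lit 0) (XT.nd (nat_lit 78) (nat_lit 0) (nat_lit 0) (XT.lf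 (nat_lit 0) (nat_lit 18049798958888) (nat_lit 76) (nat_lit 23145466828115) (nat_lit 76) (nat_lit 23144080300934) (nat_lit 1) (nat_lit 4) (nat_lit 2) (nat_lit 5) (nat_lit 2) (nat_lit 4) (nat_lit 276) (nat_lit 186) (nat_lit 138)) (XT.lf (nat_lit 0) (nat_lit 20758294312870) (nat_lit 76) (nat_lit 26616624737236) (nat_lit 76) (nat_lit 26615237989074) (nat_lit 1) (nat_lit 4) (nat_lit 2) (nat_lit 5) (nat_lit 2) (nat_lit 4) (nat_lit 277) (nat_lit 186) (nat_lit 137))) (XT.nd (nat_lit 390) (nat_lit 0) (nat_lit 0) (XT.lf (nat_lit 0) (nat_lit 23873063665448) (nat_lit 76) (nat_lit 30608456467496) (nat_lit 76) (nat_lit 30607069527176) (nat_lit 1) (nat_lit 4) (nat_lit 2) (nat_lit 5) (nat_lit 2) (nat_lit 4) (nat_lit 278) (nat_lit 186) (nat_lit 136)) (XT.lf (nat_lit 0) (nat_lit 48024166362562) (nat_lit 76) (nat_lit 61560077429814) (nat_lit 76) (nat_lit 61558689845352) (nat_lit 1) (nat_lit 4) (nat_lit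 2) (nat_lit 5) (nat_lit 2) (nat_lit 4) (nat_lit 283) (nat_lit 186) (nat_lit 131)))) (XT.nd (nat_lit 26832) (nat_lit 0) (nat_lit 0) (XT.nd (nat_lit 26754) (nat_lit 0) (nat_lit 0) (XT.lf (nat_lit 0) (nat_lit 55228815370218) (nat_lit 76) (nat_lit 70793427573993) (nat_lit 76) (nat_lit 70792039906454) (nat_lit 1) (nat_lit 4) (nat_lit 2) (nat_lit 5) (nat_lit 2) (nat_lit 4) (nat_lit 284) (nat_lit 186) (nat_lit 130)) (XT.lf (nat_lit 0) (nat_lit 486989362) (nat_lit 76) (nat_lit 14947359959) (nat_lit 76) (nat_lit 14947359959) (nat_lit 1) (nat_lit 4) (nat_lit 2) (nat_lit 5) (nat_lit 2) (nat_lit 4) (nat_lit 226) (nat_lit 187) (nat_lit 187))) (XT.nd (nat_lit 78) (nat_lit 0) (nat_lit 0) (XT.lf (nat_lit 0) (nat_lit 4496555162) (nat_lit 76) (nat_lit 32645059146) (nat_lit 76) (nat_lit 32436825940) (nat_lit 1) (nat_lit 4) (nat_lit 2) (nat_lit 5) (nat_lit 2) (nat_lit 4) (nat_lit 227) (nat_lit 187) (nat_lit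 186)) (XT.lf (nat_lit 0) (nat_lit 8260584026) (nat_lit 76) (nat_lit 35934943773) (nat_lit 76) (nat_lit 35545638214) (nat_lit 1) (nat_lit 4) (nat_lit 2) (nat_lit 5) (nat_lit 2) (nat_lit 4) (nat_lit 228) (nat_lit 187) (nat_lit 185))))) (XT.nd (nat_lit 312) (nat_lit 0) (nat_lit 0) (XT.nd (nat_lit 156) (nat_lit 0) (nat_lit 0) (XT.nd (nat_lit 78) (nat_lit 0) (nat_lit 0) (XT.lf (nat_lit 0) (nat_lit 12339709358) (nat_lit 76) (nat_lit 39828741107) (nat_lit 76) (nat_lit 39281981328) (nat_lit 1) (nat_lit 4) (nat_lit 2) (nat_lit 5) (nat_lit 2) (nat_lit 4) (nat_lit 229) (nat_lit 187) (nat_lit 184)) (XT.lf (nat_lit 0) (nat_lit 16813740133) (nat_lit 76) (nat_lit 44402634139) (nat_lit 76) (nat_lit 43718957648) (nat_lit 1) (nat_lit 4) (nat_lit 2) (nat_lit 5) (nat_lit 2) (nat_lit 4) (nat_lit 230) (nat_lit 187) (nat_lit 183))) (XT.nd (nat_lit 78) (nat_lit 0) (nat_lit 0) (XT.lf (nat_lit 0) (nat_lit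 21770211736) (nat_lit 76) (nat_lit 49746112082) (nat_lit 76) (nat_lit 48943377579) (nat_lit 1) (nat_lit 4) (nat_lit 2) (nat_lit 5) (nat_lit 2) (nat_lit 4) (nat_lit 231) (nat_lit 187) (nat_lit 182)) (XT.lf (nat_lit 0) (nat_lit 27306098611) (nat_lit 76) (nat_lit 55963721242) (nat_lit 76) (nat_lit 55057458034) (nat_lit 1) (nat_lit 4) (nat_lit 2) (nat_lit 5) (nat_lit 2) (nat_lit 4) (nat_lit 232) (nat_lit 187) (nat_lit 181)))) (XT.nd (nat_lit 156) (nat_lit 0) (nat_lit 0) (XT.nd (nat_lit 78) (nat_lit 0) (nat_lit 0) (XT.lf (nat_lit 0) (nat_lit 33529711589) (nat_lit 76) (nat_lit 63177110495) (nat_lit 76) (nat_lit 62180822325) (nat_lit 1) (nat_lit 4) (nat_lit 2) (nat_lit 5) (nat_lit 2) (nat_lit 4) (nat_lit 233) (nat_lit 187) (nat_lit 180)) (XT.lf (nat_lit 0) (nat_lit 40562817009) (nat_lit 76) (nat_lit 71527411369) (nat_lit 76) (nat_lit 70452840624) (nat_lit 1) (nat_lit 4) (nat_lit 2) (nat_lit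 5) (nat_lit 2) (nat_lit 4) (nat_lit 234) (nat_lit 187) (nat_lit 179))) (XT.nd (nat_lit 78) (nat_lit 0) (nat_lit 0) (XT.lf (nat_lit 0) (nat_lit 48543019109) (nat_lit 76) (nat_lit 81177999316) (nat_lit 76) (nat_lit 80035356767) (nat_lit 1) (nat_lit 4) (nat_lit 2) (nat_lit 5) (nat_lit 2) (nat_lit 4) (nat_lit 235) (nat_lit 187) (nat_lit 178)) (XT.lf (nat_lit 0) (nat_lit 57626452277) (nat_lit 76) (nat_lit 92317690187) (nat_lit 76) (nat_lit 91115854765) (nat_lit 1) (nat_lit 4) (nat_lit 2) (nat_lit 5) (nat_lit 2) (nat_lit 4) (nat_lit 236) (nat_lit 187) (nat_lit 177))))))))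
noncomputable def xc12 : XT := (XT.nd (nat_lit 2496) (nat_lit 0) (nat_lit 0) (XT.nd (nat_lit 1248) (nat_lit 0) (nat_lit 0) (XT.nd (nat_lit 624) (nat_lit 0) (nat_lit 0) (XT.nd (nat_lit 312) (nat_lit 0) (nat_lit 0) (XT.nd (nat_lit 156) (nat_lit 0) (nat_lit 0) (XT.nd (nat_lit 78) (nat_lit 0) (nat_lit 0) (XT.lf (nat_lit 0) (nat_lit 67990835859) (nat_lit 76) (nat_lit 105164434457) (nat_lit 76) (nat_lit 103911126971) (nat_lit 1) (nat_lit 4) (nat_lit 2) (nat_lit 5) (nat_lit 2) (nat_lit 4) (nat_lit 237) (nat_lit 187) (nat_lit 176)) (XT.lf (nat_lit 0) (nat_lit 79838951271) (nat_lit 76) (nat_lit 119969581468) (nat_lit 76) (nat_lit 118671515666) (nat_lit 1) (nat_lit 4) (nat_lit 2) (nat_lit 5) (nat_lit 2) (nat_lit 4) (nat_lit 238) (nat_lit 187) (nat_lit 175))) (XT.nd (nat_lit 78) (nat_lit 0) (nat_lit 0) (XT.lf (nat_lit 0) (nat_lit 93402609468) (nat_lit 76) (nat_lit 137022797142) (nat_lit 76)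 (nat_lit 135685811065) (nat_lit 1) (nat_lit 4) (nat_lit 2) (nat_lit 5) (nat_lit 2) (nat_lit 4) (nat_lit 239) (nat_lit 187) (nat_lit 174)) (XT.lf (nat_lit 0) (nat_lit 108947186371) (nat_lit 76) (nat_lit 156657731350) (nat_lit 76) (nat_lit 155286901555) (nat_lit 1) (nat_lit 4) (nat_lit 2) (nat_lit 5) (nat_lit 2) (nat_lit 4) (nat_lit 240) (nat_lit 187) (nat_lit 173)))) (XT.nd (nat_lit 156) (nat_lit 0) (nat_lit 0) (XT.nd (nat_lit 78) (nat_lit 0) (nat_lit 0) (XT.lf (nat_lit 0) (nat_lit 126776815006) (nat_lit 76) (nat_lit 179258545848) (nat_lit 76) (nat_lit 177858286734) (nat_lit 1) (nat_lit 4) (nat_lit 2) (nat_lit 5) (nat_lit 2) (nat_lit 4) (nat_lit 241) (nat_lit 187) (nat_lit 172)) (XT.lf (nat_lit 0) (nat_lit 147240335934) (nat_lit 76) (nat_lit 205267430485) (nat_lit 76) (nat_lit 203841580658) (nat_lit 1) (nat_lit 4) (nat_lit 2) (nat_lit 5) (nat_lit 2) (nat_lit 4) (nat_lit 242) (nat_lit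 187) (nat_lit 171))) (XT.nd (nat_lit 78) (nat_lit 0) (nat_lit 0) (XT.lf (nat_lit 0) (nat_lit 170738122390) (nat_lit 76) (nat_lit 235193254744) (nat_lit 76) (nat_lit 233745152123) (nat_lit 1) (nat_lit 4) (nat_lit 2) (nat_lit 5) (nat_lit 2) (nat_lit 4) (nat_lit 243) (nat_lit 187) (nat_lit 170)) (XT.lf (nat_lit 0) (nat_lit 197729913674) (nat_lit 76) (nat_lit 269621523880) (nat_lit 76) (nat_lit 268154071005) (nat_lit 1) (nat_lit 4) (nat_lit 2) (nat_lit 5) (nat_lit 2) (nat_lit 4) (nat_lit 244) (nat_lit 187) (nat_lit 169))))) (XT.nd (nat_lit 312) (nat_lit 0) (nat_lit 0) (XT.nd (nat_lit 156) (nat_lit 0) (nat_lit 0) (XT.nd (nat_lit 78) (nat_lit 0) (nat_lit 0) (XT.lf (nat_lit 0) (nat_lit 228743810051) (nat_lit 76) (nat_lit 309225834466) (nat_lit 76) (nat_lit 307741555281) (nat_lit 1) (nat_lit 4) (nat_lit 2) (nat_lit 5) (nat_lit 2) (nat_lit 4) (nat_lit 245) (nat_lit 187) (nat_lit 168)) (XT.lf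 (nat_lit 0) (nat_lit 264386605145) (nat_lit 76) (nat_lit 354781053445) (nat_lit 76) (nat_lit 353282142687) (nat_lit 1) (nat_lit 4) (nat_lit 2) (nat_lit 5) (nat_lit 2) (nat_lit 4) (nat_lit 246) (nat_lit 187) (nat_lit 167))) (XT.nd (nat_lit 78) (nat_lit 0) (nat_lit 0) (XT.lf (nat_lit 0) (nat_lit 305355657990) (nat_lit 76) (nat_lit 407178478582) (nat_lit 76) (nat_lit 405666844718) (nat_lit 1) (nat_lit 4) (nat_lit 2) (nat_lit 5) (nat_lit 2) (nat_lit 4) (nat_lit 247) (nat_lit 187) (nat_lit 166)) (XT.lf (nat_lit 0) (nat_lit 352452537013) (nat_lit 76) (nat_lit 467443276890) (nat_lit 76) (nat_lit 465920579454) (nat_lit 1) (nat_lit 4) (nat_lit 2) (nat_lit 5) (nat_lit 2) (nat_lit 4) (nat_lit 248) (nat_lit 187) (nat_lit 165)))) (XT.nd (nat_lit 156) (nat_lit 0) (nat_lit 0) (XT.nd (nat_lit 78) (nat_lit 0) (nat_lit 0) (XT.lf (nat_lit 0) (nat_lit 406598702890) (nat_lit 76) (nat_lit 536754542249)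 (nat_lit 76) (nat_lit 535222224316) (nat_lit 1) (nat_lit 4) (nat_lit 2) (nat_lit 5) (nat_lit 2) (nat_lit 4) (nat_lit 249) (nat_lit 187) (nat_lit 164)) (XT.lf (nat_lit 0) (nat_lit 468853537126) (nat_lit 76) (nat_lit 616468364633) (nat_lit 76) (nat_lit 614927681051) (nat_lit 1) (nat_lit 4) (nat_lit 2) (nat_lit 5) (nat_lit 2) (nat_lit 4) (nat_lit 250) (nat_lit 187) (nat_lit 163))) (XT.nd (nat_lit 78) (nat_lit 0) (nat_lit 0) (XT.lf (nat_lit 0) (nat_lit 540435069087) (nat_lit 76) (nat_lit 708144362306) (nat_lit 76) (nat_lit 706596404246) (nat_lit 1) (nat_lit 4) (nat_lit 2) (nat_lit 5) (nat_lit 2) (nat_lit 4) (nat_lit 251) (nat_lit 187) (nat_lit 162)) (XT.lf (nat_lit 0) (nat_lit 622743807008) (nat_lit 76) (nat_lit 813576196093) (nat_lit 76) (nat_lit 812021912400) (nat_lit 1) (nat_lit 4) (nat_lit 2) (nat_lit 5) (nat_lit 2) (nat_lit 4) (nat_lit 252) (nat_lit 187) (nat_lit 161)))))) (XT.nd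 (nat_lit 624) (nat_lit 0) (nat_lit 0) (XT.nd (nat_lit 312) (nat_lit 0) (nat_lit 0) (XT.nd (nat_lit 156) (nat_lit 0) (nat_lit 0) (XT.nd (nat_lit 78) (nat_lit 0) (nat_lit 0) (XT.lf (nat_lit 0) (nat_lit 717390139239) (nat_lit 76) (nat_lit 934826662741) (nat_lit 76) (nat_lit 933266878498) (nat_lit 1) (nat_lit 4) (nat_lit 2) (nat_lit 5) (nat_lit 2) (nat_lit 4) (nat_lit 253) (nat_lit 187) (nat_lit 160)) (XT.lf (nat_lit 0) (nat_lit 826225841845) (nat_lit 76) (nat_lit 1074268053989) (nat_lit 76) (nat_lit 1072703486658) (nat_lit 1) (nat_lit 4) (nat_lit 2) (nat_lit 5) (nat_lit 2) (nat_lit 4) (nat_lit 254) (nat_lit 187) (nat_lit 159))) (XT.nd (nat_lit 78) (nat_lit 0) (nat_lit 0) (XT.lf (nat_lit 0) (nat_lit 951380309008) (nat_lit 76) (nat_lit 1234628570970) (nat_lit 76) (nat_lit 1233059844433) (nat_lit 1) (nat_lit 4) (nat_lit 2) (nat_lit 5) (nat_lit 2) (nat_lit 4) (nat_lit 255) (nat_lit 187)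 (nat_lit 158)) (XT.lf (nat_lit 0) (nat_lit 1095302215085) (nat_lit 76) (nat_lit 1419045702059) (nat_lit 76) (nat_lit 1417473358822) (nat_lit 1) (nat_lit 4) (nat_lit 2) (nat_lit 5) (nat_lit 2) (nat_lit 4) (nat_lit 256) (nat_lit 187) (nat_lit 157)))) (XT.nd (nat_lit 156) (nat_lit 0) (nat_lit 0) (XT.nd (nat_lit 78) (nat_lit 0) (nat_lit 0) (XT.lf (nat_lit 0) (nat_lit 1260807423457) (nat_lit 76) (nat_lit 1631127608519) (nat_lit 76) (nat_lit 1629552120324) (nat_lit 1) (nat_lit 4) (nat_lit 2) (nat_lit 5) (nat_lit 2) (nat_lit 4) (nat_lit 257) (nat_lit 187) (nat_lit 156)) (XT.lf (nat_lit 0) (nat_lit 1451134079503) (nat_lit 76) (nat_lit 1875023718952) (nat_lit 76) (nat_lit 1873445496011) (nat_lit 1) (nat_lit 4) (nat_lit 2) (nat_lit 5) (nat_lit 2) (nat_lit 4) (nat_lit 258) (nat_lit 187) (nat_lit 155))) (XT.nd (nat_lit 78) (nat_lit 0) (nat_lit 0) (XT.lf (nat_lit 0) (nat_lit 1670005965626) (nat_lit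 76) (nat_lit 2155505913780) (nat_lit 76) (nat_lit 2153925312800) (nat_lit 1) (nat_lit 4) (nat_lit 2) (nat_lit 5) (nat_lit 2) (nat_lit 4) (nat_lit 259) (nat_lit 187) (nat_lit 154)) (XT.lf (nat_lit 0) (nat_lit 1921705357858) (nat_lit 76) (nat_lit 2478061888121) (nat_lit 76) (nat_lit 2476479219280) (nat_lit 1) (nat_lit 4) (nat_lit 2) (nat_lit 5) (nat_lit 2) (nat_lit 4) (nat_lit 260) (nat_lit 187) (nat_lit 153))))) (XT.nd (nat_lit 312) (nat_lit 0) (nat_lit 0) (XT.nd (nat_lit 156) (nat_lit 0) (nat_lit 0) (XT.nd (nat_lit 78) (nat_lit 0) (nat_lit 0) (XT.lf (nat_lit 0) (nat_lit 2211156809525) (nat_lit 76) (nat_lit 2849002519732) (nat_lit 76) (nat_lit 2847418052751) (nat_lit 1) (nat_lit 4) (nat_lit 2) (nat_lit 5) (nat_lit 2) (nat_lit 4) (nat_lit 261) (nat_lit 187) (nat_lit 152)) (XT.lf (nat_lit 0) (nat_lit 2544023501204) (nat_lit 76) (nat_lit 3275585342710) (nat_lit 76) (nat_lit 3273999312130)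 (nat_lit 1) (nat_lit 4) (nat_lit 2) (nat_lit 5) (nat_lit 2) (nat_lit 4) (nat_lit 262) (nat_lit 187) (nat_lit 151))) (XT.nd (nat_lit 78) (nat_lit 0) (nat_lit 0) (XT.lf (nat_lit 0) (nat_lit 2926818042079) (nat_lit 76) (nat_lit 3766156542722) (nat_lit 76) (nat_lit 3764569152490) (nat_lit 1) (nat_lit 4) (nat_lit 2) (nat_lit 5) (nat_lit 2) (nat_lit 4) (nat_lit 263) (nat_lit 187) (nat_lit 150)) (XT.lf (nat_lit 0) (nat_lit 3367029890558) (nat_lit 76) (nat_lit 4330314251943) (nat_lit 76) (nat_lit 4328725679405) (nat_lit 1) (nat_lit 4) (nat_lit 2) (nat_lit 5) (nat_lit 2) (nat_lit 4) (nat_lit 264) (nat_lit 187) (nat_lit 149)))) (XT.nd (nat_lit 156) (nat_lit 0) (nat_lit 0) (XT.nd (nat_lit 78) (nat_lit 0) (nat_lit 0) (XT.lf (nat_lit 0) (nat_lit 3873271887157) (nat_lit 76) (nat_lit 4979096338596) (nat_lit 76) (nat_lit 4977506737966) (nat_lit 1) (nat_lit 4) (nat_lit 2) (nat_lit 5) (nat_lit 2) (nat_lit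 4) (nat_lit 265) (nat_lit 187) (nat_lit 148)) (XT.lf (nat_lit 0) (nat_lit 4455448766589) (nat_lit 76) (nat_lit 5725196365246) (nat_lit 76) (nat_lit 5723605870623) (nat_lit 1) (nat_lit 4) (nat_lit 2) (nat_lit 5) (nat_lit 2) (nat_lit 4) (nat_lit 266) (nat_lit 187) (nat_lit 147))) (XT.nd (nat_lit 78) (nat_lit 0) (nat_lit 0) (XT.lf (nat_lit 0) (nat_lit 5124950946063) (nat_lit 76) (nat_lit 6583211941110) (nat_lit 76) (nat_lit 6581620669102) (nat_lit 1) (nat_lit 4) (nat_lit 2) (nat_lit 5) (nat_lit 2) (nat_lit 4) (nat_lit 267) (nat_lit 187) (nat_lit 146)) (XT.lf (nat_lit 0) (nat_lit 5894877381263) (nat_lit 76) (nat_lit 7569930327456) (nat_lit 76) (nat_lit 7568338379460) (nat_lit 1) (nat_lit 4) (nat_lit 2) (nat_lit 5) (nat_lit 2) (nat_lit 4) (nat_lit 268) (nat_lit 187) (nat_lit 145))))))) (XT.nd (nat_lit 28158) (nat_lit 0) (nat_lit 0) (XT.nd (nat_lit 624) (nat_lit 0) (nat_lit 0) (XT.nd (nat_lit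 312) (nat_lit 0) (nat_lit 0) (XT.nd (nat_lit 156) (nat_lit 0) (nat_lit 0) (XT.nd (nat_lit 78) (nat_lit 0) (nat_lit 0) (XT.lf (nat_lit 0) (nat_lit 6780291850270) (nat_lit 76) (nat_lit 8704656884016) (nat_lit 76) (nat_lit 8703064348205) (nat_lit 1) (nat_lit 4) (nat_lit 2) (nat_lit 5) (nat_lit 2) (nat_lit 4) (nat_lit 269) (nat_lit 187) (nat_lit 144)) (XT.lf (nat_lit 0) (nat_lit 7798517679650) (nat_lit 76) (nat_lit 10009592782548) (nat_lit 76) (nat_lit 10007999735594) (nat_lit 1) (nat_lit 4) (nat_lit 2) (nat_lit 5) (nat_lit 2) (nat_lit 4) (nat_lit 270) (nat_lit 187) (nat_lit 143))) (XT.nd (nat_lit 78) (nat_lit 0) (nat_lit 0) (XT.lf (nat_lit 0) (nat_lit 8969476679109) (nat_lit 76) (nat_lit 11510269377590) (nat_lit 76) (nat_lit 11508675886163) (nat_lit 1) (nat_lit 4) (nat_lit 2) (nat_lit 5) (nat_lit 2) (nat_lit 4) (nat_lit 271) (nat_lit 187) (nat_lit 142)) (XT.lf (nat_lit 0) (nat_lit 10316078916028)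 (nat_lit 76) (nat_lit 13236047732958) (nat_lit 76) (nat_lit 13234453855033) (nat_lit 1) (nat_lit 4) (nat_lit 2) (nat_lit 5) (nat_lit 2) (nat_lit 4) (nat_lit 272) (nat_lit 187) (nat_lit 141)))) (XT.nd (nat_lit 156) (nat_lit 0) (nat_lit 0) (XT.nd (nat_lit 78) (nat_lit 0) (nat_lit 0) (XT.lf (nat_lit 0) (nat_lit 11864670955912) (nat_lit 76) (nat_lit 15220693077342) (nat_lit 76) (nat_lit 15219098863332) (nat_lit 1) (nat_lit 4) (nat_lit 2) (nat_lit 5) (nat_lit 2) (nat_lit 4) (nat_lit 273) (nat_lit 187) (nat_lit 140)) (XT.lf (nat_lit 0) (nat_lit 13645551338671) (nat_lit 76) (nat_lit 17503035428352) (nat_lit 76) (nat_lit 17501440922093) (nat_lit 1) (nat_lit 4) (nat_lit 2) (nat_lit 5) (nat_lit 2) (nat_lit 4) (nat_lit 274) (nat_lit 187) (nat_lit 139))) (XT.nd (nat_lit 78) (nat_lit 0) (nat_lit 0) (XT.lf (nat_lit 0) (nat_lit 15693563376142) (nat_lit 76) (nat_lit 20127729310245) (nat_lit 76) (nat_lit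 20126134549858) (nat_lit 1) (nat_lit 4) (nat_lit 2) (nat_lit 5) (nat_lit 2) (nat_lit 4) (nat_lit 275) (nat_lit 187) (nat_lit 138)) (XT.lf (nat_lit 0) (nat_lit 18048776869058) (nat_lit 76) (nat_lit 23146127429407) (nat_lit 76) (nat_lit 23144532448038) (nat_lit 1) (nat_lit 4) (nat_lit 2) (nat_lit 5) (nat_lit 2) (nat_lit 4) (nat_lit 276) (nat_lit 187) (nat_lit 137))))) (XT.nd (nat_lit 27222) (nat_lit 0) (nat_lit 0) (XT.nd (nat_lit 468) (nat_lit 0) (nat_lit 0) (XT.nd (nat_lit 78) (nat_lit 0) (nat_lit 0) (XT.lf (nat_lit 0) (nat_lit 20757272081412) (nat_lit 76) (nat_lit 26617285401212) (nat_lit 76) (nat_lit 26615690227686) (nat_lit 1) (nat_lit 4) (nat_lit 2) (nat_lit 5) (nat_lit 2) (nat_lit 4) (nat_lit 277) (nat_lit 187) (nat_lit 136)) (XT.lf (nat_lit 0) (nat_lit 23872041310835) (nat_lit 76) (nat_lit 30609117185979) (nat_lit 76) (nat_lit 30607521845359) (nat_lit 1) (nat_lit 4) (nat_lit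 2) (nat_lit 5) (nat_lit 2) (nat_lit 4) (nat_lit 278) (nat_lit 187) (nat_lit 135))) (XT.nd (nat_lit 26676) (nat_lit 0) (nat_lit 76) (XT.lf (nat_lit 0) (nat_lit 48023143595116) (nat_lit 76) (nat_lit 61560738331014) (nat_lit 76) (nat_lit 61559142430270) (nat_lit 1) (nat_lit 4) (nat_lit 2) (nat_lit 5) (nat_lit 2) (nat_lit 4) (nat_lit 283) (nat_lit 187) (nat_lit 130)) (XT.lf (nat_lit 0) (nat_lit 10375516553) (nat_lit 152) (nat_lit 2479041683) (nat_lit 0) (nat_lit 10375516553) (nat_lit 2) (nat_lit 5) (nat_lit 4) (nat_lit 4) (nat_lit 2) (nat_lit 4) (nat_lit 224) (nat_lit 188) (nat_lit 188)))) (XT.nd (nat_lit 156) (nat_lit 0) (nat_lit 0) (XT.nd (nat_lit 78) (nat_lit 76) (nat_lit 0) (XT.lf (nat_lit 0) (nat_lit 25591905827) (nat_lit 152) (nat_lit 2164531499) (nat_lit 0) (nat_lit 25352437641) (nat_lit 2) (nat_lit 5) (nat_lit 4) (nat_lit 4) (nat_lit 2) (nat_lit 4) (nat_lit 225) (nat_lit 188)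 (nat_lit 187)) (XT.lf (nat_lit 0) (nat_lit 820502378) (nat_lit 76) (nat_lit 30202115404) (nat_lit 76) (nat_lit 29754414011) (nat_lit 1) (nat_lit 4) (nat_lit 2) (nat_lit 5) (nat_lit 2) (nat_lit 4) (nat_lit 226) (nat_lit 188) (nat_lit 186))) (XT.nd (nat_lit 78) (nat_lit 0) (nat_lit 0) (XT.lf (nat_lit 0) (nat_lit 4209621123) (nat_lit 76) (nat_lit 33011521848) (nat_lit 76) (nat_lit 32382748102) (nat_lit 1) (nat_lit 4) (nat_lit 2) (nat_lit 5) (nat_lit 2) (nat_lit 4) (nat_lit 227) (nat_lit 188) (nat_lit 185)) (XT.lf (nat_lit 0) (nat_lit 7857599818) (nat_lit 76) (nat_lit 36352769271) (nat_lit 76) (nat_lit 35566541306) (nat_lit 1) (nat_lit 4) (nat_lit 2) (nat_lit 5) (nat_lit 2) (nat_lit 4) (nat_lit 228) (nat_lit 188) (nat_lit 184)))))) (XT.nd (nat_lit 624) (nat_lit 0) (nat_lit 0) (XT.nd (nat_lit 312) (nat_lit 0) (nat_lit 0) (XT.nd (nat_lit 156) (nat_lit 0) (nat_lit 0) (XT.nd (nat_lit 78)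 (nat_lit 0) (nat_lit 0) (XT.lf (nat_lit 0) (nat_lit 11835811961) (nat_lit 76) (nat_lit 40291229907) (nat_lit 76) (nat_lit 39368085229) (nat_lit 1) (nat_lit 4) (nat_lit 2) (nat_lit 5) (nat_lit 2) (nat_lit 4) (nat_lit 229) (nat_lit 188) (nat_lit 183)) (XT.lf (nat_lit 0) (nat_lit 16222092137) (nat_lit 76) (nat_lit 44903960593) (nat_lit 76) (nat_lit 43861757904) (nat_lit 1) (nat_lit 4) (nat_lit 2) (nat_lit 5) (nat_lit 2) (nat_lit 4) (nat_lit 230) (nat_lit 188) (nat_lit 182))) (XT.nd (nat_lit 78) (nat_lit 0) (nat_lit 0) (XT.lf (nat_lit 0) (nat_lit 21102258871) (nat_lit 76) (nat_lit 50281210408) (nat_lit 76) (nat_lit 49135479013) (nat_lit 1) (nat_lit 4) (nat_lit 2) (nat_lit 5) (nat_lit 2) (nat_lit 4) (nat_lit 231) (nat_lit 188) (nat_lit 181)) (XT.lf (nat_lit 0) (nat_lit 26571793686) (nat_lit 76) (nat_lit 56528186414) (nat_lit 76) (nat_lit 55292430058) (nat_lit 1) (nat_lit 4) (nat_lit 2)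 (nat_lit 5) (nat_lit 2) (nat_lit 4) (nat_lit 232) (nat_lit 188) (nat_lit 180)))) (XT.nd (nat_lit 156) (nat_lit 0) (nat_lit 0) (XT.nd (nat_lit 78) (nat_lit 0) (nat_lit 0) (XT.lf (nat_lit 0) (nat_lit 32737709220) (nat_lit 76) (nat_lit 63767112055) (nat_lit 76) (nat_lit 62453073123) (nat_lit 1) (nat_lit 4) (nat_lit 2) (nat_lit 5) (nat_lit 2) (nat_lit 4) (nat_lit 233) (nat_lit 188) (nat_lit 179)) (XT.lf (nat_lit 0) (nat_lit 39720642951) (nat_lit 76) (nat_lit 72139618483) (nat_lit 76) (nat_lit 70757507748) (nat_lit 1) (nat_lit 4) (nat_lit 2) (nat_lit 5) (nat_lit 2) (nat_lit 4) (nat_lit 234) (nat_lit 188) (nat_lit 178))) (XT.nd (nat_lit 78) (nat_lit 0) (nat_lit 0) (XT.lf (nat_lit 0) (nat_lit 47657217494) (nat_lit 76) (nat_lit 81809515608) (nat_lit 76) (nat_lit 80368211999) (nat_lit 1) (nat_lit 4) (nat_lit 2) (nat_lit 5) (nat_lit 2) (nat_lit 4) (nat_lit 235) (nat_lit 188) (nat_lit 177))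 (XT.lf (nat_lit 0) (nat_lit 56702713657) (nat_lit 76) (nat_lit 92965997069) (nat_lit 76) (nat_lit 91473221396) (nat_lit 1) (nat_lit 4) (nat_lit 2) (nat_lit 5) (nat_lit 2) (nat_lit 4) (nat_lit 236) (nat_lit 188) (nat_lit 176))))) (XT.nd (nat_lit 312) (nat_lit 0) (nat_lit 0) (XT.nd (nat_lit 156) (nat_lit 0) (nat_lit 0) (XT.nd (nat_lit 78) (nat_lit 0) (nat_lit 0) (XT.lf (nat_lit 0) (nat_lit 67034108537) (nat_lit 76) (nat_lit 105827341851) (nat_lit 76) (nat_lit 104289807862) (nat_lit 1) (nat_lit 4) (nat_lit 2) (nat_lit 5) (nat_lit 2) (nat_lit 4) (nat_lit 237) (nat_lit 188) (nat_lit 175)) (XT.lf (nat_lit 0) (nat_lit 78853538123) (nat_lit 76) (nat_lit 120645184960) (nat_lit 76) (nat_lit 119068730696) (nat_lit 1) (nat_lit 4) (nat_lit 2) (nat_lit 5) (nat_lit 2) (nat_lit 4) (nat_lit 238) (nat_lit 188) (nat_lit 174))) (XT.nd (nat_lit 78) (nat_lit 0) (nat_lit 0) (XT.lf (nat_lit 0) (nat_lit 92392252123)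 (nat_lit 76) (nat_lit 137709440719) (nat_lit 76) (nat_lit 136099142738) (nat_lit 1) (nat_lit 4) (nat_lit 2) (nat_lit 5) (nat_lit 2) (nat_lit 4) (nat_lit 239) (nat_lit 188) (nat_lit 173)) (XT.lf (nat_lit 0) (nat_lit 107915138420) (nat_lit 76) (nat_lit 157353975001) (nat_lit 76) (nat_lit 155714247700) (nat_lit 1) (nat_lit 4) (nat_lit 2) (nat_lit 5) (nat_lit 2) (nat_lit 4) (nat_lit 240) (nat_lit 188) (nat_lit 172)))) (XT.nd (nat_lit 156) (nat_lit 0) (nat_lit 0) (XT.nd (nat_lit 78) (nat_lit 0) (nat_lit 0) (XT.lf (nat_lit 0) (nat_lit 125725905658) (nat_lit 76) (nat_lit 179963137390) (nat_lit 76) (nat_lit 178297819376) (nat_lit 1) (nat_lit 4) (nat_lit 2) (nat_lit 5) (nat_lit 2) (nat_lit 4) (nat_lit 241) (nat_lit 188) (nat_lit 171)) (XT.lf (nat_lit 0) (nat_lit 146173025372) (nat_lit 76) (nat_lit 205979281062) (nat_lit 76) (nat_lit 204291710255) (nat_lit 1) (nat_lit 4) (nat_lit 2) (nat_lit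 5) (nat_lit 2) (nat_lit 4) (nat_lit 242) (nat_lit 188) (nat_lit 170))) (XT.nd (nat_lit 78) (nat_lit 0) (nat_lit 0) (XT.lf (nat_lit 0) (nat_lit 169656549902) (nat_lit 76) (nat_lit 235911417525) (nat_lit 76) (nat_lit 234204496462) (nat_lit 1) (nat_lit 4) (nat_lit 2) (nat_lit 5) (nat_lit 2) (nat_lit 4) (nat_lit 243) (nat_lit 188) (nat_lit 169)) (XT.lf (nat_lit 0) (nat_lit 196635939512) (nat_lit 76) (nat_lit 270345175535) (nat_lit 76) (nat_lit 268621428163) (nat_lit 1) (nat_lit 4) (nat_lit 2) (nat_lit 5) (nat_lit 2) (nat_lit 4) (nat_lit 244) (nat_lit 188) (nat_lit 168))))))))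
noncomputable def xc13 : XT := (XT.nd (nat_lit 2496) (nat_lit 0) (nat_lit 0) (XT.nd (nat_lit 1248) (nat_lit 0) (nat_lit 0) (XT.nd (nat_lit 624) (nat_lit 0) (nat_lit 0) (XT.nd (nat_lit 312) (nat_lit 0) (nat_lit 0) (XT.nd (nat_lit 156) (nat_lit 0) (nat_lit 0) (XT.nd (nat_lit 78) (nat_lit 0) (nat_lit 0) (XT.lf (nat_lit 0) (nat_lit 227639051824) (nat_lit 76) (nat_lit 309954259053) (nat_lit 76) (nat_lit 308215880109) (nat_lit 1) (nat_lit 4) (nat_lit 2) (nat_lit 5) (nat_lit 2) (nat_lit 4) (nat_lit 245) (nat_lit 188) (nat_lit 167)) (XT.lf (nat_lit 0) (nat_lit 263272469470) (nat_lit 76) (nat_lit 355513628410) (nat_lit 76) (nat_lit 353762526359) (nat_lit 1) (nat_lit 4) (nat_lit 2) (nat_lit 5) (nat_lit 2) (nat_lit 4) (nat_lit 246) (nat_lit 188) (nat_lit 166))) (XT.nd (nat_lit 78) (nat_lit 0) (nat_lit 0) (XT.lf (nat_lit 0) (nat_lit 304233368014) (nat_lit 76) (nat_lit 407914662571) (nat_lit 76)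 (nat_lit 406152496948) (nat_lit 1) (nat_lit 4) (nat_lit 2) (nat_lit 5) (nat_lit 2) (nat_lit 4) (nat_lit 247) (nat_lit 188) (nat_lit 165)) (XT.lf (nat_lit 0) (nat_lit 351323156339) (nat_lit 76) (nat_lit 468182599160) (nat_lit 76) (nat_lit 466410813040) (nat_lit 1) (nat_lit 4) (nat_lit 2) (nat_lit 5) (nat_lit 2) (nat_lit 4) (nat_lit 248) (nat_lit 188) (nat_lit 164)))) (XT.nd (nat_lit 156) (nat_lit 0) (nat_lit 0) (XT.nd (nat_lit 78) (nat_lit 0) (nat_lit 0) (XT.lf (nat_lit 0) (nat_lit 405463156391) (nat_lit 76) (nat_lit 537496593459) (nat_lit 76) (nat_lit 535716441690) (nat_lit 1) (nat_lit 4) (nat_lit 2) (nat_lit 5) (nat_lit 2) (nat_lit 4) (nat_lit 249) (nat_lit 188) (nat_lit 163)) (XT.lf (nat_lit 0) (nat_lit 467712629041) (nat_lit 76) (nat_lit 617212788834) (nat_lit 76) (nat_lit 615425362588) (nat_lit 1) (nat_lit 4) (nat_lit 2) (nat_lit 5) (nat_lit 2) (nat_lit 4) (nat_lit 250) (nat_lit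 188) (nat_lit 162))) (XT.nd (nat_lit 78) (nat_lit 0) (nat_lit 0) (XT.lf (nat_lit 0) (nat_lit 539289498754) (nat_lit 76) (nat_lit 708890849978) (nat_lit 76) (nat_lit 707097098099) (nat_lit 1) (nat_lit 4) (nat_lit 2) (nat_lit 5) (nat_lit 2) (nat_lit 4) (nat_lit 251) (nat_lit 188) (nat_lit 161)) (XT.lf (nat_lit 0) (nat_lit 621594182546) (nat_lit 76) (nat_lit 814324478087) (nat_lit 76) (nat_lit 812525225658) (nat_lit 1) (nat_lit 4) (nat_lit 2) (nat_lit 5) (nat_lit 2) (nat_lit 4) (nat_lit 252) (nat_lit 188) (nat_lit 160))))) (XT.nd (nat_lit 312) (nat_lit 0) (nat_lit 0) (XT.nd (nat_lit 156) (nat_lit 0) (nat_lit 0) (XT.nd (nat_lit 78) (nat_lit 0) (nat_lit 0) (XT.lf (nat_lit 0) (nat_lit 716236989446) (nat_lit 76) (nat_lit 935576505015) (nat_lit 76) (nat_lit 933772469499) (nat_lit 1) (nat_lit 4) (nat_lit 2) (nat_lit 5) (nat_lit 2) (nat_lit 4) (nat_lit 253) (nat_lit 188) (nat_lit 159)) (XT.lf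 (nat_lit 0) (nat_lit 825069626548) (nat_lit 76) (nat_lit 1075019253029) (nat_lit 76) (nat_lit 1073211058306) (nat_lit 1) (nat_lit 4) (nat_lit 2) (nat_lit 5) (nat_lit 2) (nat_lit 4) (nat_lit 254) (nat_lit 188) (nat_lit 158))) (XT.nd (nat_lit 78) (nat_lit 0) (nat_lit 0) (XT.lf (nat_lit 0) (nat_lit 950221428055) (nat_lit 76) (nat_lit 1235380949806) (nat_lit 76) (nat_lit 1233569138382) (nat_lit 1) (nat_lit 4) (nat_lit 2) (nat_lit 5) (nat_lit 2) (nat_lit 4) (nat_lit 255) (nat_lit 188) (nat_lit 157)) (XT.lf (nat_lit 0) (nat_lit 1094141016171) (nat_lit 76) (nat_lit 1419799106806) (nat_lit 76) (nat_lit 1417984150424) (nat_lit 1) (nat_lit 4) (nat_lit 2) (nat_lit 5) (nat_lit 2) (nat_lit 4) (nat_lit 256) (nat_lit 188) (nat_lit 156)))) (XT.nd (nat_lit 156) (nat_lit 0) (nat_lit 0) (XT.nd (nat_lit 78) (nat_lit 0) (nat_lit 0) (XT.lf (nat_lit 0) (nat_lit 1259644208924) (nat_lit 76) (nat_lit 1631881905360)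 (nat_lit 76) (nat_lit 1630064214233) (nat_lit 1) (nat_lit 4) (nat_lit 2) (nat_lit 5) (nat_lit 2) (nat_lit 4) (nat_lit 257) (nat_lit 188) (nat_lit 155)) (XT.lf (nat_lit 0) (nat_lit 1449969112258) (nat_lit 76) (nat_lit 1875778791528) (nat_lit 76) (nat_lit 1873958722362) (nat_lit 1) (nat_lit 4) (nat_lit 2) (nat_lit 5) (nat_lit 2) (nat_lit 4) (nat_lit 258) (nat_lit 188) (nat_lit 154))) (XT.nd (nat_lit 78) (nat_lit 0) (nat_lit 0) (XT.lf (nat_lit 0) (nat_lit 1668839474284) (nat_lit 76) (nat_lit 2156261660909) (nat_lit 76) (nat_lit 2154439523882) (nat_lit 1) (nat_lit 4) (nat_lit 2) (nat_lit 5) (nat_lit 2) (nat_lit 4) (nat_lit 259) (nat_lit 188) (nat_lit 153)) (XT.lf (nat_lit 0) (nat_lit 1920537541213) (nat_lit 76) (nat_lit 2478818221817) (nat_lit 76) (nat_lit 2476994286650) (nat_lit 1) (nat_lit 4) (nat_lit 2) (nat_lit 5) (nat_lit 2) (nat_lit 4) (nat_lit 260) (nat_lit 188) (nat_lit 152))))))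 (XT.nd (nat_lit 624) (nat_lit 0) (nat_lit 0) (XT.nd (nat_lit 312) (nat_lit 0) (nat_lit 0) (XT.nd (nat_lit 156) (nat_lit 0) (nat_lit 0) (XT.nd (nat_lit 78) (nat_lit 0) (nat_lit 0) (XT.lf (nat_lit 0) (nat_lit 2209987840444) (nat_lit 76) (nat_lit 2849759363486) (nat_lit 76) (nat_lit 2847933864720) (nat_lit 1) (nat_lit 4) (nat_lit 2) (nat_lit 5) (nat_lit 2) (nat_lit 4) (nat_lit 261) (nat_lit 188) (nat_lit 151)) (XT.lf (nat_lit 0) (nat_lit 2542853530004) (nat_lit 76) (nat_lit 3276342629993) (nat_lit 76) (nat_lit 3274515771575) (nat_lit 1) (nat_lit 4) (nat_lit 2) (nat_lit 5) (nat_lit 2) (nat_lit 4) (nat_lit 262) (nat_lit 188) (nat_lit 150))) (XT.nd (nat_lit 78) (nat_lit 0) (nat_lit 0) (XT.lf (nat_lit 0) (nat_lit 2925647199471) (nat_lit 76) (nat_lit 3766914215683) (nat_lit 76) (nat_lit 3765086174959) (nat_lit 1) (nat_lit 4) (nat_lit 2) (nat_lit 5) (nat_lit 2) (nat_lit 4) (nat_lit 263) (nat_lit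 188) (nat_lit 149)) (XT.lf (nat_lit 0) (nat_lit 3365858290205) (nat_lit 76) (nat_lit 4331072260276) (nat_lit 76) (nat_lit 4329243191459) (nat_lit 1) (nat_lit 4) (nat_lit 2) (nat_lit 5) (nat_lit 2) (nat_lit 4) (nat_lit 264) (nat_lit 188) (nat_lit 148)))) (XT.nd (nat_lit 156) (nat_lit 0) (nat_lit 0) (XT.nd (nat_lit 78) (nat_lit 0) (nat_lit 0) (XT.lf (nat_lit 0) (nat_lit 3872099627894) (nat_lit 76) (nat_lit 4979854638556) (nat_lit 76) (nat_lit 4978024675746) (nat_lit 1) (nat_lit 4) (nat_lit 2) (nat_lit 5) (nat_lit 2) (nat_lit 4) (nat_lit 265) (nat_lit 188) (nat_lit 147)) (XT.lf (nat_lit 0) (nat_lit 4454275934362) (nat_lit 76) (nat_lit 5725954918796) (nat_lit 76) (nat_lit 5724124178600) (nat_lit 1) (nat_lit 4) (nat_lit 2) (nat_lit 5) (nat_lit 2) (nat_lit 4) (nat_lit 266) (nat_lit 188) (nat_lit 146))) (XT.nd (nat_lit 78) (nat_lit 0) (nat_lit 0) (XT.lf (nat_lit 0) (nat_lit 5123777615606)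 (nat_lit 76) (nat_lit 6583970715172) (nat_lit 76) (nat_lit 6582139298990) (nat_lit 1) (nat_lit 4) (nat_lit 2) (nat_lit 5) (nat_lit 2) (nat_lit 4) (nat_lit 267) (nat_lit 188) (nat_lit 145)) (XT.lf (nat_lit 0) (nat_lit 5893703617562) (nat_lit 76) (nat_lit 7570689293268) (nat_lit 76) (nat_lit 7568857289270) (nat_lit 1) (nat_lit 4) (nat_lit 2) (nat_lit 5) (nat_lit 2) (nat_lit 4) (nat_lit 268) (nat_lit 188) (nat_lit 144))))) (XT.nd (nat_lit 312) (nat_lit 0) (nat_lit 0) (XT.nd (nat_lit 156) (nat_lit 0) (nat_lit 0) (XT.nd (nat_lit 78) (nat_lit 0) (nat_lit 0) (XT.lf (nat_lit 0) (nat_lit 6779117709835) (nat_lit 76) (nat_lit 8705416016567) (nat_lit 76) (nat_lit 8703583501426) (nat_lit 1) (nat_lit 4) (nat_lit 2) (nat_lit 5) (nat_lit 2) (nat_lit 4) (nat_lit 269) (nat_lit 188) (nat_lit 143)) (XT.lf (nat_lit 0) (nat_lit 7797343211621) (nat_lit 76) (nat_lit 10010352060090) (nat_lit 76) (nat_lit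 10008519100476) (nat_lit 1) (nat_lit 4) (nat_lit 2) (nat_lit 5) (nat_lit 2) (nat_lit 4) (nat_lit 270) (nat_lit 188) (nat_lit 142))) (XT.nd (nat_lit 78) (nat_lit 0) (nat_lit 0) (XT.lf (nat_lit 0) (nat_lit 8968301926215) (nat_lit 76) (nat_lit 11511028781210) (nat_lit 76) (nat_lit 11509195435098) (nat_lit 1) (nat_lit 4) (nat_lit 2) (nat_lit 5) (nat_lit 2) (nat_lit 4) (nat_lit 271) (nat_lit 188) (nat_lit 141)) (XT.lf (nat_lit 0) (nat_lit 10314903915426) (nat_lit 76) (nat_lit 13236807246211) (nat_lit 76) (nat_lit 13234973564014) (nat_lit 1) (nat_lit 4) (nat_lit 2) (nat_lit 5) (nat_lit 2) (nat_lit 4) (nat_lit 272) (nat_lit 188) (nat_lit 140)))) (XT.nd (nat_lit 156) (nat_lit 0) (nat_lit 0) (XT.nd (nat_lit 78) (nat_lit 0) (nat_lit 0) (XT.lf (nat_lit 0) (nat_lit 11863495739911) (nat_lit 76) (nat_lit 15221452685929) (nat_lit 76) (nat_lit 15219618711484) (nat_lit 1) (nat_lit 4) (nat_lit 2) (nat_lit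 5) (nat_lit 2) (nat_lit 4) (nat_lit 273) (nat_lit 188) (nat_lit 139)) (XT.lf (nat_lit 0) (nat_lit 13644375935367) (nat_lit 76) (nat_lit 17503795119837) (nat_lit 76) (nat_lit 17501960891264) (nat_lit 1) (nat_lit 4) (nat_lit 2) (nat_lit 5) (nat_lit 2) (nat_lit 4) (nat_lit 274) (nat_lit 188) (nat_lit 138))) (XT.nd (nat_lit 78) (nat_lit 0) (nat_lit 0) (XT.lf (nat_lit 0) (nat_lit 15692387809966) (nat_lit 76) (nat_lit 20128489073816) (nat_lit 76) (nat_lit 20126654624261) (nat_lit 1) (nat_lit 4) (nat_lit 2) (nat_lit 5) (nat_lit 2) (nat_lit 4) (nat_lit 275) (nat_lit 188) (nat_lit 137)) (XT.lf (nat_lit 0) (nat_lit 18047601161254) (nat_lit 76) (nat_lit 23146887255662) (nat_lit 76) (nat_lit 23145052613949) (nat_lit 1) (nat_lit 4) (nat_lit 2) (nat_lit 5) (nat_lit 2) (nat_lit 4) (nat_lit 276) (nat_lit 188) (nat_lit 136))))))) (XT.nd (nat_lit 28002) (nat_lit 0) (nat_lit 0) (XT.nd (nat_lit 27378)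 (nat_lit 0) (nat_lit 0) (XT.nd (nat_lit 27066) (nat_lit 0) (nat_lit 0) (XT.nd (nat_lit 156) (nat_lit 0) (nat_lit 0) (XT.nd (nat_lit 78) (nat_lit 0) (nat_lit 0) (XT.lf (nat_lit 0) (nat_lit 20756096250452) (nat_lit 76) (nat_lit 26618045281974) (nat_lit 76) (nat_lit 26616210473168) (nat_lit 1) (nat_lit 4) (nat_lit 2) (nat_lit 5) (nat_lit 2) (nat_lit 4) (nat_lit 277) (nat_lit 188) (nat_lit 135)) (XT.lf (nat_lit 0) (nat_lit 23870865372785) (nat_lit 76) (nat_lit 30609877114138) (nat_lit 76) (nat_lit 30608042160033) (nat_lit 1) (nat_lit 4) (nat_lit 2) (nat_lit 5) (nat_lit 2) (nat_lit 4) (nat_lit 278) (nat_lit 188) (nat_lit 134))) (XT.nd (nat_lit 26832) (nat_lit 0) (nat_lit 76) (XT.lf (nat_lit 0) (nat_lit 27452849663253) (nat_lit 76) (nat_lit 35200483809740) (nat_lit 76) (nat_lit 35198648729288) (nat_lit 1) (nat_lit 4) (nat_lit 2) (nat_lit 5) (nat_lit 2) (nat_lit 4) (nat_lit 279) (nat_lit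 188) (nat_lit 133)) (XT.lf (nat_lit 0) (nat_lit 6373586798) (nat_lit 152) (nat_lit 5111178477) (nat_lit 0) (nat_lit 6373586798) (nat_lit 2) (nat_lit 5) (nat_lit 4) (nat_lit 4) (nat_lit 2) (nat_lit 4) (nat_lit 222) (nat_lit 189) (nat_lit 189)))) (XT.nd (nat_lit 156) (nat_lit 76) (nat_lit 0) (XT.nd (nat_lit 78) (nat_lit 0) (nat_lit 0) (XT.lf (nat_lit 0) (nat_lit 16646700055) (nat_lit 152) (nat_lit 7687856469) (nat_lit 0) (nat_lit 16371311640) (nat_lit 2) (nat_lit 5) (nat_lit 4) (nat_lit 4) (nat_lit 2) (nat_lit 4) (nat_lit 223) (nat_lit 189) (nat_lit 188)) (XT.lf (nat_lit 0) (nat_lit 20935348514) (nat_lit 152) (nat_lit 5118868111) (nat_lit 0) (nat_lit 20420491913) (nat_lit 2) (nat_lit 5) (nat_lit 4) (nat_lit 4) (nat_lit 2) (nat_lit 4) (nat_lit 224) (nat_lit 189) (nat_lit 187))) (XT.nd (nat_lit 78) (nat_lit 76) (nat_lit 0) (XT.lf (nat_lit 0) (nat_lit 25697027315) (nat_lit 152) (nat_lit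 2465129065) (nat_lit 0) (nat_lit 24973937508) (nat_lit 2) (nat_lit 5) (nat_lit 4) (nat_lit 4) (nat_lit 2) (nat_lit 4) (nat_lit 225) (nat_lit 189) (nat_lit 186)) (XT.lf (nat_lit 0) (nat_lit 357070540) (nat_lit 76) (nat_lit 30682614727) (nat_lit 76) (nat_lit 29778452567) (nat_lit 1) (nat_lit 4) (nat_lit 2) (nat_lit 5) (nat_lit 2) (nat_lit 4) (nat_lit 226) (nat_lit 189) (nat_lit 185))))) (XT.nd (nat_lit 312) (nat_lit 0) (nat_lit 0) (XT.nd (nat_lit 156) (nat_lit 0) (nat_lit 0) (XT.nd (nat_lit 78) (nat_lit 0) (nat_lit 0) (XT.lf (nat_lit 0) (nat_lit 3630139116) (nat_lit 76) (nat_lit 33543383968) (nat_lit 76) (nat_lit 32481767588) (nat_lit 1) (nat_lit 4) (nat_lit 2) (nat_lit 5) (nat_lit 2) (nat_lit 4) (nat_lit 227) (nat_lit 189) (nat_lit 184)) (XT.lf (nat_lit 0) (nat_lit 7177204623) (nat_lit 76) (nat_lit 36929294693) (nat_lit 76) (nat_lit 35730761600) (nat_lit 1) (nat_lit 4) (nat_lit 2)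 (nat_lit 5) (nat_lit 2) (nat_lit 4) (nat_lit 228) (nat_lit 189) (nat_lit 183))) (XT.nd (nat_lit 78) (nat_lit 0) (nat_lit 0) (XT.lf (nat_lit 0) (nat_lit 11067666167) (nat_lit 76) (nat_lit 40906592983) (nat_lit 76) (nat_lit 39589001878) (nat_lit 1) (nat_lit 4) (nat_lit 2) (nat_lit 5) (nat_lit 2) (nat_lit 4) (nat_lit 229) (nat_lit 189) (nat_lit 182)) (XT.lf (nat_lit 0) (nat_lit 15377641474) (nat_lit 76) (nat_lit 45553095541) (nat_lit 76) (nat_lit 44131975732) (nat_lit 1) (nat_lit 4) (nat_lit 2) (nat_lit 5) (nat_lit 2) (nat_lit 4) (nat_lit 230) (nat_lit 189) (nat_lit 181)))) (XT.nd (nat_lit 156) (nat_lit 0) (nat_lit 0) (XT.nd (nat_lit 78) (nat_lit 0) (nat_lit 0) (XT.lf (nat_lit 0) (nat_lit 20191456148) (nat_lit 76) (nat_lit 50959712202) (nat_lit 76) (nat_lit 49448567431) (nat_lit 1) (nat_lit 4) (nat_lit 2) (nat_lit 5) (nat_lit 2) (nat_lit 4) (nat_lit 231) (nat_lit 189) (nat_lit 180))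 (XT.lf (nat_lit 0) (nat_lit 25603293519) (nat_lit 76) (nat_lit 57232224596) (nat_lit 76) (nat_lit 55642797250) (nat_lit 1) (nat_lit 4) (nat_lit 2) (nat_lit 5) (nat_lit 2) (nat_lit 4) (nat_lit 232) (nat_lit 189) (nat_lit 179))) (XT.nd (nat_lit 78) (nat_lit 0) (nat_lit 0) (XT.lf (nat_lit 0) (nat_lit 31719037363) (nat_lit 76) (nat_lit 64493355791) (nat_lit 76) (nat_lit 62835856640) (nat_lit 1) (nat_lit 4) (nat_lit 2) (nat_lit 5) (nat_lit 2) (nat_lit 4) (nat_lit 233) (nat_lit 189) (nat_lit 178)) (XT.lf (nat_lit 0) (nat_lit 38658343537) (nat_lit 76) (nat_lit 72885171397) (nat_lit 76) (nat_lit 71168479373) (nat_lit 1) (nat_lit 4) (nat_lit 2) (nat_lit 5) (nat_lit 2) (nat_lit 4) (nat_lit 234) (nat_lit 189) (nat_lit 177)))))) (XT.nd (nat_lit 624) (nat_lit 0) (nat_lit 0) (XT.nd (nat_lit 312) (nat_lit 0) (nat_lit 0) (XT.nd (nat_lit 156) (nat_lit 0) (nat_lit 0) (XT.nd (nat_lit 78) (nat_lit 0)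 (nat_lit 0) (XT.lf (nat_lit 0) (nat_lit 46556981074) (nat_lit 76) (nat_lit 82571859111) (nat_lit 76) (nat_lit 80803695024) (nat_lit 1) (nat_lit 4) (nat_lit 2) (nat_lit 5) (nat_lit 2) (nat_lit 4) (nat_lit 235) (nat_lit 189) (nat_lit 176)) (XT.lf (nat_lit 0) (nat_lit 55569488536) (nat_lit 76) (nat_lit 93742941085) (nat_lit 76) (nat_lit 91930018681) (nat_lit 1) (nat_lit 4) (nat_lit 2) (nat_lit 5) (nat_lit 2) (nat_lit 4) (nat_lit 236) (nat_lit 189) (nat_lit 175))) (XT.nd (nat_lit 78) (nat_lit 0) (nat_lit 0) (XT.lf (nat_lit 0) (nat_lit 65872197591) (nat_lit 76) (nat_lit 106616981964) (nat_lit 76) (nat_lit 104765139286) (nat_lit 1) (nat_lit 4) (nat_lit 2) (nat_lit 5) (nat_lit 2) (nat_lit 4) (nat_lit 237) (nat_lit 189) (nat_lit 174)) (XT.lf (nat_lit 0) (nat_lit 77666682979) (nat_lit 76) (nat_lit 121445865159) (nat_lit 76) (nat_lit 119560178763) (nat_lit 1) (nat_lit 4) (nat_lit 2) (nat_lit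 5) (nat_lit 2) (nat_lit 4) (nat_lit 238) (nat_lit 189) (nat_lit 173)))) (XT.nd (nat_lit 156) (nat_lit 0) (nat_lit 0) (XT.nd (nat_lit 78) (nat_lit 0) (nat_lit 0) (XT.lf (nat_lit 0) (nat_lit 91183706373) (nat_lit 76) (nat_lit 138519720992) (nat_lit 76) (nat_lit 136604605276) (nat_lit 1) (nat_lit 4) (nat_lit 2) (nat_lit 5) (nat_lit 2) (nat_lit 4) (nat_lit 239) (nat_lit 189) (nat_lit 172)) (XT.lf (nat_lit 0) (nat_lit 106687731273) (nat_lit 76) (nat_lit 158172603164) (nat_lit 76) (nat_lit 156231896736) (nat_lit 1) (nat_lit 4) (nat_lit 2) (nat_lit 5) (nat_lit 2) (nat_lit 4) (nat_lit 240) (nat_lit 189) (nat_lit 171))) (XT.nd (nat_lit 78) (nat_lit 0) (nat_lit 0) (XT.lf (nat_lit 0) (nat_lit 124482097298) (nat_lit 76) (nat_lit 180789024588) (nat_lit 76) (nat_lit 178826065366) (nat_lit 1) (nat_lit 4) (nat_lit 2) (nat_lit 5) (nat_lit 2) (nat_lit 4) (nat_lit 241) (nat_lit 189) (nat_lit 170)) (XT.lf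 (nat_lit 0) (nat_lit 144914955085) (nat_lit 76) (nat_lit 206811480465) (nat_lit 76) (nat_lit 204829170987) (nat_lit 1) (nat_lit 4) (nat_lit 2) (nat_lit 5) (nat_lit 2) (nat_lit 4) (nat_lit 242) (nat_lit 189) (nat_lit 169))))) (XT.nd (nat_lit 312) (nat_lit 0) (nat_lit 0) (XT.nd (nat_lit 156) (nat_lit 0) (nat_lit 0) (XT.nd (nat_lit 78) (nat_lit 0) (nat_lit 0) (XT.lf (nat_lit 0) (nat_lit 168386077941) (nat_lit 76) (nat_lit 236749105801) (nat_lit 76) (nat_lit 234749970015) (nat_lit 1) (nat_lit 4) (nat_lit 2) (nat_lit 5) (nat_lit 2) (nat_lit 4) (nat_lit 243) (nat_lit 189) (nat_lit 168)) (XT.lf (nat_lit 0) (nat_lit 195354683486) (nat_lit 76) (nat_lit 271187636744) (nat_lit 76) (nat_lit 269173869385) (nat_lit 1) (nat_lit 4) (nat_lit 2) (nat_lit 5) (nat_lit 2) (nat_lit 4) (nat_lit 244) (nat_lit 189) (nat_lit 167))) (XT.nd (nat_lit 78) (nat_lit 0) (nat_lit 0) (XT.lf (nat_lit 0) (nat_lit 226348418350)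 (nat_lit 76) (nat_lit 310800870640) (nat_lit 76) (nat_lit 308774380174) (nat_lit 1) (nat_lit 4) (nat_lit 2) (nat_lit 5) (nat_lit 2) (nat_lit 4) (nat_lit 245) (nat_lit 189) (nat_lit 166)) (XT.lf (nat_lit 0) (nat_lit 261973681695) (nat_lit 76) (nat_lit 356363849020) (nat_lit 76) (nat_lit 354326294982) (nat_lit 1) (nat_lit 4) (nat_lit 2) (nat_lit 5) (nat_lit 2) (nat_lit 4) (nat_lit 246) (nat_lit 189) (nat_lit 165)))) (XT.nd (nat_lit 156) (nat_lit 0) (nat_lit 0) (XT.nd (nat_lit 78) (nat_lit 0) (nat_lit 0) (XT.lf (nat_lit 0) (nat_lit 302927489541) (nat_lit 76) (nat_lit 408768021462) (nat_lit 76) (nat_lit 406720846927) (nat_lit 1) (nat_lit 4) (nat_lit 2) (nat_lit 5) (nat_lit 2) (nat_lit 4) (nat_lit 247) (nat_lit 189) (nat_lit 164)) (XT.lf (nat_lit 0) (nat_lit 350011112042) (nat_lit 76) (nat_lit 469038686991) (nat_lit 76) (nat_lit 466983146807) (nat_lit 1) (nat_lit 4) (nat_lit 2) (nat_lit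 5) (nat_lit 2) (nat_lit 4) (nat_lit 248) (nat_lit 189) (nat_lit 163))) (XT.nd (nat_lit 78) (nat_lit 0) (nat_lit 0) (XT.lf (nat_lit 0) (nat_lit 404145750508) (nat_lit 76) (nat_lit 538355054281) (nat_lit 76) (nat_lit 536292239620) (nat_lit 1) (nat_lit 4) (nat_lit 2) (nat_lit 5) (nat_lit 2) (nat_lit 4) (nat_lit 249) (nat_lit 189) (nat_lit 162)) (XT.lf (nat_lit 0) (nat_lit 466390560909) (nat_lit 76) (nat_lit 618073313128) (nat_lit 76) (nat_lit 616004172834) (nat_lit 1) (nat_lit 4) (nat_lit 2) (nat_lit 5) (nat_lit 2) (nat_lit 4) (nat_lit 250) (nat_lit 189) (nat_lit 161))))))))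
noncomputable def xc14 : XT := (XT.nd (nat_lit 29094) (nat_lit 0) (nat_lit 0) (XT.nd (nat_lit 1248) (nat_lit 0) (nat_lit 0) (XT.nd (nat_lit 624) (nat_lit 0) (nat_lit 0) (XT.nd (nat_lit 312) (nat_lit 0) (nat_lit 0) (XT.nd (nat_lit 156) (nat_lit 0) (nat_lit 0) (XT.nd (nat_lit 78) (nat_lit 0) (nat_lit 0) (XT.lf (nat_lit 0) (nat_lit 537963376493) (nat_lit 76) (nat_lit 709753168594) (nat_lit 76) (nat_lit 707678527750) (nat_lit 1) (nat_lit 4) (nat_lit 2) (nat_lit 5) (nat_lit 2) (nat_lit 4) (nat_lit 251) (nat_lit 189) (nat_lit 160)) (XT.lf (nat_lit 0) (nat_lit 620264534954) (nat_lit 76) (nat_lit 815188356984) (nat_lit 76) (nat_lit 813108933052) (nat_lit 1) (nat_lit 4) (nat_lit 2) (nat_lit 5) (nat_lit 2) (nat_lit 4) (nat_lit 252) (nat_lit 189) (nat_lit 159))) (XT.nd (nat_lit 78) (nat_lit 0) (nat_lit 0) (XT.lf (nat_lit 0) (nat_lit 714904276351) (nat_lit 76) (nat_lit 936441740677) (nat_lit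 76) (nat_lit 934358157540) (nat_lit 1) (nat_lit 4) (nat_lit 2) (nat_lit 5) (nat_lit 2) (nat_lit 4) (nat_lit 253) (nat_lit 189) (nat_lit 158)) (XT.lf (nat_lit 0) (nat_lit 823734247797) (nat_lit 76) (nat_lit 1075885668487) (nat_lit 76) (nat_lit 1073798468648) (nat_lit 1) (nat_lit 4) (nat_lit 2) (nat_lit 5) (nat_lit 2) (nat_lit 4) (nat_lit 254) (nat_lit 189) (nat_lit 157)))) (XT.nd (nat_lit 156) (nat_lit 0) (nat_lit 0) (XT.nd (nat_lit 78) (nat_lit 0) (nat_lit 0) (XT.lf (nat_lit 0) (nat_lit 948883731342) (nat_lit 76) (nat_lit 1236248391174) (nat_lit 76) (nat_lit 1234158046378) (nat_lit 1) (nat_lit 4) (nat_lit 2) (nat_lit 5) (nat_lit 2) (nat_lit 4) (nat_lit 255) (nat_lit 189) (nat_lit 156)) (XT.lf (nat_lit 0) (nat_lit 1092801303839) (nat_lit 76) (nat_lit 1420667440269) (nat_lit 76) (nat_lit 1418574360727) (nat_lit 1) (nat_lit 4) (nat_lit 2) (nat_lit 5) (nat_lit 2) (nat_lit 4) (nat_lit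 256) (nat_lit 189) (nat_lit 155))) (XT.nd (nat_lit 78) (nat_lit 0) (nat_lit 0) (XT.lf (nat_lit 0) (nat_lit 1258302743880) (nat_lit 76) (nat_lit 1632751014558) (nat_lit 76) (nat_lit 1630655556977) (nat_lit 1) (nat_lit 4) (nat_lit 2) (nat_lit 5) (nat_lit 2) (nat_lit 4) (nat_lit 257) (nat_lit 189) (nat_lit 154)) (XT.lf (nat_lit 0) (nat_lit 1448626123117) (nat_lit 76) (nat_lit 1876648575279) (nat_lit 76) (nat_lit 1874551049837) (nat_lit 1) (nat_lit 4) (nat_lit 2) (nat_lit 5) (nat_lit 2) (nat_lit 4) (nat_lit 258) (nat_lit 189) (nat_lit 153))))) (XT.nd (nat_lit 312) (nat_lit 0) (nat_lit 0) (XT.nd (nat_lit 156) (nat_lit 0) (nat_lit 0) (XT.nd (nat_lit 78) (nat_lit 0) (nat_lit 0) (XT.lf (nat_lit 0) (nat_lit 1667495159840) (nat_lit 76) (nat_lit 2157132031227) (nat_lit 76) (nat_lit 2155032707645) (nat_lit 1) (nat_lit 4) (nat_lit 2) (nat_lit 5) (nat_lit 2) (nat_lit 4) (nat_lit 259) (nat_lit 189)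 (nat_lit 152)) (XT.lf (nat_lit 0) (nat_lit 1919192074333) (nat_lit 76) (nat_lit 2479689102193) (nat_lit 76) (nat_lit 2477588215012) (nat_lit 1) (nat_lit 4) (nat_lit 2) (nat_lit 5) (nat_lit 2) (nat_lit 4) (nat_lit 260) (nat_lit 189) (nat_lit 151))) (XT.nd (nat_lit 78) (nat_lit 0) (nat_lit 0) (XT.lf (nat_lit 0) (nat_lit 2208641371445) (nat_lit 76) (nat_lit 2850630687391) (nat_lit 76) (nat_lit 2848528440558) (nat_lit 1) (nat_lit 4) (nat_lit 2) (nat_lit 5) (nat_lit 2) (nat_lit 4) (nat_lit 261) (nat_lit 189) (nat_lit 150)) (XT.lf (nat_lit 0) (nat_lit 2541506189597) (nat_lit 76) (nat_lit 3277214339576) (nat_lit 76) (nat_lit 3275110910437) (nat_lit 1) (nat_lit 4) (nat_lit 2) (nat_lit 5) (nat_lit 2) (nat_lit 4) (nat_lit 262) (nat_lit 189) (nat_lit 149)))) (XT.nd (nat_lit 156) (nat_lit 0) (nat_lit 0) (XT.nd (nat_lit 78) (nat_lit 0) (nat_lit 0) (XT.lf (nat_lit 0) (nat_lit 2924299101319) (nat_lit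 76) (nat_lit 3767786260638) (nat_lit 76) (nat_lit 3765681803406) (nat_lit 1) (nat_lit 4) (nat_lit 2) (nat_lit 5) (nat_lit 2) (nat_lit 4) (nat_lit 263) (nat_lit 189) (nat_lit 148)) (XT.lf (nat_lit 0) (nat_lit 3364509533143) (nat_lit 76) (nat_lit 4331944596858) (nat_lit 76) (nat_lit 4329839245633) (nat_lit 1) (nat_lit 4) (nat_lit 2) (nat_lit 5) (nat_lit 2) (nat_lit 4) (nat_lit 264) (nat_lit 189) (nat_lit 147))) (XT.nd (nat_lit 78) (nat_lit 0) (nat_lit 0) (XT.lf (nat_lit 0) (nat_lit 3870750297868) (nat_lit 76) (nat_lit 4980727228727) (nat_lit 76) (nat_lit 4978621100117) (nat_lit 1) (nat_lit 4) (nat_lit 2) (nat_lit 5) (nat_lit 2) (nat_lit 4) (nat_lit 265) (nat_lit 189) (nat_lit 146)) (XT.lf (nat_lit 0) (nat_lit 4452926106106) (nat_lit 76) (nat_lit 5726827729479) (nat_lit 76) (nat_lit 5724720924882) (nat_lit 1) (nat_lit 4) (nat_lit 2) (nat_lit 5) (nat_lit 2) (nat_lit 4) (nat_lit 266) (nat_lit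 189) (nat_lit 145)))))) (XT.nd (nat_lit 624) (nat_lit 0) (nat_lit 0) (XT.nd (nat_lit 312) (nat_lit 0) (nat_lit 0) (XT.nd (nat_lit 156) (nat_lit 0) (nat_lit 0) (XT.nd (nat_lit 78) (nat_lit 0) (nat_lit 0) (XT.lf (nat_lit 0) (nat_lit 5122427354106) (nat_lit 76) (nat_lit 6584843717606) (nat_lit 76) (nat_lit 6582736325193) (nat_lit 1) (nat_lit 4) (nat_lit 2) (nat_lit 5) (nat_lit 2) (nat_lit 4) (nat_lit 267) (nat_lit 189) (nat_lit 144)) (XT.lf (nat_lit 0) (nat_lit 5892352979329) (nat_lit 76) (nat_lit 7571562462440) (nat_lit 76) (nat_lit 7569454558884) (nat_lit 1) (nat_lit 4) (nat_lit 2) (nat_lit 5) (nat_lit 2) (nat_lit 4) (nat_lit 268) (nat_lit 189) (nat_lit 143))) (XT.nd (nat_lit 78) (nat_lit 0) (nat_lit 0) (XT.lf (nat_lit 0) (nat_lit 6777766744007) (nat_lit 76) (nat_lit 8706289330730) (nat_lit 76) (nat_lit 8704180982701) (nat_lit 1) (nat_lit 4) (nat_lit 2) (nat_lit 5) (nat_lit 2) (nat_lit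 4) (nat_lit 269) (nat_lit 189) (nat_lit 142)) (XT.lf (nat_lit 0) (nat_lit 7795991960928) (nat_lit 76) (nat_lit 10011225500331) (nat_lit 76) (nat_lit 10009116765805) (nat_lit 1) (nat_lit 4) (nat_lit 2) (nat_lit 5) (nat_lit 2) (nat_lit 4) (nat_lit 270) (nat_lit 189) (nat_lit 141)))) (XT.nd (nat_lit 156) (nat_lit 0) (nat_lit 0) (XT.nd (nat_lit 78) (nat_lit 0) (nat_lit 0) (XT.lf (nat_lit 0) (nat_lit 8966950427814) (nat_lit 76) (nat_lit 11511902331085) (nat_lit 76) (nat_lit 11509793260474) (nat_lit 1) (nat_lit 4) (nat_lit 2) (nat_lit 5) (nat_lit 2) (nat_lit 4) (nat_lit 271) (nat_lit 189) (nat_lit 140)) (XT.lf (nat_lit 0) (nat_lit 10313552201626) (nat_lit 76) (nat_lit 13237680891420) (nat_lit 76) (nat_lit 13235571528560) (nat_lit 1) (nat_lit 4) (nat_lit 2) (nat_lit 5) (nat_lit 2) (nat_lit 4) (nat_lit 272) (nat_lit 189) (nat_lit 139))) (XT.nd (nat_lit 78) (nat_lit 0) (nat_lit 0) (XT.lf (nat_lit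 0) (nat_lit 11862143838808) (nat_lit 76) (nat_lit 15222326414037) (nat_lit 76) (nat_lit 15220216797048) (nat_lit 1) (nat_lit 4) (nat_lit 2) (nat_lit 5) (nat_lit 2) (nat_lit 4) (nat_lit 273) (nat_lit 189) (nat_lit 138)) (XT.lf (nat_lit 0) (nat_lit 13643023871392) (nat_lit 76) (nat_lit 17504668920031) (nat_lit 76) (nat_lit 17502559082061) (nat_lit 1) (nat_lit 4) (nat_lit 2) (nat_lit 5) (nat_lit 2) (nat_lit 4) (nat_lit 274) (nat_lit 189) (nat_lit 137))))) (XT.nd (nat_lit 312) (nat_lit 0) (nat_lit 0) (XT.nd (nat_lit 156) (nat_lit 0) (nat_lit 0) (XT.nd (nat_lit 78) (nat_lit 0) (nat_lit 0) (XT.lf (nat_lit 0) (nat_lit 15691035604362) (nat_lit 76) (nat_lit 20129362936693) (nat_lit 76) (nat_lit 20127252906566) (nat_lit 1) (nat_lit 4) (nat_lit 2) (nat_lit 5) (nat_lit 2) (nat_lit 4) (nat_lit 275) (nat_lit 189) (nat_lit 136)) (XT.lf (nat_lit 0) (nat_lit 18046248832496) (nat_lit 76) (nat_lit 23147761173046)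 (nat_lit 76) (nat_lit 23145650975824) (nat_lit 1) (nat_lit 4) (nat_lit 2) (nat_lit 5) (nat_lit 2) (nat_lit 4) (nat_lit 276) (nat_lit 189) (nat_lit 135))) (XT.nd (nat_lit 78) (nat_lit 0) (nat_lit 0) (XT.lf (nat_lit 0) (nat_lit 20754743814603) (nat_lit 76) (nat_lit 26618919246756) (nat_lit 76) (nat_lit 26616808904236) (nat_lit 1) (nat_lit 4) (nat_lit 2) (nat_lit 5) (nat_lit 2) (nat_lit 4) (nat_lit 277) (nat_lit 189) (nat_lit 134)) (XT.lf (nat_lit 0) (nat_lit 23869512843813) (nat_lit 76) (nat_lit 30610751120135) (nat_lit 76) (nat_lit 30608640651269) (nat_lit 1) (nat_lit 4) (nat_lit 2) (nat_lit 5) (nat_lit 2) (nat_lit 4) (nat_lit 278) (nat_lit 189) (nat_lit 133)))) (XT.nd (nat_lit 26754) (nat_lit 0) (nat_lit 76) (XT.nd (nat_lit 26676) (nat_lit 0) (nat_lit 76) (XT.lf (nat_lit 0) (nat_lit 27451497053305) (nat_lit 76) (nat_lit 35201357851577) (nat_lit 76) (nat_lit 35199247272843) (nat_lit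 1) (nat_lit 4) (nat_lit 2) (nat_lit 5) (nat_lit 2) (nat_lit 4) (nat_lit 279) (nat_lit 189) (nat_lit 132)) (XT.lf (nat_lit 0) (nat_lit 3126783807) (nat_lit 152) (nat_lit 7586952067) (nat_lit 0) (nat_lit 3126783807) (nat_lit 2) (nat_lit 5) (nat_lit 4) (nat_lit 4) (nat_lit 2) (nat_lit 4) (nat_lit 220) (nat_lit 190) (nat_lit 190))) (XT.nd (nat_lit 78) (nat_lit 0) (nat_lit 0) (XT.lf (nat_lit 0) (nat_lit 9477170736) (nat_lit 152) (nat_lit 12771957621) (nat_lit 0) (nat_lit 9160474059) (nat_lit 2) (nat_lit 5) (nat_lit 4) (nat_lit 4) (nat_lit 2) (nat_lit 4) (nat_lit 221) (nat_lit 190) (nat_lit 189)) (XT.lf (nat_lit 0) (nat_lit 12959136315) (nat_lit 152) (nat_lit 10407259411) (nat_lit 0) (nat_lit 12367051224) (nat_lit 2) (nat_lit 5) (nat_lit 4) (nat_lit 4) (nat_lit 2) (nat_lit 4) (nat_lit 222) (nat_lit 190) (nat_lit 188))))))) (XT.nd (nat_lit 1248) (nat_lit 0) (nat_lit 0) (XT.nd (nat_lit 624)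 (nat_lit 0) (nat_lit 0) (XT.nd (nat_lit 312) (nat_lit 76) (nat_lit 0) (XT.nd (nat_lit 156) (nat_lit 0) (nat_lit 0) (XT.nd (nat_lit 78) (nat_lit 0) (nat_lit 0) (XT.lf (nat_lit 0) (nat_lit 16767589765) (nat_lit 152) (nat_lit 8033543670) (nat_lit 0) (nat_lit 15936036487) (nat_lit 2) (nat_lit 5) (nat_lit 4) (nat_lit 4) (nat_lit 2) (nat_lit 4) (nat_lit 223) (nat_lit 190) (nat_lit 187)) (XT.lf (nat_lit 0) (nat_lit 20977044305) (nat_lit 152) (nat_lit 5604368132) (nat_lit 0) (nat_lit 19937257820) (nat_lit 2) (nat_lit 5) (nat_lit 4) (nat_lit 4) (nat_lit 2) (nat_lit 4) (nat_lit 224) (nat_lit 190) (nat_lit 186))) (XT.nd (nat_lit 78) (nat_lit 0) (nat_lit 0) (XT.lf (nat_lit 0) (nat_lit 25669858827) (nat_lit 152) (nat_lit 3072205452) (nat_lit 0) (nat_lit 24448999990) (nat_lit 2) (nat_lit 5) (nat_lit 4) (nat_lit 4) (nat_lit 2) (nat_lit 4) (nat_lit 225) (nat_lit 190) (nat_lit 185)) (XT.lf (nat_lit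 0) (nat_lit 30937849270) (nat_lit 152) (nat_lit 387513315) (nat_lit 0) (nat_lit 29559536213) (nat_lit 2) (nat_lit 5) (nat_lit 4) (nat_lit 4) (nat_lit 2) (nat_lit 4) (nat_lit 226) (nat_lit 190) (nat_lit 184)))) (XT.nd (nat_lit 156) (nat_lit 0) (nat_lit 0) (XT.nd (nat_lit 78) (nat_lit 0) (nat_lit 0) (XT.lf (nat_lit 0) (nat_lit 2746771453) (nat_lit 76) (nat_lit 34251051505) (nat_lit 76) (nat_lit 32735821735) (nat_lit 1) (nat_lit 4) (nat_lit 2) (nat_lit 5) (nat_lit 2) (nat_lit 4) (nat_lit 227) (nat_lit 190) (nat_lit 183)) (XT.lf (nat_lit 0) (nat_lit 6206086360) (nat_lit 76) (nat_lit 37675799884) (nat_lit 76) (nat_lit 36041512103) (nat_lit 1) (nat_lit 4) (nat_lit 2) (nat_lit 5) (nat_lit 2) (nat_lit 4) (nat_lit 228) (nat_lit 190) (nat_lit 182))) (XT.nd (nat_lit 78) (nat_lit 0) (nat_lit 0) (XT.lf (nat_lit 0) (nat_lit 10020243034) (nat_lit 76) (nat_lit 41686870045) (nat_lit 76) (nat_lit 39949053559)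 (nat_lit 1) (nat_lit 4) (nat_lit 2) (nat_lit 5) (nat_lit 2) (nat_lit 4) (nat_lit 229) (nat_lit 190) (nat_lit 181)) (XT.lf (nat_lit 0) (nat_lit 14263866281) (nat_lit 76) (nat_lit 46362739450) (nat_lit 76) (nat_lit 44534898002) (nat_lit 1) (nat_lit 4) (nat_lit 2) (nat_lit 5) (nat_lit 2) (nat_lit 4) (nat_lit 230) (nat_lit 190) (nat_lit 180))))) (XT.nd (nat_lit 312) (nat_lit 0) (nat_lit 0) (XT.nd (nat_lit 156) (nat_lit 0) (nat_lit 0) (XT.nd (nat_lit 78) (nat_lit 0) (nat_lit 0) (XT.lf (nat_lit 0) (nat_lit 19019983512) (nat_lit 76) (nat_lit 51794892499) (nat_lit 76) (nat_lit 49888768476) (nat_lit 1) (nat_lit 4) (nat_lit 2) (nat_lit 5) (nat_lit 2) (nat_lit 4) (nat_lit 231) (nat_lit 190) (nat_lit 179)) (XT.lf (nat_lit 0) (nat_lit 24381649193) (nat_lit 76) (nat_lit 58089610447) (nat_lit 76) (nat_lit 56115414620) (nat_lit 1) (nat_lit 4) (nat_lit 2) (nat_lit 5) (nat_lit 2) (nat_lit 4) (nat_lit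 232) (nat_lit 190) (nat_lit 178))) (XT.nd (nat_lit 78) (nat_lit 0) (nat_lit 0) (XT.lf (nat_lit 0) (nat_lit 30453765481) (nat_lit 76) (nat_lit 65370050819) (nat_lit 76) (nat_lit 63336662119) (nat_lit 1) (nat_lit 4) (nat_lit 2) (nat_lit 5) (nat_lit 2) (nat_lit 4) (nat_lit 233) (nat_lit 190) (nat_lit 177)) (XT.lf (nat_lit 0) (nat_lit 37355134649) (nat_lit 76) (nat_lit 73778657015) (nat_lit 76) (nat_lit 71693796251) (nat_lit 1) (nat_lit 4) (nat_lit 2) (nat_lit 5) (nat_lit 2) (nat_lit 4) (nat_lit 234) (nat_lit 190) (nat_lit 176)))) (XT.nd (nat_lit 156) (nat_lit 0) (nat_lit 0) (XT.nd (nat_lit 78) (nat_lit 0) (nat_lit 0) (XT.lf (nat_lit 0) (nat_lit 45220783486) (nat_lit 76) (nat_lit 83479945242) (nat_lit 76) (nat_lit 81350326161) (nat_lit 1) (nat_lit 4) (nat_lit 2) (nat_lit 5) (nat_lit 2) (nat_lit 4) (nat_lit 235) (nat_lit 190) (nat_lit 175)) (XT.lf (nat_lit 0) (nat_lit 54204605121) (nat_lit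 76) (nat_lit 94663723313) (nat_lit 76) (nat_lit 92495183957) (nat_lit 1) (nat_lit 4) (nat_lit 2) (nat_lit 5) (nat_lit 2) (nat_lit 4) (nat_lit 236) (nat_lit 190) (nat_lit 174))) (XT.nd (nat_lit 78) (nat_lit 0) (nat_lit 0) (XT.lf (nat_lit 0) (nat_lit 64482369978) (nat_lit 76) (nat_lit 107548804278) (nat_lit 76) (nat_lit 105346421205) (nat_lit 1) (nat_lit 4) (nat_lit 2) (nat_lit 5) (nat_lit 2) (nat_lit 4) (nat_lit 237) (nat_lit 190) (nat_lit 173)) (XT.lf (nat_lit 0) (nat_lit 76255164761) (nat_lit 76) (nat_lit 122387287546) (nat_lit 76) (nat_lit 120155475154) (nat_lit 1) (nat_lit 4) (nat_lit 2) (nat_lit 5) (nat_lit 2) (nat_lit 4) (nat_lit 238) (nat_lit 190) (nat_lit 172)))))) (XT.nd (nat_lit 624) (nat_lit 0) (nat_lit 0) (XT.nd (nat_lit 312) (nat_lit 0) (nat_lit 0) (XT.nd (nat_lit 156) (nat_lit 0) (nat_lit 0) (XT.nd (nat_lit 78) (nat_lit 0) (nat_lit 0) (XT.lf (nat_lit 0) (nat_lit 89753326758)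 (nat_lit 76) (nat_lit 139469491270) (nat_lit 76) (nat_lit 137212088164) (nat_lit 1) (nat_lit 4) (nat_lit 2) (nat_lit 5) (nat_lit 2) (nat_lit 4) (nat_lit 239) (nat_lit 190) (nat_lit 171)) (XT.lf (nat_lit 0) (nat_lit 105240950444) (nat_lit 76) (nat_lit 159129632477) (nat_lit 76) (nat_lit 156849976578) (nat_lit 1) (nat_lit 4) (nat_lit 2) (nat_lit 5) (nat_lit 2) (nat_lit 4) (nat_lit 240) (nat_lit 190) (nat_lit 170))) (XT.nd (nat_lit 78) (nat_lit 0) (nat_lit 0) (XT.lf (nat_lit 0) (nat_lit 123021054543) (nat_lit 76) (nat_lit 181752366105) (nat_lit 76) (nat_lit 179453359951) (nat_lit 1) (nat_lit 4) (nat_lit 2) (nat_lit 5) (nat_lit 2) (nat_lit 4) (nat_lit 241) (nat_lit 190) (nat_lit 169)) (XT.lf (nat_lit 0) (nat_lit 143441510656) (nat_lit 76) (nat_lit 207780310855) (nat_lit 76) (nat_lit 205464478392) (nat_lit 1) (nat_lit 4) (nat_lit 2) (nat_lit 5) (nat_lit 2) (nat_lit 4) (nat_lit 242) (nat_lit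 190) (nat_lit 168)))) (XT.nd (nat_lit 156) (nat_lit 0) (nat_lit 0) (XT.nd (nat_lit 78) (nat_lit 0) (nat_lit 0) (XT.lf (nat_lit 0) (nat_lit 166901849447) (nat_lit 76) (nat_lit 237722709125) (nat_lit 76) (nat_lit 235392245089) (nat_lit 1) (nat_lit 4) (nat_lit 2) (nat_lit 5) (nat_lit 2) (nat_lit 4) (nat_lit 243) (nat_lit 190) (nat_lit 167)) (XT.lf (nat_lit 0) (nat_lit 193861077544) (nat_lit 76) (nat_lit 272165390446) (nat_lit 76) (nat_lit 269822203303) (nat_lit 1) (nat_lit 4) (nat_lit 2) (nat_lit 5) (nat_lit 2) (nat_lit 4) (nat_lit 244) (nat_lit 190) (nat_lit 166))) (XT.nd (nat_lit 78) (nat_lit 0) (nat_lit 0) (XT.lf (nat_lit 0) (nat_lit 224846658106) (nat_lit 76) (nat_lit 311782233365) (nat_lit 76) (nat_lit 309427982650) (nat_lit 1) (nat_lit 4) (nat_lit 2) (nat_lit 5) (nat_lit 2) (nat_lit 4) (nat_lit 245) (nat_lit 190) (nat_lit 165)) (XT.lf (nat_lit 0) (nat_lit 260464830753) (nat_lit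 76) (nat_lit 357348350026) (nat_lit 76) (nat_lit 354984478815) (nat_lit 1) (nat_lit 4) (nat_lit 2) (nat_lit 5) (nat_lit 2) (nat_lit 4) (nat_lit 246) (nat_lit 190) (nat_lit 164))))) (XT.nd (nat_lit 312) (nat_lit 0) (nat_lit 0) (XT.nd (nat_lit 156) (nat_lit 0) (nat_lit 0) (XT.nd (nat_lit 78) (nat_lit 0) (nat_lit 0) (XT.lf (nat_lit 0) (nat_lit 301412472775) (nat_lit 76) (nat_lit 409755251408) (nat_lit 76) (nat_lit 407383014547) (nat_lit 1) (nat_lit 4) (nat_lit 2) (nat_lit 5) (nat_lit 2) (nat_lit 4) (nat_lit 247) (nat_lit 190) (nat_lit 163)) (XT.lf (nat_lit 0) (nat_lit 348490733690) (nat_lit 76) (nat_lit 470028289929) (nat_lit 76) (nat_lit 467648778590) (nat_lit 1) (nat_lit 4) (nat_lit 2) (nat_lit 5) (nat_lit 2) (nat_lit 4) (nat_lit 248) (nat_lit 190) (nat_lit 162))) (XT.nd (nat_lit 78) (nat_lit 0) (nat_lit 0) (XT.lf (nat_lit 0) (nat_lit 402620709907) (nat_lit 76) (nat_lit 539346720690)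 (nat_lit 76) (nat_lit 536960883719) (nat_lit 1) (nat_lit 4) (nat_lit 2) (nat_lit 5) (nat_lit 2) (nat_lit 4) (nat_lit 249) (nat_lit 190) (nat_lit 161)) (XT.lf (nat_lit 0) (nat_lit 464861466179) (nat_lit 76) (nat_lit 619066773859) (nat_lit 76) (nat_lit 616675436337) (nat_lit 1) (nat_lit 4) (nat_lit 2) (nat_lit 5) (nat_lit 2) (nat_lit 4) (nat_lit 250) (nat_lit 190) (nat_lit 160)))) (XT.nd (nat_lit 156) (nat_lit 0) (nat_lit 0) (XT.nd (nat_lit 78) (nat_lit 0) (nat_lit 0) (XT.lf (nat_lit 0) (nat_lit 536430756433) (nat_lit 76) (nat_lit 710748189605) (nat_lit 76) (nat_lit 708352068997) (nat_lit 1) (nat_lit 4) (nat_lit 2) (nat_lit 5) (nat_lit 2) (nat_lit 4) (nat_lit 251) (nat_lit 190) (nat_lit 159)) (XT.lf (nat_lit 0) (nat_lit 618728849390) (nat_lit 76) (nat_lit 816184734760) (nat_lit 76) (nat_lit 813784454946) (nat_lit 1) (nat_lit 4) (nat_lit 2) (nat_lit 5) (nat_lit 2) (nat_lit 4) (nat_lit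 252) (nat_lit 190) (nat_lit 158))) (XT.nd (nat_lit 78) (nat_lit 0) (nat_lit 0) (XT.lf (nat_lit 0) (nat_lit 713365925131) (nat_lit 76) (nat_lit 937439298250) (nat_lit 76) (nat_lit 935035401735) (nat_lit 1) (nat_lit 4) (nat_lit 2) (nat_lit 5) (nat_lit 2) (nat_lit 4) (nat_lit 253) (nat_lit 190) (nat_lit 157)) (XT.lf (nat_lit 0) (nat_lit 822193578615) (nat_lit 76) (nat_lit 1076884251970) (nat_lit 76) (nat_lit 1074477210497) (nat_lit 1) (nat_lit 4) (nat_lit 2) (nat_lit 5) (nat_lit 2) (nat_lit 4) (nat_lit 254) (nat_lit 190) (nat_lit 156))))))))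
noncomputable def xc15 : XT := (XT.nd (nat_lit 1248) (nat_lit 0) (nat_lit 0) (XT.nd (nat_lit 624) (nat_lit 0) (nat_lit 0) (XT.nd (nat_lit 312) (nat_lit 0) (nat_lit 0) (XT.nd (nat_lit 156) (nat_lit 0) (nat_lit 0) (XT.nd (nat_lit 78) (nat_lit 0) (nat_lit 0) (XT.lf (nat_lit 0) (nat_lit 947341046542) (nat_lit 76) (nat_lit 1237247866752) (nat_lit 76) (nat_lit 1234838090533) (nat_lit 1) (nat_lit 4) (nat_lit 2) (nat_lit 5) (nat_lit 2) (nat_lit 4) (nat_lit 255) (nat_lit 190) (nat_lit 155)) (XT.lf (nat_lit 0) (nat_lit 1091256866327) (nat_lit 76) (nat_lit 1421667691582) (nat_lit 76) (nat_lit 1419255537324) (nat_lit 1) (nat_lit 4) (nat_lit 2) (nat_lit 5) (nat_lit 2) (nat_lit 4) (nat_lit 256) (nat_lit 190) (nat_lit 154))) (XT.nd (nat_lit 78) (nat_lit 0) (nat_lit 0) (XT.lf (nat_lit 0) (nat_lit 1256756782270) (nat_lit 76) (nat_lit 1633751940424) (nat_lit 76) (nat_lit 1631337718305) (nat_lit 1)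 (nat_lit 4) (nat_lit 2) (nat_lit 5) (nat_lit 2) (nat_lit 4) (nat_lit 257) (nat_lit 190) (nat_lit 153)) (XT.lf (nat_lit 0) (nat_lit 1447078836205) (nat_lit 76) (nat_lit 1877650087712) (nat_lit 76) (nat_lit 1875234067453) (nat_lit 1) (nat_lit 4) (nat_lit 2) (nat_lit 5) (nat_lit 2) (nat_lit 4) (nat_lit 258) (nat_lit 190) (nat_lit 152)))) (XT.nd (nat_lit 156) (nat_lit 0) (nat_lit 0) (XT.nd (nat_lit 78) (nat_lit 0) (nat_lit 0) (XT.lf (nat_lit 0) (nat_lit 1665946720492) (nat_lit 76) (nat_lit 2158134053718) (nat_lit 76) (nat_lit 2155716469860) (nat_lit 1) (nat_lit 4) (nat_lit 2) (nat_lit 5) (nat_lit 2) (nat_lit 4) (nat_lit 259) (nat_lit 190) (nat_lit 151)) (XT.lf (nat_lit 0) (nat_lit 1917642632866) (nat_lit 76) (nat_lit 2480691568213) (nat_lit 76) (nat_lit 2478272624703) (nat_lit 1) (nat_lit 4) (nat_lit 2) (nat_lit 5) (nat_lit 2) (nat_lit 4) (nat_lit 260) (nat_lit 190) (nat_lit 150))) (XT.nd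 (nat_lit 78) (nat_lit 0) (nat_lit 0) (XT.lf (nat_lit 0) (nat_lit 2207091058570) (nat_lit 76) (nat_lit 2851633539089) (nat_lit 76) (nat_lit 2849213413273) (nat_lit 1) (nat_lit 4) (nat_lit 2) (nat_lit 5) (nat_lit 2) (nat_lit 4) (nat_lit 261) (nat_lit 190) (nat_lit 149)) (XT.lf (nat_lit 0) (nat_lit 2539955118977) (nat_lit 76) (nat_lit 3278217526645) (nat_lit 76) (nat_lit 3275796372737) (nat_lit 1) (nat_lit 4) (nat_lit 2) (nat_lit 5) (nat_lit 2) (nat_lit 4) (nat_lit 262) (nat_lit 190) (nat_lit 148))))) (XT.nd (nat_lit 312) (nat_lit 0) (nat_lit 0) (XT.nd (nat_lit 156) (nat_lit 0) (nat_lit 0) (XT.nd (nat_lit 78) (nat_lit 0) (nat_lit 0) (XT.lf (nat_lit 0) (nat_lit 2922747371789) (nat_lit 76) (nat_lit 3768789739335) (nat_lit 76) (nat_lit 3766367691433) (nat_lit 1) (nat_lit 4) (nat_lit 2) (nat_lit 5) (nat_lit 2) (nat_lit 4) (nat_lit 263) (nat_lit 190) (nat_lit 147)) (XT.lf (nat_lit 0) (nat_lit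 3362957230649) (nat_lit 76) (nat_lit 4332948329144) (nat_lit 76) (nat_lit 4330525503857) (nat_lit 1) (nat_lit 4) (nat_lit 2) (nat_lit 5) (nat_lit 2) (nat_lit 4) (nat_lit 264) (nat_lit 190) (nat_lit 146))) (XT.nd (nat_lit 78) (nat_lit 0) (nat_lit 0) (XT.lf (nat_lit 0) (nat_lit 3869197497143) (nat_lit 76) (nat_lit 4981731181526) (nat_lit 76) (nat_lit 4979307680252) (nat_lit 1) (nat_lit 4) (nat_lit 2) (nat_lit 5) (nat_lit 2) (nat_lit 4) (nat_lit 265) (nat_lit 190) (nat_lit 145)) (XT.lf (nat_lit 0) (nat_lit 4451372872137) (nat_lit 76) (nat_lit 5727831874027) (nat_lit 76) (nat_lit 5725407784938) (nat_lit 1) (nat_lit 4) (nat_lit 2) (nat_lit 5) (nat_lit 2) (nat_lit 4) (nat_lit 266) (nat_lit 190) (nat_lit 144)))) (XT.nd (nat_lit 156) (nat_lit 0) (nat_lit 0) (XT.nd (nat_lit 78) (nat_lit 0) (nat_lit 0) (XT.lf (nat_lit 0) (nat_lit 5120873743404) (nat_lit 76) (nat_lit 6585848028893) (nat_lit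 76) (nat_lit 6583423428660) (nat_lit 1) (nat_lit 4) (nat_lit 2) (nat_lit 5) (nat_lit 2) (nat_lit 4) (nat_lit 267) (nat_lit 190) (nat_lit 143)) (XT.lf (nat_lit 0) (nat_lit 5890799041032) (nat_lit 76) (nat_lit 7572566918718) (nat_lit 76) (nat_lit 7570141874013) (nat_lit 1) (nat_lit 4) (nat_lit 2) (nat_lit 5) (nat_lit 2) (nat_lit 4) (nat_lit 268) (nat_lit 190) (nat_lit 142))) (XT.nd (nat_lit 78) (nat_lit 0) (nat_lit 0) (XT.lf (nat_lit 0) (nat_lit 6776212520846) (nat_lit 76) (nat_lit 8707293913086) (nat_lit 76) (nat_lit 8704868481883) (nat_lit 1) (nat_lit 4) (nat_lit 2) (nat_lit 5) (nat_lit 2) (nat_lit 4) (nat_lit 269) (nat_lit 190) (nat_lit 141)) (XT.lf (nat_lit 0) (nat_lit 7794437490059) (nat_lit 76) (nat_lit 10012230192321) (nat_lit 76) (nat_lit 10009804425033) (nat_lit 1) (nat_lit 4) (nat_lit 2) (nat_lit 5) (nat_lit 2) (nat_lit 4) (nat_lit 270) (nat_lit 190) (nat_lit 140)))))) (XT.nd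 (nat_lit 27144) (nat_lit 0) (nat_lit 76) (XT.nd (nat_lit 312) (nat_lit 0) (nat_lit 0) (XT.nd (nat_lit 156) (nat_lit 0) (nat_lit 0) (XT.nd (nat_lit 78) (nat_lit 0) (nat_lit 0) (XT.lf (nat_lit 0) (nat_lit 8965395741546) (nat_lit 76) (nat_lit 11512907118409) (nat_lit 76) (nat_lit 11510481058872) (nat_lit 1) (nat_lit 4) (nat_lit 2) (nat_lit 5) (nat_lit 2) (nat_lit 4) (nat_lit 271) (nat_lit 190) (nat_lit 139)) (XT.lf (nat_lit 0) (nat_lit 10311997328055) (nat_lit 76) (nat_lit 13238685761642) (nat_lit 76) (nat_lit 13236259447977) (nat_lit 1) (nat_lit 4) (nat_lit 2) (nat_lit 5) (nat_lit 2) (nat_lit 4) (nat_lit 272) (nat_lit 190) (nat_lit 138))) (XT.nd (nat_lit 78) (nat_lit 0) (nat_lit 0) (XT.lf (nat_lit 0) (nat_lit 11860588802364) (nat_lit 76) (nat_lit 15223331356345) (nat_lit 76) (nat_lit 15220904821698) (nat_lit 1) (nat_lit 4) (nat_lit 2) (nat_lit 5) (nat_lit 2) (nat_lit 4) (nat_lit 273)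 (nat_lit 190) (nat_lit 137)) (XT.lf (nat_lit 0) (nat_lit 13641468693320) (nat_lit 76) (nat_lit 17505673925022) (nat_lit 76) (nat_lit 17503247198218) (nat_lit 1) (nat_lit 4) (nat_lit 2) (nat_lit 5) (nat_lit 2) (nat_lit 4) (nat_lit 274) (nat_lit 190) (nat_lit 136)))) (XT.nd (nat_lit 156) (nat_lit 0) (nat_lit 0) (XT.nd (nat_lit 78) (nat_lit 0) (nat_lit 0) (XT.lf (nat_lit 0) (nat_lit 15689480303136) (nat_lit 76) (nat_lit 20130367996192) (nat_lit 76) (nat_lit 20127941102294) (nat_lit 1) (nat_lit 4) (nat_lit 2) (nat_lit 5) (nat_lit 2) (nat_lit 4) (nat_lit 275) (nat_lit 190) (nat_lit 135)) (XT.lf (nat_lit 0) (nat_lit 18044693424178) (nat_lit 76) (nat_lit 23148766279942) (nat_lit 76) (nat_lit 23146339240745) (nat_lit 1) (nat_lit 4) (nat_lit 2) (nat_lit 5) (nat_lit 2) (nat_lit 4) (nat_lit 276) (nat_lit 190) (nat_lit 134))) (XT.nd (nat_lit 78) (nat_lit 0) (nat_lit 0) (XT.lf (nat_lit 0) (nat_lit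 20753188313163) (nat_lit 76) (nat_lit 26619924394867) (nat_lit 76) (nat_lit 26617497229324) (nat_lit 1) (nat_lit 4) (nat_lit 2) (nat_lit 5) (nat_lit 2) (nat_lit 4) (nat_lit 277) (nat_lit 190) (nat_lit 133)) (XT.lf (nat_lit 0) (nat_lit 23867957261396) (nat_lit 76) (nat_lit 30611756304087) (nat_lit 76) (nat_lit 30609329028676) (nat_lit 1) (nat_lit 4) (nat_lit 2) (nat_lit 5) (nat_lit 2) (nat_lit 4) (nat_lit 278) (nat_lit 190) (nat_lit 132))))) (XT.nd (nat_lit 312) (nat_lit 0) (nat_lit 0) (XT.nd (nat_lit 156) (nat_lit 0) (nat_lit 0) (XT.nd (nat_lit 78) (nat_lit 0) (nat_lit 0) (XT.lf (nat_lit 0) (nat_lit 417849762) (nat_lit 152) (nat_lit 10017317612) (nat_lit 0) (nat_lit 417849762) (nat_lit 2) (nat_lit 5) (nat_lit 4) (nat_lit 4) (nat_lit 2) (nat_lit 4) (nat_lit 218) (nat_lit 191) (nat_lit 191)) (XT.lf (nat_lit 0) (nat_lit 3589457631) (nat_lit 152) (nat_lit 17660093555) (nat_lit 0) (nat_lit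 3225256453) (nat_lit 2) (nat_lit 5) (nat_lit 4) (nat_lit 4) (nat_lit 2) (nat_lit 4) (nat_lit 219) (nat_lit 191) (nat_lit 190))) (XT.nd (nat_lit 78) (nat_lit 0) (nat_lit 0) (XT.lf (nat_lit 0) (nat_lit 6497324740) (nat_lit 152) (nat_lit 15386541958) (nat_lit 0) (nat_lit 5816426884) (nat_lit 2) (nat_lit 5) (nat_lit 4) (nat_lit 4) (nat_lit 2) (nat_lit 4) (nat_lit 220) (nat_lit 191) (nat_lit 189)) (XT.lf (nat_lit 0) (nat_lit 9616193903) (nat_lit 152) (nat_lit 13169497901) (nat_lit 0) (nat_lit 8659907633) (nat_lit 2) (nat_lit 5) (nat_lit 4) (nat_lit 4) (nat_lit 2) (nat_lit 4) (nat_lit 221) (nat_lit 191) (nat_lit 188)))) (XT.nd (nat_lit 156) (nat_lit 0) (nat_lit 0) (XT.nd (nat_lit 78) (nat_lit 0) (nat_lit 0) (XT.lf (nat_lit 0) (nat_lit 13007086475) (nat_lit 152) (nat_lit 10965584435) (nat_lit 0) (nat_lit 11811332018) (nat_lit 2) (nat_lit 5) (nat_lit 4) (nat_lit 4) (nat_lit 2) (nat_lit 4)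 (nat_lit 222) (nat_lit 191) (nat_lit 187)) (XT.lf (nat_lit 0) (nat_lit 16736346004) (nat_lit 152) (nat_lit 8731681515) (nat_lit 0) (nat_lit 15332358342) (nat_lit 2) (nat_lit 5) (nat_lit 4) (nat_lit 4) (nat_lit 2) (nat_lit 4) (nat_lit 223) (nat_lit 191) (nat_lit 186))) (XT.nd (nat_lit 78) (nat_lit 0) (nat_lit 0) (XT.lf (nat_lit 0) (nat_lit 20876936266) (nat_lit 152) (nat_lit 6424082344) (nat_lit 0) (nat_lit 19291876251) (nat_lit 2) (nat_lit 5) (nat_lit 4) (nat_lit 4) (nat_lit 2) (nat_lit 4) (nat_lit 224) (nat_lit 191) (nat_lit 185)) (XT.lf (nat_lit 0) (nat_lit 25509868808) (nat_lit 152) (nat_lit 3997638243) (nat_lit 0) (nat_lit 23767354573) (nat_lit 2) (nat_lit 5) (nat_lit 4) (nat_lit 4) (nat_lit 2) (nat_lit 4) (nat_lit 225) (nat_lit 191) (nat_lit 184)))))))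
noncomputable def xc16 : XT := (XT.nd (nat_lit 1248) (nat_lit 0) (nat_lit 0) (XT.nd (nat_lit 624) (nat_lit 0) (nat_lit 0) (XT.nd (nat_lit 312) (nat_lit 0) (nat_lit 0) (XT.nd (nat_lit 156) (nat_lit 0) (nat_lit 0) (XT.nd (nat_lit 78) (nat_lit 76) (nat_lit 0) (XT.lf (nat_lit 0) (nat_lit 30725787962) (nat_lit 152) (nat_lit 1404875305) (nat_lit 0) (nat_lit 28846357014) (nat_lit 2) (nat_lit 5) (nat_lit 4) (nat_lit 4) (nat_lit 2) (nat_lit 4) (nat_lit 226) (nat_lit 191) (nat_lit 183)) (XT.lf (nat_lit 0) (nat_lit 1542234850) (nat_lit 76) (nat_lit 35148370127) (nat_lit 76) (nat_lit 33149881168) (nat_lit 1) (nat_lit 4) (nat_lit 2) (nat_lit 5) (nat_lit 2) (nat_lit 4) (nat_lit 227) (nat_lit 191) (nat_lit 182))) (XT.nd (nat_lit 78) (nat_lit 0) (nat_lit 0) (XT.lf (nat_lit 0) (nat_lit 4925244888) (nat_lit 76) (nat_lit 38606890379) (nat_lit 76) (nat_lit 36504872714) (nat_lit 1) (nat_lit 4) (nat_lit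 2) (nat_lit 5) (nat_lit 2) (nat_lit 4) (nat_lit 228) (nat_lit 191) (nat_lit 181)) (XT.lf (nat_lit 0) (nat_lit 8673049503) (nat_lit 76) (nat_lit 42647327386) (nat_lit 76) (nat_lit 40455284760) (nat_lit 1) (nat_lit 4) (nat_lit 2) (nat_lit 5) (nat_lit 2) (nat_lit 4) (nat_lit 229) (nat_lit 191) (nat_lit 180)))) (XT.nd (nat_lit 156) (nat_lit 0) (nat_lit 0) (XT.nd (nat_lit 78) (nat_lit 0) (nat_lit 0) (XT.lf (nat_lit 0) (nat_lit 12858975307) (nat_lit 76) (nat_lit 47348733178) (nat_lit 76) (nat_lit 45078407977) (nat_lit 1) (nat_lit 4) (nat_lit 2) (nat_lit 5) (nat_lit 2) (nat_lit 4) (nat_lit 230) (nat_lit 191) (nat_lit 179)) (XT.lf (nat_lit 0) (nat_lit 17564920847) (nat_lit 76) (nat_lit 52803091782) (nat_lit 76) (nat_lit 50464694776) (nat_lit 1) (nat_lit 4) (nat_lit 2) (nat_lit 5) (nat_lit 2) (nat_lit 4) (nat_lit 231) (nat_lit 191) (nat_lit 178))) (XT.nd (nat_lit 78) (nat_lit 0) (nat_lit 0)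 (XT.lf (nat_lit 0) (nat_lit 22882958972) (nat_lit 76) (nat_lit 59117118907) (nat_lit 76) (nat_lit 56719529029) (nat_lit 1) (nat_lit 4) (nat_lit 2) (nat_lit 5) (nat_lit 2) (nat_lit 4) (nat_lit 232) (nat_lit 191) (nat_lit 177)) (XT.lf (nat_lit 0) (nat_lit 28917138254) (nat_lit 76) (nat_lit 66414349869) (nat_lit 76) (nat_lit 63965287927) (nat_lit 1) (nat_lit 4) (nat_lit 2) (nat_lit 5) (nat_lit 2) (nat_lit 4) (nat_lit 233) (nat_lit 191) (nat_lit 176))))) (XT.nd (nat_lit 312) (nat_lit 0) (nat_lit 0) (XT.nd (nat_lit 156) (nat_lit 0) (nat_lit 0) (XT.nd (nat_lit 78) (nat_lit 0) (nat_lit 0) (XT.lf (nat_lit 0) (nat_lit 35785518721) (nat_lit 76) (nat_lit 74837556577) (nat_lit 76) (nat_lit 72343736318) (nat_lit 1) (nat_lit 4) (nat_lit 2) (nat_lit 5) (nat_lit 2) (nat_lit 4) (nat_lit 234) (nat_lit 191) (nat_lit 175)) (XT.lf (nat_lit 0) (nat_lit 43622481732) (nat_lit 76) (nat_lit 84551540902) (nat_lit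 76) (nat_lit 82018800368) (nat_lit 1) (nat_lit 4) (nat_lit 2) (nat_lit 5) (nat_lit 2) (nat_lit 4) (nat_lit 235) (nat_lit 191) (nat_lit 174))) (XT.nd (nat_lit 78) (nat_lit 0) (nat_lit 0) (XT.lf (nat_lit 0) (nat_lit 52581359170) (nat_lit 76) (nat_lit 95746359059) (nat_lit 76) (nat_lit 93179774807) (nat_lit 1) (nat_lit 4) (nat_lit 2) (nat_lit 5) (nat_lit 2) (nat_lit 4) (nat_lit 236) (nat_lit 191) (nat_lit 173)) (XT.lf (nat_lit 0) (nat_lit 62837433421) (nat_lit 76) (nat_lit 108641040097) (nat_lit 76) (nat_lit 106045026526) (nat_lit 1) (nat_lit 4) (nat_lit 2) (nat_lit 5) (nat_lit 2) (nat_lit 4) (nat_lit 237) (nat_lit 191) (nat_lit 172)))) (XT.nd (nat_lit 156) (nat_lit 0) (nat_lit 0) (XT.nd (nat_lit 78) (nat_lit 0) (nat_lit 0) (XT.lf (nat_lit 0) (nat_lit 74591366807) (nat_lit 76) (nat_lit 123487871256) (nat_lit 76) (nat_lit 120866266973) (nat_lit 1) (nat_lit 4) (nat_lit 2) (nat_lit 5) (nat_lit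 2) (nat_lit 4) (nat_lit 238) (nat_lit 191) (nat_lit 171)) (XT.lf (nat_lit 0) (nat_lit 88073127590) (nat_lit 76) (nat_lit 140577334015) (nat_lit 76) (nat_lit 137933476938) (nat_lit 1) (nat_lit 4) (nat_lit 2) (nat_lit 5) (nat_lit 2) (nat_lit 4) (nat_lit 239) (nat_lit 191) (nat_lit 170))) (XT.nd (nat_lit 78) (nat_lit 0) (nat_lit 0) (XT.lf (nat_lit 0) (nat_lit 103546489350) (nat_lit 76) (nat_lit 160243787427) (nat_lit 76) (nat_lit 157580580094) (nat_lit 1) (nat_lit 4) (nat_lit 2) (nat_lit 5) (nat_lit 2) (nat_lit 4) (nat_lit 240) (nat_lit 191) (nat_lit 169)) (XT.lf (nat_lit 0) (nat_lit 121314191774) (nat_lit 76) (nat_lit 182872009928) (nat_lit 76) (nat_lit 180191976287) (nat_lit 1) (nat_lit 4) (nat_lit 2) (nat_lit 5) (nat_lit 2) (nat_lit 4) (nat_lit 241) (nat_lit 191) (nat_lit 168)))))) (XT.nd (nat_lit 624) (nat_lit 0) (nat_lit 0) (XT.nd (nat_lit 312) (nat_lit 0) (nat_lit 0) (XT.nd (nat_lit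 156) (nat_lit 0) (nat_lit 0) (XT.nd (nat_lit 78) (nat_lit 0) (nat_lit 0) (XT.lf (nat_lit 0) (nat_lit 141723863823) (nat_lit 76) (nat_lit 208904727612) (nat_lit 76) (nat_lit 206210062397) (nat_lit 1) (nat_lit 4) (nat_lit 2) (nat_lit 5) (nat_lit 2) (nat_lit 4) (nat_lit 242) (nat_lit 191) (nat_lit 167)) (XT.lf (nat_lit 0) (nat_lit 165174825166) (nat_lit 76) (nat_lit 238851276259) (nat_lit 76) (nat_lit 236143887937) (nat_lit 1) (nat_lit 4) (nat_lit 2) (nat_lit 5) (nat_lit 2) (nat_lit 4) (nat_lit 243) (nat_lit 191) (nat_lit 166))) (XT.nd (nat_lit 78) (nat_lit 0) (nat_lit 0) (XT.lf (nat_lit 0) (nat_lit 192125898961) (nat_lit 76) (nat_lit 273297566602) (nat_lit 76) (nat_lit 270579114710) (nat_lit 1) (nat_lit 4) (nat_lit 2) (nat_lit 5) (nat_lit 2) (nat_lit 4) (nat_lit 244) (nat_lit 191) (nat_lit 165)) (XT.lf (nat_lit 0) (nat_lit 223104388826) (nat_lit 76) (nat_lit 312917547803) (nat_lit 76)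 (nat_lit 310189475413) (nat_lit 1) (nat_lit 4) (nat_lit 2) (nat_lit 5) (nat_lit 2) (nat_lit 4) (nat_lit 245) (nat_lit 191) (nat_lit 164)))) (XT.nd (nat_lit 156) (nat_lit 0) (nat_lit 0) (XT.nd (nat_lit 78) (nat_lit 0) (nat_lit 0) (XT.lf (nat_lit 0) (nat_lit 258716395648) (nat_lit 76) (nat_lit 358486393404) (nat_lit 76) (nat_lit 355749955365) (nat_lit 1) (nat_lit 4) (nat_lit 2) (nat_lit 5) (nat_lit 2) (nat_lit 4) (nat_lit 246) (nat_lit 191) (nat_lit 163)) (XT.lf (nat_lit 0) (nat_lit 299658676084) (nat_lit 76) (nat_lit 410895667777) (nat_lit 76) (nat_lit 408151955261) (nat_lit 1) (nat_lit 4) (nat_lit 2) (nat_lit 5) (nat_lit 2) (nat_lit 4) (nat_lit 247) (nat_lit 191) (nat_lit 162))) (XT.nd (nat_lit 78) (nat_lit 0) (nat_lit 0) (XT.lf (nat_lit 0) (nat_lit 346732274750) (nat_lit 76) (nat_lit 471170769769) (nat_lit 76) (nat_lit 468420731620) (nat_lit 1) (nat_lit 4) (nat_lit 2) (nat_lit 5)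 (nat_lit 2) (nat_lit 4) (nat_lit 248) (nat_lit 191) (nat_lit 161)) (XT.lf (nat_lit 0) (nat_lit 400858196839) (nat_lit 76) (nat_lit 540490994853) (nat_lit 76) (nat_lit 537735456153) (nat_lit 1) (nat_lit 4) (nat_lit 2) (nat_lit 5) (nat_lit 2) (nat_lit 4) (nat_lit 249) (nat_lit 191) (nat_lit 160))))) (XT.nd (nat_lit 312) (nat_lit 0) (nat_lit 0) (XT.nd (nat_lit 156) (nat_lit 0) (nat_lit 0) (XT.nd (nat_lit 78) (nat_lit 0) (nat_lit 0) (XT.lf (nat_lit 0) (nat_lit 463095427781) (nat_lit 76) (nat_lit 620212608302) (nat_lit 76) (nat_lit 617452286515) (nat_lit 1) (nat_lit 4) (nat_lit 2) (nat_lit 5) (nat_lit 2) (nat_lit 4) (nat_lit 250) (nat_lit 191) (nat_lit 159)) (XT.lf (nat_lit 0) (nat_lit 534661652530) (nat_lit 76) (nat_lit 711895380814) (nat_lit 76) (nat_lit 709130899821) (nat_lit 1) (nat_lit 4) (nat_lit 2) (nat_lit 5) (nat_lit 2) (nat_lit 4) (nat_lit 251) (nat_lit 191) (nat_lit 158))) (XT.nd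 (nat_lit 78) (nat_lit 0) (nat_lit 0) (XT.lf (nat_lit 0) (nat_lit 616957079831) (nat_lit 76) (nat_lit 817333105766) (nat_lit 76) (nat_lit 814565008071) (nat_lit 1) (nat_lit 4) (nat_lit 2) (nat_lit 5) (nat_lit 2) (nat_lit 4) (nat_lit 252) (nat_lit 191) (nat_lit 157)) (XT.lf (nat_lit 0) (nat_lit 711591837610) (nat_lit 76) (nat_lit 938588695165) (nat_lit 76) (nat_lit 935817452514) (nat_lit 1) (nat_lit 4) (nat_lit 2) (nat_lit 5) (nat_lit 2) (nat_lit 4) (nat_lit 253) (nat_lit 191) (nat_lit 156)))) (XT.nd (nat_lit 156) (nat_lit 0) (nat_lit 0) (XT.nd (nat_lit 78) (nat_lit 0) (nat_lit 0) (XT.lf (nat_lit 0) (nat_lit 820417475476) (nat_lit 76) (nat_lit 1078034540980) (nat_lit 76) (nat_lit 1075260563583) (nat_lit 1) (nat_lit 4) (nat_lit 2) (nat_lit 5) (nat_lit 2) (nat_lit 4) (nat_lit 254) (nat_lit 191) (nat_lit 155)) (XT.lf (nat_lit 0) (nat_lit 945563190691) (nat_lit 76) (nat_lit 1238398931497)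 (nat_lit 76) (nat_lit 1235622576060) (nat_lit 1) (nat_lit 4) (nat_lit 2) (nat_lit 5) (nat_lit 2) (nat_lit 4) (nat_lit 255) (nat_lit 191) (nat_lit 154))) (XT.nd (nat_lit 78) (nat_lit 0) (nat_lit 0) (XT.lf (nat_lit 0) (nat_lit 1089477486378) (nat_lit 76) (nat_lit 1422819430879) (nat_lit 76) (nat_lit 1420041007582) (nat_lit 1) (nat_lit 4) (nat_lit 2) (nat_lit 5) (nat_lit 2) (nat_lit 4) (nat_lit 256) (nat_lit 191) (nat_lit 153)) (XT.nd (nat_lit 78) (nat_lit 0) (nat_lit 0) (XT.lf (nat_lit 0) (nat_lit 1254976077019) (nat_lit 76) (nat_lit 1634904266289) (nat_lit 76) (nat_lit 1632124044852) (nat_lit 1) (nat_lit 4) (nat_lit 2) (nat_lit 5) (nat_lit 2) (nat_lit 4) (nat_lit 257) (nat_lit 191) (nat_lit 152)) (XT.lf (nat_lit 0) (nat_lit 1445296978518) (nat_lit 76) (nat_lit 1878802923635) (nat_lit 76) (nat_lit 1876021138598) (nat_lit 1) (nat_lit 4) (nat_lit 2) (nat_lit 5) (nat_lit 2) (nat_lit 4)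 (nat_lit 258) (nat_lit 191) (nat_lit 151))))))))
noncomputable def xc17 : XT := (XT.nd (nat_lit 28860) (nat_lit 0) (nat_lit 0) (XT.nd (nat_lit 1248) (nat_lit 0) (nat_lit 0) (XT.nd (nat_lit 624) (nat_lit 0) (nat_lit 0) (XT.nd (nat_lit 312) (nat_lit 0) (nat_lit 0) (XT.nd (nat_lit 156) (nat_lit 0) (nat_lit 0) (XT.nd (nat_lit 78) (nat_lit 0) (nat_lit 0) (XT.lf (nat_lit 0) (nat_lit 1664163860686) (nat_lit 76) (nat_lit 2159287333170) (nat_lit 76) (nat_lit 2156504188482) (nat_lit 1) (nat_lit 4) (nat_lit 2) (nat_lit 5) (nat_lit 2) (nat_lit 4) (nat_lit 259) (nat_lit 191) (nat_lit 150)) (XT.lf (nat_lit 0) (nat_lit 1915858901652) (nat_lit 76) (nat_lit 2481845233343) (nat_lit 76) (nat_lit 2479060906348) (nat_lit 1) (nat_lit 4) (nat_lit 2) (nat_lit 5) (nat_lit 2) (nat_lit 4) (nat_lit 260) (nat_lit 191) (nat_lit 149))) (XT.nd (nat_lit 78) (nat_lit 0) (nat_lit 0) (XT.lf (nat_lit 0) (nat_lit 2205306569611)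 (nat_lit 76) (nat_lit 2852787539591) (nat_lit 76) (nat_lit 2850002184504) (nat_lit 1) (nat_lit 4) (nat_lit 2) (nat_lit 5) (nat_lit 2) (nat_lit 4) (nat_lit 261) (nat_lit 191) (nat_lit 148)) (XT.lf (nat_lit 0) (nat_lit 2538169971108) (nat_lit 76) (nat_lit 3279371818774) (nat_lit 76) (nat_lit 3276585569694) (nat_lit 1) (nat_lit 4) (nat_lit 2) (nat_lit 5) (nat_lit 2) (nat_lit 4) (nat_lit 262) (nat_lit 191) (nat_lit 147)))) (XT.nd (nat_lit 156) (nat_lit 0) (nat_lit 0) (XT.nd (nat_lit 78) (nat_lit 0) (nat_lit 0) (XT.lf (nat_lit 0) (nat_lit 2920961650955) (nat_lit 76) (nat_lit 3769944285053) (nat_lit 76) (nat_lit 3767157258587) (nat_lit 1) (nat_lit 4) (nat_lit 2) (nat_lit 5) (nat_lit 2) (nat_lit 4) (nat_lit 263) (nat_lit 191) (nat_lit 146)) (XT.lf (nat_lit 0) (nat_lit 3361171011585) (nat_lit 76) (nat_lit 4334103095374) (nat_lit 76) (nat_lit 4331315392922) (nat_lit 1) (nat_lit 4) (nat_lit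 2) (nat_lit 5) (nat_lit 2) (nat_lit 4) (nat_lit 264) (nat_lit 191) (nat_lit 145))) (XT.nd (nat_lit 78) (nat_lit 0) (nat_lit 0) (XT.lf (nat_lit 0) (nat_lit 3867410844836) (nat_lit 76) (nat_lit 4982886139506) (nat_lit 76) (nat_lit 4980097849239) (nat_lit 1) (nat_lit 4) (nat_lit 2) (nat_lit 5) (nat_lit 2) (nat_lit 4) (nat_lit 265) (nat_lit 191) (nat_lit 144)) (XT.lf (nat_lit 0) (nat_lit 4449585843096) (nat_lit 76) (nat_lit 5728986998747) (nat_lit 76) (nat_lit 5726198197336) (nat_lit 1) (nat_lit 4) (nat_lit 2) (nat_lit 5) (nat_lit 2) (nat_lit 4) (nat_lit 266) (nat_lit 191) (nat_lit 143))))) (XT.nd (nat_lit 312) (nat_lit 0) (nat_lit 0) (XT.nd (nat_lit 156) (nat_lit 0) (nat_lit 0) (XT.nd (nat_lit 78) (nat_lit 0) (nat_lit 0) (XT.lf (nat_lit 0) (nat_lit 5119086386769) (nat_lit 76) (nat_lit 6587003298603) (nat_lit 76) (nat_lit 6584214052719) (nat_lit 1) (nat_lit 4) (nat_lit 2) (nat_lit 5)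 (nat_lit 2) (nat_lit 4) (nat_lit 267) (nat_lit 191) (nat_lit 142)) (XT.lf (nat_lit 0) (nat_lit 5889011399532) (nat_lit 76) (nat_lit 7573722314506) (nat_lit 76) (nat_lit 7570932682125) (nat_lit 1) (nat_lit 4) (nat_lit 2) (nat_lit 5) (nat_lit 2) (nat_lit 4) (nat_lit 268) (nat_lit 191) (nat_lit 141))) (XT.nd (nat_lit 78) (nat_lit 0) (nat_lit 0) (XT.lf (nat_lit 0) (nat_lit 6774424631638) (nat_lit 76) (nat_lit 8708449418508) (nat_lit 76) (nat_lit 8705659450041) (nat_lit 1) (nat_lit 4) (nat_lit 2) (nat_lit 5) (nat_lit 2) (nat_lit 4) (nat_lit 269) (nat_lit 191) (nat_lit 140)) (XT.lf (nat_lit 0) (nat_lit 7792649385452) (nat_lit 76) (nat_lit 10013385793077) (nat_lit 76) (nat_lit 10010595532362) (nat_lit 1) (nat_lit 4) (nat_lit 2) (nat_lit 5) (nat_lit 2) (nat_lit 4) (nat_lit 270) (nat_lit 191) (nat_lit 139)))) (XT.nd (nat_lit 156) (nat_lit 0) (nat_lit 0) (XT.nd (nat_lit 78) (nat_lit 0) (nat_lit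 0) (XT.lf (nat_lit 0) (nat_lit 8963607449636) (nat_lit 76) (nat_lit 11514062802063) (nat_lit 76) (nat_lit 11511272287220) (nat_lit 1) (nat_lit 4) (nat_lit 2) (nat_lit 5) (nat_lit 2) (nat_lit 4) (nat_lit 271) (nat_lit 191) (nat_lit 138)) (XT.lf (nat_lit 0) (nat_lit 10310208873272) (nat_lit 76) (nat_lit 13239841517382) (nat_lit 76) (nat_lit 13237050781557) (nat_lit 1) (nat_lit 4) (nat_lit 2) (nat_lit 5) (nat_lit 2) (nat_lit 4) (nat_lit 272) (nat_lit 191) (nat_lit 137))) (XT.nd (nat_lit 78) (nat_lit 0) (nat_lit 0) (XT.lf (nat_lit 0) (nat_lit 11858800205954) (nat_lit 76) (nat_lit 15224487174768) (nat_lit 76) (nat_lit 15221696246786) (nat_lit 1) (nat_lit 4) (nat_lit 2) (nat_lit 5) (nat_lit 2) (nat_lit 4) (nat_lit 273) (nat_lit 191) (nat_lit 136)) (XT.lf (nat_lit 0) (nat_lit 13639679973754) (nat_lit 76) (nat_lit 17506829797953) (nat_lit 76) (nat_lit 17504038702877) (nat_lit 1) (nat_lit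 4) (nat_lit 2) (nat_lit 5) (nat_lit 2) (nat_lit 4) (nat_lit 274) (nat_lit 191) (nat_lit 135)))))) (XT.nd (nat_lit 26988) (nat_lit 0) (nat_lit 76) (XT.nd (nat_lit 26676) (nat_lit 0) (nat_lit 76) (XT.nd (nat_lit 156) (nat_lit 0) (nat_lit 0) (XT.nd (nat_lit 78) (nat_lit 0) (nat_lit 0) (XT.lf (nat_lit 0) (nat_lit 15687691476479) (nat_lit 76) (nat_lit 20131523916520) (nat_lit 76) (nat_lit 20128732676145) (nat_lit 1) (nat_lit 4) (nat_lit 2) (nat_lit 5) (nat_lit 2) (nat_lit 4) (nat_lit 275) (nat_lit 191) (nat_lit 134)) (XT.lf (nat_lit 0) (nat_lit 18042904504398) (nat_lit 76) (nat_lit 23149922241486) (nat_lit 76) (nat_lit 23147130874764) (nat_lit 1) (nat_lit 4) (nat_lit 2) (nat_lit 5) (nat_lit 2) (nat_lit 4) (nat_lit 276) (nat_lit 191) (nat_lit 133))) (XT.nd (nat_lit 78) (nat_lit 0) (nat_lit 0) (XT.lf (nat_lit 0) (nat_lit 20751399312407) (nat_lit 76) (nat_lit 26621080392251) (nat_lit 76)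 (nat_lit 26618288915662) (nat_lit 1) (nat_lit 4) (nat_lit 2) (nat_lit 5) (nat_lit 2) (nat_lit 4) (nat_lit 277) (nat_lit 191) (nat_lit 132)) (XT.lf (nat_lit 0) (nat_lit 23866168190226) (nat_lit 76) (nat_lit 30612912332634) (nat_lit 76) (nat_lit 30610120760509) (nat_lit 1) (nat_lit 4) (nat_lit 2) (nat_lit 5) (nat_lit 2) (nat_lit 4) (nat_lit 278) (nat_lit 191) (nat_lit 131)))) (XT.nd (nat_lit 156) (nat_lit 152) (nat_lit 0) (XT.nd (nat_lit 78) (nat_lit 0) (nat_lit 0) (XT.lf (nat_lit 0) (nat_lit 4933011667) (nat_lit 76) (nat_lit 1835076181) (nat_lit 76) (nat_lit 1835076181) (nat_lit 4) (nat_lit 4) (nat_lit 5) (nat_lit 5) (nat_lit 5) (nat_lit 4) (nat_lit 216) (nat_lit 192) (nat_lit 192)) (XT.lf (nat_lit 0) (nat_lit 16228192573) (nat_lit 76) (nat_lit 1776130179) (nat_lit 76) (nat_lit 1294474120) (nat_lit 4) (nat_lit 4) (nat_lit 5) (nat_lit 5) (nat_lit 5) (nat_lit 4) (nat_lit 217) (nat_lit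 192) (nat_lit 191))) (XT.nd (nat_lit 78) (nat_lit 0) (nat_lit 0) (XT.lf (nat_lit 0) (nat_lit 1116020220) (nat_lit 152) (nat_lit 20279168723) (nat_lit 0) (nat_lit 332987686) (nat_lit 2) (nat_lit 5) (nat_lit 4) (nat_lit 4) (nat_lit 2) (nat_lit 4) (nat_lit 218) (nat_lit 192) (nat_lit 190)) (XT.lf (nat_lit 0) (nat_lit 3749334273) (nat_lit 152) (nat_lit 18117264878) (nat_lit 0) (nat_lit 2649605062) (nat_lit 2) (nat_lit 5) (nat_lit 4) (nat_lit 4) (nat_lit 2) (nat_lit 4) (nat_lit 219) (nat_lit 192) (nat_lit 189))))) (XT.nd (nat_lit 312) (nat_lit 0) (nat_lit 0) (XT.nd (nat_lit 156) (nat_lit 0) (nat_lit 0) (XT.nd (nat_lit 78) (nat_lit 0) (nat_lit 0) (XT.lf (nat_lit 0) (nat_lit 6552467423) (nat_lit 152) (nat_lit 16028615736) (nat_lit 0) (nat_lit 5177349798) (nat_lit 2) (nat_lit 5) (nat_lit 4) (nat_lit 4) (nat_lit 2) (nat_lit 4) (nat_lit 220) (nat_lit 192) (nat_lit 188)) (XT.lf (nat_lit 0) (nat_lit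 9580263579) (nat_lit 152) (nat_lit 13972356423) (nat_lit 0) (nat_lit 7965677767) (nat_lit 2) (nat_lit 5) (nat_lit 4) (nat_lit 4) (nat_lit 2) (nat_lit 4) (nat_lit 221) (nat_lit 192) (nat_lit 187))) (XT.nd (nat_lit 78) (nat_lit 0) (nat_lit 0) (XT.lf (nat_lit 0) (nat_lit 12891962230) (nat_lit 152) (nat_lit 11908255778) (nat_lit 0) (nat_lit 11069143213) (nat_lit 2) (nat_lit 5) (nat_lit 4) (nat_lit 4) (nat_lit 2) (nat_lit 4) (nat_lit 222) (nat_lit 192) (nat_lit 186)) (XT.lf (nat_lit 0) (nat_lit 16552357482) (nat_lit 152) (nat_lit 9795929224) (nat_lit 0) (nat_lit 14548466112) (nat_lit 2) (nat_lit 5) (nat_lit 4) (nat_lit 4) (nat_lit 2) (nat_lit 4) (nat_lit 223) (nat_lit 192) (nat_lit 185)))) (XT.nd (nat_lit 156) (nat_lit 0) (nat_lit 0) (XT.nd (nat_lit 78) (nat_lit 0) (nat_lit 0) (XT.lf (nat_lit 0) (nat_lit 20633065763) (nat_lit 152) (nat_lit 7594048633) (nat_lit 0) (nat_lit 18471720172)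 (nat_lit 2) (nat_lit 5) (nat_lit 4) (nat_lit 4) (nat_lit 2) (nat_lit 4) (nat_lit 224) (nat_lit 192) (nat_lit 184)) (XT.lf (nat_lit 0) (nat_lit 25213927017) (nat_lit 152) (nat_lit 5259533731) (nat_lit 0) (nat_lit 22915664714) (nat_lit 2) (nat_lit 5) (nat_lit 4) (nat_lit 4) (nat_lit 2) (nat_lit 4) (nat_lit 225) (nat_lit 192) (nat_lit 183))) (XT.nd (nat_lit 78) (nat_lit 0) (nat_lit 0) (XT.lf (nat_lit 0) (nat_lit 30384566791) (nat_lit 152) (nat_lit 2746709227) (nat_lit 0) (nat_lit 27967246476) (nat_lit 2) (nat_lit 5) (nat_lit 4) (nat_lit 4) (nat_lit 2) (nat_lit 4) (nat_lit 226) (nat_lit 192) (nat_lit 182)) (XT.lf (nat_lit 0) (nat_lit 36246149776) (nat_lit 152) (nat_lit 6411164) (nat_lit 0) (nat_lit 33725300756) (nat_lit 2) (nat_lit 5) (nat_lit 4) (nat_lit 4) (nat_lit 2) (nat_lit 4) (nat_lit 227) (nat_lit 192) (nat_lit 181))))))) (XT.nd (nat_lit 1248) (nat_lit 0) (nat_lit 0) (XT.nd (nat_lit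 624) (nat_lit 0) (nat_lit 0) (XT.nd (nat_lit 312) (nat_lit 0) (nat_lit 0) (XT.nd (nat_lit 156) (nat_lit 0) (nat_lit 0) (XT.nd (nat_lit 78) (nat_lit 0) (nat_lit 0) (XT.lf (nat_lit 0) (nat_lit 3309620268) (nat_lit 76) (nat_lit 39740783166) (nat_lit 76) (nat_lit 37129909185) (nat_lit 1) (nat_lit 4) (nat_lit 2) (nat_lit 5) (nat_lit 2) (nat_lit 4) (nat_lit 228) (nat_lit 192) (nat_lit 180)) (XT.lf (nat_lit 0) (nat_lit 6999727439) (nat_lit 76) (nat_lit 43806756562) (nat_lit 76) (nat_lit 41117600005) (nat_lit 1) (nat_lit 4) (nat_lit 2) (nat_lit 5) (nat_lit 2) (nat_lit 4) (nat_lit 229) (nat_lit 192) (nat_lit 179))) (XT.nd (nat_lit 78) (nat_lit 0) (nat_lit 0) (XT.lf (nat_lit 0) (nat_lit 11135481552) (nat_lit 76) (nat_lit 48530367908) (nat_lit 76) (nat_lit 45773139548) (nat_lit 1) (nat_lit 4) (nat_lit 2) (nat_lit 5) (nat_lit 2) (nat_lit 4) (nat_lit 230) (nat_lit 192) (nat_lit 178)) (XT.lf (nat_lit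 0) (nat_lit 15797799536) (nat_lit 76) (nat_lit 54004035689) (nat_lit 76) (nat_lit 51187614455) (nat_lit 1) (nat_lit 4) (nat_lit 2) (nat_lit 5) (nat_lit 2) (nat_lit 4) (nat_lit 231) (nat_lit 192) (nat_lit 177)))) (XT.nd (nat_lit 156) (nat_lit 0) (nat_lit 0) (XT.nd (nat_lit 78) (nat_lit 0) (nat_lit 0) (XT.lf (nat_lit 0) (nat_lit 21077900656) (nat_lit 76) (nat_lit 60334853404) (nat_lit 76) (nat_lit 57466960107) (nat_lit 1) (nat_lit 4) (nat_lit 2) (nat_lit 5) (nat_lit 2) (nat_lit 4) (nat_lit 232) (nat_lit 192) (nat_lit 176)) (XT.lf (nat_lit 0) (nat_lit 27079091237) (nat_lit 76) (nat_lit 67646684879) (nat_lit 76) (nat_lit 64734033265) (nat_lit 1) (nat_lit 4) (nat_lit 2) (nat_lit 5) (nat_lit 2) (nat_lit 4) (nat_lit 233) (nat_lit 192) (nat_lit 175))) (XT.nd (nat_lit 78) (nat_lit 0) (nat_lit 0) (XT.lf (nat_lit 0) (nat_lit 33918785877) (nat_lit 76) (nat_lit 76082587685) (nat_lit 76) (nat_lit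 73131015796) (nat_lit 1) (nat_lit 4) (nat_lit 2) (nat_lit 5) (nat_lit 2) (nat_lit 4) (nat_lit 234) (nat_lit 192) (nat_lit 174)) (XT.lf (nat_lit 0) (nat_lit 41730804691) (nat_lit 76) (nat_lit 85807612095) (nat_lit 76) (nat_lit 82822196488) (nat_lit 1) (nat_lit 4) (nat_lit 2) (nat_lit 5) (nat_lit 2) (nat_lit 4) (nat_lit 235) (nat_lit 192) (nat_lit 173))))) (XT.nd (nat_lit 312) (nat_lit 0) (nat_lit 0) (XT.nd (nat_lit 156) (nat_lit 0) (nat_lit 0) (XT.nd (nat_lit 78) (nat_lit 0) (nat_lit 0) (XT.lf (nat_lit 0) (nat_lit 50667991523) (nat_lit 76) (nat_lit 97012030325) (nat_lit 76) (nat_lit 93997185399) (nat_lit 1) (nat_lit 4) (nat_lit 2) (nat_lit 5) (nat_lit 2) (nat_lit 4) (nat_lit 236) (nat_lit 192) (nat_lit 172)) (XT.lf (nat_lit 0) (nat_lit 60905204378) (nat_lit 76) (nat_lit 109915059254) (nat_lit 76) (nat_lit 106874623615) (nat_lit 1) (nat_lit 4) (nat_lit 2) (nat_lit 5) (nat_lit 2) (nat_lit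 4) (nat_lit 237) (nat_lit 192) (nat_lit 171))) (XT.nd (nat_lit 78) (nat_lit 0) (nat_lit 0) (XT.lf (nat_lit 0) (nat_lit 72642736549) (nat_lit 76) (nat_lit 124769149448) (nat_lit 76) (nat_lit 121706461016) (nat_lit 1) (nat_lit 4) (nat_lit 2) (nat_lit 5) (nat_lit 2) (nat_lit 4) (nat_lit 238) (nat_lit 192) (nat_lit 170)) (XT.lf (nat_lit 0) (nat_lit 86110235406) (nat_lit 76) (nat_lit 141864924411) (nat_lit 76) (nat_lit 138782885724) (nat_lit 1) (nat_lit 4) (nat_lit 2) (nat_lit 5) (nat_lit 2) (nat_lit 4) (nat_lit 239) (nat_lit 192) (nat_lit 169)))) (XT.nd (nat_lit 156) (nat_lit 0) (nat_lit 0) (XT.nd (nat_lit 78) (nat_lit 0) (nat_lit 0) (XT.lf (nat_lit 0) (nat_lit 101571195492) (nat_lit 76) (nat_lit 161536866697) (nat_lit 76) (nat_lit 158438001700) (nat_lit 1) (nat_lit 4) (nat_lit 2) (nat_lit 5) (nat_lit 2) (nat_lit 4) (nat_lit 240) (nat_lit 192) (nat_lit 168)) (XT.lf (nat_lit 0) (nat_lit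 119328113851) (nat_lit 76) (nat_lit 184169862132) (nat_lit 76) (nat_lit 181056365562) (nat_lit 1) (nat_lit 4) (nat_lit 2) (nat_lit 5) (nat_lit 2) (nat_lit 4) (nat_lit 241) (nat_lit 192) (nat_lit 167))) (XT.nd (nat_lit 78) (nat_lit 0) (nat_lit 0) (XT.lf (nat_lit 0) (nat_lit 139728408452) (nat_lit 76) (nat_lit 210206730192) (nat_lit 76) (nat_lit 207080510516) (nat_lit 1) (nat_lit 4) (nat_lit 2) (nat_lit 5) (nat_lit 2) (nat_lit 4) (nat_lit 242) (nat_lit 192) (nat_lit 166)) (XT.lf (nat_lit 0) (nat_lit 163171215493) (nat_lit 76) (nat_lit 240156887862) (nat_lit 76) (nat_lit 237019604614) (nat_lit 1) (nat_lit 4) (nat_lit 2) (nat_lit 5) (nat_lit 2) (nat_lit 4) (nat_lit 243) (nat_lit 192) (nat_lit 165)))))) (XT.nd (nat_lit 624) (nat_lit 0) (nat_lit 0) (XT.nd (nat_lit 312) (nat_lit 0) (nat_lit 0) (XT.nd (nat_lit 156) (nat_lit 0) (nat_lit 0) (XT.nd (nat_lit 78) (nat_lit 0) (nat_lit 0) (XT.lf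 (nat_lit 0) (nat_lit 190115198591) (nat_lit 76) (nat_lit 274606316487) (nat_lit 76) (nat_lit 271459412743) (nat_lit 1) (nat_lit 4) (nat_lit 2) (nat_lit 5) (nat_lit 2) (nat_lit 4) (nat_lit 244) (nat_lit 192) (nat_lit 164)) (XT.lf (nat_lit 0) (nat_lit 221087522631) (nat_lit 76) (nat_lit 314229026628) (nat_lit 76) (nat_lit 311073757234) (nat_lit 1) (nat_lit 4) (nat_lit 2) (nat_lit 5) (nat_lit 2) (nat_lit 4) (nat_lit 245) (nat_lit 192) (nat_lit 163))) (XT.nd (nat_lit 78) (nat_lit 0) (nat_lit 0) (XT.lf (nat_lit 0) (nat_lit 256694167868) (nat_lit 76) (nat_lit 359800245221) (nat_lit 76) (nat_lit 356637701349) (nat_lit 1) (nat_lit 4) (nat_lit 2) (nat_lit 5) (nat_lit 2) (nat_lit 4) (nat_lit 246) (nat_lit 192) (nat_lit 162)) (XT.lf (nat_lit 0) (nat_lit 297631786055) (nat_lit 76) (nat_lit 412211583065) (nat_lit 76) (nat_lit 409042713560) (nat_lit 1) (nat_lit 4) (nat_lit 2) (nat_lit 5) (nat_lit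 2) (nat_lit 4) (nat_lit 247) (nat_lit 192) (nat_lit 161)))) (XT.nd (nat_lit 156) (nat_lit 0) (nat_lit 0) (XT.nd (nat_lit 78) (nat_lit 0) (nat_lit 0) (XT.lf (nat_lit 0) (nat_lit 344701330592) (nat_lit 76) (nat_lit 472488479379) (nat_lit 76) (nat_lit 469314109324) (nat_lit 1) (nat_lit 4) (nat_lit 2) (nat_lit 5) (nat_lit 2) (nat_lit 4) (nat_lit 248) (nat_lit 192) (nat_lit 160)) (XT.lf (nat_lit 0) (nat_lit 398823727350) (nat_lit 76) (nat_lit 541810264743) (nat_lit 76) (nat_lit 538631111601) (nat_lit 1) (nat_lit 4) (nat_lit 2) (nat_lit 5) (nat_lit 2) (nat_lit 4) (nat_lit 249) (nat_lit 192) (nat_lit 159))) (XT.nd (nat_lit 78) (nat_lit 0) (nat_lit 0) (XT.lf (nat_lit 0) (nat_lit 461057892788) (nat_lit 76) (nat_lit 621533234958) (nat_lit 76) (nat_lit 618349922610) (nat_lit 1) (nat_lit 4) (nat_lit 2) (nat_lit 5) (nat_lit 2) (nat_lit 4) (nat_lit 250) (nat_lit 192) (nat_lit 158)) (XT.lf (nat_lit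 0) (nat_lit 532621451881) (nat_lit 76) (nat_lit 713217187266) (nat_lit 76) (nat_lit 710030258217) (nat_lit 1) (nat_lit 4) (nat_lit 2) (nat_lit 5) (nat_lit 2) (nat_lit 4) (nat_lit 251) (nat_lit 192) (nat_lit 157))))) (XT.nd (nat_lit 312) (nat_lit 0) (nat_lit 0) (XT.nd (nat_lit 156) (nat_lit 0) (nat_lit 0) (XT.nd (nat_lit 78) (nat_lit 0) (nat_lit 0) (XT.lf (nat_lit 0) (nat_lit 614914561221) (nat_lit 76) (nat_lit 818655938127) (nat_lit 76) (nat_lit 815465864120) (nat_lit 1) (nat_lit 4) (nat_lit 2) (nat_lit 5) (nat_lit 2) (nat_lit 4) (nat_lit 252) (nat_lit 192) (nat_lit 156)) (XT.lf (nat_lit 0) (nat_lit 709547303381) (nat_lit 76) (nat_lit 939912419622) (nat_lit 76) (nat_lit 936719610870) (nat_lit 1) (nat_lit 4) (nat_lit 2) (nat_lit 5) (nat_lit 2) (nat_lit 4) (nat_lit 253) (nat_lit 192) (nat_lit 155))) (XT.nd (nat_lit 78) (nat_lit 0) (nat_lit 0) (XT.lf (nat_lit 0) (nat_lit 818371188535)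 (nat_lit 76) (nat_lit 1079359041172) (nat_lit 76) (nat_lit 1076163854380) (nat_lit 1) (nat_lit 4) (nat_lit 2) (nat_lit 5) (nat_lit 2) (nat_lit 4) (nat_lit 254) (nat_lit 192) (nat_lit 154)) (XT.lf (nat_lit 0) (nat_lit 943515379652) (nat_lit 76) (nat_lit 1239724106242) (nat_lit 76) (nat_lit 1236526851589) (nat_lit 1) (nat_lit 4) (nat_lit 2) (nat_lit 5) (nat_lit 2) (nat_lit 4) (nat_lit 255) (nat_lit 192) (nat_lit 153)))) (XT.nd (nat_lit 156) (nat_lit 0) (nat_lit 0) (XT.nd (nat_lit 78) (nat_lit 0) (nat_lit 0) (XT.lf (nat_lit 0) (nat_lit 1087428350038) (nat_lit 76) (nat_lit 1424145192191) (nat_lit 76) (nat_lit 1420946139399) (nat_lit 1) (nat_lit 4) (nat_lit 2) (nat_lit 5) (nat_lit 2) (nat_lit 4) (nat_lit 256) (nat_lit 192) (nat_lit 152)) (XT.lf (nat_lit 0) (nat_lit 1252925788242) (nat_lit 76) (nat_lit 1636230537659) (nat_lit 76) (nat_lit 1633029921267) (nat_lit 1) (nat_lit 4) (nat_lit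 2) (nat_lit 5) (nat_lit 2) (nat_lit 4) (nat_lit 257) (nat_lit 192) (nat_lit 151))) (XT.nd (nat_lit 78) (nat_lit 0) (nat_lit 0) (XT.lf (nat_lit 0) (nat_lit 1443245687622) (nat_lit 76) (nat_lit 1880129638534) (nat_lit 76) (nat_lit 1876927662490) (nat_lit 1) (nat_lit 4) (nat_lit 2) (nat_lit 5) (nat_lit 2) (nat_lit 4) (nat_lit 258) (nat_lit 192) (nat_lit 150)) (XT.lf (nat_lit 0) (nat_lit 1662111698382) (nat_lit 76) (nat_lit 2160614433747) (nat_lit 76) (nat_lit 2157411275397) (nat_lit 1) (nat_lit 4) (nat_lit 2) (nat_lit 5) (nat_lit 2) (nat_lit 4) (nat_lit 259) (nat_lit 192) (nat_lit 149))))))))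
noncomputable def xc18 : XT := (XT.nd (nat_lit 28548) (nat_lit 0) (nat_lit 0) (XT.nd (nat_lit 1248) (nat_lit 0) (nat_lit 0) (XT.nd (nat_lit 624) (nat_lit 0) (nat_lit 0) (XT.nd (nat_lit 312) (nat_lit 0) (nat_lit 0) (XT.nd (nat_lit 156) (nat_lit 0) (nat_lit 0) (XT.nd (nat_lit 78) (nat_lit 0) (nat_lit 0) (XT.lf (nat_lit 0) (nat_lit 1913805981603) (nat_lit 76) (nat_lit 2483172669291) (nat_lit 76) (nat_lit 2479968482849) (nat_lit 1) (nat_lit 4) (nat_lit 2) (nat_lit 5) (nat_lit 2) (nat_lit 4) (nat_lit 260) (nat_lit 192) (nat_lit 148)) (XT.lf (nat_lit 0) (nat_lit 2203252990652) (nat_lit 76) (nat_lit 2854115267166) (nat_lit 76) (nat_lit 2850910186731) (nat_lit 1) (nat_lit 4) (nat_lit 2) (nat_lit 5) (nat_lit 2) (nat_lit 4) (nat_lit 261) (nat_lit 192) (nat_lit 147))) (XT.nd (nat_lit 78) (nat_lit 0) (nat_lit 0) (XT.lf (nat_lit 0) (nat_lit 2536115819184) (nat_lit 76) (nat_lit 3280699799939) (nat_lit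 76) (nat_lit 3277493942119) (nat_lit 1) (nat_lit 4) (nat_lit 2) (nat_lit 5) (nat_lit 2) (nat_lit 4) (nat_lit 262) (nat_lit 192) (nat_lit 146)) (XT.lf (nat_lit 0) (nat_lit 2918907000802) (nat_lit 76) (nat_lit 3771272486730) (nat_lit 76) (nat_lit 3768065952922) (nat_lit 1) (nat_lit 4) (nat_lit 2) (nat_lit 5) (nat_lit 2) (nat_lit 4) (nat_lit 263) (nat_lit 192) (nat_lit 145)))) (XT.nd (nat_lit 156) (nat_lit 0) (nat_lit 0) (XT.nd (nat_lit 78) (nat_lit 0) (nat_lit 0) (XT.lf (nat_lit 0) (nat_lit 3359115928188) (nat_lit 76) (nat_lit 4335431488801) (nat_lit 76) (nat_lit 4332224367179) (nat_lit 1) (nat_lit 4) (nat_lit 2) (nat_lit 5) (nat_lit 2) (nat_lit 4) (nat_lit 264) (nat_lit 192) (nat_lit 144)) (XT.lf (nat_lit 0) (nat_lit 3865355384705) (nat_lit 76) (nat_lit 4984214699672) (nat_lit 76) (nat_lit 4981007066906) (nat_lit 1) (nat_lit 4) (nat_lit 2) (nat_lit 5) (nat_lit 2) (nat_lit 4) (nat_lit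 265) (nat_lit 192) (nat_lit 143))) (XT.nd (nat_lit 78) (nat_lit 0) (nat_lit 0) (XT.lf (nat_lit 0) (nat_lit 4447530055371) (nat_lit 76) (nat_lit 5730315703903) (nat_lit 76) (nat_lit 5727107626664) (nat_lit 1) (nat_lit 4) (nat_lit 2) (nat_lit 5) (nat_lit 2) (nat_lit 4) (nat_lit 266) (nat_lit 192) (nat_lit 142)) (XT.lf (nat_lit 0) (nat_lit 5117030314179) (nat_lit 76) (nat_lit 6588332129838) (nat_lit 76) (nat_lit 6585123666101) (nat_lit 1) (nat_lit 4) (nat_lit 2) (nat_lit 5) (nat_lit 2) (nat_lit 4) (nat_lit 267) (nat_lit 192) (nat_lit 141))))) (XT.nd (nat_lit 312) (nat_lit 0) (nat_lit 0) (XT.nd (nat_lit 156) (nat_lit 0) (nat_lit 0) (XT.nd (nat_lit 78) (nat_lit 0) (nat_lit 0) (XT.lf (nat_lit 0) (nat_lit 5886955079234) (nat_lit 76) (nat_lit 7575051255375) (nat_lit 76) (nat_lit 7571842455553) (nat_lit 1) (nat_lit 4) (nat_lit 2) (nat_lit 5) (nat_lit 2) (nat_lit 4) (nat_lit 268) (nat_lit 192)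 (nat_lit 140)) (XT.lf (nat_lit 0) (nat_lit 6772368095941) (nat_lit 76) (nat_lit 8709778454710) (nat_lit 76) (nat_lit 8706569362640) (nat_lit 1) (nat_lit 4) (nat_lit 2) (nat_lit 5) (nat_lit 2) (nat_lit 4) (nat_lit 269) (nat_lit 192) (nat_lit 139))) (XT.nd (nat_lit 78) (nat_lit 0) (nat_lit 0) (XT.lf (nat_lit 0) (nat_lit 7790592662452) (nat_lit 76) (nat_lit 10014714912178) (nat_lit 76) (nat_lit 10011505565979) (nat_lit 1) (nat_lit 4) (nat_lit 2) (nat_lit 5) (nat_lit 2) (nat_lit 4) (nat_lit 270) (nat_lit 192) (nat_lit 138)) (XT.lf (nat_lit 0) (nat_lit 8961550563763) (nat_lit 76) (nat_lit 11515391993250) (nat_lit 76) (nat_lit 11512182426070) (nat_lit 1) (nat_lit 4) (nat_lit 2) (nat_lit 5) (nat_lit 2) (nat_lit 4) (nat_lit 271) (nat_lit 192) (nat_lit 137)))) (XT.nd (nat_lit 156) (nat_lit 0) (nat_lit 0) (XT.nd (nat_lit 78) (nat_lit 0) (nat_lit 0) (XT.lf (nat_lit 0) (nat_lit 10308151845772)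 (nat_lit 76) (nat_lit 13241170771253) (nat_lit 76) (nat_lit 13237961011915) (nat_lit 1) (nat_lit 4) (nat_lit 2) (nat_lit 5) (nat_lit 2) (nat_lit 4) (nat_lit 272) (nat_lit 192) (nat_lit 136)) (XT.lf (nat_lit 0) (nat_lit 11856743055298) (nat_lit 76) (nat_lit 15225816483146) (nat_lit 76) (nat_lit 15222606556715) (nat_lit 1) (nat_lit 4) (nat_lit 2) (nat_lit 5) (nat_lit 2) (nat_lit 4) (nat_lit 273) (nat_lit 192) (nat_lit 135))) (XT.nd (nat_lit 78) (nat_lit 0) (nat_lit 0) (XT.lf (nat_lit 0) (nat_lit 13637622716008) (nat_lit 76) (nat_lit 17508159153728) (nat_lit 76) (nat_lit 17504949081998) (nat_lit 1) (nat_lit 4) (nat_lit 2) (nat_lit 5) (nat_lit 2) (nat_lit 4) (nat_lit 274) (nat_lit 192) (nat_lit 134)) (XT.lf (nat_lit 0) (nat_lit 15685634125610) (nat_lit 76) (nat_lit 20132853313511) (nat_lit 76) (nat_lit 20129643115434) (nat_lit 1) (nat_lit 4) (nat_lit 2) (nat_lit 5) (nat_lit 2) (nat_lit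 4) (nat_lit 275) (nat_lit 192) (nat_lit 133)))))) (XT.nd (nat_lit 26676) (nat_lit 0) (nat_lit 76) (XT.nd (nat_lit 390) (nat_lit 0) (nat_lit 0) (XT.nd (nat_lit 156) (nat_lit 0) (nat_lit 0) (XT.nd (nat_lit 78) (nat_lit 0) (nat_lit 0) (XT.lf (nat_lit 0) (nat_lit 18040847072553) (nat_lit 76) (nat_lit 23151251674316) (nat_lit 76) (nat_lit 23148041366372) (nat_lit 1) (nat_lit 4) (nat_lit 2) (nat_lit 5) (nat_lit 2) (nat_lit 4) (nat_lit 276) (nat_lit 192) (nat_lit 132)) (XT.lf (nat_lit 0) (nat_lit 20749341810147) (nat_lit 76) (nat_lit 26622409856246) (nat_lit 76) (nat_lit 26619199452765) (nat_lit 1) (nat_lit 4) (nat_lit 2) (nat_lit 5) (nat_lit 2) (nat_lit 4) (nat_lit 277) (nat_lit 192) (nat_lit 131))) (XT.nd (nat_lit 156) (nat_lit 0) (nat_lit 0) (XT.lf (nat_lit 0) (nat_lit 23864110626736) (nat_lit 76) (nat_lit 30614241823729) (nat_lit 76) (nat_lit 30611031337173) (nat_lit 1) (nat_lit 4) (nat_lit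 2) (nat_lit 5) (nat_lit 2) (nat_lit 4) (nat_lit 278) (nat_lit 192) (nat_lit 130)) (XT.lf (nat_lit 0) (nat_lit 31565376180094) (nat_lit 76) (nat_lit 40484046516318) (nat_lit 76) (nat_lit 40480835894706) (nat_lit 1) (nat_lit 4) (nat_lit 2) (nat_lit 5) (nat_lit 2) (nat_lit 4) (nat_lit 280) (nat_lit 192) (nat_lit 128)))) (XT.nd (nat_lit 26130) (nat_lit 0) (nat_lit 228) (XT.nd (nat_lit 26052) (nat_lit 0) (nat_lit 304) (XT.lf (nat_lit 0) (nat_lit 36302549851603) (nat_lit 76) (nat_lit 46555124115843) (nat_lit 76) (nat_lit 46551913439608) (nat_lit 1) (nat_lit 4) (nat_lit 2) (nat_lit 5) (nat_lit 2) (nat_lit 4) (nat_lit 281) (nat_lit 192) (nat_lit 127)) (XT.lf (nat_lit 0) (nat_lit 3137976749) (nat_lit 152) (nat_lit 671664193) (nat_lit 0) (nat_lit 3137976749) (nat_lit 5) (nat_lit 5) (nat_lit 7) (nat_lit 4) (nat_lit 5) (nat_lit 4) (nat_lit 214) (nat_lit 193) (nat_lit 193))) (XT.nd (nat_lit 78)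 (nat_lit 0) (nat_lit 0) (XT.lf (nat_lit 0) (nat_lit 3918806159) (nat_lit 76) (nat_lit 6031699727) (nat_lit 76) (nat_lit 5477795260) (nat_lit 4) (nat_lit 4) (nat_lit 5) (nat_lit 5) (nat_lit 5) (nat_lit 4) (nat_lit 215) (nat_lit 193) (nat_lit 192)) (XT.lf (nat_lit 0) (nat_lit 9644102165) (nat_lit 76) (nat_lit 4309995038) (nat_lit 76) (nat_lit 3274434513) (nat_lit 4) (nat_lit 4) (nat_lit 5) (nat_lit 5) (nat_lit 5) (nat_lit 4) (nat_lit 216) (nat_lit 193) (nat_lit 191))))) (XT.nd (nat_lit 312) (nat_lit 0) (nat_lit 0) (XT.nd (nat_lit 156) (nat_lit 0) (nat_lit 0) (XT.nd (nat_lit 78) (nat_lit 152) (nat_lit 0) (XT.lf (nat_lit 0) (nat_lit 15813296472) (nat_lit 76) (nat_lit 2490701730) (nat_lit 76) (nat_lit 1036309849) (nat_lit 4) (nat_lit 4) (nat_lit 5) (nat_lit 5) (nat_lit 5) (nat_lit 4) (nat_lit 217) (nat_lit 193) (nat_lit 190)) (XT.lf (nat_lit 0) (nat_lit 756472269) (nat_lit 76) (nat_lit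 441232534) (nat_lit 152) (nat_lit 20594591531) (nat_lit 2) (nat_lit 5) (nat_lit 3) (nat_lit 5) (nat_lit 4) (nat_lit 4) (nat_lit 218) (nat_lit 193) (nat_lit 189))) (XT.nd (nat_lit 78) (nat_lit 0) (nat_lit 0) (XT.lf (nat_lit 0) (nat_lit 3708014400) (nat_lit 152) (nat_lit 19040552178) (nat_lit 0) (nat_lit 1851240716) (nat_lit 2) (nat_lit 5) (nat_lit 4) (nat_lit 4) (nat_lit 2) (nat_lit 4) (nat_lit 219) (nat_lit 193) (nat_lit 188)) (XT.lf (nat_lit 0) (nat_lit 6420074542) (nat_lit 152) (nat_lit 17112687781) (nat_lit 0) (nat_lit 4323832672) (nat_lit 2) (nat_lit 5) (nat_lit 4) (nat_lit 4) (nat_lit 2) (nat_lit 4) (nat_lit 220) (nat_lit 193) (nat_lit 187)))) (XT.nd (nat_lit 156) (nat_lit 0) (nat_lit 0) (XT.nd (nat_lit 78) (nat_lit 0) (nat_lit 0) (XT.lf (nat_lit 0) (nat_lit 9368676778) (nat_lit 152) (nat_lit 15196241289) (nat_lit 0) (nat_lit 7064201702) (nat_lit 2) (nat_lit 5) (nat_lit 4) (nat_lit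 4) (nat_lit 2) (nat_lit 4) (nat_lit 221) (nat_lit 193) (nat_lit 186)) (XT.lf (nat_lit 0) (nat_lit 12611511152) (nat_lit 152) (nat_lit 13253717010) (nat_lit 0) (nat_lit 10125963723) (nat_lit 2) (nat_lit 5) (nat_lit 4) (nat_lit 4) (nat_lit 2) (nat_lit 4) (nat_lit 222) (nat_lit 193) (nat_lit 185))) (XT.nd (nat_lit 78) (nat_lit 0) (nat_lit 0) (XT.lf (nat_lit 0) (nat_lit 16212024423) (nat_lit 152) (nat_lit 11247109035) (nat_lit 0) (nat_lit 13569022774) (nat_lit 2) (nat_lit 5) (nat_lit 4) (nat_lit 4) (nat_lit 2) (nat_lit 4) (nat_lit 223) (nat_lit 193) (nat_lit 184)) (XT.lf (nat_lit 0) (nat_lit 20240661416) (nat_lit 152) (nat_lit 9137157643) (nat_lit 0) (nat_lit 17460743054) (nat_lit 2) (nat_lit 5) (nat_lit 4) (nat_lit 4) (nat_lit 2) (nat_lit 4) (nat_lit 224) (nat_lit 193) (nat_lit 183))))))) (XT.nd (nat_lit 1248) (nat_lit 0) (nat_lit 0) (XT.nd (nat_lit 624) (nat_lit 0) (nat_lit 0) (XT.nd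 (nat_lit 312) (nat_lit 0) (nat_lit 0) (XT.nd (nat_lit 156) (nat_lit 76) (nat_lit 0) (XT.nd (nat_lit 78) (nat_lit 0) (nat_lit 0) (XT.lf (nat_lit 0) (nat_lit 24776243289) (nat_lit 152) (nat_lit 6882581175) (nat_lit 0) (nat_lit 21877266916) (nat_lit 2) (nat_lit 5) (nat_lit 4) (nat_lit 4) (nat_lit 2) (nat_lit 4) (nat_lit 225) (nat_lit 193) (nat_lit 182)) (XT.lf (nat_lit 0) (nat_lit 29907509688) (nat_lit 152) (nat_lit 4439268354) (nat_lit 0) (nat_lit 26905004610) (nat_lit 2) (nat_lit 5) (nat_lit 4) (nat_lit 4) (nat_lit 2) (nat_lit 4) (nat_lit 226) (nat_lit 193) (nat_lit 181))) (XT.nd (nat_lit 78) (nat_lit 76) (nat_lit 0) (XT.lf (nat_lit 0) (nat_lit 35734854956) (nat_lit 152) (nat_lit 1759415231) (nat_lit 0) (nat_lit 32642324917) (nat_lit 2) (nat_lit 5) (nat_lit 4) (nat_lit 4) (nat_lit 2) (nat_lit 4) (nat_lit 227) (nat_lit 193) (nat_lit 180)) (XT.lf (nat_lit 0) (nat_lit 1327602450) (nat_lit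 76) (nat_lit 41099663106) (nat_lit 76) (nat_lit 37928850491) (nat_lit 1) (nat_lit 4) (nat_lit 2) (nat_lit 5) (nat_lit 2) (nat_lit 4) (nat_lit 228) (nat_lit 193) (nat_lit 179)))) (XT.nd (nat_lit 156) (nat_lit 0) (nat_lit 0) (XT.nd (nat_lit 78) (nat_lit 0) (nat_lit 0) (XT.lf (nat_lit 0) (nat_lit 4967537931) (nat_lit 76) (nat_lit 45187842055) (nat_lit 76) (nat_lit 41948957636) (nat_lit 1) (nat_lit 4) (nat_lit 2) (nat_lit 5) (nat_lit 2) (nat_lit 4) (nat_lit 229) (nat_lit 193) (nat_lit 178)) (XT.lf (nat_lit 0) (nat_lit 9059664488) (nat_lit 76) (nat_lit 49930762580) (nat_lit 76) (nat_lit 46632685287) (nat_lit 1) (nat_lit 4) (nat_lit 2) (nat_lit 5) (nat_lit 2) (nat_lit 4) (nat_lit 230) (nat_lit 193) (nat_lit 177))) (XT.nd (nat_lit 78) (nat_lit 0) (nat_lit 0) (XT.lf (nat_lit 0) (nat_lit 13684045466) (nat_lit 76) (nat_lit 55421220950) (nat_lit 76) (nat_lit 52071671594) (nat_lit 1) (nat_lit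 4) (nat_lit 2) (nat_lit 5) (nat_lit 2) (nat_lit 4) (nat_lit 231) (nat_lit 193) (nat_lit 176)) (XT.lf (nat_lit 0) (nat_lit 18931157885) (nat_lit 76) (nat_lit 61766639178) (nat_lit 76) (nat_lit 58372331505) (nat_lit 1) (nat_lit 4) (nat_lit 2) (nat_lit 5) (nat_lit 2) (nat_lit 4) (nat_lit 232) (nat_lit 193) (nat_lit 175))))) (XT.nd (nat_lit 312) (nat_lit 0) (nat_lit 0) (XT.nd (nat_lit 156) (nat_lit 0) (nat_lit 0) (XT.nd (nat_lit 78) (nat_lit 0) (nat_lit 0) (XT.lf (nat_lit 0) (nat_lit 24903662640) (nat_lit 76) (nat_lit 69091166750) (nat_lit 76) (nat_lit 65657938803) (nat_lit 1) (nat_lit 4) (nat_lit 2) (nat_lit 5) (nat_lit 2) (nat_lit 4) (nat_lit 233) (nat_lit 193) (nat_lit 174)) (XT.lf (nat_lit 0) (nat_lit 31718413083) (nat_lit 76) (nat_lit 77538109641) (nat_lit 76) (nat_lit 74071037976) (nat_lit 1) (nat_lit 4) (nat_lit 2) (nat_lit 5) (nat_lit 2) (nat_lit 4) (nat_lit 234) (nat_lit 193)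 (nat_lit 173))) (XT.nd (nat_lit 78) (nat_lit 0) (nat_lit 0) (XT.lf (nat_lit 0) (nat_lit 39508741291) (nat_lit 76) (nat_lit 87272734125) (nat_lit 76) (nat_lit 83776233140) (nat_lit 1) (nat_lit 4) (nat_lit 2) (nat_lit 5) (nat_lit 2) (nat_lit 4) (nat_lit 235) (nat_lit 193) (nat_lit 172)) (XT.lf (nat_lit 0) (nat_lit 48427066727) (nat_lit 76) (nat_lit 98485500246) (nat_lit 76) (nat_lit 94963408548) (nat_lit 1) (nat_lit 4) (nat_lit 2) (nat_lit 5) (nat_lit 2) (nat_lit 4) (nat_lit 236) (nat_lit 193) (nat_lit 171)))) (XT.nd (nat_lit 156) (nat_lit 0) (nat_lit 0) (XT.nd (nat_lit 78) (nat_lit 0) (nat_lit 0) (XT.lf (nat_lit 0) (nat_lit 58647878366) (nat_lit 76) (nat_lit 111395788210) (nat_lit 76) (nat_lit 107851443719) (nat_lit 1) (nat_lit 4) (nat_lit 2) (nat_lit 5) (nat_lit 2) (nat_lit 4) (nat_lit 237) (nat_lit 193) (nat_lit 170)) (XT.lf (nat_lit 0) (nat_lit 70371148612) (nat_lit 76) (nat_lit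 126256190609) (nat_lit 76) (nat_lit 122692495863) (nat_lit 1) (nat_lit 4) (nat_lit 2) (nat_lit 5) (nat_lit 2) (nat_lit 4) (nat_lit 238) (nat_lit 193) (nat_lit 169))) (XT.nd (nat_lit 78) (nat_lit 0) (nat_lit 0) (XT.lf (nat_lit 0) (nat_lit 83826245795) (nat_lit 76) (nat_lit 143357454445) (nat_lit 76) (nat_lit 139776933390) (nat_lit 1) (nat_lit 4) (nat_lit 2) (nat_lit 5) (nat_lit 2) (nat_lit 4) (nat_lit 239) (nat_lit 193) (nat_lit 168)) (XT.lf (nat_lit 0) (nat_lit 99276421816) (nat_lit 76) (nat_lit 163034169664) (nat_lit 76) (nat_lit 159439017036) (nat_lit 1) (nat_lit 4) (nat_lit 2) (nat_lit 5) (nat_lit 2) (nat_lit 4) (nat_lit 240) (nat_lit 193) (nat_lit 167)))))) (XT.nd (nat_lit 624) (nat_lit 0) (nat_lit 0) (XT.nd (nat_lit 312) (nat_lit 0) (nat_lit 0) (XT.nd (nat_lit 156) (nat_lit 0) (nat_lit 0) (XT.nd (nat_lit 78) (nat_lit 0) (nat_lit 0) (XT.lf (nat_lit 0) (nat_lit 117023962728) (nat_lit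 76) (nat_lit 185671315476) (nat_lit 76) (nat_lit 182063439741) (nat_lit 1) (nat_lit 4) (nat_lit 2) (nat_lit 5) (nat_lit 2) (nat_lit 4) (nat_lit 241) (nat_lit 193) (nat_lit 166)) (XT.lf (nat_lit 0) (nat_lit 137416103026) (nat_lit 76) (nat_lit 211711792560) (nat_lit 76) (nat_lit 208092853253) (nat_lit 1) (nat_lit 4) (nat_lit 2) (nat_lit 5) (nat_lit 2) (nat_lit 4) (nat_lit 242) (nat_lit 193) (nat_lit 165))) (XT.nd (nat_lit 78) (nat_lit 0) (nat_lit 0) (XT.lf (nat_lit 0) (nat_lit 160851819370) (nat_lit 76) (nat_lit 241665088511) (nat_lit 76) (nat_lit 238036528708) (nat_lit 1) (nat_lit 4) (nat_lit 2) (nat_lit 5) (nat_lit 2) (nat_lit 4) (nat_lit 243) (nat_lit 193) (nat_lit 164)) (XT.lf (nat_lit 0) (nat_lit 187789636643) (nat_lit 76) (nat_lit 276117246076) (nat_lit 76) (nat_lit 272480320624) (nat_lit 1) (nat_lit 4) (nat_lit 2) (nat_lit 5) (nat_lit 2) (nat_lit 4) (nat_lit 244) (nat_lit 193)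 (nat_lit 163)))) (XT.nd (nat_lit 156) (nat_lit 0) (nat_lit 0) (XT.nd (nat_lit 78) (nat_lit 0) (nat_lit 0) (XT.lf (nat_lit 0) (nat_lit 218756599098) (nat_lit 76) (nat_lit 315742329208) (nat_lit 76) (nat_lit 312098129278) (nat_lit 1) (nat_lit 4) (nat_lit 2) (nat_lit 5) (nat_lit 2) (nat_lit 4) (nat_lit 245) (nat_lit 193) (nat_lit 162)) (XT.lf (nat_lit 0) (nat_lit 254358582086) (nat_lit 76) (nat_lit 361315611272) (nat_lit 76) (nat_lit 357665085709) (nat_lit 1) (nat_lit 4) (nat_lit 2) (nat_lit 5) (nat_lit 2) (nat_lit 4) (nat_lit 246) (nat_lit 193) (nat_lit 161))) (XT.nd (nat_lit 78) (nat_lit 0) (nat_lit 0) (XT.lf (nat_lit 0) (nat_lit 295292146143) (nat_lit 76) (nat_lit 413728743439) (nat_lit 76) (nat_lit 410072717325) (nat_lit 1) (nat_lit 4) (nat_lit 2) (nat_lit 5) (nat_lit 2) (nat_lit 4) (nat_lit 247) (nat_lit 193) (nat_lit 160)) (XT.lf (nat_lit 0) (nat_lit 342358165350) (nat_lit 76)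 (nat_lit 474007200033) (nat_lit 76) (nat_lit 470346390833) (nat_lit 1) (nat_lit 4) (nat_lit 2) (nat_lit 5) (nat_lit 2) (nat_lit 4) (nat_lit 248) (nat_lit 193) (nat_lit 159))))) (XT.nd (nat_lit 312) (nat_lit 0) (nat_lit 0) (XT.nd (nat_lit 156) (nat_lit 0) (nat_lit 0) (XT.nd (nat_lit 78) (nat_lit 0) (nat_lit 0) (XT.lf (nat_lit 0) (nat_lit 396477496604) (nat_lit 76) (nat_lit 543330342163) (nat_lit 76) (nat_lit 539665373756) (nat_lit 1) (nat_lit 4) (nat_lit 2) (nat_lit 5) (nat_lit 2) (nat_lit 4) (nat_lit 249) (nat_lit 193) (nat_lit 158)) (XT.lf (nat_lit 0) (nat_lit 458708996386) (nat_lit 76) (nat_lit 623054492174) (nat_lit 76) (nat_lit 619385907066) (nat_lit 1) (nat_lit 4) (nat_lit 2) (nat_lit 5) (nat_lit 2) (nat_lit 4) (nat_lit 250) (nat_lit 193) (nat_lit 157))) (XT.nd (nat_lit 78) (nat_lit 0) (nat_lit 0) (XT.lf (nat_lit 0) (nat_lit 530270237518) (nat_lit 76) (nat_lit 714739470392) (nat_lit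 76) (nat_lit 711067740327) (nat_lit 1) (nat_lit 4) (nat_lit 2) (nat_lit 5) (nat_lit 2) (nat_lit 4) (nat_lit 251) (nat_lit 193) (nat_lit 156)) (XT.lf (nat_lit 0) (nat_lit 612561331239) (nat_lit 76) (nat_lit 820179113348) (nat_lit 76) (nat_lit 816504648537) (nat_lit 1) (nat_lit 4) (nat_lit 2) (nat_lit 5) (nat_lit 2) (nat_lit 4) (nat_lit 252) (nat_lit 193) (nat_lit 155)))) (XT.nd (nat_lit 156) (nat_lit 0) (nat_lit 0) (XT.nd (nat_lit 78) (nat_lit 0) (nat_lit 0) (XT.lf (nat_lit 0) (nat_lit 707192320687) (nat_lit 76) (nat_lit 941436370578) (nat_lit 76) (nat_lit 937759527728) (nat_lit 1) (nat_lit 4) (nat_lit 2) (nat_lit 5) (nat_lit 2) (nat_lit 4) (nat_lit 253) (nat_lit 193) (nat_lit 154)) (XT.lf (nat_lit 0) (nat_lit 816014681743) (nat_lit 76) (nat_lit 1080883666680) (nat_lit 76) (nat_lit 1077204755969) (nat_lit 1) (nat_lit 4) (nat_lit 2) (nat_lit 5) (nat_lit 2) (nat_lit 4) (nat_lit 254)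 (nat_lit 193) (nat_lit 153))) (XT.nd (nat_lit 78) (nat_lit 0) (nat_lit 0) (XT.lf (nat_lit 0) (nat_lit 941157547559) (nat_lit 76) (nat_lit 1241249318317) (nat_lit 76) (nat_lit 1237568609467) (nat_lit 1) (nat_lit 4) (nat_lit 2) (nat_lit 5) (nat_lit 2) (nat_lit 4) (nat_lit 255) (nat_lit 193) (nat_lit 152)) (XT.lf (nat_lit 0) (nat_lit 1085069365507) (nat_lit 76) (nat_lit 1425670914325) (nat_lit 76) (nat_lit 1421988641875) (nat_lit 1) (nat_lit 4) (nat_lit 2) (nat_lit 5) (nat_lit 2) (nat_lit 4) (nat_lit 256) (nat_lit 193) (nat_lit 151))))))))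
noncomputable def xc19 : XT := (XT.nd (nat_lit 28236) (nat_lit 0) (nat_lit 0) (XT.nd (nat_lit 1248) (nat_lit 0) (nat_lit 0) (XT.nd (nat_lit 624) (nat_lit 0) (nat_lit 0) (XT.nd (nat_lit 312) (nat_lit 0) (nat_lit 0) (XT.nd (nat_lit 156) (nat_lit 0) (nat_lit 0) (XT.nd (nat_lit 78) (nat_lit 0) (nat_lit 0) (XT.lf (nat_lit 0) (nat_lit 1250565801593) (nat_lit 76) (nat_lit 1637756703322) (nat_lit 76) (nat_lit 1634073071220) (nat_lit 1) (nat_lit 4) (nat_lit 2) (nat_lit 5) (nat_lit 2) (nat_lit 4) (nat_lit 257) (nat_lit 193) (nat_lit 150)) (XT.lf (nat_lit 0) (nat_lit 1440884829565) (nat_lit 76) (nat_lit 1881656189875) (nat_lit 76) (nat_lit 1877971375466) (nat_lit 1) (nat_lit 4) (nat_lit 2) (nat_lit 5) (nat_lit 2) (nat_lit 4) (nat_lit 258) (nat_lit 193) (nat_lit 149))) (XT.nd (nat_lit 78) (nat_lit 0) (nat_lit 0) (XT.lf (nat_lit 0) (nat_lit 1659750082580) (nat_lit 76) (nat_lit 2162141320459) (nat_lit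 76) (nat_lit 2158455477959) (nat_lit 1) (nat_lit 4) (nat_lit 2) (nat_lit 5) (nat_lit 2) (nat_lit 4) (nat_lit 259) (nat_lit 193) (nat_lit 148)) (XT.lf (nat_lit 0) (nat_lit 1911443706891) (nat_lit 76) (nat_lit 2484699847631) (nat_lit 76) (nat_lit 2481013111138) (nat_lit 1) (nat_lit 4) (nat_lit 2) (nat_lit 5) (nat_lit 2) (nat_lit 4) (nat_lit 260) (nat_lit 193) (nat_lit 147)))) (XT.nd (nat_lit 156) (nat_lit 0) (nat_lit 0) (XT.nd (nat_lit 78) (nat_lit 0) (nat_lit 0) (XT.lf (nat_lit 0) (nat_lit 2200890142976) (nat_lit 76) (nat_lit 2855642699095) (nat_lit 76) (nat_lit 2851955185216) (nat_lit 1) (nat_lit 4) (nat_lit 2) (nat_lit 5) (nat_lit 2) (nat_lit 4) (nat_lit 261) (nat_lit 193) (nat_lit 146)) (XT.lf (nat_lit 0) (nat_lit 2533752473278) (nat_lit 76) (nat_lit 3282227452381) (nat_lit 76) (nat_lit 3278539262515) (nat_lit 1) (nat_lit 4) (nat_lit 2) (nat_lit 5) (nat_lit 2) (nat_lit 4) (nat_lit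 262) (nat_lit 193) (nat_lit 145))) (XT.nd (nat_lit 78) (nat_lit 0) (nat_lit 0) (XT.lf (nat_lit 0) (nat_lit 2916543221652) (nat_lit 76) (nat_lit 3772800330921) (nat_lit 76) (nat_lit 3769111553240) (nat_lit 1) (nat_lit 4) (nat_lit 2) (nat_lit 5) (nat_lit 2) (nat_lit 4) (nat_lit 263) (nat_lit 193) (nat_lit 144)) (XT.lf (nat_lit 0) (nat_lit 3356751772304) (nat_lit 76) (nat_lit 4336959499732) (nat_lit 76) (nat_lit 4333270210907) (nat_lit 1) (nat_lit 4) (nat_lit 2) (nat_lit 5) (nat_lit 2) (nat_lit 4) (nat_lit 264) (nat_lit 193) (nat_lit 143))))) (XT.nd (nat_lit 312) (nat_lit 0) (nat_lit 0) (XT.nd (nat_lit 156) (nat_lit 0) (nat_lit 0) (XT.nd (nat_lit 78) (nat_lit 0) (nat_lit 0) (XT.lf (nat_lit 0) (nat_lit 3862990901227) (nat_lit 76) (nat_lit 4985742855593) (nat_lit 76) (nat_lit 4982053122296) (nat_lit 1) (nat_lit 4) (nat_lit 2) (nat_lit 5) (nat_lit 2) (nat_lit 4) (nat_lit 265) (nat_lit 193)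 (nat_lit 142)) (XT.lf (nat_lit 0) (nat_lit 4445165287029) (nat_lit 76) (nat_lit 5731843985903) (nat_lit 76) (nat_lit 5728153866107) (nat_lit 1) (nat_lit 4) (nat_lit 2) (nat_lit 5) (nat_lit 2) (nat_lit 4) (nat_lit 266) (nat_lit 193) (nat_lit 141))) (XT.nd (nat_lit 78) (nat_lit 0) (nat_lit 0) (XT.lf (nat_lit 0) (nat_lit 5114665298127) (nat_lit 76) (nat_lit 6589860521471) (nat_lit 76) (nat_lit 6586170065591) (nat_lit 1) (nat_lit 4) (nat_lit 2) (nat_lit 5) (nat_lit 2) (nat_lit 4) (nat_lit 267) (nat_lit 193) (nat_lit 140)) (XT.lf (nat_lit 0) (nat_lit 5884589847784) (nat_lit 76) (nat_lit 7576579742342) (nat_lit 76) (nat_lit 7572888994213) (nat_lit 1) (nat_lit 4) (nat_lit 2) (nat_lit 5) (nat_lit 2) (nat_lit 4) (nat_lit 268) (nat_lit 193) (nat_lit 139)))) (XT.nd (nat_lit 156) (nat_lit 0) (nat_lit 0) (XT.nd (nat_lit 78) (nat_lit 0) (nat_lit 0) (XT.lf (nat_lit 0) (nat_lit 6770002677188) (nat_lit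 76) (nat_lit 8711307024576) (nat_lit 76) (nat_lit 8707616022319) (nat_lit 1) (nat_lit 4) (nat_lit 2) (nat_lit 5) (nat_lit 2) (nat_lit 4) (nat_lit 269) (nat_lit 193) (nat_lit 138)) (XT.lf (nat_lit 0) (nat_lit 7788227080826) (nat_lit 76) (nat_lit 10016243554129) (nat_lit 76) (nat_lit 10012552330891) (nat_lit 1) (nat_lit 4) (nat_lit 2) (nat_lit 5) (nat_lit 2) (nat_lit 4) (nat_lit 270) (nat_lit 193) (nat_lit 137))) (XT.nd (nat_lit 78) (nat_lit 0) (nat_lit 0) (XT.lf (nat_lit 0) (nat_lit 8959184840510) (nat_lit 76) (nat_lit 11516920697885) (nat_lit 76) (nat_lit 11513229282488) (nat_lit 1) (nat_lit 4) (nat_lit 2) (nat_lit 5) (nat_lit 2) (nat_lit 4) (nat_lit 271) (nat_lit 193) (nat_lit 136)) (XT.lf (nat_lit 0) (nat_lit 10305785999363) (nat_lit 76) (nat_lit 13242699530394) (nat_lit 76) (nat_lit 13239007947904) (nat_lit 1) (nat_lit 4) (nat_lit 2) (nat_lit 5) (nat_lit 2) (nat_lit 4) (nat_lit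 272) (nat_lit 193) (nat_lit 135)))))) (XT.nd (nat_lit 624) (nat_lit 0) (nat_lit 0) (XT.nd (nat_lit 312) (nat_lit 0) (nat_lit 0) (XT.nd (nat_lit 156) (nat_lit 0) (nat_lit 0) (XT.nd (nat_lit 78) (nat_lit 0) (nat_lit 0) (XT.lf (nat_lit 0) (nat_lit 11854377101799) (nat_lit 76) (nat_lit 15227345289686) (nat_lit 76) (nat_lit 15223653561897) (nat_lit 1) (nat_lit 4) (nat_lit 2) (nat_lit 5) (nat_lit 2) (nat_lit 4) (nat_lit 273) (nat_lit 193) (nat_lit 134)) (XT.lf (nat_lit 0) (nat_lit 13635256669385) (nat_lit 76) (nat_lit 17509688001483) (nat_lit 76) (nat_lit 17505996147347) (nat_lit 1) (nat_lit 4) (nat_lit 2) (nat_lit 5) (nat_lit 2) (nat_lit 4) (nat_lit 274) (nat_lit 193) (nat_lit 133))) (XT.nd (nat_lit 78) (nat_lit 0) (nat_lit 0) (XT.lf (nat_lit 0) (nat_lit 15683267998011) (nat_lit 76) (nat_lit 20134382197105) (nat_lit 76) (nat_lit 20130690233103) (nat_lit 1) (nat_lit 4) (nat_lit 2) (nat_lit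 5) (nat_lit 2) (nat_lit 4) (nat_lit 275) (nat_lit 193) (nat_lit 132)) (XT.lf (nat_lit 0) (nat_lit 18038480874540) (nat_lit 76) (nat_lit 23152780589075) (nat_lit 76) (nat_lit 23149088529536) (nat_lit 1) (nat_lit 4) (nat_lit 2) (nat_lit 5) (nat_lit 2) (nat_lit 4) (nat_lit 276) (nat_lit 193) (nat_lit 131)))) (XT.nd (nat_lit 156) (nat_lit 0) (nat_lit 0) (XT.nd (nat_lit 78) (nat_lit 0) (nat_lit 0) (XT.lf (nat_lit 0) (nat_lit 20746975550904) (nat_lit 76) (nat_lit 26623938798104) (nat_lit 76) (nat_lit 26620246655490) (nat_lit 1) (nat_lit 4) (nat_lit 2) (nat_lit 5) (nat_lit 2) (nat_lit 4) (nat_lit 277) (nat_lit 193) (nat_lit 130)) (XT.lf (nat_lit 0) (nat_lit 23861744314250) (nat_lit 76) (nat_lit 30615770789153) (nat_lit 76) (nat_lit 30612078574299) (nat_lit 1) (nat_lit 4) (nat_lit 2) (nat_lit 5) (nat_lit 2) (nat_lit 4) (nat_lit 278) (nat_lit 193) (nat_lit 129))) (XT.nd (nat_lit 78) (nat_lit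 0) (nat_lit 0) (XT.lf (nat_lit 0) (nat_lit 27443728292557) (nat_lit 76) (nat_lit 35206377622915) (nat_lit 76) (nat_lit 35202685345245) (nat_lit 1) (nat_lit 4) (nat_lit 2) (nat_lit 5) (nat_lit 2) (nat_lit 4) (nat_lit 279) (nat_lit 193) (nat_lit 128)) (XT.lf (nat_lit 0) (nat_lit 31563009781051) (nat_lit 76) (nat_lit 40485575520051) (nat_lit 76) (nat_lit 40481883187758) (nat_lit 1) (nat_lit 4) (nat_lit 2) (nat_lit 5) (nat_lit 2) (nat_lit 4) (nat_lit 280) (nat_lit 193) (nat_lit 127))))) (XT.nd (nat_lit 26052) (nat_lit 0) (nat_lit 228) (XT.nd (nat_lit 25896) (nat_lit 0) (nat_lit 304) (XT.nd (nat_lit 78) (nat_lit 0) (nat_lit 0) (XT.lf (nat_lit 0) (nat_lit 36300183417551) (nat_lit 76) (nat_lit 46556653135071) (nat_lit 76) (nat_lit 46552960755279) (nat_lit 1) (nat_lit 4) (nat_lit 2) (nat_lit 5) (nat_lit 2) (nat_lit 4) (nat_lit 281) (nat_lit 193) (nat_lit 126)) (XT.lf (nat_lit 0) (nat_lit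 41747933034076) (nat_lit 76) (nat_lit 53538392421311) (nat_lit 76) (nat_lit 53534700000216) (nat_lit 1) (nat_lit 4) (nat_lit 2) (nat_lit 5) (nat_lit 2) (nat_lit 4) (nat_lit 282) (nat_lit 193) (nat_lit 125))) (XT.nd (nat_lit 78) (nat_lit 0) (nat_lit 0) (XT.lf (nat_lit 0) (nat_lit 273762894) (nat_lit 152) (nat_lit 5187976150) (nat_lit 0) (nat_lit 273762894) (nat_lit 5) (nat_lit 5) (nat_lit 7) (nat_lit 4) (nat_lit 5) (nat_lit 4) (nat_lit 212) (nat_lit 194) (nat_lit 194)) (XT.lf (nat_lit 0) (nat_lit 3586178109) (nat_lit 152) (nat_lit 6050377377) (nat_lit 0) (nat_lit 2949187971) (nat_lit 5) (nat_lit 5) (nat_lit 7) (nat_lit 4) (nat_lit 5) (nat_lit 4) (nat_lit 213) (nat_lit 194) (nat_lit 193)))) (XT.nd (nat_lit 156) (nat_lit 0) (nat_lit 0) (XT.nd (nat_lit 78) (nat_lit 76) (nat_lit 0) (XT.lf (nat_lit 0) (nat_lit 6767130904) (nat_lit 152) (nat_lit 1575817231) (nat_lit 0) (nat_lit 5576236299)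 (nat_lit 5) (nat_lit 5) (nat_lit 7) (nat_lit 4) (nat_lit 5) (nat_lit 4) (nat_lit 214) (nat_lit 194) (nat_lit 192)) (XT.lf (nat_lit 0) (nat_lit 3441675644) (nat_lit 76) (nat_lit 6853457011) (nat_lit 76) (nat_lit 5180906348) (nat_lit 4) (nat_lit 4) (nat_lit 5) (nat_lit 5) (nat_lit 5) (nat_lit 4) (nat_lit 215) (nat_lit 194) (nat_lit 191))) (XT.nd (nat_lit 78) (nat_lit 0) (nat_lit 0) (XT.lf (nat_lit 0) (nat_lit 8973996720) (nat_lit 76) (nat_lit 5206481199) (nat_lit 76) (nat_lit 3115099181) (nat_lit 4) (nat_lit 4) (nat_lit 5) (nat_lit 5) (nat_lit 5) (nat_lit 4) (nat_lit 216) (nat_lit 194) (nat_lit 190)) (XT.lf (nat_lit 0) (nat_lit 14975386740) (nat_lit 76) (nat_lit 3452169522) (nat_lit 76) (nat_lit 996586326) (nat_lit 4) (nat_lit 4) (nat_lit 5) (nat_lit 5) (nat_lit 5) (nat_lit 4) (nat_lit 217) (nat_lit 194) (nat_lit 189))))))) (XT.nd (nat_lit 1248) (nat_lit 0) (nat_lit 0) (XT.nd (nat_lit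 624) (nat_lit 76) (nat_lit 0) (XT.nd (nat_lit 312) (nat_lit 0) (nat_lit 0) (XT.nd (nat_lit 156) (nat_lit 0) (nat_lit 0) (XT.nd (nat_lit 78) (nat_lit 76) (nat_lit 0) (XT.lf (nat_lit 0) (nat_lit 1107817406) (nat_lit 152) (nat_lit 390472449) (nat_lit 76) (nat_lit 20397538160) (nat_lit 3) (nat_lit 5) (nat_lit 5) (nat_lit 5) (nat_lit 4) (nat_lit 4) (nat_lit 218) (nat_lit 194) (nat_lit 188)) (XT.lf (nat_lit 0) (nat_lit 3464689579) (nat_lit 152) (nat_lit 20448019774) (nat_lit 0) (nat_lit 814543241) (nat_lit 2) (nat_lit 5) (nat_lit 4) (nat_lit 4) (nat_lit 2) (nat_lit 4) (nat_lit 219) (nat_lit 194) (nat_lit 187))) (XT.nd (nat_lit 78) (nat_lit 0) (nat_lit 0) (XT.lf (nat_lit 0) (nat_lit 6097555801) (nat_lit 152) (nat_lit 18659968197) (nat_lit 0) (nat_lit 3239176258) (nat_lit 2) (nat_lit 5) (nat_lit 4) (nat_lit 4) (nat_lit 2) (nat_lit 4) (nat_lit 220) (nat_lit 194) (nat_lit 186)) (XT.lf (nat_lit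 0) (nat_lit 8977293759) (nat_lit 152) (nat_lit 16865098072) (nat_lit 0) (nat_lit 5937841863) (nat_lit 2) (nat_lit 5) (nat_lit 4) (nat_lit 4) (nat_lit 2) (nat_lit 4) (nat_lit 221) (nat_lit 194) (nat_lit 185)))) (XT.nd (nat_lit 156) (nat_lit 0) (nat_lit 0) (XT.nd (nat_lit 78) (nat_lit 0) (nat_lit 0) (XT.lf (nat_lit 0) (nat_lit 12160246152) (nat_lit 152) (nat_lit 15028292372) (nat_lit 0) (nat_lit 8963340036) (nat_lit 2) (nat_lit 5) (nat_lit 4) (nat_lit 4) (nat_lit 2) (nat_lit 4) (nat_lit 222) (nat_lit 194) (nat_lit 184)) (XT.lf (nat_lit 0) (nat_lit 15708688135) (nat_lit 152) (nat_lit 13113613597) (nat_lit 0) (nat_lit 12374865306) (nat_lit 2) (nat_lit 5) (nat_lit 4) (nat_lit 4) (nat_lit 2) (nat_lit 4) (nat_lit 223) (nat_lit 194) (nat_lit 183))) (XT.nd (nat_lit 78) (nat_lit 0) (nat_lit 0) (XT.lf (nat_lit 0) (nat_lit 19692045748) (nat_lit 152) (nat_lit 11083600639) (nat_lit 0) (nat_lit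 16239164907) (nat_lit 2) (nat_lit 5) (nat_lit 4) (nat_lit 4) (nat_lit 2) (nat_lit 4) (nat_lit 224) (nat_lit 194) (nat_lit 182)) (XT.lf (nat_lit 0) (nat_lit 24188254247) (nat_lit 152) (nat_lit 8898535853) (nat_lit 0) (nat_lit 20631844701) (nat_lit 2) (nat_lit 5) (nat_lit 4) (nat_lit 4) (nat_lit 2) (nat_lit 4) (nat_lit 225) (nat_lit 194) (nat_lit 181))))) (XT.nd (nat_lit 312) (nat_lit 0) (nat_lit 0) (XT.nd (nat_lit 156) (nat_lit 76) (nat_lit 0) (XT.nd (nat_lit 78) (nat_lit 0) (nat_lit 0) (XT.lf (nat_lit 0) (nat_lit 29285282929) (nat_lit 152) (nat_lit 6515667972) (nat_lit 0) (nat_lit 25638848422) (nat_lit 2) (nat_lit 5) (nat_lit 4) (nat_lit 4) (nat_lit 2) (nat_lit 4) (nat_lit 226) (nat_lit 194) (nat_lit 180)) (XT.lf (nat_lit 0) (nat_lit 35082856269) (nat_lit 152) (nat_lit 3888375668) (nat_lit 0) (nat_lit 31358139187) (nat_lit 2) (nat_lit 5) (nat_lit 4) (nat_lit 4) (nat_lit 2) (nat_lit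 4) (nat_lit 227) (nat_lit 194) (nat_lit 179))) (XT.nd (nat_lit 78) (nat_lit 76) (nat_lit 0) (XT.lf (nat_lit 0) (nat_lit 41694405050) (nat_lit 152) (nat_lit 965255395) (nat_lit 0) (nat_lit 37901616164) (nat_lit 2) (nat_lit 5) (nat_lit 4) (nat_lit 4) (nat_lit 2) (nat_lit 4) (nat_lit 228) (nat_lit 194) (nat_lit 178)) (XT.lf (nat_lit 0) (nat_lit 2536720751) (nat_lit 76) (nat_lit 46817605106) (nat_lit 76) (nat_lit 42965623346) (nat_lit 1) (nat_lit 4) (nat_lit 2) (nat_lit 5) (nat_lit 2) (nat_lit 4) (nat_lit 229) (nat_lit 194) (nat_lit 177)))) (XT.nd (nat_lit 156) (nat_lit 0) (nat_lit 0) (XT.nd (nat_lit 78) (nat_lit 0) (nat_lit 0) (XT.lf (nat_lit 0) (nat_lit 6590910302) (nat_lit 76) (nat_lit 51577316219) (nat_lit 76) (nat_lit 47673862396) (nat_lit 1) (nat_lit 4) (nat_lit 2) (nat_lit 5) (nat_lit 2) (nat_lit 4) (nat_lit 230) (nat_lit 194) (nat_lit 176)) (XT.lf (nat_lit 0) (nat_lit 11182302580)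 (nat_lit 76) (nat_lit 57082375102) (nat_lit 76) (nat_lit 53134162962) (nat_lit 1) (nat_lit 4) (nat_lit 2) (nat_lit 5) (nat_lit 2) (nat_lit 4) (nat_lit 231) (nat_lit 194) (nat_lit 175))) (XT.nd (nat_lit 78) (nat_lit 0) (nat_lit 0) (XT.lf (nat_lit 0) (nat_lit 16400729172) (nat_lit 76) (nat_lit 63440489428) (nat_lit 76) (nat_lit 59453357013) (nat_lit 1) (nat_lit 4) (nat_lit 2) (nat_lit 5) (nat_lit 2) (nat_lit 4) (nat_lit 232) (nat_lit 194) (nat_lit 174)) (XT.lf (nat_lit 0) (nat_lit 22348289729) (nat_lit 76) (nat_lit 70776057085) (nat_lit 76) (nat_lit 66755080953) (nat_lit 1) (nat_lit 4) (nat_lit 2) (nat_lit 5) (nat_lit 2) (nat_lit 4) (nat_lit 233) (nat_lit 194) (nat_lit 173)))))) (XT.nd (nat_lit 624) (nat_lit 0) (nat_lit 0) (XT.nd (nat_lit 312) (nat_lit 0) (nat_lit 0) (XT.nd (nat_lit 156) (nat_lit 0) (nat_lit 0) (XT.nd (nat_lit 78) (nat_lit 0) (nat_lit 0) (XT.lf (nat_lit 0) (nat_lit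 29141349567) (nat_lit 76) (nat_lit 79232600050) (nat_lit 76) (nat_lit 75182194598) (nat_lit 1) (nat_lit 4) (nat_lit 2) (nat_lit 5) (nat_lit 2) (nat_lit 4) (nat_lit 234) (nat_lit 194) (nat_lit 172)) (XT.lf (nat_lit 0) (nat_lit 36912816378) (nat_lit 76) (nat_lit 88975572424) (nat_lit 76) (nat_lit 84899576260) (nat_lit 1) (nat_lit 4) (nat_lit 2) (nat_lit 5) (nat_lit 2) (nat_lit 4) (nat_lit 235) (nat_lit 194) (nat_lit 171))) (XT.nd (nat_lit 78) (nat_lit 0) (nat_lit 0) (XT.lf (nat_lit 0) (nat_lit 45814740599) (nat_lit 76) (nat_lit 100195597580) (nat_lit 76) (nat_lit 96097348622) (nat_lit 1) (nat_lit 4) (nat_lit 2) (nat_lit 5) (nat_lit 2) (nat_lit 4) (nat_lit 236) (nat_lit 194) (nat_lit 170)) (XT.lf (nat_lit 0) (nat_lit 56021290314) (nat_lit 76) (nat_lit 113112197749) (nat_lit 76) (nat_lit 108994598536) (nat_lit 1) (nat_lit 4) (nat_lit 2) (nat_lit 5) (nat_lit 2) (nat_lit 4) (nat_lit 237)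 (nat_lit 194) (nat_lit 169)))) (XT.nd (nat_lit 156) (nat_lit 0) (nat_lit 0) (XT.nd (nat_lit 78) (nat_lit 0) (nat_lit 0) (XT.lf (nat_lit 0) (nat_lit 67732158885) (nat_lit 76) (nat_lit 127978089021) (nat_lit 76) (nat_lit 123843663499) (nat_lit 1) (nat_lit 4) (nat_lit 2) (nat_lit 5) (nat_lit 2) (nat_lit 4) (nat_lit 238) (nat_lit 194) (nat_lit 168)) (XT.lf (nat_lit 0) (nat_lit 81176472003) (nat_lit 76) (nat_lit 145084125791) (nat_lit 76) (nat_lit 140935068696) (nat_lit 1) (nat_lit 4) (nat_lit 2) (nat_lit 5) (nat_lit 2) (nat_lit 4) (nat_lit 239) (nat_lit 194) (nat_lit 167))) (XT.nd (nat_lit 78) (nat_lit 0) (nat_lit 0) (XT.lf (nat_lit 0) (nat_lit 96617270576) (nat_lit 76) (nat_lit 164764991387) (nat_lit 76) (nat_lit 160603211184) (nat_lit 1) (nat_lit 4) (nat_lit 2) (nat_lit 5) (nat_lit 2) (nat_lit 4) (nat_lit 240) (nat_lit 194) (nat_lit 166)) (XT.lf (nat_lit 0) (nat_lit 114356657186) (nat_lit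 76) (nat_lit 187405746222) (nat_lit 76) (nat_lit 183232902448) (nat_lit 1) (nat_lit 4) (nat_lit 2) (nat_lit 5) (nat_lit 2) (nat_lit 4) (nat_lit 241) (nat_lit 194) (nat_lit 165))))) (XT.nd (nat_lit 312) (nat_lit 0) (nat_lit 0) (XT.nd (nat_lit 156) (nat_lit 0) (nat_lit 0) (XT.nd (nat_lit 78) (nat_lit 0) (nat_lit 0) (XT.lf (nat_lit 0) (nat_lit 134741706787) (nat_lit 76) (nat_lit 213449361587) (nat_lit 76) (nat_lit 209266897317) (nat_lit 1) (nat_lit 4) (nat_lit 2) (nat_lit 5) (nat_lit 2) (nat_lit 4) (nat_lit 242) (nat_lit 194) (nat_lit 164)) (XT.lf (nat_lit 0) (nat_lit 158171257306) (nat_lit 76) (nat_lit 243405386479) (nat_lit 76) (nat_lit 239214556559) (nat_lit 1) (nat_lit 4) (nat_lit 2) (nat_lit 5) (nat_lit 2) (nat_lit 4) (nat_lit 243) (nat_lit 194) (nat_lit 163))) (XT.nd (nat_lit 78) (nat_lit 0) (nat_lit 0) (XT.lf (nat_lit 0) (nat_lit 185103712994) (nat_lit 76) (nat_lit 277859917035)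 (nat_lit 76) (nat_lit 273661812638) (nat_lit 1) (nat_lit 4) (nat_lit 2) (nat_lit 5) (nat_lit 2) (nat_lit 4) (nat_lit 244) (nat_lit 194) (nat_lit 162)) (XT.lf (nat_lit 0) (nat_lit 216066013199) (nat_lit 76) (nat_lit 317487063638) (nat_lit 76) (nat_lit 313282633608) (nat_lit 1) (nat_lit 4) (nat_lit 2) (nat_lit 5) (nat_lit 2) (nat_lit 4) (nat_lit 245) (nat_lit 194) (nat_lit 161)))) (XT.nd (nat_lit 156) (nat_lit 0) (nat_lit 0) (XT.nd (nat_lit 78) (nat_lit 0) (nat_lit 0) (XT.lf (nat_lit 0) (nat_lit 251663942058) (nat_lit 76) (nat_lit 363062140024) (nat_lit 76) (nat_lit 358852209444) (nat_lit 1) (nat_lit 4) (nat_lit 2) (nat_lit 5) (nat_lit 2) (nat_lit 4) (nat_lit 246) (nat_lit 194) (nat_lit 160)) (XT.lf (nat_lit 0) (nat_lit 292593980785) (nat_lit 76) (nat_lit 415476832471) (nat_lit 76) (nat_lit 411262118804) (nat_lit 1) (nat_lit 4) (nat_lit 2) (nat_lit 5) (nat_lit 2) (nat_lit 4) (nat_lit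 247) (nat_lit 194) (nat_lit 159))) (XT.nd (nat_lit 78) (nat_lit 0) (nat_lit 0) (XT.lf (nat_lit 0) (nat_lit 339656934488) (nat_lit 76) (nat_lit 475756645831) (nat_lit 76) (nat_lit 471537772958) (nat_lit 1) (nat_lit 4) (nat_lit 2) (nat_lit 5) (nat_lit 2) (nat_lit 4) (nat_lit 248) (nat_lit 194) (nat_lit 158)) (XT.lf (nat_lit 0) (nat_lit 393773600086) (nat_lit 76) (nat_lit 545080967757) (nat_lit 76) (nat_lit 540858478182) (nat_lit 1) (nat_lit 4) (nat_lit 2) (nat_lit 5) (nat_lit 2) (nat_lit 4) (nat_lit 249) (nat_lit 194) (nat_lit 157))))))))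
noncomputable def xc20 : XT := (XT.nd (nat_lit 2496) (nat_lit 0) (nat_lit 0) (XT.nd (nat_lit 1248) (nat_lit 0) (nat_lit 0) (XT.nd (nat_lit 624) (nat_lit 0) (nat_lit 0) (XT.nd (nat_lit 312) (nat_lit 0) (nat_lit 0) (XT.nd (nat_lit 156) (nat_lit 0) (nat_lit 0) (XT.nd (nat_lit 78) (nat_lit 0) (nat_lit 0) (XT.lf (nat_lit 0) (nat_lit 456002781907) (nat_lit 76) (nat_lit 624806143678) (nat_lit 76) (nat_lit 620580509145) (nat_lit 1) (nat_lit 4) (nat_lit 2) (nat_lit 5) (nat_lit 2) (nat_lit 4) (nat_lit 250) (nat_lit 194) (nat_lit 156)) (XT.lf (nat_lit 0) (nat_lit 527562007419) (nat_lit 76) (nat_lit 716492013992) (nat_lit 76) (nat_lit 712263644714) (nat_lit 1) (nat_lit 4) (nat_lit 2) (nat_lit 5) (nat_lit 2) (nat_lit 4) (nat_lit 251) (nat_lit 194) (nat_lit 155))) (XT.nd (nat_lit 78) (nat_lit 0) (nat_lit 0) (XT.lf (nat_lit 0) (nat_lit 609851348429) (nat_lit 76) (nat_lit 821932432683) (nat_lit 76)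 (nat_lit 817701685365) (nat_lit 1) (nat_lit 4) (nat_lit 2) (nat_lit 5) (nat_lit 2) (nat_lit 4) (nat_lit 252) (nat_lit 194) (nat_lit 154)) (XT.lf (nat_lit 0) (nat_lit 704480813779) (nat_lit 76) (nat_lit 943190364465) (nat_lit 76) (nat_lit 938957549287) (nat_lit 1) (nat_lit 4) (nat_lit 2) (nat_lit 5) (nat_lit 2) (nat_lit 4) (nat_lit 253) (nat_lit 194) (nat_lit 153)))) (XT.nd (nat_lit 156) (nat_lit 0) (nat_lit 0) (XT.nd (nat_lit 78) (nat_lit 0) (nat_lit 0) (XT.lf (nat_lit 0) (nat_lit 813301849534) (nat_lit 76) (nat_lit 1082638247135) (nat_lit 76) (nat_lit 1078403633817) (nat_lit 1) (nat_lit 4) (nat_lit 2) (nat_lit 5) (nat_lit 2) (nat_lit 4) (nat_lit 254) (nat_lit 194) (nat_lit 152)) (XT.lf (nat_lit 0) (nat_lit 938443562912) (nat_lit 76) (nat_lit 1243004408830) (nat_lit 76) (nat_lit 1238768231912) (nat_lit 1) (nat_lit 4) (nat_lit 2) (nat_lit 5) (nat_lit 2) (nat_lit 4) (nat_lit 255) (nat_lit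 194) (nat_lit 151))) (XT.nd (nat_lit 78) (nat_lit 0) (nat_lit 0) (XT.lf (nat_lit 0) (nat_lit 1082354378742) (nat_lit 76) (nat_lit 1427426448367) (nat_lit 76) (nat_lit 1423188911797) (nat_lit 1) (nat_lit 4) (nat_lit 2) (nat_lit 5) (nat_lit 2) (nat_lit 4) (nat_lit 256) (nat_lit 194) (nat_lit 150)) (XT.lf (nat_lit 0) (nat_lit 1247849943420) (nat_lit 76) (nat_lit 1639512623041) (nat_lit 76) (nat_lit 1635273904166) (nat_lit 1) (nat_lit 4) (nat_lit 2) (nat_lit 5) (nat_lit 2) (nat_lit 4) (nat_lit 257) (nat_lit 194) (nat_lit 149))))) (XT.nd (nat_lit 312) (nat_lit 0) (nat_lit 0) (XT.nd (nat_lit 156) (nat_lit 0) (nat_lit 0) (XT.nd (nat_lit 78) (nat_lit 0) (nat_lit 0) (XT.lf (nat_lit 0) (nat_lit 1438168213647) (nat_lit 76) (nat_lit 1883412444965) (nat_lit 76) (nat_lit 1879172697998) (nat_lit 1) (nat_lit 4) (nat_lit 2) (nat_lit 5) (nat_lit 2) (nat_lit 4) (nat_lit 258) (nat_lit 194) (nat_lit 148))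 (XT.lf (nat_lit 0) (nat_lit 1657032807752) (nat_lit 76) (nat_lit 2163897867178) (nat_lit 76) (nat_lit 2159657226217) (nat_lit 1) (nat_lit 4) (nat_lit 2) (nat_lit 5) (nat_lit 2) (nat_lit 4) (nat_lit 259) (nat_lit 194) (nat_lit 147))) (XT.nd (nat_lit 78) (nat_lit 0) (nat_lit 0) (XT.lf (nat_lit 0) (nat_lit 1908725859099) (nat_lit 76) (nat_lit 2486456647939) (nat_lit 76) (nat_lit 2482215229593) (nat_lit 1) (nat_lit 4) (nat_lit 2) (nat_lit 5) (nat_lit 2) (nat_lit 4) (nat_lit 260) (nat_lit 194) (nat_lit 146)) (XT.lf (nat_lit 0) (nat_lit 2198171796953) (nat_lit 76) (nat_lit 2857399719915) (nat_lit 76) (nat_lit 2853157625582) (nat_lit 1) (nat_lit 4) (nat_lit 2) (nat_lit 5) (nat_lit 2) (nat_lit 4) (nat_lit 261) (nat_lit 194) (nat_lit 145)))) (XT.nd (nat_lit 156) (nat_lit 0) (nat_lit 0) (XT.nd (nat_lit 78) (nat_lit 0) (nat_lit 0) (XT.lf (nat_lit 0) (nat_lit 2531033694011) (nat_lit 76) (nat_lit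 3283984664951) (nat_lit 76) (nat_lit 3279741982802) (nat_lit 1) (nat_lit 4) (nat_lit 2) (nat_lit 5) (nat_lit 2) (nat_lit 4) (nat_lit 262) (nat_lit 194) (nat_lit 144)) (XT.lf (nat_lit 0) (nat_lit 2913824065652) (nat_lit 76) (nat_lit 3774557710230) (nat_lit 76) (nat_lit 3770314516938) (nat_lit 1) (nat_lit 4) (nat_lit 2) (nat_lit 5) (nat_lit 2) (nat_lit 4) (nat_lit 263) (nat_lit 194) (nat_lit 143))) (XT.nd (nat_lit 78) (nat_lit 0) (nat_lit 0) (XT.lf (nat_lit 0) (nat_lit 3354032288710) (nat_lit 76) (nat_lit 4338717024031) (nat_lit 76) (nat_lit 4334473386266) (nat_lit 1) (nat_lit 4) (nat_lit 2) (nat_lit 5) (nat_lit 2) (nat_lit 4) (nat_lit 264) (nat_lit 194) (nat_lit 142)) (XT.lf (nat_lit 0) (nat_lit 3860271132768) (nat_lit 76) (nat_lit 4987500505971) (nat_lit 76) (nat_lit 4983256481708) (nat_lit 1) (nat_lit 4) (nat_lit 2) (nat_lit 5) (nat_lit 2) (nat_lit 4) (nat_lit 265) (nat_lit 194)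 (nat_lit 141)))))) (XT.nd (nat_lit 624) (nat_lit 0) (nat_lit 0) (XT.nd (nat_lit 312) (nat_lit 0) (nat_lit 0) (XT.nd (nat_lit 156) (nat_lit 0) (nat_lit 0) (XT.nd (nat_lit 78) (nat_lit 0) (nat_lit 0) (XT.lf (nat_lit 0) (nat_lit 4442445270861) (nat_lit 76) (nat_lit 5733601745914) (nat_lit 76) (nat_lit 5729357385566) (nat_lit 1) (nat_lit 4) (nat_lit 2) (nat_lit 5) (nat_lit 2) (nat_lit 4) (nat_lit 266) (nat_lit 194) (nat_lit 140)) (XT.lf (nat_lit 0) (nat_lit 5111945066561) (nat_lit 76) (nat_lit 6591618376816) (nat_lit 76) (nat_lit 6587373724220) (nat_lit 1) (nat_lit 4) (nat_lit 2) (nat_lit 5) (nat_lit 2) (nat_lit 4) (nat_lit 267) (nat_lit 194) (nat_lit 139))) (XT.nd (nat_lit 78) (nat_lit 0) (nat_lit 0) (XT.lf (nat_lit 0) (nat_lit 5881869428915) (nat_lit 76) (nat_lit 7578337680586) (nat_lit 76) (nat_lit 7574092773861) (nat_lit 1) (nat_lit 4) (nat_lit 2) (nat_lit 5) (nat_lit 2) (nat_lit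 4) (nat_lit 268) (nat_lit 194) (nat_lit 138)) (XT.lf (nat_lit 0) (nat_lit 6767282095446) (nat_lit 76) (nat_lit 8713065034905) (nat_lit 76) (nat_lit 8708819907199) (nat_lit 1) (nat_lit 4) (nat_lit 2) (nat_lit 5) (nat_lit 2) (nat_lit 4) (nat_lit 269) (nat_lit 194) (nat_lit 137)))) (XT.nd (nat_lit 156) (nat_lit 0) (nat_lit 0) (XT.nd (nat_lit 78) (nat_lit 0) (nat_lit 0) (XT.lf (nat_lit 0) (nat_lit 7785506357456) (nat_lit 76) (nat_lit 10018001627142) (nat_lit 76) (nat_lit 10013756307279) (nat_lit 1) (nat_lit 4) (nat_lit 2) (nat_lit 5) (nat_lit 2) (nat_lit 4) (nat_lit 270) (nat_lit 194) (nat_lit 136)) (XT.lf (nat_lit 0) (nat_lit 8956463993985) (nat_lit 76) (nat_lit 11518678825405) (nat_lit 76) (nat_lit 11514433338448) (nat_lit 1) (nat_lit 4) (nat_lit 2) (nat_lit 5) (nat_lit 2) (nat_lit 4) (nat_lit 271) (nat_lit 194) (nat_lit 135))) (XT.nd (nat_lit 78) (nat_lit 0) (nat_lit 0) (XT.lf (nat_lit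 0) (nat_lit 10303065045748) (nat_lit 76) (nat_lit 13244457705312) (nat_lit 76) (nat_lit 13240212073056) (nat_lit 1) (nat_lit 4) (nat_lit 2) (nat_lit 5) (nat_lit 2) (nat_lit 4) (nat_lit 272) (nat_lit 194) (nat_lit 134)) (XT.lf (nat_lit 0) (nat_lit 11851656055060) (nat_lit 76) (nat_lit 15229103505819) (nat_lit 76) (nat_lit 15224857747216) (nat_lit 1) (nat_lit 4) (nat_lit 2) (nat_lit 5) (nat_lit 2) (nat_lit 4) (nat_lit 273) (nat_lit 194) (nat_lit 133))))) (XT.nd (nat_lit 312) (nat_lit 0) (nat_lit 0) (XT.nd (nat_lit 156) (nat_lit 0) (nat_lit 0) (XT.nd (nat_lit 78) (nat_lit 0) (nat_lit 0) (XT.lf (nat_lit 0) (nat_lit 13632535541671) (nat_lit 76) (nat_lit 17511446253456) (nat_lit 76) (nat_lit 17507200384986) (nat_lit 1) (nat_lit 4) (nat_lit 2) (nat_lit 5) (nat_lit 2) (nat_lit 4) (nat_lit 274) (nat_lit 194) (nat_lit 132)) (XT.lf (nat_lit 0) (nat_lit 15680546799882) (nat_lit 76) (nat_lit 20136140480243)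 (nat_lit 76) (nat_lit 20131894516236) (nat_lit 1) (nat_lit 4) (nat_lit 2) (nat_lit 5) (nat_lit 2) (nat_lit 4) (nat_lit 275) (nat_lit 194) (nat_lit 131))) (XT.nd (nat_lit 78) (nat_lit 0) (nat_lit 0) (XT.lf (nat_lit 0) (nat_lit 18035759615181) (nat_lit 76) (nat_lit 23154538899312) (nat_lit 76) (nat_lit 23150292852231) (nat_lit 1) (nat_lit 4) (nat_lit 2) (nat_lit 5) (nat_lit 2) (nat_lit 4) (nat_lit 276) (nat_lit 194) (nat_lit 130)) (XT.lf (nat_lit 0) (nat_lit 20744254238302) (nat_lit 76) (nat_lit 26625697131906) (nat_lit 76) (nat_lit 26621451012586) (nat_lit 1) (nat_lit 4) (nat_lit 2) (nat_lit 5) (nat_lit 2) (nat_lit 4) (nat_lit 277) (nat_lit 194) (nat_lit 129)))) (XT.nd (nat_lit 156) (nat_lit 0) (nat_lit 0) (XT.nd (nat_lit 78) (nat_lit 0) (nat_lit 0) (XT.lf (nat_lit 0) (nat_lit 23859022955350) (nat_lit 76) (nat_lit 30617529143446) (nat_lit 76) (nat_lit 30613282961309) (nat_lit 1) (nat_lit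 4) (nat_lit 2) (nat_lit 5) (nat_lit 2) (nat_lit 4) (nat_lit 278) (nat_lit 194) (nat_lit 128)) (XT.lf (nat_lit 0) (nat_lit 27441006893396) (nat_lit 76) (nat_lit 35208135995027) (nat_lit 76) (nat_lit 35203889758266) (nat_lit 1) (nat_lit 4) (nat_lit 2) (nat_lit 5) (nat_lit 2) (nat_lit 4) (nat_lit 279) (nat_lit 194) (nat_lit 127))) (XT.nd (nat_lit 78) (nat_lit 0) (nat_lit 0) (XT.lf (nat_lit 0) (nat_lit 31560288346882) (nat_lit 76) (nat_lit 40487333907658) (nat_lit 76) (nat_lit 40483087623398) (nat_lit 1) (nat_lit 4) (nat_lit 2) (nat_lit 5) (nat_lit 2) (nat_lit 4) (nat_lit 280) (nat_lit 194) (nat_lit 126)) (XT.lf (nat_lit 0) (nat_lit 36297461952941) (nat_lit 76) (nat_lit 46558411536151) (nat_lit 76) (nat_lit 46554165210588) (nat_lit 1) (nat_lit 4) (nat_lit 2) (nat_lit 5) (nat_lit 2) (nat_lit 4) (nat_lit 281) (nat_lit 194) (nat_lit 125))))))) (XT.nd (nat_lit 26832) (nat_lit 0) (nat_lit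 0) (XT.nd (nat_lit 26208) (nat_lit 0) (nat_lit 76) (XT.nd (nat_lit 25896) (nat_lit 0) (nat_lit 228) (XT.nd (nat_lit 25740) (nat_lit 0) (nat_lit 304) (XT.nd (nat_lit 25662) (nat_lit 0) (nat_lit 456) (XT.lf (nat_lit 0) (nat_lit 41745211542994) (nat_lit 76) (nat_lit 53540150834107) (nat_lit 76) (nat_lit 53535904472629) (nat_lit 1) (nat_lit 4) (nat_lit 2) (nat_lit 5) (nat_lit 2) (nat_lit 4) (nat_lit 282) (nat_lit 194) (nat_lit 124)) (XT.lf (nat_lit 0) (nat_lit 621956705) (nat_lit 152) (nat_lit 2106532934) (nat_lit 152) (nat_lit 2106532934) (nat_lit 7) (nat_lit 4) (nat_lit 9) (nat_lit 5) (nat_lit 9) (nat_lit 4) (nat_lit 210) (nat_lit 195) (nat_lit 195))) (XT.nd (nat_lit 78) (nat_lit 152) (nat_lit 0) (XT.lf (nat_lit 0) (nat_lit 6602716370) (nat_lit 152) (nat_lit 2370399774) (nat_lit 152) (nat_lit 1527980317) (nat_lit 7) (nat_lit 4) (nat_lit 9) (nat_lit 5) (nat_lit 9) (nat_lit 4) (nat_lit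 211) (nat_lit 195) (nat_lit 194)) (XT.lf (nat_lit 0) (nat_lit 841788937) (nat_lit 76) (nat_lit 282279458) (nat_lit 152) (nat_lit 10372723604) (nat_lit 5) (nat_lit 5) (nat_lit 6) (nat_lit 5) (nat_lit 7) (nat_lit 4) (nat_lit 212) (nat_lit 195) (nat_lit 193)))) (XT.nd (nat_lit 156) (nat_lit 76) (nat_lit 0) (XT.nd (nat_lit 78) (nat_lit 0) (nat_lit 0) (XT.lf (nat_lit 0) (nat_lit 4005219394) (nat_lit 152) (nat_lit 6550228393) (nat_lit 0) (nat_lit 2081786131) (nat_lit 5) (nat_lit 5) (nat_lit 7) (nat_lit 4) (nat_lit 5) (nat_lit 4) (nat_lit 213) (nat_lit 195) (nat_lit 192)) (XT.lf (nat_lit 0) (nat_lit 7059378509) (nat_lit 152) (nat_lit 2277832460) (nat_lit 0) (nat_lit 4654289188) (nat_lit 5) (nat_lit 5) (nat_lit 7) (nat_lit 4) (nat_lit 5) (nat_lit 4) (nat_lit 214) (nat_lit 195) (nat_lit 191))) (XT.nd (nat_lit 78) (nat_lit 0) (nat_lit 0) (XT.lf (nat_lit 0) (nat_lit 2478079452) (nat_lit 76)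 (nat_lit 7959144972) (nat_lit 76) (nat_lit 5135224296) (nat_lit 4) (nat_lit 4) (nat_lit 5) (nat_lit 5) (nat_lit 5) (nat_lit 4) (nat_lit 215) (nat_lit 195) (nat_lit 190)) (XT.lf (nat_lit 0) (nat_lit 7842596240) (nat_lit 76) (nat_lit 6377150791) (nat_lit 76) (nat_lit 3189028937) (nat_lit 4) (nat_lit 4) (nat_lit 5) (nat_lit 5) (nat_lit 5) (nat_lit 4) (nat_lit 216) (nat_lit 195) (nat_lit 189))))) (XT.nd (nat_lit 312) (nat_lit 0) (nat_lit 0) (XT.nd (nat_lit 156) (nat_lit 76) (nat_lit 0) (XT.nd (nat_lit 78) (nat_lit 76) (nat_lit 0) (XT.lf (nat_lit 0) (nat_lit 13698069488) (nat_lit 76) (nat_lit 4679344881) (nat_lit 76) (nat_lit 1174526350) (nat_lit 4) (nat_lit 4) (nat_lit 5) (nat_lit 5) (nat_lit 5) (nat_lit 4) (nat_lit 217) (nat_lit 195) (nat_lit 188)) (XT.lf (nat_lit 0) (nat_lit 863327046) (nat_lit 152) (nat_lit 1924053795) (nat_lit 76) (nat_lit 19250607297) (nat_lit 3) (nat_lit 5) (nat_lit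 5) (nat_lit 5) (nat_lit 4) (nat_lit 4) (nat_lit 218) (nat_lit 195) (nat_lit 187))) (XT.nd (nat_lit 78) (nat_lit 0) (nat_lit 0) (XT.lf (nat_lit 0) (nat_lit 2508697346) (nat_lit 76) (nat_lit 527754969) (nat_lit 152) (nat_lit 21861303312) (nat_lit 2) (nat_lit 5) (nat_lit 3) (nat_lit 5) (nat_lit 4) (nat_lit 4) (nat_lit 219) (nat_lit 195) (nat_lit 186)) (XT.lf (nat_lit 0) (nat_lit 5578601052) (nat_lit 152) (nat_lit 20700729864) (nat_lit 0) (nat_lit 1902159018) (nat_lit 2) (nat_lit 5) (nat_lit 4) (nat_lit 4) (nat_lit 2) (nat_lit 4) (nat_lit 220) (nat_lit 195) (nat_lit 185)))) (XT.nd (nat_lit 156) (nat_lit 0) (nat_lit 0) (XT.nd (nat_lit 78) (nat_lit 0) (nat_lit 0) (XT.lf (nat_lit 0) (nat_lit 8398457029) (nat_lit 152) (nat_lit 19011578317) (nat_lit 0) (nat_lit 4564560776) (nat_lit 2) (nat_lit 5) (nat_lit 4) (nat_lit 4) (nat_lit 2) (nat_lit 4) (nat_lit 221) (nat_lit 195) (nat_lit 184)) (XT.lf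 (nat_lit 0) (nat_lit 11529338134) (nat_lit 152) (nat_lit 17266701817) (nat_lit 0) (nat_lit 7558525168) (nat_lit 2) (nat_lit 5) (nat_lit 4) (nat_lit 4) (nat_lit 2) (nat_lit 4) (nat_lit 222) (nat_lit 195) (nat_lit 183))) (XT.nd (nat_lit 78) (nat_lit 0) (nat_lit 0) (XT.lf (nat_lit 0) (nat_lit 15032500737) (nat_lit 152) (nat_lit 15431961476) (nat_lit 0) (nat_lit 10942629759) (nat_lit 2) (nat_lit 5) (nat_lit 4) (nat_lit 4) (nat_lit 2) (nat_lit 4) (nat_lit 223) (nat_lit 195) (nat_lit 182)) (XT.lf (nat_lit 0) (nat_lit 18976484975) (nat_lit 152) (nat_lit 13471460200) (nat_lit 0) (nat_lit 14783085292) (nat_lit 2) (nat_lit 5) (nat_lit 4) (nat_lit 4) (nat_lit 2) (nat_lit 4) (nat_lit 224) (nat_lit 195) (nat_lit 181)))))) (XT.nd (nat_lit 624) (nat_lit 0) (nat_lit 0) (XT.nd (nat_lit 312) (nat_lit 76) (nat_lit 0) (XT.nd (nat_lit 156) (nat_lit 0) (nat_lit 0) (XT.nd (nat_lit 78) (nat_lit 0) (nat_lit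 0) (XT.lf (nat_lit 0) (nat_lit 23438455757) (nat_lit 152) (nat_lit 11346840355) (nat_lit 0) (nat_lit 19155031112) (nat_lit 2) (nat_lit 5) (nat_lit 4) (nat_lit 4) (nat_lit 2) (nat_lit 4) (nat_lit 225) (nat_lit 195) (nat_lit 180)) (XT.lf (nat_lit 0) (nat_lit 28505712512) (nat_lit 152) (nat_lit 9016533292) (nat_lit 0) (nat_lit 24144005292) (nat_lit 2) (nat_lit 5) (nat_lit 4) (nat_lit 4) (nat_lit 2) (nat_lit 4) (nat_lit 226) (nat_lit 195) (nat_lit 179))) (XT.nd (nat_lit 78) (nat_lit 0) (nat_lit 0) (XT.lf (nat_lit 0) (nat_lit 34277397219) (nat_lit 152) (nat_lit 6434946047) (nat_lit 0) (nat_lit 29847618195) (nat_lit 2) (nat_lit 5) (nat_lit 4) (nat_lit 4) (nat_lit 2) (nat_lit 4) (nat_lit 227) (nat_lit 195) (nat_lit 178)) (XT.lf (nat_lit 0) (nat_lit 40866434145) (nat_lit 152) (nat_lit 3551569304) (nat_lit 0) (nat_lit 36377462248) (nat_lit 2) (nat_lit 5) (nat_lit 4) (nat_lit 4) (nat_lit 2)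 (nat_lit 4) (nat_lit 228) (nat_lit 195) (nat_lit 177)))) (XT.nd (nat_lit 156) (nat_lit 0) (nat_lit 0) (XT.nd (nat_lit 78) (nat_lit 76) (nat_lit 0) (XT.lf (nat_lit 0) (nat_lit 48401739229) (nat_lit 152) (nat_lit 309989171) (nat_lit 0) (nat_lit 43861295268) (nat_lit 2) (nat_lit 5) (nat_lit 4) (nat_lit 4) (nat_lit 2) (nat_lit 4) (nat_lit 229) (nat_lit 195) (nat_lit 176)) (XT.lf (nat_lit 0) (nat_lit 3680917282) (nat_lit 76) (nat_lit 53502244007) (nat_lit 76) (nat_lit 48917041730) (nat_lit 1) (nat_lit 4) (nat_lit 2) (nat_lit 5) (nat_lit 2) (nat_lit 4) (nat_lit 230) (nat_lit 195) (nat_lit 175))) (XT.nd (nat_lit 78) (nat_lit 0) (nat_lit 0) (XT.lf (nat_lit 0) (nat_lit 8243623733) (nat_lit 76) (nat_lit 59019998987) (nat_lit 76) (nat_lit 54395876435) (nat_lit 1) (nat_lit 4) (nat_lit 2) (nat_lit 5) (nat_lit 2) (nat_lit 4) (nat_lit 231) (nat_lit 195) (nat_lit 174)) (XT.lf (nat_lit 0) (nat_lit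 13437106128) (nat_lit 76) (nat_lit 65389153398) (nat_lit 76) (nat_lit 60731187128) (nat_lit 1) (nat_lit 4) (nat_lit 2) (nat_lit 5) (nat_lit 2) (nat_lit 4) (nat_lit 232) (nat_lit 195) (nat_lit 173))))) (XT.nd (nat_lit 312) (nat_lit 0) (nat_lit 0) (XT.nd (nat_lit 156) (nat_lit 0) (nat_lit 0) (XT.nd (nat_lit 78) (nat_lit 0) (nat_lit 0) (XT.lf (nat_lit 0) (nat_lit 19362976080) (nat_lit 76) (nat_lit 72734321129) (nat_lit 76) (nat_lit 68046925540) (nat_lit 1) (nat_lit 4) (nat_lit 2) (nat_lit 5) (nat_lit 2) (nat_lit 4) (nat_lit 233) (nat_lit 195) (nat_lit 172)) (XT.lf (nat_lit 0) (nat_lit 26137174521) (nat_lit 76) (nat_lit 81199211985) (nat_lit 76) (nat_lit 76486225683) (nat_lit 1) (nat_lit 4) (nat_lit 2) (nat_lit 5) (nat_lit 2) (nat_lit 4) (nat_lit 234) (nat_lit 195) (nat_lit 171))) (XT.nd (nat_lit 78) (nat_lit 0) (nat_lit 0) (XT.lf (nat_lit 0) (nat_lit 33892240117) (nat_lit 76) (nat_lit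 90949443394) (nat_lit 76) (nat_lit 86214204299) (nat_lit 1) (nat_lit 4) (nat_lit 2) (nat_lit 5) (nat_lit 2) (nat_lit 4) (nat_lit 235) (nat_lit 195) (nat_lit 170)) (XT.lf (nat_lit 0) (nat_lit 42779902413) (nat_lit 76) (nat_lit 102175780755) (nat_lit 76) (nat_lit 97421191404) (nat_lit 1) (nat_lit 4) (nat_lit 2) (nat_lit 5) (nat_lit 2) (nat_lit 4) (nat_lit 236) (nat_lit 195) (nat_lit 169)))) (XT.nd (nat_lit 156) (nat_lit 0) (nat_lit 0) (XT.nd (nat_lit 78) (nat_lit 0) (nat_lit 0) (XT.lf (nat_lit 0) (nat_lit 52974050453) (nat_lit 76) (nat_lit 115097869797) (nat_lit 76) (nat_lit 110326454137) (nat_lit 1) (nat_lit 4) (nat_lit 2) (nat_lit 5) (nat_lit 2) (nat_lit 4) (nat_lit 237) (nat_lit 195) (nat_lit 168)) (XT.lf (nat_lit 0) (nat_lit 64674134959) (nat_lit 76) (nat_lit 129968534002) (nat_lit 76) (nat_lit 125182486770) (nat_lit 1) (nat_lit 4) (nat_lit 2) (nat_lit 5) (nat_lit 2) (nat_lit 4)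 (nat_lit 238) (nat_lit 195) (nat_lit 167))) (XT.nd (nat_lit 78) (nat_lit 0) (nat_lit 0) (XT.lf (nat_lit 0) (nat_lit 78109070630) (nat_lit 76) (nat_lit 147078721149) (nat_lit 76) (nat_lit 142279950809) (nat_lit 1) (nat_lit 4) (nat_lit 2) (nat_lit 5) (nat_lit 2) (nat_lit 4) (nat_lit 239) (nat_lit 195) (nat_lit 166)) (XT.lf (nat_lit 0) (nat_lit 93541714901) (nat_lit 76) (nat_lit 166763195768) (nat_lit 76) (nat_lit 161953361857) (nat_lit 1) (nat_lit 4) (nat_lit 2) (nat_lit 5) (nat_lit 2) (nat_lit 4) (nat_lit 240) (nat_lit 195) (nat_lit 165))))))))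
noncomputable def xc21 : XT := (XT.nd (nat_lit 2496) (nat_lit 0) (nat_lit 0) (XT.nd (nat_lit 1248) (nat_lit 0) (nat_lit 0) (XT.nd (nat_lit 624) (nat_lit 0) (nat_lit 0) (XT.nd (nat_lit 312) (nat_lit 0) (nat_lit 0) (XT.nd (nat_lit 156) (nat_lit 0) (nat_lit 0) (XT.nd (nat_lit 78) (nat_lit 0) (nat_lit 0) (XT.lf (nat_lit 0) (nat_lit 111274010813) (nat_lit 76) (nat_lit 189407088885) (nat_lit 76) (nat_lit 184587634477) (nat_lit 1) (nat_lit 4) (nat_lit 2) (nat_lit 5) (nat_lit 2) (nat_lit 4) (nat_lit 241) (nat_lit 195) (nat_lit 164)) (XT.lf (nat_lit 0) (nat_lit 131652894590) (nat_lit 76) (nat_lit 215453433190) (nat_lit 76) (nat_lit 210625613133) (nat_lit 1) (nat_lit 4) (nat_lit 2) (nat_lit 5) (nat_lit 2) (nat_lit 4) (nat_lit 242) (nat_lit 195) (nat_lit 163))) (XT.nd (nat_lit 78) (nat_lit 0) (nat_lit 0) (XT.lf (nat_lit 0) (nat_lit 155077083523) (nat_lit 76) (nat_lit 245411831073) (nat_lit 76)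 (nat_lit 240576736538) (nat_lit 1) (nat_lit 4) (nat_lit 2) (nat_lit 5) (nat_lit 2) (nat_lit 4) (nat_lit 243) (nat_lit 195) (nat_lit 162)) (XT.lf (nat_lit 0) (nat_lit 182004876962) (nat_lit 76) (nat_lit 279868425101) (nat_lit 76) (nat_lit 275027004933) (nat_lit 1) (nat_lit 4) (nat_lit 2) (nat_lit 5) (nat_lit 2) (nat_lit 4) (nat_lit 244) (nat_lit 195) (nat_lit 161)))) (XT.nd (nat_lit 156) (nat_lit 0) (nat_lit 0) (XT.nd (nat_lit 78) (nat_lit 0) (nat_lit 0) (XT.lf (nat_lit 0) (nat_lit 212963123038) (nat_lit 76) (nat_lit 319497366026) (nat_lit 76) (nat_lit 314650445308) (nat_lit 1) (nat_lit 4) (nat_lit 2) (nat_lit 5) (nat_lit 2) (nat_lit 4) (nat_lit 245) (nat_lit 195) (nat_lit 160)) (XT.lf (nat_lit 0) (nat_lit 248557526566) (nat_lit 76) (nat_lit 365074002692) (nat_lit 76) (nat_lit 360222298887) (nat_lit 1) (nat_lit 4) (nat_lit 2) (nat_lit 5) (nat_lit 2) (nat_lit 4) (nat_lit 246) (nat_lit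 195) (nat_lit 159))) (XT.nd (nat_lit 78) (nat_lit 0) (nat_lit 0) (XT.lf (nat_lit 0) (nat_lit 289484499790) (nat_lit 76) (nat_lit 417490051905) (nat_lit 76) (nat_lit 412634188894) (nat_lit 1) (nat_lit 4) (nat_lit 2) (nat_lit 5) (nat_lit 2) (nat_lit 4) (nat_lit 247) (nat_lit 195) (nat_lit 158)) (XT.lf (nat_lit 0) (nat_lit 336544787837) (nat_lit 76) (nat_lit 477771045061) (nat_lit 76) (nat_lit 472911565349) (nat_lit 1) (nat_lit 4) (nat_lit 2) (nat_lit 5) (nat_lit 2) (nat_lit 4) (nat_lit 248) (nat_lit 195) (nat_lit 157))))) (XT.nd (nat_lit 312) (nat_lit 0) (nat_lit 0) (XT.nd (nat_lit 156) (nat_lit 0) (nat_lit 0) (XT.nd (nat_lit 78) (nat_lit 0) (nat_lit 0) (XT.lf (nat_lit 0) (nat_lit 390659135473) (nat_lit 76) (nat_lit 547096392897) (nat_lit 76) (nat_lit 542233768227) (nat_lit 1) (nat_lit 4) (nat_lit 2) (nat_lit 5) (nat_lit 2) (nat_lit 4) (nat_lit 249) (nat_lit 195) (nat_lit 156)) (XT.lf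 (nat_lit 0) (nat_lit 452886301675) (nat_lit 76) (nat_lit 626822460913) (nat_lit 76) (nat_lit 621957101497) (nat_lit 1) (nat_lit 4) (nat_lit 2) (nat_lit 5) (nat_lit 2) (nat_lit 4) (nat_lit 250) (nat_lit 195) (nat_lit 155))) (XT.nd (nat_lit 78) (nat_lit 0) (nat_lit 0) (XT.lf (nat_lit 0) (nat_lit 524443774476) (nat_lit 76) (nat_lit 718509106962) (nat_lit 76) (nat_lit 713641369507) (nat_lit 1) (nat_lit 4) (nat_lit 2) (nat_lit 5) (nat_lit 2) (nat_lit 4) (nat_lit 251) (nat_lit 195) (nat_lit 154)) (XT.lf (nat_lit 0) (nat_lit 606731591387) (nat_lit 76) (nat_lit 823950200205) (nat_lit 76) (nat_lit 819080394890) (nat_lit 1) (nat_lit 4) (nat_lit 2) (nat_lit 5) (nat_lit 2) (nat_lit 4) (nat_lit 252) (nat_lit 195) (nat_lit 153)))) (XT.nd (nat_lit 156) (nat_lit 0) (nat_lit 0) (XT.nd (nat_lit 78) (nat_lit 0) (nat_lit 0) (XT.lf (nat_lit 0) (nat_lit 701359731436) (nat_lit 76) (nat_lit 945208718555)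 (nat_lit 76) (nat_lit 940337115100) (nat_lit 1) (nat_lit 4) (nat_lit 2) (nat_lit 5) (nat_lit 2) (nat_lit 4) (nat_lit 253) (nat_lit 195) (nat_lit 152)) (XT.lf (nat_lit 0) (nat_lit 810179614754) (nat_lit 76) (nat_lit 1084657111282) (nat_lit 76) (nat_lit 1079783944228) (nat_lit 1) (nat_lit 4) (nat_lit 2) (nat_lit 5) (nat_lit 2) (nat_lit 4) (nat_lit 254) (nat_lit 195) (nat_lit 151))) (XT.nd (nat_lit 78) (nat_lit 0) (nat_lit 0) (XT.lf (nat_lit 0) (nat_lit 935320326013) (nat_lit 76) (nat_lit 1245023716507) (nat_lit 76) (nat_lit 1240149189800) (nat_lit 1) (nat_lit 4) (nat_lit 2) (nat_lit 5) (nat_lit 2) (nat_lit 4) (nat_lit 255) (nat_lit 195) (nat_lit 150)) (XT.lf (nat_lit 0) (nat_lit 1079230270436) (nat_lit 76) (nat_lit 1429446141721) (nat_lit 76) (nat_lit 1424570432709) (nat_lit 1) (nat_lit 4) (nat_lit 2) (nat_lit 5) (nat_lit 2) (nat_lit 4) (nat_lit 256) (nat_lit 195) (nat_lit 149))))))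 (XT.nd (nat_lit 624) (nat_lit 0) (nat_lit 0) (XT.nd (nat_lit 312) (nat_lit 0) (nat_lit 0) (XT.nd (nat_lit 156) (nat_lit 0) (nat_lit 0) (XT.nd (nat_lit 78) (nat_lit 0) (nat_lit 0) (XT.lf (nat_lit 0) (nat_lit 1244725077368) (nat_lit 76) (nat_lit 1641532651767) (nat_lit 76) (nat_lit 1636655914662) (nat_lit 1) (nat_lit 4) (nat_lit 2) (nat_lit 5) (nat_lit 2) (nat_lit 4) (nat_lit 257) (nat_lit 195) (nat_lit 148)) (XT.lf (nat_lit 0) (nat_lit 1435042688685) (nat_lit 76) (nat_lit 1885432765319) (nat_lit 76) (nat_lit 1880555134221) (nat_lit 1) (nat_lit 4) (nat_lit 2) (nat_lit 5) (nat_lit 2) (nat_lit 4) (nat_lit 258) (nat_lit 195) (nat_lit 147))) (XT.nd (nat_lit 78) (nat_lit 0) (nat_lit 0) (XT.lf (nat_lit 0) (nat_lit 1653906709826) (nat_lit 76) (nat_lit 2165918441121) (nat_lit 76) (nat_lit 2161040032637) (nat_lit 1) (nat_lit 4) (nat_lit 2) (nat_lit 5) (nat_lit 2) (nat_lit 4) (nat_lit 259) (nat_lit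 195) (nat_lit 146)) (XT.lf (nat_lit 0) (nat_lit 1905599262942) (nat_lit 76) (nat_lit 2488477442394) (nat_lit 76) (nat_lit 2483598357923) (nat_lit 1) (nat_lit 4) (nat_lit 2) (nat_lit 5) (nat_lit 2) (nat_lit 4) (nat_lit 260) (nat_lit 195) (nat_lit 145)))) (XT.nd (nat_lit 156) (nat_lit 0) (nat_lit 0) (XT.nd (nat_lit 78) (nat_lit 0) (nat_lit 0) (XT.lf (nat_lit 0) (nat_lit 2195044767553) (nat_lit 76) (nat_lit 2859420706120) (nat_lit 76) (nat_lit 2854541033835) (nat_lit 1) (nat_lit 4) (nat_lit 2) (nat_lit 5) (nat_lit 2) (nat_lit 4) (nat_lit 261) (nat_lit 195) (nat_lit 144)) (XT.lf (nat_lit 0) (nat_lit 2527906287878) (nat_lit 76) (nat_lit 3286005817895) (nat_lit 76) (nat_lit 3281125634465) (nat_lit 1) (nat_lit 4) (nat_lit 2) (nat_lit 5) (nat_lit 2) (nat_lit 4) (nat_lit 262) (nat_lit 195) (nat_lit 143))) (XT.nd (nat_lit 78) (nat_lit 0) (nat_lit 0) (XT.lf (nat_lit 0) (nat_lit 2910696331924)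 (nat_lit 76) (nat_lit 3776579008165) (nat_lit 76) (nat_lit 3771698380263) (nat_lit 1) (nat_lit 4) (nat_lit 2) (nat_lit 5) (nat_lit 2) (nat_lit 4) (nat_lit 263) (nat_lit 195) (nat_lit 142)) (XT.lf (nat_lit 0) (nat_lit 3350904270117) (nat_lit 76) (nat_lit 4340738448044) (nat_lit 76) (nat_lit 4335857433644) (nat_lit 1) (nat_lit 4) (nat_lit 2) (nat_lit 5) (nat_lit 2) (nat_lit 4) (nat_lit 264) (nat_lit 195) (nat_lit 141))))) (XT.nd (nat_lit 312) (nat_lit 0) (nat_lit 0) (XT.nd (nat_lit 156) (nat_lit 0) (nat_lit 0) (XT.nd (nat_lit 78) (nat_lit 0) (nat_lit 0) (XT.lf (nat_lit 0) (nat_lit 3857142866467) (nat_lit 76) (nat_lit 4989522039618) (nat_lit 76) (nat_lit 4984640689133) (nat_lit 1) (nat_lit 4) (nat_lit 2) (nat_lit 5) (nat_lit 2) (nat_lit 4) (nat_lit 265) (nat_lit 195) (nat_lit 140)) (XT.lf (nat_lit 0) (nat_lit 4439316789161) (nat_lit 76) (nat_lit 5735623374894) (nat_lit 76) (nat_lit 5730741732162)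 (nat_lit 1) (nat_lit 4) (nat_lit 2) (nat_lit 5) (nat_lit 2) (nat_lit 4) (nat_lit 266) (nat_lit 195) (nat_lit 139))) (XT.nd (nat_lit 78) (nat_lit 0) (nat_lit 0) (XT.lf (nat_lit 0) (nat_lit 5108816397559) (nat_lit 76) (nat_lit 6593640088695) (nat_lit 76) (nat_lit 6588758191834) (nat_lit 1) (nat_lit 4) (nat_lit 2) (nat_lit 5) (nat_lit 2) (nat_lit 4) (nat_lit 267) (nat_lit 195) (nat_lit 138)) (XT.lf (nat_lit 0) (nat_lit 5878740597040) (nat_lit 76) (nat_lit 7580359464551) (nat_lit 76) (nat_lit 7575477346708) (nat_lit 1) (nat_lit 4) (nat_lit 2) (nat_lit 5) (nat_lit 2) (nat_lit 4) (nat_lit 268) (nat_lit 195) (nat_lit 137)))) (XT.nd (nat_lit 156) (nat_lit 0) (nat_lit 0) (XT.nd (nat_lit 78) (nat_lit 0) (nat_lit 0) (XT.lf (nat_lit 0) (nat_lit 6764153121943) (nat_lit 76) (nat_lit 8715086881554) (nat_lit 76) (nat_lit 8710204571553) (nat_lit 1) (nat_lit 4) (nat_lit 2) (nat_lit 5) (nat_lit 2) (nat_lit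 4) (nat_lit 269) (nat_lit 195) (nat_lit 136)) (XT.lf (nat_lit 0) (nat_lit 7782377260798) (nat_lit 76) (nat_lit 10020023528298) (nat_lit 76) (nat_lit 10015141051203) (nat_lit 1) (nat_lit 4) (nat_lit 2) (nat_lit 5) (nat_lit 2) (nat_lit 4) (nat_lit 270) (nat_lit 195) (nat_lit 135))) (XT.nd (nat_lit 78) (nat_lit 0) (nat_lit 0) (XT.lf (nat_lit 0) (nat_lit 8953334790236) (nat_lit 76) (nat_lit 11520700773958) (nat_lit 76) (nat_lit 11515818151565) (nat_lit 1) (nat_lit 4) (nat_lit 2) (nat_lit 5) (nat_lit 2) (nat_lit 4) (nat_lit 271) (nat_lit 195) (nat_lit 134)) (XT.lf (nat_lit 0) (nat_lit 10299935748876) (nat_lit 76) (nat_lit 13246479695081) (nat_lit 76) (nat_lit 13241596946341) (nat_lit 1) (nat_lit 4) (nat_lit 2) (nat_lit 5) (nat_lit 2) (nat_lit 4) (nat_lit 272) (nat_lit 195) (nat_lit 133))))))) (XT.nd (nat_lit 26676) (nat_lit 0) (nat_lit 76) (XT.nd (nat_lit 624) (nat_lit 0) (nat_lit 0) (XT.nd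 (nat_lit 312) (nat_lit 0) (nat_lit 0) (XT.nd (nat_lit 156) (nat_lit 0) (nat_lit 0) (XT.nd (nat_lit 78) (nat_lit 0) (nat_lit 0) (XT.lf (nat_lit 0) (nat_lit 11848526677212) (nat_lit 76) (nat_lit 15231125531427) (nat_lit 76) (nat_lit 15226242672820) (nat_lit 1) (nat_lit 4) (nat_lit 2) (nat_lit 5) (nat_lit 2) (nat_lit 4) (nat_lit 273) (nat_lit 195) (nat_lit 132)) (XT.lf (nat_lit 0) (nat_lit 13629406093408) (nat_lit 76) (nat_lit 17513468310229) (nat_lit 76) (nat_lit 17508585356085) (nat_lit 1) (nat_lit 4) (nat_lit 2) (nat_lit 5) (nat_lit 2) (nat_lit 4) (nat_lit 274) (nat_lit 195) (nat_lit 131))) (XT.nd (nat_lit 78) (nat_lit 0) (nat_lit 0) (XT.lf (nat_lit 0) (nat_lit 15677417290390) (nat_lit 76) (nat_lit 20138162564115) (nat_lit 76) (nat_lit 20133279526896) (nat_lit 1) (nat_lit 4) (nat_lit 2) (nat_lit 5) (nat_lit 2) (nat_lit 4) (nat_lit 275) (nat_lit 195) (nat_lit 130)) (XT.lf (nat_lit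 0) (nat_lit 18032630052446) (nat_lit 76) (nat_lit 23156561006749) (nat_lit 76) (nat_lit 23151677897291) (nat_lit 1) (nat_lit 4) (nat_lit 2) (nat_lit 5) (nat_lit 2) (nat_lit 4) (nat_lit 276) (nat_lit 195) (nat_lit 129)))) (XT.nd (nat_lit 156) (nat_lit 0) (nat_lit 0) (XT.nd (nat_lit 78) (nat_lit 0) (nat_lit 0) (XT.lf (nat_lit 0) (nat_lit 20741124629268) (nat_lit 76) (nat_lit 26627719259835) (nat_lit 76) (nat_lit 26622836087560) (nat_lit 1) (nat_lit 4) (nat_lit 2) (nat_lit 5) (nat_lit 2) (nat_lit 4) (nat_lit 277) (nat_lit 195) (nat_lit 128)) (XT.lf (nat_lit 0) (nat_lit 23855893306056) (nat_lit 76) (nat_lit 30619551289194) (nat_lit 76) (nat_lit 30614668062296) (nat_lit 1) (nat_lit 4) (nat_lit 2) (nat_lit 5) (nat_lit 2) (nat_lit 4) (nat_lit 278) (nat_lit 195) (nat_lit 127))) (XT.nd (nat_lit 78) (nat_lit 0) (nat_lit 0) (XT.lf (nat_lit 0) (nat_lit 27437877209095) (nat_lit 76) (nat_lit 35210158156269)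 (nat_lit 76) (nat_lit 35205274881872) (nat_lit 1) (nat_lit 4) (nat_lit 2) (nat_lit 5) (nat_lit 2) (nat_lit 4) (nat_lit 279) (nat_lit 195) (nat_lit 126)) (XT.lf (nat_lit 0) (nat_lit 31557158632138) (nat_lit 76) (nat_lit 40489356082372) (nat_lit 76) (nat_lit 40484472766673) (nat_lit 1) (nat_lit 4) (nat_lit 2) (nat_lit 5) (nat_lit 2) (nat_lit 4) (nat_lit 280) (nat_lit 195) (nat_lit 125))))) (XT.nd (nat_lit 25740) (nat_lit 0) (nat_lit 304) (XT.nd (nat_lit 25584) (nat_lit 0) (nat_lit 608) (XT.nd (nat_lit 78) (nat_lit 0) (nat_lit 0) (XT.lf (nat_lit 0) (nat_lit 36294332211725) (nat_lit 76) (nat_lit 46560433722582) (nat_lit 76) (nat_lit 46555550370967) (nat_lit 1) (nat_lit 4) (nat_lit 2) (nat_lit 5) (nat_lit 2) (nat_lit 4) (nat_lit 281) (nat_lit 195) (nat_lit 124)) (XT.lf (nat_lit 0) (nat_lit 41742081778761) (nat_lit 76) (nat_lit 53542173030726) (nat_lit 76) (nat_lit 53537289647880) (nat_lit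 1) (nat_lit 4) (nat_lit 2) (nat_lit 5) (nat_lit 2) (nat_lit 4) (nat_lit 282) (nat_lit 195) (nat_lit 123))) (XT.nd (nat_lit 78) (nat_lit 0) (nat_lit 0) (XT.lf (nat_lit 0) (nat_lit 156693780) (nat_lit 152) (nat_lit 3882923646) (nat_lit 0) (nat_lit 156693780) (nat_lit 9) (nat_lit 5) (nat_lit 11) (nat_lit 4) (nat_lit 9) (nat_lit 4) (nat_lit 208) (nat_lit 196) (nat_lit 196)) (XT.lf (nat_lit 0) (nat_lit 3216328165) (nat_lit 152) (nat_lit 3512212442) (nat_lit 0) (nat_lit 2247545790) (nat_lit 9) (nat_lit 5) (nat_lit 11) (nat_lit 4) (nat_lit 9) (nat_lit 4) (nat_lit 209) (nat_lit 196) (nat_lit 195)))) (XT.nd (nat_lit 156) (nat_lit 152) (nat_lit 0) (XT.nd (nat_lit 78) (nat_lit 0) (nat_lit 0) (XT.lf (nat_lit 0) (nat_lit 1008812686) (nat_lit 152) (nat_lit 5250295679) (nat_lit 152) (nat_lit 3439093847) (nat_lit 7) (nat_lit 4) (nat_lit 9) (nat_lit 5) (nat_lit 9) (nat_lit 4) (nat_lit 210) (nat_lit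 196) (nat_lit 194)) (XT.lf (nat_lit 0) (nat_lit 6163180232) (nat_lit 152) (nat_lit 3467149095) (nat_lit 152) (nat_lit 923408606) (nat_lit 7) (nat_lit 4) (nat_lit 9) (nat_lit 5) (nat_lit 9) (nat_lit 4) (nat_lit 211) (nat_lit 196) (nat_lit 193))) (XT.nd (nat_lit 78) (nat_lit 0) (nat_lit 0) (XT.lf (nat_lit 0) (nat_lit 62212912) (nat_lit 76) (nat_lit 1446132919) (nat_lit 152) (nat_lit 10064380345) (nat_lit 5) (nat_lit 5) (nat_lit 6) (nat_lit 5) (nat_lit 7) (nat_lit 4) (nat_lit 212) (nat_lit 196) (nat_lit 192)) (XT.lf (nat_lit 0) (nat_lit 4214510460) (nat_lit 152) (nat_lit 7559710119) (nat_lit 0) (nat_lit 967001683) (nat_lit 5) (nat_lit 5) (nat_lit 7) (nat_lit 4) (nat_lit 5) (nat_lit 4) (nat_lit 213) (nat_lit 196) (nat_lit 191)))))) (XT.nd (nat_lit 624) (nat_lit 0) (nat_lit 0) (XT.nd (nat_lit 312) (nat_lit 152) (nat_lit 0) (XT.nd (nat_lit 156) (nat_lit 0) (nat_lit 0) (XT.nd (nat_lit 78)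 (nat_lit 76) (nat_lit 0) (XT.lf (nat_lit 0) (nat_lit 7158414202) (nat_lit 152) (nat_lit 3463109153) (nat_lit 0) (nat_lit 3492074069) (nat_lit 5) (nat_lit 5) (nat_lit 7) (nat_lit 4) (nat_lit 5) (nat_lit 4) (nat_lit 214) (nat_lit 196) (nat_lit 190)) (XT.lf (nat_lit 0) (nat_lit 1009164612) (nat_lit 76) (nat_lit 9370396635) (nat_lit 76) (nat_lit 5339855324) (nat_lit 4) (nat_lit 4) (nat_lit 5) (nat_lit 5) (nat_lit 5) (nat_lit 4) (nat_lit 215) (nat_lit 196) (nat_lit 189))) (XT.nd (nat_lit 78) (nat_lit 0) (nat_lit 0) (XT.lf (nat_lit 0) (nat_lit 6227764630) (nat_lit 76) (nat_lit 7844908221) (nat_lit 76) (nat_lit 3497670233) (nat_lit 4) (nat_lit 4) (nat_lit 5) (nat_lit 5) (nat_lit 5) (nat_lit 4) (nat_lit 216) (nat_lit 196) (nat_lit 188)) (XT.lf (nat_lit 0) (nat_lit 11956353729) (nat_lit 76) (nat_lit 6196237760) (nat_lit 76) (nat_lit 1573611358) (nat_lit 4) (nat_lit 4) (nat_lit 5) (nat_lit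 5) (nat_lit 5) (nat_lit 4) (nat_lit 217) (nat_lit 196) (nat_lit 187)))) (XT.nd (nat_lit 156) (nat_lit 0) (nat_lit 0) (XT.nd (nat_lit 78) (nat_lit 76) (nat_lit 0) (XT.lf (nat_lit 0) (nat_lit 428126314) (nat_lit 152) (nat_lit 3941623013) (nat_lit 76) (nat_lit 17856507356) (nat_lit 3) (nat_lit 5) (nat_lit 5) (nat_lit 5) (nat_lit 4) (nat_lit 4) (nat_lit 218) (nat_lit 196) (nat_lit 186)) (XT.lf (nat_lit 0) (nat_lit 181208936) (nat_lit 76) (nat_lit 2261366287) (nat_lit 152) (nat_lit 22667929425) (nat_lit 2) (nat_lit 5) (nat_lit 3) (nat_lit 5) (nat_lit 4) (nat_lit 4) (nat_lit 219) (nat_lit 196) (nat_lit 185))) (XT.nd (nat_lit 78) (nat_lit 0) (nat_lit 0) (XT.lf (nat_lit 0) (nat_lit 4853056831) (nat_lit 152) (nat_lit 23274900726) (nat_lit 0) (nat_lit 286621920) (nat_lit 2) (nat_lit 5) (nat_lit 4) (nat_lit 4) (nat_lit 2) (nat_lit 4) (nat_lit 220) (nat_lit 196) (nat_lit 184)) (XT.lf (nat_lit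 0) (nat_lit 7620841521) (nat_lit 152) (nat_lit 21677678378) (nat_lit 0) (nat_lit 2917489897) (nat_lit 2) (nat_lit 5) (nat_lit 4) (nat_lit 4) (nat_lit 2) (nat_lit 4) (nat_lit 221) (nat_lit 196) (nat_lit 183))))) (XT.nd (nat_lit 312) (nat_lit 0) (nat_lit 0) (XT.nd (nat_lit 156) (nat_lit 0) (nat_lit 0) (XT.nd (nat_lit 78) (nat_lit 0) (nat_lit 0) (XT.lf (nat_lit 0) (nat_lit 10706443245) (nat_lit 152) (nat_lit 20012740313) (nat_lit 0) (nat_lit 5884033610) (nat_lit 2) (nat_lit 5) (nat_lit 4) (nat_lit 4) (nat_lit 2) (nat_lit 4) (nat_lit 222) (nat_lit 196) (nat_lit 182)) (XT.lf (nat_lit 0) (nat_lit 14170232473) (nat_lit 152) (nat_lit 18247511653) (nat_lit 0) (nat_lit 9244294132) (nat_lit 2) (nat_lit 5) (nat_lit 4) (nat_lit 4) (nat_lit 2) (nat_lit 4) (nat_lit 223) (nat_lit 196) (nat_lit 181))) (XT.nd (nat_lit 78) (nat_lit 0) (nat_lit 0) (XT.lf (nat_lit 0) (nat_lit 18079978994) (nat_lit 152)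 (nat_lit 16347455318) (nat_lit 0) (nat_lit 13064015692) (nat_lit 2) (nat_lit 5) (nat_lit 4) (nat_lit 4) (nat_lit 2) (nat_lit 4) (nat_lit 224) (nat_lit 196) (nat_lit 180)) (XT.lf (nat_lit 0) (nat_lit 22512177849) (nat_lit 152) (nat_lit 14275396291) (nat_lit 0) (nat_lit 17417931971) (nat_lit 2) (nat_lit 5) (nat_lit 4) (nat_lit 4) (nat_lit 2) (nat_lit 4) (nat_lit 225) (nat_lit 196) (nat_lit 179)))) (XT.nd (nat_lit 156) (nat_lit 0) (nat_lit 0) (XT.nd (nat_lit 78) (nat_lit 0) (nat_lit 0) (XT.lf (nat_lit 0) (nat_lit 27553545971) (nat_lit 152) (nat_lit 11990794288) (nat_lit 0) (nat_lit 22391228289) (nat_lit 2) (nat_lit 5) (nat_lit 4) (nat_lit 4) (nat_lit 2) (nat_lit 4) (nat_lit 226) (nat_lit 196) (nat_lit 178)) (XT.lf (nat_lit 0) (nat_lit 33302718823) (nat_lit 152) (nat_lit 9448950572) (nat_lit 0) (nat_lit 28081208268) (nat_lit 2) (nat_lit 5) (nat_lit 4) (nat_lit 4) (nat_lit 2) (nat_lit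 4) (nat_lit 227) (nat_lit 196) (nat_lit 177))) (XT.nd (nat_lit 78) (nat_lit 0) (nat_lit 0) (XT.lf (nat_lit 0) (nat_lit 39872180223) (nat_lit 152) (nat_lit 6600133421) (nat_lit 0) (nat_lit 34599197605) (nat_lit 2) (nat_lit 5) (nat_lit 4) (nat_lit 4) (nat_lit 2) (nat_lit 4) (nat_lit 228) (nat_lit 196) (nat_lit 176)) (XT.lf (nat_lit 0) (nat_lit 47390463112) (nat_lit 152) (nat_lit 3388605106) (nat_lit 0) (nat_lit 42072722177) (nat_lit 2) (nat_lit 5) (nat_lit 4) (nat_lit 4) (nat_lit 2) (nat_lit 4) (nat_lit 229) (nat_lit 196) (nat_lit 175))))))))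
noncomputable def xc22 : XT := (XT.nd (nat_lit 2496) (nat_lit 0) (nat_lit 0) (XT.nd (nat_lit 1248) (nat_lit 0) (nat_lit 0) (XT.nd (nat_lit 624) (nat_lit 0) (nat_lit 0) (XT.nd (nat_lit 312) (nat_lit 0) (nat_lit 0) (XT.nd (nat_lit 156) (nat_lit 0) (nat_lit 0) (XT.nd (nat_lit 78) (nat_lit 0) (nat_lit 0) (XT.lf (nat_lit 0) (nat_lit 272750782) (nat_lit 76) (nat_lit 55743207573) (nat_lit 76) (nat_lit 50386546362) (nat_lit 1) (nat_lit 4) (nat_lit 2) (nat_lit 5) (nat_lit 2) (nat_lit 4) (nat_lit 230) (nat_lit 196) (nat_lit 174)) (XT.lf (nat_lit 0) (nat_lit 4810513036) (nat_lit 76) (nat_lit 61272002638) (nat_lit 76) (nat_lit 55881497711) (nat_lit 1) (nat_lit 4) (nat_lit 2) (nat_lit 5) (nat_lit 2) (nat_lit 4) (nat_lit 231) (nat_lit 196) (nat_lit 173))) (XT.nd (nat_lit 78) (nat_lit 0) (nat_lit 0) (XT.lf (nat_lit 0) (nat_lit 9982304825) (nat_lit 76) (nat_lit 67650757123) (nat_lit 76) (nat_lit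 62230822876) (nat_lit 1) (nat_lit 4) (nat_lit 2) (nat_lit 5) (nat_lit 2) (nat_lit 4) (nat_lit 232) (nat_lit 196) (nat_lit 172)) (XT.lf (nat_lit 0) (nat_lit 15889313380) (nat_lit 76) (nat_lit 75004272745) (nat_lit 76) (nat_lit 69558747785) (nat_lit 1) (nat_lit 4) (nat_lit 2) (nat_lit 5) (nat_lit 2) (nat_lit 4) (nat_lit 233) (nat_lit 196) (nat_lit 171)))) (XT.nd (nat_lit 156) (nat_lit 0) (nat_lit 0) (XT.nd (nat_lit 78) (nat_lit 0) (nat_lit 0) (XT.lf (nat_lit 0) (nat_lit 22647110606) (nat_lit 76) (nat_lit 83476422635) (nat_lit 76) (nat_lit 78008644882) (nat_lit 1) (nat_lit 4) (nat_lit 2) (nat_lit 5) (nat_lit 2) (nat_lit 4) (nat_lit 234) (nat_lit 196) (nat_lit 170)) (XT.lf (nat_lit 0) (nat_lit 30387914277) (nat_lit 76) (nat_lit 93232966249) (nat_lit 76) (nat_lit 87745838240) (nat_lit 1) (nat_lit 4) (nat_lit 2) (nat_lit 5) (nat_lit 2) (nat_lit 4) (nat_lit 235) (nat_lit 196) (nat_lit 169)))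 (XT.nd (nat_lit 78) (nat_lit 0) (nat_lit 0) (XT.lf (nat_lit 0) (nat_lit 39263174898) (nat_lit 76) (nat_lit 104464792483) (nat_lit 76) (nat_lit 98960838165) (nat_lit 1) (nat_lit 4) (nat_lit 2) (nat_lit 5) (nat_lit 2) (nat_lit 4) (nat_lit 236) (nat_lit 196) (nat_lit 168)) (XT.lf (nat_lit 0) (nat_lit 49446538873) (nat_lit 76) (nat_lit 117391654459) (nat_lit 76) (nat_lit 111873068568) (nat_lit 1) (nat_lit 4) (nat_lit 2) (nat_lit 5) (nat_lit 2) (nat_lit 4) (nat_lit 237) (nat_lit 196) (nat_lit 167))))) (XT.nd (nat_lit 312) (nat_lit 0) (nat_lit 0) (XT.nd (nat_lit 156) (nat_lit 0) (nat_lit 0) (XT.nd (nat_lit 78) (nat_lit 0) (nat_lit 0) (XT.lf (nat_lit 0) (nat_lit 61137245932) (nat_lit 76) (nat_lit 132266469041) (nat_lit 76) (nat_lit 126735160044) (nat_lit 1) (nat_lit 4) (nat_lit 2) (nat_lit 5) (nat_lit 2) (nat_lit 4) (nat_lit 238) (nat_lit 196) (nat_lit 166)) (XT.lf (nat_lit 0) (nat_lit 74564027301)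 (nat_lit 76) (nat_lit 149380265211) (nat_lit 76) (nat_lit 143837892642) (nat_lit 1) (nat_lit 4) (nat_lit 2) (nat_lit 5) (nat_lit 2) (nat_lit 4) (nat_lit 239) (nat_lit 196) (nat_lit 165))) (XT.nd (nat_lit 78) (nat_lit 0) (nat_lit 0) (XT.lf (nat_lit 0) (nat_lit 89989580874) (nat_lit 76) (nat_lit 169067878112) (nat_lit 76) (nat_lit 163515885046) (nat_lit 1) (nat_lit 4) (nat_lit 2) (nat_lit 5) (nat_lit 2) (nat_lit 4) (nat_lit 240) (nat_lit 196) (nat_lit 164)) (XT.lf (nat_lit 0) (nat_lit 107715710962) (nat_lit 76) (nat_lit 191714500168) (nat_lit 76) (nat_lit 186154141453) (nat_lit 1) (nat_lit 4) (nat_lit 2) (nat_lit 5) (nat_lit 2) (nat_lit 4) (nat_lit 241) (nat_lit 196) (nat_lit 163)))) (XT.nd (nat_lit 156) (nat_lit 0) (nat_lit 0) (XT.nd (nat_lit 78) (nat_lit 0) (nat_lit 0) (XT.lf (nat_lit 0) (nat_lit 128089233153) (nat_lit 76) (nat_lit 217763217465) (nat_lit 76) (nat_lit 212195584272)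 (nat_lit 1) (nat_lit 4) (nat_lit 2) (nat_lit 5) (nat_lit 2) (nat_lit 4) (nat_lit 242) (nat_lit 196) (nat_lit 162)) (XT.lf (nat_lit 0) (nat_lit 151508759838) (nat_lit 76) (nat_lit 247723678819) (nat_lit 76) (nat_lit 242149719993) (nat_lit 1) (nat_lit 4) (nat_lit 2) (nat_lit 5) (nat_lit 2) (nat_lit 4) (nat_lit 243) (nat_lit 196) (nat_lit 161))) (XT.nd (nat_lit 78) (nat_lit 0) (nat_lit 0) (XT.lf (nat_lit 0) (nat_lit 178432499147) (nat_lit 76) (nat_lit 282182067169) (nat_lit 76) (nat_lit 276602607793) (nat_lit 1) (nat_lit 4) (nat_lit 2) (nat_lit 5) (nat_lit 2) (nat_lit 4) (nat_lit 244) (nat_lit 196) (nat_lit 160)) (XT.lf (nat_lit 0) (nat_lit 209387219893) (nat_lit 76) (nat_lit 321812568374) (nat_lit 76) (nat_lit 316228325911) (nat_lit 1) (nat_lit 4) (nat_lit 2) (nat_lit 5) (nat_lit 2) (nat_lit 4) (nat_lit 245) (nat_lit 196) (nat_lit 159)))))) (XT.nd (nat_lit 624) (nat_lit 0) (nat_lit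 0) (XT.nd (nat_lit 312) (nat_lit 0) (nat_lit 0) (XT.nd (nat_lit 156) (nat_lit 0) (nat_lit 0) (XT.nd (nat_lit 78) (nat_lit 0) (nat_lit 0) (XT.lf (nat_lit 0) (nat_lit 244978557917) (nat_lit 76) (nat_lit 367390561807) (nat_lit 76) (nat_lit 361802160137) (nat_lit 1) (nat_lit 4) (nat_lit 2) (nat_lit 5) (nat_lit 2) (nat_lit 4) (nat_lit 246) (nat_lit 196) (nat_lit 158)) (XT.lf (nat_lit 0) (nat_lit 285902865485) (nat_lit 76) (nat_lit 419807790815) (nat_lit 76) (nat_lit 414215772445) (nat_lit 1) (nat_lit 4) (nat_lit 2) (nat_lit 5) (nat_lit 2) (nat_lit 4) (nat_lit 247) (nat_lit 196) (nat_lit 157))) (XT.nd (nat_lit 78) (nat_lit 0) (nat_lit 0) (XT.lf (nat_lit 0) (nat_lit 332960835570) (nat_lit 76) (nat_lit 480089809881) (nat_lit 76) (nat_lit 474494646554) (nat_lit 1) (nat_lit 4) (nat_lit 2) (nat_lit 5) (nat_lit 2) (nat_lit 4) (nat_lit 248) (nat_lit 196) (nat_lit 156)) (XT.lf (nat_lit 0) (nat_lit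 387073167588) (nat_lit 76) (nat_lit 549416049812) (nat_lit 76) (nat_lit 543818151739) (nat_lit 1) (nat_lit 4) (nat_lit 2) (nat_lit 5) (nat_lit 2) (nat_lit 4) (nat_lit 249) (nat_lit 196) (nat_lit 155)))) (XT.nd (nat_lit 156) (nat_lit 0) (nat_lit 0) (XT.nd (nat_lit 78) (nat_lit 0) (nat_lit 0) (XT.lf (nat_lit 0) (nat_lit 449298581077) (nat_lit 76) (nat_lit 629142893563) (nat_lit 76) (nat_lit 623542617450) (nat_lit 1) (nat_lit 4) (nat_lit 2) (nat_lit 5) (nat_lit 2) (nat_lit 4) (nat_lit 250) (nat_lit 196) (nat_lit 154)) (XT.lf (nat_lit 0) (nat_lit 520854529781) (nat_lit 76) (nat_lit 720830214164) (nat_lit 76) (nat_lit 715227870191) (nat_lit 1) (nat_lit 4) (nat_lit 2) (nat_lit 5) (nat_lit 2) (nat_lit 4) (nat_lit 251) (nat_lit 196) (nat_lit 153))) (XT.nd (nat_lit 78) (nat_lit 0) (nat_lit 0) (XT.lf (nat_lit 0) (nat_lit 603141021390) (nat_lit 76) (nat_lit 826271893975) (nat_lit 76) (nat_lit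 820667751862) (nat_lit 1) (nat_lit 4) (nat_lit 2) (nat_lit 5) (nat_lit 2) (nat_lit 4) (nat_lit 252) (nat_lit 196) (nat_lit 152)) (XT.lf (nat_lit 0) (nat_lit 697768009003) (nat_lit 76) (nat_lit 947530922383) (nat_lit 76) (nat_lit 941925216670) (nat_lit 1) (nat_lit 4) (nat_lit 2) (nat_lit 5) (nat_lit 2) (nat_lit 4) (nat_lit 253) (nat_lit 196) (nat_lit 151))))) (XT.nd (nat_lit 312) (nat_lit 0) (nat_lit 0) (XT.nd (nat_lit 156) (nat_lit 0) (nat_lit 0) (XT.nd (nat_lit 78) (nat_lit 0) (nat_lit 0) (XT.lf (nat_lit 0) (nat_lit 806586890201) (nat_lit 76) (nat_lit 1086979758640) (nat_lit 76) (nat_lit 1081372693275) (nat_lit 1) (nat_lit 4) (nat_lit 2) (nat_lit 5) (nat_lit 2) (nat_lit 4) (nat_lit 254) (nat_lit 196) (nat_lit 150)) (XT.lf (nat_lit 0) (nat_lit 931726730053) (nat_lit 76) (nat_lit 1247346749542) (nat_lit 76) (nat_lit 1241738501871) (nat_lit 1) (nat_lit 4) (nat_lit 2) (nat_lit 5) (nat_lit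 2) (nat_lit 4) (nat_lit 255) (nat_lit 196) (nat_lit 149))) (XT.nd (nat_lit 78) (nat_lit 0) (nat_lit 0) (XT.lf (nat_lit 0) (nat_lit 1075635916730) (nat_lit 76) (nat_lit 1431769510128) (nat_lit 76) (nat_lit 1426160234365) (nat_lit 1) (nat_lit 4) (nat_lit 2) (nat_lit 5) (nat_lit 2) (nat_lit 4) (nat_lit 256) (nat_lit 196) (nat_lit 148)) (XT.lf (nat_lit 0) (nat_lit 1241130064753) (nat_lit 76) (nat_lit 1643856311801) (nat_lit 76) (nat_lit 1638246142045) (nat_lit 1) (nat_lit 4) (nat_lit 2) (nat_lit 5) (nat_lit 2) (nat_lit 4) (nat_lit 257) (nat_lit 196) (nat_lit 147)))) (XT.nd (nat_lit 156) (nat_lit 0) (nat_lit 0) (XT.nd (nat_lit 78) (nat_lit 0) (nat_lit 0) (XT.lf (nat_lit 0) (nat_lit 1431447103105) (nat_lit 76) (nat_lit 1887756678943) (nat_lit 76) (nat_lit 1882145731801) (nat_lit 1) (nat_lit 4) (nat_lit 2) (nat_lit 5) (nat_lit 2) (nat_lit 4) (nat_lit 258) (nat_lit 196) (nat_lit 146)) (XT.lf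 (nat_lit 0) (nat_lit 1650310626016) (nat_lit 76) (nat_lit 2168242575256) (nat_lit 76) (nat_lit 2162630952128) (nat_lit 1) (nat_lit 4) (nat_lit 2) (nat_lit 5) (nat_lit 2) (nat_lit 4) (nat_lit 259) (nat_lit 196) (nat_lit 145))) (XT.nd (nat_lit 78) (nat_lit 0) (nat_lit 0) (XT.lf (nat_lit 0) (nat_lit 1902002745889) (nat_lit 76) (nat_lit 2490801768280) (nat_lit 76) (nat_lit 2485189557336) (nat_lit 1) (nat_lit 4) (nat_lit 2) (nat_lit 5) (nat_lit 2) (nat_lit 4) (nat_lit 260) (nat_lit 196) (nat_lit 144)) (XT.lf (nat_lit 0) (nat_lit 2191447873766) (nat_lit 76) (nat_lit 2861745198745) (nat_lit 76) (nat_lit 2856132476658) (nat_lit 1) (nat_lit 4) (nat_lit 2) (nat_lit 5) (nat_lit 2) (nat_lit 4) (nat_lit 261) (nat_lit 196) (nat_lit 143))))))) (XT.nd (nat_lit 1248) (nat_lit 0) (nat_lit 0) (XT.nd (nat_lit 624) (nat_lit 0) (nat_lit 0) (XT.nd (nat_lit 312) (nat_lit 0) (nat_lit 0) (XT.nd (nat_lit 156)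 (nat_lit 0) (nat_lit 0) (XT.nd (nat_lit 78) (nat_lit 0) (nat_lit 0) (XT.lf (nat_lit 0) (nat_lit 2524309066496) (nat_lit 76) (nat_lit 3288330455510) (nat_lit 76) (nat_lit 3282717288950) (nat_lit 1) (nat_lit 4) (nat_lit 2) (nat_lit 5) (nat_lit 2) (nat_lit 4) (nat_lit 262) (nat_lit 196) (nat_lit 142)) (XT.lf (nat_lit 0) (nat_lit 2907098825678) (nat_lit 76) (nat_lit 3778903771858) (nat_lit 76) (nat_lit 3773290218801) (nat_lit 1) (nat_lit 4) (nat_lit 2) (nat_lit 5) (nat_lit 2) (nat_lit 4) (nat_lit 263) (nat_lit 196) (nat_lit 141))) (XT.nd (nat_lit 78) (nat_lit 0) (nat_lit 0) (XT.lf (nat_lit 0) (nat_lit 3347306516163) (nat_lit 76) (nat_lit 4343063321371) (nat_lit 76) (nat_lit 4337449432228) (nat_lit 1) (nat_lit 4) (nat_lit 2) (nat_lit 5) (nat_lit 2) (nat_lit 4) (nat_lit 264) (nat_lit 196) (nat_lit 140)) (XT.lf (nat_lit 0) (nat_lit 3853544897113) (nat_lit 76) (nat_lit 4991847008279) (nat_lit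 76) (nat_lit 4986232826888) (nat_lit 1) (nat_lit 4) (nat_lit 2) (nat_lit 5) (nat_lit 2) (nat_lit 4) (nat_lit 265) (nat_lit 196) (nat_lit 139)))) (XT.nd (nat_lit 156) (nat_lit 0) (nat_lit 0) (XT.nd (nat_lit 78) (nat_lit 0) (nat_lit 0) (XT.lf (nat_lit 0) (nat_lit 4435718632505) (nat_lit 76) (nat_lit 5737948426454) (nat_lit 76) (nat_lit 5732333990935) (nat_lit 1) (nat_lit 4) (nat_lit 2) (nat_lit 5) (nat_lit 2) (nat_lit 4) (nat_lit 266) (nat_lit 196) (nat_lit 138)) (XT.lf (nat_lit 0) (nat_lit 5105218078030) (nat_lit 76) (nat_lit 6595965212341) (nat_lit 76) (nat_lit 6590350555840) (nat_lit 1) (nat_lit 4) (nat_lit 2) (nat_lit 5) (nat_lit 2) (nat_lit 4) (nat_lit 267) (nat_lit 196) (nat_lit 137))) (XT.nd (nat_lit 78) (nat_lit 0) (nat_lit 0) (XT.lf (nat_lit 0) (nat_lit 5875142135883) (nat_lit 76) (nat_lit 7582684650880) (nat_lit 76) (nat_lit 7577069802221) (nat_lit 1) (nat_lit 4) (nat_lit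 2) (nat_lit 5) (nat_lit 2) (nat_lit 4) (nat_lit 268) (nat_lit 196) (nat_lit 136)) (XT.lf (nat_lit 0) (nat_lit 6760554537631) (nat_lit 76) (nat_lit 8717412122390) (nat_lit 76) (nat_lit 8711797106637) (nat_lit 1) (nat_lit 4) (nat_lit 2) (nat_lit 5) (nat_lit 2) (nat_lit 4) (nat_lit 269) (nat_lit 196) (nat_lit 135))))) (XT.nd (nat_lit 312) (nat_lit 0) (nat_lit 0) (XT.nd (nat_lit 156) (nat_lit 0) (nat_lit 0) (XT.nd (nat_lit 78) (nat_lit 0) (nat_lit 0) (XT.lf (nat_lit 0) (nat_lit 7778778569395) (nat_lit 76) (nat_lit 10022348816532) (nat_lit 76) (nat_lit 10016733655480) (nat_lit 1) (nat_lit 4) (nat_lit 2) (nat_lit 5) (nat_lit 2) (nat_lit 4) (nat_lit 270) (nat_lit 196) (nat_lit 134)) (XT.lf (nat_lit 0) (nat_lit 8949736005710) (nat_lit 76) (nat_lit 11523026103407) (nat_lit 76) (nat_lit 11517410816009) (nat_lit 1) (nat_lit 4) (nat_lit 2) (nat_lit 5) (nat_lit 2) (nat_lit 4) (nat_lit 271) (nat_lit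 196) (nat_lit 133))) (XT.nd (nat_lit 78) (nat_lit 0) (nat_lit 0) (XT.lf (nat_lit 0) (nat_lit 10296336883374) (nat_lit 76) (nat_lit 13248805060370) (nat_lit 76) (nat_lit 13243189663104) (nat_lit 1) (nat_lit 4) (nat_lit 2) (nat_lit 5) (nat_lit 2) (nat_lit 4) (nat_lit 272) (nat_lit 196) (nat_lit 132)) (XT.lf (nat_lit 0) (nat_lit 11844927741296) (nat_lit 76) (nat_lit 15233450927880) (nat_lit 76) (nat_lit 15227835435079) (nat_lit 1) (nat_lit 4) (nat_lit 2) (nat_lit 5) (nat_lit 2) (nat_lit 4) (nat_lit 273) (nat_lit 196) (nat_lit 131)))) (XT.nd (nat_lit 156) (nat_lit 0) (nat_lit 0) (XT.nd (nat_lit 78) (nat_lit 0) (nat_lit 0) (XT.lf (nat_lit 0) (nat_lit 13625807096262) (nat_lit 76) (nat_lit 17515793733782) (nat_lit 76) (nat_lit 17510178157905) (nat_lit 1) (nat_lit 4) (nat_lit 2) (nat_lit 5) (nat_lit 2) (nat_lit 4) (nat_lit 274) (nat_lit 196) (nat_lit 130)) (XT.lf (nat_lit 0) (nat_lit 15673818240001)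 (nat_lit 76) (nat_lit 20140488011233) (nat_lit 76) (nat_lit 20134872363117) (nat_lit 1) (nat_lit 4) (nat_lit 2) (nat_lit 5) (nat_lit 2) (nat_lit 4) (nat_lit 275) (nat_lit 196) (nat_lit 129))) (XT.nd (nat_lit 78) (nat_lit 0) (nat_lit 0) (XT.lf (nat_lit 0) (nat_lit 18029030955758) (nat_lit 76) (nat_lit 23158886474359) (nat_lit 76) (nat_lit 23153270763426) (nat_lit 1) (nat_lit 4) (nat_lit 2) (nat_lit 5) (nat_lit 2) (nat_lit 4) (nat_lit 276) (nat_lit 196) (nat_lit 128)) (XT.lf (nat_lit 0) (nat_lit 20737525492321) (nat_lit 76) (nat_lit 26630044745263) (nat_lit 76) (nat_lit 26624428979707) (nat_lit 1) (nat_lit 4) (nat_lit 2) (nat_lit 5) (nat_lit 2) (nat_lit 4) (nat_lit 277) (nat_lit 196) (nat_lit 127)))))) (XT.nd (nat_lit 25974) (nat_lit 0) (nat_lit 228) (XT.nd (nat_lit 25662) (nat_lit 0) (nat_lit 608) (XT.nd (nat_lit 156) (nat_lit 0) (nat_lit 0) (XT.nd (nat_lit 78) (nat_lit 0) (nat_lit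 0) (XT.lf (nat_lit 0) (nat_lit 23852294134101) (nat_lit 76) (nat_lit 30621876790116) (nat_lit 76) (nat_lit 30616260977062) (nat_lit 1) (nat_lit 4) (nat_lit 2) (nat_lit 5) (nat_lit 2) (nat_lit 4) (nat_lit 278) (nat_lit 196) (nat_lit 126)) (XT.lf (nat_lit 0) (nat_lit 27434278006697) (nat_lit 76) (nat_lit 35212483670664) (nat_lit 76) (nat_lit 35206867816307) (nat_lit 1) (nat_lit 4) (nat_lit 2) (nat_lit 5) (nat_lit 2) (nat_lit 4) (nat_lit 279) (nat_lit 196) (nat_lit 125))) (XT.nd (nat_lit 78) (nat_lit 0) (nat_lit 0) (XT.lf (nat_lit 0) (nat_lit 31553559403270) (nat_lit 76) (nat_lit 40491681608484) (nat_lit 76) (nat_lit 40486065718211) (nat_lit 1) (nat_lit 4) (nat_lit 2) (nat_lit 5) (nat_lit 2) (nat_lit 4) (nat_lit 280) (nat_lit 196) (nat_lit 124)) (XT.lf (nat_lit 0) (nat_lit 36290732959838) (nat_lit 76) (nat_lit 46562759258881) (nat_lit 76) (nat_lit 46557143337377) (nat_lit 1) (nat_lit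 4) (nat_lit 2) (nat_lit 5) (nat_lit 2) (nat_lit 4) (nat_lit 281) (nat_lit 196) (nat_lit 123)))) (XT.nd (nat_lit 156) (nat_lit 152) (nat_lit 0) (XT.nd (nat_lit 78) (nat_lit 228) (nat_lit 0) (XT.lf (nat_lit 0) (nat_lit 1787833052) (nat_lit 228) (nat_lit 161973203) (nat_lit 0) (nat_lit 1787833052) (nat_lit 14) (nat_lit 5) (nat_lit 17) (nat_lit 4) (nat_lit 14) (nat_lit 4) (nat_lit 206) (nat_lit 197) (nat_lit 197)) (XT.lf (nat_lit 0) (nat_lit 4090451061) (nat_lit 228) (nat_lit 2541329784) (nat_lit 228) (nat_lit 1260115093) (nat_lit 11) (nat_lit 4) (nat_lit 14) (nat_lit 5) (nat_lit 14) (nat_lit 4) (nat_lit 207) (nat_lit 197) (nat_lit 196))) (XT.nd (nat_lit 78) (nat_lit 0) (nat_lit 0) (XT.lf (nat_lit 0) (nat_lit 367488256) (nat_lit 76) (nat_lit 917536245) (nat_lit 152) (nat_lit 7132600264) (nat_lit 9) (nat_lit 5) (nat_lit 10) (nat_lit 5) (nat_lit 11) (nat_lit 4) (nat_lit 208) (nat_lit 197)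 (nat_lit 195)) (XT.lf (nat_lit 0) (nat_lit 3993053619) (nat_lit 152) (nat_lit 3972678872) (nat_lit 0) (nat_lit 1067752056) (nat_lit 9) (nat_lit 5) (nat_lit 11) (nat_lit 4) (nat_lit 9) (nat_lit 4) (nat_lit 209) (nat_lit 197) (nat_lit 194))))) (XT.nd (nat_lit 312) (nat_lit 76) (nat_lit 0) (XT.nd (nat_lit 156) (nat_lit 152) (nat_lit 0) (XT.nd (nat_lit 78) (nat_lit 0) (nat_lit 0) (XT.lf (nat_lit 0) (nat_lit 298910715) (nat_lit 152) (nat_lit 6571076908) (nat_lit 152) (nat_lit 2913236687) (nat_lit 7) (nat_lit 4) (nat_lit 9) (nat_lit 5) (nat_lit 9) (nat_lit 4) (nat_lit 210) (nat_lit 197) (nat_lit 193)) (XT.lf (nat_lit 0) (nat_lit 5275508336) (nat_lit 152) (nat_lit 4839686420) (nat_lit 152) (nat_lit 544856062) (nat_lit 7) (nat_lit 4) (nat_lit 9) (nat_lit 5) (nat_lit 9) (nat_lit 4) (nat_lit 211) (nat_lit 197) (nat_lit 192))) (XT.nd (nat_lit 78) (nat_lit 76) (nat_lit 0) (XT.lf (nat_lit 0) (nat_lit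 1733933480) (nat_lit 228) (nat_lit 1120777842) (nat_lit 76) (nat_lit 8841672222) (nat_lit 6) (nat_lit 5) (nat_lit 9) (nat_lit 5) (nat_lit 7) (nat_lit 4) (nat_lit 212) (nat_lit 197) (nat_lit 191)) (XT.lf (nat_lit 0) (nat_lit 3779373267) (nat_lit 76) (nat_lit 457726337) (nat_lit 152) (nat_lit 8659800417) (nat_lit 5) (nat_lit 5) (nat_lit 6) (nat_lit 5) (nat_lit 7) (nat_lit 4) (nat_lit 213) (nat_lit 197) (nat_lit 190)))) (XT.nd (nat_lit 156) (nat_lit 76) (nat_lit 0) (XT.nd (nat_lit 78) (nat_lit 0) (nat_lit 0) (XT.lf (nat_lit 0) (nat_lit 7066175637) (nat_lit 152) (nat_lit 5154837507) (nat_lit 0) (nat_lit 2066851951) (nat_lit 5) (nat_lit 5) (nat_lit 7) (nat_lit 4) (nat_lit 5) (nat_lit 4) (nat_lit 214) (nat_lit 197) (nat_lit 189)) (XT.lf (nat_lit 0) (nat_lit 10162166426) (nat_lit 152) (nat_lit 905332804) (nat_lit 0) (nat_lit 4846146063) (nat_lit 5) (nat_lit 5) (nat_lit 7) (nat_lit 4) (nat_lit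 5) (nat_lit 4) (nat_lit 215) (nat_lit 197) (nat_lit 188))) (XT.nd (nat_lit 78) (nat_lit 0) (nat_lit 0) (XT.lf (nat_lit 0) (nat_lit 4097907357) (nat_lit 76) (nat_lit 9638470481) (nat_lit 76) (nat_lit 4047061703) (nat_lit 4) (nat_lit 4) (nat_lit 5) (nat_lit 5) (nat_lit 5) (nat_lit 4) (nat_lit 216) (nat_lit 197) (nat_lit 187)) (XT.lf (nat_lit 0) (nat_lit 9716162413) (nat_lit 76) (nat_lit 8032526498) (nat_lit 76) (nat_lit 2201649533) (nat_lit 4) (nat_lit 4) (nat_lit 5) (nat_lit 5) (nat_lit 5) (nat_lit 4) (nat_lit 217) (nat_lit 197) (nat_lit 186))))))))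
noncomputable def xc23 : XT := (XT.nd (nat_lit 2496) (nat_lit 0) (nat_lit 0) (XT.nd (nat_lit 1248) (nat_lit 0) (nat_lit 0) (XT.nd (nat_lit 624) (nat_lit 76) (nat_lit 0) (XT.nd (nat_lit 312) (nat_lit 0) (nat_lit 0) (XT.nd (nat_lit 156) (nat_lit 76) (nat_lit 0) (XT.nd (nat_lit 78) (nat_lit 76) (nat_lit 0) (XT.lf (nat_lit 0) (nat_lit 15970879039) (nat_lit 76) (nat_lit 6265570854) (nat_lit 76) (nat_lit 226460683) (nat_lit 4) (nat_lit 4) (nat_lit 5) (nat_lit 5) (nat_lit 5) (nat_lit 4) (nat_lit 218) (nat_lit 197) (nat_lit 185)) (XT.lf (nat_lit 0) (nat_lit 1746471908) (nat_lit 152) (nat_lit 2465267919) (nat_lit 76) (nat_lit 21146667367) (nat_lit 3) (nat_lit 5) (nat_lit 5) (nat_lit 5) (nat_lit 4) (nat_lit 4) (nat_lit 219) (nat_lit 197) (nat_lit 184))) (XT.nd (nat_lit 78) (nat_lit 0) (nat_lit 0) (XT.lf (nat_lit 0) (nat_lit 2182007071) (nat_lit 76) (nat_lit 1799222609) (nat_lit 152) (nat_lit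 24708124357) (nat_lit 2) (nat_lit 5) (nat_lit 3) (nat_lit 5) (nat_lit 4) (nat_lit 4) (nat_lit 220) (nat_lit 197) (nat_lit 183)) (XT.lf (nat_lit 0) (nat_lit 6629233018) (nat_lit 152) (nat_lit 24915561082) (nat_lit 0) (nat_lit 964403926) (nat_lit 2) (nat_lit 5) (nat_lit 4) (nat_lit 4) (nat_lit 2) (nat_lit 4) (nat_lit 221) (nat_lit 197) (nat_lit 182)))) (XT.nd (nat_lit 156) (nat_lit 0) (nat_lit 0) (XT.nd (nat_lit 78) (nat_lit 0) (nat_lit 0) (XT.lf (nat_lit 0) (nat_lit 9675461368) (nat_lit 152) (nat_lit 23320134699) (nat_lit 0) (nat_lit 3907103570) (nat_lit 2) (nat_lit 5) (nat_lit 4) (nat_lit 4) (nat_lit 2) (nat_lit 4) (nat_lit 222) (nat_lit 197) (nat_lit 181)) (XT.lf (nat_lit 0) (nat_lit 13105012879) (nat_lit 152) (nat_lit 21615350980) (nat_lit 0) (nat_lit 7246630120) (nat_lit 2) (nat_lit 5) (nat_lit 4) (nat_lit 4) (nat_lit 2) (nat_lit 4) (nat_lit 223) (nat_lit 197) (nat_lit 180))) (XT.nd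 (nat_lit 78) (nat_lit 0) (nat_lit 0) (XT.lf (nat_lit 0) (nat_lit 16984987472) (nat_lit 152) (nat_lit 19767855463) (nat_lit 0) (nat_lit 11048322138) (nat_lit 2) (nat_lit 5) (nat_lit 4) (nat_lit 4) (nat_lit 2) (nat_lit 4) (nat_lit 224) (nat_lit 197) (nat_lit 179)) (XT.lf (nat_lit 0) (nat_lit 21391297694) (nat_lit 152) (nat_lit 17741501495) (nat_lit 0) (nat_lit 15386560555) (nat_lit 2) (nat_lit 5) (nat_lit 4) (nat_lit 4) (nat_lit 2) (nat_lit 4) (nat_lit 225) (nat_lit 197) (nat_lit 178))))) (XT.nd (nat_lit 312) (nat_lit 76) (nat_lit 0) (XT.nd (nat_lit 156) (nat_lit 0) (nat_lit 0) (XT.nd (nat_lit 78) (nat_lit 0) (nat_lit 0) (XT.lf (nat_lit 0) (nat_lit 26410153961) (nat_lit 152) (nat_lit 15496643021) (nat_lit 0) (nat_lit 20346223949) (nat_lit 2) (nat_lit 5) (nat_lit 4) (nat_lit 4) (nat_lit 2) (nat_lit 4) (nat_lit 226) (nat_lit 197) (nat_lit 177)) (XT.lf (nat_lit 0) (nat_lit 32139751288)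 (nat_lit 152) (nat_lit 12989358897) (nat_lit 0) (nat_lit 26024349213) (nat_lit 2) (nat_lit 5) (nat_lit 4) (nat_lit 4) (nat_lit 2) (nat_lit 4) (nat_lit 227) (nat_lit 197) (nat_lit 176))) (XT.nd (nat_lit 78) (nat_lit 0) (nat_lit 0) (XT.lf (nat_lit 0) (nat_lit 38692190492) (nat_lit 152) (nat_lit 10170593564) (nat_lit 0) (nat_lit 32532030100) (nat_lit 2) (nat_lit 5) (nat_lit 4) (nat_lit 4) (nat_lit 2) (nat_lit 4) (nat_lit 228) (nat_lit 197) (nat_lit 175)) (XT.lf (nat_lit 0) (nat_lit 46195671470) (nat_lit 152) (nat_lit 6985197265) (nat_lit 0) (nat_lit 39996590803) (nat_lit 2) (nat_lit 5) (nat_lit 4) (nat_lit 4) (nat_lit 2) (nat_lit 4) (nat_lit 229) (nat_lit 197) (nat_lit 174)))) (XT.nd (nat_lit 156) (nat_lit 0) (nat_lit 0) (XT.nd (nat_lit 78) (nat_lit 76) (nat_lit 0) (XT.lf (nat_lit 0) (nat_lit 54797001459) (nat_lit 152) (nat_lit 3370847029) (nat_lit 0) (nat_lit 48564077075) (nat_lit 2)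 (nat_lit 5) (nat_lit 4) (nat_lit 4) (nat_lit 2) (nat_lit 4) (nat_lit 230) (nat_lit 197) (nat_lit 173)) (XT.lf (nat_lit 0) (nat_lit 815800931) (nat_lit 76) (nat_lit 63882446996) (nat_lit 76) (nat_lit 57620093292) (nat_lit 1) (nat_lit 4) (nat_lit 2) (nat_lit 5) (nat_lit 2) (nat_lit 4) (nat_lit 231) (nat_lit 197) (nat_lit 172))) (XT.nd (nat_lit 78) (nat_lit 0) (nat_lit 0) (XT.lf (nat_lit 0) (nat_lit 5968731323) (nat_lit 76) (nat_lit 70269549371) (nat_lit 76) (nat_lit 63981604955) (nat_lit 1) (nat_lit 4) (nat_lit 2) (nat_lit 5) (nat_lit 2) (nat_lit 4) (nat_lit 232) (nat_lit 197) (nat_lit 171)) (XT.lf (nat_lit 0) (nat_lit 11859338664) (nat_lit 76) (nat_lit 77630324028) (nat_lit 76) (nat_lit 71320126818) (nat_lit 1) (nat_lit 4) (nat_lit 2) (nat_lit 5) (nat_lit 2) (nat_lit 4) (nat_lit 233) (nat_lit 197) (nat_lit 170)))))) (XT.nd (nat_lit 624) (nat_lit 0) (nat_lit 0) (XT.nd (nat_lit 312)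 (nat_lit 0) (nat_lit 0) (XT.nd (nat_lit 156) (nat_lit 0) (nat_lit 0) (XT.nd (nat_lit 78) (nat_lit 0) (nat_lit 0) (XT.lf (nat_lit 0) (nat_lit 18602873965) (nat_lit 76) (nat_lit 86108786123) (nat_lit 76) (nat_lit 79779238658) (nat_lit 1) (nat_lit 4) (nat_lit 2) (nat_lit 5) (nat_lit 2) (nat_lit 4) (nat_lit 234) (nat_lit 197) (nat_lit 169)) (XT.lf (nat_lit 0) (nat_lit 26331275961) (nat_lit 76) (nat_lit 95870818610) (nat_lit 76) (nat_lit 89524444836) (nat_lit 1) (nat_lit 4) (nat_lit 2) (nat_lit 5) (nat_lit 2) (nat_lit 4) (nat_lit 235) (nat_lit 197) (nat_lit 168))) (XT.nd (nat_lit 78) (nat_lit 0) (nat_lit 0) (XT.lf (nat_lit 0) (nat_lit 35195752517) (nat_lit 76) (nat_lit 107107417777) (nat_lit 76) (nat_lit 100746412430) (nat_lit 1) (nat_lit 4) (nat_lit 2) (nat_lit 5) (nat_lit 2) (nat_lit 4) (nat_lit 236) (nat_lit 197) (nat_lit 167)) (XT.lf (nat_lit 0) (nat_lit 45369739045) (nat_lit 76) (nat_lit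 120038430130) (nat_lit 76) (nat_lit 113664701676) (nat_lit 1) (nat_lit 4) (nat_lit 2) (nat_lit 5) (nat_lit 2) (nat_lit 4) (nat_lit 237) (nat_lit 197) (nat_lit 166)))) (XT.nd (nat_lit 156) (nat_lit 0) (nat_lit 0) (XT.nd (nat_lit 78) (nat_lit 0) (nat_lit 0) (XT.lf (nat_lit 0) (nat_lit 57052291802) (nat_lit 76) (nat_lit 134916853736) (nat_lit 76) (nat_lit 128532061710) (nat_lit 1) (nat_lit 4) (nat_lit 2) (nat_lit 5) (nat_lit 2) (nat_lit 4) (nat_lit 238) (nat_lit 197) (nat_lit 165)) (XT.lf (nat_lit 0) (nat_lit 70471982472) (nat_lit 76) (nat_lit 152033788187) (nat_lit 76) (nat_lit 145639375665) (nat_lit 1) (nat_lit 4) (nat_lit 2) (nat_lit 5) (nat_lit 2) (nat_lit 4) (nat_lit 239) (nat_lit 197) (nat_lit 164))) (XT.nd (nat_lit 78) (nat_lit 0) (nat_lit 0) (XT.lf (nat_lit 0) (nat_lit 85891370222) (nat_lit 76) (nat_lit 171724130028) (nat_lit 76) (nat_lit 165321351856) (nat_lit 1) (nat_lit 4)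 (nat_lit 2) (nat_lit 5) (nat_lit 2) (nat_lit 4) (nat_lit 240) (nat_lit 197) (nat_lit 163)) (XT.lf (nat_lit 0) (nat_lit 103612138723) (nat_lit 76) (nat_lit 194373125076) (nat_lit 76) (nat_lit 187963072427) (nat_lit 1) (nat_lit 4) (nat_lit 2) (nat_lit 5) (nat_lit 2) (nat_lit 4) (nat_lit 241) (nat_lit 197) (nat_lit 162))))) (XT.nd (nat_lit 312) (nat_lit 0) (nat_lit 0) (XT.nd (nat_lit 156) (nat_lit 0) (nat_lit 0) (XT.nd (nat_lit 78) (nat_lit 0) (nat_lit 0) (XT.lf (nat_lit 0) (nat_lit 123980998666) (nat_lit 76) (nat_lit 220423905844) (nat_lit 76) (nat_lit 214007527562) (nat_lit 1) (nat_lit 4) (nat_lit 2) (nat_lit 5) (nat_lit 2) (nat_lit 4) (nat_lit 242) (nat_lit 197) (nat_lit 161)) (XT.lf (nat_lit 0) (nat_lit 147396471221) (nat_lit 76) (nat_lit 250386161520) (nat_lit 76) (nat_lit 243964282687) (nat_lit 1) (nat_lit 4) (nat_lit 2) (nat_lit 5) (nat_lit 2) (nat_lit 4) (nat_lit 243) (nat_lit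 197) (nat_lit 160))) (XT.nd (nat_lit 78) (nat_lit 0) (nat_lit 0) (XT.lf (nat_lit 0) (nat_lit 174316685200) (nat_lit 76) (nat_lit 284846110150) (nat_lit 76) (nat_lit 278419448231) (nat_lit 1) (nat_lit 4) (nat_lit 2) (nat_lit 5) (nat_lit 2) (nat_lit 4) (nat_lit 244) (nat_lit 197) (nat_lit 159)) (XT.lf (nat_lit 0) (nat_lit 205268340442) (nat_lit 76) (nat_lit 324477968121) (nat_lit 76) (nat_lit 318047146996) (nat_lit 1) (nat_lit 4) (nat_lit 2) (nat_lit 5) (nat_lit 2) (nat_lit 4) (nat_lit 245) (nat_lit 197) (nat_lit 158)))) (XT.nd (nat_lit 156) (nat_lit 0) (nat_lit 0) (XT.nd (nat_lit 78) (nat_lit 0) (nat_lit 0) (XT.lf (nat_lit 0) (nat_lit 240857012811) (nat_lit 76) (nat_lit 370057141350) (nat_lit 76) (nat_lit 363622703523) (nat_lit 1) (nat_lit 4) (nat_lit 2) (nat_lit 5) (nat_lit 2) (nat_lit 4) (nat_lit 246) (nat_lit 197) (nat_lit 157)) (XT.lf (nat_lit 0) (nat_lit 281779002417) (nat_lit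 76) (nat_lit 422475396268) (nat_lit 76) (nat_lit 416037813484) (nat_lit 1) (nat_lit 4) (nat_lit 2) (nat_lit 5) (nat_lit 2) (nat_lit 4) (nat_lit 247) (nat_lit 197) (nat_lit 156))) (XT.nd (nat_lit 78) (nat_lit 0) (nat_lit 0) (XT.lf (nat_lit 0) (nat_lit 328834956883) (nat_lit 76) (nat_lit 482758307429) (nat_lit 76) (nat_lit 476317989900) (nat_lit 1) (nat_lit 4) (nat_lit 2) (nat_lit 5) (nat_lit 2) (nat_lit 4) (nat_lit 248) (nat_lit 197) (nat_lit 155)) (XT.lf (nat_lit 0) (nat_lit 382945536189) (nat_lit 76) (nat_lit 552085323096) (nat_lit 76) (nat_lit 545642627526) (nat_lit 1) (nat_lit 4) (nat_lit 2) (nat_lit 5) (nat_lit 2) (nat_lit 4) (nat_lit 249) (nat_lit 197) (nat_lit 154))))))) (XT.nd (nat_lit 1248) (nat_lit 0) (nat_lit 0) (XT.nd (nat_lit 624) (nat_lit 0) (nat_lit 0) (XT.nd (nat_lit 312) (nat_lit 0) (nat_lit 0) (XT.nd (nat_lit 156) (nat_lit 0) (nat_lit 0) (XT.nd (nat_lit 78) (nat_lit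 0) (nat_lit 0) (XT.lf (nat_lit 0) (nat_lit 445169425581) (nat_lit 76) (nat_lit 631812841399) (nat_lit 76) (nat_lit 625368077969) (nat_lit 1) (nat_lit 4) (nat_lit 2) (nat_lit 5) (nat_lit 2) (nat_lit 4) (nat_lit 250) (nat_lit 197) (nat_lit 153)) (XT.lf (nat_lit 0) (nat_lit 516724048982) (nat_lit 76) (nat_lit 723500748567) (nat_lit 76) (nat_lit 717054186998) (nat_lit 1) (nat_lit 4) (nat_lit 2) (nat_lit 5) (nat_lit 2) (nat_lit 4) (nat_lit 251) (nat_lit 197) (nat_lit 152))) (XT.nd (nat_lit 78) (nat_lit 0) (nat_lit 0) (XT.lf (nat_lit 0) (nat_lit 599009388155) (nat_lit 76) (nat_lit 828942938436) (nat_lit 76) (nat_lit 822494813267) (nat_lit 1) (nat_lit 4) (nat_lit 2) (nat_lit 5) (nat_lit 2) (nat_lit 4) (nat_lit 252) (nat_lit 197) (nat_lit 151)) (XT.lf (nat_lit 0) (nat_lit 693635373649) (nat_lit 76) (nat_lit 950202410374) (nat_lit 76) (nat_lit 943752925552) (nat_lit 1) (nat_lit 4) (nat_lit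 2) (nat_lit 5) (nat_lit 2) (nat_lit 4) (nat_lit 253) (nat_lit 197) (nat_lit 150)))) (XT.nd (nat_lit 156) (nat_lit 0) (nat_lit 0) (XT.nd (nat_lit 78) (nat_lit 0) (nat_lit 0) (XT.lf (nat_lit 0) (nat_lit 802453383440) (nat_lit 76) (nat_lit 1089651632308) (nat_lit 76) (nat_lit 1083200965180) (nat_lit 1) (nat_lit 4) (nat_lit 2) (nat_lit 5) (nat_lit 2) (nat_lit 4) (nat_lit 254) (nat_lit 197) (nat_lit 149)) (XT.lf (nat_lit 0) (nat_lit 927592465546) (nat_lit 76) (nat_lit 1250018958581) (nat_lit 76) (nat_lit 1243567263362) (nat_lit 1) (nat_lit 4) (nat_lit 2) (nat_lit 5) (nat_lit 2) (nat_lit 4) (nat_lit 255) (nat_lit 197) (nat_lit 148))) (XT.nd (nat_lit 78) (nat_lit 0) (nat_lit 0) (XT.lf (nat_lit 0) (nat_lit 1071500993313) (nat_lit 76) (nat_lit 1434442010795) (nat_lit 76) (nat_lit 1427989421582) (nat_lit 1) (nat_lit 4) (nat_lit 2) (nat_lit 5) (nat_lit 2) (nat_lit 4) (nat_lit 256) (nat_lit 197)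 (nat_lit 147)) (XT.lf (nat_lit 0) (nat_lit 1236994568372) (nat_lit 76) (nat_lit 1646529066058) (nat_lit 76) (nat_lit 1640075699460) (nat_lit 1) (nat_lit 4) (nat_lit 2) (nat_lit 5) (nat_lit 2) (nat_lit 4) (nat_lit 257) (nat_lit 197) (nat_lit 146))))) (XT.nd (nat_lit 312) (nat_lit 0) (nat_lit 0) (XT.nd (nat_lit 156) (nat_lit 0) (nat_lit 0) (XT.nd (nat_lit 78) (nat_lit 0) (nat_lit 0) (XT.lf (nat_lit 0) (nat_lit 1427311108494) (nat_lit 76) (nat_lit 1890429653711) (nat_lit 76) (nat_lit 1883975611126) (nat_lit 1) (nat_lit 4) (nat_lit 2) (nat_lit 5) (nat_lit 2) (nat_lit 4) (nat_lit 258) (nat_lit 197) (nat_lit 145)) (XT.lf (nat_lit 0) (nat_lit 1646174198161) (nat_lit 76) (nat_lit 2170915741775) (nat_lit 76) (nat_lit 2164461111375) (nat_lit 1) (nat_lit 4) (nat_lit 2) (nat_lit 5) (nat_lit 2) (nat_lit 4) (nat_lit 259) (nat_lit 197) (nat_lit 144))) (XT.nd (nat_lit 78) (nat_lit 0) (nat_lit 0)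 (XT.lf (nat_lit 0) (nat_lit 1897865941300) (nat_lit 76) (nat_lit 2493475101537) (nat_lit 76) (nat_lit 2487019959993) (nat_lit 1) (nat_lit 4) (nat_lit 2) (nat_lit 5) (nat_lit 2) (nat_lit 4) (nat_lit 260) (nat_lit 197) (nat_lit 143)) (XT.lf (nat_lit 0) (nat_lit 2187310741583) (nat_lit 76) (nat_lit 2864418676993) (nat_lit 76) (nat_lit 2857963090976) (nat_lit 1) (nat_lit 4) (nat_lit 2) (nat_lit 5) (nat_lit 2) (nat_lit 4) (nat_lit 261) (nat_lit 197) (nat_lit 142)))) (XT.nd (nat_lit 156) (nat_lit 0) (nat_lit 0) (XT.nd (nat_lit 78) (nat_lit 0) (nat_lit 0) (XT.lf (nat_lit 0) (nat_lit 2520171649449) (nat_lit 76) (nat_lit 3291004059836) (nat_lit 76) (nat_lit 3284548087322) (nat_lit 1) (nat_lit 4) (nat_lit 2) (nat_lit 5) (nat_lit 2) (nat_lit 4) (nat_lit 262) (nat_lit 197) (nat_lit 141)) (XT.lf (nat_lit 0) (nat_lit 2902961160921) (nat_lit 76) (nat_lit 3781577485818) (nat_lit 76) (nat_lit 3775121177219)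 (nat_lit 1) (nat_lit 4) (nat_lit 2) (nat_lit 5) (nat_lit 2) (nat_lit 4) (nat_lit 263) (nat_lit 197) (nat_lit 140))) (XT.nd (nat_lit 78) (nat_lit 0) (nat_lit 0) (XT.lf (nat_lit 0) (nat_lit 3343168636008) (nat_lit 76) (nat_lit 4345737130665) (nat_lit 76) (nat_lit 4339280529818) (nat_lit 1) (nat_lit 4) (nat_lit 2) (nat_lit 5) (nat_lit 2) (nat_lit 4) (nat_lit 264) (nat_lit 197) (nat_lit 139)) (XT.lf (nat_lit 0) (nat_lit 3849406829655) (nat_lit 76) (nat_lit 4994520900471) (nat_lit 76) (nat_lit 4988064045495) (nat_lit 1) (nat_lit 4) (nat_lit 2) (nat_lit 5) (nat_lit 2) (nat_lit 4) (nat_lit 265) (nat_lit 197) (nat_lit 138)))))) (XT.nd (nat_lit 624) (nat_lit 0) (nat_lit 0) (XT.nd (nat_lit 312) (nat_lit 0) (nat_lit 0) (XT.nd (nat_lit 156) (nat_lit 0) (nat_lit 0) (XT.nd (nat_lit 78) (nat_lit 0) (nat_lit 0) (XT.lf (nat_lit 0) (nat_lit 4431580402175) (nat_lit 76) (nat_lit 5740622390732) (nat_lit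 76) (nat_lit 5734165314775) (nat_lit 1) (nat_lit 4) (nat_lit 2) (nat_lit 5) (nat_lit 2) (nat_lit 4) (nat_lit 266) (nat_lit 197) (nat_lit 137)) (XT.lf (nat_lit 0) (nat_lit 5101079706071) (nat_lit 76) (nat_lit 6598639239302) (nat_lit 76) (nat_lit 6592181971187) (nat_lit 1) (nat_lit 4) (nat_lit 2) (nat_lit 5) (nat_lit 2) (nat_lit 4) (nat_lit 267) (nat_lit 197) (nat_lit 136))) (XT.nd (nat_lit 78) (nat_lit 0) (nat_lit 0) (XT.lf (nat_lit 0) (nat_lit 5871003640770) (nat_lit 76) (nat_lit 7585358732348) (nat_lit 76) (nat_lit 7578901297139) (nat_lit 1) (nat_lit 4) (nat_lit 2) (nat_lit 5) (nat_lit 2) (nat_lit 4) (nat_lit 268) (nat_lit 197) (nat_lit 135)) (XT.lf (nat_lit 0) (nat_lit 6756415935427) (nat_lit 76) (nat_lit 8720086251256) (nat_lit 76) (nat_lit 8713628670748) (nat_lit 1) (nat_lit 4) (nat_lit 2) (nat_lit 5) (nat_lit 2) (nat_lit 4) (nat_lit 269) (nat_lit 197) (nat_lit 134)))) (XT.nd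 (nat_lit 156) (nat_lit 0) (nat_lit 0) (XT.nd (nat_lit 78) (nat_lit 0) (nat_lit 0) (XT.lf (nat_lit 0) (nat_lit 7774639874068) (nat_lit 76) (nat_lit 10025022986613) (nat_lit 76) (nat_lit 10018565279759) (nat_lit 1) (nat_lit 4) (nat_lit 2) (nat_lit 5) (nat_lit 2) (nat_lit 4) (nat_lit 270) (nat_lit 197) (nat_lit 133)) (XT.lf (nat_lit 0) (nat_lit 8945597229407) (nat_lit 76) (nat_lit 11525700309329) (nat_lit 76) (nat_lit 11519242492607) (nat_lit 1) (nat_lit 4) (nat_lit 2) (nat_lit 5) (nat_lit 2) (nat_lit 4) (nat_lit 271) (nat_lit 197) (nat_lit 132))) (XT.nd (nat_lit 78) (nat_lit 0) (nat_lit 0) (XT.lf (nat_lit 0) (nat_lit 10292198036656) (nat_lit 76) (nat_lit 13251479297456) (nat_lit 76) (nat_lit 13245021385198) (nat_lit 1) (nat_lit 4) (nat_lit 2) (nat_lit 5) (nat_lit 2) (nat_lit 4) (nat_lit 272) (nat_lit 197) (nat_lit 131)) (XT.lf (nat_lit 0) (nat_lit 11840788833348) (nat_lit 76) (nat_lit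 15236125192066) (nat_lit 76) (nat_lit 15229667196733) (nat_lit 1) (nat_lit 4) (nat_lit 2) (nat_lit 5) (nat_lit 2) (nat_lit 4) (nat_lit 273) (nat_lit 197) (nat_lit 130))))) (XT.nd (nat_lit 312) (nat_lit 0) (nat_lit 0) (XT.nd (nat_lit 156) (nat_lit 0) (nat_lit 0) (XT.nd (nat_lit 78) (nat_lit 0) (nat_lit 0) (XT.lf (nat_lit 0) (nat_lit 13621668135071) (nat_lit 76) (nat_lit 17518468021532) (nat_lit 76) (nat_lit 17512009953960) (nat_lit 1) (nat_lit 4) (nat_lit 2) (nat_lit 5) (nat_lit 2) (nat_lit 4) (nat_lit 274) (nat_lit 197) (nat_lit 129)) (XT.lf (nat_lit 0) (nat_lit 15669679232511) (nat_lit 76) (nat_lit 20143162319475) (nat_lit 76) (nat_lit 20136704189086) (nat_lit 1) (nat_lit 4) (nat_lit 2) (nat_lit 5) (nat_lit 2) (nat_lit 4) (nat_lit 275) (nat_lit 197) (nat_lit 128))) (XT.nd (nat_lit 78) (nat_lit 0) (nat_lit 0) (XT.lf (nat_lit 0) (nat_lit 18024891908009) (nat_lit 76) (nat_lit 23161560800419)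 (nat_lit 76) (nat_lit 23155102615407) (nat_lit 1) (nat_lit 4) (nat_lit 2) (nat_lit 5) (nat_lit 2) (nat_lit 4) (nat_lit 276) (nat_lit 197) (nat_lit 127)) (XT.lf (nat_lit 0) (nat_lit 20733386409564) (nat_lit 76) (nat_lit 26632719086818) (nat_lit 76) (nat_lit 26626260854307) (nat_lit 1) (nat_lit 4) (nat_lit 2) (nat_lit 5) (nat_lit 2) (nat_lit 4) (nat_lit 277) (nat_lit 197) (nat_lit 126)))) (XT.nd (nat_lit 156) (nat_lit 0) (nat_lit 0) (XT.nd (nat_lit 78) (nat_lit 0) (nat_lit 0) (XT.lf (nat_lit 0) (nat_lit 23848155020902) (nat_lit 76) (nat_lit 30624551145144) (nat_lit 76) (nat_lit 30618092871330) (nat_lit 1) (nat_lit 4) (nat_lit 2) (nat_lit 5) (nat_lit 2) (nat_lit 4) (nat_lit 278) (nat_lit 197) (nat_lit 125)) (XT.lf (nat_lit 0) (nat_lit 27430138867027) (nat_lit 76) (nat_lit 35215158037408) (nat_lit 76) (nat_lit 35208699727679) (nat_lit 1) (nat_lit 4) (nat_lit 2) (nat_lit 5) (nat_lit 2)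 (nat_lit 4) (nat_lit 279) (nat_lit 197) (nat_lit 124))) (XT.nd (nat_lit 25350) (nat_lit 0) (nat_lit 1216) (XT.lf (nat_lit 0) (nat_lit 31549420240581) (nat_lit 76) (nat_lit 40494355985416) (nat_lit 76) (nat_lit 40487897644456) (nat_lit 1) (nat_lit 4) (nat_lit 2) (nat_lit 5) (nat_lit 2) (nat_lit 4) (nat_lit 280) (nat_lit 197) (nat_lit 123)) (XT.lf (nat_lit 0) (nat_lit 3036395874) (nat_lit 76) (nat_lit 202959673) (nat_lit 76) (nat_lit 202959673) (nat_lit 17) (nat_lit 4) (nat_lit 18) (nat_lit 5) (nat_lit 18) (nat_lit 4) (nat_lit 204) (nat_lit 198) (nat_lit 198))))))))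
noncomputable def xc24 : XT := (XT.nd (nat_lit 2496) (nat_lit 0) (nat_lit 0) (XT.nd (nat_lit 1248) (nat_lit 152) (nat_lit 0) (XT.nd (nat_lit 624) (nat_lit 228) (nat_lit 0) (XT.nd (nat_lit 312) (nat_lit 304) (nat_lit 0) (XT.nd (nat_lit 156) (nat_lit 304) (nat_lit 0) (XT.nd (nat_lit 78) (nat_lit 0) (nat_lit 0) (XT.lf (nat_lit 0) (nat_lit 2213909998) (nat_lit 228) (nat_lit 4194211299) (nat_lit 0) (nat_lit 740513103) (nat_lit 14) (nat_lit 5) (nat_lit 17) (nat_lit 4) (nat_lit 14) (nat_lit 4) (nat_lit 205) (nat_lit 198) (nat_lit 197)) (XT.lf (nat_lit 0) (nat_lit 4875254596) (nat_lit 228) (nat_lit 510256824) (nat_lit 0) (nat_lit 2120643010) (nat_lit 14) (nat_lit 5) (nat_lit 17) (nat_lit 4) (nat_lit 14) (nat_lit 4) (nat_lit 206) (nat_lit 198) (nat_lit 196))) (XT.nd (nat_lit 78) (nat_lit 76) (nat_lit 0) (XT.lf (nat_lit 0) (nat_lit 3708091271) (nat_lit 228) (nat_lit 4056307619) (nat_lit 228)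 (nat_lit 187596302) (nat_lit 11) (nat_lit 4) (nat_lit 14) (nat_lit 5) (nat_lit 14) (nat_lit 4) (nat_lit 207) (nat_lit 198) (nat_lit 195)) (XT.lf (nat_lit 0) (nat_lit 2099142978) (nat_lit 304) (nat_lit 324336288) (nat_lit 76) (nat_lit 6075179812) (nat_lit 10) (nat_lit 5) (nat_lit 14) (nat_lit 5) (nat_lit 11) (nat_lit 4) (nat_lit 208) (nat_lit 198) (nat_lit 194)))) (XT.nd (nat_lit 156) (nat_lit 228) (nat_lit 0) (XT.nd (nat_lit 78) (nat_lit 0) (nat_lit 0) (XT.lf (nat_lit 0) (nat_lit 4228689523) (nat_lit 76) (nat_lit 379962882) (nat_lit 152) (nat_lit 4538391428) (nat_lit 9) (nat_lit 5) (nat_lit 10) (nat_lit 5) (nat_lit 11) (nat_lit 4) (nat_lit 209) (nat_lit 198) (nat_lit 193)) (XT.lf (nat_lit 0) (nat_lit 7338822947) (nat_lit 152) (nat_lit 819585985) (nat_lit 0) (nat_lit 1762777898) (nat_lit 9) (nat_lit 5) (nat_lit 11) (nat_lit 4) (nat_lit 9) (nat_lit 4) (nat_lit 210) (nat_lit 198) (nat_lit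 192))) (XT.nd (nat_lit 78) (nat_lit 76) (nat_lit 0) (XT.lf (nat_lit 0) (nat_lit 3922333189) (nat_lit 152) (nat_lit 6514865739) (nat_lit 152) (nat_lit 384916223) (nat_lit 7) (nat_lit 4) (nat_lit 9) (nat_lit 5) (nat_lit 9) (nat_lit 4) (nat_lit 211) (nat_lit 198) (nat_lit 191)) (XT.lf (nat_lit 0) (nat_lit 1778167041) (nat_lit 228) (nat_lit 2788546436) (nat_lit 76) (nat_lit 7307531702) (nat_lit 6) (nat_lit 5) (nat_lit 9) (nat_lit 5) (nat_lit 7) (nat_lit 4) (nat_lit 212) (nat_lit 198) (nat_lit 190))))) (XT.nd (nat_lit 312) (nat_lit 76) (nat_lit 0) (XT.nd (nat_lit 156) (nat_lit 76) (nat_lit 0) (XT.nd (nat_lit 78) (nat_lit 0) (nat_lit 0) (XT.lf (nat_lit 0) (nat_lit 1809343959) (nat_lit 76) (nat_lit 2302182035) (nat_lit 152) (nat_lit 8990072492) (nat_lit 5) (nat_lit 5) (nat_lit 6) (nat_lit 5) (nat_lit 7) (nat_lit 4) (nat_lit 213) (nat_lit 198) (nat_lit 189)) (XT.lf (nat_lit 0) (nat_lit 6780858147)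 (nat_lit 152) (nat_lit 7386116554) (nat_lit 0) (nat_lit 350738053) (nat_lit 5) (nat_lit 5) (nat_lit 7) (nat_lit 4) (nat_lit 5) (nat_lit 4) (nat_lit 214) (nat_lit 198) (nat_lit 188))) (XT.nd (nat_lit 78) (nat_lit 76) (nat_lit 0) (XT.lf (nat_lit 0) (nat_lit 9804354238) (nat_lit 152) (nat_lit 3252199897) (nat_lit 0) (nat_lit 3098845729) (nat_lit 5) (nat_lit 5) (nat_lit 7) (nat_lit 4) (nat_lit 5) (nat_lit 4) (nat_lit 215) (nat_lit 198) (nat_lit 187)) (XT.lf (nat_lit 0) (nat_lit 1411353301) (nat_lit 76) (nat_lit 11792929006) (nat_lit 76) (nat_lit 4847952311) (nat_lit 4) (nat_lit 4) (nat_lit 5) (nat_lit 5) (nat_lit 5) (nat_lit 4) (nat_lit 216) (nat_lit 198) (nat_lit 186)))) (XT.nd (nat_lit 156) (nat_lit 76) (nat_lit 0) (XT.nd (nat_lit 78) (nat_lit 0) (nat_lit 0) (XT.lf (nat_lit 0) (nat_lit 6933665712) (nat_lit 76) (nat_lit 10224138482) (nat_lit 76) (nat_lit 3070928581) (nat_lit 4) (nat_lit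 4) (nat_lit 5) (nat_lit 5) (nat_lit 5) (nat_lit 4) (nat_lit 217) (nat_lit 198) (nat_lit 185)) (XT.lf (nat_lit 0) (nat_lit 13104953950) (nat_lit 76) (nat_lit 8489490194) (nat_lit 76) (nat_lit 1155207939) (nat_lit 4) (nat_lit 4) (nat_lit 5) (nat_lit 5) (nat_lit 5) (nat_lit 4) (nat_lit 218) (nat_lit 198) (nat_lit 184))) (XT.nd (nat_lit 78) (nat_lit 0) (nat_lit 0) (XT.lf (nat_lit 0) (nat_lit 853300384) (nat_lit 152) (nat_lit 5657140647) (nat_lit 76) (nat_lit 19148055890) (nat_lit 3) (nat_lit 5) (nat_lit 5) (nat_lit 5) (nat_lit 4) (nat_lit 4) (nat_lit 219) (nat_lit 198) (nat_lit 183)) (XT.lf (nat_lit 0) (nat_lit 2956742617) (nat_lit 152) (nat_lit 1271656559) (nat_lit 76) (nat_lit 24781188385) (nat_lit 3) (nat_lit 5) (nat_lit 5) (nat_lit 5) (nat_lit 4) (nat_lit 4) (nat_lit 220) (nat_lit 198) (nat_lit 182)))))) (XT.nd (nat_lit 624) (nat_lit 76) (nat_lit 0) (XT.nd (nat_lit 312) (nat_lit 0)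 (nat_lit 0) (XT.nd (nat_lit 156) (nat_lit 0) (nat_lit 0) (XT.nd (nat_lit 78) (nat_lit 0) (nat_lit 0) (XT.lf (nat_lit 0) (nat_lit 4001645972) (nat_lit 76) (nat_lit 1463171316) (nat_lit 152) (nat_lit 27385991795) (nat_lit 2) (nat_lit 5) (nat_lit 3) (nat_lit 5) (nat_lit 4) (nat_lit 4) (nat_lit 221) (nat_lit 198) (nat_lit 181)) (XT.lf (nat_lit 0) (nat_lit 8416221117) (nat_lit 152) (nat_lit 27253594865) (nat_lit 0) (nat_lit 1589055984) (nat_lit 2) (nat_lit 5) (nat_lit 4) (nat_lit 4) (nat_lit 2) (nat_lit 4) (nat_lit 222) (nat_lit 198) (nat_lit 180))) (XT.nd (nat_lit 78) (nat_lit 0) (nat_lit 0) (XT.lf (nat_lit 0) (nat_lit 11816000701) (nat_lit 152) (nat_lit 25601371965) (nat_lit 0) (nat_lit 4910552992) (nat_lit 2) (nat_lit 5) (nat_lit 4) (nat_lit 4) (nat_lit 2) (nat_lit 4) (nat_lit 223) (nat_lit 198) (nat_lit 179)) (XT.lf (nat_lit 0) (nat_lit 15670086661) (nat_lit 152) (nat_lit 23799581506)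 (nat_lit 0) (nat_lit 8696567148) (nat_lit 2) (nat_lit 5) (nat_lit 4) (nat_lit 4) (nat_lit 2) (nat_lit 4) (nat_lit 224) (nat_lit 198) (nat_lit 178)))) (XT.nd (nat_lit 156) (nat_lit 0) (nat_lit 0) (XT.nd (nat_lit 78) (nat_lit 0) (nat_lit 0) (XT.lf (nat_lit 0) (nat_lit 20053885028) (nat_lit 152) (nat_lit 21812971068) (nat_lit 0) (nat_lit 13021172641) (nat_lit 2) (nat_lit 5) (nat_lit 4) (nat_lit 4) (nat_lit 2) (nat_lit 4) (nat_lit 225) (nat_lit 198) (nat_lit 177)) (XT.lf (nat_lit 0) (nat_lit 25053165770) (nat_lit 152) (nat_lit 19602672186) (nat_lit 0) (nat_lit 17968981319) (nat_lit 2) (nat_lit 5) (nat_lit 4) (nat_lit 4) (nat_lit 2) (nat_lit 4) (nat_lit 226) (nat_lit 198) (nat_lit 176))) (XT.nd (nat_lit 78) (nat_lit 0) (nat_lit 0) (XT.lf (nat_lit 0) (nat_lit 30765740900) (nat_lit 152) (nat_lit 17125439880) (nat_lit 0) (nat_lit 23636798133) (nat_lit 2) (nat_lit 5) (nat_lit 4) (nat_lit 4)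 (nat_lit 2) (nat_lit 4) (nat_lit 227) (nat_lit 198) (nat_lit 175)) (XT.lf (nat_lit 0) (nat_lit 37303378194) (nat_lit 152) (nat_lit 14332806563) (nat_lit 0) (nat_lit 30135515152) (nat_lit 2) (nat_lit 5) (nat_lit 4) (nat_lit 4) (nat_lit 2) (nat_lit 4) (nat_lit 228) (nat_lit 198) (nat_lit 174))))) (XT.nd (nat_lit 312) (nat_lit 0) (nat_lit 0) (XT.nd (nat_lit 156) (nat_lit 76) (nat_lit 0) (XT.nd (nat_lit 78) (nat_lit 0) (nat_lit 0) (XT.lf (nat_lit 0) (nat_lit 44793987946) (nat_lit 152) (nat_lit 11170133756) (nat_lit 0) (nat_lit 37592281187) (nat_lit 2) (nat_lit 5) (nat_lit 4) (nat_lit 4) (nat_lit 2) (nat_lit 4) (nat_lit 229) (nat_lit 198) (nat_lit 173)) (XT.lf (nat_lit 0) (nat_lit 53384125565) (nat_lit 152) (nat_lit 7575543078) (nat_lit 0) (nat_lit 46152989486) (nat_lit 2) (nat_lit 5) (nat_lit 4) (nat_lit 4) (nat_lit 2) (nat_lit 4) (nat_lit 230) (nat_lit 198) (nat_lit 172))) (XT.nd (nat_lit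 78) (nat_lit 76) (nat_lit 0) (XT.lf (nat_lit 0) (nat_lit 63241858961) (nat_lit 152) (nat_lit 3478705582) (nat_lit 0) (nat_lit 55985132169) (nat_lit 2) (nat_lit 5) (nat_lit 4) (nat_lit 4) (nat_lit 2) (nat_lit 4) (nat_lit 231) (nat_lit 198) (nat_lit 171)) (XT.lf (nat_lit 0) (nat_lit 1317859185) (nat_lit 76) (nat_lit 73296767382) (nat_lit 76) (nat_lit 66017787797) (nat_lit 1) (nat_lit 4) (nat_lit 2) (nat_lit 5) (nat_lit 2) (nat_lit 4) (nat_lit 232) (nat_lit 198) (nat_lit 170)))) (XT.nd (nat_lit 156) (nat_lit 0) (nat_lit 0) (XT.nd (nat_lit 78) (nat_lit 0) (nat_lit 0) (XT.lf (nat_lit 0) (nat_lit 7194204600) (nat_lit 76) (nat_lit 80663854243) (nat_lit 76) (nat_lit 73365524403) (nat_lit 1) (nat_lit 4) (nat_lit 2) (nat_lit 5) (nat_lit 2) (nat_lit 4) (nat_lit 233) (nat_lit 198) (nat_lit 169)) (XT.lf (nat_lit 0) (nat_lit 13925338227) (nat_lit 76) (nat_lit 89147805212) (nat_lit 76) (nat_lit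 81832649062) (nat_lit 1) (nat_lit 4) (nat_lit 2) (nat_lit 5) (nat_lit 2) (nat_lit 4) (nat_lit 234) (nat_lit 198) (nat_lit 168))) (XT.nd (nat_lit 78) (nat_lit 0) (nat_lit 0) (XT.lf (nat_lit 0) (nat_lit 21642956158) (nat_lit 76) (nat_lit 98914610632) (nat_lit 76) (nat_lit 91584822910) (nat_lit 1) (nat_lit 4) (nat_lit 2) (nat_lit 5) (nat_lit 2) (nat_lit 4) (nat_lit 235) (nat_lit 198) (nat_lit 167)) (XT.lf (nat_lit 0) (nat_lit 30498055267) (nat_lit 76) (nat_lit 110155360176) (nat_lit 76) (nat_lit 102812849347) (nat_lit 1) (nat_lit 4) (nat_lit 2) (nat_lit 5) (nat_lit 2) (nat_lit 4) (nat_lit 236) (nat_lit 198) (nat_lit 166))))))) (XT.nd (nat_lit 1248) (nat_lit 0) (nat_lit 0) (XT.nd (nat_lit 624) (nat_lit 0) (nat_lit 0) (XT.nd (nat_lit 312) (nat_lit 0) (nat_lit 0) (XT.nd (nat_lit 156) (nat_lit 0) (nat_lit 0) (XT.nd (nat_lit 78) (nat_lit 0) (nat_lit 0) (XT.lf (nat_lit 0) (nat_lit 40663887492)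 (nat_lit 76) (nat_lit 123089981552) (nat_lit 76) (nat_lit 115736407152) (nat_lit 1) (nat_lit 4) (nat_lit 2) (nat_lit 5) (nat_lit 2) (nat_lit 4) (nat_lit 237) (nat_lit 198) (nat_lit 165)) (XT.lf (nat_lit 0) (nat_lit 52339349552) (nat_lit 76) (nat_lit 137971543440) (nat_lit 76) (nat_lit 130608348542) (nat_lit 1) (nat_lit 4) (nat_lit 2) (nat_lit 5) (nat_lit 2) (nat_lit 4) (nat_lit 238) (nat_lit 198) (nat_lit 164))) (XT.nd (nat_lit 78) (nat_lit 0) (nat_lit 0) (XT.lf (nat_lit 0) (nat_lit 65752874398) (nat_lit 76) (nat_lit 155091206831) (nat_lit 76) (nat_lit 147719646284) (nat_lit 1) (nat_lit 4) (nat_lit 2) (nat_lit 5) (nat_lit 2) (nat_lit 4) (nat_lit 239) (nat_lit 198) (nat_lit 163)) (XT.lf (nat_lit 0) (nat_lit 81166900561) (nat_lit 76) (nat_lit 174783921663) (nat_lit 76) (nat_lit 167405086639) (nat_lit 1) (nat_lit 4) (nat_lit 2) (nat_lit 5) (nat_lit 2) (nat_lit 4) (nat_lit 240) (nat_lit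 198) (nat_lit 162)))) (XT.nd (nat_lit 156) (nat_lit 0) (nat_lit 0) (XT.nd (nat_lit 78) (nat_lit 0) (nat_lit 0) (XT.lf (nat_lit 0) (nat_lit 98883006814) (nat_lit 76) (nat_lit 197434980182) (nat_lit 76) (nat_lit 190049819525) (nat_lit 1) (nat_lit 4) (nat_lit 2) (nat_lit 5) (nat_lit 2) (nat_lit 4) (nat_lit 241) (nat_lit 198) (nat_lit 161)) (XT.lf (nat_lit 0) (nat_lit 119247812627) (nat_lit 76) (nat_lit 223487555272) (nat_lit 76) (nat_lit 216096894065) (nat_lit 1) (nat_lit 4) (nat_lit 2) (nat_lit 5) (nat_lit 2) (nat_lit 4) (nat_lit 242) (nat_lit 198) (nat_lit 160))) (XT.nd (nat_lit 78) (nat_lit 0) (nat_lit 0) (XT.lf (nat_lit 0) (nat_lit 142659759853) (nat_lit 76) (nat_lit 253451371229) (nat_lit 76) (nat_lit 246055926934) (nat_lit 1) (nat_lit 4) (nat_lit 2) (nat_lit 5) (nat_lit 2) (nat_lit 4) (nat_lit 243) (nat_lit 198) (nat_lit 159)) (XT.lf (nat_lit 0) (nat_lit 169576908328) (nat_lit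 76) (nat_lit 287912676625) (nat_lit 76) (nat_lit 280513073124) (nat_lit 1) (nat_lit 4) (nat_lit 2) (nat_lit 5) (nat_lit 2) (nat_lit 4) (nat_lit 244) (nat_lit 198) (nat_lit 158))))) (XT.nd (nat_lit 312) (nat_lit 0) (nat_lit 0) (XT.nd (nat_lit 156) (nat_lit 0) (nat_lit 0) (XT.nd (nat_lit 78) (nat_lit 0) (nat_lit 0) (XT.lf (nat_lit 0) (nat_lit 200525897914) (nat_lit 76) (nat_lit 327545714392) (nat_lit 76) (nat_lit 320142494190) (nat_lit 1) (nat_lit 4) (nat_lit 2) (nat_lit 5) (nat_lit 2) (nat_lit 4) (nat_lit 245) (nat_lit 198) (nat_lit 157)) (XT.lf (nat_lit 0) (nat_lit 236112252320) (nat_lit 76) (nat_lit 373125913530) (nat_lit 76) (nat_lit 365719548371) (nat_lit 1) (nat_lit 4) (nat_lit 2) (nat_lit 5) (nat_lit 2) (nat_lit 4) (nat_lit 246) (nat_lit 198) (nat_lit 156))) (XT.nd (nat_lit 78) (nat_lit 0) (nat_lit 0) (XT.lf (nat_lit 0) (nat_lit 277032226308) (nat_lit 76) (nat_lit 425545060544)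 (nat_lit 76) (nat_lit 418135960639) (nat_lit 1) (nat_lit 4) (nat_lit 2) (nat_lit 5) (nat_lit 2) (nat_lit 4) (nat_lit 247) (nat_lit 198) (nat_lit 155)) (XT.lf (nat_lit 0) (nat_lit 324086428062) (nat_lit 76) (nat_lit 485828747440) (nat_lit 76) (nat_lit 478417269496) (nat_lit 1) (nat_lit 4) (nat_lit 2) (nat_lit 5) (nat_lit 2) (nat_lit 4) (nat_lit 248) (nat_lit 198) (nat_lit 154)))) (XT.nd (nat_lit 156) (nat_lit 0) (nat_lit 0) (XT.nd (nat_lit 78) (nat_lit 0) (nat_lit 0) (XT.lf (nat_lit 0) (nat_lit 378195483270) (nat_lit 76) (nat_lit 555156437659) (nat_lit 76) (nat_lit 547742891854) (nat_lit 1) (nat_lit 4) (nat_lit 2) (nat_lit 5) (nat_lit 2) (nat_lit 4) (nat_lit 249) (nat_lit 198) (nat_lit 153)) (XT.lf (nat_lit 0) (nat_lit 440418047360) (nat_lit 76) (nat_lit 634884542529) (nat_lit 76) (nat_lit 627469198585) (nat_lit 1) (nat_lit 4) (nat_lit 2) (nat_lit 5) (nat_lit 2) (nat_lit 4) (nat_lit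 250) (nat_lit 198) (nat_lit 152))) (XT.nd (nat_lit 78) (nat_lit 0) (nat_lit 0) (XT.lf (nat_lit 0) (nat_lit 511971518325) (nat_lit 76) (nat_lit 726572959756) (nat_lit 76) (nat_lit 719156052212) (nat_lit 1) (nat_lit 4) (nat_lit 2) (nat_lit 5) (nat_lit 2) (nat_lit 4) (nat_lit 251) (nat_lit 198) (nat_lit 151)) (XT.lf (nat_lit 0) (nat_lit 594255855379) (nat_lit 76) (nat_lit 832015593154) (nat_lit 76) (nat_lit 824597325958) (nat_lit 1) (nat_lit 4) (nat_lit 2) (nat_lit 5) (nat_lit 2) (nat_lit 4) (nat_lit 252) (nat_lit 198) (nat_lit 150)))))) (XT.nd (nat_lit 624) (nat_lit 0) (nat_lit 0) (XT.nd (nat_lit 312) (nat_lit 0) (nat_lit 0) (XT.nd (nat_lit 156) (nat_lit 0) (nat_lit 0) (XT.nd (nat_lit 78) (nat_lit 0) (nat_lit 0) (XT.lf (nat_lit 0) (nat_lit 688880969465) (nat_lit 76) (nat_lit 953275450769) (nat_lit 76) (nat_lit 945856001267) (nat_lit 1) (nat_lit 4) (nat_lit 2) (nat_lit 5) (nat_lit 2)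 (nat_lit 4) (nat_lit 253) (nat_lit 198) (nat_lit 149)) (XT.lf (nat_lit 0) (nat_lit 797698221511) (nat_lit 76) (nat_lit 1092725008075) (nat_lit 76) (nat_lit 1085304530480) (nat_lit 1) (nat_lit 4) (nat_lit 2) (nat_lit 5) (nat_lit 2) (nat_lit 4) (nat_lit 254) (nat_lit 198) (nat_lit 148))) (XT.nd (nat_lit 78) (nat_lit 0) (nat_lit 0) (XT.lf (nat_lit 0) (nat_lit 922836644708) (nat_lit 76) (nat_lit 1253092625976) (nat_lit 76) (nat_lit 1245671254388) (nat_lit 1) (nat_lit 4) (nat_lit 2) (nat_lit 5) (nat_lit 2) (nat_lit 4) (nat_lit 255) (nat_lit 198) (nat_lit 147)) (XT.lf (nat_lit 0) (nat_lit 1066744599510) (nat_lit 76) (nat_lit 1437515931779) (nat_lit 76) (nat_lit 1430093782806) (nat_lit 1) (nat_lit 4) (nat_lit 2) (nat_lit 5) (nat_lit 2) (nat_lit 4) (nat_lit 256) (nat_lit 198) (nat_lit 146)))) (XT.nd (nat_lit 156) (nat_lit 0) (nat_lit 0) (XT.nd (nat_lit 78) (nat_lit 0) (nat_lit 0) (XT.lf (nat_lit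 0) (nat_lit 1232237676338) (nat_lit 76) (nat_lit 1649603207554) (nat_lit 76) (nat_lit 1642180382593) (nat_lit 1) (nat_lit 4) (nat_lit 2) (nat_lit 5) (nat_lit 2) (nat_lit 4) (nat_lit 257) (nat_lit 198) (nat_lit 145)) (XT.lf (nat_lit 0) (nat_lit 1422553783217) (nat_lit 76) (nat_lit 1893503986957) (nat_lit 76) (nat_lit 1886080574182) (nat_lit 1) (nat_lit 4) (nat_lit 2) (nat_lit 5) (nat_lit 2) (nat_lit 4) (nat_lit 258) (nat_lit 198) (nat_lit 144))) (XT.nd (nat_lit 78) (nat_lit 0) (nat_lit 0) (XT.lf (nat_lit 0) (nat_lit 1641416496150) (nat_lit 76) (nat_lit 2173990241760) (nat_lit 76) (nat_lit 2166566317841) (nat_lit 1) (nat_lit 4) (nat_lit 2) (nat_lit 5) (nat_lit 2) (nat_lit 4) (nat_lit 259) (nat_lit 198) (nat_lit 143)) (XT.lf (nat_lit 0) (nat_lit 1893107911695) (nat_lit 76) (nat_lit 2496549746512) (nat_lit 76) (nat_lit 2489125378121) (nat_lit 1) (nat_lit 4) (nat_lit 2) (nat_lit 5) (nat_lit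 2) (nat_lit 4) (nat_lit 260) (nat_lit 198) (nat_lit 142))))) (XT.nd (nat_lit 312) (nat_lit 0) (nat_lit 0) (XT.nd (nat_lit 156) (nat_lit 0) (nat_lit 0) (XT.nd (nat_lit 78) (nat_lit 0) (nat_lit 0) (XT.lf (nat_lit 0) (nat_lit 2182552427113) (nat_lit 76) (nat_lit 2867493448047) (nat_lit 76) (nat_lit 2860068693158) (nat_lit 1) (nat_lit 4) (nat_lit 2) (nat_lit 5) (nat_lit 2) (nat_lit 4) (nat_lit 261) (nat_lit 198) (nat_lit 141)) (XT.lf (nat_lit 0) (nat_lit 2515413087271) (nat_lit 76) (nat_lit 3294078940524) (nat_lit 76) (nat_lit 3286653849549) (nat_lit 1) (nat_lit 4) (nat_lit 2) (nat_lit 5) (nat_lit 2) (nat_lit 4) (nat_lit 262) (nat_lit 198) (nat_lit 140))) (XT.nd (nat_lit 78) (nat_lit 0) (nat_lit 0) (XT.lf (nat_lit 0) (nat_lit 2898202383345) (nat_lit 76) (nat_lit 3784652461840) (nat_lit 76) (nat_lit 3777227078617) (nat_lit 1) (nat_lit 4) (nat_lit 2) (nat_lit 5) (nat_lit 2) (nat_lit 4)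 (nat_lit 263) (nat_lit 198) (nat_lit 139)) (XT.lf (nat_lit 0) (nat_lit 3338409671128) (nat_lit 76) (nat_lit 4348812189585) (nat_lit 76) (nat_lit 4341386552234) (nat_lit 1) (nat_lit 4) (nat_lit 2) (nat_lit 5) (nat_lit 2) (nat_lit 4) (nat_lit 264) (nat_lit 198) (nat_lit 138)))) (XT.nd (nat_lit 156) (nat_lit 0) (nat_lit 0) (XT.nd (nat_lit 78) (nat_lit 0) (nat_lit 0) (XT.lf (nat_lit 0) (nat_lit 3844647701903) (nat_lit 76) (nat_lit 4997596031477) (nat_lit 76) (nat_lit 4990170173144) (nat_lit 1) (nat_lit 4) (nat_lit 2) (nat_lit 5) (nat_lit 2) (nat_lit 4) (nat_lit 265) (nat_lit 198) (nat_lit 137)) (XT.lf (nat_lit 0) (nat_lit 4426821132794) (nat_lit 76) (nat_lit 5743697584422) (nat_lit 76) (nat_lit 5736271533931) (nat_lit 1) (nat_lit 4) (nat_lit 2) (nat_lit 5) (nat_lit 2) (nat_lit 4) (nat_lit 266) (nat_lit 198) (nat_lit 136))) (XT.nd (nat_lit 78) (nat_lit 0) (nat_lit 0) (XT.lf (nat_lit 0)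 (nat_lit 5096320313536) (nat_lit 76) (nat_lit 6601714487499) (nat_lit 76) (nat_lit 6594288269915) (nat_lit 1) (nat_lit 4) (nat_lit 2) (nat_lit 5) (nat_lit 2) (nat_lit 4) (nat_lit 267) (nat_lit 198) (nat_lit 135)) (XT.lf (nat_lit 0) (nat_lit 5866244141143) (nat_lit 76) (nat_lit 7588434027943) (nat_lit 76) (nat_lit 7581007665060) (nat_lit 1) (nat_lit 4) (nat_lit 2) (nat_lit 5) (nat_lit 2) (nat_lit 4) (nat_lit 268) (nat_lit 198) (nat_lit 134))))))))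
noncomputable def xc25 : XT := (XT.nd (nat_lit 27690) (nat_lit 0) (nat_lit 0) (XT.nd (nat_lit 26442) (nat_lit 0) (nat_lit 76) (XT.nd (nat_lit 624) (nat_lit 0) (nat_lit 0) (XT.nd (nat_lit 312) (nat_lit 0) (nat_lit 0) (XT.nd (nat_lit 156) (nat_lit 0) (nat_lit 0) (XT.nd (nat_lit 78) (nat_lit 0) (nat_lit 0) (XT.lf (nat_lit 0) (nat_lit 6751656342677) (nat_lit 76) (nat_lit 8723161588066) (nat_lit 76) (nat_lit 8715735098836) (nat_lit 1) (nat_lit 4) (nat_lit 2) (nat_lit 5) (nat_lit 2) (nat_lit 4) (nat_lit 269) (nat_lit 198) (nat_lit 133)) (XT.lf (nat_lit 0) (nat_lit 7769880200343) (nat_lit 76) (nat_lit 10028098359262) (nat_lit 76) (nat_lit 10020671760166) (nat_lit 1) (nat_lit 4) (nat_lit 2) (nat_lit 5) (nat_lit 2) (nat_lit 4) (nat_lit 270) (nat_lit 198) (nat_lit 132))) (XT.nd (nat_lit 78) (nat_lit 0) (nat_lit 0) (XT.lf (nat_lit 0) (nat_lit 8940837485267) (nat_lit 76) (nat_lit 11528775713142)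 (nat_lit 76) (nat_lit 11521349018509) (nat_lit 1) (nat_lit 4) (nat_lit 2) (nat_lit 5) (nat_lit 2) (nat_lit 4) (nat_lit 271) (nat_lit 198) (nat_lit 131)) (XT.lf (nat_lit 0) (nat_lit 10287438231286) (nat_lit 76) (nat_lit 13254554728369) (nat_lit 76) (nat_lit 13247127950661) (nat_lit 1) (nat_lit 4) (nat_lit 2) (nat_lit 5) (nat_lit 2) (nat_lit 4) (nat_lit 272) (nat_lit 198) (nat_lit 130)))) (XT.nd (nat_lit 156) (nat_lit 0) (nat_lit 0) (XT.nd (nat_lit 78) (nat_lit 0) (nat_lit 0) (XT.lf (nat_lit 0) (nat_lit 11836028974735) (nat_lit 76) (nat_lit 15239200646544) (nat_lit 76) (nat_lit 15231773796597) (nat_lit 1) (nat_lit 4) (nat_lit 2) (nat_lit 5) (nat_lit 2) (nat_lit 4) (nat_lit 273) (nat_lit 198) (nat_lit 129)) (XT.lf (nat_lit 0) (nat_lit 13616908230160) (nat_lit 76) (nat_lit 17521543496502) (nat_lit 76) (nat_lit 17514116583738) (nat_lit 1) (nat_lit 4) (nat_lit 2) (nat_lit 5) (nat_lit 2)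 (nat_lit 4) (nat_lit 274) (nat_lit 198) (nat_lit 128))) (XT.nd (nat_lit 78) (nat_lit 0) (nat_lit 0) (XT.lf (nat_lit 0) (nat_lit 15664919287341) (nat_lit 76) (nat_lit 20146237812263) (nat_lit 76) (nat_lit 20138810844876) (nat_lit 1) (nat_lit 4) (nat_lit 2) (nat_lit 5) (nat_lit 2) (nat_lit 4) (nat_lit 275) (nat_lit 198) (nat_lit 127)) (XT.lf (nat_lit 0) (nat_lit 18020131927830) (nat_lit 76) (nat_lit 23164636308702) (nat_lit 76) (nat_lit 23157209293816) (nat_lit 1) (nat_lit 4) (nat_lit 2) (nat_lit 5) (nat_lit 2) (nat_lit 4) (nat_lit 276) (nat_lit 198) (nat_lit 126))))) (XT.nd (nat_lit 25506) (nat_lit 0) (nat_lit 988) (XT.nd (nat_lit 156) (nat_lit 0) (nat_lit 0) (XT.nd (nat_lit 78) (nat_lit 0) (nat_lit 0) (XT.lf (nat_lit 0) (nat_lit 20728626398943) (nat_lit 76) (nat_lit 26635794608574) (nat_lit 76) (nat_lit 26628367552385) (nat_lit 1) (nat_lit 4) (nat_lit 2) (nat_lit 5) (nat_lit 2) (nat_lit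 4) (nat_lit 277) (nat_lit 198) (nat_lit 125)) (XT.lf (nat_lit 0) (nat_lit 23843394983809) (nat_lit 76) (nat_lit 30627626678616) (nat_lit 76) (nat_lit 30620199586511) (nat_lit 1) (nat_lit 4) (nat_lit 2) (nat_lit 5) (nat_lit 2) (nat_lit 4) (nat_lit 278) (nat_lit 198) (nat_lit 124))) (XT.nd (nat_lit 25272) (nat_lit 0) (nat_lit 1292) (XT.lf (nat_lit 0) (nat_lit 27425378806916) (nat_lit 76) (nat_lit 35218233581068) (nat_lit 76) (nat_lit 35210806457733) (nat_lit 1) (nat_lit 4) (nat_lit 2) (nat_lit 5) (nat_lit 2) (nat_lit 4) (nat_lit 279) (nat_lit 198) (nat_lit 123)) (XT.lf (nat_lit 0) (nat_lit 1420407041) (nat_lit 76) (nat_lit 428059516) (nat_lit 0) (nat_lit 1420407041) (nat_lit 18) (nat_lit 5) (nat_lit 19) (nat_lit 0) (nat_lit 18) (nat_lit 4) (nat_lit 202) (nat_lit 199) (nat_lit 199)))) (XT.nd (nat_lit 156) (nat_lit 152) (nat_lit 0) (XT.nd (nat_lit 78) (nat_lit 76) (nat_lit 0) (XT.lf (nat_lit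 0) (nat_lit 2395369452) (nat_lit 76) (nat_lit 3118817462) (nat_lit 76) (nat_lit 1170250069) (nat_lit 17) (nat_lit 4) (nat_lit 18) (nat_lit 5) (nat_lit 18) (nat_lit 4) (nat_lit 203) (nat_lit 199) (nat_lit 198)) (XT.lf (nat_lit 0) (nat_lit 1211826648) (nat_lit 152) (nat_lit 1037546527) (nat_lit 76) (nat_lit 4660223471) (nat_lit 16) (nat_lit 5) (nat_lit 18) (nat_lit 5) (nat_lit 17) (nat_lit 4) (nat_lit 204) (nat_lit 199) (nat_lit 197))) (XT.nd (nat_lit 78) (nat_lit 0) (nat_lit 0) (XT.lf (nat_lit 0) (nat_lit 2572441065) (nat_lit 152) (nat_lit 1003750461) (nat_lit 228) (nat_lit 3632591402) (nat_lit 14) (nat_lit 5) (nat_lit 16) (nat_lit 5) (nat_lit 17) (nat_lit 4) (nat_lit 205) (nat_lit 199) (nat_lit 196)) (XT.lf (nat_lit 0) (nat_lit 6044835217) (nat_lit 228) (nat_lit 1072833281) (nat_lit 0) (nat_lit 481717471) (nat_lit 14) (nat_lit 5) (nat_lit 17) (nat_lit 4) (nat_lit 14) (nat_lit 4) (nat_lit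 206) (nat_lit 199) (nat_lit 195)))))) (XT.nd (nat_lit 624) (nat_lit 228) (nat_lit 0) (XT.nd (nat_lit 312) (nat_lit 304) (nat_lit 0) (XT.nd (nat_lit 156) (nat_lit 76) (nat_lit 0) (XT.nd (nat_lit 78) (nat_lit 0) (nat_lit 0) (XT.lf (nat_lit 0) (nat_lit 635140136) (nat_lit 304) (nat_lit 5166348826) (nat_lit 76) (nat_lit 2267550097) (nat_lit 10) (nat_lit 5) (nat_lit 14) (nat_lit 5) (nat_lit 11) (nat_lit 4) (nat_lit 207) (nat_lit 199) (nat_lit 194)) (XT.lf (nat_lit 0) (nat_lit 2776743193) (nat_lit 304) (nat_lit 1404321710) (nat_lit 76) (nat_lit 4455485132) (nat_lit 10) (nat_lit 5) (nat_lit 14) (nat_lit 5) (nat_lit 11) (nat_lit 4) (nat_lit 208) (nat_lit 199) (nat_lit 193))) (XT.nd (nat_lit 78) (nat_lit 0) (nat_lit 0) (XT.lf (nat_lit 0) (nat_lit 2900195360) (nat_lit 76) (nat_lit 2219364451) (nat_lit 152) (nat_lit 4192767614) (nat_lit 9) (nat_lit 5) (nat_lit 10) (nat_lit 5) (nat_lit 11) (nat_lit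 4) (nat_lit 209) (nat_lit 199) (nat_lit 192)) (XT.lf (nat_lit 0) (nat_lit 7670388348) (nat_lit 152) (nat_lit 2378018580) (nat_lit 0) (nat_lit 67041937) (nat_lit 9) (nat_lit 5) (nat_lit 11) (nat_lit 4) (nat_lit 9) (nat_lit 4) (nat_lit 210) (nat_lit 199) (nat_lit 191)))) (XT.nd (nat_lit 156) (nat_lit 76) (nat_lit 0) (XT.nd (nat_lit 78) (nat_lit 76) (nat_lit 0) (XT.lf (nat_lit 0) (nat_lit 2077179625) (nat_lit 152) (nat_lit 8525462301) (nat_lit 152) (nat_lit 440459831) (nat_lit 7) (nat_lit 4) (nat_lit 9) (nat_lit 5) (nat_lit 9) (nat_lit 4) (nat_lit 211) (nat_lit 199) (nat_lit 190)) (XT.lf (nat_lit 0) (nat_lit 1639335850) (nat_lit 228) (nat_lit 4979261746) (nat_lit 76) (nat_lit 5491579803) (nat_lit 6) (nat_lit 5) (nat_lit 9) (nat_lit 5) (nat_lit 7) (nat_lit 4) (nat_lit 212) (nat_lit 199) (nat_lit 189))) (XT.nd (nat_lit 78) (nat_lit 76) (nat_lit 0) (XT.lf (nat_lit 0) (nat_lit 3821049852)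 (nat_lit 228) (nat_lit 652777821) (nat_lit 76) (nat_lit 8887637390) (nat_lit 6) (nat_lit 5) (nat_lit 9) (nat_lit 5) (nat_lit 7) (nat_lit 4) (nat_lit 213) (nat_lit 199) (nat_lit 188)) (XT.lf (nat_lit 0) (nat_lit 4518702925) (nat_lit 76) (nat_lit 1854987588) (nat_lit 152) (nat_lit 8422425247) (nat_lit 5) (nat_lit 5) (nat_lit 6) (nat_lit 5) (nat_lit 7) (nat_lit 4) (nat_lit 214) (nat_lit 199) (nat_lit 187))))) (XT.nd (nat_lit 312) (nat_lit 152) (nat_lit 0) (XT.nd (nat_lit 156) (nat_lit 76) (nat_lit 0) (XT.nd (nat_lit 78) (nat_lit 0) (nat_lit 0) (XT.lf (nat_lit 0) (nat_lit 9257336657) (nat_lit 152) (nat_lit 6167196441) (nat_lit 0) (nat_lit 1031145270) (nat_lit 5) (nat_lit 5) (nat_lit 7) (nat_lit 4) (nat_lit 5) (nat_lit 4) (nat_lit 215) (nat_lit 199) (nat_lit 186)) (XT.lf (nat_lit 0) (nat_lit 12544007189) (nat_lit 152) (nat_lit 1716692841) (nat_lit 0) (nat_lit 4109582597) (nat_lit 5) (nat_lit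 5) (nat_lit 7) (nat_lit 4) (nat_lit 5) (nat_lit 4) (nat_lit 216) (nat_lit 199) (nat_lit 185))) (XT.nd (nat_lit 78) (nat_lit 0) (nat_lit 0) (XT.lf (nat_lit 0) (nat_lit 3554423472) (nat_lit 76) (nat_lit 12813953079) (nat_lit 76) (nat_lit 4198456133) (nat_lit 4) (nat_lit 4) (nat_lit 5) (nat_lit 5) (nat_lit 5) (nat_lit 4) (nat_lit 217) (nat_lit 199) (nat_lit 184)) (XT.lf (nat_lit 0) (nat_lit 9653165286) (nat_lit 76) (nat_lit 11107398143) (nat_lit 76) (nat_lit 2334446977) (nat_lit 4) (nat_lit 4) (nat_lit 5) (nat_lit 5) (nat_lit 5) (nat_lit 4) (nat_lit 218) (nat_lit 199) (nat_lit 183)))) (XT.nd (nat_lit 156) (nat_lit 76) (nat_lit 0) (XT.nd (nat_lit 78) (nat_lit 76) (nat_lit 0) (XT.lf (nat_lit 0) (nat_lit 16531088101) (nat_lit 76) (nat_lit 9197382321) (nat_lit 76) (nat_lit 287514443) (nat_lit 4) (nat_lit 4) (nat_lit 5) (nat_lit 5) (nat_lit 5) (nat_lit 4) (nat_lit 219) (nat_lit 199) (nat_lit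 182)) (XT.lf (nat_lit 0) (nat_lit 1805904070) (nat_lit 152) (nat_lit 5146232137) (nat_lit 76) (nat_lit 22422456371) (nat_lit 3) (nat_lit 5) (nat_lit 5) (nat_lit 5) (nat_lit 4) (nat_lit 4) (nat_lit 220) (nat_lit 199) (nat_lit 181))) (XT.nd (nat_lit 78) (nat_lit 76) (nat_lit 0) (XT.lf (nat_lit 0) (nat_lit 4117304991) (nat_lit 152) (nat_lit 280248863) (nat_lit 76) (nat_lit 28848098903) (nat_lit 3) (nat_lit 5) (nat_lit 5) (nat_lit 5) (nat_lit 4) (nat_lit 4) (nat_lit 221) (nat_lit 199) (nat_lit 180)) (XT.lf (nat_lit 0) (nat_lit 5730314675) (nat_lit 76) (nat_lit 1224473339) (nat_lit 152) (nat_lit 30716309306) (nat_lit 2) (nat_lit 5) (nat_lit 3) (nat_lit 5) (nat_lit 4) (nat_lit 4) (nat_lit 222) (nat_lit 199) (nat_lit 179))))))) (XT.nd (nat_lit 1248) (nat_lit 0) (nat_lit 0) (XT.nd (nat_lit 624) (nat_lit 76) (nat_lit 0) (XT.nd (nat_lit 312) (nat_lit 0) (nat_lit 0) (XT.nd (nat_lit 156) (nat_lit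 0) (nat_lit 0) (XT.nd (nat_lit 78) (nat_lit 0) (nat_lit 0) (XT.lf (nat_lit 0) (nat_lit 10277976135) (nat_lit 152) (nat_lit 30283561974) (nat_lit 0) (nat_lit 2190356891) (nat_lit 2) (nat_lit 5) (nat_lit 4) (nat_lit 4) (nat_lit 2) (nat_lit 4) (nat_lit 223) (nat_lit 199) (nat_lit 178)) (XT.lf (nat_lit 0) (nat_lit 14109550241) (nat_lit 152) (nat_lit 28521515046) (nat_lit 0) (nat_lit 5962738123) (nat_lit 2) (nat_lit 5) (nat_lit 4) (nat_lit 4) (nat_lit 2) (nat_lit 4) (nat_lit 224) (nat_lit 199) (nat_lit 177))) (XT.nd (nat_lit 78) (nat_lit 0) (nat_lit 0) (XT.lf (nat_lit 0) (nat_lit 18473773082) (nat_lit 152) (nat_lit 26569464199) (nat_lit 0) (nat_lit 10275488900) (nat_lit 2) (nat_lit 5) (nat_lit 4) (nat_lit 4) (nat_lit 2) (nat_lit 4) (nat_lit 225) (nat_lit 199) (nat_lit 176)) (XT.lf (nat_lit 0) (nat_lit 23456031627) (nat_lit 152) (nat_lit 24389217134) (nat_lit 0) (nat_lit 15212989129) (nat_lit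 2) (nat_lit 5) (nat_lit 4) (nat_lit 4) (nat_lit 2) (nat_lit 4) (nat_lit 226) (nat_lit 199) (nat_lit 175)))) (XT.nd (nat_lit 156) (nat_lit 0) (nat_lit 0) (XT.nd (nat_lit 78) (nat_lit 0) (nat_lit 0) (XT.lf (nat_lit 0) (nat_lit 29153804848) (nat_lit 152) (nat_lit 21938116845) (nat_lit 0) (nat_lit 20871842075) (nat_lit 2) (nat_lit 5) (nat_lit 4) (nat_lit 4) (nat_lit 2) (nat_lit 4) (nat_lit 227) (nat_lit 199) (nat_lit 174)) (XT.lf (nat_lit 0) (nat_lit 35678570916) (nat_lit 152) (nat_lit 19168207019) (nat_lit 0) (nat_lit 27362764425) (nat_lit 2) (nat_lit 5) (nat_lit 4) (nat_lit 4) (nat_lit 2) (nat_lit 4) (nat_lit 228) (nat_lit 199) (nat_lit 173))) (XT.nd (nat_lit 78) (nat_lit 0) (nat_lit 0) (XT.lf (nat_lit 0) (nat_lit 43157988298) (nat_lit 152) (nat_lit 16025293771) (nat_lit 0) (nat_lit 34812752488) (nat_lit 2) (nat_lit 5) (nat_lit 4) (nat_lit 4) (nat_lit 2) (nat_lit 4) (nat_lit 229) (nat_lit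 199) (nat_lit 172)) (XT.lf (nat_lit 0) (nat_lit 51738393421) (nat_lit 152) (nat_lit 12447885318) (nat_lit 0) (nat_lit 43367566898) (nat_lit 2) (nat_lit 5) (nat_lit 4) (nat_lit 4) (nat_lit 2) (nat_lit 4) (nat_lit 230) (nat_lit 199) (nat_lit 171))))) (XT.nd (nat_lit 312) (nat_lit 0) (nat_lit 0) (XT.nd (nat_lit 156) (nat_lit 76) (nat_lit 0) (XT.nd (nat_lit 78) (nat_lit 0) (nat_lit 0) (XT.lf (nat_lit 0) (nat_lit 61587663776) (nat_lit 152) (nat_lit 8365988887) (nat_lit 0) (nat_lit 53194584460) (nat_lit 2) (nat_lit 5) (nat_lit 4) (nat_lit 4) (nat_lit 2) (nat_lit 4) (nat_lit 231) (nat_lit 199) (nat_lit 170)) (XT.lf (nat_lit 0) (nat_lit 72898502479) (nat_lit 152) (nat_lit 3699741286) (nat_lit 0) (nat_lit 64486072908) (nat_lit 2) (nat_lit 5) (nat_lit 4) (nat_lit 4) (nat_lit 2) (nat_lit 4) (nat_lit 232) (nat_lit 199) (nat_lit 169))) (XT.nd (nat_lit 78) (nat_lit 0) (nat_lit 0) (XT.lf (nat_lit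 0) (nat_lit 1802636827) (nat_lit 76) (nat_lit 84164215069) (nat_lit 76) (nat_lit 75734959188) (nat_lit 1) (nat_lit 4) (nat_lit 2) (nat_lit 5) (nat_lit 2) (nat_lit 4) (nat_lit 233) (nat_lit 199) (nat_lit 168)) (XT.lf (nat_lit 0) (nat_lit 8522986389) (nat_lit 76) (nat_lit 92652938970) (nat_lit 76) (nat_lit 84209051517) (nat_lit 1) (nat_lit 4) (nat_lit 2) (nat_lit 5) (nat_lit 2) (nat_lit 4) (nat_lit 234) (nat_lit 199) (nat_lit 167)))) (XT.nd (nat_lit 156) (nat_lit 0) (nat_lit 0) (XT.nd (nat_lit 78) (nat_lit 0) (nat_lit 0) (XT.lf (nat_lit 0) (nat_lit 16231226873) (nat_lit 76) (nat_lit 102423894768) (nat_lit 76) (nat_lit 93967284207) (nat_lit 1) (nat_lit 4) (nat_lit 2) (nat_lit 5) (nat_lit 2) (nat_lit 4) (nat_lit 235) (nat_lit 199) (nat_lit 166)) (XT.lf (nat_lit 0) (nat_lit 25078171679) (nat_lit 76) (nat_lit 113668253336) (nat_lit 76) (nat_lit 105200579204) (nat_lit 1) (nat_lit 4) (nat_lit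 2) (nat_lit 5) (nat_lit 2) (nat_lit 4) (nat_lit 236) (nat_lit 199) (nat_lit 165))) (XT.nd (nat_lit 78) (nat_lit 0) (nat_lit 0) (XT.lf (nat_lit 0) (nat_lit 35236913207) (nat_lit 76) (nat_lit 126606012993) (nat_lit 76) (nat_lit 118128718364) (nat_lit 1) (nat_lit 4) (nat_lit 2) (nat_lit 5) (nat_lit 2) (nat_lit 4) (nat_lit 237) (nat_lit 199) (nat_lit 164)) (XT.lf (nat_lit 0) (nat_lit 46906209442) (nat_lit 76) (nat_lit 141490303820) (nat_lit 76) (nat_lit 133004643542) (nat_lit 1) (nat_lit 4) (nat_lit 2) (nat_lit 5) (nat_lit 2) (nat_lit 4) (nat_lit 238) (nat_lit 199) (nat_lit 163)))))) (XT.nd (nat_lit 624) (nat_lit 0) (nat_lit 0) (XT.nd (nat_lit 312) (nat_lit 0) (nat_lit 0) (XT.nd (nat_lit 156) (nat_lit 0) (nat_lit 0) (XT.nd (nat_lit 78) (nat_lit 0) (nat_lit 0) (XT.lf (nat_lit 0) (nat_lit 60314372703) (nat_lit 76) (nat_lit 158612340203) (nat_lit 76) (nat_lit 150119405447) (nat_lit 1) (nat_lit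 4) (nat_lit 2) (nat_lit 5) (nat_lit 2) (nat_lit 4) (nat_lit 239) (nat_lit 199) (nat_lit 162)) (XT.lf (nat_lit 0) (nat_lit 75723736617) (nat_lit 76) (nat_lit 178307118506) (nat_lit 76) (nat_lit 169807858117) (nat_lit 1) (nat_lit 4) (nat_lit 2) (nat_lit 5) (nat_lit 2) (nat_lit 4) (nat_lit 240) (nat_lit 199) (nat_lit 161))) (XT.nd (nat_lit 78) (nat_lit 0) (nat_lit 0) (XT.lf (nat_lit 0) (nat_lit 93435788741) (nat_lit 76) (nat_lit 200959971347) (nat_lit 76) (nat_lit 192455210409) (nat_lit 1) (nat_lit 4) (nat_lit 2) (nat_lit 5) (nat_lit 2) (nat_lit 4) (nat_lit 241) (nat_lit 199) (nat_lit 160)) (XT.lf (nat_lit 0) (nat_lit 113797069224) (nat_lit 76) (nat_lit 227014106718) (nat_lit 76) (nat_lit 218504562692) (nat_lit 1) (nat_lit 4) (nat_lit 2) (nat_lit 5) (nat_lit 2) (nat_lit 4) (nat_lit 242) (nat_lit 199) (nat_lit 159)))) (XT.nd (nat_lit 156) (nat_lit 0) (nat_lit 0) (XT.nd (nat_lit 78) (nat_lit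 0) (nat_lit 0) (XT.lf (nat_lit 0) (nat_lit 137205950945) (nat_lit 76) (nat_lit 256979279440) (nat_lit 76) (nat_lit 248465576208) (nat_lit 1) (nat_lit 4) (nat_lit 2) (nat_lit 5) (nat_lit 2) (nat_lit 4) (nat_lit 243) (nat_lit 199) (nat_lit 158)) (XT.lf (nat_lit 0) (nat_lit 164120433764) (nat_lit 76) (nat_lit 291441764632) (nat_lit 76) (nat_lit 282924444699) (nat_lit 1) (nat_lit 4) (nat_lit 2) (nat_lit 5) (nat_lit 2) (nat_lit 4) (nat_lit 244) (nat_lit 199) (nat_lit 157))) (XT.nd (nat_lit 78) (nat_lit 0) (nat_lit 0) (XT.lf (nat_lit 0) (nat_lit 195067105388) (nat_lit 76) (nat_lit 331075828309) (nat_lit 76) (nat_lit 322555363419) (nat_lit 1) (nat_lit 4) (nat_lit 2) (nat_lit 5) (nat_lit 2) (nat_lit 4) (nat_lit 245) (nat_lit 199) (nat_lit 156)) (XT.lf (nat_lit 0) (nat_lit 230651444176) (nat_lit 76) (nat_lit 376656919543) (nat_lit 76) (nat_lit 368133719906) (nat_lit 1) (nat_lit 4) (nat_lit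 2) (nat_lit 5) (nat_lit 2) (nat_lit 4) (nat_lit 246) (nat_lit 199) (nat_lit 155))))) (XT.nd (nat_lit 312) (nat_lit 0) (nat_lit 0) (XT.nd (nat_lit 156) (nat_lit 0) (nat_lit 0) (XT.nd (nat_lit 78) (nat_lit 0) (nat_lit 0) (XT.lf (nat_lit 0) (nat_lit 271569665452) (nat_lit 76) (nat_lit 429076842292) (nat_lit 76) (nat_lit 420551264616) (nat_lit 1) (nat_lit 4) (nat_lit 2) (nat_lit 5) (nat_lit 2) (nat_lit 4) (nat_lit 247) (nat_lit 199) (nat_lit 154)) (XT.lf (nat_lit 0) (nat_lit 318622343109) (nat_lit 76) (nat_lit 489361203740) (nat_lit 76) (nat_lit 480833558204) (nat_lit 1) (nat_lit 4) (nat_lit 2) (nat_lit 5) (nat_lit 2) (nat_lit 4) (nat_lit 248) (nat_lit 199) (nat_lit 153))) (XT.nd (nat_lit 78) (nat_lit 0) (nat_lit 0) (XT.lf (nat_lit 0) (nat_lit 372730073015) (nat_lit 76) (nat_lit 558689480526) (nat_lit 76) (nat_lit 550160036850) (nat_lit 1) (nat_lit 4) (nat_lit 2) (nat_lit 5) (nat_lit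 2) (nat_lit 4) (nat_lit 249) (nat_lit 199) (nat_lit 152)) (XT.lf (nat_lit 0) (nat_lit 434951484668) (nat_lit 76) (nat_lit 638418095455) (nat_lit 76) (nat_lit 629887088179) (nat_lit 1) (nat_lit 4) (nat_lit 2) (nat_lit 5) (nat_lit 2) (nat_lit 4) (nat_lit 250) (nat_lit 199) (nat_lit 151)))) (XT.nd (nat_lit 156) (nat_lit 0) (nat_lit 0) (XT.nd (nat_lit 78) (nat_lit 0) (nat_lit 0) (XT.lf (nat_lit 0) (nat_lit 506503953514) (nat_lit 76) (nat_lit 730106956211) (nat_lit 76) (nat_lit 721574589283) (nat_lit 1) (nat_lit 4) (nat_lit 2) (nat_lit 5) (nat_lit 2) (nat_lit 4) (nat_lit 251) (nat_lit 199) (nat_lit 150)) (XT.lf (nat_lit 0) (nat_lit 588787419161) (nat_lit 76) (nat_lit 835549975286) (nat_lit 76) (nat_lit 827016426053) (nat_lit 1) (nat_lit 4) (nat_lit 2) (nat_lit 5) (nat_lit 2) (nat_lit 4) (nat_lit 252) (nat_lit 199) (nat_lit 149))) (XT.nd (nat_lit 78) (nat_lit 0) (nat_lit 0) (XT.lf (nat_lit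 0) (nat_lit 683411775501) (nat_lit 76) (nat_lit 956810168273) (nat_lit 76) (nat_lit 948275590947) (nat_lit 1) (nat_lit 4) (nat_lit 2) (nat_lit 5) (nat_lit 2) (nat_lit 4) (nat_lit 253) (nat_lit 199) (nat_lit 148)) (XT.lf (nat_lit 0) (nat_lit 792228368637) (nat_lit 76) (nat_lit 1096260017206) (nat_lit 76) (nat_lit 1087724545887) (nat_lit 1) (nat_lit 4) (nat_lit 2) (nat_lit 5) (nat_lit 2) (nat_lit 4) (nat_lit 254) (nat_lit 199) (nat_lit 147))))))))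
noncomputable def xc26 : XT := (XT.nd (nat_lit 27768) (nat_lit 0) (nat_lit 0) (XT.nd (nat_lit 1248) (nat_lit 0) (nat_lit 0) (XT.nd (nat_lit 624) (nat_lit 0) (nat_lit 0) (XT.nd (nat_lit 312) (nat_lit 0) (nat_lit 0) (XT.nd (nat_lit 156) (nat_lit 0) (nat_lit 0) (XT.nd (nat_lit 78) (nat_lit 0) (nat_lit 0) (XT.lf (nat_lit 0) (nat_lit 917366218869) (nat_lit 76) (nat_lit 1256627888696) (nat_lit 76) (nat_lit 1248091639992) (nat_lit 1) (nat_lit 4) (nat_lit 2) (nat_lit 5) (nat_lit 2) (nat_lit 4) (nat_lit 255) (nat_lit 199) (nat_lit 146)) (XT.lf (nat_lit 0) (nat_lit 1061273675442) (nat_lit 76) (nat_lit 1441051415012) (nat_lit 76) (nat_lit 1432514490320) (nat_lit 1) (nat_lit 4) (nat_lit 2) (nat_lit 5) (nat_lit 2) (nat_lit 4) (nat_lit 256) (nat_lit 199) (nat_lit 145))) (XT.nd (nat_lit 78) (nat_lit 0) (nat_lit 0) (XT.lf (nat_lit 0) (nat_lit 1226766319026) (nat_lit 76) (nat_lit 1653138882537) (nat_lit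 76) (nat_lit 1644601370030) (nat_lit 1) (nat_lit 4) (nat_lit 2) (nat_lit 5) (nat_lit 2) (nat_lit 4) (nat_lit 257) (nat_lit 199) (nat_lit 144)) (XT.lf (nat_lit 0) (nat_lit 1417082049171) (nat_lit 76) (nat_lit 1897039828679) (nat_lit 76) (nat_lit 1888501805029) (nat_lit 1) (nat_lit 4) (nat_lit 2) (nat_lit 5) (nat_lit 2) (nat_lit 4) (nat_lit 258) (nat_lit 199) (nat_lit 143)))) (XT.nd (nat_lit 156) (nat_lit 0) (nat_lit 0) (XT.nd (nat_lit 78) (nat_lit 0) (nat_lit 0) (XT.lf (nat_lit 0) (nat_lit 1635944434510) (nat_lit 76) (nat_lit 2177526228472) (nat_lit 76) (nat_lit 2168987760349) (nat_lit 1) (nat_lit 4) (nat_lit 2) (nat_lit 5) (nat_lit 2) (nat_lit 4) (nat_lit 259) (nat_lit 199) (nat_lit 142)) (XT.lf (nat_lit 0) (nat_lit 1887635565190) (nat_lit 76) (nat_lit 2500085859303) (nat_lit 76) (nat_lit 2491547004682) (nat_lit 1) (nat_lit 4) (nat_lit 2) (nat_lit 5) (nat_lit 2) (nat_lit 4) (nat_lit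 260) (nat_lit 199) (nat_lit 141))) (XT.nd (nat_lit 78) (nat_lit 0) (nat_lit 0) (XT.lf (nat_lit 0) (nat_lit 2177079832900) (nat_lit 76) (nat_lit 2871029670471) (nat_lit 76) (nat_lit 2862490479765) (nat_lit 1) (nat_lit 4) (nat_lit 2) (nat_lit 5) (nat_lit 2) (nat_lit 4) (nat_lit 261) (nat_lit 199) (nat_lit 140)) (XT.lf (nat_lit 0) (nat_lit 2509940277659) (nat_lit 76) (nat_lit 3297615258282) (nat_lit 76) (nat_lit 3289075775328) (nat_lit 1) (nat_lit 4) (nat_lit 2) (nat_lit 5) (nat_lit 2) (nat_lit 4) (nat_lit 262) (nat_lit 199) (nat_lit 139))))) (XT.nd (nat_lit 312) (nat_lit 0) (nat_lit 0) (XT.nd (nat_lit 156) (nat_lit 0) (nat_lit 0) (XT.nd (nat_lit 78) (nat_lit 0) (nat_lit 0) (XT.lf (nat_lit 0) (nat_lit 2892729386430) (nat_lit 76) (nat_lit 3788188862496) (nat_lit 76) (nat_lit 3779649125414) (nat_lit 1) (nat_lit 4) (nat_lit 2) (nat_lit 5) (nat_lit 2) (nat_lit 4) (nat_lit 263) (nat_lit 199)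 (nat_lit 138)) (XT.lf (nat_lit 0) (nat_lit 3332936511340) (nat_lit 76) (nat_lit 4352348662328) (nat_lit 76) (nat_lit 4343808704264) (nat_lit 1) (nat_lit 4) (nat_lit 2) (nat_lit 5) (nat_lit 2) (nat_lit 4) (nat_lit 264) (nat_lit 199) (nat_lit 137))) (XT.nd (nat_lit 78) (nat_lit 0) (nat_lit 0) (XT.lf (nat_lit 0) (nat_lit 3839174400488) (nat_lit 76) (nat_lit 5001132566903) (nat_lit 76) (nat_lit 4992592416681) (nat_lit 1) (nat_lit 4) (nat_lit 2) (nat_lit 5) (nat_lit 2) (nat_lit 4) (nat_lit 265) (nat_lit 199) (nat_lit 136)) (XT.lf (nat_lit 0) (nat_lit 4421347708224) (nat_lit 76) (nat_lit 5747234174355) (nat_lit 76) (nat_lit 5738693857040) (nat_lit 1) (nat_lit 4) (nat_lit 2) (nat_lit 5) (nat_lit 2) (nat_lit 4) (nat_lit 266) (nat_lit 199) (nat_lit 135)))) (XT.nd (nat_lit 156) (nat_lit 0) (nat_lit 0) (XT.nd (nat_lit 78) (nat_lit 0) (nat_lit 0) (XT.lf (nat_lit 0) (nat_lit 5090846781875) (nat_lit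 76) (nat_lit 6605251124830) (nat_lit 76) (nat_lit 6596710662215) (nat_lit 1) (nat_lit 4) (nat_lit 2) (nat_lit 5) (nat_lit 2) (nat_lit 4) (nat_lit 267) (nat_lit 199) (nat_lit 134)) (XT.lf (nat_lit 0) (nat_lit 5860770516359) (nat_lit 76) (nat_lit 7591970706489) (nat_lit 76) (nat_lit 7583430117528) (nat_lit 1) (nat_lit 4) (nat_lit 2) (nat_lit 5) (nat_lit 2) (nat_lit 4) (nat_lit 268) (nat_lit 199) (nat_lit 133))) (XT.nd (nat_lit 78) (nat_lit 0) (nat_lit 0) (XT.lf (nat_lit 0) (nat_lit 6746182636917) (nat_lit 76) (nat_lit 8726698302452) (nat_lit 76) (nat_lit 8718157603623) (nat_lit 1) (nat_lit 4) (nat_lit 2) (nat_lit 5) (nat_lit 2) (nat_lit 4) (nat_lit 269) (nat_lit 199) (nat_lit 132)) (XT.lf (nat_lit 0) (nat_lit 7764406424168) (nat_lit 76) (nat_lit 10031635104813) (nat_lit 76) (nat_lit 10023094310448) (nat_lit 1) (nat_lit 4) (nat_lit 2) (nat_lit 5) (nat_lit 2) (nat_lit 4) (nat_lit 270)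 (nat_lit 199) (nat_lit 131)))))) (XT.nd (nat_lit 25896) (nat_lit 0) (nat_lit 608) (XT.nd (nat_lit 468) (nat_lit 0) (nat_lit 0) (XT.nd (nat_lit 156) (nat_lit 0) (nat_lit 0) (XT.nd (nat_lit 78) (nat_lit 0) (nat_lit 0) (XT.lf (nat_lit 0) (nat_lit 8935363647863) (nat_lit 76) (nat_lit 11532312485793) (nat_lit 76) (nat_lit 11523771608353) (nat_lit 1) (nat_lit 4) (nat_lit 2) (nat_lit 5) (nat_lit 2) (nat_lit 4) (nat_lit 271) (nat_lit 199) (nat_lit 130)) (XT.lf (nat_lit 0) (nat_lit 10281964340638) (nat_lit 76) (nat_lit 13258091524584) (nat_lit 76) (nat_lit 13249550574905) (nat_lit 1) (nat_lit 4) (nat_lit 2) (nat_lit 5) (nat_lit 2) (nat_lit 4) (nat_lit 272) (nat_lit 199) (nat_lit 129))) (XT.nd (nat_lit 78) (nat_lit 0) (nat_lit 0) (XT.lf (nat_lit 0) (nat_lit 11830555037789) (nat_lit 76) (nat_lit 15242737463251) (nat_lit 76) (nat_lit 15234196450755) (nat_lit 1) (nat_lit 4) (nat_lit 2) (nat_lit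 5) (nat_lit 2) (nat_lit 4) (nat_lit 273) (nat_lit 199) (nat_lit 128)) (XT.lf (nat_lit 0) (nat_lit 13611434252954) (nat_lit 76) (nat_lit 17525080331027) (nat_lit 76) (nat_lit 17516539263908) (nat_lit 1) (nat_lit 4) (nat_lit 2) (nat_lit 5) (nat_lit 2) (nat_lit 4) (nat_lit 274) (nat_lit 199) (nat_lit 127)))) (XT.nd (nat_lit 25272) (nat_lit 0) (nat_lit 1292) (XT.nd (nat_lit 78) (nat_lit 0) (nat_lit 0) (XT.lf (nat_lit 0) (nat_lit 20723152329815) (nat_lit 76) (nat_lit 26639331483783) (nat_lit 76) (nat_lit 26630790291947) (nat_lit 1) (nat_lit 4) (nat_lit 2) (nat_lit 5) (nat_lit 2) (nat_lit 4) (nat_lit 277) (nat_lit 199) (nat_lit 124)) (XT.lf (nat_lit 0) (nat_lit 23837920891663) (nat_lit 76) (nat_lit 30631163564013) (nat_lit 76) (nat_lit 30622622340946) (nat_lit 1) (nat_lit 4) (nat_lit 2) (nat_lit 5) (nat_lit 2) (nat_lit 4) (nat_lit 278) (nat_lit 199) (nat_lit 123))) (XT.nd (nat_lit 78) (nat_lit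 76) (nat_lit 0) (XT.lf (nat_lit 0) (nat_lit 0) (nat_lit 0) (nat_lit 0) (nat_lit 0) (nat_lit 1073741823) (nat_lit 1) (nat_lit 0) (nat_lit 1) (nat_lit 0) (nat_lit 19) (nat_lit 0) (nat_lit 200) (nat_lit 200) (nat_lit 200)) (XT.lf (nat_lit 0) (nat_lit 2470273115) (nat_lit 76) (nat_lit 3767166501) (nat_lit 0) (nat_lit 229420613) (nat_lit 18) (nat_lit 5) (nat_lit 19) (nat_lit 0) (nat_lit 18) (nat_lit 4) (nat_lit 201) (nat_lit 200) (nat_lit 199))))) (XT.nd (nat_lit 312) (nat_lit 380) (nat_lit 0) (XT.nd (nat_lit 156) (nat_lit 152) (nat_lit 0) (XT.nd (nat_lit 78) (nat_lit 152) (nat_lit 0) (XT.lf (nat_lit 0) (nat_lit 4882170399) (nat_lit 76) (nat_lit 1000057849) (nat_lit 0) (nat_lit 692750504) (nat_lit 18) (nat_lit 5) (nat_lit 19) (nat_lit 0) (nat_lit 18) (nat_lit 4) (nat_lit 202) (nat_lit 200) (nat_lit 198)) (XT.lf (nat_lit 0) (nat_lit 559298970) (nat_lit 152) (nat_lit 4681333537) (nat_lit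 76) (nat_lit 1511432689) (nat_lit 16) (nat_lit 5) (nat_lit 18) (nat_lit 5) (nat_lit 17) (nat_lit 4) (nat_lit 203) (nat_lit 200) (nat_lit 197))) (XT.nd (nat_lit 78) (nat_lit 152) (nat_lit 0) (XT.lf (nat_lit 0) (nat_lit 2668944805) (nat_lit 152) (nat_lit 1618991887) (nat_lit 76) (nat_lit 2712061157) (nat_lit 16) (nat_lit 5) (nat_lit 18) (nat_lit 5) (nat_lit 17) (nat_lit 4) (nat_lit 204) (nat_lit 200) (nat_lit 196)) (XT.lf (nat_lit 0) (nat_lit 1799847284) (nat_lit 152) (nat_lit 3055169084) (nat_lit 228) (nat_lit 2475089633) (nat_lit 14) (nat_lit 5) (nat_lit 16) (nat_lit 5) (nat_lit 17) (nat_lit 4) (nat_lit 205) (nat_lit 200) (nat_lit 195)))) (XT.nd (nat_lit 156) (nat_lit 76) (nat_lit 0) (XT.nd (nat_lit 78) (nat_lit 304) (nat_lit 0) (XT.lf (nat_lit 0) (nat_lit 5662334940) (nat_lit 152) (nat_lit 1507373236) (nat_lit 228) (nat_lit 577726582) (nat_lit 14) (nat_lit 5) (nat_lit 16) (nat_lit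 5) (nat_lit 17) (nat_lit 4) (nat_lit 206) (nat_lit 200) (nat_lit 194)) (XT.lf (nat_lit 0) (nat_lit 1285945280) (nat_lit 304) (nat_lit 6558104616) (nat_lit 76) (nat_lit 405576050) (nat_lit 10) (nat_lit 5) (nat_lit 14) (nat_lit 5) (nat_lit 11) (nat_lit 4) (nat_lit 207) (nat_lit 200) (nat_lit 193))) (XT.nd (nat_lit 78) (nat_lit 76) (nat_lit 0) (XT.lf (nat_lit 0) (nat_lit 3315865639) (nat_lit 304) (nat_lit 2926314504) (nat_lit 76) (nat_lit 2594097897) (nat_lit 10) (nat_lit 5) (nat_lit 14) (nat_lit 5) (nat_lit 11) (nat_lit 4) (nat_lit 208) (nat_lit 200) (nat_lit 192)) (XT.lf (nat_lit 0) (nat_lit 1105145220) (nat_lit 76) (nat_lit 4382092447) (nat_lit 152) (nat_lit 4052611593) (nat_lit 9) (nat_lit 5) (nat_lit 10) (nat_lit 5) (nat_lit 11) (nat_lit 4) (nat_lit 209) (nat_lit 200) (nat_lit 191))))))) (XT.nd (nat_lit 1248) (nat_lit 76) (nat_lit 0) (XT.nd (nat_lit 624) (nat_lit 228) (nat_lit 0)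 (XT.nd (nat_lit 312) (nat_lit 76) (nat_lit 0) (XT.nd (nat_lit 156) (nat_lit 228) (nat_lit 0) (XT.nd (nat_lit 78) (nat_lit 0) (nat_lit 0) (XT.lf (nat_lit 0) (nat_lit 5837782749) (nat_lit 76) (nat_lit 2108311661) (nat_lit 152) (nat_lit 2412478269) (nat_lit 9) (nat_lit 5) (nat_lit 10) (nat_lit 5) (nat_lit 11) (nat_lit 4) (nat_lit 210) (nat_lit 200) (nat_lit 190)) (XT.lf (nat_lit 0) (nat_lit 10627019608) (nat_lit 152) (nat_lit 269696485) (nat_lit 0) (nat_lit 428779354) (nat_lit 9) (nat_lit 5) (nat_lit 11) (nat_lit 4) (nat_lit 9) (nat_lit 4) (nat_lit 211) (nat_lit 200) (nat_lit 189))) (XT.nd (nat_lit 78) (nat_lit 0) (nat_lit 0) (XT.lf (nat_lit 0) (nat_lit 1314723644) (nat_lit 228) (nat_lit 7735785595) (nat_lit 76) (nat_lit 3358287030) (nat_lit 6) (nat_lit 5) (nat_lit 9) (nat_lit 5) (nat_lit 7) (nat_lit 4) (nat_lit 212) (nat_lit 200) (nat_lit 188)) (XT.lf (nat_lit 0) (nat_lit 3429721231)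 (nat_lit 228) (nat_lit 3505237460) (nat_lit 76) (nat_lit 6736165410) (nat_lit 6) (nat_lit 5) (nat_lit 9) (nat_lit 5) (nat_lit 7) (nat_lit 4) (nat_lit 213) (nat_lit 200) (nat_lit 187)))) (XT.nd (nat_lit 156) (nat_lit 0) (nat_lit 0) (XT.nd (nat_lit 78) (nat_lit 0) (nat_lit 0) (XT.lf (nat_lit 0) (nat_lit 1295905112) (nat_lit 76) (nat_lit 4494993323) (nat_lit 152) (nat_lit 9344493889) (nat_lit 5) (nat_lit 5) (nat_lit 6) (nat_lit 5) (nat_lit 7) (nat_lit 4) (nat_lit 214) (nat_lit 200) (nat_lit 186)) (XT.lf (nat_lit 0) (nat_lit 7039954392) (nat_lit 76) (nat_lit 1533975422) (nat_lit 152) (nat_lit 8236898206) (nat_lit 5) (nat_lit 5) (nat_lit 6) (nat_lit 5) (nat_lit 7) (nat_lit 4) (nat_lit 215) (nat_lit 200) (nat_lit 185))) (XT.nd (nat_lit 78) (nat_lit 0) (nat_lit 0) (XT.lf (nat_lit 0) (nat_lit 11749415256) (nat_lit 152) (nat_lit 5332852394) (nat_lit 0) (nat_lit 1660521415) (nat_lit 5) (nat_lit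 5) (nat_lit 7) (nat_lit 4) (nat_lit 5) (nat_lit 4) (nat_lit 216) (nat_lit 200) (nat_lit 184)) (XT.lf (nat_lit 0) (nat_lit 15385154442) (nat_lit 152) (nat_lit 444263277) (nat_lit 0) (nat_lit 5138806382) (nat_lit 5) (nat_lit 5) (nat_lit 7) (nat_lit 4) (nat_lit 5) (nat_lit 4) (nat_lit 217) (nat_lit 200) (nat_lit 183))))) (XT.nd (nat_lit 312) (nat_lit 76) (nat_lit 0) (XT.nd (nat_lit 156) (nat_lit 76) (nat_lit 0) (XT.nd (nat_lit 78) (nat_lit 0) (nat_lit 0) (XT.lf (nat_lit 0) (nat_lit 5547978051) (nat_lit 76) (nat_lit 14170514639) (nat_lit 76) (nat_lit 3787249866) (nat_lit 4) (nat_lit 4) (nat_lit 5) (nat_lit 5) (nat_lit 5) (nat_lit 4) (nat_lit 218) (nat_lit 200) (nat_lit 182)) (XT.lf (nat_lit 0) (nat_lit 12371045347) (nat_lit 76) (nat_lit 12281741428) (nat_lit 76) (nat_lit 1779418643) (nat_lit 4) (nat_lit 4) (nat_lit 5) (nat_lit 5) (nat_lit 5) (nat_lit 4) (nat_lit 219) (nat_lit 200) (nat_lit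 181))) (XT.nd (nat_lit 78) (nat_lit 0) (nat_lit 0) (XT.lf (nat_lit 0) (nat_lit 415845374) (nat_lit 152) (nat_lit 9711783935) (nat_lit 76) (nat_lit 19677434022) (nat_lit 3) (nat_lit 5) (nat_lit 5) (nat_lit 5) (nat_lit 4) (nat_lit 4) (nat_lit 220) (nat_lit 200) (nat_lit 180)) (XT.lf (nat_lit 0) (nat_lit 2700312273) (nat_lit 152) (nat_lit 4890205063) (nat_lit 76) (nat_lit 26089939835) (nat_lit 3) (nat_lit 5) (nat_lit 5) (nat_lit 5) (nat_lit 4) (nat_lit 4) (nat_lit 221) (nat_lit 200) (nat_lit 179)))) (XT.nd (nat_lit 156) (nat_lit 0) (nat_lit 0) (XT.nd (nat_lit 78) (nat_lit 0) (nat_lit 0) (XT.lf (nat_lit 0) (nat_lit 627454010) (nat_lit 76) (nat_lit 4675621820) (nat_lit 152) (nat_lit 32838289094) (nat_lit 2) (nat_lit 5) (nat_lit 3) (nat_lit 5) (nat_lit 4) (nat_lit 4) (nat_lit 222) (nat_lit 200) (nat_lit 178)) (XT.lf (nat_lit 0) (nat_lit 7443110881) (nat_lit 76) (nat_lit 1061699217) (nat_lit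 152) (nat_lit 34735792557) (nat_lit 2) (nat_lit 5) (nat_lit 3) (nat_lit 5) (nat_lit 4) (nat_lit 4) (nat_lit 223) (nat_lit 200) (nat_lit 177))) (XT.nd (nat_lit 78) (nat_lit 0) (nat_lit 0) (XT.lf (nat_lit 0) (nat_lit 12272845977) (nat_lit 152) (nat_lit 34026041737) (nat_lit 0) (nat_lit 2793347105) (nat_lit 2) (nat_lit 5) (nat_lit 4) (nat_lit 4) (nat_lit 2) (nat_lit 4) (nat_lit 224) (nat_lit 200) (nat_lit 176)) (XT.lf (nat_lit 0) (nat_lit 16620046622) (nat_lit 152) (nat_lit 32104042708) (nat_lit 0) (nat_lit 7095789433) (nat_lit 2) (nat_lit 5) (nat_lit 4) (nat_lit 4) (nat_lit 2) (nat_lit 4) (nat_lit 225) (nat_lit 200) (nat_lit 175)))))) (XT.nd (nat_lit 624) (nat_lit 76) (nat_lit 0) (XT.nd (nat_lit 312) (nat_lit 0) (nat_lit 0) (XT.nd (nat_lit 156) (nat_lit 0) (nat_lit 0) (XT.nd (nat_lit 78) (nat_lit 0) (nat_lit 0) (XT.lf (nat_lit 0) (nat_lit 21587503257) (nat_lit 152) (nat_lit 29949927660)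 (nat_lit 0) (nat_lit 12024325793) (nat_lit 2) (nat_lit 5) (nat_lit 4) (nat_lit 4) (nat_lit 2) (nat_lit 4) (nat_lit 226) (nat_lit 200) (nat_lit 174)) (XT.lf (nat_lit 0) (nat_lit 27272405252) (nat_lit 152) (nat_lit 27521550862) (nat_lit 0) (nat_lit 17675384071) (nat_lit 2) (nat_lit 5) (nat_lit 4) (nat_lit 4) (nat_lit 2) (nat_lit 4) (nat_lit 227) (nat_lit 200) (nat_lit 173))) (XT.nd (nat_lit 78) (nat_lit 0) (nat_lit 0) (XT.lf (nat_lit 0) (nat_lit 33785978950) (nat_lit 152) (nat_lit 24771400595) (nat_lit 0) (nat_lit 24159528449) (nat_lit 2) (nat_lit 5) (nat_lit 4) (nat_lit 4) (nat_lit 2) (nat_lit 4) (nat_lit 228) (nat_lit 200) (nat_lit 172)) (XT.lf (nat_lit 0) (nat_lit 41255663836) (nat_lit 152) (nat_lit 21645669571) (nat_lit 0) (nat_lit 31603622622) (nat_lit 2) (nat_lit 5) (nat_lit 4) (nat_lit 4) (nat_lit 2) (nat_lit 4) (nat_lit 229) (nat_lit 200) (nat_lit 171)))) (XT.nd (nat_lit 156)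 (nat_lit 0) (nat_lit 0) (XT.nd (nat_lit 78) (nat_lit 0) (nat_lit 0) (XT.lf (nat_lit 0) (nat_lit 49827605919) (nat_lit 152) (nat_lit 18083202183) (nat_lit 0) (nat_lit 40153311911) (nat_lit 2) (nat_lit 5) (nat_lit 4) (nat_lit 4) (nat_lit 2) (nat_lit 4) (nat_lit 230) (nat_lit 200) (nat_lit 170)) (XT.lf (nat_lit 0) (nat_lit 59669517109) (nat_lit 152) (nat_lit 14014297983) (nat_lit 0) (nat_lit 49975872846) (nat_lit 2) (nat_lit 5) (nat_lit 4) (nat_lit 4) (nat_lit 2) (nat_lit 4) (nat_lit 231) (nat_lit 200) (nat_lit 169))) (XT.nd (nat_lit 78) (nat_lit 0) (nat_lit 0) (XT.lf (nat_lit 0) (nat_lit 70973956538) (nat_lit 152) (nat_lit 9359347974) (nat_lit 0) (nat_lit 61263485966) (nat_lit 2) (nat_lit 5) (nat_lit 4) (nat_lit 4) (nat_lit 2) (nat_lit 4) (nat_lit 232) (nat_lit 200) (nat_lit 168)) (XT.lf (nat_lit 0) (nat_lit 83962098021) (nat_lit 152) (nat_lit 4027277048) (nat_lit 0) (nat_lit 74236995877)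 (nat_lit 2) (nat_lit 5) (nat_lit 4) (nat_lit 4) (nat_lit 2) (nat_lit 4) (nat_lit 233) (nat_lit 200) (nat_lit 167))))) (XT.nd (nat_lit 312) (nat_lit 0) (nat_lit 0) (XT.nd (nat_lit 156) (nat_lit 0) (nat_lit 0) (XT.nd (nat_lit 78) (nat_lit 0) (nat_lit 0) (XT.lf (nat_lit 0) (nat_lit 2290120263) (nat_lit 76) (nat_lit 96692766104) (nat_lit 76) (nat_lit 86954940852) (nat_lit 1) (nat_lit 4) (nat_lit 2) (nat_lit 5) (nat_lit 2) (nat_lit 4) (nat_lit 234) (nat_lit 200) (nat_lit 166)) (XT.lf (nat_lit 0) (nat_lit 9990206444) (nat_lit 76) (nat_lit 106467330925) (nat_lit 76) (nat_lit 96718442102) (nat_lit 1) (nat_lit 4) (nat_lit 2) (nat_lit 5) (nat_lit 2) (nat_lit 4) (nat_lit 235) (nat_lit 200) (nat_lit 165))) (XT.nd (nat_lit 78) (nat_lit 0) (nat_lit 0) (XT.lf (nat_lit 0) (nat_lit 18830060553) (nat_lit 76) (nat_lit 117714827773) (nat_lit 76) (nat_lit 107956318454) (nat_lit 1) (nat_lit 4) (nat_lit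 2) (nat_lit 5) (nat_lit 2) (nat_lit 4) (nat_lit 236) (nat_lit 200) (nat_lit 164)) (XT.lf (nat_lit 0) (nat_lit 28982636257) (nat_lit 76) (nat_lit 130655316371) (nat_lit 76) (nat_lit 120888441402) (nat_lit 1) (nat_lit 4) (nat_lit 2) (nat_lit 5) (nat_lit 2) (nat_lit 4) (nat_lit 237) (nat_lit 200) (nat_lit 163)))) (XT.nd (nat_lit 156) (nat_lit 0) (nat_lit 0) (XT.nd (nat_lit 78) (nat_lit 0) (nat_lit 0) (XT.lf (nat_lit 0) (nat_lit 40646570906) (nat_lit 76) (nat_lit 145541980189) (nat_lit 76) (nat_lit 135767830743) (nat_lit 1) (nat_lit 4) (nat_lit 2) (nat_lit 5) (nat_lit 2) (nat_lit 4) (nat_lit 238) (nat_lit 200) (nat_lit 162)) (XT.lf (nat_lit 0) (nat_lit 54050071918) (nat_lit 76) (nat_lit 162666080043) (nat_lit 76) (nat_lit 152885604964) (nat_lit 1) (nat_lit 4) (nat_lit 2) (nat_lit 5) (nat_lit 2) (nat_lit 4) (nat_lit 239) (nat_lit 200) (nat_lit 161))) (XT.nd (nat_lit 78) (nat_lit 0) (nat_lit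 0) (XT.lf (nat_lit 0) (nat_lit 69455381703) (nat_lit 76) (nat_lit 182362652669) (nat_lit 76) (nat_lit 172576677039) (nat_lit 1) (nat_lit 4) (nat_lit 2) (nat_lit 5) (nat_lit 2) (nat_lit 4) (nat_lit 240) (nat_lit 200) (nat_lit 160)) (XT.lf (nat_lit 0) (nat_lit 87163908497) (nat_lit 76) (nat_lit 205017065790) (nat_lit 76) (nat_lit 195226307074) (nat_lit 1) (nat_lit 4) (nat_lit 2) (nat_lit 5) (nat_lit 2) (nat_lit 4) (nat_lit 241) (nat_lit 200) (nat_lit 159))))))))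
noncomputable def xc27 : XT := (XT.nd (nat_lit 2496) (nat_lit 0) (nat_lit 0) (XT.nd (nat_lit 1248) (nat_lit 0) (nat_lit 0) (XT.nd (nat_lit 624) (nat_lit 0) (nat_lit 0) (XT.nd (nat_lit 312) (nat_lit 0) (nat_lit 0) (XT.nd (nat_lit 156) (nat_lit 0) (nat_lit 0) (XT.nd (nat_lit 78) (nat_lit 0) (nat_lit 0) (XT.lf (nat_lit 0) (nat_lit 107522123475) (nat_lit 76) (nat_lit 231072557927) (nat_lit 76) (nat_lit 221277640003) (nat_lit 1) (nat_lit 4) (nat_lit 2) (nat_lit 5) (nat_lit 2) (nat_lit 4) (nat_lit 242) (nat_lit 200) (nat_lit 158)) (XT.lf (nat_lit 0) (nat_lit 130928339541) (nat_lit 76) (nat_lit 261038910445) (nat_lit 76) (nat_lit 251240375821) (nat_lit 1) (nat_lit 4) (nat_lit 2) (nat_lit 5) (nat_lit 2) (nat_lit 4) (nat_lit 243) (nat_lit 200) (nat_lit 157))) (XT.nd (nat_lit 78) (nat_lit 0) (nat_lit 0) (XT.lf (nat_lit 0) (nat_lit 157840504398) (nat_lit 76) (nat_lit 295502421547) (nat_lit 76)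 (nat_lit 285700741965) (nat_lit 1) (nat_lit 4) (nat_lit 2) (nat_lit 5) (nat_lit 2) (nat_lit 4) (nat_lit 244) (nat_lit 200) (nat_lit 156)) (XT.lf (nat_lit 0) (nat_lit 188785160404) (nat_lit 76) (nat_lit 335137377319) (nat_lit 76) (nat_lit 325332962992) (nat_lit 1) (nat_lit 4) (nat_lit 2) (nat_lit 5) (nat_lit 2) (nat_lit 4) (nat_lit 245) (nat_lit 200) (nat_lit 155)))) (XT.nd (nat_lit 156) (nat_lit 0) (nat_lit 0) (XT.nd (nat_lit 78) (nat_lit 0) (nat_lit 0) (XT.lf (nat_lit 0) (nat_lit 224367746480) (nat_lit 76) (nat_lit 380719244288) (nat_lit 76) (nat_lit 370912451921) (nat_lit 1) (nat_lit 4) (nat_lit 2) (nat_lit 5) (nat_lit 2) (nat_lit 4) (nat_lit 246) (nat_lit 200) (nat_lit 154)) (XT.lf (nat_lit 0) (nat_lit 265284443658) (nat_lit 76) (nat_lit 433139841589) (nat_lit 76) (nat_lit 423330981361) (nat_lit 1) (nat_lit 4) (nat_lit 2) (nat_lit 5) (nat_lit 2) (nat_lit 4) (nat_lit 247) (nat_lit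 200) (nat_lit 153))) (XT.nd (nat_lit 78) (nat_lit 0) (nat_lit 0) (XT.lf (nat_lit 0) (nat_lit 312335796013) (nat_lit 76) (nat_lit 493424789605) (nat_lit 76) (nat_lit 483614131238) (nat_lit 1) (nat_lit 4) (nat_lit 2) (nat_lit 5) (nat_lit 2) (nat_lit 4) (nat_lit 248) (nat_lit 200) (nat_lit 152)) (XT.lf (nat_lit 0) (nat_lit 366442373482) (nat_lit 76) (nat_lit 562753576449) (nat_lit 76) (nat_lit 552941354482) (nat_lit 1) (nat_lit 4) (nat_lit 2) (nat_lit 5) (nat_lit 2) (nat_lit 4) (nat_lit 249) (nat_lit 200) (nat_lit 151))))) (XT.nd (nat_lit 312) (nat_lit 0) (nat_lit 0) (XT.nd (nat_lit 156) (nat_lit 0) (nat_lit 0) (XT.nd (nat_lit 78) (nat_lit 0) (nat_lit 0) (XT.lf (nat_lit 0) (nat_lit 428662783017) (nat_lit 76) (nat_lit 642482634907) (nat_lit 76) (nat_lit 632669053288) (nat_lit 1) (nat_lit 4) (nat_lit 2) (nat_lit 5) (nat_lit 2) (nat_lit 4) (nat_lit 250) (nat_lit 200) (nat_lit 150)) (XT.lf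 (nat_lit 0) (nat_lit 500214380455) (nat_lit 76) (nat_lit 734171881340) (nat_lit 76) (nat_lit 724357117415) (nat_lit 1) (nat_lit 4) (nat_lit 2) (nat_lit 5) (nat_lit 2) (nat_lit 4) (nat_lit 251) (nat_lit 200) (nat_lit 149))) (XT.nd (nat_lit 78) (nat_lit 0) (nat_lit 0) (XT.lf (nat_lit 0) (nat_lit 582497088356) (nat_lit 76) (nat_lit 839615235788) (nat_lit 76) (nat_lit 829799443771) (nat_lit 1) (nat_lit 4) (nat_lit 2) (nat_lit 5) (nat_lit 2) (nat_lit 4) (nat_lit 252) (nat_lit 200) (nat_lit 148)) (XT.lf (nat_lit 0) (nat_lit 677120785787) (nat_lit 76) (nat_lit 960875720401) (nat_lit 76) (nat_lit 951059034391) (nat_lit 1) (nat_lit 4) (nat_lit 2) (nat_lit 5) (nat_lit 2) (nat_lit 4) (nat_lit 253) (nat_lit 200) (nat_lit 147)))) (XT.nd (nat_lit 156) (nat_lit 0) (nat_lit 0) (XT.nd (nat_lit 78) (nat_lit 0) (nat_lit 0) (XT.lf (nat_lit 0) (nat_lit 785936805958) (nat_lit 76) (nat_lit 1100325822924)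 (nat_lit 76) (nat_lit 1090508359529) (nat_lit 1) (nat_lit 4) (nat_lit 2) (nat_lit 5) (nat_lit 2) (nat_lit 4) (nat_lit 254) (nat_lit 200) (nat_lit 146)) (XT.lf (nat_lit 0) (nat_lit 911074157960) (nat_lit 76) (nat_lit 1260693914927) (nat_lit 76) (nat_lit 1250875775544) (nat_lit 1) (nat_lit 4) (nat_lit 2) (nat_lit 5) (nat_lit 2) (nat_lit 4) (nat_lit 255) (nat_lit 200) (nat_lit 145))) (XT.nd (nat_lit 78) (nat_lit 0) (nat_lit 0) (XT.lf (nat_lit 0) (nat_lit 1054981181289) (nat_lit 76) (nat_lit 1445117632992) (nat_lit 76) (nat_lit 1435298905794) (nat_lit 1) (nat_lit 4) (nat_lit 2) (nat_lit 5) (nat_lit 2) (nat_lit 4) (nat_lit 256) (nat_lit 200) (nat_lit 144)) (XT.lf (nat_lit 0) (nat_lit 1220473448140) (nat_lit 76) (nat_lit 1657205267256) (nat_lit 76) (nat_lit 1647386028914) (nat_lit 1) (nat_lit 4) (nat_lit 2) (nat_lit 5) (nat_lit 2) (nat_lit 4) (nat_lit 257) (nat_lit 200) (nat_lit 143))))))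 (XT.nd (nat_lit 624) (nat_lit 0) (nat_lit 0) (XT.nd (nat_lit 312) (nat_lit 0) (nat_lit 0) (XT.nd (nat_lit 156) (nat_lit 0) (nat_lit 0) (XT.nd (nat_lit 78) (nat_lit 0) (nat_lit 0) (XT.lf (nat_lit 0) (nat_lit 1410788850691) (nat_lit 76) (nat_lit 1901106358388) (nat_lit 76) (nat_lit 1891286675574) (nat_lit 1) (nat_lit 4) (nat_lit 2) (nat_lit 5) (nat_lit 2) (nat_lit 4) (nat_lit 258) (nat_lit 200) (nat_lit 142)) (XT.lf (nat_lit 0) (nat_lit 1629650951165) (nat_lit 76) (nat_lit 2181592884260) (nat_lit 76) (nat_lit 2171772814948) (nat_lit 1) (nat_lit 4) (nat_lit 2) (nat_lit 5) (nat_lit 2) (nat_lit 4) (nat_lit 259) (nat_lit 200) (nat_lit 141))) (XT.nd (nat_lit 78) (nat_lit 0) (nat_lit 0) (XT.lf (nat_lit 0) (nat_lit 1881341834137) (nat_lit 76) (nat_lit 2504152624725) (nat_lit 76) (nat_lit 2494332219328) (nat_lit 1) (nat_lit 4) (nat_lit 2) (nat_lit 5) (nat_lit 2) (nat_lit 4) (nat_lit 260) (nat_lit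 200) (nat_lit 140)) (XT.lf (nat_lit 0) (nat_lit 2170785886448) (nat_lit 76) (nat_lit 2875096531227) (nat_lit 76) (nat_lit 2865275833582) (nat_lit 1) (nat_lit 4) (nat_lit 2) (nat_lit 5) (nat_lit 2) (nat_lit 4) (nat_lit 261) (nat_lit 200) (nat_lit 139)))) (XT.nd (nat_lit 156) (nat_lit 0) (nat_lit 0) (XT.nd (nat_lit 78) (nat_lit 0) (nat_lit 0) (XT.lf (nat_lit 0) (nat_lit 2503646143903) (nat_lit 76) (nat_lit 3301682201936) (nat_lit 76) (nat_lit 3291861250162) (nat_lit 1) (nat_lit 4) (nat_lit 2) (nat_lit 5) (nat_lit 2) (nat_lit 4) (nat_lit 262) (nat_lit 200) (nat_lit 138)) (XT.lf (nat_lit 0) (nat_lit 2886435089802) (nat_lit 76) (nat_lit 3792255878236) (nat_lit 76) (nat_lit 3782434705481) (nat_lit 1) (nat_lit 4) (nat_lit 2) (nat_lit 5) (nat_lit 2) (nat_lit 4) (nat_lit 263) (nat_lit 200) (nat_lit 137))) (XT.nd (nat_lit 78) (nat_lit 0) (nat_lit 0) (XT.lf (nat_lit 0) (nat_lit 3326642073085)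 (nat_lit 76) (nat_lit 4356415740751) (nat_lit 76) (nat_lit 4346594375838) (nat_lit 1) (nat_lit 4) (nat_lit 2) (nat_lit 5) (nat_lit 2) (nat_lit 4) (nat_lit 264) (nat_lit 200) (nat_lit 136)) (XT.lf (nat_lit 0) (nat_lit 3832879839077) (nat_lit 76) (nat_lit 5005199699834) (nat_lit 76) (nat_lit 4995378167827) (nat_lit 1) (nat_lit 4) (nat_lit 2) (nat_lit 5) (nat_lit 2) (nat_lit 4) (nat_lit 265) (nat_lit 200) (nat_lit 135))))) (XT.nd (nat_lit 312) (nat_lit 0) (nat_lit 0) (XT.nd (nat_lit 156) (nat_lit 0) (nat_lit 0) (XT.nd (nat_lit 78) (nat_lit 0) (nat_lit 0) (XT.lf (nat_lit 0) (nat_lit 4415053039722) (nat_lit 76) (nat_lit 5751301354683) (nat_lit 76) (nat_lit 5741479677378) (nat_lit 1) (nat_lit 4) (nat_lit 2) (nat_lit 5) (nat_lit 2) (nat_lit 4) (nat_lit 266) (nat_lit 200) (nat_lit 134)) (XT.lf (nat_lit 0) (nat_lit 5084552020250) (nat_lit 76) (nat_lit 6609318346373) (nat_lit 76) (nat_lit 6599496542721)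 (nat_lit 1) (nat_lit 4) (nat_lit 2) (nat_lit 5) (nat_lit 2) (nat_lit 4) (nat_lit 267) (nat_lit 200) (nat_lit 133))) (XT.nd (nat_lit 78) (nat_lit 0) (nat_lit 0) (XT.lf (nat_lit 0) (nat_lit 5854475673758) (nat_lit 76) (nat_lit 7596037963872) (nat_lit 76) (nat_lit 7586216050353) (nat_lit 1) (nat_lit 4) (nat_lit 2) (nat_lit 5) (nat_lit 2) (nat_lit 4) (nat_lit 268) (nat_lit 200) (nat_lit 132)) (XT.lf (nat_lit 0) (nat_lit 6739887723902) (nat_lit 76) (nat_lit 8730765590999) (nat_lit 76) (nat_lit 8720943581944) (nat_lit 1) (nat_lit 4) (nat_lit 2) (nat_lit 5) (nat_lit 2) (nat_lit 4) (nat_lit 269) (nat_lit 200) (nat_lit 131)))) (XT.nd (nat_lit 156) (nat_lit 0) (nat_lit 0) (XT.nd (nat_lit 78) (nat_lit 0) (nat_lit 0) (XT.lf (nat_lit 0) (nat_lit 7758111449923) (nat_lit 76) (nat_lit 10035702420460) (nat_lit 76) (nat_lit 10025880328330) (nat_lit 1) (nat_lit 4) (nat_lit 2) (nat_lit 5) (nat_lit 2)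 (nat_lit 4) (nat_lit 270) (nat_lit 200) (nat_lit 130)) (XT.lf (nat_lit 0) (nat_lit 8929068620374) (nat_lit 76) (nat_lit 11536379825005) (nat_lit 76) (nat_lit 11526557660635) (nat_lit 1) (nat_lit 4) (nat_lit 2) (nat_lit 5) (nat_lit 2) (nat_lit 4) (nat_lit 271) (nat_lit 200) (nat_lit 129))) (XT.nd (nat_lit 78) (nat_lit 0) (nat_lit 0) (XT.lf (nat_lit 0) (nat_lit 10275669266852) (nat_lit 76) (nat_lit 13262158884288) (nat_lit 76) (nat_lit 13252336657101) (nat_lit 1) (nat_lit 4) (nat_lit 2) (nat_lit 5) (nat_lit 2) (nat_lit 4) (nat_lit 272) (nat_lit 200) (nat_lit 128)) (XT.lf (nat_lit 0) (nat_lit 11824259923743) (nat_lit 76) (nat_lit 15246804840773) (nat_lit 76) (nat_lit 15236982558963) (nat_lit 1) (nat_lit 4) (nat_lit 2) (nat_lit 5) (nat_lit 2) (nat_lit 4) (nat_lit 273) (nat_lit 200) (nat_lit 127))))))) (XT.nd (nat_lit 26520) (nat_lit 0) (nat_lit 76) (XT.nd (nat_lit 25896) (nat_lit 0) (nat_lit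 380) (XT.nd (nat_lit 25584) (nat_lit 0) (nat_lit 1064) (XT.nd (nat_lit 234) (nat_lit 0) (nat_lit 0) (XT.nd (nat_lit 156) (nat_lit 0) (nat_lit 0) (XT.lf (nat_lit 0) (nat_lit 13605139103900) (nat_lit 76) (nat_lit 17529147724044) (nat_lit 76) (nat_lit 17519325394735) (nat_lit 1) (nat_lit 4) (nat_lit 2) (nat_lit 5) (nat_lit 2) (nat_lit 4) (nat_lit 274) (nat_lit 200) (nat_lit 126)) (XT.lf (nat_lit 0) (nat_lit 18008362679206) (nat_lit 76) (nat_lit 23172240590401) (nat_lit 76) (nat_lit 23162418183874) (nat_lit 1) (nat_lit 4) (nat_lit 2) (nat_lit 5) (nat_lit 2) (nat_lit 4) (nat_lit 276) (nat_lit 200) (nat_lit 124))) (XT.nd (nat_lit 78) (nat_lit 0) (nat_lit 0) (XT.lf (nat_lit 0) (nat_lit 20716857100829) (nat_lit 76) (nat_lit 26643398912176) (nat_lit 76) (nat_lit 26633576474418) (nat_lit 1) (nat_lit 4) (nat_lit 2) (nat_lit 5) (nat_lit 2) (nat_lit 4) (nat_lit 277) (nat_lit 200) (nat_lit 123))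 (XT.lf (nat_lit 0) (nat_lit 23831625642661) (nat_lit 76) (nat_lit 30635231001265) (nat_lit 76) (nat_lit 30625408536350) (nat_lit 1) (nat_lit 4) (nat_lit 2) (nat_lit 5) (nat_lit 2) (nat_lit 4) (nat_lit 278) (nat_lit 200) (nat_lit 122)))) (XT.nd (nat_lit 156) (nat_lit 0) (nat_lit 0) (XT.nd (nat_lit 78) (nat_lit 228) (nat_lit 0) (XT.lf (nat_lit 0) (nat_lit 1178993986) (nat_lit 0) (nat_lit 1178993986) (nat_lit 76) (nat_lit 908143119) (nat_lit 18) (nat_lit 5) (nat_lit 18) (nat_lit 3) (nat_lit 19) (nat_lit 0) (nat_lit 201) (nat_lit 201) (nat_lit 198)) (XT.lf (nat_lit 0) (nat_lit 230663046) (nat_lit 228) (nat_lit 1518086438) (nat_lit 228) (nat_lit 4926142987) (nat_lit 15) (nat_lit 3) (nat_lit 18) (nat_lit 3) (nat_lit 18) (nat_lit 5) (nat_lit 202) (nat_lit 201) (nat_lit 197))) (XT.nd (nat_lit 78) (nat_lit 0) (nat_lit 76) (XT.lf (nat_lit 76) (nat_lit 1360255476) (nat_lit 0) (nat_lit 736999834)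 (nat_lit 228) (nat_lit 4784235254) (nat_lit 16) (nat_lit 5) (nat_lit 15) (nat_lit 3) (nat_lit 18) (nat_lit 5) (nat_lit 203) (nat_lit 201) (nat_lit 196)) (XT.lf (nat_lit 0) (nat_lit 4030081702) (nat_lit 152) (nat_lit 2550742627) (nat_lit 76) (nat_lit 579299680) (nat_lit 16) (nat_lit 5) (nat_lit 18) (nat_lit 5) (nat_lit 17) (nat_lit 4) (nat_lit 204) (nat_lit 201) (nat_lit 195))))) (XT.nd (nat_lit 312) (nat_lit 304) (nat_lit 0) (XT.nd (nat_lit 156) (nat_lit 228) (nat_lit 0) (XT.nd (nat_lit 78) (nat_lit 76) (nat_lit 0) (XT.lf (nat_lit 0) (nat_lit 660234433) (nat_lit 152) (nat_lit 5381510893) (nat_lit 228) (nat_lit 1478280961) (nat_lit 14) (nat_lit 5) (nat_lit 16) (nat_lit 5) (nat_lit 17) (nat_lit 4) (nat_lit 205) (nat_lit 201) (nat_lit 194)) (XT.lf (nat_lit 0) (nat_lit 258595545) (nat_lit 228) (nat_lit 3548340283) (nat_lit 76) (nat_lit 4149039786) (nat_lit 13) (nat_lit 5) (nat_lit 16)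 (nat_lit 5) (nat_lit 14) (nat_lit 5) (nat_lit 206) (nat_lit 201) (nat_lit 193))) (XT.nd (nat_lit 78) (nat_lit 228) (nat_lit 0) (XT.lf (nat_lit 0) (nat_lit 1874368358) (nat_lit 228) (nat_lit 28096757) (nat_lit 76) (nat_lit 6583971910) (nat_lit 13) (nat_lit 5) (nat_lit 16) (nat_lit 5) (nat_lit 14) (nat_lit 5) (nat_lit 207) (nat_lit 201) (nat_lit 192)) (XT.lf (nat_lit 0) (nat_lit 3727058361) (nat_lit 304) (nat_lit 4920092791) (nat_lit 76) (nat_lit 454599662) (nat_lit 10) (nat_lit 5) (nat_lit 14) (nat_lit 5) (nat_lit 11) (nat_lit 4) (nat_lit 208) (nat_lit 201) (nat_lit 191)))) (XT.nd (nat_lit 156) (nat_lit 228) (nat_lit 0) (XT.nd (nat_lit 78) (nat_lit 76) (nat_lit 0) (XT.lf (nat_lit 0) (nat_lit 5768220518) (nat_lit 304) (nat_lit 1085498621) (nat_lit 76) (nat_lit 2972940586) (nat_lit 10) (nat_lit 5) (nat_lit 14) (nat_lit 5) (nat_lit 11) (nat_lit 4) (nat_lit 209) (nat_lit 201) (nat_lit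 190)) (XT.lf (nat_lit 0) (nat_lit 3447054469) (nat_lit 76) (nat_lit 4653356350) (nat_lit 152) (nat_lit 2565542908) (nat_lit 9) (nat_lit 5) (nat_lit 10) (nat_lit 5) (nat_lit 11) (nat_lit 4) (nat_lit 210) (nat_lit 201) (nat_lit 189))) (XT.nd (nat_lit 78) (nat_lit 228) (nat_lit 0) (XT.lf (nat_lit 0) (nat_lit 8605743610) (nat_lit 76) (nat_lit 2088862789) (nat_lit 152) (nat_lit 952645293) (nat_lit 9) (nat_lit 5) (nat_lit 10) (nat_lit 5) (nat_lit 11) (nat_lit 4) (nat_lit 211) (nat_lit 201) (nat_lit 188)) (XT.lf (nat_lit 0) (nat_lit 797979316) (nat_lit 228) (nat_lit 11112049971) (nat_lit 76) (nat_lit 865915046) (nat_lit 6) (nat_lit 5) (nat_lit 9) (nat_lit 5) (nat_lit 7) (nat_lit 4) (nat_lit 212) (nat_lit 201) (nat_lit 187)))))) (XT.nd (nat_lit 624) (nat_lit 152) (nat_lit 0) (XT.nd (nat_lit 312) (nat_lit 76) (nat_lit 0) (XT.nd (nat_lit 156) (nat_lit 76) (nat_lit 0) (XT.nd (nat_lit 78) (nat_lit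 0) (nat_lit 0) (XT.lf (nat_lit 0) (nat_lit 2854962629) (nat_lit 228) (nat_lit 6964924262) (nat_lit 76) (nat_lit 4227985420) (nat_lit 6) (nat_lit 5) (nat_lit 9) (nat_lit 5) (nat_lit 7) (nat_lit 4) (nat_lit 213) (nat_lit 201) (nat_lit 186)) (XT.lf (nat_lit 0) (nat_lit 5112031971) (nat_lit 228) (nat_lit 2351693364) (nat_lit 76) (nat_lit 8064812253) (nat_lit 6) (nat_lit 5) (nat_lit 9) (nat_lit 5) (nat_lit 7) (nat_lit 4) (nat_lit 214) (nat_lit 201) (nat_lit 185))) (XT.nd (nat_lit 78) (nat_lit 0) (nat_lit 0) (XT.lf (nat_lit 0) (nat_lit 3093287425) (nat_lit 76) (nat_lit 4648146404) (nat_lit 152) (nat_lit 9486262905) (nat_lit 5) (nat_lit 5) (nat_lit 6) (nat_lit 5) (nat_lit 7) (nat_lit 4) (nat_lit 215) (nat_lit 201) (nat_lit 184)) (XT.lf (nat_lit 0) (nat_lit 9489857591) (nat_lit 76) (nat_lit 1310944852) (nat_lit 152) (nat_lit 8376863314) (nat_lit 5) (nat_lit 5) (nat_lit 6) (nat_lit 5) (nat_lit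 7) (nat_lit 4) (nat_lit 216) (nat_lit 201) (nat_lit 183)))) (XT.nd (nat_lit 156) (nat_lit 0) (nat_lit 0) (XT.nd (nat_lit 78) (nat_lit 76) (nat_lit 0) (XT.lf (nat_lit 0) (nat_lit 14346215521) (nat_lit 152) (nat_lit 4802403305) (nat_lit 0) (nat_lit 2268544319) (nat_lit 5) (nat_lit 5) (nat_lit 7) (nat_lit 4) (nat_lit 5) (nat_lit 4) (nat_lit 217) (nat_lit 201) (nat_lit 182)) (XT.lf (nat_lit 0) (nat_lit 709073365) (nat_lit 76) (nat_lit 17738770222) (nat_lit 76) (nat_lit 5542041009) (nat_lit 4) (nat_lit 4) (nat_lit 5) (nat_lit 5) (nat_lit 5) (nat_lit 4) (nat_lit 218) (nat_lit 201) (nat_lit 181))) (XT.nd (nat_lit 78) (nat_lit 0) (nat_lit 0) (XT.lf (nat_lit 0) (nat_lit 7484440210) (nat_lit 76) (nat_lit 15868468846) (nat_lit 76) (nat_lit 3568210928) (nat_lit 4) (nat_lit 4) (nat_lit 5) (nat_lit 5) (nat_lit 5) (nat_lit 4) (nat_lit 219) (nat_lit 201) (nat_lit 180)) (XT.lf (nat_lit 0) (nat_lit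 15186932976) (nat_lit 76) (nat_lit 13752156565) (nat_lit 76) (nat_lit 1361873685) (nat_lit 4) (nat_lit 4) (nat_lit 5) (nat_lit 5) (nat_lit 5) (nat_lit 4) (nat_lit 220) (nat_lit 201) (nat_lit 179))))) (XT.nd (nat_lit 312) (nat_lit 0) (nat_lit 0) (XT.nd (nat_lit 156) (nat_lit 76) (nat_lit 0) (XT.nd (nat_lit 78) (nat_lit 0) (nat_lit 0) (XT.lf (nat_lit 0) (nat_lit 1020415738) (nat_lit 152) (nat_lit 10274671617) (nat_lit 76) (nat_lit 22893496958) (nat_lit 3) (nat_lit 5) (nat_lit 5) (nat_lit 5) (nat_lit 4) (nat_lit 4) (nat_lit 221) (nat_lit 201) (nat_lit 178)) (XT.lf (nat_lit 0) (nat_lit 3576831773) (nat_lit 152) (nat_lit 4846448945) (nat_lit 76) (nat_lit 30233385448) (nat_lit 3) (nat_lit 5) (nat_lit 5) (nat_lit 5) (nat_lit 4) (nat_lit 4) (nat_lit 222) (nat_lit 201) (nat_lit 177))) (XT.nd (nat_lit 78) (nat_lit 0) (nat_lit 0) (XT.lf (nat_lit 0) (nat_lit 1463527767) (nat_lit 76) (nat_lit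 5075708465) (nat_lit 152) (nat_lit 37252760158) (nat_lit 2) (nat_lit 5) (nat_lit 3) (nat_lit 5) (nat_lit 4) (nat_lit 4) (nat_lit 223) (nat_lit 201) (nat_lit 176)) (XT.lf (nat_lit 0) (nat_lit 9204756344) (nat_lit 76) (nat_lit 958991814) (nat_lit 152) (nat_lit 39501576832) (nat_lit 2) (nat_lit 5) (nat_lit 3) (nat_lit 5) (nat_lit 4) (nat_lit 4) (nat_lit 224) (nat_lit 201) (nat_lit 175)))) (XT.nd (nat_lit 156) (nat_lit 0) (nat_lit 0) (XT.nd (nat_lit 78) (nat_lit 0) (nat_lit 0) (XT.lf (nat_lit 0) (nat_lit 14456437087) (nat_lit 152) (nat_lit 38524991828) (nat_lit 0) (nat_lit 3419862728) (nat_lit 2) (nat_lit 5) (nat_lit 4) (nat_lit 4) (nat_lit 2) (nat_lit 4) (nat_lit 225) (nat_lit 201) (nat_lit 174)) (XT.lf (nat_lit 0) (nat_lit 19411022496) (nat_lit 152) (nat_lit 36393600272) (nat_lit 0) (nat_lit 8340604420) (nat_lit 2) (nat_lit 5) (nat_lit 4) (nat_lit 4) (nat_lit 2) (nat_lit 4) (nat_lit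 226) (nat_lit 201) (nat_lit 173))) (XT.nd (nat_lit 78) (nat_lit 0) (nat_lit 0) (XT.lf (nat_lit 0) (nat_lit 25084732121) (nat_lit 152) (nat_lit 33984983032) (nat_lit 0) (nat_lit 13984884725) (nat_lit 2) (nat_lit 5) (nat_lit 4) (nat_lit 4) (nat_lit 2) (nat_lit 4) (nat_lit 227) (nat_lit 201) (nat_lit 172)) (XT.lf (nat_lit 0) (nat_lit 31588573322) (nat_lit 152) (nat_lit 31252014990) (nat_lit 0) (nat_lit 20463135214) (nat_lit 2) (nat_lit 5) (nat_lit 4) (nat_lit 4) (nat_lit 2) (nat_lit 4) (nat_lit 228) (nat_lit 201) (nat_lit 171))))))))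
noncomputable def xc28 : XT := (XT.nd (nat_lit 2496) (nat_lit 0) (nat_lit 0) (XT.nd (nat_lit 1248) (nat_lit 0) (nat_lit 0) (XT.nd (nat_lit 624) (nat_lit 0) (nat_lit 0) (XT.nd (nat_lit 312) (nat_lit 76) (nat_lit 0) (XT.nd (nat_lit 156) (nat_lit 0) (nat_lit 0) (XT.nd (nat_lit 78) (nat_lit 0) (nat_lit 0) (XT.lf (nat_lit 0) (nat_lit 39049795168) (nat_lit 152) (nat_lit 28141225031) (nat_lit 0) (nat_lit 27902104266) (nat_lit 2) (nat_lit 5) (nat_lit 4) (nat_lit 4) (nat_lit 2) (nat_lit 4) (nat_lit 229) (nat_lit 201) (nat_lit 170)) (XT.lf (nat_lit 0) (nat_lit 47614378086) (nat_lit 152) (nat_lit 24591749874) (nat_lit 0) (nat_lit 36447336929) (nat_lit 2) (nat_lit 5) (nat_lit 4) (nat_lit 4) (nat_lit 2) (nat_lit 4) (nat_lit 230) (nat_lit 201) (nat_lit 169))) (XT.nd (nat_lit 78) (nat_lit 0) (nat_lit 0) (XT.lf (nat_lit 0) (nat_lit 57449890002) (nat_lit 152) (nat_lit 20534143265) (nat_lit 0) (nat_lit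 46266022536) (nat_lit 2) (nat_lit 5) (nat_lit 4) (nat_lit 4) (nat_lit 2) (nat_lit 4) (nat_lit 231) (nat_lit 201) (nat_lit 168)) (XT.lf (nat_lit 0) (nat_lit 68748764845) (nat_lit 152) (nat_lit 15889017249) (nat_lit 0) (nat_lit 57550265806) (nat_lit 2) (nat_lit 5) (nat_lit 4) (nat_lit 4) (nat_lit 2) (nat_lit 4) (nat_lit 232) (nat_lit 201) (nat_lit 167)))) (XT.nd (nat_lit 156) (nat_lit 76) (nat_lit 0) (XT.nd (nat_lit 78) (nat_lit 0) (nat_lit 0) (XT.lf (nat_lit 0) (nat_lit 81732067558) (nat_lit 152) (nat_lit 10565488925) (nat_lit 0) (nat_lit 70520845411) (nat_lit 2) (nat_lit 5) (nat_lit 4) (nat_lit 4) (nat_lit 2) (nat_lit 4) (nat_lit 233) (nat_lit 201) (nat_lit 166)) (XT.lf (nat_lit 0) (nat_lit 96653819280) (nat_lit 152) (nat_lit 4459402306) (nat_lit 0) (nat_lit 85431533563) (nat_lit 2) (nat_lit 5) (nat_lit 4) (nat_lit 4) (nat_lit 2) (nat_lit 4) (nat_lit 234) (nat_lit 201) (nat_lit 165)))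 (XT.nd (nat_lit 78) (nat_lit 0) (nat_lit 0) (XT.lf (nat_lit 0) (nat_lit 2797787952) (nat_lit 76) (nat_lit 111124029809) (nat_lit 76) (nat_lit 99892123595) (nat_lit 1) (nat_lit 4) (nat_lit 2) (nat_lit 5) (nat_lit 2) (nat_lit 4) (nat_lit 235) (nat_lit 201) (nat_lit 164)) (XT.lf (nat_lit 0) (nat_lit 11631476237) (nat_lit 76) (nat_lit 122374255598) (nat_lit 76) (nat_lit 111133983734) (nat_lit 1) (nat_lit 4) (nat_lit 2) (nat_lit 5) (nat_lit 2) (nat_lit 4) (nat_lit 236) (nat_lit 201) (nat_lit 163))))) (XT.nd (nat_lit 312) (nat_lit 0) (nat_lit 0) (XT.nd (nat_lit 156) (nat_lit 0) (nat_lit 0) (XT.nd (nat_lit 78) (nat_lit 0) (nat_lit 0) (XT.lf (nat_lit 0) (nat_lit 21778690355) (nat_lit 76) (nat_lit 135317117187) (nat_lit 76) (nat_lit 124069570846) (nat_lit 1) (nat_lit 4) (nat_lit 2) (nat_lit 5) (nat_lit 2) (nat_lit 4) (nat_lit 237) (nat_lit 201) (nat_lit 162)) (XT.lf (nat_lit 0) (nat_lit 33437962755)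 (nat_lit 76) (nat_lit 150205844477) (nat_lit 76) (nat_lit 138951972502) (nat_lit 1) (nat_lit 4) (nat_lit 2) (nat_lit 5) (nat_lit 2) (nat_lit 4) (nat_lit 238) (nat_lit 201) (nat_lit 161))) (XT.nd (nat_lit 78) (nat_lit 0) (nat_lit 0) (XT.lf (nat_lit 0) (nat_lit 46837409637) (nat_lit 76) (nat_lit 167331738653) (nat_lit 76) (nat_lit 156072366128) (nat_lit 1) (nat_lit 4) (nat_lit 2) (nat_lit 5) (nat_lit 2) (nat_lit 4) (nat_lit 239) (nat_lit 201) (nat_lit 160)) (XT.lf (nat_lit 0) (nat_lit 62239194093) (nat_lit 76) (nat_lit 187029871558) (nat_lit 76) (nat_lit 175765715947) (nat_lit 1) (nat_lit 4) (nat_lit 2) (nat_lit 5) (nat_lit 2) (nat_lit 4) (nat_lit 240) (nat_lit 201) (nat_lit 159)))) (XT.nd (nat_lit 156) (nat_lit 0) (nat_lit 0) (XT.nd (nat_lit 78) (nat_lit 0) (nat_lit 0) (XT.lf (nat_lit 0) (nat_lit 79944655382) (nat_lit 76) (nat_lit 209685641446) (nat_lit 76) (nat_lit 198417326628) (nat_lit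 1) (nat_lit 4) (nat_lit 2) (nat_lit 5) (nat_lit 2) (nat_lit 4) (nat_lit 241) (nat_lit 201) (nat_lit 158)) (XT.lf (nat_lit 0) (nat_lit 100300204705) (nat_lit 76) (nat_lit 235742313378) (nat_lit 76) (nat_lit 224470381859) (nat_lit 1) (nat_lit 4) (nat_lit 2) (nat_lit 5) (nat_lit 2) (nat_lit 4) (nat_lit 242) (nat_lit 201) (nat_lit 157))) (XT.nd (nat_lit 78) (nat_lit 0) (nat_lit 0) (XT.lf (nat_lit 0) (nat_lit 123704102808) (nat_lit 76) (nat_lit 265709691806) (nat_lit 76) (nat_lit 254434615330) (nat_lit 1) (nat_lit 4) (nat_lit 2) (nat_lit 5) (nat_lit 2) (nat_lit 4) (nat_lit 243) (nat_lit 201) (nat_lit 156)) (XT.lf (nat_lit 0) (nat_lit 150614252047) (nat_lit 76) (nat_lit 300174095003) (nat_lit 76) (nat_lit 288896283781) (nat_lit 1) (nat_lit 4) (nat_lit 2) (nat_lit 5) (nat_lit 2) (nat_lit 4) (nat_lit 244) (nat_lit 201) (nat_lit 155)))))) (XT.nd (nat_lit 624) (nat_lit 0) (nat_lit 0) (XT.nd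 (nat_lit 312) (nat_lit 0) (nat_lit 0) (XT.nd (nat_lit 156) (nat_lit 0) (nat_lit 0) (XT.nd (nat_lit 78) (nat_lit 0) (nat_lit 0) (XT.lf (nat_lit 0) (nat_lit 181557155341) (nat_lit 76) (nat_lit 339809826511) (nat_lit 76) (nat_lit 328529637249) (nat_lit 1) (nat_lit 4) (nat_lit 2) (nat_lit 5) (nat_lit 2) (nat_lit 4) (nat_lit 245) (nat_lit 201) (nat_lit 154)) (XT.lf (nat_lit 0) (nat_lit 217138217319) (nat_lit 76) (nat_lit 385392368032) (nat_lit 76) (nat_lit 374110110909) (nat_lit 1) (nat_lit 4) (nat_lit 2) (nat_lit 5) (nat_lit 2) (nat_lit 4) (nat_lit 246) (nat_lit 201) (nat_lit 153))) (XT.nd (nat_lit 78) (nat_lit 0) (nat_lit 0) (XT.lf (nat_lit 0) (nat_lit 258053589195) (nat_lit 76) (nat_lit 437813551900) (nat_lit 76) (nat_lit 426529496638) (nat_lit 1) (nat_lit 4) (nat_lit 2) (nat_lit 5) (nat_lit 2) (nat_lit 4) (nat_lit 247) (nat_lit 201) (nat_lit 152)) (XT.lf (nat_lit 0) (nat_lit 305103789113)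 (nat_lit 76) (nat_lit 498099009975) (nat_lit 76) (nat_lit 486813391113) (nat_lit 1) (nat_lit 4) (nat_lit 2) (nat_lit 5) (nat_lit 2) (nat_lit 4) (nat_lit 248) (nat_lit 201) (nat_lit 151)))) (XT.nd (nat_lit 156) (nat_lit 0) (nat_lit 0) (XT.nd (nat_lit 78) (nat_lit 0) (nat_lit 0) (XT.lf (nat_lit 0) (nat_lit 359209364464) (nat_lit 76) (nat_lit 567428240348) (nat_lit 76) (nat_lit 556141261834) (nat_lit 1) (nat_lit 4) (nat_lit 2) (nat_lit 5) (nat_lit 2) (nat_lit 4) (nat_lit 249) (nat_lit 201) (nat_lit 150)) (XT.lf (nat_lit 0) (nat_lit 421428902591) (nat_lit 76) (nat_lit 647157684483) (nat_lit 76) (nat_lit 635869523664) (nat_lit 1) (nat_lit 4) (nat_lit 2) (nat_lit 5) (nat_lit 2) (nat_lit 4) (nat_lit 250) (nat_lit 201) (nat_lit 149))) (XT.nd (nat_lit 78) (nat_lit 0) (nat_lit 0) (XT.lf (nat_lit 0) (nat_lit 492979742284) (nat_lit 76) (nat_lit 738847266288) (nat_lit 76) (nat_lit 727558077376)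 (nat_lit 1) (nat_lit 4) (nat_lit 2) (nat_lit 5) (nat_lit 2) (nat_lit 4) (nat_lit 251) (nat_lit 201) (nat_lit 148)) (XT.lf (nat_lit 0) (nat_lit 575261791275) (nat_lit 76) (nat_lit 844290912363) (nat_lit 76) (nat_lit 833000829458) (nat_lit 1) (nat_lit 4) (nat_lit 2) (nat_lit 5) (nat_lit 2) (nat_lit 4) (nat_lit 252) (nat_lit 201) (nat_lit 147))))) (XT.nd (nat_lit 312) (nat_lit 0) (nat_lit 0) (XT.nd (nat_lit 156) (nat_lit 0) (nat_lit 0) (XT.nd (nat_lit 78) (nat_lit 0) (nat_lit 0) (XT.lf (nat_lit 0) (nat_lit 669884915741) (nat_lit 76) (nat_lit 965551650566) (nat_lit 76) (nat_lit 954260790276) (nat_lit 1) (nat_lit 4) (nat_lit 2) (nat_lit 5) (nat_lit 2) (nat_lit 4) (nat_lit 253) (nat_lit 201) (nat_lit 146)) (XT.lf (nat_lit 0) (nat_lit 778700437683) (nat_lit 76) (nat_lit 1105001973601) (nat_lit 76) (nat_lit 1093710437324) (nat_lit 1) (nat_lit 4) (nat_lit 2) (nat_lit 5) (nat_lit 2) (nat_lit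 4) (nat_lit 254) (nat_lit 201) (nat_lit 145))) (XT.nd (nat_lit 78) (nat_lit 0) (nat_lit 0) (XT.lf (nat_lit 0) (nat_lit 903837356441) (nat_lit 76) (nat_lit 1265370257354) (nat_lit 76) (nat_lit 1254078133261) (nat_lit 1) (nat_lit 4) (nat_lit 2) (nat_lit 5) (nat_lit 2) (nat_lit 4) (nat_lit 255) (nat_lit 201) (nat_lit 144)) (XT.lf (nat_lit 0) (nat_lit 1047744003036) (nat_lit 76) (nat_lit 1449794142158) (nat_lit 76) (nat_lit 1438501506922) (nat_lit 1) (nat_lit 4) (nat_lit 2) (nat_lit 5) (nat_lit 2) (nat_lit 4) (nat_lit 256) (nat_lit 201) (nat_lit 143)))) (XT.nd (nat_lit 156) (nat_lit 0) (nat_lit 0) (XT.nd (nat_lit 78) (nat_lit 0) (nat_lit 0) (XT.lf (nat_lit 0) (nat_lit 1213235942293) (nat_lit 76) (nat_lit 1661881921412) (nat_lit 76) (nat_lit 1650588841703) (nat_lit 1) (nat_lit 4) (nat_lit 2) (nat_lit 5) (nat_lit 2) (nat_lit 4) (nat_lit 257) (nat_lit 201) (nat_lit 142)) (XT.lf (nat_lit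 0) (nat_lit 1403551059979) (nat_lit 76) (nat_lit 1905783138623) (nat_lit 76) (nat_lit 1894489672417) (nat_lit 1) (nat_lit 4) (nat_lit 2) (nat_lit 5) (nat_lit 2) (nat_lit 4) (nat_lit 258) (nat_lit 201) (nat_lit 141))) (XT.nd (nat_lit 78) (nat_lit 0) (nat_lit 0) (XT.lf (nat_lit 0) (nat_lit 1622412912745) (nat_lit 76) (nat_lit 2186269774129) (nat_lit 76) (nat_lit 2174975971837) (nat_lit 1) (nat_lit 4) (nat_lit 2) (nat_lit 5) (nat_lit 2) (nat_lit 4) (nat_lit 259) (nat_lit 201) (nat_lit 140)) (XT.lf (nat_lit 0) (nat_lit 1874103580318) (nat_lit 76) (nat_lit 2508829609927) (nat_lit 76) (nat_lit 2497535515388) (nat_lit 1) (nat_lit 4) (nat_lit 2) (nat_lit 5) (nat_lit 2) (nat_lit 4) (nat_lit 260) (nat_lit 201) (nat_lit 139))))))) (XT.nd (nat_lit 1248) (nat_lit 0) (nat_lit 0) (XT.nd (nat_lit 624) (nat_lit 0) (nat_lit 0) (XT.nd (nat_lit 312) (nat_lit 0) (nat_lit 0) (XT.nd (nat_lit 156) (nat_lit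 0) (nat_lit 0) (XT.nd (nat_lit 78) (nat_lit 0) (nat_lit 0) (XT.lf (nat_lit 0) (nat_lit 2163547445326) (nat_lit 76) (nat_lit 2879773599328) (nat_lit 76) (nat_lit 2868479250659) (nat_lit 1) (nat_lit 4) (nat_lit 2) (nat_lit 5) (nat_lit 2) (nat_lit 4) (nat_lit 261) (nat_lit 201) (nat_lit 138)) (XT.lf (nat_lit 0) (nat_lit 2496407539909) (nat_lit 76) (nat_lit 3306359342123) (nat_lit 76) (nat_lit 3295064772473) (nat_lit 1) (nat_lit 4) (nat_lit 2) (nat_lit 5) (nat_lit 2) (nat_lit 4) (nat_lit 262) (nat_lit 201) (nat_lit 137))) (XT.nd (nat_lit 78) (nat_lit 0) (nat_lit 0) (XT.lf (nat_lit 0) (nat_lit 2879196344179) (nat_lit 76) (nat_lit 3796933081107) (nat_lit 76) (nat_lit 3785638319299) (nat_lit 1) (nat_lit 4) (nat_lit 2) (nat_lit 5) (nat_lit 2) (nat_lit 4) (nat_lit 263) (nat_lit 201) (nat_lit 136)) (XT.lf (nat_lit 0) (nat_lit 3319403204307) (nat_lit 76) (nat_lit 4361092998128) (nat_lit 76)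 (nat_lit 4349798069227) (nat_lit 1) (nat_lit 4) (nat_lit 2) (nat_lit 5) (nat_lit 2) (nat_lit 4) (nat_lit 264) (nat_lit 201) (nat_lit 135)))) (XT.nd (nat_lit 156) (nat_lit 0) (nat_lit 0) (XT.nd (nat_lit 78) (nat_lit 0) (nat_lit 0) (XT.lf (nat_lit 0) (nat_lit 3825640863208) (nat_lit 76) (nat_lit 5009877004609) (nat_lit 76) (nat_lit 4998581930408) (nat_lit 1) (nat_lit 4) (nat_lit 2) (nat_lit 5) (nat_lit 2) (nat_lit 4) (nat_lit 265) (nat_lit 201) (nat_lit 134)) (XT.lf (nat_lit 0) (nat_lit 4407813970731) (nat_lit 76) (nat_lit 5755978700674) (nat_lit 76) (nat_lit 5744683500127) (nat_lit 1) (nat_lit 4) (nat_lit 2) (nat_lit 5) (nat_lit 2) (nat_lit 4) (nat_lit 266) (nat_lit 201) (nat_lit 133))) (XT.nd (nat_lit 78) (nat_lit 0) (nat_lit 0) (XT.lf (nat_lit 0) (nat_lit 5077312870282) (nat_lit 76) (nat_lit 6613995728203) (nat_lit 76) (nat_lit 6602700417789) (nat_lit 1) (nat_lit 4) (nat_lit 2) (nat_lit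 5) (nat_lit 2) (nat_lit 4) (nat_lit 267) (nat_lit 201) (nat_lit 132)) (XT.lf (nat_lit 0) (nat_lit 5847236453376) (nat_lit 76) (nat_lit 7600715376866) (nat_lit 76) (nat_lit 7589419970916) (nat_lit 1) (nat_lit 4) (nat_lit 2) (nat_lit 5) (nat_lit 2) (nat_lit 4) (nat_lit 268) (nat_lit 201) (nat_lit 131))))) (XT.nd (nat_lit 312) (nat_lit 0) (nat_lit 0) (XT.nd (nat_lit 156) (nat_lit 0) (nat_lit 0) (XT.nd (nat_lit 78) (nat_lit 0) (nat_lit 0) (XT.lf (nat_lit 0) (nat_lit 6732648442290) (nat_lit 76) (nat_lit 8735443031094) (nat_lit 76) (nat_lit 8724147542068) (nat_lit 1) (nat_lit 4) (nat_lit 2) (nat_lit 5) (nat_lit 2) (nat_lit 4) (nat_lit 269) (nat_lit 201) (nat_lit 130)) (XT.lf (nat_lit 0) (nat_lit 7750872115068) (nat_lit 76) (nat_lit 10040379884120) (nat_lit 76) (nat_lit 10029084322855) (nat_lit 1) (nat_lit 4) (nat_lit 2) (nat_lit 5) (nat_lit 2) (nat_lit 4) (nat_lit 270) (nat_lit 201) (nat_lit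 129))) (XT.nd (nat_lit 78) (nat_lit 0) (nat_lit 0) (XT.lf (nat_lit 0) (nat_lit 8921829239221) (nat_lit 76) (nat_lit 11541057309156) (nat_lit 76) (nat_lit 11529761685074) (nat_lit 1) (nat_lit 4) (nat_lit 2) (nat_lit 5) (nat_lit 2) (nat_lit 4) (nat_lit 271) (nat_lit 201) (nat_lit 128)) (XT.lf (nat_lit 0) (nat_lit 10268429845439) (nat_lit 76) (nat_lit 13266836386257) (nat_lit 76) (nat_lit 13255540707552) (nat_lit 1) (nat_lit 4) (nat_lit 2) (nat_lit 5) (nat_lit 2) (nat_lit 4) (nat_lit 272) (nat_lit 201) (nat_lit 127)))) (XT.nd (nat_lit 156) (nat_lit 0) (nat_lit 0) (XT.nd (nat_lit 78) (nat_lit 0) (nat_lit 0) (XT.lf (nat_lit 0) (nat_lit 11817020467322) (nat_lit 76) (nat_lit 15251482358236) (nat_lit 76) (nat_lit 15240186632033) (nat_lit 1) (nat_lit 4) (nat_lit 2) (nat_lit 5) (nat_lit 2) (nat_lit 4) (nat_lit 273) (nat_lit 201) (nat_lit 126)) (XT.lf (nat_lit 0) (nat_lit 13597899617037) (nat_lit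 76) (nat_lit 17533825254981) (nat_lit 76) (nat_lit 17522529487474) (nat_lit 1) (nat_lit 4) (nat_lit 2) (nat_lit 5) (nat_lit 2) (nat_lit 4) (nat_lit 274) (nat_lit 201) (nat_lit 125))) (XT.nd (nat_lit 78) (nat_lit 0) (nat_lit 0) (XT.lf (nat_lit 0) (nat_lit 15645910582295) (nat_lit 76) (nat_lit 20158519611426) (nat_lit 76) (nat_lit 20147223808004) (nat_lit 1) (nat_lit 4) (nat_lit 2) (nat_lit 5) (nat_lit 2) (nat_lit 4) (nat_lit 275) (nat_lit 201) (nat_lit 124)) (XT.lf (nat_lit 0) (nat_lit 18001123142853) (nat_lit 76) (nat_lit 23176918143241) (nat_lit 76) (nat_lit 23165622308589) (nat_lit 1) (nat_lit 4) (nat_lit 2) (nat_lit 5) (nat_lit 2) (nat_lit 4) (nat_lit 276) (nat_lit 201) (nat_lit 123)))))) (XT.nd (nat_lit 25896) (nat_lit 0) (nat_lit 380) (XT.nd (nat_lit 25584) (nat_lit 0) (nat_lit 912) (XT.nd (nat_lit 25428) (nat_lit 0) (nat_lit 1064) (XT.nd (nat_lit 78) (nat_lit 0) (nat_lit 0)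 (XT.lf (nat_lit 0) (nat_lit 20709617544460) (nat_lit 76) (nat_lit 26648076473876) (nat_lit 76) (nat_lit 26636780612066) (nat_lit 1) (nat_lit 4) (nat_lit 2) (nat_lit 5) (nat_lit 2) (nat_lit 4) (nat_lit 277) (nat_lit 201) (nat_lit 122)) (XT.lf (nat_lit 0) (nat_lit 23824386068886) (nat_lit 76) (nat_lit 30639908570668) (nat_lit 76) (nat_lit 30628612685243) (nat_lit 1) (nat_lit 4) (nat_lit 2) (nat_lit 5) (nat_lit 2) (nat_lit 4) (nat_lit 278) (nat_lit 201) (nat_lit 121))) (XT.nd (nat_lit 78) (nat_lit 0) (nat_lit 0) (XT.lf (nat_lit 0) (nat_lit 974754293) (nat_lit 228) (nat_lit 1221624563) (nat_lit 228) (nat_lit 1221624563) (nat_lit 15) (nat_lit 3) (nat_lit 18) (nat_lit 3) (nat_lit 18) (nat_lit 5) (nat_lit 202) (nat_lit 202) (nat_lit 196)) (XT.lf (nat_lit 76) (nat_lit 251052214) (nat_lit 0) (nat_lit 3374418561) (nat_lit 228) (nat_lit 3449906543) (nat_lit 16) (nat_lit 5) (nat_lit 15) (nat_lit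 3) (nat_lit 18) (nat_lit 5) (nat_lit 203) (nat_lit 202) (nat_lit 195)))) (XT.nd (nat_lit 156) (nat_lit 152) (nat_lit 0) (XT.nd (nat_lit 78) (nat_lit 0) (nat_lit 0) (XT.lf (nat_lit 76) (nat_lit 3449044957) (nat_lit 0) (nat_lit 1953722816) (nat_lit 228) (nat_lit 1978205332) (nat_lit 16) (nat_lit 5) (nat_lit 15) (nat_lit 3) (nat_lit 18) (nat_lit 5) (nat_lit 204) (nat_lit 202) (nat_lit 194)) (XT.lf (nat_lit 76) (nat_lit 6974526452) (nat_lit 0) (nat_lit 230589553) (nat_lit 228) (nat_lit 570315760) (nat_lit 16) (nat_lit 5) (nat_lit 15) (nat_lit 3) (nat_lit 18) (nat_lit 5) (nat_lit 205) (nat_lit 202) (nat_lit 193))) (XT.nd (nat_lit 78) (nat_lit 0) (nat_lit 0) (XT.lf (nat_lit 0) (nat_lit 930930437) (nat_lit 228) (nat_lit 5476109056) (nat_lit 76) (nat_lit 1824310321) (nat_lit 13) (nat_lit 5) (nat_lit 16) (nat_lit 5) (nat_lit 14) (nat_lit 5) (nat_lit 206) (nat_lit 202) (nat_lit 192)) (XT.lf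 (nat_lit 0) (nat_lit 2453563772) (nat_lit 228) (nat_lit 2043845895) (nat_lit 76) (nat_lit 4280449622) (nat_lit 13) (nat_lit 5) (nat_lit 16) (nat_lit 5) (nat_lit 14) (nat_lit 5) (nat_lit 207) (nat_lit 202) (nat_lit 191))))) (XT.nd (nat_lit 312) (nat_lit 228) (nat_lit 0) (XT.nd (nat_lit 156) (nat_lit 76) (nat_lit 0) (XT.nd (nat_lit 78) (nat_lit 0) (nat_lit 0) (XT.lf (nat_lit 0) (nat_lit 1908697128) (nat_lit 228) (nat_lit 2200799731) (nat_lit 304) (nat_lit 5314995967) (nat_lit 10) (nat_lit 5) (nat_lit 13) (nat_lit 5) (nat_lit 14) (nat_lit 5) (nat_lit 208) (nat_lit 202) (nat_lit 190)) (XT.lf (nat_lit 0) (nat_lit 5986095405) (nat_lit 304) (nat_lit 3675704049) (nat_lit 76) (nat_lit 513857442) (nat_lit 10) (nat_lit 5) (nat_lit 14) (nat_lit 5) (nat_lit 11) (nat_lit 4) (nat_lit 209) (nat_lit 202) (nat_lit 189))) (XT.nd (nat_lit 78) (nat_lit 0) (nat_lit 0) (XT.lf (nat_lit 0) (nat_lit 521974791)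 (nat_lit 76) (nat_lit 7611334659) (nat_lit 152) (nat_lit 2910753642) (nat_lit 9) (nat_lit 5) (nat_lit 10) (nat_lit 5) (nat_lit 11) (nat_lit 4) (nat_lit 210) (nat_lit 202) (nat_lit 188)) (XT.lf (nat_lit 0) (nat_lit 5609585203) (nat_lit 76) (nat_lit 5059450567) (nat_lit 152) (nat_lit 1366283286) (nat_lit 9) (nat_lit 5) (nat_lit 10) (nat_lit 5) (nat_lit 11) (nat_lit 4) (nat_lit 211) (nat_lit 202) (nat_lit 187)))) (XT.nd (nat_lit 156) (nat_lit 0) (nat_lit 0) (XT.nd (nat_lit 78) (nat_lit 152) (nat_lit 0) (XT.lf (nat_lit 0) (nat_lit 256829182) (nat_lit 152) (nat_lit 1878103745) (nat_lit 76) (nat_lit 11057196515) (nat_lit 8) (nat_lit 5) (nat_lit 10) (nat_lit 5) (nat_lit 9) (nat_lit 5) (nat_lit 212) (nat_lit 202) (nat_lit 186)) (XT.lf (nat_lit 0) (nat_lit 2085528769) (nat_lit 228) (nat_lit 11099527751) (nat_lit 76) (nat_lit 1314024335) (nat_lit 6) (nat_lit 5) (nat_lit 9) (nat_lit 5) (nat_lit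 7) (nat_lit 4) (nat_lit 213) (nat_lit 202) (nat_lit 185))) (XT.nd (nat_lit 78) (nat_lit 0) (nat_lit 0) (XT.lf (nat_lit 0) (nat_lit 4298730985) (nat_lit 228) (nat_lit 6549376193) (nat_lit 76) (nat_lit 5138898044) (nat_lit 6) (nat_lit 5) (nat_lit 9) (nat_lit 5) (nat_lit 7) (nat_lit 4) (nat_lit 214) (nat_lit 202) (nat_lit 184)) (XT.lf (nat_lit 0) (nat_lit 6761901081) (nat_lit 228) (nat_lit 1434632839) (nat_lit 76) (nat_lit 9515155665) (nat_lit 6) (nat_lit 5) (nat_lit 9) (nat_lit 5) (nat_lit 7) (nat_lit 4) (nat_lit 215) (nat_lit 202) (nat_lit 183))))))))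
noncomputable def xc29 : XT := (XT.nd (nat_lit 2496) (nat_lit 0) (nat_lit 0) (XT.nd (nat_lit 1248) (nat_lit 76) (nat_lit 0) (XT.nd (nat_lit 624) (nat_lit 76) (nat_lit 0) (XT.nd (nat_lit 312) (nat_lit 76) (nat_lit 0) (XT.nd (nat_lit 156) (nat_lit 76) (nat_lit 0) (XT.nd (nat_lit 78) (nat_lit 0) (nat_lit 0) (XT.lf (nat_lit 0) (nat_lit 4769376226) (nat_lit 76) (nat_lit 4951344988) (nat_lit 152) (nat_lit 9956533103) (nat_lit 5) (nat_lit 5) (nat_lit 6) (nat_lit 5) (nat_lit 7) (nat_lit 4) (nat_lit 216) (nat_lit 202) (nat_lit 182)) (XT.lf (nat_lit 0) (nat_lit 11967332479) (nat_lit 76) (nat_lit 1164957556) (nat_lit 152) (nat_lit 8804984777) (nat_lit 5) (nat_lit 5) (nat_lit 6) (nat_lit 5) (nat_lit 7) (nat_lit 4) (nat_lit 217) (nat_lit 202) (nat_lit 181))) (XT.nd (nat_lit 78) (nat_lit 76) (nat_lit 0) (XT.lf (nat_lit 0) (nat_lit 17129065035) (nat_lit 152) (nat_lit 4516807697) (nat_lit 0) (nat_lit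 2880239723) (nat_lit 5) (nat_lit 5) (nat_lit 7) (nat_lit 4) (nat_lit 5) (nat_lit 4) (nat_lit 218) (nat_lit 202) (nat_lit 180)) (XT.lf (nat_lit 0) (nat_lit 1775665196) (nat_lit 76) (nat_lit 20027739679) (nat_lit 76) (nat_lit 5688889406) (nat_lit 4) (nat_lit 4) (nat_lit 5) (nat_lit 5) (nat_lit 5) (nat_lit 4) (nat_lit 219) (nat_lit 202) (nat_lit 179)))) (XT.nd (nat_lit 156) (nat_lit 76) (nat_lit 0) (XT.nd (nat_lit 78) (nat_lit 0) (nat_lit 0) (XT.lf (nat_lit 0) (nat_lit 9442089569) (nat_lit 76) (nat_lit 17925394759) (nat_lit 76) (nat_lit 3508261911) (nat_lit 4) (nat_lit 4) (nat_lit 5) (nat_lit 5) (nat_lit 5) (nat_lit 4) (nat_lit 220) (nat_lit 202) (nat_lit 178)) (XT.lf (nat_lit 0) (nat_lit 18191045382) (nat_lit 76) (nat_lit 15533810994) (nat_lit 76) (nat_lit 1048606341) (nat_lit 4) (nat_lit 4) (nat_lit 5) (nat_lit 5) (nat_lit 5) (nat_lit 4) (nat_lit 221) (nat_lit 202) (nat_lit 177)))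 (XT.nd (nat_lit 78) (nat_lit 0) (nat_lit 0) (XT.lf (nat_lit 0) (nat_lit 1583454325) (nat_lit 152) (nat_lit 11139970727) (nat_lit 76) (nat_lit 26527482056) (nat_lit 3) (nat_lit 5) (nat_lit 5) (nat_lit 5) (nat_lit 4) (nat_lit 4) (nat_lit 222) (nat_lit 202) (nat_lit 176)) (XT.lf (nat_lit 0) (nat_lit 4469857605) (nat_lit 152) (nat_lit 4985675737) (nat_lit 76) (nat_lit 34942272009) (nat_lit 3) (nat_lit 5) (nat_lit 5) (nat_lit 5) (nat_lit 4) (nat_lit 4) (nat_lit 223) (nat_lit 202) (nat_lit 175))))) (XT.nd (nat_lit 312) (nat_lit 0) (nat_lit 0) (XT.nd (nat_lit 156) (nat_lit 0) (nat_lit 0) (XT.nd (nat_lit 78) (nat_lit 0) (nat_lit 0) (XT.lf (nat_lit 0) (nat_lit 2244082002) (nat_lit 76) (nat_lit 5609271443) (nat_lit 152) (nat_lit 42454078870) (nat_lit 2) (nat_lit 5) (nat_lit 3) (nat_lit 5) (nat_lit 4) (nat_lit 4) (nat_lit 224) (nat_lit 202) (nat_lit 174)) (XT.lf (nat_lit 0) (nat_lit 11073317683)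 (nat_lit 76) (nat_lit 904759462) (nat_lit 152) (nat_lit 45090643521) (nat_lit 2) (nat_lit 5) (nat_lit 3) (nat_lit 5) (nat_lit 4) (nat_lit 4) (nat_lit 225) (nat_lit 202) (nat_lit 173))) (XT.nd (nat_lit 78) (nat_lit 0) (nat_lit 0) (XT.lf (nat_lit 0) (nat_lit 16884006025) (nat_lit 152) (nat_lit 43846306826) (nat_lit 0) (nat_lit 4089752200) (nat_lit 2) (nat_lit 5) (nat_lit 4) (nat_lit 4) (nat_lit 2) (nat_lit 4) (nat_lit 226) (nat_lit 202) (nat_lit 172)) (XT.lf (nat_lit 0) (nat_lit 22547983153) (nat_lit 152) (nat_lit 41454871811) (nat_lit 0) (nat_lit 9728138616) (nat_lit 2) (nat_lit 5) (nat_lit 4) (nat_lit 4) (nat_lit 2) (nat_lit 4) (nat_lit 227) (nat_lit 202) (nat_lit 171)))) (XT.nd (nat_lit 156) (nat_lit 0) (nat_lit 0) (XT.nd (nat_lit 78) (nat_lit 0) (nat_lit 0) (XT.lf (nat_lit 0) (nat_lit 29043361315) (nat_lit 152) (nat_lit 38736844834) (nat_lit 0) (nat_lit 16201263984) (nat_lit 2)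 (nat_lit 5) (nat_lit 4) (nat_lit 4) (nat_lit 2) (nat_lit 4) (nat_lit 228) (nat_lit 202) (nat_lit 170)) (XT.lf (nat_lit 0) (nat_lit 36497223996) (nat_lit 152) (nat_lit 35639047106) (nat_lit 0) (nat_lit 23635776409) (nat_lit 2) (nat_lit 5) (nat_lit 4) (nat_lit 4) (nat_lit 2) (nat_lit 4) (nat_lit 229) (nat_lit 202) (nat_lit 169))) (XT.nd (nat_lit 78) (nat_lit 0) (nat_lit 0) (XT.lf (nat_lit 0) (nat_lit 45055407639) (nat_lit 152) (nat_lit 32100869540) (nat_lit 0) (nat_lit 32177133744) (nat_lit 2) (nat_lit 5) (nat_lit 4) (nat_lit 4) (nat_lit 2) (nat_lit 4) (nat_lit 230) (nat_lit 202) (nat_lit 168)) (XT.lf (nat_lit 0) (nat_lit 54885354969) (nat_lit 152) (nat_lit 28053086923) (nat_lit 0) (nat_lit 41992449501) (nat_lit 2) (nat_lit 5) (nat_lit 4) (nat_lit 4) (nat_lit 2) (nat_lit 4) (nat_lit 231) (nat_lit 202) (nat_lit 167)))))) (XT.nd (nat_lit 624) (nat_lit 0) (nat_lit 0) (XT.nd (nat_lit 312)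 (nat_lit 76) (nat_lit 0) (XT.nd (nat_lit 156) (nat_lit 0) (nat_lit 0) (XT.nd (nat_lit 78) (nat_lit 0) (nat_lit 0) (XT.lf (nat_lit 0) (nat_lit 66179391041) (nat_lit 152) (nat_lit 23416503510) (nat_lit 0) (nat_lit 53273762466) (nat_lit 2) (nat_lit 5) (nat_lit 4) (nat_lit 4) (nat_lit 2) (nat_lit 4) (nat_lit 232) (nat_lit 202) (nat_lit 166)) (XT.lf (nat_lit 0) (nat_lit 79158486128) (nat_lit 152) (nat_lit 18100403536) (nat_lit 0) (nat_lit 66241793981) (nat_lit 2) (nat_lit 5) (nat_lit 4) (nat_lit 4) (nat_lit 2) (nat_lit 4) (nat_lit 233) (nat_lit 202) (nat_lit 165))) (XT.nd (nat_lit 78) (nat_lit 0) (nat_lit 0) (XT.lf (nat_lit 0) (nat_lit 94076579044) (nat_lit 152) (nat_lit 12000776351) (nat_lit 0) (nat_lit 81150266401) (nat_lit 2) (nat_lit 5) (nat_lit 4) (nat_lit 4) (nat_lit 2) (nat_lit 4) (nat_lit 234) (nat_lit 202) (nat_lit 164)) (XT.lf (nat_lit 0) (nat_lit 111225545523) (nat_lit 152)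 (nat_lit 4998281423) (nat_lit 0) (nat_lit 98290867230) (nat_lit 2) (nat_lit 5) (nat_lit 4) (nat_lit 4) (nat_lit 2) (nat_lit 4) (nat_lit 235) (nat_lit 202) (nat_lit 163)))) (XT.nd (nat_lit 156) (nat_lit 0) (nat_lit 0) (XT.nd (nat_lit 78) (nat_lit 0) (nat_lit 0) (XT.lf (nat_lit 0) (nat_lit 3341576863) (nat_lit 76) (nat_lit 127737699528) (nat_lit 76) (nat_lit 114795746758) (nat_lit 1) (nat_lit 4) (nat_lit 2) (nat_lit 5) (nat_lit 2) (nat_lit 4) (nat_lit 236) (nat_lit 202) (nat_lit 162)) (XT.lf (nat_lit 0) (nat_lit 13484128732) (nat_lit 76) (nat_lit 140682624588) (nat_lit 76) (nat_lit 127734346185) (nat_lit 1) (nat_lit 4) (nat_lit 2) (nat_lit 5) (nat_lit 2) (nat_lit 4) (nat_lit 237) (nat_lit 202) (nat_lit 161))) (XT.nd (nat_lit 78) (nat_lit 0) (nat_lit 0) (XT.lf (nat_lit 0) (nat_lit 25139347003) (nat_lit 76) (nat_lit 155573146200) (nat_lit 76) (nat_lit 142619367247) (nat_lit 1) (nat_lit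 4) (nat_lit 2) (nat_lit 5) (nat_lit 2) (nat_lit 4) (nat_lit 238) (nat_lit 202) (nat_lit 160)) (XT.lf (nat_lit 0) (nat_lit 38535268555) (nat_lit 76) (nat_lit 172700600657) (nat_lit 76) (nat_lit 159742038616) (nat_lit 1) (nat_lit 4) (nat_lit 2) (nat_lit 5) (nat_lit 2) (nat_lit 4) (nat_lit 239) (nat_lit 202) (nat_lit 159))))) (XT.nd (nat_lit 312) (nat_lit 0) (nat_lit 0) (XT.nd (nat_lit 156) (nat_lit 0) (nat_lit 0) (XT.nd (nat_lit 78) (nat_lit 0) (nat_lit 0) (XT.lf (nat_lit 0) (nat_lit 53933987506) (nat_lit 76) (nat_lit 192400090328) (nat_lit 76) (nat_lit 179437369081) (nat_lit 1) (nat_lit 4) (nat_lit 2) (nat_lit 5) (nat_lit 2) (nat_lit 4) (nat_lit 240) (nat_lit 202) (nat_lit 158)) (XT.lf (nat_lit 0) (nat_lit 71636783140) (nat_lit 76) (nat_lit 215057040011) (nat_lit 76) (nat_lit 202090702064) (nat_lit 1) (nat_lit 4) (nat_lit 2) (nat_lit 5) (nat_lit 2) (nat_lit 4) (nat_lit 241) (nat_lit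 202) (nat_lit 157))) (XT.nd (nat_lit 78) (nat_lit 0) (nat_lit 0) (XT.lf (nat_lit 0) (nat_lit 91990014501) (nat_lit 76) (nat_lit 241114737853) (nat_lit 76) (nat_lit 228145254948) (nat_lit 1) (nat_lit 4) (nat_lit 2) (nat_lit 5) (nat_lit 2) (nat_lit 4) (nat_lit 242) (nat_lit 202) (nat_lit 156)) (XT.lf (nat_lit 0) (nat_lit 115391896986) (nat_lit 76) (nat_lit 271083008377) (nat_lit 76) (nat_lit 258110790726) (nat_lit 1) (nat_lit 4) (nat_lit 2) (nat_lit 5) (nat_lit 2) (nat_lit 4) (nat_lit 243) (nat_lit 202) (nat_lit 155)))) (XT.nd (nat_lit 156) (nat_lit 0) (nat_lit 0) (XT.nd (nat_lit 78) (nat_lit 0) (nat_lit 0) (XT.lf (nat_lit 0) (nat_lit 142300293513) (nat_lit 76) (nat_lit 305548187309) (nat_lit 76) (nat_lit 292573591619) (nat_lit 1) (nat_lit 4) (nat_lit 2) (nat_lit 5) (nat_lit 2) (nat_lit 4) (nat_lit 244) (nat_lit 202) (nat_lit 154)) (XT.lf (nat_lit 0) (nat_lit 173241672709) (nat_lit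 76) (nat_lit 345184593369) (nat_lit 76) (nat_lit 332207929818) (nat_lit 1) (nat_lit 4) (nat_lit 2) (nat_lit 5) (nat_lit 2) (nat_lit 4) (nat_lit 245) (nat_lit 202) (nat_lit 153))) (XT.nd (nat_lit 78) (nat_lit 0) (nat_lit 0) (XT.lf (nat_lit 0) (nat_lit 208821409385) (nat_lit 76) (nat_lit 390767721457) (nat_lit 76) (nat_lit 377789259766) (nat_lit 1) (nat_lit 4) (nat_lit 2) (nat_lit 5) (nat_lit 2) (nat_lit 4) (nat_lit 246) (nat_lit 202) (nat_lit 152)) (XT.lf (nat_lit 0) (nat_lit 249735628825) (nat_lit 76) (nat_lit 443189415384) (nat_lit 76) (nat_lit 430209390093) (nat_lit 1) (nat_lit 4) (nat_lit 2) (nat_lit 5) (nat_lit 2) (nat_lit 4) (nat_lit 247) (nat_lit 202) (nat_lit 151))))))) (XT.nd (nat_lit 1248) (nat_lit 0) (nat_lit 0) (XT.nd (nat_lit 624) (nat_lit 0) (nat_lit 0) (XT.nd (nat_lit 312) (nat_lit 0) (nat_lit 0) (XT.nd (nat_lit 156) (nat_lit 0) (nat_lit 0) (XT.nd (nat_lit 78) (nat_lit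 0) (nat_lit 0) (XT.lf (nat_lit 0) (nat_lit 296784826624) (nat_lit 76) (nat_lit 503475316987) (nat_lit 76) (nat_lit 490493932045) (nat_lit 1) (nat_lit 4) (nat_lit 2) (nat_lit 5) (nat_lit 2) (nat_lit 4) (nat_lit 248) (nat_lit 202) (nat_lit 150)) (XT.lf (nat_lit 0) (nat_lit 350889530567) (nat_lit 76) (nat_lit 572804933038) (nat_lit 76) (nat_lit 559822365789) (nat_lit 1) (nat_lit 4) (nat_lit 2) (nat_lit 5) (nat_lit 2) (nat_lit 4) (nat_lit 249) (nat_lit 202) (nat_lit 149))) (XT.nd (nat_lit 78) (nat_lit 0) (nat_lit 0) (XT.lf (nat_lit 0) (nat_lit 413108310949) (nat_lit 76) (nat_lit 652534712545) (nat_lit 76) (nat_lit 639551117204) (nat_lit 1) (nat_lit 4) (nat_lit 2) (nat_lit 5) (nat_lit 2) (nat_lit 4) (nat_lit 250) (nat_lit 202) (nat_lit 148)) (XT.lf (nat_lit 0) (nat_lit 484658491732) (nat_lit 76) (nat_lit 744224585978) (nat_lit 76) (nat_lit 731240096644) (nat_lit 1) (nat_lit 4) (nat_lit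 2) (nat_lit 5) (nat_lit 2) (nat_lit 4) (nat_lit 251) (nat_lit 202) (nat_lit 147)))) (XT.nd (nat_lit 156) (nat_lit 0) (nat_lit 0) (XT.nd (nat_lit 78) (nat_lit 0) (nat_lit 0) (XT.lf (nat_lit 0) (nat_lit 566939967759) (nat_lit 76) (nat_lit 849668485642) (nat_lit 76) (nat_lit 836683218923) (nat_lit 1) (nat_lit 4) (nat_lit 2) (nat_lit 5) (nat_lit 2) (nat_lit 4) (nat_lit 252) (nat_lit 202) (nat_lit 146)) (XT.lf (nat_lit 0) (nat_lit 661562593994) (nat_lit 76) (nat_lit 970929444357) (nat_lit 76) (nat_lit 957943501651) (nat_lit 1) (nat_lit 4) (nat_lit 2) (nat_lit 5) (nat_lit 2) (nat_lit 4) (nat_lit 253) (nat_lit 202) (nat_lit 145))) (XT.nd (nat_lit 78) (nat_lit 0) (nat_lit 0) (XT.lf (nat_lit 0) (nat_lit 770377682692) (nat_lit 76) (nat_lit 1110379959142) (nat_lit 76) (nat_lit 1097393428620) (nat_lit 1) (nat_lit 4) (nat_lit 2) (nat_lit 5) (nat_lit 2) (nat_lit 4) (nat_lit 254) (nat_lit 202) (nat_lit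 144)) (XT.lf (nat_lit 0) (nat_lit 895514224717) (nat_lit 76) (nat_lit 1270748409633) (nat_lit 76) (nat_lit 1257761367968) (nat_lit 1) (nat_lit 4) (nat_lit 2) (nat_lit 5) (nat_lit 2) (nat_lit 4) (nat_lit 255) (nat_lit 202) (nat_lit 143))))) (XT.nd (nat_lit 312) (nat_lit 0) (nat_lit 0) (XT.nd (nat_lit 156) (nat_lit 0) (nat_lit 0) (XT.nd (nat_lit 78) (nat_lit 0) (nat_lit 0) (XT.lf (nat_lit 0) (nat_lit 1039420543718) (nat_lit 76) (nat_lit 1455172439428) (nat_lit 76) (nat_lit 1442184953290) (nat_lit 1) (nat_lit 4) (nat_lit 2) (nat_lit 5) (nat_lit 2) (nat_lit 4) (nat_lit 256) (nat_lit 202) (nat_lit 142)) (XT.lf (nat_lit 0) (nat_lit 1204912198110) (nat_lit 76) (nat_lit 1667260344761) (nat_lit 76) (nat_lit 1654272472125) (nat_lit 1) (nat_lit 4) (nat_lit 2) (nat_lit 5) (nat_lit 2) (nat_lit 4) (nat_lit 257) (nat_lit 202) (nat_lit 141))) (XT.nd (nat_lit 78) (nat_lit 0) (nat_lit 0) (XT.lf (nat_lit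 0) (nat_lit 1395227068087) (nat_lit 76) (nat_lit 1911161671606) (nat_lit 76) (nat_lit 1898173462885) (nat_lit 1) (nat_lit 4) (nat_lit 2) (nat_lit 5) (nat_lit 2) (nat_lit 4) (nat_lit 258) (nat_lit 202) (nat_lit 140)) (XT.lf (nat_lit 0) (nat_lit 1614088705454) (nat_lit 76) (nat_lit 2191648402445) (nat_lit 76) (nat_lit 2178659901476) (nat_lit 1) (nat_lit 4) (nat_lit 2) (nat_lit 5) (nat_lit 2) (nat_lit 4) (nat_lit 259) (nat_lit 202) (nat_lit 139)))) (XT.nd (nat_lit 156) (nat_lit 0) (nat_lit 0) (XT.nd (nat_lit 78) (nat_lit 0) (nat_lit 0) (XT.lf (nat_lit 0) (nat_lit 1865779185725) (nat_lit 76) (nat_lit 2514208321142) (nat_lit 76) (nat_lit 2501219566045) (nat_lit 1) (nat_lit 4) (nat_lit 2) (nat_lit 5) (nat_lit 2) (nat_lit 4) (nat_lit 260) (nat_lit 202) (nat_lit 138)) (XT.lf (nat_lit 0) (nat_lit 2155222887860) (nat_lit 76) (nat_lit 2885152382628) (nat_lit 76) (nat_lit 2872163406550) (nat_lit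 1) (nat_lit 4) (nat_lit 2) (nat_lit 5) (nat_lit 2) (nat_lit 4) (nat_lit 261) (nat_lit 202) (nat_lit 137))) (XT.nd (nat_lit 78) (nat_lit 0) (nat_lit 0) (XT.lf (nat_lit 0) (nat_lit 2488082840815) (nat_lit 76) (nat_lit 3311738188107) (nat_lit 76) (nat_lit 3298749019870) (nat_lit 1) (nat_lit 4) (nat_lit 2) (nat_lit 5) (nat_lit 2) (nat_lit 4) (nat_lit 262) (nat_lit 202) (nat_lit 136)) (XT.lf (nat_lit 0) (nat_lit 2870871521931) (nat_lit 76) (nat_lit 3802311981598) (nat_lit 76) (nat_lit 3789322646268) (nat_lit 1) (nat_lit 4) (nat_lit 2) (nat_lit 5) (nat_lit 2) (nat_lit 4) (nat_lit 263) (nat_lit 202) (nat_lit 135)))))) (XT.nd (nat_lit 624) (nat_lit 0) (nat_lit 0) (XT.nd (nat_lit 312) (nat_lit 0) (nat_lit 0) (XT.nd (nat_lit 156) (nat_lit 0) (nat_lit 0) (XT.nd (nat_lit 78) (nat_lit 0) (nat_lit 0) (XT.lf (nat_lit 0) (nat_lit 3311078274967) (nat_lit 76) (nat_lit 4366471946017) (nat_lit 76) (nat_lit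 4353482465388) (nat_lit 1) (nat_lit 4) (nat_lit 2) (nat_lit 5) (nat_lit 2) (nat_lit 4) (nat_lit 264) (nat_lit 202) (nat_lit 134)) (XT.lf (nat_lit 0) (nat_lit 3817315840746) (nat_lit 76) (nat_lit 5015255993713) (nat_lit 76) (nat_lit 5002266386737) (nat_lit 1) (nat_lit 4) (nat_lit 2) (nat_lit 5) (nat_lit 2) (nat_lit 4) (nat_lit 265) (nat_lit 202) (nat_lit 133))) (XT.nd (nat_lit 78) (nat_lit 0) (nat_lit 0) (XT.lf (nat_lit 0) (nat_lit 4399488867292) (nat_lit 76) (nat_lit 5761357725617) (nat_lit 76) (nat_lit 5748368008775) (nat_lit 1) (nat_lit 4) (nat_lit 2) (nat_lit 5) (nat_lit 2) (nat_lit 4) (nat_lit 266) (nat_lit 202) (nat_lit 132)) (XT.lf (nat_lit 0) (nat_lit 5068987696429) (nat_lit 76) (nat_lit 6619374784312) (nat_lit 76) (nat_lit 6606384971933) (nat_lit 1) (nat_lit 4) (nat_lit 2) (nat_lit 5) (nat_lit 2) (nat_lit 4) (nat_lit 267) (nat_lit 202) (nat_lit 131)))) (XT.nd (nat_lit 156)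 (nat_lit 0) (nat_lit 0) (XT.nd (nat_lit 78) (nat_lit 0) (nat_lit 0) (XT.lf (nat_lit 0) (nat_lit 5838911218293) (nat_lit 76) (nat_lit 7606094460075) (nat_lit 76) (nat_lit 7593104564620) (nat_lit 1) (nat_lit 4) (nat_lit 2) (nat_lit 5) (nat_lit 2) (nat_lit 4) (nat_lit 268) (nat_lit 202) (nat_lit 130)) (XT.lf (nat_lit 0) (nat_lit 6724323153964) (nat_lit 76) (nat_lit 8740822137867) (nat_lit 76) (nat_lit 8727832170173) (nat_lit 1) (nat_lit 4) (nat_lit 2) (nat_lit 5) (nat_lit 2) (nat_lit 4) (nat_lit 269) (nat_lit 202) (nat_lit 129))) (XT.nd (nat_lit 78) (nat_lit 0) (nat_lit 0) (XT.lf (nat_lit 0) (nat_lit 7742546780443) (nat_lit 76) (nat_lit 10045759011384) (nat_lit 76) (nat_lit 10032768980874) (nat_lit 1) (nat_lit 4) (nat_lit 2) (nat_lit 5) (nat_lit 2) (nat_lit 4) (nat_lit 270) (nat_lit 202) (nat_lit 128)) (XT.lf (nat_lit 0) (nat_lit 8913503864337) (nat_lit 76) (nat_lit 11546436454239) (nat_lit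 76) (nat_lit 11533446369105) (nat_lit 1) (nat_lit 4) (nat_lit 2) (nat_lit 5) (nat_lit 2) (nat_lit 4) (nat_lit 271) (nat_lit 202) (nat_lit 127))))) (XT.nd (nat_lit 312) (nat_lit 0) (nat_lit 0) (XT.nd (nat_lit 156) (nat_lit 0) (nat_lit 0) (XT.nd (nat_lit 78) (nat_lit 0) (nat_lit 0) (XT.lf (nat_lit 0) (nat_lit 10260104435546) (nat_lit 76) (nat_lit 13272215546834) (nat_lit 76) (nat_lit 13259225414202) (nat_lit 1) (nat_lit 4) (nat_lit 2) (nat_lit 5) (nat_lit 2) (nat_lit 4) (nat_lit 272) (nat_lit 202) (nat_lit 126)) (XT.lf (nat_lit 0) (nat_lit 11808695026987) (nat_lit 76) (nat_lit 15256861532287) (nat_lit 76) (nat_lit 15243871358352) (nat_lit 1) (nat_lit 4) (nat_lit 2) (nat_lit 5) (nat_lit 2) (nat_lit 4) (nat_lit 273) (nat_lit 202) (nat_lit 125))) (XT.nd (nat_lit 78) (nat_lit 0) (nat_lit 0) (XT.lf (nat_lit 0) (nat_lit 13589574150231) (nat_lit 76) (nat_lit 17539204440747) (nat_lit 76) (nat_lit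 17526214230897) (nat_lit 1) (nat_lit 4) (nat_lit 2) (nat_lit 5) (nat_lit 2) (nat_lit 4) (nat_lit 274) (nat_lit 202) (nat_lit 124)) (XT.lf (nat_lit 0) (nat_lit 15637585092471) (nat_lit 76) (nat_lit 20163898807380) (nat_lit 76) (nat_lit 20150908566299) (nat_lit 1) (nat_lit 4) (nat_lit 2) (nat_lit 5) (nat_lit 2) (nat_lit 4) (nat_lit 275) (nat_lit 202) (nat_lit 123)))) (XT.nd (nat_lit 156) (nat_lit 0) (nat_lit 0) (XT.nd (nat_lit 78) (nat_lit 0) (nat_lit 0) (XT.lf (nat_lit 0) (nat_lit 17992797633013) (nat_lit 76) (nat_lit 23182297348055) (nat_lit 76) (nat_lit 23169307079816) (nat_lit 1) (nat_lit 4) (nat_lit 2) (nat_lit 5) (nat_lit 2) (nat_lit 4) (nat_lit 276) (nat_lit 202) (nat_lit 122)) (XT.lf (nat_lit 0) (nat_lit 20701292017214) (nat_lit 76) (nat_lit 26653455686393) (nat_lit 76) (nat_lit 26640465394539) (nat_lit 1) (nat_lit 4) (nat_lit 2) (nat_lit 5) (nat_lit 2) (nat_lit 4) (nat_lit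 277) (nat_lit 202) (nat_lit 121))) (XT.nd (nat_lit 25428) (nat_lit 0) (nat_lit 1064) (XT.lf (nat_lit 0) (nat_lit 23816060526506) (nat_lit 76) (nat_lit 30645287789884) (nat_lit 76) (nat_lit 30632297477495) (nat_lit 1) (nat_lit 4) (nat_lit 2) (nat_lit 5) (nat_lit 2) (nat_lit 4) (nat_lit 278) (nat_lit 202) (nat_lit 120)) (XT.lf (nat_lit 0) (nat_lit 2577407757) (nat_lit 228) (nat_lit 546389459) (nat_lit 228) (nat_lit 546389459) (nat_lit 15) (nat_lit 3) (nat_lit 18) (nat_lit 3) (nat_lit 18) (nat_lit 5) (nat_lit 203) (nat_lit 203) (nat_lit 194))))))))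
noncomputable def xc30 : XT := (XT.nd (nat_lit 2496) (nat_lit 76) (nat_lit 0) (XT.nd (nat_lit 1248) (nat_lit 228) (nat_lit 0) (XT.nd (nat_lit 624) (nat_lit 304) (nat_lit 0) (XT.nd (nat_lit 312) (nat_lit 228) (nat_lit 0) (XT.nd (nat_lit 156) (nat_lit 0) (nat_lit 0) (XT.nd (nat_lit 78) (nat_lit 228) (nat_lit 0) (XT.lf (nat_lit 76) (nat_lit 1927624098) (nat_lit 0) (nat_lit 4842470916) (nat_lit 228) (nat_lit 903335820) (nat_lit 16) (nat_lit 5) (nat_lit 15) (nat_lit 3) (nat_lit 18) (nat_lit 5) (nat_lit 204) (nat_lit 203) (nat_lit 193)) (XT.lf (nat_lit 0) (nat_lit 354788491) (nat_lit 228) (nat_lit 2709872699) (nat_lit 304) (nat_lit 5018210101) (nat_lit 12) (nat_lit 5) (nat_lit 15) (nat_lit 3) (nat_lit 16) (nat_lit 5) (nat_lit 205) (nat_lit 203) (nat_lit 192))) (XT.nd (nat_lit 78) (nat_lit 0) (nat_lit 76) (XT.lf (nat_lit 76) (nat_lit 658329684) (nat_lit 0) (nat_lit 882060235) (nat_lit 304)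 (nat_lit 7036664926) (nat_lit 13) (nat_lit 5) (nat_lit 12) (nat_lit 5) (nat_lit 16) (nat_lit 5) (nat_lit 206) (nat_lit 203) (nat_lit 191)) (XT.lf (nat_lit 0) (nat_lit 2945508173) (nat_lit 228) (nat_lit 4526442432) (nat_lit 76) (nat_lit 1671047189) (nat_lit 13) (nat_lit 5) (nat_lit 16) (nat_lit 5) (nat_lit 14) (nat_lit 5) (nat_lit 207) (nat_lit 203) (nat_lit 190)))) (XT.nd (nat_lit 156) (nat_lit 76) (nat_lit 0) (XT.nd (nat_lit 78) (nat_lit 228) (nat_lit 0) (XT.lf (nat_lit 0) (nat_lit 4451979356) (nat_lit 228) (nat_lit 810350620) (nat_lit 76) (nat_lit 4551291257) (nat_lit 13) (nat_lit 5) (nat_lit 16) (nat_lit 5) (nat_lit 14) (nat_lit 5) (nat_lit 208) (nat_lit 203) (nat_lit 189)) (XT.lf (nat_lit 0) (nat_lit 3665070576) (nat_lit 228) (nat_lit 2539445853) (nat_lit 304) (nat_lit 4380243849) (nat_lit 10) (nat_lit 5) (nat_lit 13) (nat_lit 5) (nat_lit 14) (nat_lit 5) (nat_lit 209) (nat_lit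 203) (nat_lit 188))) (XT.nd (nat_lit 78) (nat_lit 76) (nat_lit 0) (XT.lf (nat_lit 0) (nat_lit 8169437534) (nat_lit 304) (nat_lit 2728078439) (nat_lit 76) (nat_lit 584182054) (nat_lit 10) (nat_lit 5) (nat_lit 14) (nat_lit 5) (nat_lit 11) (nat_lit 4) (nat_lit 210) (nat_lit 203) (nat_lit 187)) (XT.lf (nat_lit 0) (nat_lit 2031116717) (nat_lit 76) (nat_lit 8499200740) (nat_lit 152) (nat_lit 1969896203) (nat_lit 9) (nat_lit 5) (nat_lit 10) (nat_lit 5) (nat_lit 11) (nat_lit 4) (nat_lit 211) (nat_lit 203) (nat_lit 186))))) (XT.nd (nat_lit 312) (nat_lit 76) (nat_lit 0) (XT.nd (nat_lit 156) (nat_lit 152) (nat_lit 0) (XT.nd (nat_lit 78) (nat_lit 76) (nat_lit 0) (XT.lf (nat_lit 0) (nat_lit 7695236643) (nat_lit 76) (nat_lit 5597642833) (nat_lit 152) (nat_lit 373425357) (nat_lit 9) (nat_lit 5) (nat_lit 10) (nat_lit 5) (nat_lit 11) (nat_lit 4) (nat_lit 212) (nat_lit 203) (nat_lit 185)) (XT.lf (nat_lit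 0) (nat_lit 1244191773) (nat_lit 152) (nat_lit 969447672) (nat_lit 76) (nat_lit 12799264339) (nat_lit 8) (nat_lit 5) (nat_lit 10) (nat_lit 5) (nat_lit 9) (nat_lit 5) (nat_lit 213) (nat_lit 203) (nat_lit 184))) (XT.nd (nat_lit 78) (nat_lit 0) (nat_lit 0) (XT.lf (nat_lit 0) (nat_lit 3281422398) (nat_lit 228) (nat_lit 11494642385) (nat_lit 76) (nat_lit 1751749559) (nat_lit 6) (nat_lit 5) (nat_lit 9) (nat_lit 5) (nat_lit 7) (nat_lit 4) (nat_lit 214) (nat_lit 203) (nat_lit 183)) (XT.lf (nat_lit 0) (nat_lit 5711422645) (nat_lit 228) (nat_lit 6427596075) (nat_lit 76) (nat_lit 6118968902) (nat_lit 6) (nat_lit 5) (nat_lit 9) (nat_lit 5) (nat_lit 7) (nat_lit 4) (nat_lit 215) (nat_lit 203) (nat_lit 182)))) (XT.nd (nat_lit 156) (nat_lit 0) (nat_lit 0) (XT.nd (nat_lit 78) (nat_lit 76) (nat_lit 0) (XT.lf (nat_lit 0) (nat_lit 8443909732) (nat_lit 228) (nat_lit 689665550) (nat_lit 76) (nat_lit 11124373494)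 (nat_lit 6) (nat_lit 5) (nat_lit 9) (nat_lit 5) (nat_lit 7) (nat_lit 4) (nat_lit 216) (nat_lit 203) (nat_lit 181)) (XT.lf (nat_lit 0) (nat_lit 6401301138) (nat_lit 76) (nat_lit 5396108454) (nat_lit 152) (nat_lit 10729658257) (nat_lit 5) (nat_lit 5) (nat_lit 6) (nat_lit 5) (nat_lit 7) (nat_lit 4) (nat_lit 217) (nat_lit 203) (nat_lit 180))) (XT.nd (nat_lit 78) (nat_lit 0) (nat_lit 0) (XT.lf (nat_lit 0) (nat_lit 14559404941) (nat_lit 76) (nat_lit 1080624423) (nat_lit 152) (nat_lit 9499337006) (nat_lit 5) (nat_lit 5) (nat_lit 6) (nat_lit 5) (nat_lit 7) (nat_lit 4) (nat_lit 218) (nat_lit 203) (nat_lit 179)) (XT.lf (nat_lit 0) (nat_lit 20175488824) (nat_lit 152) (nat_lit 4433681513) (nat_lit 0) (nat_lit 3517503474) (nat_lit 5) (nat_lit 5) (nat_lit 7) (nat_lit 4) (nat_lit 5) (nat_lit 4) (nat_lit 219) (nat_lit 203) (nat_lit 178)))))) (XT.nd (nat_lit 624) (nat_lit 0) (nat_lit 0) (XT.nd (nat_lit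 312) (nat_lit 76) (nat_lit 0) (XT.nd (nat_lit 156) (nat_lit 76) (nat_lit 0) (XT.nd (nat_lit 78) (nat_lit 0) (nat_lit 0) (XT.lf (nat_lit 0) (nat_lit 2768087435) (nat_lit 76) (nat_lit 22750731575) (nat_lit 76) (nat_lit 6024674420) (nat_lit 4) (nat_lit 4) (nat_lit 5) (nat_lit 5) (nat_lit 5) (nat_lit 4) (nat_lit 220) (nat_lit 203) (nat_lit 177)) (XT.lf (nat_lit 0) (nat_lit 11489770360) (nat_lit 76) (nat_lit 20369709141) (nat_lit 76) (nat_lit 3584459113) (nat_lit 4) (nat_lit 4) (nat_lit 5) (nat_lit 5) (nat_lit 5) (nat_lit 4) (nat_lit 221) (nat_lit 203) (nat_lit 176))) (XT.nd (nat_lit 78) (nat_lit 76) (nat_lit 0) (XT.lf (nat_lit 0) (nat_lit 21468717281) (nat_lit 76) (nat_lit 17651278442) (nat_lit 76) (nat_lit 814556350) (nat_lit 4) (nat_lit 4) (nat_lit 5) (nat_lit 5) (nat_lit 5) (nat_lit 4) (nat_lit 222) (nat_lit 203) (nat_lit 175)) (XT.lf (nat_lit 0) (nat_lit 2130973400) (nat_lit 152)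 (nat_lit 12299887597) (nat_lit 76) (nat_lit 30657803272) (nat_lit 3) (nat_lit 5) (nat_lit 5) (nat_lit 5) (nat_lit 4) (nat_lit 4) (nat_lit 223) (nat_lit 203) (nat_lit 174)))) (XT.nd (nat_lit 156) (nat_lit 0) (nat_lit 0) (XT.nd (nat_lit 78) (nat_lit 76) (nat_lit 0) (XT.lf (nat_lit 0) (nat_lit 5409902269) (nat_lit 152) (nat_lit 5289110803) (nat_lit 76) (nat_lit 40315090120) (nat_lit 3) (nat_lit 5) (nat_lit 5) (nat_lit 5) (nat_lit 4) (nat_lit 4) (nat_lit 224) (nat_lit 203) (nat_lit 173)) (XT.lf (nat_lit 0) (nat_lit 3004909857) (nat_lit 76) (nat_lit 6278417704) (nat_lit 152) (nat_lit 48529869104) (nat_lit 2) (nat_lit 5) (nat_lit 3) (nat_lit 5) (nat_lit 4) (nat_lit 4) (nat_lit 225) (nat_lit 203) (nat_lit 172))) (XT.nd (nat_lit 78) (nat_lit 0) (nat_lit 0) (XT.lf (nat_lit 0) (nat_lit 13103198426) (nat_lit 76) (nat_lit 890695595) (nat_lit 152) (nat_lit 51600047357) (nat_lit 2) (nat_lit 5)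 (nat_lit 3) (nat_lit 5) (nat_lit 4) (nat_lit 4) (nat_lit 226) (nat_lit 203) (nat_lit 171)) (XT.lf (nat_lit 0) (nat_lit 19612526305) (nat_lit 152) (nat_lit 50077367197) (nat_lit 0) (nat_lit 4821861580) (nat_lit 2) (nat_lit 5) (nat_lit 4) (nat_lit 4) (nat_lit 2) (nat_lit 4) (nat_lit 227) (nat_lit 203) (nat_lit 170))))) (XT.nd (nat_lit 312) (nat_lit 0) (nat_lit 0) (XT.nd (nat_lit 156) (nat_lit 0) (nat_lit 0) (XT.nd (nat_lit 78) (nat_lit 0) (nat_lit 0) (XT.lf (nat_lit 0) (nat_lit 26100545301) (nat_lit 152) (nat_lit 47372332450) (nat_lit 0) (nat_lit 11290530321) (nat_lit 2) (nat_lit 5) (nat_lit 4) (nat_lit 4) (nat_lit 2) (nat_lit 4) (nat_lit 228) (nat_lit 203) (nat_lit 169)) (XT.lf (nat_lit 0) (nat_lit 33548008708) (nat_lit 152) (nat_lit 44285832313) (nat_lit 0) (nat_lit 18721167419) (nat_lit 2) (nat_lit 5) (nat_lit 4) (nat_lit 4) (nat_lit 2) (nat_lit 4) (nat_lit 229) (nat_lit 203) (nat_lit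 168))) (XT.nd (nat_lit 78) (nat_lit 0) (nat_lit 0) (XT.lf (nat_lit 0) (nat_lit 42100627765) (nat_lit 152) (nat_lit 40757478740) (nat_lit 0) (nat_lit 27259154903) (nat_lit 2) (nat_lit 5) (nat_lit 4) (nat_lit 4) (nat_lit 2) (nat_lit 4) (nat_lit 230) (nat_lit 203) (nat_lit 167)) (XT.lf (nat_lit 0) (nat_lit 51925736324) (nat_lit 152) (nat_lit 36718238726) (nat_lit 0) (nat_lit 37071540356) (nat_lit 2) (nat_lit 5) (nat_lit 4) (nat_lit 4) (nat_lit 2) (nat_lit 4) (nat_lit 231) (nat_lit 203) (nat_lit 166)))) (XT.nd (nat_lit 156) (nat_lit 0) (nat_lit 0) (XT.nd (nat_lit 78) (nat_lit 0) (nat_lit 0) (XT.lf (nat_lit 0) (nat_lit 63215564770) (nat_lit 152) (nat_lit 32089083662) (nat_lit 0) (nat_lit 48350305230) (nat_lit 2) (nat_lit 5) (nat_lit 4) (nat_lit 4) (nat_lit 2) (nat_lit 4) (nat_lit 232) (nat_lit 203) (nat_lit 165)) (XT.lf (nat_lit 0) (nat_lit 76191001050) (nat_lit 152) (nat_lit 26779443123)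 (nat_lit 0) (nat_lit 61316121014) (nat_lit 2) (nat_lit 5) (nat_lit 4) (nat_lit 4) (nat_lit 2) (nat_lit 4) (nat_lit 233) (nat_lit 203) (nat_lit 164))) (XT.nd (nat_lit 78) (nat_lit 0) (nat_lit 0) (XT.lf (nat_lit 0) (nat_lit 91105912397) (nat_lit 152) (nat_lit 20685432838) (nat_lit 0) (nat_lit 76222666711) (nat_lit 2) (nat_lit 5) (nat_lit 4) (nat_lit 4) (nat_lit 2) (nat_lit 4) (nat_lit 234) (nat_lit 203) (nat_lit 163)) (XT.lf (nat_lit 0) (nat_lit 108252112293) (nat_lit 152) (nat_lit 13687822170) (nat_lit 0) (nat_lit 93361592129) (nat_lit 2) (nat_lit 5) (nat_lit 4) (nat_lit 4) (nat_lit 2) (nat_lit 4) (nat_lit 235) (nat_lit 203) (nat_lit 162))))))) (XT.nd (nat_lit 1248) (nat_lit 0) (nat_lit 0) (XT.nd (nat_lit 624) (nat_lit 0) (nat_lit 0) (XT.nd (nat_lit 312) (nat_lit 0) (nat_lit 0) (XT.nd (nat_lit 156) (nat_lit 0) (nat_lit 0) (XT.nd (nat_lit 78) (nat_lit 76) (nat_lit 0) (XT.lf (nat_lit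 0) (nat_lit 127965069866) (nat_lit 152) (nat_lit 5649701346) (nat_lit 0) (nat_lit 113068224069) (nat_lit 2) (nat_lit 5) (nat_lit 4) (nat_lit 4) (nat_lit 2) (nat_lit 4) (nat_lit 236) (nat_lit 203) (nat_lit 161)) (XT.lf (nat_lit 0) (nat_lit 3936666488) (nat_lit 76) (nat_lit 146856815892) (nat_lit 76) (nat_lit 131954469546) (nat_lit 1) (nat_lit 4) (nat_lit 2) (nat_lit 5) (nat_lit 2) (nat_lit 4) (nat_lit 237) (nat_lit 203) (nat_lit 160))) (XT.nd (nat_lit 78) (nat_lit 0) (nat_lit 0) (XT.lf (nat_lit 0) (nat_lit 15588359429) (nat_lit 76) (nat_lit 161748897785) (nat_lit 76) (nat_lit 146841768351) (nat_lit 1) (nat_lit 4) (nat_lit 2) (nat_lit 5) (nat_lit 2) (nat_lit 4) (nat_lit 238) (nat_lit 203) (nat_lit 159)) (XT.lf (nat_lit 0) (nat_lit 28981215477) (nat_lit 76) (nat_lit 178877709007) (nat_lit 76) (nat_lit 163966420367) (nat_lit 1) (nat_lit 4) (nat_lit 2) (nat_lit 5) (nat_lit 2) (nat_lit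 4) (nat_lit 239) (nat_lit 203) (nat_lit 158)))) (XT.nd (nat_lit 156) (nat_lit 0) (nat_lit 0) (XT.nd (nat_lit 78) (nat_lit 0) (nat_lit 0) (XT.lf (nat_lit 0) (nat_lit 44377268772) (nat_lit 76) (nat_lit 198578378474) (nat_lit 76) (nat_lit 183663473133) (nat_lit 1) (nat_lit 4) (nat_lit 2) (nat_lit 5) (nat_lit 2) (nat_lit 4) (nat_lit 240) (nat_lit 203) (nat_lit 157)) (XT.lf (nat_lit 0) (nat_lit 62077746444) (nat_lit 76) (nat_lit 221236354068) (nat_lit 76) (nat_lit 206318303769) (nat_lit 1) (nat_lit 4) (nat_lit 2) (nat_lit 5) (nat_lit 2) (nat_lit 4) (nat_lit 241) (nat_lit 203) (nat_lit 156))) (XT.nd (nat_lit 78) (nat_lit 0) (nat_lit 0) (XT.lf (nat_lit 0) (nat_lit 82428962186) (nat_lit 76) (nat_lit 247294944005) (nat_lit 76) (nat_lit 232374158961) (nat_lit 1) (nat_lit 4) (nat_lit 2) (nat_lit 5) (nat_lit 2) (nat_lit 4) (nat_lit 242) (nat_lit 203) (nat_lit 155)) (XT.lf (nat_lit 0) (nat_lit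 105829091959) (nat_lit 76) (nat_lit 277263990263) (nat_lit 76) (nat_lit 262340827180) (nat_lit 1) (nat_lit 4) (nat_lit 2) (nat_lit 5) (nat_lit 2) (nat_lit 4) (nat_lit 243) (nat_lit 203) (nat_lit 154))))) (XT.nd (nat_lit 312) (nat_lit 0) (nat_lit 0) (XT.nd (nat_lit 156) (nat_lit 0) (nat_lit 0) (XT.nd (nat_lit 78) (nat_lit 0) (nat_lit 0) (XT.lf (nat_lit 0) (nat_lit 132735964389) (nat_lit 76) (nat_lit 311729843748) (nat_lit 76) (nat_lit 296804612804) (nat_lit 1) (nat_lit 4) (nat_lit 2) (nat_lit 5) (nat_lit 2) (nat_lit 4) (nat_lit 244) (nat_lit 203) (nat_lit 153)) (XT.lf (nat_lit 0) (nat_lit 163676018283) (nat_lit 76) (nat_lit 351366836375) (nat_lit 76) (nat_lit 336439807291) (nat_lit 1) (nat_lit 4) (nat_lit 2) (nat_lit 5) (nat_lit 2) (nat_lit 4) (nat_lit 245) (nat_lit 203) (nat_lit 152))) (XT.nd (nat_lit 78) (nat_lit 0) (nat_lit 0) (XT.lf (nat_lit 0) (nat_lit 199254602523) (nat_lit 76)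 (nat_lit 396950474521) (nat_lit 76) (nat_lit 382021881838) (nat_lit 1) (nat_lit 4) (nat_lit 2) (nat_lit 5) (nat_lit 2) (nat_lit 4) (nat_lit 246) (nat_lit 203) (nat_lit 151)) (XT.lf (nat_lit 0) (nat_lit 240167819843) (nat_lit 76) (nat_lit 449372611977) (nat_lit 76) (nat_lit 434442659642) (nat_lit 1) (nat_lit 4) (nat_lit 2) (nat_lit 5) (nat_lit 2) (nat_lit 4) (nat_lit 247) (nat_lit 203) (nat_lit 150)))) (XT.nd (nat_lit 156) (nat_lit 0) (nat_lit 0) (XT.nd (nat_lit 78) (nat_lit 0) (nat_lit 0) (XT.lf (nat_lit 0) (nat_lit 287216146235) (nat_lit 76) (nat_lit 509658899258) (nat_lit 76) (nat_lit 494727764617) (nat_lit 1) (nat_lit 4) (nat_lit 2) (nat_lit 5) (nat_lit 2) (nat_lit 4) (nat_lit 248) (nat_lit 203) (nat_lit 149)) (XT.lf (nat_lit 0) (nat_lit 341320092432) (nat_lit 76) (nat_lit 578988850681) (nat_lit 76) (nat_lit 564056687947) (nat_lit 1) (nat_lit 4) (nat_lit 2) (nat_lit 5) (nat_lit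 2) (nat_lit 4) (nat_lit 249) (nat_lit 203) (nat_lit 148))) (XT.nd (nat_lit 78) (nat_lit 0) (nat_lit 0) (XT.lf (nat_lit 0) (nat_lit 403538213904) (nat_lit 76) (nat_lit 658718921815) (nat_lit 76) (nat_lit 643785865088) (nat_lit 1) (nat_lit 4) (nat_lit 2) (nat_lit 5) (nat_lit 2) (nat_lit 4) (nat_lit 250) (nat_lit 203) (nat_lit 147)) (XT.lf (nat_lit 0) (nat_lit 475087821723) (nat_lit 76) (nat_lit 750409048837) (nat_lit 76) (nat_lit 735475214725) (nat_lit 1) (nat_lit 4) (nat_lit 2) (nat_lit 5) (nat_lit 2) (nat_lit 4) (nat_lit 251) (nat_lit 203) (nat_lit 146)))))) (XT.nd (nat_lit 624) (nat_lit 0) (nat_lit 0) (XT.nd (nat_lit 312) (nat_lit 0) (nat_lit 0) (XT.nd (nat_lit 156) (nat_lit 0) (nat_lit 0) (XT.nd (nat_lit 78) (nat_lit 0) (nat_lit 0) (XT.lf (nat_lit 0) (nat_lit 557368799519) (nat_lit 76) (nat_lit 855853169014) (nat_lit 76) (nat_lit 840918658914) (nat_lit 1) (nat_lit 4) (nat_lit 2)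 (nat_lit 5) (nat_lit 2) (nat_lit 4) (nat_lit 252) (nat_lit 203) (nat_lit 145)) (XT.lf (nat_lit 0) (nat_lit 651990992512) (nat_lit 76) (nat_lit 977114319479) (nat_lit 76) (nat_lit 962179221564) (nat_lit 1) (nat_lit 4) (nat_lit 2) (nat_lit 5) (nat_lit 2) (nat_lit 4) (nat_lit 253) (nat_lit 203) (nat_lit 144))) (XT.nd (nat_lit 78) (nat_lit 0) (nat_lit 0) (XT.lf (nat_lit 0) (nat_lit 760805704476) (nat_lit 76) (nat_lit 1116565001003) (nat_lit 76) (nat_lit 1101629391944) (nat_lit 1) (nat_lit 4) (nat_lit 2) (nat_lit 5) (nat_lit 2) (nat_lit 4) (nat_lit 254) (nat_lit 203) (nat_lit 143)) (XT.lf (nat_lit 0) (nat_lit 885941918906) (nat_lit 76) (nat_lit 1276933596485) (nat_lit 76) (nat_lit 1261997542954) (nat_lit 1) (nat_lit 4) (nat_lit 2) (nat_lit 5) (nat_lit 2) (nat_lit 4) (nat_lit 255) (nat_lit 203) (nat_lit 142)))) (XT.nd (nat_lit 156) (nat_lit 0) (nat_lit 0) (XT.nd (nat_lit 78) (nat_lit 0)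 (nat_lit 0) (XT.lf (nat_lit 0) (nat_lit 1029847953043) (nat_lit 76) (nat_lit 1461357752358) (nat_lit 76) (nat_lit 1446421312329) (nat_lit 1) (nat_lit 4) (nat_lit 2) (nat_lit 5) (nat_lit 2) (nat_lit 4) (nat_lit 256) (nat_lit 203) (nat_lit 141)) (XT.lf (nat_lit 0) (nat_lit 1195339359726) (nat_lit 76) (nat_lit 1673445767324) (nat_lit 76) (nat_lit 1658508991210) (nat_lit 1) (nat_lit 4) (nat_lit 2) (nat_lit 5) (nat_lit 2) (nat_lit 4) (nat_lit 257) (nat_lit 203) (nat_lit 140))) (XT.nd (nat_lit 78) (nat_lit 0) (nat_lit 0) (XT.lf (nat_lit 0) (nat_lit 1385654014305) (nat_lit 76) (nat_lit 1917347189503) (nat_lit 76) (nat_lit 1902410121141) (nat_lit 1) (nat_lit 4) (nat_lit 2) (nat_lit 5) (nat_lit 2) (nat_lit 4) (nat_lit 258) (nat_lit 203) (nat_lit 139)) (XT.lf (nat_lit 0) (nat_lit 1604515464369) (nat_lit 76) (nat_lit 2197834003241) (nat_lit 76) (nat_lit 2182896680750) (nat_lit 1) (nat_lit 4)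 (nat_lit 2) (nat_lit 5) (nat_lit 2) (nat_lit 4) (nat_lit 259) (nat_lit 203) (nat_lit 138))))) (XT.nd (nat_lit 312) (nat_lit 0) (nat_lit 0) (XT.nd (nat_lit 156) (nat_lit 0) (nat_lit 0) (XT.nd (nat_lit 78) (nat_lit 0) (nat_lit 0) (XT.lf (nat_lit 0) (nat_lit 1856205781767) (nat_lit 76) (nat_lit 2520393994024) (nat_lit 76) (nat_lit 2505456450552) (nat_lit 1) (nat_lit 4) (nat_lit 2) (nat_lit 5) (nat_lit 2) (nat_lit 4) (nat_lit 260) (nat_lit 203) (nat_lit 137)) (XT.lf (nat_lit 0) (nat_lit 2145649342274) (nat_lit 76) (nat_lit 2891338118193) (nat_lit 76) (nat_lit 2876400382564) (nat_lit 1) (nat_lit 4) (nat_lit 2) (nat_lit 5) (nat_lit 2) (nat_lit 4) (nat_lit 261) (nat_lit 203) (nat_lit 136))) (XT.nd (nat_lit 78) (nat_lit 0) (nat_lit 0) (XT.lf (nat_lit 0) (nat_lit 2478509172074) (nat_lit 76) (nat_lit 3317923978179) (nat_lit 76) (nat_lit 3302986075456) (nat_lit 1) (nat_lit 4) (nat_lit 2) (nat_lit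 5) (nat_lit 2) (nat_lit 4) (nat_lit 262) (nat_lit 203) (nat_lit 135)) (XT.lf (nat_lit 0) (nat_lit 2861297746099) (nat_lit 76) (nat_lit 3808497819068) (nat_lit 76) (nat_lit 3793559771046) (nat_lit 1) (nat_lit 4) (nat_lit 2) (nat_lit 5) (nat_lit 2) (nat_lit 4) (nat_lit 263) (nat_lit 203) (nat_lit 134)))) (XT.nd (nat_lit 156) (nat_lit 0) (nat_lit 0) (XT.nd (nat_lit 78) (nat_lit 0) (nat_lit 0) (XT.lf (nat_lit 0) (nat_lit 3301504406013) (nat_lit 76) (nat_lit 4372657824703) (nat_lit 76) (nat_lit 4357719650334) (nat_lit 1) (nat_lit 4) (nat_lit 2) (nat_lit 5) (nat_lit 2) (nat_lit 4) (nat_lit 264) (nat_lit 203) (nat_lit 133)) (XT.lf (nat_lit 0) (nat_lit 3807741890815) (nat_lit 76) (nat_lit 5021441908238) (nat_lit 76) (nat_lit 5006503624002) (nat_lit 1) (nat_lit 4) (nat_lit 2) (nat_lit 5) (nat_lit 2) (nat_lit 4) (nat_lit 265) (nat_lit 203) (nat_lit 132))) (XT.nd (nat_lit 78) (nat_lit 0) (nat_lit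 0) (XT.lf (nat_lit 0) (nat_lit 4389914846946) (nat_lit 76) (nat_lit 5767543671307) (nat_lit 76) (nat_lit 5752605291534) (nat_lit 1) (nat_lit 4) (nat_lit 2) (nat_lit 5) (nat_lit 2) (nat_lit 4) (nat_lit 266) (nat_lit 203) (nat_lit 131)) (XT.lf (nat_lit 0) (nat_lit 5059413614854) (nat_lit 76) (nat_lit 6625560757101) (nat_lit 76) (nat_lit 6610622294253) (nat_lit 1) (nat_lit 4) (nat_lit 2) (nat_lit 5) (nat_lit 2) (nat_lit 4) (nat_lit 267) (nat_lit 203) (nat_lit 130))))))))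
noncomputable def xc31 : XT := (XT.nd (nat_lit 27924) (nat_lit 0) (nat_lit 0) (XT.nd (nat_lit 26676) (nat_lit 0) (nat_lit 152) (XT.nd (nat_lit 624) (nat_lit 0) (nat_lit 0) (XT.nd (nat_lit 312) (nat_lit 0) (nat_lit 0) (XT.nd (nat_lit 156) (nat_lit 0) (nat_lit 0) (XT.nd (nat_lit 78) (nat_lit 0) (nat_lit 0) (XT.lf (nat_lit 0) (nat_lit 5829337083475) (nat_lit 76) (nat_lit 7612280456429) (nat_lit 76) (nat_lit 7597341921342) (nat_lit 1) (nat_lit 4) (nat_lit 2) (nat_lit 5) (nat_lit 2) (nat_lit 4) (nat_lit 268) (nat_lit 203) (nat_lit 129)) (XT.lf (nat_lit 0) (nat_lit 6714748972847) (nat_lit 76) (nat_lit 8747008154712) (nat_lit 76) (nat_lit 8732069556809) (nat_lit 1) (nat_lit 4) (nat_lit 2) (nat_lit 5) (nat_lit 2) (nat_lit 4) (nat_lit 269) (nat_lit 203) (nat_lit 128))) (XT.nd (nat_lit 78) (nat_lit 0) (nat_lit 0) (XT.lf (nat_lit 0) (nat_lit 7732972559067) (nat_lit 76) (nat_lit 10051945046048)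 (nat_lit 76) (nat_lit 10037006393521) (nat_lit 1) (nat_lit 4) (nat_lit 2) (nat_lit 5) (nat_lit 2) (nat_lit 4) (nat_lit 270) (nat_lit 203) (nat_lit 127)) (XT.lf (nat_lit 0) (nat_lit 8903929607952) (nat_lit 76) (nat_lit 11552622504397) (nat_lit 76) (nat_lit 11537683804372) (nat_lit 1) (nat_lit 4) (nat_lit 2) (nat_lit 5) (nat_lit 2) (nat_lit 4) (nat_lit 271) (nat_lit 203) (nat_lit 126)))) (XT.nd (nat_lit 156) (nat_lit 0) (nat_lit 0) (XT.nd (nat_lit 78) (nat_lit 0) (nat_lit 0) (XT.lf (nat_lit 0) (nat_lit 10250530148720) (nat_lit 76) (nat_lit 13278401610466) (nat_lit 76) (nat_lit 13263462869138) (nat_lit 1) (nat_lit 4) (nat_lit 2) (nat_lit 5) (nat_lit 2) (nat_lit 4) (nat_lit 272) (nat_lit 203) (nat_lit 125)) (XT.lf (nat_lit 0) (nat_lit 11799120713689) (nat_lit 76) (nat_lit 15263047607635) (nat_lit 76) (nat_lit 15248108830391) (nat_lit 1) (nat_lit 4) (nat_lit 2) (nat_lit 5) (nat_lit 2)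 (nat_lit 4) (nat_lit 273) (nat_lit 203) (nat_lit 124))) (XT.nd (nat_lit 78) (nat_lit 0) (nat_lit 0) (XT.lf (nat_lit 0) (nat_lit 13579999813914) (nat_lit 76) (nat_lit 17545390526283) (nat_lit 76) (nat_lit 17530451717808) (nat_lit 1) (nat_lit 4) (nat_lit 2) (nat_lit 5) (nat_lit 2) (nat_lit 4) (nat_lit 274) (nat_lit 203) (nat_lit 123)) (XT.lf (nat_lit 0) (nat_lit 15628010736138) (nat_lit 76) (nat_lit 20170084901775) (nat_lit 76) (nat_lit 20155146066142) (nat_lit 1) (nat_lit 4) (nat_lit 2) (nat_lit 5) (nat_lit 2) (nat_lit 4) (nat_lit 275) (nat_lit 203) (nat_lit 122))))) (XT.nd (nat_lit 25740) (nat_lit 0) (nat_lit 836) (XT.nd (nat_lit 156) (nat_lit 0) (nat_lit 0) (XT.nd (nat_lit 78) (nat_lit 0) (nat_lit 0) (XT.lf (nat_lit 0) (nat_lit 17983223259275) (nat_lit 76) (nat_lit 23188483450153) (nat_lit 76) (nat_lit 23173544590905) (nat_lit 1) (nat_lit 4) (nat_lit 2) (nat_lit 5) (nat_lit 2) (nat_lit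 4) (nat_lit 276) (nat_lit 203) (nat_lit 121)) (XT.lf (nat_lit 0) (nat_lit 20691717628341) (nat_lit 76) (nat_lit 26659641795189) (nat_lit 76) (nat_lit 26644702915407) (nat_lit 1) (nat_lit 4) (nat_lit 2) (nat_lit 5) (nat_lit 2) (nat_lit 4) (nat_lit 277) (nat_lit 203) (nat_lit 120))) (XT.nd (nat_lit 25506) (nat_lit 0) (nat_lit 836) (XT.lf (nat_lit 0) (nat_lit 23806486124472) (nat_lit 76) (nat_lit 30651473904505) (nat_lit 76) (nat_lit 30636535006867) (nat_lit 1) (nat_lit 4) (nat_lit 2) (nat_lit 5) (nat_lit 2) (nat_lit 4) (nat_lit 278) (nat_lit 203) (nat_lit 119)) (XT.lf (nat_lit 0) (nat_lit 19840629) (nat_lit 0) (nat_lit 19840629) (nat_lit 228) (nat_lit 3983515036) (nat_lit 12) (nat_lit 5) (nat_lit 12) (nat_lit 3) (nat_lit 15) (nat_lit 3) (nat_lit 204) (nat_lit 204) (nat_lit 192)))) (XT.nd (nat_lit 156) (nat_lit 0) (nat_lit 0) (XT.nd (nat_lit 78) (nat_lit 0) (nat_lit 0) (XT.lf (nat_lit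 0) (nat_lit 1164251733) (nat_lit 228) (nat_lit 5071057914) (nat_lit 304) (nat_lit 2230911847) (nat_lit 12) (nat_lit 5) (nat_lit 15) (nat_lit 3) (nat_lit 16) (nat_lit 5) (nat_lit 205) (nat_lit 204) (nat_lit 191)) (XT.lf (nat_lit 0) (nat_lit 2243314195) (nat_lit 228) (nat_lit 1817567656) (nat_lit 304) (nat_lit 4917310253) (nat_lit 12) (nat_lit 5) (nat_lit 15) (nat_lit 3) (nat_lit 16) (nat_lit 5) (nat_lit 206) (nat_lit 204) (nat_lit 190))) (XT.nd (nat_lit 78) (nat_lit 0) (nat_lit 76) (XT.lf (nat_lit 76) (nat_lit 1996829360) (nat_lit 0) (nat_lit 1421873965) (nat_lit 304) (nat_lit 6161461713) (nat_lit 13) (nat_lit 5) (nat_lit 12) (nat_lit 5) (nat_lit 16) (nat_lit 5) (nat_lit 207) (nat_lit 204) (nat_lit 189)) (XT.lf (nat_lit 0) (nat_lit 4805057023) (nat_lit 228) (nat_lit 3866215615) (nat_lit 76) (nat_lit 1598899217) (nat_lit 13) (nat_lit 5) (nat_lit 16) (nat_lit 5) (nat_lit 14) (nat_lit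 5) (nat_lit 208) (nat_lit 204) (nat_lit 188)))))) (XT.nd (nat_lit 624) (nat_lit 228) (nat_lit 0) (XT.nd (nat_lit 312) (nat_lit 228) (nat_lit 0) (XT.nd (nat_lit 156) (nat_lit 76) (nat_lit 0) (XT.nd (nat_lit 78) (nat_lit 0) (nat_lit 0) (XT.lf (nat_lit 0) (nat_lit 255345190) (nat_lit 228) (nat_lit 6107806650) (nat_lit 304) (nat_lit 4708513011) (nat_lit 10) (nat_lit 5) (nat_lit 13) (nat_lit 5) (nat_lit 14) (nat_lit 5) (nat_lit 209) (nat_lit 204) (nat_lit 187)) (XT.lf (nat_lit 0) (nat_lit 5326414436) (nat_lit 228) (nat_lit 2926809735) (nat_lit 304) (nat_lit 3727638451) (nat_lit 10) (nat_lit 5) (nat_lit 13) (nat_lit 5) (nat_lit 14) (nat_lit 5) (nat_lit 210) (nat_lit 204) (nat_lit 186))) (XT.nd (nat_lit 78) (nat_lit 76) (nat_lit 0) (XT.lf (nat_lit 0) (nat_lit 10366821269) (nat_lit 304) (nat_lit 2003845050) (nat_lit 76) (nat_lit 666702365) (nat_lit 10) (nat_lit 5) (nat_lit 14) (nat_lit 5)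 (nat_lit 11) (nat_lit 4) (nat_lit 211) (nat_lit 204) (nat_lit 185)) (XT.lf (nat_lit 0) (nat_lit 3417709146) (nat_lit 76) (nat_lit 9582145790) (nat_lit 152) (nat_lit 1223815049) (nat_lit 9) (nat_lit 5) (nat_lit 10) (nat_lit 5) (nat_lit 11) (nat_lit 4) (nat_lit 212) (nat_lit 204) (nat_lit 184)))) (XT.nd (nat_lit 156) (nat_lit 152) (nat_lit 0) (XT.nd (nat_lit 78) (nat_lit 0) (nat_lit 0) (XT.lf (nat_lit 0) (nat_lit 433869189) (nat_lit 152) (nat_lit 5813840489) (nat_lit 76) (nat_lit 9333777703) (nat_lit 8) (nat_lit 5) (nat_lit 10) (nat_lit 5) (nat_lit 9) (nat_lit 5) (nat_lit 213) (nat_lit 204) (nat_lit 183)) (XT.lf (nat_lit 0) (nat_lit 2148278545) (nat_lit 152) (nat_lit 214772849) (nat_lit 76) (nat_lit 14782283174) (nat_lit 8) (nat_lit 5) (nat_lit 10) (nat_lit 5) (nat_lit 9) (nat_lit 5) (nat_lit 214) (nat_lit 204) (nat_lit 182))) (XT.nd (nat_lit 78) (nat_lit 0) (nat_lit 0) (XT.lf (nat_lit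 0) (nat_lit 4441359247) (nat_lit 228) (nat_lit 12258676528) (nat_lit 76) (nat_lit 2196456472) (nat_lit 6) (nat_lit 5) (nat_lit 9) (nat_lit 5) (nat_lit 7) (nat_lit 4) (nat_lit 215) (nat_lit 204) (nat_lit 181)) (XT.lf (nat_lit 0) (nat_lit 7148765162) (nat_lit 228) (nat_lit 6556811821) (nat_lit 76) (nat_lit 7195026828) (nat_lit 6) (nat_lit 5) (nat_lit 9) (nat_lit 5) (nat_lit 7) (nat_lit 4) (nat_lit 216) (nat_lit 204) (nat_lit 180))))) (XT.nd (nat_lit 312) (nat_lit 152) (nat_lit 0) (XT.nd (nat_lit 156) (nat_lit 0) (nat_lit 0) (XT.nd (nat_lit 78) (nat_lit 76) (nat_lit 0) (XT.lf (nat_lit 0) (nat_lit 10215391079) (nat_lit 228) (nat_lit 67094805) (nat_lit 76) (nat_lit 12930605684) (nat_lit 6) (nat_lit 5) (nat_lit 9) (nat_lit 5) (nat_lit 7) (nat_lit 4) (nat_lit 217) (nat_lit 204) (nat_lit 179)) (XT.lf (nat_lit 0) (nat_lit 8054515951) (nat_lit 76) (nat_lit 5980240577) (nat_lit 152) (nat_lit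 11794415267) (nat_lit 5) (nat_lit 5) (nat_lit 6) (nat_lit 5) (nat_lit 7) (nat_lit 4) (nat_lit 218) (nat_lit 204) (nat_lit 178))) (XT.nd (nat_lit 78) (nat_lit 0) (nat_lit 0) (XT.lf (nat_lit 0) (nat_lit 17345941458) (nat_lit 76) (nat_lit 1046818830) (nat_lit 152) (nat_lit 10450592575) (nat_lit 5) (nat_lit 5) (nat_lit 6) (nat_lit 5) (nat_lit 7) (nat_lit 4) (nat_lit 219) (nat_lit 204) (nat_lit 177)) (XT.lf (nat_lit 0) (nat_lit 23562541096) (nat_lit 152) (nat_lit 4523575073) (nat_lit 0) (nat_lit 4200310691) (nat_lit 5) (nat_lit 5) (nat_lit 7) (nat_lit 4) (nat_lit 5) (nat_lit 4) (nat_lit 220) (nat_lit 204) (nat_lit 176)))) (XT.nd (nat_lit 156) (nat_lit 76) (nat_lit 0) (XT.nd (nat_lit 78) (nat_lit 0) (nat_lit 0) (XT.lf (nat_lit 0) (nat_lit 3732315642) (nat_lit 76) (nat_lit 25950737110) (nat_lit 76) (nat_lit 6537034640) (nat_lit 4) (nat_lit 4) (nat_lit 5) (nat_lit 5) (nat_lit 5) (nat_lit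 4) (nat_lit 221) (nat_lit 204) (nat_lit 175)) (XT.lf (nat_lit 0) (nat_lit 13690640341) (nat_lit 76) (nat_lit 23240292294) (nat_lit 76) (nat_lit 3781831508) (nat_lit 4) (nat_lit 4) (nat_lit 5) (nat_lit 5) (nat_lit 5) (nat_lit 4) (nat_lit 222) (nat_lit 204) (nat_lit 174))) (XT.nd (nat_lit 78) (nat_lit 76) (nat_lit 0) (XT.lf (nat_lit 0) (nat_lit 25104159158) (nat_lit 76) (nat_lit 20138210888) (nat_lit 76) (nat_lit 640829827) (nat_lit 4) (nat_lit 4) (nat_lit 5) (nat_lit 5) (nat_lit 5) (nat_lit 4) (nat_lit 223) (nat_lit 204) (nat_lit 173)) (XT.lf (nat_lit 0) (nat_lit 2685024648) (nat_lit 152) (nat_lit 13758421784) (nat_lit 76) (nat_lit 35370801859) (nat_lit 3) (nat_lit 5) (nat_lit 5) (nat_lit 5) (nat_lit 4) (nat_lit 4) (nat_lit 224) (nat_lit 204) (nat_lit 172))))))) (XT.nd (nat_lit 1248) (nat_lit 0) (nat_lit 0) (XT.nd (nat_lit 624) (nat_lit 76) (nat_lit 0) (XT.nd (nat_lit 312) (nat_lit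 0) (nat_lit 0) (XT.nd (nat_lit 156) (nat_lit 0) (nat_lit 0) (XT.nd (nat_lit 78) (nat_lit 76) (nat_lit 0) (XT.lf (nat_lit 0) (nat_lit 6425218251) (nat_lit 152) (nat_lit 5746434856) (nat_lit 76) (nat_lit 46461769374) (nat_lit 3) (nat_lit 5) (nat_lit 5) (nat_lit 5) (nat_lit 4) (nat_lit 4) (nat_lit 225) (nat_lit 204) (nat_lit 171)) (XT.lf (nat_lit 0) (nat_lit 3776414241) (nat_lit 76) (nat_lit 7089938806) (nat_lit 152) (nat_lit 55588312345) (nat_lit 2) (nat_lit 5) (nat_lit 3) (nat_lit 5) (nat_lit 4) (nat_lit 4) (nat_lit 226) (nat_lit 204) (nat_lit 170))) (XT.nd (nat_lit 78) (nat_lit 0) (nat_lit 0) (XT.lf (nat_lit 0) (nat_lit 15347606803) (nat_lit 76) (nat_lit 911046409) (nat_lit 152) (nat_lit 59147848265) (nat_lit 2) (nat_lit 5) (nat_lit 3) (nat_lit 5) (nat_lit 4) (nat_lit 4) (nat_lit 227) (nat_lit 204) (nat_lit 169)) (XT.lf (nat_lit 0) (nat_lit 22702548446) (nat_lit 152) (nat_lit 57327433030)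 (nat_lit 0) (nat_lit 5634854655) (nat_lit 2) (nat_lit 5) (nat_lit 4) (nat_lit 4) (nat_lit 2) (nat_lit 4) (nat_lit 228) (nat_lit 204) (nat_lit 168)))) (XT.nd (nat_lit 156) (nat_lit 0) (nat_lit 0) (XT.nd (nat_lit 78) (nat_lit 0) (nat_lit 0) (XT.lf (nat_lit 0) (nat_lit 30144447266) (nat_lit 152) (nat_lit 54250756886) (nat_lit 0) (nat_lit 13062121902) (nat_lit 2) (nat_lit 5) (nat_lit 4) (nat_lit 4) (nat_lit 2) (nat_lit 4) (nat_lit 229) (nat_lit 204) (nat_lit 167)) (XT.lf (nat_lit 0) (nat_lit 38692227553) (nat_lit 152) (nat_lit 50730945915) (nat_lit 0) (nat_lit 21597179082) (nat_lit 2) (nat_lit 5) (nat_lit 4) (nat_lit 4) (nat_lit 2) (nat_lit 4) (nat_lit 230) (nat_lit 204) (nat_lit 166))) (XT.nd (nat_lit 78) (nat_lit 0) (nat_lit 0) (XT.lf (nat_lit 0) (nat_lit 48513128485) (nat_lit 152) (nat_lit 46699134251) (nat_lit 0) (nat_lit 31407016443) (nat_lit 2) (nat_lit 5) (nat_lit 4) (nat_lit 4)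 (nat_lit 2) (nat_lit 4) (nat_lit 231) (nat_lit 204) (nat_lit 165)) (XT.lf (nat_lit 0) (nat_lit 59799298126) (nat_lit 152) (nat_lit 42076438622) (nat_lit 0) (nat_lit 42683565587) (nat_lit 2) (nat_lit 5) (nat_lit 4) (nat_lit 4) (nat_lit 2) (nat_lit 4) (nat_lit 232) (nat_lit 204) (nat_lit 164))))) (XT.nd (nat_lit 312) (nat_lit 76) (nat_lit 0) (XT.nd (nat_lit 156) (nat_lit 0) (nat_lit 0) (XT.nd (nat_lit 78) (nat_lit 0) (nat_lit 0) (XT.lf (nat_lit 0) (nat_lit 72771552836) (nat_lit 152) (nat_lit 36772414983) (nat_lit 0) (nat_lit 55647454648) (nat_lit 2) (nat_lit 5) (nat_lit 4) (nat_lit 4) (nat_lit 2) (nat_lit 4) (nat_lit 233) (nat_lit 204) (nat_lit 163)) (XT.lf (nat_lit 0) (nat_lit 87683697600) (nat_lit 152) (nat_lit 30683288958) (nat_lit 0) (nat_lit 70552324934) (nat_lit 2) (nat_lit 5) (nat_lit 4) (nat_lit 4) (nat_lit 2) (nat_lit 4) (nat_lit 234) (nat_lit 204) (nat_lit 162))) (XT.nd (nat_lit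 78) (nat_lit 0) (nat_lit 0) (XT.lf (nat_lit 0) (nat_lit 104827491771) (nat_lit 152) (nat_lit 23689925474) (nat_lit 0) (nat_lit 87689793472) (nat_lit 2) (nat_lit 5) (nat_lit 4) (nat_lit 4) (nat_lit 2) (nat_lit 4) (nat_lit 235) (nat_lit 204) (nat_lit 161)) (XT.lf (nat_lit 0) (nat_lit 124538357410) (nat_lit 152) (nat_lit 15655497852) (nat_lit 0) (nat_lit 107395158561) (nat_lit 2) (nat_lit 5) (nat_lit 4) (nat_lit 4) (nat_lit 2) (nat_lit 4) (nat_lit 236) (nat_lit 204) (nat_lit 160)))) (XT.nd (nat_lit 156) (nat_lit 0) (nat_lit 0) (XT.nd (nat_lit 78) (nat_lit 76) (nat_lit 0) (XT.lf (nat_lit 0) (nat_lit 147201941888) (nat_lit 152) (nat_lit 6422810771) (nat_lit 0) (nat_lit 130053959951) (nat_lit 2) (nat_lit 5) (nat_lit 4) (nat_lit 4) (nat_lit 2) (nat_lit 4) (nat_lit 237) (nat_lit 204) (nat_lit 159)) (XT.lf (nat_lit 0) (nat_lit 4598132885) (nat_lit 76) (nat_lit 168853929153) (nat_lit 76) (nat_lit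 151701788011) (nat_lit 1) (nat_lit 4) (nat_lit 2) (nat_lit 5) (nat_lit 2) (nat_lit 4) (nat_lit 238) (nat_lit 204) (nat_lit 158))) (XT.nd (nat_lit 78) (nat_lit 0) (nat_lit 0) (XT.lf (nat_lit 0) (nat_lit 17988323277) (nat_lit 76) (nat_lit 185983920172) (nat_lit 76) (nat_lit 168828162328) (nat_lit 1) (nat_lit 4) (nat_lit 2) (nat_lit 5) (nat_lit 2) (nat_lit 4) (nat_lit 239) (nat_lit 204) (nat_lit 157)) (XT.lf (nat_lit 0) (nat_lit 33382058610) (nat_lit 76) (nat_lit 205685615549) (nat_lit 76) (nat_lit 188526712748) (nat_lit 1) (nat_lit 4) (nat_lit 2) (nat_lit 5) (nat_lit 2) (nat_lit 4) (nat_lit 240) (nat_lit 204) (nat_lit 156)))))) (XT.nd (nat_lit 624) (nat_lit 0) (nat_lit 0) (XT.nd (nat_lit 312) (nat_lit 0) (nat_lit 0) (XT.nd (nat_lit 156) (nat_lit 0) (nat_lit 0) (XT.nd (nat_lit 78) (nat_lit 0) (nat_lit 0) (XT.lf (nat_lit 0) (nat_lit 51080520663) (nat_lit 76) (nat_lit 228344483237) (nat_lit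 76) (nat_lit 211182845691) (nat_lit 1) (nat_lit 4) (nat_lit 2) (nat_lit 5) (nat_lit 2) (nat_lit 4) (nat_lit 241) (nat_lit 204) (nat_lit 155)) (XT.lf (nat_lit 0) (nat_lit 71429983694) (nat_lit 76) (nat_lit 254403848910) (nat_lit 76) (nat_lit 237239833324) (nat_lit 1) (nat_lit 4) (nat_lit 2) (nat_lit 5) (nat_lit 2) (nat_lit 4) (nat_lit 242) (nat_lit 204) (nat_lit 154))) (XT.nd (nat_lit 78) (nat_lit 0) (nat_lit 0) (XT.lf (nat_lit 0) (nat_lit 94828589369) (nat_lit 76) (nat_lit 284373569721) (nat_lit 76) (nat_lit 267207486274) (nat_lit 1) (nat_lit 4) (nat_lit 2) (nat_lit 5) (nat_lit 2) (nat_lit 4) (nat_lit 243) (nat_lit 204) (nat_lit 153)) (XT.lf (nat_lit 0) (nat_lit 121734136496) (nat_lit 76) (nat_lit 318840009772) (nat_lit 76) (nat_lit 301672128186) (nat_lit 1) (nat_lit 4) (nat_lit 2) (nat_lit 5) (nat_lit 2) (nat_lit 4) (nat_lit 244) (nat_lit 204) (nat_lit 152)))) (XT.nd (nat_lit 156)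 (nat_lit 0) (nat_lit 0) (XT.nd (nat_lit 78) (nat_lit 0) (nat_lit 0) (XT.lf (nat_lit 0) (nat_lit 152673037954) (nat_lit 76) (nat_lit 358477512458) (nat_lit 76) (nat_lit 341308067272) (nat_lit 1) (nat_lit 4) (nat_lit 2) (nat_lit 5) (nat_lit 2) (nat_lit 4) (nat_lit 245) (nat_lit 204) (nat_lit 151)) (XT.lf (nat_lit 0) (nat_lit 188250620075) (nat_lit 76) (nat_lit 404061594133) (nat_lit 76) (nat_lit 386890789295) (nat_lit 1) (nat_lit 4) (nat_lit 2) (nat_lit 5) (nat_lit 2) (nat_lit 4) (nat_lit 246) (nat_lit 204) (nat_lit 150))) (XT.nd (nat_lit 78) (nat_lit 0) (nat_lit 0) (XT.lf (nat_lit 0) (nat_lit 229162965988) (nat_lit 76) (nat_lit 456484117267) (nat_lit 76) (nat_lit 439312130123) (nat_lit 1) (nat_lit 4) (nat_lit 2) (nat_lit 5) (nat_lit 2) (nat_lit 4) (nat_lit 247) (nat_lit 204) (nat_lit 149)) (XT.lf (nat_lit 0) (nat_lit 276210534634) (nat_lit 76) (nat_lit 516770739919) (nat_lit 76) (nat_lit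 499597724683) (nat_lit 1) (nat_lit 4) (nat_lit 2) (nat_lit 5) (nat_lit 2) (nat_lit 4) (nat_lit 248) (nat_lit 204) (nat_lit 148))))) (XT.nd (nat_lit 312) (nat_lit 0) (nat_lit 0) (XT.nd (nat_lit 156) (nat_lit 0) (nat_lit 0) (XT.nd (nat_lit 78) (nat_lit 0) (nat_lit 0) (XT.lf (nat_lit 0) (nat_lit 330313821922) (nat_lit 76) (nat_lit 586100982969) (nat_lit 76) (nat_lit 568927073740) (nat_lit 1) (nat_lit 4) (nat_lit 2) (nat_lit 5) (nat_lit 2) (nat_lit 4) (nat_lit 249) (nat_lit 204) (nat_lit 147)) (XT.lf (nat_lit 0) (nat_lit 392531370429) (nat_lit 76) (nat_lit 665831307693) (nat_lit 76) (nat_lit 648656621078) (nat_lit 1) (nat_lit 4) (nat_lit 2) (nat_lit 5) (nat_lit 2) (nat_lit 4) (nat_lit 250) (nat_lit 204) (nat_lit 146))) (XT.nd (nat_lit 78) (nat_lit 0) (nat_lit 0) (XT.lf (nat_lit 0) (nat_lit 464080480018) (nat_lit 76) (nat_lit 757521655227) (nat_lit 76) (nat_lit 740346292625) (nat_lit 1)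 (nat_lit 4) (nat_lit 2) (nat_lit 5) (nat_lit 2) (nat_lit 4) (nat_lit 251) (nat_lit 204) (nat_lit 145)) (XT.lf (nat_lit 0) (nat_lit 546361024571) (nat_lit 76) (nat_lit 862965967154) (nat_lit 76) (nat_lit 845790016737) (nat_lit 1) (nat_lit 4) (nat_lit 2) (nat_lit 5) (nat_lit 2) (nat_lit 4) (nat_lit 252) (nat_lit 204) (nat_lit 144)))) (XT.nd (nat_lit 156) (nat_lit 0) (nat_lit 0) (XT.nd (nat_lit 78) (nat_lit 0) (nat_lit 0) (XT.lf (nat_lit 0) (nat_lit 640982840829) (nat_lit 76) (nat_lit 984227284358) (nat_lit 76) (nat_lit 967050822797) (nat_lit 1) (nat_lit 4) (nat_lit 2) (nat_lit 5) (nat_lit 2) (nat_lit 4) (nat_lit 253) (nat_lit 204) (nat_lit 143)) (XT.lf (nat_lit 0) (nat_lit 749797225199) (nat_lit 76) (nat_lit 1123678110872) (nat_lit 76) (nat_lit 1106501204839) (nat_lit 1) (nat_lit 4) (nat_lit 2) (nat_lit 5) (nat_lit 2) (nat_lit 4) (nat_lit 254) (nat_lit 204) (nat_lit 142))) (XT.nd (nat_lit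 78) (nat_lit 0) (nat_lit 0) (XT.lf (nat_lit 0) (nat_lit 874933154765) (nat_lit 76) (nat_lit 1284046832433) (nat_lit 76) (nat_lit 1266869539902) (nat_lit 1) (nat_lit 4) (nat_lit 2) (nat_lit 5) (nat_lit 2) (nat_lit 4) (nat_lit 255) (nat_lit 204) (nat_lit 141)) (XT.lf (nat_lit 0) (nat_lit 1018838941193) (nat_lit 76) (nat_lit 1468471097939) (nat_lit 76) (nat_lit 1451293469323) (nat_lit 1) (nat_lit 4) (nat_lit 2) (nat_lit 5) (nat_lit 2) (nat_lit 4) (nat_lit 256) (nat_lit 204) (nat_lit 140))))))))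
noncomputable def xc32 : XT := (XT.nd (nat_lit 1248) (nat_lit 0) (nat_lit 0) (XT.nd (nat_lit 624) (nat_lit 0) (nat_lit 0) (XT.nd (nat_lit 312) (nat_lit 0) (nat_lit 0) (XT.nd (nat_lit 156) (nat_lit 0) (nat_lit 0) (XT.nd (nat_lit 78) (nat_lit 0) (nat_lit 0) (XT.lf (nat_lit 0) (nat_lit 1184330132477) (nat_lit 76) (nat_lit 1680559208239) (nat_lit 76) (nat_lit 1663381287375) (nat_lit 1) (nat_lit 4) (nat_lit 2) (nat_lit 5) (nat_lit 2) (nat_lit 4) (nat_lit 257) (nat_lit 204) (nat_lit 139)) (XT.lf (nat_lit 0) (nat_lit 1374644599753) (nat_lit 76) (nat_lit 1924460713317) (nat_lit 76) (nat_lit 1907282538324) (nat_lit 1) (nat_lit 4) (nat_lit 2) (nat_lit 5) (nat_lit 2) (nat_lit 4) (nat_lit 258) (nat_lit 204) (nat_lit 138))) (XT.nd (nat_lit 78) (nat_lit 0) (nat_lit 0) (XT.lf (nat_lit 0) (nat_lit 1593505886945) (nat_lit 76) (nat_lit 2204947599140) (nat_lit 76) (nat_lit 2187769203166) (nat_lit 1)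 (nat_lit 4) (nat_lit 2) (nat_lit 5) (nat_lit 2) (nat_lit 4) (nat_lit 259) (nat_lit 204) (nat_lit 137)) (XT.lf (nat_lit 0) (nat_lit 1845196062715) (nat_lit 76) (nat_lit 2527507652607) (nat_lit 76) (nat_lit 2510329064475) (nat_lit 1) (nat_lit 4) (nat_lit 2) (nat_lit 5) (nat_lit 2) (nat_lit 4) (nat_lit 260) (nat_lit 204) (nat_lit 136)))) (XT.nd (nat_lit 156) (nat_lit 0) (nat_lit 0) (XT.nd (nat_lit 78) (nat_lit 0) (nat_lit 0) (XT.lf (nat_lit 0) (nat_lit 2134639500067) (nat_lit 76) (nat_lit 2898451831284) (nat_lit 76) (nat_lit 2881273076058) (nat_lit 1) (nat_lit 4) (nat_lit 2) (nat_lit 5) (nat_lit 2) (nat_lit 4) (nat_lit 261) (nat_lit 204) (nat_lit 135)) (XT.lf (nat_lit 0) (nat_lit 2467499222776) (nat_lit 76) (nat_lit 3325037738667) (nat_lit 76) (nat_lit 3307858838143) (nat_lit 1) (nat_lit 4) (nat_lit 2) (nat_lit 5) (nat_lit 2) (nat_lit 4) (nat_lit 262) (nat_lit 204) (nat_lit 134))) (XT.nd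 (nat_lit 78) (nat_lit 0) (nat_lit 0) (XT.lf (nat_lit 0) (nat_lit 2850287703678) (nat_lit 76) (nat_lit 3815611620771) (nat_lit 76) (nat_lit 3798432593900) (nat_lit 1) (nat_lit 4) (nat_lit 2) (nat_lit 5) (nat_lit 2) (nat_lit 4) (nat_lit 263) (nat_lit 204) (nat_lit 133)) (XT.lf (nat_lit 0) (nat_lit 3290494282615) (nat_lit 76) (nat_lit 4379771662246) (nat_lit 76) (nat_lit 4362592525507) (nat_lit 1) (nat_lit 4) (nat_lit 2) (nat_lit 5) (nat_lit 2) (nat_lit 4) (nat_lit 264) (nat_lit 204) (nat_lit 132))))) (XT.nd (nat_lit 312) (nat_lit 0) (nat_lit 0) (XT.nd (nat_lit 156) (nat_lit 0) (nat_lit 0) (XT.nd (nat_lit 78) (nat_lit 0) (nat_lit 0) (XT.lf (nat_lit 0) (nat_lit 3796731697003) (nat_lit 76) (nat_lit 5028555776945) (nat_lit 76) (nat_lit 5011376544670) (nat_lit 1) (nat_lit 4) (nat_lit 2) (nat_lit 5) (nat_lit 2) (nat_lit 4) (nat_lit 265) (nat_lit 204) (nat_lit 131)) (XT.lf (nat_lit 0) (nat_lit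 4378904591905) (nat_lit 76) (nat_lit 5774657567114) (nat_lit 76) (nat_lit 5757478251764) (nat_lit 1) (nat_lit 4) (nat_lit 2) (nat_lit 5) (nat_lit 2) (nat_lit 4) (nat_lit 266) (nat_lit 204) (nat_lit 130))) (XT.nd (nat_lit 78) (nat_lit 0) (nat_lit 0) (XT.lf (nat_lit 0) (nat_lit 5048403306570) (nat_lit 76) (nat_lit 6632674676473) (nat_lit 76) (nat_lit 6615495288884) (nat_lit 1) (nat_lit 4) (nat_lit 2) (nat_lit 5) (nat_lit 2) (nat_lit 4) (nat_lit 267) (nat_lit 204) (nat_lit 129)) (XT.lf (nat_lit 0) (nat_lit 5818326728892) (nat_lit 76) (nat_lit 7619394396292) (nat_lit 76) (nat_lit 7602214945887) (nat_lit 1) (nat_lit 4) (nat_lit 2) (nat_lit 5) (nat_lit 2) (nat_lit 4) (nat_lit 268) (nat_lit 204) (nat_lit 128)))) (XT.nd (nat_lit 156) (nat_lit 0) (nat_lit 0) (XT.nd (nat_lit 78) (nat_lit 0) (nat_lit 0) (XT.lf (nat_lit 0) (nat_lit 6703738578005) (nat_lit 76) (nat_lit 8754122112394) (nat_lit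 76) (nat_lit 8736942607365) (nat_lit 1) (nat_lit 4) (nat_lit 2) (nat_lit 5) (nat_lit 2) (nat_lit 4) (nat_lit 269) (nat_lit 204) (nat_lit 127)) (XT.lf (nat_lit 0) (nat_lit 7721962129216) (nat_lit 76) (nat_lit 10059059019224) (nat_lit 76) (nat_lit 10041879466697) (nat_lit 1) (nat_lit 4) (nat_lit 2) (nat_lit 5) (nat_lit 2) (nat_lit 4) (nat_lit 270) (nat_lit 204) (nat_lit 126))) (XT.nd (nat_lit 78) (nat_lit 0) (nat_lit 0) (XT.lf (nat_lit 0) (nat_lit 8892919147659) (nat_lit 76) (nat_lit 11559736491047) (nat_lit 76) (nat_lit 11542556897216) (nat_lit 1) (nat_lit 4) (nat_lit 2) (nat_lit 5) (nat_lit 2) (nat_lit 4) (nat_lit 271) (nat_lit 204) (nat_lit 125)) (XT.lf (nat_lit 0) (nat_lit 10239519661956) (nat_lit 76) (nat_lit 13285515608832) (nat_lit 76) (nat_lit 13268335979086) (nat_lit 1) (nat_lit 4) (nat_lit 2) (nat_lit 5) (nat_lit 2) (nat_lit 4) (nat_lit 272) (nat_lit 204) (nat_lit 124))))))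 (XT.nd (nat_lit 26130) (nat_lit 0) (nat_lit 532) (XT.nd (nat_lit 312) (nat_lit 0) (nat_lit 0) (XT.nd (nat_lit 156) (nat_lit 0) (nat_lit 0) (XT.nd (nat_lit 78) (nat_lit 0) (nat_lit 0) (XT.lf (nat_lit 0) (nat_lit 11788110203907) (nat_lit 76) (nat_lit 15270161616189) (nat_lit 76) (nat_lit 15252981955211) (nat_lit 1) (nat_lit 4) (nat_lit 2) (nat_lit 5) (nat_lit 2) (nat_lit 4) (nat_lit 273) (nat_lit 204) (nat_lit 123)) (XT.lf (nat_lit 0) (nat_lit 13568989284116) (nat_lit 76) (nat_lit 17552504543695) (nat_lit 76) (nat_lit 17535324855561) (nat_lit 1) (nat_lit 4) (nat_lit 2) (nat_lit 5) (nat_lit 2) (nat_lit 4) (nat_lit 274) (nat_lit 204) (nat_lit 122))) (XT.nd (nat_lit 78) (nat_lit 0) (nat_lit 0) (XT.lf (nat_lit 0) (nat_lit 15617000188934) (nat_lit 76) (nat_lit 20177198926891) (nat_lit 76) (nat_lit 20160019215141) (nat_lit 1) (nat_lit 4) (nat_lit 2) (nat_lit 5) (nat_lit 2) (nat_lit 4) (nat_lit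 275) (nat_lit 204) (nat_lit 121)) (XT.lf (nat_lit 0) (nat_lit 17972212696936) (nat_lit 76) (nat_lit 23195597481967) (nat_lit 76) (nat_lit 23178417749683) (nat_lit 1) (nat_lit 4) (nat_lit 2) (nat_lit 5) (nat_lit 2) (nat_lit 4) (nat_lit 276) (nat_lit 204) (nat_lit 120)))) (XT.nd (nat_lit 25662) (nat_lit 0) (nat_lit 836) (XT.nd (nat_lit 78) (nat_lit 0) (nat_lit 0) (XT.lf (nat_lit 0) (nat_lit 20680707052841) (nat_lit 76) (nat_lit 26666755832829) (nat_lit 76) (nat_lit 26649576082688) (nat_lit 1) (nat_lit 4) (nat_lit 2) (nat_lit 5) (nat_lit 2) (nat_lit 4) (nat_lit 277) (nat_lit 204) (nat_lit 119)) (XT.lf (nat_lit 0) (nat_lit 23795475537527) (nat_lit 76) (nat_lit 30658587947210) (nat_lit 76) (nat_lit 30641408181542) (nat_lit 1) (nat_lit 4) (nat_lit 2) (nat_lit 5) (nat_lit 2) (nat_lit 4) (nat_lit 278) (nat_lit 204) (nat_lit 118))) (XT.nd (nat_lit 78) (nat_lit 0) (nat_lit 0) (XT.lf (nat_lit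 0) (nat_lit 491343938) (nat_lit 0) (nat_lit 491343938) (nat_lit 228) (nat_lit 3482522816) (nat_lit 12) (nat_lit 5) (nat_lit 12) (nat_lit 3) (nat_lit 15) (nat_lit 3) (nat_lit 205) (nat_lit 205) (nat_lit 190)) (XT.lf (nat_lit 0) (nat_lit 2934808999) (nat_lit 228) (nat_lit 4702337515) (nat_lit 304) (nat_lit 1823260482) (nat_lit 12) (nat_lit 5) (nat_lit 15) (nat_lit 3) (nat_lit 16) (nat_lit 5) (nat_lit 206) (nat_lit 205) (nat_lit 189))))) (XT.nd (nat_lit 312) (nat_lit 152) (nat_lit 0) (XT.nd (nat_lit 156) (nat_lit 152) (nat_lit 0) (XT.nd (nat_lit 78) (nat_lit 0) (nat_lit 0) (XT.lf (nat_lit 0) (nat_lit 3967567416) (nat_lit 228) (nat_lit 1108134034) (nat_lit 304) (nat_lit 5009438842) (nat_lit 12) (nat_lit 5) (nat_lit 15) (nat_lit 3) (nat_lit 16) (nat_lit 5) (nat_lit 207) (nat_lit 205) (nat_lit 188)) (XT.lf (nat_lit 76) (nat_lit 3233783045) (nat_lit 0) (nat_lit 1943287154) (nat_lit 304)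 (nat_lit 5625792158) (nat_lit 13) (nat_lit 5) (nat_lit 12) (nat_lit 5) (nat_lit 16) (nat_lit 5) (nat_lit 208) (nat_lit 205) (nat_lit 187))) (XT.nd (nat_lit 78) (nat_lit 228) (nat_lit 0) (XT.lf (nat_lit 0) (nat_lit 6597817560) (nat_lit 228) (nat_lit 3433525514) (nat_lit 76) (nat_lit 1594647105) (nat_lit 13) (nat_lit 5) (nat_lit 16) (nat_lit 5) (nat_lit 14) (nat_lit 5) (nat_lit 209) (nat_lit 205) (nat_lit 186)) (XT.lf (nat_lit 0) (nat_lit 1260241120) (nat_lit 228) (nat_lit 7029583738) (nat_lit 304) (nat_lit 4275970853) (nat_lit 10) (nat_lit 5) (nat_lit 13) (nat_lit 5) (nat_lit 14) (nat_lit 5) (nat_lit 210) (nat_lit 205) (nat_lit 185)))) (XT.nd (nat_lit 156) (nat_lit 152) (nat_lit 0) (XT.nd (nat_lit 78) (nat_lit 0) (nat_lit 0) (XT.lf (nat_lit 0) (nat_lit 6965893255) (nat_lit 228) (nat_lit 3370706056) (nat_lit 304) (nat_lit 3296506733) (nat_lit 10) (nat_lit 5) (nat_lit 13) (nat_lit 5)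 (nat_lit 14) (nat_lit 5) (nat_lit 211) (nat_lit 205) (nat_lit 184)) (XT.lf (nat_lit 0) (nat_lit 12656791987) (nat_lit 304) (nat_lit 1447374431) (nat_lit 76) (nat_lit 762846096) (nat_lit 10) (nat_lit 5) (nat_lit 14) (nat_lit 5) (nat_lit 11) (nat_lit 4) (nat_lit 212) (nat_lit 205) (nat_lit 183))) (XT.nd (nat_lit 78) (nat_lit 76) (nat_lit 0) (XT.lf (nat_lit 0) (nat_lit 4748456195) (nat_lit 76) (nat_lit 10874337178) (nat_lit 152) (nat_lit 619814086) (nat_lit 9) (nat_lit 5) (nat_lit 10) (nat_lit 5) (nat_lit 11) (nat_lit 4) (nat_lit 213) (nat_lit 205) (nat_lit 182)) (XT.lf (nat_lit 0) (nat_lit 1122826095) (nat_lit 152) (nat_lit 5903227890) (nat_lit 76) (nat_lit 10788739301) (nat_lit 8) (nat_lit 5) (nat_lit 10) (nat_lit 5) (nat_lit 9) (nat_lit 5) (nat_lit 214) (nat_lit 205) (nat_lit 181)))))))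
noncomputable def xc33 : XT := (XT.nd (nat_lit 1248) (nat_lit 76) (nat_lit 0) (XT.nd (nat_lit 624) (nat_lit 152) (nat_lit 0) (XT.nd (nat_lit 312) (nat_lit 76) (nat_lit 0) (XT.nd (nat_lit 156) (nat_lit 76) (nat_lit 0) (XT.nd (nat_lit 78) (nat_lit 0) (nat_lit 0) (XT.lf (nat_lit 0) (nat_lit 475985598) (nat_lit 152) (nat_lit 2556745605) (nat_lit 228) (nat_lit 16591084333) (nat_lit 6) (nat_lit 5) (nat_lit 8) (nat_lit 5) (nat_lit 9) (nat_lit 5) (nat_lit 215) (nat_lit 205) (nat_lit 180)) (XT.lf (nat_lit 0) (nat_lit 5612458021) (nat_lit 228) (nat_lit 13371457428) (nat_lit 76) (nat_lit 2663501109) (nat_lit 6) (nat_lit 5) (nat_lit 9) (nat_lit 5) (nat_lit 7) (nat_lit 4) (nat_lit 216) (nat_lit 205) (nat_lit 179))) (XT.nd (nat_lit 78) (nat_lit 76) (nat_lit 0) (XT.lf (nat_lit 0) (nat_lit 8660118969) (nat_lit 228) (nat_lit 6909011352) (nat_lit 76) (nat_lit 8393912300) (nat_lit 6) (nat_lit 5) (nat_lit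 9) (nat_lit 5) (nat_lit 7) (nat_lit 4) (nat_lit 217) (nat_lit 205) (nat_lit 178)) (XT.lf (nat_lit 0) (nat_lit 517926209) (nat_lit 76) (nat_lit 11632992823) (nat_lit 152) (nat_lit 14477743894) (nat_lit 5) (nat_lit 5) (nat_lit 6) (nat_lit 5) (nat_lit 7) (nat_lit 4) (nat_lit 218) (nat_lit 205) (nat_lit 177)))) (XT.nd (nat_lit 156) (nat_lit 76) (nat_lit 0) (XT.nd (nat_lit 78) (nat_lit 0) (nat_lit 0) (XT.lf (nat_lit 0) (nat_lit 9786715758) (nat_lit 76) (nat_lit 6706929485) (nat_lit 152) (nat_lit 13151712356) (nat_lit 5) (nat_lit 5) (nat_lit 6) (nat_lit 5) (nat_lit 7) (nat_lit 4) (nat_lit 219) (nat_lit 205) (nat_lit 176)) (XT.lf (nat_lit 0) (nat_lit 20403504342) (nat_lit 76) (nat_lit 1055713672) (nat_lit 152) (nat_lit 11660037808) (nat_lit 5) (nat_lit 5) (nat_lit 6) (nat_lit 5) (nat_lit 7) (nat_lit 4) (nat_lit 220) (nat_lit 205) (nat_lit 175))) (XT.nd (nat_lit 78) (nat_lit 76) (nat_lit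 0) (XT.lf (nat_lit 0) (nat_lit 27369685171) (nat_lit 152) (nat_lit 4767208750) (nat_lit 0) (nat_lit 4947696951) (nat_lit 5) (nat_lit 5) (nat_lit 7) (nat_lit 4) (nat_lit 5) (nat_lit 4) (nat_lit 221) (nat_lit 205) (nat_lit 174)) (XT.lf (nat_lit 0) (nat_lit 4707297273) (nat_lit 76) (nat_lit 29682588356) (nat_lit 76) (nat_lit 7221679861) (nat_lit 4) (nat_lit 4) (nat_lit 5) (nat_lit 5) (nat_lit 5) (nat_lit 4) (nat_lit 222) (nat_lit 205) (nat_lit 173))))) (XT.nd (nat_lit 312) (nat_lit 76) (nat_lit 0) (XT.nd (nat_lit 156) (nat_lit 76) (nat_lit 0) (XT.nd (nat_lit 78) (nat_lit 0) (nat_lit 0) (XT.lf (nat_lit 0) (nat_lit 16105222727) (nat_lit 76) (nat_lit 26586545425) (nat_lit 76) (nat_lit 4091793213) (nat_lit 4) (nat_lit 4) (nat_lit 5) (nat_lit 5) (nat_lit 5) (nat_lit 4) (nat_lit 223) (nat_lit 205) (nat_lit 172)) (XT.lf (nat_lit 0) (nat_lit 29183684192) (nat_lit 76) (nat_lit 23037385379) (nat_lit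 76) (nat_lit 513203847) (nat_lit 4) (nat_lit 4) (nat_lit 5) (nat_lit 5) (nat_lit 5) (nat_lit 4) (nat_lit 224) (nat_lit 205) (nat_lit 171))) (XT.nd (nat_lit 78) (nat_lit 0) (nat_lit 0) (XT.lf (nat_lit 0) (nat_lit 3265022381) (nat_lit 152) (nat_lit 15529974124) (nat_lit 76) (nat_lit 40762870603) (nat_lit 3) (nat_lit 5) (nat_lit 5) (nat_lit 5) (nat_lit 4) (nat_lit 4) (nat_lit 225) (nat_lit 205) (nat_lit 170)) (XT.lf (nat_lit 0) (nat_lit 7543126238) (nat_lit 152) (nat_lit 6354303626) (nat_lit 76) (nat_lit 53506207359) (nat_lit 3) (nat_lit 5) (nat_lit 5) (nat_lit 5) (nat_lit 4) (nat_lit 4) (nat_lit 226) (nat_lit 205) (nat_lit 169)))) (XT.nd (nat_lit 156) (nat_lit 0) (nat_lit 0) (XT.nd (nat_lit 78) (nat_lit 0) (nat_lit 0) (XT.lf (nat_lit 0) (nat_lit 4585422997) (nat_lit 76) (nat_lit 8054948300) (nat_lit 152) (nat_lit 63759423376) (nat_lit 2) (nat_lit 5) (nat_lit 3) (nat_lit 5) (nat_lit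 4) (nat_lit 4) (nat_lit 227) (nat_lit 205) (nat_lit 168)) (XT.lf (nat_lit 0) (nat_lit 17860657928) (nat_lit 76) (nat_lit 962067434) (nat_lit 152) (nat_lit 67874690008) (nat_lit 2) (nat_lit 5) (nat_lit 3) (nat_lit 5) (nat_lit 4) (nat_lit 4) (nat_lit 228) (nat_lit 205) (nat_lit 167))) (XT.nd (nat_lit 78) (nat_lit 0) (nat_lit 0) (XT.lf (nat_lit 0) (nat_lit 26219948252) (nat_lit 152) (nat_lit 65728786740) (nat_lit 0) (nat_lit 6547919403) (nat_lit 2) (nat_lit 5) (nat_lit 4) (nat_lit 4) (nat_lit 2) (nat_lit 4) (nat_lit 229) (nat_lit 205) (nat_lit 166)) (XT.lf (nat_lit 0) (nat_lit 34763520912) (nat_lit 152) (nat_lit 62216404119) (nat_lit 0) (nat_lit 15080428492) (nat_lit 2) (nat_lit 5) (nat_lit 4) (nat_lit 4) (nat_lit 2) (nat_lit 4) (nat_lit 230) (nat_lit 205) (nat_lit 165)))))) (XT.nd (nat_lit 624) (nat_lit 76) (nat_lit 0) (XT.nd (nat_lit 312) (nat_lit 0) (nat_lit 0) (XT.nd (nat_lit 156)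 (nat_lit 0) (nat_lit 0) (XT.nd (nat_lit 78) (nat_lit 0) (nat_lit 0) (XT.lf (nat_lit 0) (nat_lit 44580763039) (nat_lit 152) (nat_lit 58191051890) (nat_lit 0) (nat_lit 24888050122) (nat_lit 2) (nat_lit 5) (nat_lit 4) (nat_lit 4) (nat_lit 2) (nat_lit 4) (nat_lit 231) (nat_lit 205) (nat_lit 164)) (XT.lf (nat_lit 0) (nat_lit 55863751109) (nat_lit 152) (nat_lit 53573973160) (nat_lit 0) (nat_lit 36162672543) (nat_lit 2) (nat_lit 5) (nat_lit 4) (nat_lit 4) (nat_lit 2) (nat_lit 4) (nat_lit 232) (nat_lit 205) (nat_lit 163))) (XT.nd (nat_lit 78) (nat_lit 0) (nat_lit 0) (XT.lf (nat_lit 0) (nat_lit 68833239236) (nat_lit 152) (nat_lit 48274833782) (nat_lit 0) (nat_lit 49124886193) (nat_lit 2) (nat_lit 5) (nat_lit 4) (nat_lit 4) (nat_lit 2) (nat_lit 4) (nat_lit 233) (nat_lit 205) (nat_lit 162)) (XT.lf (nat_lit 0) (nat_lit 83742978276) (nat_lit 152) (nat_lit 42189954940) (nat_lit 0) (nat_lit 64028299600)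 (nat_lit 2) (nat_lit 5) (nat_lit 4) (nat_lit 4) (nat_lit 2) (nat_lit 4) (nat_lit 234) (nat_lit 205) (nat_lit 161)))) (XT.nd (nat_lit 156) (nat_lit 0) (nat_lit 0) (XT.nd (nat_lit 78) (nat_lit 0) (nat_lit 0) (XT.lf (nat_lit 0) (nat_lit 100884680513) (nat_lit 152) (nat_lit 35200284659) (nat_lit 0) (nat_lit 81164501287) (nat_lit 2) (nat_lit 5) (nat_lit 4) (nat_lit 4) (nat_lit 2) (nat_lit 4) (nat_lit 235) (nat_lit 205) (nat_lit 160)) (XT.lf (nat_lit 0) (nat_lit 120593727079) (nat_lit 152) (nat_lit 27169068518) (nat_lit 0) (nat_lit 100868764765) (nat_lit 2) (nat_lit 5) (nat_lit 4) (nat_lit 4) (nat_lit 2) (nat_lit 4) (nat_lit 236) (nat_lit 205) (nat_lit 159))) (XT.nd (nat_lit 78) (nat_lit 0) (nat_lit 0) (XT.lf (nat_lit 0) (nat_lit 143255729754) (nat_lit 152) (nat_lit 17939174029) (nat_lit 0) (nat_lit 123526608234) (nat_lit 2) (nat_lit 5) (nat_lit 4) (nat_lit 4) (nat_lit 2) (nat_lit 4) (nat_lit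 237) (nat_lit 205) (nat_lit 158)) (XT.lf (nat_lit 0) (nat_lit 169314075547) (nat_lit 152) (nat_lit 7330016299) (nat_lit 0) (nat_lit 149581337326) (nat_lit 2) (nat_lit 5) (nat_lit 4) (nat_lit 4) (nat_lit 2) (nat_lit 4) (nat_lit 238) (nat_lit 205) (nat_lit 157))))) (XT.nd (nat_lit 312) (nat_lit 0) (nat_lit 0) (XT.nd (nat_lit 156) (nat_lit 0) (nat_lit 0) (XT.nd (nat_lit 78) (nat_lit 0) (nat_lit 0) (XT.lf (nat_lit 0) (nat_lit 5341513629) (nat_lit 76) (nat_lit 194158268717) (nat_lit 76) (nat_lit 174422385538) (nat_lit 1) (nat_lit 4) (nat_lit 2) (nat_lit 5) (nat_lit 2) (nat_lit 4) (nat_lit 239) (nat_lit 205) (nat_lit 156)) (XT.lf (nat_lit 0) (nat_lit 20733233344) (nat_lit 76) (nat_lit 213860856189) (nat_lit 76) (nat_lit 194122238265) (nat_lit 1) (nat_lit 4) (nat_lit 2) (nat_lit 5) (nat_lit 2) (nat_lit 4) (nat_lit 240) (nat_lit 205) (nat_lit 155))) (XT.nd (nat_lit 78) (nat_lit 0) (nat_lit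 0) (XT.lf (nat_lit 0) (nat_lit 38429942685) (nat_lit 76) (nat_lit 236520499613) (nat_lit 76) (nat_lit 216779503649) (nat_lit 1) (nat_lit 4) (nat_lit 2) (nat_lit 5) (nat_lit 2) (nat_lit 4) (nat_lit 241) (nat_lit 205) (nat_lit 154)) (XT.lf (nat_lit 0) (nat_lit 58777881618) (nat_lit 76) (nat_lit 262580539838) (nat_lit 76) (nat_lit 242837476014) (nat_lit 1) (nat_lit 4) (nat_lit 2) (nat_lit 5) (nat_lit 2) (nat_lit 4) (nat_lit 242) (nat_lit 205) (nat_lit 153)))) (XT.nd (nat_lit 156) (nat_lit 0) (nat_lit 0) (XT.nd (nat_lit 78) (nat_lit 0) (nat_lit 0) (XT.lf (nat_lit 0) (nat_lit 82175161991) (nat_lit 76) (nat_lit 292550847216) (nat_lit 76) (nat_lit 272805985252) (nat_lit 1) (nat_lit 4) (nat_lit 2) (nat_lit 5) (nat_lit 2) (nat_lit 4) (nat_lit 243) (nat_lit 205) (nat_lit 152)) (XT.lf (nat_lit 0) (nat_lit 109079556682) (nat_lit 76) (nat_lit 327017797326) (nat_lit 76) (nat_lit 307271371762) (nat_lit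 1) (nat_lit 4) (nat_lit 2) (nat_lit 5) (nat_lit 2) (nat_lit 4) (nat_lit 244) (nat_lit 205) (nat_lit 151))) (XT.nd (nat_lit 78) (nat_lit 0) (nat_lit 0) (XT.lf (nat_lit 0) (nat_lit 140017456021) (nat_lit 76) (nat_lit 366655743540) (nat_lit 76) (nat_lit 346907958325) (nat_lit 1) (nat_lit 4) (nat_lit 2) (nat_lit 5) (nat_lit 2) (nat_lit 4) (nat_lit 245) (nat_lit 205) (nat_lit 150)) (XT.nd (nat_lit 78) (nat_lit 0) (nat_lit 0) (XT.lf (nat_lit 0) (nat_lit 175594166734) (nat_lit 76) (nat_lit 412240210893) (nat_lit 76) (nat_lit 392491243372) (nat_lit 1) (nat_lit 4) (nat_lit 2) (nat_lit 5) (nat_lit 2) (nat_lit 4) (nat_lit 246) (nat_lit 205) (nat_lit 149)) (XT.lf (nat_lit 0) (nat_lit 216505754901) (nat_lit 76) (nat_lit 464663069399) (nat_lit 76) (nat_lit 444913073785) (nat_lit 1) (nat_lit 4) (nat_lit 2) (nat_lit 5) (nat_lit 2) (nat_lit 4) (nat_lit 247) (nat_lit 205) (nat_lit 148))))))))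
noncomputable def xc34 : XT := (XT.nd (nat_lit 28080) (nat_lit 0) (nat_lit 76) (XT.nd (nat_lit 1248) (nat_lit 0) (nat_lit 0) (XT.nd (nat_lit 624) (nat_lit 0) (nat_lit 0) (XT.nd (nat_lit 312) (nat_lit 0) (nat_lit 0) (XT.nd (nat_lit 156) (nat_lit 0) (nat_lit 0) (XT.nd (nat_lit 78) (nat_lit 0) (nat_lit 0) (XT.lf (nat_lit 0) (nat_lit 263552664638) (nat_lit 76) (nat_lit 524949983679) (nat_lit 76) (nat_lit 505199094072) (nat_lit 1) (nat_lit 4) (nat_lit 2) (nat_lit 5) (nat_lit 2) (nat_lit 4) (nat_lit 248) (nat_lit 205) (nat_lit 147)) (XT.lf (nat_lit 0) (nat_lit 317655378961) (nat_lit 76) (nat_lit 594280480318) (nat_lit 76) (nat_lit 574528813325) (nat_lit 1) (nat_lit 4) (nat_lit 2) (nat_lit 5) (nat_lit 2) (nat_lit 4) (nat_lit 249) (nat_lit 205) (nat_lit 146))) (XT.nd (nat_lit 78) (nat_lit 0) (nat_lit 0) (XT.lf (nat_lit 0) (nat_lit 379872429238) (nat_lit 76) (nat_lit 674011025554) (nat_lit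 76) (nat_lit 654258682574) (nat_lit 1) (nat_lit 4) (nat_lit 2) (nat_lit 5) (nat_lit 2) (nat_lit 4) (nat_lit 250) (nat_lit 205) (nat_lit 145)) (XT.lf (nat_lit 0) (nat_lit 451421105583) (nat_lit 76) (nat_lit 765701564838) (nat_lit 76) (nat_lit 745948634043) (nat_lit 1) (nat_lit 4) (nat_lit 2) (nat_lit 5) (nat_lit 2) (nat_lit 4) (nat_lit 251) (nat_lit 205) (nat_lit 144)))) (XT.nd (nat_lit 156) (nat_lit 0) (nat_lit 0) (XT.nd (nat_lit 78) (nat_lit 0) (nat_lit 0) (XT.lf (nat_lit 0) (nat_lit 533701273403) (nat_lit 76) (nat_lit 871146043503) (nat_lit 76) (nat_lit 851392601565) (nat_lit 1) (nat_lit 4) (nat_lit 2) (nat_lit 5) (nat_lit 2) (nat_lit 4) (nat_lit 252) (nat_lit 205) (nat_lit 143)) (XT.lf (nat_lit 0) (nat_lit 628322762067) (nat_lit 76) (nat_lit 992407505698) (nat_lit 76) (nat_lit 972653619287) (nat_lit 1) (nat_lit 4) (nat_lit 2) (nat_lit 5) (nat_lit 2) (nat_lit 4) (nat_lit 253) (nat_lit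 205) (nat_lit 142))) (XT.nd (nat_lit 78) (nat_lit 0) (nat_lit 0) (XT.lf (nat_lit 0) (nat_lit 737136861572) (nat_lit 76) (nat_lit 1131858458291) (nat_lit 76) (nat_lit 1112104185382) (nat_lit 1) (nat_lit 4) (nat_lit 2) (nat_lit 5) (nat_lit 2) (nat_lit 4) (nat_lit 254) (nat_lit 205) (nat_lit 141)) (XT.lf (nat_lit 0) (nat_lit 862272543429) (nat_lit 76) (nat_lit 1292227289485) (nat_lit 76) (nat_lit 1272472680491) (nat_lit 1) (nat_lit 4) (nat_lit 2) (nat_lit 5) (nat_lit 2) (nat_lit 4) (nat_lit 255) (nat_lit 205) (nat_lit 140))))) (XT.nd (nat_lit 312) (nat_lit 0) (nat_lit 0) (XT.nd (nat_lit 156) (nat_lit 0) (nat_lit 0) (XT.nd (nat_lit 78) (nat_lit 0) (nat_lit 0) (XT.lf (nat_lit 0) (nat_lit 1006178114458) (nat_lit 76) (nat_lit 1476651650325) (nat_lit 76) (nat_lit 1456896749084) (nat_lit 1) (nat_lit 4) (nat_lit 2) (nat_lit 5) (nat_lit 2) (nat_lit 4) (nat_lit 256) (nat_lit 205) (nat_lit 139))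 (XT.lf (nat_lit 0) (nat_lit 1171669118440) (nat_lit 76) (nat_lit 1688739843524) (nat_lit 76) (nat_lit 1668984688154) (nat_lit 1) (nat_lit 4) (nat_lit 2) (nat_lit 5) (nat_lit 2) (nat_lit 4) (nat_lit 257) (nat_lit 205) (nat_lit 138))) (XT.nd (nat_lit 78) (nat_lit 0) (nat_lit 0) (XT.lf (nat_lit 0) (nat_lit 1361983422843) (nat_lit 76) (nat_lit 1932641420687) (nat_lit 76) (nat_lit 1912886044336) (nat_lit 1) (nat_lit 4) (nat_lit 2) (nat_lit 5) (nat_lit 2) (nat_lit 4) (nat_lit 258) (nat_lit 205) (nat_lit 137)) (XT.lf (nat_lit 0) (nat_lit 1580844568407) (nat_lit 76) (nat_lit 2213128369194) (nat_lit 76) (nat_lit 2193372800685) (nat_lit 1) (nat_lit 4) (nat_lit 2) (nat_lit 5) (nat_lit 2) (nat_lit 4) (nat_lit 259) (nat_lit 205) (nat_lit 136)))) (XT.nd (nat_lit 156) (nat_lit 0) (nat_lit 0) (XT.nd (nat_lit 78) (nat_lit 0) (nat_lit 0) (XT.lf (nat_lit 0) (nat_lit 1832534621022) (nat_lit 76) (nat_lit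 2535688477168) (nat_lit 76) (nat_lit 2515932741565) (nat_lit 1) (nat_lit 4) (nat_lit 2) (nat_lit 5) (nat_lit 2) (nat_lit 4) (nat_lit 260) (nat_lit 205) (nat_lit 135)) (XT.lf (nat_lit 0) (nat_lit 2121977951283) (nat_lit 76) (nat_lit 2906632703243) (nat_lit 76) (nat_lit 2886876822341) (nat_lit 1) (nat_lit 4) (nat_lit 2) (nat_lit 5) (nat_lit 2) (nat_lit 4) (nat_lit 261) (nat_lit 205) (nat_lit 134))) (XT.nd (nat_lit 78) (nat_lit 0) (nat_lit 0) (XT.lf (nat_lit 0) (nat_lit 2454837580869) (nat_lit 76) (nat_lit 3333218651842) (nat_lit 76) (nat_lit 3313462644593) (nat_lit 1) (nat_lit 4) (nat_lit 2) (nat_lit 5) (nat_lit 2) (nat_lit 4) (nat_lit 262) (nat_lit 205) (nat_lit 133)) (XT.lf (nat_lit 0) (nat_lit 2837625980795) (nat_lit 76) (nat_lit 3823792569785) (nat_lit 76) (nat_lit 3804036452669) (nat_lit 1) (nat_lit 4) (nat_lit 2) (nat_lit 5) (nat_lit 2) (nat_lit 4) (nat_lit 263) (nat_lit 205)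 (nat_lit 132)))))) (XT.nd (nat_lit 624) (nat_lit 0) (nat_lit 0) (XT.nd (nat_lit 312) (nat_lit 0) (nat_lit 0) (XT.nd (nat_lit 156) (nat_lit 0) (nat_lit 0) (XT.nd (nat_lit 78) (nat_lit 0) (nat_lit 0) (XT.lf (nat_lit 0) (nat_lit 3277832489318) (nat_lit 76) (nat_lit 4387952642424) (nat_lit 76) (nat_lit 4368196429772) (nat_lit 1) (nat_lit 4) (nat_lit 2) (nat_lit 5) (nat_lit 2) (nat_lit 4) (nat_lit 264) (nat_lit 205) (nat_lit 131)) (XT.lf (nat_lit 0) (nat_lit 3784069842476) (nat_lit 76) (nat_lit 5036736784223) (nat_lit 76) (nat_lit 5016980488496) (nat_lit 1) (nat_lit 4) (nat_lit 2) (nat_lit 5) (nat_lit 2) (nat_lit 4) (nat_lit 265) (nat_lit 205) (nat_lit 130))) (XT.nd (nat_lit 78) (nat_lit 0) (nat_lit 0) (XT.lf (nat_lit 0) (nat_lit 4366242684135) (nat_lit 76) (nat_lit 5782838597957) (nat_lit 76) (nat_lit 5763082229991) (nat_lit 1) (nat_lit 4) (nat_lit 2) (nat_lit 5) (nat_lit 2) (nat_lit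 4) (nat_lit 266) (nat_lit 205) (nat_lit 129)) (XT.lf (nat_lit 0) (nat_lit 5035741352501) (nat_lit 76) (nat_lit 6640855727808) (nat_lit 76) (nat_lit 6621099297024) (nat_lit 1) (nat_lit 4) (nat_lit 2) (nat_lit 5) (nat_lit 2) (nat_lit 4) (nat_lit 267) (nat_lit 205) (nat_lit 128)))) (XT.nd (nat_lit 156) (nat_lit 0) (nat_lit 0) (XT.nd (nat_lit 78) (nat_lit 0) (nat_lit 0) (XT.lf (nat_lit 0) (nat_lit 5805664734564) (nat_lit 76) (nat_lit 7627575465445) (nat_lit 76) (nat_lit 7607818980039) (nat_lit 1) (nat_lit 4) (nat_lit 2) (nat_lit 5) (nat_lit 2) (nat_lit 4) (nat_lit 268) (nat_lit 205) (nat_lit 127)) (XT.lf (nat_lit 0) (nat_lit 6691076548668) (nat_lit 76) (nat_lit 8762303197042) (nat_lit 76) (nat_lit 8742546664137) (nat_lit 1) (nat_lit 4) (nat_lit 2) (nat_lit 5) (nat_lit 2) (nat_lit 4) (nat_lit 269) (nat_lit 205) (nat_lit 126))) (XT.nd (nat_lit 78) (nat_lit 0) (nat_lit 0) (XT.lf (nat_lit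 0) (nat_lit 7709300069438) (nat_lit 76) (nat_lit 10067240117345) (nat_lit 76) (nat_lit 10047483543137) (nat_lit 1) (nat_lit 4) (nat_lit 2) (nat_lit 5) (nat_lit 2) (nat_lit 4) (nat_lit 270) (nat_lit 205) (nat_lit 125)) (XT.lf (nat_lit 0) (nat_lit 8880257061410) (nat_lit 76) (nat_lit 11567917600883) (nat_lit 76) (nat_lit 11548160990760) (nat_lit 1) (nat_lit 4) (nat_lit 2) (nat_lit 5) (nat_lit 2) (nat_lit 4) (nat_lit 271) (nat_lit 205) (nat_lit 124))))) (XT.nd (nat_lit 312) (nat_lit 0) (nat_lit 0) (XT.nd (nat_lit 156) (nat_lit 0) (nat_lit 0) (XT.nd (nat_lit 78) (nat_lit 0) (nat_lit 0) (XT.lf (nat_lit 0) (nat_lit 10226857552687) (nat_lit 76) (nat_lit 13293696728856) (nat_lit 76) (nat_lit 13273940087502) (nat_lit 1) (nat_lit 4) (nat_lit 2) (nat_lit 5) (nat_lit 2) (nat_lit 4) (nat_lit 272) (nat_lit 205) (nat_lit 123)) (XT.lf (nat_lit 0) (nat_lit 11775448074622) (nat_lit 76) (nat_lit 15278342745072)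 (nat_lit 76) (nat_lit 15258586076560) (nat_lit 1) (nat_lit 4) (nat_lit 2) (nat_lit 5) (nat_lit 2) (nat_lit 4) (nat_lit 273) (nat_lit 205) (nat_lit 122))) (XT.nd (nat_lit 78) (nat_lit 0) (nat_lit 0) (XT.lf (nat_lit 0) (nat_lit 13556327137426) (nat_lit 76) (nat_lit 17560685680282) (nat_lit 76) (nat_lit 17540928988155) (nat_lit 1) (nat_lit 4) (nat_lit 2) (nat_lit 5) (nat_lit 2) (nat_lit 4) (nat_lit 274) (nat_lit 205) (nat_lit 121)) (XT.lf (nat_lit 0) (nat_lit 15604338027110) (nat_lit 76) (nat_lit 20185380070176) (nat_lit 76) (nat_lit 20165623357514) (nat_lit 1) (nat_lit 4) (nat_lit 2) (nat_lit 5) (nat_lit 2) (nat_lit 4) (nat_lit 275) (nat_lit 205) (nat_lit 120)))) (XT.nd (nat_lit 156) (nat_lit 0) (nat_lit 0) (XT.nd (nat_lit 78) (nat_lit 0) (nat_lit 0) (XT.lf (nat_lit 0) (nat_lit 17959550521950) (nat_lit 76) (nat_lit 23203778631078) (nat_lit 76) (nat_lit 23184021900559) (nat_lit 1) (nat_lit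 4) (nat_lit 2) (nat_lit 5) (nat_lit 2) (nat_lit 4) (nat_lit 276) (nat_lit 205) (nat_lit 119)) (XT.lf (nat_lit 0) (nat_lit 20668044866411) (nat_lit 76) (nat_lit 26674936987004) (nat_lit 76) (nat_lit 26655180240959) (nat_lit 1) (nat_lit 4) (nat_lit 2) (nat_lit 5) (nat_lit 2) (nat_lit 4) (nat_lit 277) (nat_lit 205) (nat_lit 118))) (XT.nd (nat_lit 25662) (nat_lit 0) (nat_lit 836) (XT.lf (nat_lit 0) (nat_lit 23782813341146) (nat_lit 76) (nat_lit 30666769105790) (nat_lit 76) (nat_lit 30647012346242) (nat_lit 1) (nat_lit 4) (nat_lit 2) (nat_lit 5) (nat_lit 2) (nat_lit 4) (nat_lit 278) (nat_lit 205) (nat_lit 117)) (XT.lf (nat_lit 0) (nat_lit 919319415) (nat_lit 0) (nat_lit 919319415) (nat_lit 228) (nat_lit 3174262694) (nat_lit 12) (nat_lit 5) (nat_lit 12) (nat_lit 3) (nat_lit 15) (nat_lit 3) (nat_lit 206) (nat_lit 206) (nat_lit 188))))))) (XT.nd (nat_lit 1248) (nat_lit 228) (nat_lit 0) (XT.nd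 (nat_lit 624) (nat_lit 304) (nat_lit 0) (XT.nd (nat_lit 312) (nat_lit 228) (nat_lit 0) (XT.nd (nat_lit 156) (nat_lit 0) (nat_lit 0) (XT.nd (nat_lit 78) (nat_lit 0) (nat_lit 0) (XT.lf (nat_lit 0) (nat_lit 4581774776) (nat_lit 228) (nat_lit 4553715299) (nat_lit 304) (nat_lit 1535473076) (nat_lit 12) (nat_lit 5) (nat_lit 15) (nat_lit 3) (nat_lit 16) (nat_lit 5) (nat_lit 207) (nat_lit 206) (nat_lit 187)) (XT.lf (nat_lit 0) (nat_lit 5612045509) (nat_lit 228) (nat_lit 531769057) (nat_lit 304) (nat_lit 5272788166) (nat_lit 12) (nat_lit 5) (nat_lit 15) (nat_lit 3) (nat_lit 16) (nat_lit 5) (nat_lit 208) (nat_lit 206) (nat_lit 186))) (XT.nd (nat_lit 78) (nat_lit 0) (nat_lit 76) (XT.lf (nat_lit 76) (nat_lit 4427681717) (nat_lit 0) (nat_lit 2467772358) (nat_lit 304) (nat_lit 5365775303) (nat_lit 13) (nat_lit 5) (nat_lit 12) (nat_lit 5) (nat_lit 16) (nat_lit 5) (nat_lit 209) (nat_lit 206) (nat_lit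 185)) (XT.lf (nat_lit 0) (nat_lit 8398077706) (nat_lit 228) (nat_lit 3182866293) (nat_lit 76) (nat_lit 1649279335) (nat_lit 13) (nat_lit 5) (nat_lit 16) (nat_lit 5) (nat_lit 14) (nat_lit 5) (nat_lit 210) (nat_lit 206) (nat_lit 184)))) (XT.nd (nat_lit 156) (nat_lit 76) (nat_lit 0) (XT.nd (nat_lit 78) (nat_lit 0) (nat_lit 0) (XT.lf (nat_lit 0) (nat_lit 2180161334) (nat_lit 228) (nat_lit 8088260309) (nat_lit 304) (nat_lit 4056255624) (nat_lit 10) (nat_lit 5) (nat_lit 13) (nat_lit 5) (nat_lit 14) (nat_lit 5) (nat_lit 211) (nat_lit 206) (nat_lit 183)) (XT.lf (nat_lit 0) (nat_lit 8646328587) (nat_lit 228) (nat_lit 3879998060) (nat_lit 304) (nat_lit 3042190693) (nat_lit 10) (nat_lit 5) (nat_lit 13) (nat_lit 5) (nat_lit 14) (nat_lit 5) (nat_lit 212) (nat_lit 206) (nat_lit 182))) (XT.nd (nat_lit 78) (nat_lit 76) (nat_lit 0) (XT.lf (nat_lit 0) (nat_lit 15111036704) (nat_lit 304) (nat_lit 1016429649)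 (nat_lit 76) (nat_lit 874353069) (nat_lit 10) (nat_lit 5) (nat_lit 14) (nat_lit 5) (nat_lit 11) (nat_lit 4) (nat_lit 213) (nat_lit 206) (nat_lit 181)) (XT.lf (nat_lit 0) (nat_lit 6079318709) (nat_lit 76) (nat_lit 12395748260) (nat_lit 152) (nat_lit 117267696) (nat_lit 9) (nat_lit 5) (nat_lit 10) (nat_lit 5) (nat_lit 11) (nat_lit 4) (nat_lit 214) (nat_lit 206) (nat_lit 180))))) (XT.nd (nat_lit 312) (nat_lit 76) (nat_lit 0) (XT.nd (nat_lit 156) (nat_lit 0) (nat_lit 0) (XT.nd (nat_lit 78) (nat_lit 152) (nat_lit 0) (XT.lf (nat_lit 0) (nat_lit 1762990294) (nat_lit 152) (nat_lit 6196886990) (nat_lit 76) (nat_lit 12448558660) (nat_lit 8) (nat_lit 5) (nat_lit 10) (nat_lit 5) (nat_lit 9) (nat_lit 5) (nat_lit 215) (nat_lit 206) (nat_lit 179)) (XT.lf (nat_lit 0) (nat_lit 1112307381) (nat_lit 152) (nat_lit 2808934742) (nat_lit 228) (nat_lit 18574309652) (nat_lit 6) (nat_lit 5) (nat_lit 8) (nat_lit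 5) (nat_lit 9) (nat_lit 5) (nat_lit 216) (nat_lit 206) (nat_lit 178))) (XT.nd (nat_lit 78) (nat_lit 0) (nat_lit 0) (XT.lf (nat_lit 0) (nat_lit 6836099796) (nat_lit 228) (nat_lit 14828200180) (nat_lit 76) (nat_lit 3167053622) (nat_lit 6) (nat_lit 5) (nat_lit 9) (nat_lit 5) (nat_lit 7) (nat_lit 4) (nat_lit 217) (nat_lit 206) (nat_lit 177)) (XT.lf (nat_lit 0) (nat_lit 10291113399) (nat_lit 228) (nat_lit 7467992739) (nat_lit 76) (nat_lit 9743457708) (nat_lit 6) (nat_lit 5) (nat_lit 9) (nat_lit 5) (nat_lit 7) (nat_lit 4) (nat_lit 218) (nat_lit 206) (nat_lit 176)))) (XT.nd (nat_lit 156) (nat_lit 0) (nat_lit 0) (XT.nd (nat_lit 78) (nat_lit 0) (nat_lit 0) (XT.lf (nat_lit 0) (nat_lit 1051286805) (nat_lit 76) (nat_lit 13229813764) (nat_lit 152) (nat_lit 16291261825) (nat_lit 5) (nat_lit 5) (nat_lit 6) (nat_lit 5) (nat_lit 7) (nat_lit 4) (nat_lit 219) (nat_lit 206) (nat_lit 175)) (XT.lf (nat_lit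 0) (nat_lit 11650959353) (nat_lit 76) (nat_lit 7584161966) (nat_lit 152) (nat_lit 14813039945) (nat_lit 5) (nat_lit 5) (nat_lit 6) (nat_lit 5) (nat_lit 7) (nat_lit 4) (nat_lit 220) (nat_lit 206) (nat_lit 174))) (XT.nd (nat_lit 78) (nat_lit 0) (nat_lit 0) (XT.lf (nat_lit 0) (nat_lit 23808583237) (nat_lit 76) (nat_lit 1102064687) (nat_lit 152) (nat_lit 13138235424) (nat_lit 5) (nat_lit 5) (nat_lit 6) (nat_lit 5) (nat_lit 7) (nat_lit 4) (nat_lit 221) (nat_lit 206) (nat_lit 173)) (XT.lf (nat_lit 0) (nat_lit 31681385894) (nat_lit 152) (nat_lit 5153441227) (nat_lit 0) (nat_lit 5778577132) (nat_lit 5) (nat_lit 5) (nat_lit 7) (nat_lit 4) (nat_lit 5) (nat_lit 4) (nat_lit 222) (nat_lit 206) (nat_lit 172)))))) (XT.nd (nat_lit 624) (nat_lit 0) (nat_lit 0) (XT.nd (nat_lit 312) (nat_lit 76) (nat_lit 0) (XT.nd (nat_lit 156) (nat_lit 76) (nat_lit 0) (XT.nd (nat_lit 78) (nat_lit 0) (nat_lit 0) (XT.lf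 (nat_lit 0) (nat_lit 5727293024) (nat_lit 76) (nat_lit 34013419467) (nat_lit 76) (nat_lit 8081181386) (nat_lit 4) (nat_lit 4) (nat_lit 5) (nat_lit 5) (nat_lit 5) (nat_lit 4) (nat_lit 223) (nat_lit 206) (nat_lit 171)) (XT.lf (nat_lit 0) (nat_lit 18793963667) (nat_lit 76) (nat_lit 30468825376) (nat_lit 76) (nat_lit 4510996582) (nat_lit 4) (nat_lit 4) (nat_lit 5) (nat_lit 5) (nat_lit 5) (nat_lit 4) (nat_lit 224) (nat_lit 206) (nat_lit 170))) (XT.nd (nat_lit 78) (nat_lit 76) (nat_lit 0) (XT.lf (nat_lit 0) (nat_lit 33798591196) (nat_lit 76) (nat_lit 26401078523) (nat_lit 76) (nat_lit 420996935) (nat_lit 4) (nat_lit 4) (nat_lit 5) (nat_lit 5) (nat_lit 5) (nat_lit 4) (nat_lit 225) (nat_lit 206) (nat_lit 169)) (XT.lf (nat_lit 0) (nat_lit 3888797694) (nat_lit 152) (nat_lit 17638516800) (nat_lit 76) (nat_lit 46942668654) (nat_lit 3) (nat_lit 5) (nat_lit 5) (nat_lit 5) (nat_lit 4) (nat_lit 4)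 (nat_lit 226) (nat_lit 206) (nat_lit 168)))) (XT.nd (nat_lit 156) (nat_lit 0) (nat_lit 0) (XT.nd (nat_lit 78) (nat_lit 76) (nat_lit 0) (XT.lf (nat_lit 0) (nat_lit 8791136004) (nat_lit 152) (nat_lit 7115315741) (nat_lit 76) (nat_lit 61588979733) (nat_lit 3) (nat_lit 5) (nat_lit 5) (nat_lit 5) (nat_lit 4) (nat_lit 4) (nat_lit 227) (nat_lit 206) (nat_lit 167)) (XT.lf (nat_lit 0) (nat_lit 5456636537) (nat_lit 76) (nat_lit 9188724514) (nat_lit 152) (nat_lit 73196958189) (nat_lit 2) (nat_lit 5) (nat_lit 3) (nat_lit 5) (nat_lit 4) (nat_lit 4) (nat_lit 228) (nat_lit 206) (nat_lit 166))) (XT.nd (nat_lit 78) (nat_lit 0) (nat_lit 0) (XT.lf (nat_lit 0) (nat_lit 20699234957) (nat_lit 76) (nat_lit 1041624479) (nat_lit 152) (nat_lit 77945998993) (nat_lit 2) (nat_lit 5) (nat_lit 3) (nat_lit 5) (nat_lit 4) (nat_lit 4) (nat_lit 229) (nat_lit 206) (nat_lit 165)) (XT.lf (nat_lit 0) (nat_lit 30237641842)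 (nat_lit 152) (nat_lit 75438568838) (nat_lit 0) (nat_lit 7581401492) (nat_lit 2) (nat_lit 5) (nat_lit 4) (nat_lit 4) (nat_lit 2) (nat_lit 4) (nat_lit 230) (nat_lit 206) (nat_lit 164))))) (XT.nd (nat_lit 312) (nat_lit 0) (nat_lit 0) (XT.nd (nat_lit 156) (nat_lit 0) (nat_lit 0) (XT.nd (nat_lit 78) (nat_lit 0) (nat_lit 0) (XT.lf (nat_lit 0) (nat_lit 40051702399) (nat_lit 152) (nat_lit 71418833509) (nat_lit 0) (nat_lit 17387096399) (nat_lit 2) (nat_lit 5) (nat_lit 4) (nat_lit 4) (nat_lit 2) (nat_lit 4) (nat_lit 231) (nat_lit 206) (nat_lit 163)) (XT.lf (nat_lit 0) (nat_lit 51331923886) (nat_lit 152) (nat_lit 66806639040) (nat_lit 0) (nat_lit 28660043408) (nat_lit 2) (nat_lit 5) (nat_lit 4) (nat_lit 4) (nat_lit 2) (nat_lit 4) (nat_lit 232) (nat_lit 206) (nat_lit 162))) (XT.nd (nat_lit 78) (nat_lit 0) (nat_lit 0) (XT.lf (nat_lit 0) (nat_lit 64299006289) (nat_lit 152) (nat_lit 61511746845)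 (nat_lit 0) (nat_lit 41620800179) (nat_lit 2) (nat_lit 5) (nat_lit 4) (nat_lit 4) (nat_lit 2) (nat_lit 4) (nat_lit 233) (nat_lit 206) (nat_lit 161)) (XT.lf (nat_lit 0) (nat_lit 79206653395) (nat_lit 152) (nat_lit 55430561206) (nat_lit 0) (nat_lit 56522946734) (nat_lit 2) (nat_lit 5) (nat_lit 4) (nat_lit 4) (nat_lit 2) (nat_lit 4) (nat_lit 234) (nat_lit 206) (nat_lit 160)))) (XT.nd (nat_lit 156) (nat_lit 0) (nat_lit 0) (XT.nd (nat_lit 78) (nat_lit 0) (nat_lit 0) (XT.lf (nat_lit 0) (nat_lit 96346536559) (nat_lit 152) (nat_lit 48444102405) (nat_lit 0) (nat_lit 73658046811) (nat_lit 2) (nat_lit 5) (nat_lit 4) (nat_lit 4) (nat_lit 2) (nat_lit 4) (nat_lit 235) (nat_lit 206) (nat_lit 159)) (XT.lf (nat_lit 0) (nat_lit 116054001322) (nat_lit 152) (nat_lit 40415678856) (nat_lit 0) (nat_lit 93361352368) (nat_lit 2) (nat_lit 5) (nat_lit 4) (nat_lit 4) (nat_lit 2) (nat_lit 4) (nat_lit 236) (nat_lit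 206) (nat_lit 158))) (XT.nd (nat_lit 78) (nat_lit 0) (nat_lit 0) (XT.lf (nat_lit 0) (nat_lit 138714628517) (nat_lit 152) (nat_lit 31188212707) (nat_lit 0) (nat_lit 116018362861) (nat_lit 2) (nat_lit 5) (nat_lit 4) (nat_lit 4) (nat_lit 2) (nat_lit 4) (nat_lit 237) (nat_lit 206) (nat_lit 157)) (XT.lf (nat_lit 0) (nat_lit 164771778239) (nat_lit 152) (nat_lit 20581166578) (nat_lit 0) (nat_lit 142072367627) (nat_lit 2) (nat_lit 5) (nat_lit 4) (nat_lit 4) (nat_lit 2) (nat_lit 4) (nat_lit 238) (nat_lit 206) (nat_lit 156))))))))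
noncomputable def xc35 : XT := (XT.nd (nat_lit 2496) (nat_lit 0) (nat_lit 0) (XT.nd (nat_lit 1248) (nat_lit 0) (nat_lit 0) (XT.nd (nat_lit 624) (nat_lit 0) (nat_lit 0) (XT.nd (nat_lit 312) (nat_lit 0) (nat_lit 0) (XT.nd (nat_lit 156) (nat_lit 0) (nat_lit 0) (XT.nd (nat_lit 78) (nat_lit 76) (nat_lit 0) (XT.lf (nat_lit 0) (nat_lit 194735264289) (nat_lit 152) (nat_lit 8387011304) (nat_lit 0) (nat_lit 172033118931) (nat_lit 2) (nat_lit 5) (nat_lit 4) (nat_lit 4) (nat_lit 2) (nat_lit 4) (nat_lit 239) (nat_lit 206) (nat_lit 155)) (XT.lf (nat_lit 0) (nat_lit 6183315956) (nat_lit 76) (nat_lit 223264050756) (nat_lit 76) (nat_lit 200559527358) (nat_lit 1) (nat_lit 4) (nat_lit 2) (nat_lit 5) (nat_lit 2) (nat_lit 4) (nat_lit 240) (nat_lit 206) (nat_lit 154))) (XT.nd (nat_lit 78) (nat_lit 0) (nat_lit 0) (XT.lf (nat_lit 0) (nat_lit 23878501200) (nat_lit 76) (nat_lit 245924368732) (nat_lit 76) (nat_lit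 223217777474) (nat_lit 1) (nat_lit 4) (nat_lit 2) (nat_lit 5) (nat_lit 2) (nat_lit 4) (nat_lit 241) (nat_lit 206) (nat_lit 153)) (XT.lf (nat_lit 0) (nat_lit 44225114831) (nat_lit 76) (nat_lit 271984995524) (nat_lit 76) (nat_lit 249276606126) (nat_lit 1) (nat_lit 4) (nat_lit 2) (nat_lit 5) (nat_lit 2) (nat_lit 4) (nat_lit 242) (nat_lit 206) (nat_lit 152)))) (XT.nd (nat_lit 156) (nat_lit 0) (nat_lit 0) (XT.nd (nat_lit 78) (nat_lit 0) (nat_lit 0) (XT.lf (nat_lit 0) (nat_lit 67621242768) (nat_lit 76) (nat_lit 301955812961) (nat_lit 76) (nat_lit 279245859963) (nat_lit 1) (nat_lit 4) (nat_lit 2) (nat_lit 5) (nat_lit 2) (nat_lit 4) (nat_lit 243) (nat_lit 206) (nat_lit 151)) (XT.lf (nat_lit 0) (nat_lit 94524635340) (nat_lit 76) (nat_lit 336423206600) (nat_lit 76) (nat_lit 313711893950) (nat_lit 1) (nat_lit 4) (nat_lit 2) (nat_lit 5) (nat_lit 2) (nat_lit 4) (nat_lit 244) (nat_lit 206) (nat_lit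 150))) (XT.nd (nat_lit 78) (nat_lit 0) (nat_lit 0) (XT.lf (nat_lit 0) (nat_lit 125461663271) (nat_lit 76) (nat_lit 376061538492) (nat_lit 76) (nat_lit 353349043536) (nat_lit 1) (nat_lit 4) (nat_lit 2) (nat_lit 5) (nat_lit 2) (nat_lit 4) (nat_lit 245) (nat_lit 206) (nat_lit 149)) (XT.lf (nat_lit 0) (nat_lit 161037616238) (nat_lit 76) (nat_lit 421646341217) (nat_lit 76) (nat_lit 398932818169) (nat_lit 1) (nat_lit 4) (nat_lit 2) (nat_lit 5) (nat_lit 2) (nat_lit 4) (nat_lit 246) (nat_lit 206) (nat_lit 148))))) (XT.nd (nat_lit 312) (nat_lit 0) (nat_lit 0) (XT.nd (nat_lit 156) (nat_lit 0) (nat_lit 0) (XT.nd (nat_lit 78) (nat_lit 0) (nat_lit 0) (XT.lf (nat_lit 0) (nat_lit 201948545496) (nat_lit 76) (nat_lit 474069491349) (nat_lit 76) (nat_lit 451355074308) (nat_lit 1) (nat_lit 4) (nat_lit 2) (nat_lit 5) (nat_lit 2) (nat_lit 4) (nat_lit 247) (nat_lit 206) (nat_lit 147)) (XT.lf (nat_lit 0)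 (nat_lit 248994882268) (nat_lit 76) (nat_lit 534356659219) (nat_lit 76) (nat_lit 511641464792) (nat_lit 1) (nat_lit 4) (nat_lit 2) (nat_lit 5) (nat_lit 2) (nat_lit 4) (nat_lit 248) (nat_lit 206) (nat_lit 146))) (XT.nd (nat_lit 78) (nat_lit 0) (nat_lit 0) (XT.lf (nat_lit 0) (nat_lit 303097098361) (nat_lit 76) (nat_lit 603687376370) (nat_lit 76) (nat_lit 580971505956) (nat_lit 1) (nat_lit 4) (nat_lit 2) (nat_lit 5) (nat_lit 2) (nat_lit 4) (nat_lit 249) (nat_lit 206) (nat_lit 145)) (XT.lf (nat_lit 0) (nat_lit 365313715395) (nat_lit 76) (nat_lit 683418113356) (nat_lit 76) (nat_lit 660701655127) (nat_lit 1) (nat_lit 4) (nat_lit 2) (nat_lit 5) (nat_lit 2) (nat_lit 4) (nat_lit 250) (nat_lit 206) (nat_lit 144)))) (XT.nd (nat_lit 156) (nat_lit 0) (nat_lit 0) (XT.nd (nat_lit 78) (nat_lit 0) (nat_lit 0) (XT.lf (nat_lit 0) (nat_lit 436862015006) (nat_lit 76) (nat_lit 775108819379) (nat_lit 76)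 (nat_lit 752391850007) (nat_lit 1) (nat_lit 4) (nat_lit 2) (nat_lit 5) (nat_lit 2) (nat_lit 4) (nat_lit 251) (nat_lit 206) (nat_lit 143)) (XT.lf (nat_lit 0) (nat_lit 519141855231) (nat_lit 76) (nat_lit 880553443035) (nat_lit 76) (nat_lit 857836029190) (nat_lit 1) (nat_lit 4) (nat_lit 2) (nat_lit 5) (nat_lit 2) (nat_lit 4) (nat_lit 252) (nat_lit 206) (nat_lit 142))) (XT.nd (nat_lit 78) (nat_lit 0) (nat_lit 0) (XT.lf (nat_lit 0) (nat_lit 613763059031) (nat_lit 76) (nat_lit 1001815031308) (nat_lit 76) (nat_lit 979097230965) (nat_lit 1) (nat_lit 4) (nat_lit 2) (nat_lit 5) (nat_lit 2) (nat_lit 4) (nat_lit 253) (nat_lit 206) (nat_lit 141)) (XT.lf (nat_lit 0) (nat_lit 722576910827) (nat_lit 76) (nat_lit 1141266093535) (nat_lit 76) (nat_lit 1118547957107) (nat_lit 1) (nat_lit 4) (nat_lit 2) (nat_lit 5) (nat_lit 2) (nat_lit 4) (nat_lit 254) (nat_lit 206) (nat_lit 140)))))) (XT.nd (nat_lit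 624) (nat_lit 0) (nat_lit 0) (XT.nd (nat_lit 312) (nat_lit 0) (nat_lit 0) (XT.nd (nat_lit 156) (nat_lit 0) (nat_lit 0) (XT.nd (nat_lit 78) (nat_lit 0) (nat_lit 0) (XT.lf (nat_lit 0) (nat_lit 847712377286) (nat_lit 76) (nat_lit 1301635020062) (nat_lit 76) (nat_lit 1278916591387) (nat_lit 1) (nat_lit 4) (nat_lit 2) (nat_lit 5) (nat_lit 2) (nat_lit 4) (nat_lit 255) (nat_lit 206) (nat_lit 139)) (XT.lf (nat_lit 0) (nat_lit 991617761012) (nat_lit 76) (nat_lit 1486059463802) (nat_lit 76) (nat_lit 1463340780997) (nat_lit 1) (nat_lit 4) (nat_lit 2) (nat_lit 5) (nat_lit 2) (nat_lit 4) (nat_lit 256) (nat_lit 206) (nat_lit 138))) (XT.nd (nat_lit 78) (nat_lit 0) (nat_lit 0) (XT.lf (nat_lit 0) (nat_lit 1157108602121) (nat_lit 76) (nat_lit 1698147729086) (nat_lit 76) (nat_lit 1675428825300) (nat_lit 1) (nat_lit 4) (nat_lit 2) (nat_lit 5) (nat_lit 2) (nat_lit 4) (nat_lit 257) (nat_lit 206) (nat_lit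 137)) (XT.lf (nat_lit 0) (nat_lit 1347422764897) (nat_lit 76) (nat_lit 1942049368933) (nat_lit 76) (nat_lit 1919330272989) (nat_lit 1) (nat_lit 4) (nat_lit 2) (nat_lit 5) (nat_lit 2) (nat_lit 4) (nat_lit 258) (nat_lit 206) (nat_lit 136)))) (XT.nd (nat_lit 156) (nat_lit 0) (nat_lit 0) (XT.nd (nat_lit 78) (nat_lit 0) (nat_lit 0) (XT.lf (nat_lit 0) (nat_lit 1566283787305) (nat_lit 76) (nat_lit 2222536371947) (nat_lit 76) (nat_lit 2199817108910) (nat_lit 1) (nat_lit 4) (nat_lit 2) (nat_lit 5) (nat_lit 2) (nat_lit 4) (nat_lit 259) (nat_lit 206) (nat_lit 135)) (XT.lf (nat_lit 0) (nat_lit 1817973732829) (nat_lit 76) (nat_lit 2545096527319) (nat_lit 76) (nat_lit 2522377118982) (nat_lit 1) (nat_lit 4) (nat_lit 2) (nat_lit 5) (nat_lit 2) (nat_lit 4) (nat_lit 260) (nat_lit 206) (nat_lit 134))) (XT.nd (nat_lit 78) (nat_lit 0) (nat_lit 0) (XT.lf (nat_lit 0) (nat_lit 2107416969967) (nat_lit 76)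 (nat_lit 2916040794608) (nat_lit 76) (nat_lit 2893321259925) (nat_lit 1) (nat_lit 4) (nat_lit 2) (nat_lit 5) (nat_lit 2) (nat_lit 4) (nat_lit 261) (nat_lit 206) (nat_lit 133)) (XT.lf (nat_lit 0) (nat_lit 2440276518577) (nat_lit 76) (nat_lit 3342626779047) (nat_lit 76) (nat_lit 3319907134497) (nat_lit 1) (nat_lit 4) (nat_lit 2) (nat_lit 5) (nat_lit 2) (nat_lit 4) (nat_lit 262) (nat_lit 206) (nat_lit 132))))) (XT.nd (nat_lit 312) (nat_lit 0) (nat_lit 0) (XT.nd (nat_lit 156) (nat_lit 0) (nat_lit 0) (XT.nd (nat_lit 78) (nat_lit 0) (nat_lit 0) (XT.lf (nat_lit 0) (nat_lit 2823064848088) (nat_lit 76) (nat_lit 3833200728155) (nat_lit 76) (nat_lit 3810480988068) (nat_lit 1) (nat_lit 4) (nat_lit 2) (nat_lit 5) (nat_lit 2) (nat_lit 4) (nat_lit 263) (nat_lit 206) (nat_lit 131)) (XT.lf (nat_lit 0) (nat_lit 3263271295382) (nat_lit 76) (nat_lit 4397360827894) (nat_lit 76) (nat_lit 4374641004732)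 (nat_lit 1) (nat_lit 4) (nat_lit 2) (nat_lit 5) (nat_lit 2) (nat_lit 4) (nat_lit 264) (nat_lit 206) (nat_lit 130))) (XT.nd (nat_lit 78) (nat_lit 0) (nat_lit 0) (XT.lf (nat_lit 0) (nat_lit 3769508595297) (nat_lit 76) (nat_lit 5046144993258) (nat_lit 76) (nat_lit 5023425097857) (nat_lit 1) (nat_lit 4) (nat_lit 2) (nat_lit 5) (nat_lit 2) (nat_lit 4) (nat_lit 265) (nat_lit 206) (nat_lit 129)) (XT.lf (nat_lit 0) (nat_lit 4351681390657) (nat_lit 76) (nat_lit 5792246827483) (nat_lit 76) (nat_lit 5769526869266) (nat_lit 1) (nat_lit 4) (nat_lit 2) (nat_lit 5) (nat_lit 2) (nat_lit 4) (nat_lit 266) (nat_lit 206) (nat_lit 128)))) (XT.nd (nat_lit 156) (nat_lit 0) (nat_lit 0) (XT.nd (nat_lit 78) (nat_lit 0) (nat_lit 0) (XT.lf (nat_lit 0) (nat_lit 5021180018764) (nat_lit 76) (nat_lit 6650263975152) (nat_lit 76) (nat_lit 6627543962311) (nat_lit 1) (nat_lit 4) (nat_lit 2) (nat_lit 5) (nat_lit 2) (nat_lit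 4) (nat_lit 267) (nat_lit 206) (nat_lit 127)) (XT.lf (nat_lit 0) (nat_lit 5791103365818) (nat_lit 76) (nat_lit 7636983728284) (nat_lit 76) (nat_lit 7614263667945) (nat_lit 1) (nat_lit 4) (nat_lit 2) (nat_lit 5) (nat_lit 2) (nat_lit 4) (nat_lit 268) (nat_lit 206) (nat_lit 126))) (XT.nd (nat_lit 78) (nat_lit 0) (nat_lit 0) (XT.lf (nat_lit 0) (nat_lit 6676515149481) (nat_lit 76) (nat_lit 8771711473354) (nat_lit 76) (nat_lit 8748991371712) (nat_lit 1) (nat_lit 4) (nat_lit 2) (nat_lit 5) (nat_lit 2) (nat_lit 4) (nat_lit 269) (nat_lit 206) (nat_lit 125)) (XT.lf (nat_lit 0) (nat_lit 7694738643779) (nat_lit 76) (nat_lit 10076648405373) (nat_lit 76) (nat_lit 10053928267815) (nat_lit 1) (nat_lit 4) (nat_lit 2) (nat_lit 5) (nat_lit 2) (nat_lit 4) (nat_lit 270) (nat_lit 206) (nat_lit 124))))))) (XT.nd (nat_lit 26988) (nat_lit 0) (nat_lit 76) (XT.nd (nat_lit 26364) (nat_lit 0) (nat_lit 532) (XT.nd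 (nat_lit 312) (nat_lit 0) (nat_lit 0) (XT.nd (nat_lit 156) (nat_lit 0) (nat_lit 0) (XT.nd (nat_lit 78) (nat_lit 0) (nat_lit 0) (XT.lf (nat_lit 0) (nat_lit 8865695612732) (nat_lit 76) (nat_lit 11577325899099) (nat_lit 76) (nat_lit 11554605730311) (nat_lit 1) (nat_lit 4) (nat_lit 2) (nat_lit 5) (nat_lit 2) (nat_lit 4) (nat_lit 271) (nat_lit 206) (nat_lit 123)) (XT.lf (nat_lit 0) (nat_lit 10212296083994) (nat_lit 76) (nat_lit 13303105035931) (nat_lit 76) (nat_lit 13280384839985) (nat_lit 1) (nat_lit 4) (nat_lit 2) (nat_lit 5) (nat_lit 2) (nat_lit 4) (nat_lit 272) (nat_lit 206) (nat_lit 122))) (XT.nd (nat_lit 78) (nat_lit 0) (nat_lit 0) (XT.lf (nat_lit 0) (nat_lit 11760886588523) (nat_lit 76) (nat_lit 15287751059850) (nat_lit 76) (nat_lit 15265030840289) (nat_lit 1) (nat_lit 4) (nat_lit 2) (nat_lit 5) (nat_lit 2) (nat_lit 4) (nat_lit 273) (nat_lit 206) (nat_lit 121)) (XT.lf (nat_lit 0)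 (nat_lit 13541765636192) (nat_lit 76) (nat_lit 17570094001759) (nat_lit 76) (nat_lit 17547373761663) (nat_lit 1) (nat_lit 4) (nat_lit 2) (nat_lit 5) (nat_lit 2) (nat_lit 4) (nat_lit 274) (nat_lit 206) (nat_lit 120)))) (XT.nd (nat_lit 156) (nat_lit 0) (nat_lit 0) (XT.nd (nat_lit 78) (nat_lit 0) (nat_lit 0) (XT.lf (nat_lit 0) (nat_lit 15589776512715) (nat_lit 76) (nat_lit 20194788397478) (nat_lit 76) (nat_lit 20172068139525) (nat_lit 1) (nat_lit 4) (nat_lit 2) (nat_lit 5) (nat_lit 2) (nat_lit 4) (nat_lit 275) (nat_lit 206) (nat_lit 119)) (XT.lf (nat_lit 0) (nat_lit 17944988996111) (nat_lit 76) (nat_lit 23213186963445) (nat_lit 76) (nat_lit 23190466689965) (nat_lit 1) (nat_lit 4) (nat_lit 2) (nat_lit 5) (nat_lit 2) (nat_lit 4) (nat_lit 276) (nat_lit 206) (nat_lit 118))) (XT.nd (nat_lit 25818) (nat_lit 0) (nat_lit 836) (XT.lf (nat_lit 0) (nat_lit 20653483330621) (nat_lit 76) (nat_lit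 26684345323776) (nat_lit 76) (nat_lit 26661625036794) (nat_lit 1) (nat_lit 4) (nat_lit 2) (nat_lit 5) (nat_lit 2) (nat_lit 4) (nat_lit 277) (nat_lit 206) (nat_lit 117)) (XT.lf (nat_lit 0) (nat_lit 1325099282) (nat_lit 0) (nat_lit 1325099282) (nat_lit 228) (nat_lit 3022320022) (nat_lit 12) (nat_lit 5) (nat_lit 12) (nat_lit 3) (nat_lit 15) (nat_lit 3) (nat_lit 207) (nat_lit 207) (nat_lit 186))))) (XT.nd (nat_lit 312) (nat_lit 304) (nat_lit 0) (XT.nd (nat_lit 156) (nat_lit 0) (nat_lit 0) (XT.nd (nat_lit 78) (nat_lit 0) (nat_lit 0) (XT.lf (nat_lit 0) (nat_lit 6181513149) (nat_lit 228) (nat_lit 4591046436) (nat_lit 304) (nat_lit 1341388384) (nat_lit 12) (nat_lit 5) (nat_lit 15) (nat_lit 3) (nat_lit 16) (nat_lit 5) (nat_lit 208) (nat_lit 207) (nat_lit 185)) (XT.lf (nat_lit 0) (nat_lit 7247306385) (nat_lit 228) (nat_lit 50033409) (nat_lit 304) (nat_lit 5694657995) (nat_lit 12) (nat_lit 5)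 (nat_lit 15) (nat_lit 3) (nat_lit 16) (nat_lit 5) (nat_lit 209) (nat_lit 207) (nat_lit 184))) (XT.nd (nat_lit 78) (nat_lit 0) (nat_lit 76) (XT.lf (nat_lit 76) (nat_lit 5627812208) (nat_lit 0) (nat_lit 3014113737) (nat_lit 304) (nat_lit 5335945432) (nat_lit 13) (nat_lit 5) (nat_lit 12) (nat_lit 5) (nat_lit 16) (nat_lit 5) (nat_lit 210) (nat_lit 207) (nat_lit 183)) (XT.lf (nat_lit 0) (nat_lit 10270709976) (nat_lit 228) (nat_lit 3081326068) (nat_lit 76) (nat_lit 1757113704) (nat_lit 13) (nat_lit 5) (nat_lit 16) (nat_lit 5) (nat_lit 14) (nat_lit 5) (nat_lit 211) (nat_lit 207) (nat_lit 182)))) (XT.nd (nat_lit 156) (nat_lit 152) (nat_lit 0) (XT.nd (nat_lit 78) (nat_lit 0) (nat_lit 0) (XT.lf (nat_lit 0) (nat_lit 3059838877) (nat_lit 228) (nat_lit 9304704655) (nat_lit 304) (nat_lit 4013570446) (nat_lit 10) (nat_lit 5) (nat_lit 13) (nat_lit 5) (nat_lit 14) (nat_lit 5) (nat_lit 212) (nat_lit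 207) (nat_lit 181)) (XT.lf (nat_lit 0) (nat_lit 10423846000) (nat_lit 228) (nat_lit 4464784987) (nat_lit 304) (nat_lit 2932324931) (nat_lit 10) (nat_lit 5) (nat_lit 13) (nat_lit 5) (nat_lit 14) (nat_lit 5) (nat_lit 213) (nat_lit 207) (nat_lit 180))) (XT.nd (nat_lit 78) (nat_lit 152) (nat_lit 0) (XT.lf (nat_lit 0) (nat_lit 17797900843) (nat_lit 304) (nat_lit 678874478) (nat_lit 76) (nat_lit 1003298133) (nat_lit 10) (nat_lit 5) (nat_lit 14) (nat_lit 5) (nat_lit 11) (nat_lit 4) (nat_lit 214) (nat_lit 207) (nat_lit 179)) (XT.lf (nat_lit 0) (nat_lit 287357071) (nat_lit 152) (nat_lit 13869753667) (nat_lit 76) (nat_lit 7156584507) (nat_lit 8) (nat_lit 5) (nat_lit 10) (nat_lit 5) (nat_lit 9) (nat_lit 5) (nat_lit 215) (nat_lit 207) (nat_lit 178)))))) (XT.nd (nat_lit 624) (nat_lit 228) (nat_lit 0) (XT.nd (nat_lit 312) (nat_lit 76) (nat_lit 0) (XT.nd (nat_lit 156) (nat_lit 0) (nat_lit 0) (XT.nd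 (nat_lit 78) (nat_lit 152) (nat_lit 0) (XT.lf (nat_lit 0) (nat_lit 2384142268) (nat_lit 152) (nat_lit 6678915250) (nat_lit 76) (nat_lit 14347228821) (nat_lit 8) (nat_lit 5) (nat_lit 10) (nat_lit 5) (nat_lit 9) (nat_lit 5) (nat_lit 216) (nat_lit 207) (nat_lit 177)) (XT.lf (nat_lit 0) (nat_lit 1706317151) (nat_lit 152) (nat_lit 3130976122) (nat_lit 228) (nat_lit 20978272863) (nat_lit 6) (nat_lit 5) (nat_lit 8) (nat_lit 5) (nat_lit 9) (nat_lit 5) (nat_lit 217) (nat_lit 207) (nat_lit 176))) (XT.nd (nat_lit 78) (nat_lit 0) (nat_lit 0) (XT.lf (nat_lit 0) (nat_lit 8150190056) (nat_lit 228) (nat_lit 16637325585) (nat_lit 76) (nat_lit 3720771285) (nat_lit 6) (nat_lit 5) (nat_lit 9) (nat_lit 5) (nat_lit 7) (nat_lit 4) (nat_lit 218) (nat_lit 207) (nat_lit 175)) (XT.lf (nat_lit 0) (nat_lit 12085802400) (nat_lit 228) (nat_lit 8227231109) (nat_lit 76) (nat_lit 11273376033) (nat_lit 6) (nat_lit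 5) (nat_lit 9) (nat_lit 5) (nat_lit 7) (nat_lit 4) (nat_lit 219) (nat_lit 207) (nat_lit 174)))) (XT.nd (nat_lit 156) (nat_lit 0) (nat_lit 0) (XT.nd (nat_lit 78) (nat_lit 0) (nat_lit 0) (XT.lf (nat_lit 0) (nat_lit 1553533069) (nat_lit 76) (nat_lit 15102279794) (nat_lit 152) (nat_lit 18464143043) (nat_lit 5) (nat_lit 5) (nat_lit 6) (nat_lit 5) (nat_lit 7) (nat_lit 4) (nat_lit 220) (nat_lit 207) (nat_lit 173)) (XT.lf (nat_lit 0) (nat_lit 13698214772) (nat_lit 76) (nat_lit 8624389709) (nat_lit 152) (nat_lit 16799510671) (nat_lit 5) (nat_lit 5) (nat_lit 6) (nat_lit 5) (nat_lit 7) (nat_lit 4) (nat_lit 221) (nat_lit 207) (nat_lit 172))) (XT.nd (nat_lit 78) (nat_lit 0) (nat_lit 0) (XT.lf (nat_lit 0) (nat_lit 27640402476) (nat_lit 76) (nat_lit 1182681736) (nat_lit 152) (nat_lit 14904200941) (nat_lit 5) (nat_lit 5) (nat_lit 6) (nat_lit 5) (nat_lit 7) (nat_lit 4) (nat_lit 222) (nat_lit 207)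 (nat_lit 171)) (XT.lf (nat_lit 0) (nat_lit 36589546857) (nat_lit 152) (nat_lit 5677800448) (nat_lit 0) (nat_lit 6712453031) (nat_lit 5) (nat_lit 5) (nat_lit 7) (nat_lit 4) (nat_lit 5) (nat_lit 4) (nat_lit 223) (nat_lit 207) (nat_lit 170))))) (XT.nd (nat_lit 312) (nat_lit 76) (nat_lit 0) (XT.nd (nat_lit 156) (nat_lit 76) (nat_lit 0) (XT.nd (nat_lit 78) (nat_lit 0) (nat_lit 0) (XT.lf (nat_lit 0) (nat_lit 6823741353) (nat_lit 76) (nat_lit 39023517724) (nat_lit 76) (nat_lit 9124171105) (nat_lit 4) (nat_lit 4) (nat_lit 5) (nat_lit 5) (nat_lit 5) (nat_lit 4) (nat_lit 224) (nat_lit 207) (nat_lit 169)) (XT.lf (nat_lit 0) (nat_lit 21819453326) (nat_lit 76) (nat_lit 34959223389) (nat_lit 76) (nat_lit 5040526514) (nat_lit 4) (nat_lit 4) (nat_lit 5) (nat_lit 5) (nat_lit 5) (nat_lit 4) (nat_lit 225) (nat_lit 207) (nat_lit 168))) (XT.nd (nat_lit 78) (nat_lit 76) (nat_lit 0) (XT.lf (nat_lit 0) (nat_lit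 39047853882) (nat_lit 76) (nat_lit 30291739611) (nat_lit 76) (nat_lit 356216427) (nat_lit 4) (nat_lit 4) (nat_lit 5) (nat_lit 5) (nat_lit 5) (nat_lit 4) (nat_lit 226) (nat_lit 207) (nat_lit 167)) (XT.lf (nat_lit 0) (nat_lit 4573457201) (nat_lit 152) (nat_lit 20117221774) (nat_lit 76) (nat_lit 54033496143) (nat_lit 3) (nat_lit 5) (nat_lit 5) (nat_lit 5) (nat_lit 4) (nat_lit 4) (nat_lit 227) (nat_lit 207) (nat_lit 166)))) (XT.nd (nat_lit 156) (nat_lit 0) (nat_lit 0) (XT.nd (nat_lit 78) (nat_lit 76) (nat_lit 0) (XT.lf (nat_lit 0) (nat_lit 10197928016) (nat_lit 152) (nat_lit 8037332627) (nat_lit 76) (nat_lit 70870306859) (nat_lit 3) (nat_lit 5) (nat_lit 5) (nat_lit 5) (nat_lit 4) (nat_lit 4) (nat_lit 228) (nat_lit 207) (nat_lit 165)) (XT.lf (nat_lit 0) (nat_lit 6413808835) (nat_lit 76) (nat_lit 10510726174) (nat_lit 152) (nat_lit 84080941469) (nat_lit 2) (nat_lit 5) (nat_lit 3) (nat_lit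 5) (nat_lit 4) (nat_lit 4) (nat_lit 229) (nat_lit 207) (nat_lit 164))) (XT.nd (nat_lit 78) (nat_lit 0) (nat_lit 0) (XT.lf (nat_lit 0) (nat_lit 23924708737) (nat_lit 76) (nat_lit 1148905527) (nat_lit 152) (nat_lit 89554802800) (nat_lit 2) (nat_lit 5) (nat_lit 3) (nat_lit 5) (nat_lit 4) (nat_lit 4) (nat_lit 230) (nat_lit 207) (nat_lit 163)) (XT.lf (nat_lit 0) (nat_lit 34837334510) (nat_lit 152) (nat_lit 86641283531) (nat_lit 0) (nat_lit 8757397483) (nat_lit 2) (nat_lit 5) (nat_lit 4) (nat_lit 4) (nat_lit 2) (nat_lit 4) (nat_lit 231) (nat_lit 207) (nat_lit 162))))))))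
noncomputable def xc36 : XT := (XT.nd (nat_lit 2496) (nat_lit 0) (nat_lit 0) (XT.nd (nat_lit 1248) (nat_lit 0) (nat_lit 0) (XT.nd (nat_lit 624) (nat_lit 76) (nat_lit 0) (XT.nd (nat_lit 312) (nat_lit 0) (nat_lit 0) (XT.nd (nat_lit 156) (nat_lit 0) (nat_lit 0) (XT.nd (nat_lit 78) (nat_lit 0) (nat_lit 0) (XT.lf (nat_lit 0) (nat_lit 46115150273) (nat_lit 152) (nat_lit 82033336245) (nat_lit 0) (nat_lit 20028887613) (nat_lit 2) (nat_lit 5) (nat_lit 4) (nat_lit 4) (nat_lit 2) (nat_lit 4) (nat_lit 232) (nat_lit 207) (nat_lit 161)) (XT.lf (nat_lit 0) (nat_lit 59080140742) (nat_lit 152) (nat_lit 76742137252) (nat_lit 0) (nat_lit 32988377532) (nat_lit 2) (nat_lit 5) (nat_lit 4) (nat_lit 4) (nat_lit 2) (nat_lit 4) (nat_lit 233) (nat_lit 207) (nat_lit 160))) (XT.nd (nat_lit 78) (nat_lit 0) (nat_lit 0) (XT.lf (nat_lit 0) (nat_lit 73985968775) (nat_lit 152) (nat_lit 70664163094) (nat_lit 0) (nat_lit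 47889422478) (nat_lit 2) (nat_lit 5) (nat_lit 4) (nat_lit 4) (nat_lit 2) (nat_lit 4) (nat_lit 234) (nat_lit 207) (nat_lit 159)) (XT.lf (nat_lit 0) (nat_lit 91124270136) (nat_lit 152) (nat_lit 63680496885) (nat_lit 0) (nat_lit 65023564633) (nat_lit 2) (nat_lit 5) (nat_lit 4) (nat_lit 4) (nat_lit 2) (nat_lit 4) (nat_lit 235) (nat_lit 207) (nat_lit 158)))) (XT.nd (nat_lit 156) (nat_lit 0) (nat_lit 0) (XT.nd (nat_lit 78) (nat_lit 0) (nat_lit 0) (XT.lf (nat_lit 0) (nat_lit 110830359419) (nat_lit 152) (nat_lit 55654501677) (nat_lit 0) (nat_lit 84726037215) (nat_lit 2) (nat_lit 5) (nat_lit 4) (nat_lit 4) (nat_lit 2) (nat_lit 4) (nat_lit 236) (nat_lit 207) (nat_lit 157)) (XT.lf (nat_lit 0) (nat_lit 133489790543) (nat_lit 152) (nat_lit 46429147129) (nat_lit 0) (nat_lit 107382323381) (nat_lit 2) (nat_lit 5) (nat_lit 4) (nat_lit 4) (nat_lit 2) (nat_lit 4) (nat_lit 237) (nat_lit 207) (nat_lit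 156))) (XT.nd (nat_lit 78) (nat_lit 0) (nat_lit 0) (XT.lf (nat_lit 0) (nat_lit 159545900205) (nat_lit 152) (nat_lit 35823937174) (nat_lit 0) (nat_lit 133435698297) (nat_lit 2) (nat_lit 5) (nat_lit 4) (nat_lit 4) (nat_lit 2) (nat_lit 4) (nat_lit 238) (nat_lit 207) (nat_lit 155)) (XT.lf (nat_lit 0) (nat_lit 189508481854) (nat_lit 152) (nat_lit 23631378574) (nat_lit 0) (nat_lit 163395901907) (nat_lit 2) (nat_lit 5) (nat_lit 4) (nat_lit 4) (nat_lit 2) (nat_lit 4) (nat_lit 239) (nat_lit 207) (nat_lit 154))))) (XT.nd (nat_lit 312) (nat_lit 0) (nat_lit 0) (XT.nd (nat_lit 156) (nat_lit 0) (nat_lit 0) (XT.nd (nat_lit 78) (nat_lit 76) (nat_lit 0) (XT.lf (nat_lit 0) (nat_lit 223963759915) (nat_lit 152) (nat_lit 9612921269) (nat_lit 0) (nat_lit 197849112107) (nat_lit 2) (nat_lit 5) (nat_lit 4) (nat_lit 4) (nat_lit 2) (nat_lit 4) (nat_lit 240) (nat_lit 207) (nat_lit 153)) (XT.lf (nat_lit 0) (nat_lit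 7141494093) (nat_lit 76) (nat_lit 256740079339) (nat_lit 76) (nat_lit 230623633392) (nat_lit 1) (nat_lit 4) (nat_lit 2) (nat_lit 5) (nat_lit 2) (nat_lit 4) (nat_lit 241) (nat_lit 207) (nat_lit 152))) (XT.nd (nat_lit 78) (nat_lit 0) (nat_lit 0) (XT.lf (nat_lit 0) (nat_lit 27486955287) (nat_lit 76) (nat_lit 282801216190) (nat_lit 76) (nat_lit 256683206643) (nat_lit 1) (nat_lit 4) (nat_lit 2) (nat_lit 5) (nat_lit 2) (nat_lit 4) (nat_lit 242) (nat_lit 207) (nat_lit 151)) (XT.lf (nat_lit 0) (nat_lit 50882081105) (nat_lit 76) (nat_lit 312772477155) (nat_lit 76) (nat_lit 286653107956) (nat_lit 1) (nat_lit 4) (nat_lit 2) (nat_lit 5) (nat_lit 2) (nat_lit 4) (nat_lit 243) (nat_lit 207) (nat_lit 150)))) (XT.nd (nat_lit 156) (nat_lit 0) (nat_lit 0) (XT.nd (nat_lit 78) (nat_lit 0) (nat_lit 0) (XT.lf (nat_lit 0) (nat_lit 77784602270) (nat_lit 76) (nat_lit 347240256472) (nat_lit 76) (nat_lit 321119704967)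 (nat_lit 1) (nat_lit 4) (nat_lit 2) (nat_lit 5) (nat_lit 2) (nat_lit 4) (nat_lit 244) (nat_lit 207) (nat_lit 149)) (XT.lf (nat_lit 0) (nat_lit 108720872455) (nat_lit 76) (nat_lit 386878923735) (nat_lit 76) (nat_lit 360757344138) (nat_lit 1) (nat_lit 4) (nat_lit 2) (nat_lit 5) (nat_lit 2) (nat_lit 4) (nat_lit 245) (nat_lit 207) (nat_lit 148))) (XT.nd (nat_lit 78) (nat_lit 0) (nat_lit 0) (XT.lf (nat_lit 0) (nat_lit 144296166513) (nat_lit 76) (nat_lit 432464018088) (nat_lit 76) (nat_lit 406341544497) (nat_lit 1) (nat_lit 4) (nat_lit 2) (nat_lit 5) (nat_lit 2) (nat_lit 4) (nat_lit 246) (nat_lit 207) (nat_lit 147)) (XT.lf (nat_lit 0) (nat_lit 185206522806) (nat_lit 76) (nat_lit 484887421810) (nat_lit 76) (nat_lit 458764170834) (nat_lit 1) (nat_lit 4) (nat_lit 2) (nat_lit 5) (nat_lit 2) (nat_lit 4) (nat_lit 247) (nat_lit 207) (nat_lit 146)))))) (XT.nd (nat_lit 624) (nat_lit 0) (nat_lit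 0) (XT.nd (nat_lit 312) (nat_lit 0) (nat_lit 0) (XT.nd (nat_lit 156) (nat_lit 0) (nat_lit 0) (XT.nd (nat_lit 78) (nat_lit 0) (nat_lit 0) (XT.lf (nat_lit 0) (nat_lit 232252361348) (nat_lit 76) (nat_lit 545174810191) (nat_lit 76) (nat_lit 519050883228) (nat_lit 1) (nat_lit 4) (nat_lit 2) (nat_lit 5) (nat_lit 2) (nat_lit 4) (nat_lit 248) (nat_lit 207) (nat_lit 145)) (XT.lf (nat_lit 0) (nat_lit 286354144198) (nat_lit 76) (nat_lit 614505719092) (nat_lit 76) (nat_lit 588381204314) (nat_lit 1) (nat_lit 4) (nat_lit 2) (nat_lit 5) (nat_lit 2) (nat_lit 4) (nat_lit 249) (nat_lit 207) (nat_lit 144))) (XT.nd (nat_lit 78) (nat_lit 0) (nat_lit 0) (XT.lf (nat_lit 0) (nat_lit 348570384498) (nat_lit 76) (nat_lit 694236622818) (nat_lit 76) (nat_lit 668111596896) (nat_lit 1) (nat_lit 4) (nat_lit 2) (nat_lit 5) (nat_lit 2) (nat_lit 4) (nat_lit 250) (nat_lit 207) (nat_lit 143)) (XT.lf (nat_lit 0) (nat_lit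 420118356515) (nat_lit 76) (nat_lit 785927473831) (nat_lit 76) (nat_lit 759802003437) (nat_lit 1) (nat_lit 4) (nat_lit 2) (nat_lit 5) (nat_lit 2) (nat_lit 4) (nat_lit 251) (nat_lit 207) (nat_lit 142)))) (XT.nd (nat_lit 156) (nat_lit 0) (nat_lit 0) (XT.nd (nat_lit 78) (nat_lit 0) (nat_lit 0) (XT.lf (nat_lit 0) (nat_lit 502397911875) (nat_lit 76) (nat_lit 891372223565) (nat_lit 76) (nat_lit 865246366673) (nat_lit 1) (nat_lit 4) (nat_lit 2) (nat_lit 5) (nat_lit 2) (nat_lit 4) (nat_lit 252) (nat_lit 207) (nat_lit 141)) (XT.lf (nat_lit 0) (nat_lit 597018867966) (nat_lit 76) (nat_lit 1012633921472) (nat_lit 76) (nat_lit 986507728495) (nat_lit 1) (nat_lit 4) (nat_lit 2) (nat_lit 5) (nat_lit 2) (nat_lit 4) (nat_lit 253) (nat_lit 207) (nat_lit 140))) (XT.nd (nat_lit 78) (nat_lit 0) (nat_lit 0) (XT.lf (nat_lit 0) (nat_lit 705832504364) (nat_lit 76) (nat_lit 1152085079032) (nat_lit 76) (nat_lit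 1125958593807) (nat_lit 1) (nat_lit 4) (nat_lit 2) (nat_lit 5) (nat_lit 2) (nat_lit 4) (nat_lit 254) (nat_lit 207) (nat_lit 139)) (XT.lf (nat_lit 0) (nat_lit 830967783520) (nat_lit 76) (nat_lit 1312454088459) (nat_lit 76) (nat_lit 1286327349105) (nat_lit 1) (nat_lit 4) (nat_lit 2) (nat_lit 5) (nat_lit 2) (nat_lit 4) (nat_lit 255) (nat_lit 207) (nat_lit 138))))) (XT.nd (nat_lit 312) (nat_lit 0) (nat_lit 0) (XT.nd (nat_lit 156) (nat_lit 0) (nat_lit 0) (XT.nd (nat_lit 78) (nat_lit 0) (nat_lit 0) (XT.lf (nat_lit 0) (nat_lit 974873004373) (nat_lit 76) (nat_lit 1496878604284) (nat_lit 76) (nat_lit 1470751643949) (nat_lit 1) (nat_lit 4) (nat_lit 2) (nat_lit 5) (nat_lit 2) (nat_lit 4) (nat_lit 256) (nat_lit 207) (nat_lit 137)) (XT.lf (nat_lit 0) (nat_lit 1140363703855) (nat_lit 76) (nat_lit 1708966932252) (nat_lit 76) (nat_lit 1682839779759) (nat_lit 1) (nat_lit 4) (nat_lit 2) (nat_lit 5)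 (nat_lit 2) (nat_lit 4) (nat_lit 257) (nat_lit 207) (nat_lit 136))) (XT.nd (nat_lit 78) (nat_lit 0) (nat_lit 0) (XT.lf (nat_lit 0) (nat_lit 1330677743475) (nat_lit 76) (nat_lit 1952868626606) (nat_lit 76) (nat_lit 1926741307019) (nat_lit 1) (nat_lit 4) (nat_lit 2) (nat_lit 5) (nat_lit 2) (nat_lit 4) (nat_lit 258) (nat_lit 207) (nat_lit 135)) (XT.lf (nat_lit 0) (nat_lit 1549538658792) (nat_lit 76) (nat_lit 2233355677018) (nat_lit 76) (nat_lit 2207228212132) (nat_lit 1) (nat_lit 4) (nat_lit 2) (nat_lit 5) (nat_lit 2) (nat_lit 4) (nat_lit 259) (nat_lit 207) (nat_lit 134)))) (XT.nd (nat_lit 156) (nat_lit 0) (nat_lit 0) (XT.nd (nat_lit 78) (nat_lit 0) (nat_lit 0) (XT.lf (nat_lit 0) (nat_lit 1801228511193) (nat_lit 76) (nat_lit 2555915873604) (nat_lit 76) (nat_lit 2529788282372) (nat_lit 1) (nat_lit 4) (nat_lit 2) (nat_lit 5) (nat_lit 2) (nat_lit 4) (nat_lit 260) (nat_lit 207) (nat_lit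 133)) (XT.lf (nat_lit 0) (nat_lit 2090671667355) (nat_lit 76) (nat_lit 2926860176734) (nat_lit 76) (nat_lit 2900732475634) (nat_lit 1) (nat_lit 4) (nat_lit 2) (nat_lit 5) (nat_lit 2) (nat_lit 4) (nat_lit 261) (nat_lit 207) (nat_lit 132))) (XT.nd (nat_lit 78) (nat_lit 0) (nat_lit 0) (XT.lf (nat_lit 0) (nat_lit 2423531145551) (nat_lit 76) (nat_lit 3353446192337) (nat_lit 76) (nat_lit 3327318395701) (nat_lit 1) (nat_lit 4) (nat_lit 2) (nat_lit 5) (nat_lit 2) (nat_lit 4) (nat_lit 262) (nat_lit 207) (nat_lit 131)) (XT.lf (nat_lit 0) (nat_lit 2806319413833) (nat_lit 76) (nat_lit 3844020168545) (nat_lit 76) (nat_lit 3817892288834) (nat_lit 1) (nat_lit 4) (nat_lit 2) (nat_lit 5) (nat_lit 2) (nat_lit 4) (nat_lit 263) (nat_lit 207) (nat_lit 130))))))) (XT.nd (nat_lit 26910) (nat_lit 0) (nat_lit 304) (XT.nd (nat_lit 624) (nat_lit 0) (nat_lit 0) (XT.nd (nat_lit 312) (nat_lit 0) (nat_lit 0) (XT.nd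 (nat_lit 156) (nat_lit 0) (nat_lit 0) (XT.nd (nat_lit 78) (nat_lit 0) (nat_lit 0) (XT.lf (nat_lit 0) (nat_lit 3246525807883) (nat_lit 76) (nat_lit 4408180291848) (nat_lit 76) (nat_lit 4382052339898) (nat_lit 1) (nat_lit 4) (nat_lit 2) (nat_lit 5) (nat_lit 2) (nat_lit 4) (nat_lit 264) (nat_lit 207) (nat_lit 129)) (XT.lf (nat_lit 0) (nat_lit 3752763061499) (nat_lit 76) (nat_lit 5056964477704) (nat_lit 76) (nat_lit 5030836462937) (nat_lit 1) (nat_lit 4) (nat_lit 2) (nat_lit 5) (nat_lit 2) (nat_lit 4) (nat_lit 265) (nat_lit 207) (nat_lit 128))) (XT.nd (nat_lit 78) (nat_lit 0) (nat_lit 0) (XT.lf (nat_lit 0) (nat_lit 4334935816600) (nat_lit 76) (nat_lit 5803066329748) (nat_lit 76) (nat_lit 5776938260358) (nat_lit 1) (nat_lit 4) (nat_lit 2) (nat_lit 5) (nat_lit 2) (nat_lit 4) (nat_lit 266) (nat_lit 207) (nat_lit 127)) (XT.lf (nat_lit 0) (nat_lit 5004434409698) (nat_lit 76) (nat_lit 6661083492911)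 (nat_lit 76) (nat_lit 6634955376022) (nat_lit 1) (nat_lit 4) (nat_lit 2) (nat_lit 5) (nat_lit 2) (nat_lit 4) (nat_lit 267) (nat_lit 207) (nat_lit 126)))) (XT.nd (nat_lit 156) (nat_lit 0) (nat_lit 0) (XT.nd (nat_lit 78) (nat_lit 0) (nat_lit 0) (XT.lf (nat_lit 0) (nat_lit 5774357726311) (nat_lit 76) (nat_lit 7647803259516) (nat_lit 76) (nat_lit 7621675101325) (nat_lit 1) (nat_lit 4) (nat_lit 2) (nat_lit 5) (nat_lit 2) (nat_lit 4) (nat_lit 268) (nat_lit 207) (nat_lit 125)) (XT.lf (nat_lit 0) (nat_lit 6659769483502) (nat_lit 76) (nat_lit 8782531016302) (nat_lit 76) (nat_lit 8756402822195) (nat_lit 1) (nat_lit 4) (nat_lit 2) (nat_lit 5) (nat_lit 2) (nat_lit 4) (nat_lit 269) (nat_lit 207) (nat_lit 124))) (XT.nd (nat_lit 78) (nat_lit 0) (nat_lit 0) (XT.lf (nat_lit 0) (nat_lit 7677992954782) (nat_lit 76) (nat_lit 10087467958509) (nat_lit 76) (nat_lit 10061339733171) (nat_lit 1) (nat_lit 4)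 (nat_lit 2) (nat_lit 5) (nat_lit 2) (nat_lit 4) (nat_lit 270) (nat_lit 207) (nat_lit 123)) (XT.lf (nat_lit 0) (nat_lit 8848949903719) (nat_lit 76) (nat_lit 11588145461094) (nat_lit 76) (nat_lit 11562017208599) (nat_lit 1) (nat_lit 4) (nat_lit 2) (nat_lit 5) (nat_lit 2) (nat_lit 4) (nat_lit 271) (nat_lit 207) (nat_lit 122))))) (XT.nd (nat_lit 312) (nat_lit 0) (nat_lit 0) (XT.nd (nat_lit 156) (nat_lit 0) (nat_lit 0) (XT.nd (nat_lit 78) (nat_lit 0) (nat_lit 0) (XT.lf (nat_lit 0) (nat_lit 10195550357575) (nat_lit 76) (nat_lit 13313924605630) (nat_lit 76) (nat_lit 13287796329519) (nat_lit 1) (nat_lit 4) (nat_lit 2) (nat_lit 5) (nat_lit 2) (nat_lit 4) (nat_lit 272) (nat_lit 207) (nat_lit 121)) (XT.lf (nat_lit 0) (nat_lit 11744140846970) (nat_lit 76) (nat_lit 15298570636247) (nat_lit 76) (nat_lit 15272442339602) (nat_lit 1) (nat_lit 4) (nat_lit 2) (nat_lit 5) (nat_lit 2) (nat_lit 4) (nat_lit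 273) (nat_lit 207) (nat_lit 120))) (XT.nd (nat_lit 78) (nat_lit 0) (nat_lit 0) (XT.lf (nat_lit 0) (nat_lit 13525019881477) (nat_lit 76) (nat_lit 17580913583981) (nat_lit 76) (nat_lit 17554785269479) (nat_lit 1) (nat_lit 4) (nat_lit 2) (nat_lit 5) (nat_lit 2) (nat_lit 4) (nat_lit 274) (nat_lit 207) (nat_lit 119)) (XT.lf (nat_lit 0) (nat_lit 15573030746556) (nat_lit 76) (nat_lit 20205607984765) (nat_lit 76) (nat_lit 20179479654736) (nat_lit 1) (nat_lit 4) (nat_lit 2) (nat_lit 5) (nat_lit 2) (nat_lit 4) (nat_lit 275) (nat_lit 207) (nat_lit 118)))) (XT.nd (nat_lit 312) (nat_lit 0) (nat_lit 0) (XT.nd (nat_lit 234) (nat_lit 0) (nat_lit 0) (XT.lf (nat_lit 0) (nat_lit 17928243220000) (nat_lit 76) (nat_lit 23224006555136) (nat_lit 76) (nat_lit 23197878211605) (nat_lit 1) (nat_lit 4) (nat_lit 2) (nat_lit 5) (nat_lit 2) (nat_lit 4) (nat_lit 276) (nat_lit 207) (nat_lit 117)) (XT.lf (nat_lit 0)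 (nat_lit 27333489717685) (nat_lit 76) (nat_lit 35277603996308) (nat_lit 76) (nat_lit 35251475621948) (nat_lit 1) (nat_lit 4) (nat_lit 2) (nat_lit 5) (nat_lit 2) (nat_lit 4) (nat_lit 279) (nat_lit 207) (nat_lit 114))) (XT.nd (nat_lit 78) (nat_lit 0) (nat_lit 0) (XT.lf (nat_lit 0) (nat_lit 31452770975714) (nat_lit 76) (nat_lit 40556801995446) (nat_lit 76) (nat_lit 40530673613366) (nat_lit 1) (nat_lit 4) (nat_lit 2) (nat_lit 5) (nat_lit 2) (nat_lit 4) (nat_lit 280) (nat_lit 207) (nat_lit 113)) (XT.lf (nat_lit 0) (nat_lit 36189944411810) (nat_lit 76) (nat_lit 46627879699162) (nat_lit 76) (nat_lit 46601751310370) (nat_lit 1) (nat_lit 4) (nat_lit 2) (nat_lit 5) (nat_lit 2) (nat_lit 4) (nat_lit 281) (nat_lit 207) (nat_lit 112)))))) (XT.nd (nat_lit 624) (nat_lit 380) (nat_lit 0) (XT.nd (nat_lit 312) (nat_lit 152) (nat_lit 0) (XT.nd (nat_lit 156) (nat_lit 0) (nat_lit 0) (XT.nd (nat_lit 78)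 (nat_lit 0) (nat_lit 0) (XT.lf (nat_lit 0) (nat_lit 1726421419) (nat_lit 0) (nat_lit 1726421419) (nat_lit 228) (nat_lit 3000747742) (nat_lit 12) (nat_lit 5) (nat_lit 12) (nat_lit 3) (nat_lit 15) (nat_lit 3) (nat_lit 208) (nat_lit 208) (nat_lit 184)) (XT.lf (nat_lit 0) (nat_lit 7798700164) (nat_lit 228) (nat_lit 4791441656) (nat_lit 304) (nat_lit 1221684993) (nat_lit 12) (nat_lit 5) (nat_lit 15) (nat_lit 3) (nat_lit 16) (nat_lit 5) (nat_lit 209) (nat_lit 208) (nat_lit 183))) (XT.nd (nat_lit 78) (nat_lit 0) (nat_lit 0) (XT.lf (nat_lit 76) (nat_lit 402906535) (nat_lit 0) (nat_lit 8548144562) (nat_lit 304) (nat_lit 5883580053) (nat_lit 13) (nat_lit 5) (nat_lit 12) (nat_lit 5) (nat_lit 16) (nat_lit 5) (nat_lit 210) (nat_lit 208) (nat_lit 182)) (XT.lf (nat_lit 76) (nat_lit 6877260587) (nat_lit 0) (nat_lit 3599444805) (nat_lit 304) (nat_lit 5505187027) (nat_lit 13) (nat_lit 5) (nat_lit 12)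 (nat_lit 5) (nat_lit 16) (nat_lit 5) (nat_lit 211) (nat_lit 208) (nat_lit 181)))) (XT.nd (nat_lit 156) (nat_lit 0) (nat_lit 0) (XT.nd (nat_lit 78) (nat_lit 228) (nat_lit 0) (XT.lf (nat_lit 0) (nat_lit 12274772513) (nat_lit 228) (nat_lit 3105740352) (nat_lit 76) (nat_lit 1915155216) (nat_lit 13) (nat_lit 5) (nat_lit 16) (nat_lit 5) (nat_lit 14) (nat_lit 5) (nat_lit 212) (nat_lit 208) (nat_lit 180)) (XT.lf (nat_lit 0) (nat_lit 3936700034) (nat_lit 228) (nat_lit 10702834021) (nat_lit 304) (nat_lit 4123263085) (nat_lit 10) (nat_lit 5) (nat_lit 13) (nat_lit 5) (nat_lit 14) (nat_lit 5) (nat_lit 213) (nat_lit 208) (nat_lit 179))) (XT.nd (nat_lit 78) (nat_lit 0) (nat_lit 0) (XT.lf (nat_lit 0) (nat_lit 12350801443) (nat_lit 228) (nat_lit 5136610272) (nat_lit 304) (nat_lit 2944049385) (nat_lit 10) (nat_lit 5) (nat_lit 13) (nat_lit 5) (nat_lit 14) (nat_lit 5) (nat_lit 214) (nat_lit 208) (nat_lit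 178)) (XT.lf (nat_lit 0) (nat_lit 20785324067) (nat_lit 304) (nat_lit 410180418) (nat_lit 76) (nat_lit 1152123367) (nat_lit 10) (nat_lit 5) (nat_lit 14) (nat_lit 5) (nat_lit 11) (nat_lit 4) (nat_lit 215) (nat_lit 208) (nat_lit 177))))) (XT.nd (nat_lit 312) (nat_lit 76) (nat_lit 0) (XT.nd (nat_lit 156) (nat_lit 152) (nat_lit 0) (XT.nd (nat_lit 78) (nat_lit 0) (nat_lit 0) (XT.lf (nat_lit 0) (nat_lit 640637526) (nat_lit 152) (nat_lit 15561082118) (nat_lit 76) (nat_lit 8257364671) (nat_lit 8) (nat_lit 5) (nat_lit 10) (nat_lit 5) (nat_lit 9) (nat_lit 5) (nat_lit 216) (nat_lit 208) (nat_lit 176)) (XT.lf (nat_lit 0) (nat_lit 3011482647) (nat_lit 152) (nat_lit 7342374625) (nat_lit 76) (nat_lit 16523045743) (nat_lit 8) (nat_lit 5) (nat_lit 10) (nat_lit 5) (nat_lit 9) (nat_lit 5) (nat_lit 217) (nat_lit 208) (nat_lit 175))) (XT.nd (nat_lit 78) (nat_lit 0) (nat_lit 0) (XT.lf (nat_lit 0) (nat_lit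 2285261821) (nat_lit 152) (nat_lit 3525538358) (nat_lit 228) (nat_lit 23836028357) (nat_lit 6) (nat_lit 5) (nat_lit 8) (nat_lit 5) (nat_lit 9) (nat_lit 5) (nat_lit 218) (nat_lit 208) (nat_lit 174)) (XT.lf (nat_lit 0) (nat_lit 9590998558) (nat_lit 228) (nat_lit 18819045692) (nat_lit 76) (nat_lit 4338364950) (nat_lit 6) (nat_lit 5) (nat_lit 9) (nat_lit 5) (nat_lit 7) (nat_lit 4) (nat_lit 219) (nat_lit 208) (nat_lit 173)))) (XT.nd (nat_lit 156) (nat_lit 0) (nat_lit 0) (XT.nd (nat_lit 78) (nat_lit 76) (nat_lit 0) (XT.lf (nat_lit 0) (nat_lit 14088481450) (nat_lit 228) (nat_lit 9188377748) (nat_lit 76) (nat_lit 13016102415) (nat_lit 6) (nat_lit 5) (nat_lit 9) (nat_lit 5) (nat_lit 7) (nat_lit 4) (nat_lit 220) (nat_lit 208) (nat_lit 172)) (XT.lf (nat_lit 0) (nat_lit 2047094783) (nat_lit 76) (nat_lit 17282929108) (nat_lit 152) (nat_lit 21028994704) (nat_lit 5) (nat_lit 5) (nat_lit 6) (nat_lit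 5) (nat_lit 7) (nat_lit 4) (nat_lit 221) (nat_lit 208) (nat_lit 171))) (XT.nd (nat_lit 78) (nat_lit 0) (nat_lit 0) (XT.lf (nat_lit 0) (nat_lit 15979496338) (nat_lit 76) (nat_lit 9844402378) (nat_lit 152) (nat_lit 19141376580) (nat_lit 5) (nat_lit 5) (nat_lit 6) (nat_lit 5) (nat_lit 7) (nat_lit 4) (nat_lit 222) (nat_lit 208) (nat_lit 170)) (XT.lf (nat_lit 0) (nat_lit 31983462282) (nat_lit 76) (nat_lit 1296044182) (nat_lit 152) (nat_lit 16984995698) (nat_lit 5) (nat_lit 5) (nat_lit 6) (nat_lit 5) (nat_lit 7) (nat_lit 4) (nat_lit 223) (nat_lit 208) (nat_lit 169))))))))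
noncomputable def xc37 : XT := (XT.nd (nat_lit 2496) (nat_lit 0) (nat_lit 0) (XT.nd (nat_lit 1248) (nat_lit 76) (nat_lit 0) (XT.nd (nat_lit 624) (nat_lit 0) (nat_lit 0) (XT.nd (nat_lit 312) (nat_lit 152) (nat_lit 0) (XT.nd (nat_lit 156) (nat_lit 0) (nat_lit 0) (XT.nd (nat_lit 78) (nat_lit 76) (nat_lit 0) (XT.lf (nat_lit 0) (nat_lit 42195901818) (nat_lit 152) (nat_lit 6341450126) (nat_lit 0) (nat_lit 7770050157) (nat_lit 5) (nat_lit 5) (nat_lit 7) (nat_lit 4) (nat_lit 5) (nat_lit 4) (nat_lit 224) (nat_lit 208) (nat_lit 168)) (XT.lf (nat_lit 0) (nat_lit 8026776563) (nat_lit 76) (nat_lit 44807544692) (nat_lit 76) (nat_lit 10364866722) (nat_lit 4) (nat_lit 4) (nat_lit 5) (nat_lit 5) (nat_lit 5) (nat_lit 4) (nat_lit 225) (nat_lit 208) (nat_lit 167))) (XT.nd (nat_lit 78) (nat_lit 0) (nat_lit 0) (XT.lf (nat_lit 0) (nat_lit 25248435679) (nat_lit 76) (nat_lit 40142671514) (nat_lit 76) (nat_lit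 5685361971) (nat_lit 4) (nat_lit 4) (nat_lit 5) (nat_lit 5) (nat_lit 5) (nat_lit 4) (nat_lit 226) (nat_lit 208) (nat_lit 166)) (XT.lf (nat_lit 0) (nat_lit 45040740099) (nat_lit 76) (nat_lit 34782948046) (nat_lit 76) (nat_lit 312915396) (nat_lit 4) (nat_lit 4) (nat_lit 5) (nat_lit 5) (nat_lit 5) (nat_lit 4) (nat_lit 227) (nat_lit 208) (nat_lit 165)))) (XT.nd (nat_lit 156) (nat_lit 76) (nat_lit 0) (XT.nd (nat_lit 78) (nat_lit 0) (nat_lit 0) (XT.lf (nat_lit 0) (nat_lit 5336103269) (nat_lit 152) (nat_lit 23008474192) (nat_lit 76) (nat_lit 62175894622) (nat_lit 3) (nat_lit 5) (nat_lit 5) (nat_lit 5) (nat_lit 4) (nat_lit 4) (nat_lit 228) (nat_lit 208) (nat_lit 164)) (XT.lf (nat_lit 0) (nat_lit 11794249817) (nat_lit 152) (nat_lit 9133079610) (nat_lit 76) (nat_lit 81533352068) (nat_lit 3) (nat_lit 5) (nat_lit 5) (nat_lit 5) (nat_lit 4) (nat_lit 4) (nat_lit 229) (nat_lit 208) (nat_lit 163)))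 (XT.nd (nat_lit 78) (nat_lit 0) (nat_lit 0) (XT.lf (nat_lit 0) (nat_lit 7480739757) (nat_lit 76) (nat_lit 12044758905) (nat_lit 152) (nat_lit 96620825261) (nat_lit 2) (nat_lit 5) (nat_lit 3) (nat_lit 5) (nat_lit 4) (nat_lit 4) (nat_lit 230) (nat_lit 208) (nat_lit 162)) (XT.lf (nat_lit 0) (nat_lit 27604597306) (nat_lit 76) (nat_lit 1284218578) (nat_lit 152) (nat_lit 102925190674) (nat_lit 2) (nat_lit 5) (nat_lit 3) (nat_lit 5) (nat_lit 4) (nat_lit 4) (nat_lit 231) (nat_lit 208) (nat_lit 161))))) (XT.nd (nat_lit 312) (nat_lit 0) (nat_lit 0) (XT.nd (nat_lit 156) (nat_lit 0) (nat_lit 0) (XT.nd (nat_lit 78) (nat_lit 0) (nat_lit 0) (XT.lf (nat_lit 0) (nat_lit 40111362960) (nat_lit 152) (nat_lit 99551978417) (nat_lit 0) (nat_lit 10100334718) (nat_lit 2) (nat_lit 5) (nat_lit 4) (nat_lit 4) (nat_lit 2) (nat_lit 4) (nat_lit 232) (nat_lit 208) (nat_lit 160)) (XT.lf (nat_lit 0) (nat_lit 53074534356)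 (nat_lit 152) (nat_lit 94263990905) (nat_lit 0) (nat_lit 23058723027) (nat_lit 2) (nat_lit 5) (nat_lit 4) (nat_lit 4) (nat_lit 2) (nat_lit 4) (nat_lit 233) (nat_lit 208) (nat_lit 159))) (XT.nd (nat_lit 78) (nat_lit 0) (nat_lit 0) (XT.lf (nat_lit 0) (nat_lit 67978780586) (nat_lit 152) (nat_lit 88188809339) (nat_lit 0) (nat_lit 37958810051) (nat_lit 2) (nat_lit 5) (nat_lit 4) (nat_lit 4) (nat_lit 2) (nat_lit 4) (nat_lit 234) (nat_lit 208) (nat_lit 158)) (XT.lf (nat_lit 0) (nat_lit 85115706467) (nat_lit 152) (nat_lit 81207571470) (nat_lit 0) (nat_lit 55092119231) (nat_lit 2) (nat_lit 5) (nat_lit 4) (nat_lit 4) (nat_lit 2) (nat_lit 4) (nat_lit 235) (nat_lit 208) (nat_lit 157)))) (XT.nd (nat_lit 156) (nat_lit 0) (nat_lit 0) (XT.nd (nat_lit 78) (nat_lit 0) (nat_lit 0) (XT.lf (nat_lit 0) (nat_lit 104820599679) (nat_lit 152) (nat_lit 73183687863) (nat_lit 0) (nat_lit 74793867486) (nat_lit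 2) (nat_lit 5) (nat_lit 4) (nat_lit 4) (nat_lit 2) (nat_lit 4) (nat_lit 236) (nat_lit 208) (nat_lit 156)) (XT.lf (nat_lit 0) (nat_lit 127478990743) (nat_lit 152) (nat_lit 63960169489) (nat_lit 0) (nat_lit 97449523803) (nat_lit 2) (nat_lit 5) (nat_lit 4) (nat_lit 4) (nat_lit 2) (nat_lit 4) (nat_lit 237) (nat_lit 208) (nat_lit 155))) (XT.nd (nat_lit 78) (nat_lit 0) (nat_lit 0) (XT.lf (nat_lit 0) (nat_lit 153534196004) (nat_lit 152) (nat_lit 53356556208) (nat_lit 0) (nat_lit 123502351025) (nat_lit 2) (nat_lit 5) (nat_lit 4) (nat_lit 4) (nat_lit 2) (nat_lit 4) (nat_lit 238) (nat_lit 208) (nat_lit 154)) (XT.lf (nat_lit 0) (nat_lit 183495991218) (nat_lit 152) (nat_lit 41165386019) (nat_lit 0) (nat_lit 153462078378) (nat_lit 2) (nat_lit 5) (nat_lit 4) (nat_lit 4) (nat_lit 2) (nat_lit 4) (nat_lit 239) (nat_lit 208) (nat_lit 153)))))) (XT.nd (nat_lit 624) (nat_lit 0) (nat_lit 0) (XT.nd (nat_lit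 312) (nat_lit 0) (nat_lit 0) (XT.nd (nat_lit 156) (nat_lit 76) (nat_lit 0) (XT.nd (nat_lit 78) (nat_lit 0) (nat_lit 0) (XT.lf (nat_lit 0) (nat_lit 217950585421) (nat_lit 152) (nat_lit 27148136029) (nat_lit 0) (nat_lit 187914874442) (nat_lit 2) (nat_lit 5) (nat_lit 4) (nat_lit 4) (nat_lit 2) (nat_lit 4) (nat_lit 240) (nat_lit 208) (nat_lit 152)) (XT.lf (nat_lit 0) (nat_lit 257572090240) (nat_lit 152) (nat_lit 11030555693) (nat_lit 0) (nat_lit 227534815661) (nat_lit 2) (nat_lit 5) (nat_lit 4) (nat_lit 4) (nat_lit 2) (nat_lit 4) (nat_lit 241) (nat_lit 208) (nat_lit 151))) (XT.nd (nat_lit 78) (nat_lit 0) (nat_lit 0) (XT.lf (nat_lit 0) (nat_lit 8235917257) (nat_lit 76) (nat_lit 295240823542) (nat_lit 76) (nat_lit 265202189311) (nat_lit 1) (nat_lit 4) (nat_lit 2) (nat_lit 5) (nat_lit 2) (nat_lit 4) (nat_lit 242) (nat_lit 208) (nat_lit 150)) (XT.lf (nat_lit 0) (nat_lit 31630171667) (nat_lit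 76) (nat_lit 325212470185) (nat_lit 76) (nat_lit 295172653648) (nat_lit 1) (nat_lit 4) (nat_lit 2) (nat_lit 5) (nat_lit 2) (nat_lit 4) (nat_lit 243) (nat_lit 208) (nat_lit 149)))) (XT.nd (nat_lit 156) (nat_lit 0) (nat_lit 0) (XT.nd (nat_lit 78) (nat_lit 0) (nat_lit 0) (XT.lf (nat_lit 0) (nat_lit 58531935086) (nat_lit 76) (nat_lit 359680584874) (nat_lit 76) (nat_lit 329639740245) (nat_lit 1) (nat_lit 4) (nat_lit 2) (nat_lit 5) (nat_lit 2) (nat_lit 4) (nat_lit 244) (nat_lit 208) (nat_lit 148)) (XT.lf (nat_lit 0) (nat_lit 89467546362) (nat_lit 76) (nat_lit 399319543765) (nat_lit 76) (nat_lit 369277805143) (nat_lit 1) (nat_lit 4) (nat_lit 2) (nat_lit 5) (nat_lit 2) (nat_lit 4) (nat_lit 245) (nat_lit 208) (nat_lit 147))) (XT.nd (nat_lit 78) (nat_lit 0) (nat_lit 0) (XT.lf (nat_lit 0) (nat_lit 125042267455) (nat_lit 76) (nat_lit 444904891706) (nat_lit 76) (nat_lit 414862375699) (nat_lit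 1) (nat_lit 4) (nat_lit 2) (nat_lit 5) (nat_lit 2) (nat_lit 4) (nat_lit 246) (nat_lit 208) (nat_lit 146)) (XT.lf (nat_lit 0) (nat_lit 165952125518) (nat_lit 76) (nat_lit 497328515940) (nat_lit 76) (nat_lit 467285323946) (nat_lit 1) (nat_lit 4) (nat_lit 2) (nat_lit 5) (nat_lit 2) (nat_lit 4) (nat_lit 247) (nat_lit 208) (nat_lit 145))))) (XT.nd (nat_lit 312) (nat_lit 0) (nat_lit 0) (XT.nd (nat_lit 156) (nat_lit 0) (nat_lit 0) (XT.nd (nat_lit 78) (nat_lit 0) (nat_lit 0) (XT.lf (nat_lit 0) (nat_lit 212997530817) (nat_lit 76) (nat_lit 557616096072) (nat_lit 76) (nat_lit 527572316262) (nat_lit 1) (nat_lit 4) (nat_lit 2) (nat_lit 5) (nat_lit 2) (nat_lit 4) (nat_lit 248) (nat_lit 208) (nat_lit 144)) (XT.lf (nat_lit 0) (nat_lit 267098936933) (nat_lit 76) (nat_lit 626947171712) (nat_lit 76) (nat_lit 596902880759) (nat_lit 1) (nat_lit 4) (nat_lit 2) (nat_lit 5) (nat_lit 2) (nat_lit 4) (nat_lit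 249) (nat_lit 208) (nat_lit 143))) (XT.nd (nat_lit 78) (nat_lit 0) (nat_lit 0) (XT.lf (nat_lit 0) (nat_lit 329314849638) (nat_lit 76) (nat_lit 706678220428) (nat_lit 76) (nat_lit 676633485002) (nat_lit 1) (nat_lit 4) (nat_lit 2) (nat_lit 5) (nat_lit 2) (nat_lit 4) (nat_lit 250) (nat_lit 208) (nat_lit 142)) (XT.lf (nat_lit 0) (nat_lit 400862536790) (nat_lit 76) (nat_lit 798369197520) (nat_lit 76) (nat_lit 768324075596) (nat_lit 1) (nat_lit 4) (nat_lit 2) (nat_lit 5) (nat_lit 2) (nat_lit 4) (nat_lit 251) (nat_lit 208) (nat_lit 141)))) (XT.nd (nat_lit 156) (nat_lit 0) (nat_lit 0) (XT.nd (nat_lit 78) (nat_lit 0) (nat_lit 0) (XT.lf (nat_lit 0) (nat_lit 483141844442) (nat_lit 76) (nat_lit 903814056888) (nat_lit 76) (nat_lit 873768598879) (nat_lit 1) (nat_lit 4) (nat_lit 2) (nat_lit 5) (nat_lit 2) (nat_lit 4) (nat_lit 252) (nat_lit 208) (nat_lit 140)) (XT.lf (nat_lit 0) (nat_lit 577762585135)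 (nat_lit 76) (nat_lit 1025075850128) (nat_lit 76) (nat_lit 995030099871) (nat_lit 1) (nat_lit 4) (nat_lit 2) (nat_lit 5) (nat_lit 2) (nat_lit 4) (nat_lit 253) (nat_lit 208) (nat_lit 139))) (XT.nd (nat_lit 78) (nat_lit 0) (nat_lit 0) (XT.lf (nat_lit 0) (nat_lit 686576034230) (nat_lit 76) (nat_lit 1164527090587) (nat_lit 76) (nat_lit 1134481086201) (nat_lit 1) (nat_lit 4) (nat_lit 2) (nat_lit 5) (nat_lit 2) (nat_lit 4) (nat_lit 254) (nat_lit 208) (nat_lit 138)) (XT.lf (nat_lit 0) (nat_lit 811711150513) (nat_lit 76) (nat_lit 1324896172099) (nat_lit 76) (nat_lit 1294849946732) (nat_lit 1) (nat_lit 4) (nat_lit 2) (nat_lit 5) (nat_lit 2) (nat_lit 4) (nat_lit 255) (nat_lit 208) (nat_lit 137))))))) (XT.nd (nat_lit 1248) (nat_lit 0) (nat_lit 0) (XT.nd (nat_lit 624) (nat_lit 0) (nat_lit 0) (XT.nd (nat_lit 312) (nat_lit 0) (nat_lit 0) (XT.nd (nat_lit 156) (nat_lit 0) (nat_lit 0) (XT.nd (nat_lit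 78) (nat_lit 0) (nat_lit 0) (XT.lf (nat_lit 0) (nat_lit 955616229738) (nat_lit 76) (nat_lit 1509320750608) (nat_lit 76) (nat_lit 1479274333083) (nat_lit 1) (nat_lit 4) (nat_lit 2) (nat_lit 5) (nat_lit 2) (nat_lit 4) (nat_lit 256) (nat_lit 208) (nat_lit 136)) (XT.lf (nat_lit 0) (nat_lit 1121106806065) (nat_lit 76) (nat_lit 1721409133083) (nat_lit 76) (nat_lit 1691362548465) (nat_lit 1) (nat_lit 4) (nat_lit 2) (nat_lit 5) (nat_lit 2) (nat_lit 4) (nat_lit 257) (nat_lit 208) (nat_lit 135))) (XT.nd (nat_lit 78) (nat_lit 0) (nat_lit 0) (XT.lf (nat_lit 0) (nat_lit 1311420738594) (nat_lit 76) (nat_lit 1965310874835) (nat_lit 76) (nat_lit 1935264144917) (nat_lit 1) (nat_lit 4) (nat_lit 2) (nat_lit 5) (nat_lit 2) (nat_lit 4) (nat_lit 258) (nat_lit 208) (nat_lit 134)) (XT.lf (nat_lit 0) (nat_lit 1530281560788) (nat_lit 76) (nat_lit 2245797966462) (nat_lit 76) (nat_lit 2215751110198) (nat_lit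 1) (nat_lit 4) (nat_lit 2) (nat_lit 5) (nat_lit 2) (nat_lit 4) (nat_lit 259) (nat_lit 208) (nat_lit 133)))) (XT.nd (nat_lit 156) (nat_lit 0) (nat_lit 0) (XT.nd (nat_lit 78) (nat_lit 0) (nat_lit 0) (XT.lf (nat_lit 0) (nat_lit 1781971332213) (nat_lit 76) (nat_lit 2568358198888) (nat_lit 76) (nat_lit 2538311232757) (nat_lit 1) (nat_lit 4) (nat_lit 2) (nat_lit 5) (nat_lit 2) (nat_lit 4) (nat_lit 260) (nat_lit 208) (nat_lit 132)) (XT.lf (nat_lit 0) (nat_lit 2071414417961) (nat_lit 76) (nat_lit 2939302533182) (nat_lit 76) (nat_lit 2909255471515) (nat_lit 1) (nat_lit 4) (nat_lit 2) (nat_lit 5) (nat_lit 2) (nat_lit 4) (nat_lit 261) (nat_lit 208) (nat_lit 131))) (XT.nd (nat_lit 78) (nat_lit 0) (nat_lit 0) (XT.lf (nat_lit 0) (nat_lit 2404273834927) (nat_lit 76) (nat_lit 3365888575885) (nat_lit 76) (nat_lit 3335841431142) (nat_lit 1) (nat_lit 4) (nat_lit 2) (nat_lit 5) (nat_lit 2) (nat_lit 4)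 (nat_lit 262) (nat_lit 208) (nat_lit 130)) (XT.lf (nat_lit 0) (nat_lit 2787062049965) (nat_lit 76) (nat_lit 3856462575658) (nat_lit 76) (nat_lit 3826415358676) (nat_lit 1) (nat_lit 4) (nat_lit 2) (nat_lit 5) (nat_lit 2) (nat_lit 4) (nat_lit 263) (nat_lit 208) (nat_lit 129))))) (XT.nd (nat_lit 312) (nat_lit 0) (nat_lit 0) (XT.nd (nat_lit 156) (nat_lit 0) (nat_lit 0) (XT.nd (nat_lit 78) (nat_lit 0) (nat_lit 0) (XT.lf (nat_lit 0) (nat_lit 3227268397717) (nat_lit 76) (nat_lit 4420622719453) (nat_lit 76) (nat_lit 4390575439654) (nat_lit 1) (nat_lit 4) (nat_lit 2) (nat_lit 5) (nat_lit 2) (nat_lit 4) (nat_lit 264) (nat_lit 208) (nat_lit 128)) (XT.lf (nat_lit 0) (nat_lit 3733505611074) (nat_lit 76) (nat_lit 5069406923127) (nat_lit 76) (nat_lit 5039359588705) (nat_lit 1) (nat_lit 4) (nat_lit 2) (nat_lit 5) (nat_lit 2) (nat_lit 4) (nat_lit 265) (nat_lit 208) (nat_lit 127))) (XT.nd (nat_lit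 78) (nat_lit 0) (nat_lit 0) (XT.lf (nat_lit 0) (nat_lit 4315678331167) (nat_lit 76) (nat_lit 5815508790665) (nat_lit 76) (nat_lit 5785461408745) (nat_lit 1) (nat_lit 4) (nat_lit 2) (nat_lit 5) (nat_lit 2) (nat_lit 4) (nat_lit 266) (nat_lit 208) (nat_lit 126)) (XT.lf (nat_lit 0) (nat_lit 4985176893823) (nat_lit 76) (nat_lit 6673525967302) (nat_lit 76) (nat_lit 6643478544078) (nat_lit 1) (nat_lit 4) (nat_lit 2) (nat_lit 5) (nat_lit 2) (nat_lit 4) (nat_lit 267) (nat_lit 208) (nat_lit 125)))) (XT.nd (nat_lit 156) (nat_lit 0) (nat_lit 0) (XT.nd (nat_lit 78) (nat_lit 0) (nat_lit 0) (XT.lf (nat_lit 0) (nat_lit 5755100183964) (nat_lit 76) (nat_lit 7660245745623) (nat_lit 76) (nat_lit 7630198286484) (nat_lit 1) (nat_lit 4) (nat_lit 2) (nat_lit 5) (nat_lit 2) (nat_lit 4) (nat_lit 268) (nat_lit 208) (nat_lit 124)) (XT.lf (nat_lit 0) (nat_lit 6640511918136) (nat_lit 76) (nat_lit 8794973512596)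 (nat_lit 76) (nat_lit 8764926022227) (nat_lit 1) (nat_lit 4) (nat_lit 2) (nat_lit 5) (nat_lit 2) (nat_lit 4) (nat_lit 269) (nat_lit 208) (nat_lit 123))) (XT.nd (nat_lit 78) (nat_lit 0) (nat_lit 0) (XT.lf (nat_lit 0) (nat_lit 7658735369400) (nat_lit 76) (nat_lit 10099910463663) (nat_lit 76) (nat_lit 10069862946135) (nat_lit 1) (nat_lit 4) (nat_lit 2) (nat_lit 5) (nat_lit 2) (nat_lit 4) (nat_lit 270) (nat_lit 208) (nat_lit 122)) (XT.lf (nat_lit 0) (nat_lit 8829692300932) (nat_lit 76) (nat_lit 11600587973951) (nat_lit 76) (nat_lit 11570540432809) (nat_lit 1) (nat_lit 4) (nat_lit 2) (nat_lit 5) (nat_lit 2) (nat_lit 4) (nat_lit 271) (nat_lit 208) (nat_lit 121)))))) (XT.nd (nat_lit 26364) (nat_lit 0) (nat_lit 684) (XT.nd (nat_lit 468) (nat_lit 0) (nat_lit 0) (XT.nd (nat_lit 156) (nat_lit 0) (nat_lit 0) (XT.nd (nat_lit 78) (nat_lit 0) (nat_lit 0) (XT.lf (nat_lit 0) (nat_lit 10176292739653)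 (nat_lit 76) (nat_lit 13326367125185) (nat_lit 76) (nat_lit 13296319563508) (nat_lit 1) (nat_lit 4) (nat_lit 2) (nat_lit 5) (nat_lit 2) (nat_lit 4) (nat_lit 272) (nat_lit 208) (nat_lit 120)) (XT.lf (nat_lit 0) (nat_lit 11724883215887) (nat_lit 76) (nat_lit 15311013161628) (nat_lit 76) (nat_lit 15280965582094) (nat_lit 1) (nat_lit 4) (nat_lit 2) (nat_lit 5) (nat_lit 2) (nat_lit 4) (nat_lit 273) (nat_lit 208) (nat_lit 119))) (XT.nd (nat_lit 78) (nat_lit 0) (nat_lit 0) (XT.lf (nat_lit 0) (nat_lit 13505762238950) (nat_lit 76) (nat_lit 17593356114427) (nat_lit 76) (nat_lit 17563308519365) (nat_lit 1) (nat_lit 4) (nat_lit 2) (nat_lit 5) (nat_lit 2) (nat_lit 4) (nat_lit 274) (nat_lit 208) (nat_lit 118)) (XT.lf (nat_lit 0) (nat_lit 15553773094077) (nat_lit 76) (nat_lit 20218050519615) (nat_lit 76) (nat_lit 20188002911052) (nat_lit 1) (nat_lit 4) (nat_lit 2) (nat_lit 5) (nat_lit 2) (nat_lit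 4) (nat_lit 275) (nat_lit 208) (nat_lit 117)))) (XT.nd (nat_lit 156) (nat_lit 0) (nat_lit 0) (XT.nd (nat_lit 78) (nat_lit 0) (nat_lit 0) (XT.lf (nat_lit 0) (nat_lit 23732248329213) (nat_lit 76) (nat_lit 30699439590150) (nat_lit 76) (nat_lit 30669391950758) (nat_lit 1) (nat_lit 4) (nat_lit 2) (nat_lit 5) (nat_lit 2) (nat_lit 4) (nat_lit 278) (nat_lit 208) (nat_lit 114)) (XT.lf (nat_lit 0) (nat_lit 27314232036795) (nat_lit 76) (nat_lit 35290046543732) (nat_lit 76) (nat_lit 35259998896621) (nat_lit 1) (nat_lit 4) (nat_lit 2) (nat_lit 5) (nat_lit 2) (nat_lit 4) (nat_lit 279) (nat_lit 208) (nat_lit 113))) (XT.nd (nat_lit 78) (nat_lit 0) (nat_lit 0) (XT.lf (nat_lit 0) (nat_lit 31433513289876) (nat_lit 76) (nat_lit 40569244545060) (nat_lit 76) (nat_lit 40539196891236) (nat_lit 1) (nat_lit 4) (nat_lit 2) (nat_lit 5) (nat_lit 2) (nat_lit 4) (nat_lit 280) (nat_lit 208) (nat_lit 112)) (XT.lf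 (nat_lit 0) (nat_lit 36170686721670) (nat_lit 76) (nat_lit 46640322250681) (nat_lit 76) (nat_lit 46610274591020) (nat_lit 1) (nat_lit 4) (nat_lit 2) (nat_lit 5) (nat_lit 2) (nat_lit 4) (nat_lit 281) (nat_lit 208) (nat_lit 111))))) (XT.nd (nat_lit 312) (nat_lit 152) (nat_lit 0) (XT.nd (nat_lit 156) (nat_lit 0) (nat_lit 0) (XT.nd (nat_lit 78) (nat_lit 0) (nat_lit 0) (XT.lf (nat_lit 0) (nat_lit 2138547009) (nat_lit 0) (nat_lit 2138547009) (nat_lit 228) (nat_lit 3091751938) (nat_lit 12) (nat_lit 5) (nat_lit 12) (nat_lit 3) (nat_lit 15) (nat_lit 3) (nat_lit 209) (nat_lit 209) (nat_lit 182)) (XT.lf (nat_lit 0) (nat_lit 9490214106) (nat_lit 228) (nat_lit 5140961878) (nat_lit 304) (nat_lit 1162282432) (nat_lit 12) (nat_lit 5) (nat_lit 15) (nat_lit 3) (nat_lit 16) (nat_lit 5) (nat_lit 210) (nat_lit 209) (nat_lit 181))) (XT.nd (nat_lit 78) (nat_lit 0) (nat_lit 0) (XT.lf (nat_lit 76) (nat_lit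 815756905) (nat_lit 0) (nat_lit 9946204513) (nat_lit 304) (nat_lit 6217290782) (nat_lit 13) (nat_lit 5) (nat_lit 12) (nat_lit 5) (nat_lit 16) (nat_lit 5) (nat_lit 211) (nat_lit 209) (nat_lit 180)) (XT.lf (nat_lit 76) (nat_lit 8215296969) (nat_lit 0) (nat_lit 4240090454) (nat_lit 304) (nat_lit 5853724839) (nat_lit 13) (nat_lit 5) (nat_lit 12) (nat_lit 5) (nat_lit 16) (nat_lit 5) (nat_lit 212) (nat_lit 209) (nat_lit 179)))) (XT.nd (nat_lit 156) (nat_lit 0) (nat_lit 0) (XT.nd (nat_lit 78) (nat_lit 228) (nat_lit 0) (XT.lf (nat_lit 0) (nat_lit 14466427740) (nat_lit 228) (nat_lit 3240573332) (nat_lit 76) (nat_lit 2122636027) (nat_lit 13) (nat_lit 5) (nat_lit 16) (nat_lit 5) (nat_lit 14) (nat_lit 5) (nat_lit 213) (nat_lit 209) (nat_lit 178)) (XT.lf (nat_lit 0) (nat_lit 4843186381) (nat_lit 228) (nat_lit 12310091765) (nat_lit 304) (nat_lit 4369470561) (nat_lit 10) (nat_lit 5) (nat_lit 13)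 (nat_lit 5) (nat_lit 14) (nat_lit 5) (nat_lit 214) (nat_lit 209) (nat_lit 177))) (XT.nd (nat_lit 78) (nat_lit 0) (nat_lit 0) (XT.lf (nat_lit 0) (nat_lit 14478188045) (nat_lit 228) (nat_lit 5908695413) (nat_lit 304) (nat_lit 3061933326) (nat_lit 10) (nat_lit 5) (nat_lit 13) (nat_lit 5) (nat_lit 14) (nat_lit 5) (nat_lit 215) (nat_lit 209) (nat_lit 176)) (XT.lf (nat_lit 0) (nat_lit 24143378328) (nat_lit 304) (nat_lit 191537173) (nat_lit 76) (nat_lit 1323679500) (nat_lit 10) (nat_lit 5) (nat_lit 14) (nat_lit 5) (nat_lit 11) (nat_lit 4) (nat_lit 216) (nat_lit 209) (nat_lit 175))))))))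
noncomputable def xc38 : XT := (XT.nd (nat_lit 2496) (nat_lit 0) (nat_lit 0) (XT.nd (nat_lit 1248) (nat_lit 76) (nat_lit 0) (XT.nd (nat_lit 624) (nat_lit 228) (nat_lit 0) (XT.nd (nat_lit 312) (nat_lit 76) (nat_lit 0) (XT.nd (nat_lit 156) (nat_lit 152) (nat_lit 0) (XT.nd (nat_lit 78) (nat_lit 0) (nat_lit 0) (XT.lf (nat_lit 0) (nat_lit 971271450) (nat_lit 152) (nat_lit 17601002773) (nat_lit 76) (nat_lit 9516606414) (nat_lit 8) (nat_lit 5) (nat_lit 10) (nat_lit 5) (nat_lit 9) (nat_lit 5) (nat_lit 217) (nat_lit 209) (nat_lit 174)) (XT.lf (nat_lit 0) (nat_lit 3667151388) (nat_lit 152) (nat_lit 8187868504) (nat_lit 76) (nat_lit 19019447859) (nat_lit 8) (nat_lit 5) (nat_lit 10) (nat_lit 5) (nat_lit 9) (nat_lit 5) (nat_lit 218) (nat_lit 209) (nat_lit 173))) (XT.nd (nat_lit 78) (nat_lit 0) (nat_lit 0) (XT.lf (nat_lit 0) (nat_lit 2872283305) (nat_lit 152) (nat_lit 3997594683) (nat_lit 228)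 (nat_lit 27192918105) (nat_lit 6) (nat_lit 5) (nat_lit 8) (nat_lit 5) (nat_lit 9) (nat_lit 5) (nat_lit 219) (nat_lit 209) (nat_lit 172)) (XT.lf (nat_lit 0) (nat_lit 11194699376) (nat_lit 228) (nat_lit 21404565130) (nat_lit 76) (nat_lit 5034093586) (nat_lit 6) (nat_lit 5) (nat_lit 9) (nat_lit 5) (nat_lit 7) (nat_lit 4) (nat_lit 220) (nat_lit 209) (nat_lit 171)))) (XT.nd (nat_lit 156) (nat_lit 0) (nat_lit 0) (XT.nd (nat_lit 78) (nat_lit 76) (nat_lit 0) (XT.lf (nat_lit 0) (nat_lit 16345276306) (nat_lit 228) (nat_lit 10360254050) (nat_lit 76) (nat_lit 15007625510) (nat_lit 6) (nat_lit 5) (nat_lit 9) (nat_lit 5) (nat_lit 7) (nat_lit 4) (nat_lit 221) (nat_lit 209) (nat_lit 170)) (XT.lf (nat_lit 0) (nat_lit 2551158436) (nat_lit 76) (nat_lit 19811328660) (nat_lit 152) (nat_lit 24028508525) (nat_lit 5) (nat_lit 5) (nat_lit 6) (nat_lit 5) (nat_lit 7) (nat_lit 4) (nat_lit 222) (nat_lit 209)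 (nat_lit 169))) (XT.nd (nat_lit 78) (nat_lit 0) (nat_lit 0) (XT.lf (nat_lit 0) (nat_lit 18547724646) (nat_lit 76) (nat_lit 11265375940) (nat_lit 152) (nat_lit 21877943602) (nat_lit 5) (nat_lit 5) (nat_lit 6) (nat_lit 5) (nat_lit 7) (nat_lit 4) (nat_lit 223) (nat_lit 209) (nat_lit 168)) (XT.lf (nat_lit 0) (nat_lit 36929941500) (nat_lit 76) (nat_lit 1442027509) (nat_lit 152) (nat_lit 19415667257) (nat_lit 5) (nat_lit 5) (nat_lit 6) (nat_lit 5) (nat_lit 7) (nat_lit 4) (nat_lit 224) (nat_lit 209) (nat_lit 167))))) (XT.nd (nat_lit 312) (nat_lit 152) (nat_lit 0) (XT.nd (nat_lit 156) (nat_lit 0) (nat_lit 0) (XT.nd (nat_lit 78) (nat_lit 76) (nat_lit 0) (XT.lf (nat_lit 0) (nat_lit 48614453770) (nat_lit 152) (nat_lit 7150497219) (nat_lit 0) (nat_lit 8973916223) (nat_lit 5) (nat_lit 5) (nat_lit 7) (nat_lit 4) (nat_lit 5) (nat_lit 4) (nat_lit 225) (nat_lit 209) (nat_lit 166)) (XT.lf (nat_lit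 0) (nat_lit 9366501182) (nat_lit 76) (nat_lit 51476123889) (nat_lit 76) (nat_lit 11822863235) (nat_lit 4) (nat_lit 4) (nat_lit 5) (nat_lit 5) (nat_lit 5) (nat_lit 4) (nat_lit 226) (nat_lit 209) (nat_lit 165))) (XT.nd (nat_lit 78) (nat_lit 0) (nat_lit 0) (XT.lf (nat_lit 0) (nat_lit 29153708104) (nat_lit 76) (nat_lit 46118374409) (nat_lit 76) (nat_lit 6454050183) (nat_lit 4) (nat_lit 4) (nat_lit 5) (nat_lit 5) (nat_lit 5) (nat_lit 4) (nat_lit 227) (nat_lit 209) (nat_lit 164)) (XT.lf (nat_lit 0) (nat_lit 51899465960) (nat_lit 76) (nat_lit 39960653007) (nat_lit 76) (nat_lit 286708285) (nat_lit 4) (nat_lit 4) (nat_lit 5) (nat_lit 5) (nat_lit 5) (nat_lit 4) (nat_lit 228) (nat_lit 209) (nat_lit 163)))) (XT.nd (nat_lit 156) (nat_lit 76) (nat_lit 0) (XT.nd (nat_lit 78) (nat_lit 0) (nat_lit 0) (XT.lf (nat_lit 0) (nat_lit 6194460149) (nat_lit 152) (nat_lit 26364221050) (nat_lit 76) (nat_lit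 71530538972) (nat_lit 3) (nat_lit 5) (nat_lit 5) (nat_lit 5) (nat_lit 4) (nat_lit 4) (nat_lit 229) (nat_lit 209) (nat_lit 162)) (XT.lf (nat_lit 0) (nat_lit 13613771107) (nat_lit 152) (nat_lit 10419976969) (nat_lit 76) (nat_lit 93787928928) (nat_lit 3) (nat_lit 5) (nat_lit 5) (nat_lit 5) (nat_lit 4) (nat_lit 4) (nat_lit 230) (nat_lit 209) (nat_lit 161))) (XT.nd (nat_lit 78) (nat_lit 0) (nat_lit 0) (XT.lf (nat_lit 0) (nat_lit 8682139641) (nat_lit 76) (nat_lit 13819279020) (nat_lit 152) (nat_lit 111059312054) (nat_lit 2) (nat_lit 5) (nat_lit 3) (nat_lit 5) (nat_lit 4) (nat_lit 4) (nat_lit 231) (nat_lit 209) (nat_lit 160)) (XT.lf (nat_lit 0) (nat_lit 31814233789) (nat_lit 76) (nat_lit 1448856825) (nat_lit 152) (nat_lit 118316458844) (nat_lit 2) (nat_lit 5) (nat_lit 3) (nat_lit 5) (nat_lit 4) (nat_lit 4) (nat_lit 232) (nat_lit 209) (nat_lit 159)))))) (XT.nd (nat_lit 624) (nat_lit 76) (nat_lit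 0) (XT.nd (nat_lit 312) (nat_lit 0) (nat_lit 0) (XT.nd (nat_lit 156) (nat_lit 0) (nat_lit 0) (XT.nd (nat_lit 78) (nat_lit 0) (nat_lit 0) (XT.lf (nat_lit 0) (nat_lit 46164686136) (nat_lit 152) (nat_lit 114420126678) (nat_lit 0) (nat_lit 11637560815) (nat_lit 2) (nat_lit 5) (nat_lit 4) (nat_lit 4) (nat_lit 2) (nat_lit 4) (nat_lit 233) (nat_lit 209) (nat_lit 158)) (XT.lf (nat_lit 0) (nat_lit 61067556886) (nat_lit 152) (nat_lit 108347373452) (nat_lit 0) (nat_lit 26536814863) (nat_lit 2) (nat_lit 5) (nat_lit 4) (nat_lit 4) (nat_lit 2) (nat_lit 4) (nat_lit 234) (nat_lit 209) (nat_lit 157))) (XT.nd (nat_lit 78) (nat_lit 0) (nat_lit 0) (XT.lf (nat_lit 0) (nat_lit 78203286697) (nat_lit 152) (nat_lit 101368247184) (nat_lit 0) (nat_lit 43669399716) (nat_lit 2) (nat_lit 5) (nat_lit 4) (nat_lit 4) (nat_lit 2) (nat_lit 4) (nat_lit 235) (nat_lit 209) (nat_lit 156)) (XT.lf (nat_lit 0) (nat_lit 97907139848)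 (nat_lit 152) (nat_lit 93346199751) (nat_lit 0) (nat_lit 63370518122) (nat_lit 2) (nat_lit 5) (nat_lit 4) (nat_lit 4) (nat_lit 2) (nat_lit 4) (nat_lit 236) (nat_lit 209) (nat_lit 155)))) (XT.nd (nat_lit 156) (nat_lit 0) (nat_lit 0) (XT.nd (nat_lit 78) (nat_lit 0) (nat_lit 0) (XT.lf (nat_lit 0) (nat_lit 120564626510) (nat_lit 152) (nat_lit 84124278051) (nat_lit 0) (nat_lit 86025626745) (nat_lit 2) (nat_lit 5) (nat_lit 4) (nat_lit 4) (nat_lit 2) (nat_lit 4) (nat_lit 237) (nat_lit 209) (nat_lit 154)) (XT.lf (nat_lit 0) (nat_lit 146619045336) (nat_lit 152) (nat_lit 73522053182) (nat_lit 0) (nat_lit 112077977710) (nat_lit 2) (nat_lit 5) (nat_lit 4) (nat_lit 4) (nat_lit 2) (nat_lit 4) (nat_lit 238) (nat_lit 209) (nat_lit 153))) (XT.nd (nat_lit 78) (nat_lit 0) (nat_lit 0) (XT.lf (nat_lit 0) (nat_lit 176580156693) (nat_lit 152) (nat_lit 61332090308) (nat_lit 0) (nat_lit 142037290927) (nat_lit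 2) (nat_lit 5) (nat_lit 4) (nat_lit 4) (nat_lit 2) (nat_lit 4) (nat_lit 239) (nat_lit 209) (nat_lit 152)) (XT.lf (nat_lit 0) (nat_lit 211034156238) (nat_lit 152) (nat_lit 47315890156) (nat_lit 0) (nat_lit 176489726873) (nat_lit 2) (nat_lit 5) (nat_lit 4) (nat_lit 4) (nat_lit 2) (nat_lit 4) (nat_lit 240) (nat_lit 209) (nat_lit 151))))) (XT.nd (nat_lit 312) (nat_lit 0) (nat_lit 0) (XT.nd (nat_lit 156) (nat_lit 76) (nat_lit 0) (XT.nd (nat_lit 78) (nat_lit 0) (nat_lit 0) (XT.lf (nat_lit 0) (nat_lit 250655143963) (nat_lit 152) (nat_lit 31199222723) (nat_lit 0) (nat_lit 216109354946) (nat_lit 2) (nat_lit 5) (nat_lit 4) (nat_lit 4) (nat_lit 2) (nat_lit 4) (nat_lit 241) (nat_lit 209) (nat_lit 150)) (XT.lf (nat_lit 0) (nat_lit 296218313105) (nat_lit 152) (nat_lit 12666761908) (nat_lit 0) (nat_lit 261671341782) (nat_lit 2) (nat_lit 5) (nat_lit 4) (nat_lit 4) (nat_lit 2) (nat_lit 4) (nat_lit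 242) (nat_lit 209) (nat_lit 149))) (XT.nd (nat_lit 78) (nat_lit 0) (nat_lit 0) (XT.lf (nat_lit 0) (nat_lit 9488846660) (nat_lit 76) (nat_lit 339519183219) (nat_lit 76) (nat_lit 304971183803) (nat_lit 1) (nat_lit 4) (nat_lit 2) (nat_lit 5) (nat_lit 2) (nat_lit 4) (nat_lit 243) (nat_lit 209) (nat_lit 148)) (XT.lf (nat_lit 0) (nat_lit 36389951169) (nat_lit 76) (nat_lit 373987589535) (nat_lit 76) (nat_lit 339438696126) (nat_lit 1) (nat_lit 4) (nat_lit 2) (nat_lit 5) (nat_lit 2) (nat_lit 4) (nat_lit 244) (nat_lit 209) (nat_lit 147)))) (XT.nd (nat_lit 156) (nat_lit 0) (nat_lit 0) (XT.nd (nat_lit 78) (nat_lit 0) (nat_lit 0) (XT.lf (nat_lit 0) (nat_lit 67324989481) (nat_lit 76) (nat_lit 413626802015) (nat_lit 76) (nat_lit 379077131221) (nat_lit 1) (nat_lit 4) (nat_lit 2) (nat_lit 5) (nat_lit 2) (nat_lit 4) (nat_lit 245) (nat_lit 209) (nat_lit 146)) (XT.lf (nat_lit 0) (nat_lit 102899212344)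 (nat_lit 76) (nat_lit 459212370469) (nat_lit 76) (nat_lit 424662023688) (nat_lit 1) (nat_lit 4) (nat_lit 2) (nat_lit 5) (nat_lit 2) (nat_lit 4) (nat_lit 246) (nat_lit 209) (nat_lit 145))) (XT.nd (nat_lit 78) (nat_lit 0) (nat_lit 0) (XT.lf (nat_lit 0) (nat_lit 143808637163) (nat_lit 76) (nat_lit 511636186453) (nat_lit 76) (nat_lit 477085251857) (nat_lit 1) (nat_lit 4) (nat_lit 2) (nat_lit 5) (nat_lit 2) (nat_lit 4) (nat_lit 247) (nat_lit 209) (nat_lit 144)) (XT.lf (nat_lit 0) (nat_lit 190853665728) (nat_lit 76) (nat_lit 571923933323) (nat_lit 76) (nat_lit 537372487584) (nat_lit 1) (nat_lit 4) (nat_lit 2) (nat_lit 5) (nat_lit 2) (nat_lit 4) (nat_lit 248) (nat_lit 209) (nat_lit 143))))))) (XT.nd (nat_lit 1248) (nat_lit 0) (nat_lit 0) (XT.nd (nat_lit 624) (nat_lit 0) (nat_lit 0) (XT.nd (nat_lit 312) (nat_lit 0) (nat_lit 0) (XT.nd (nat_lit 156) (nat_lit 0) (nat_lit 0) (XT.nd (nat_lit 78)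 (nat_lit 0) (nat_lit 0) (XT.lf (nat_lit 0) (nat_lit 244954744250) (nat_lit 76) (nat_lit 641255153954) (nat_lit 76) (nat_lit 606703263742) (nat_lit 1) (nat_lit 4) (nat_lit 2) (nat_lit 5) (nat_lit 2) (nat_lit 4) (nat_lit 249) (nat_lit 209) (nat_lit 142)) (XT.lf (nat_lit 0) (nat_lit 307170372091) (nat_lit 76) (nat_lit 720986328748) (nat_lit 76) (nat_lit 686434052038) (nat_lit 1) (nat_lit 4) (nat_lit 2) (nat_lit 5) (nat_lit 2) (nat_lit 4) (nat_lit 250) (nat_lit 209) (nat_lit 141))) (XT.nd (nat_lit 78) (nat_lit 0) (nat_lit 0) (XT.lf (nat_lit 0) (nat_lit 378717811534) (nat_lit 76) (nat_lit 812677415474) (nat_lit 76) (nat_lit 778124802678) (nat_lit 1) (nat_lit 4) (nat_lit 2) (nat_lit 5) (nat_lit 2) (nat_lit 4) (nat_lit 251) (nat_lit 209) (nat_lit 140)) (XT.lf (nat_lit 0) (nat_lit 460996903788) (nat_lit 76) (nat_lit 918122370176) (nat_lit 76) (nat_lit 883569465132) (nat_lit 1) (nat_lit 4)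 (nat_lit 2) (nat_lit 5) (nat_lit 2) (nat_lit 4) (nat_lit 252) (nat_lit 209) (nat_lit 139)))) (XT.nd (nat_lit 156) (nat_lit 0) (nat_lit 0) (XT.nd (nat_lit 78) (nat_lit 0) (nat_lit 0) (XT.lf (nat_lit 0) (nat_lit 555617457177) (nat_lit 76) (nat_lit 1039384246315) (nat_lit 76) (nat_lit 1004831087143) (nat_lit 1) (nat_lit 4) (nat_lit 2) (nat_lit 5) (nat_lit 2) (nat_lit 4) (nat_lit 253) (nat_lit 209) (nat_lit 138)) (XT.lf (nat_lit 0) (nat_lit 664430743399) (nat_lit 76) (nat_lit 1178835558860) (nat_lit 76) (nat_lit 1144282178706) (nat_lit 1) (nat_lit 4) (nat_lit 2) (nat_lit 5) (nat_lit 2) (nat_lit 4) (nat_lit 254) (nat_lit 209) (nat_lit 137))) (XT.nd (nat_lit 78) (nat_lit 0) (nat_lit 0) (XT.lf (nat_lit 0) (nat_lit 789565718055) (nat_lit 76) (nat_lit 1339204703055) (nat_lit 76) (nat_lit 1304651130744) (nat_lit 1) (nat_lit 4) (nat_lit 2) (nat_lit 5) (nat_lit 2) (nat_lit 4) (nat_lit 255) (nat_lit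 209) (nat_lit 136)) (XT.lf (nat_lit 0) (nat_lit 933470674125) (nat_lit 76) (nat_lit 1523629336071) (nat_lit 76) (nat_lit 1489075596666) (nat_lit 1) (nat_lit 4) (nat_lit 2) (nat_lit 5) (nat_lit 2) (nat_lit 4) (nat_lit 256) (nat_lit 209) (nat_lit 135))))) (XT.nd (nat_lit 312) (nat_lit 0) (nat_lit 0) (XT.nd (nat_lit 156) (nat_lit 0) (nat_lit 0) (XT.nd (nat_lit 78) (nat_lit 0) (nat_lit 0) (XT.lf (nat_lit 0) (nat_lit 1098961143360) (nat_lit 76) (nat_lit 1735717765944) (nat_lit 76) (nat_lit 1701163881240) (nat_lit 1) (nat_lit 4) (nat_lit 2) (nat_lit 5) (nat_lit 2) (nat_lit 4) (nat_lit 257) (nat_lit 209) (nat_lit 134)) (XT.lf (nat_lit 0) (nat_lit 1289274982767) (nat_lit 76) (nat_lit 1979619548911) (nat_lit 76) (nat_lit 1945065537860) (nat_lit 1) (nat_lit 4) (nat_lit 2) (nat_lit 5) (nat_lit 2) (nat_lit 4) (nat_lit 258) (nat_lit 209) (nat_lit 133))) (XT.nd (nat_lit 78) (nat_lit 0) (nat_lit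 0) (XT.lf (nat_lit 0) (nat_lit 1508135723985) (nat_lit 76) (nat_lit 2260106676377) (nat_lit 76) (nat_lit 2225552555460) (nat_lit 1) (nat_lit 4) (nat_lit 2) (nat_lit 5) (nat_lit 2) (nat_lit 4) (nat_lit 259) (nat_lit 209) (nat_lit 132)) (XT.lf (nat_lit 0) (nat_lit 1759825424995) (nat_lit 76) (nat_lit 2582666939968) (nat_lit 76) (nat_lit 2548112723514) (nat_lit 1) (nat_lit 4) (nat_lit 2) (nat_lit 5) (nat_lit 2) (nat_lit 4) (nat_lit 260) (nat_lit 209) (nat_lit 131)))) (XT.nd (nat_lit 156) (nat_lit 0) (nat_lit 0) (XT.nd (nat_lit 78) (nat_lit 0) (nat_lit 0) (XT.lf (nat_lit 0) (nat_lit 2049268449514) (nat_lit 76) (nat_lit 2953611301362) (nat_lit 76) (nat_lit 2919057001833) (nat_lit 1) (nat_lit 4) (nat_lit 2) (nat_lit 5) (nat_lit 2) (nat_lit 4) (nat_lit 261) (nat_lit 209) (nat_lit 130)) (XT.lf (nat_lit 0) (nat_lit 2382127813237) (nat_lit 76) (nat_lit 3380197367630) (nat_lit 76) (nat_lit 3345642995861)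 (nat_lit 1) (nat_lit 4) (nat_lit 2) (nat_lit 5) (nat_lit 2) (nat_lit 4) (nat_lit 262) (nat_lit 209) (nat_lit 129))) (XT.nd (nat_lit 78) (nat_lit 0) (nat_lit 0) (XT.lf (nat_lit 0) (nat_lit 2764915981976) (nat_lit 76) (nat_lit 3870771387894) (nat_lit 76) (nat_lit 3836216953309) (nat_lit 1) (nat_lit 4) (nat_lit 2) (nat_lit 5) (nat_lit 2) (nat_lit 4) (nat_lit 263) (nat_lit 209) (nat_lit 128)) (XT.lf (nat_lit 0) (nat_lit 3205122289469) (nat_lit 76) (nat_lit 4434931549507) (nat_lit 76) (nat_lit 4400377060299) (nat_lit 1) (nat_lit 4) (nat_lit 2) (nat_lit 5) (nat_lit 2) (nat_lit 4) (nat_lit 264) (nat_lit 209) (nat_lit 127)))))) (XT.nd (nat_lit 624) (nat_lit 0) (nat_lit 0) (XT.nd (nat_lit 312) (nat_lit 0) (nat_lit 0) (XT.nd (nat_lit 156) (nat_lit 0) (nat_lit 0) (XT.nd (nat_lit 78) (nat_lit 0) (nat_lit 0) (XT.lf (nat_lit 0) (nat_lit 3711359467817) (nat_lit 76) (nat_lit 5083715768676) (nat_lit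 76) (nat_lit 5049161231969) (nat_lit 1) (nat_lit 4) (nat_lit 2) (nat_lit 5) (nat_lit 2) (nat_lit 4) (nat_lit 265) (nat_lit 209) (nat_lit 126)) (XT.lf (nat_lit 0) (nat_lit 4293532157468) (nat_lit 76) (nat_lit 5829817649687) (nat_lit 76) (nat_lit 5795263071678) (nat_lit 1) (nat_lit 4) (nat_lit 2) (nat_lit 5) (nat_lit 2) (nat_lit 4) (nat_lit 266) (nat_lit 209) (nat_lit 125))) (XT.nd (nat_lit 78) (nat_lit 0) (nat_lit 0) (XT.lf (nat_lit 0) (nat_lit 4963030693652) (nat_lit 76) (nat_lit 6687834838040) (nat_lit 76) (nat_lit 6653280224115) (nat_lit 1) (nat_lit 4) (nat_lit 2) (nat_lit 5) (nat_lit 2) (nat_lit 4) (nat_lit 267) (nat_lit 209) (nat_lit 124)) (XT.lf (nat_lit 0) (nat_lit 5732953960775) (nat_lit 76) (nat_lit 7674554626549) (nat_lit 76) (nat_lit 7639999981393) (nat_lit 1) (nat_lit 4) (nat_lit 2) (nat_lit 5) (nat_lit 2) (nat_lit 4) (nat_lit 268) (nat_lit 209) (nat_lit 123)))) (XT.nd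 (nat_lit 156) (nat_lit 0) (nat_lit 0) (XT.nd (nat_lit 78) (nat_lit 0) (nat_lit 0) (XT.lf (nat_lit 0) (nat_lit 6618365674931) (nat_lit 76) (nat_lit 8809282402382) (nat_lit 76) (nat_lit 8774727730068) (nat_lit 1) (nat_lit 4) (nat_lit 2) (nat_lit 5) (nat_lit 2) (nat_lit 4) (nat_lit 269) (nat_lit 209) (nat_lit 122)) (XT.lf (nat_lit 0) (nat_lit 7636589108790) (nat_lit 76) (nat_lit 10114219361151) (nat_lit 76) (nat_lit 10079664665222) (nat_lit 1) (nat_lit 4) (nat_lit 2) (nat_lit 5) (nat_lit 2) (nat_lit 4) (nat_lit 270) (nat_lit 209) (nat_lit 121))) (XT.nd (nat_lit 78) (nat_lit 0) (nat_lit 0) (XT.lf (nat_lit 0) (nat_lit 8807546025187) (nat_lit 76) (nat_lit 11614896878139) (nat_lit 76) (nat_lit 11580342161675) (nat_lit 1) (nat_lit 4) (nat_lit 2) (nat_lit 5) (nat_lit 2) (nat_lit 4) (nat_lit 271) (nat_lit 209) (nat_lit 120)) (XT.lf (nat_lit 0) (nat_lit 10154146450747) (nat_lit 76) (nat_lit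 13340676035197) (nat_lit 76) (nat_lit 13306121300877) (nat_lit 1) (nat_lit 4) (nat_lit 2) (nat_lit 5) (nat_lit 2) (nat_lit 4) (nat_lit 272) (nat_lit 209) (nat_lit 119))))) (XT.nd (nat_lit 468) (nat_lit 0) (nat_lit 0) (XT.nd (nat_lit 312) (nat_lit 0) (nat_lit 0) (XT.nd (nat_lit 78) (nat_lit 0) (nat_lit 0) (XT.lf (nat_lit 0) (nat_lit 11702736915536) (nat_lit 76) (nat_lit 15325322076705) (nat_lit 76) (nat_lit 15290767326857) (nat_lit 1) (nat_lit 4) (nat_lit 2) (nat_lit 5) (nat_lit 2) (nat_lit 4) (nat_lit 273) (nat_lit 209) (nat_lit 118)) (XT.lf (nat_lit 0) (nat_lit 13483615928648) (nat_lit 76) (nat_lit 17607665033909) (nat_lit 76) (nat_lit 17573110270559) (nat_lit 1) (nat_lit 4) (nat_lit 2) (nat_lit 5) (nat_lit 2) (nat_lit 4) (nat_lit 274) (nat_lit 209) (nat_lit 117))) (XT.nd (nat_lit 78) (nat_lit 0) (nat_lit 0) (XT.lf (nat_lit 0) (nat_lit 20595333544176) (nat_lit 76) (nat_lit 26721916390846)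 (nat_lit 76) (nat_lit 26687361596668) (nat_lit 1) (nat_lit 4) (nat_lit 2) (nat_lit 5) (nat_lit 2) (nat_lit 4) (nat_lit 277) (nat_lit 209) (nat_lit 114)) (XT.lf (nat_lit 0) (nat_lit 23710101990499) (nat_lit 76) (nat_lit 30713748522206) (nat_lit 76) (nat_lit 30679193720309) (nat_lit 1) (nat_lit 4) (nat_lit 2) (nat_lit 5) (nat_lit 2) (nat_lit 4) (nat_lit 278) (nat_lit 209) (nat_lit 113)))) (XT.nd (nat_lit 156) (nat_lit 0) (nat_lit 0) (XT.nd (nat_lit 78) (nat_lit 0) (nat_lit 0) (XT.lf (nat_lit 0) (nat_lit 27292085693133) (nat_lit 76) (nat_lit 35304355477978) (nat_lit 76) (nat_lit 35269800669368) (nat_lit 1) (nat_lit 4) (nat_lit 2) (nat_lit 5) (nat_lit 2) (nat_lit 4) (nat_lit 279) (nat_lit 209) (nat_lit 112)) (XT.lf (nat_lit 0) (nat_lit 31411366941913) (nat_lit 76) (nat_lit 40583553481210) (nat_lit 76) (nat_lit 40548998666763) (nat_lit 1) (nat_lit 4) (nat_lit 2) (nat_lit 5) (nat_lit 2)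 (nat_lit 4) (nat_lit 280) (nat_lit 209) (nat_lit 111))) (XT.nd (nat_lit 25740) (nat_lit 0) (nat_lit 836) (XT.lf (nat_lit 0) (nat_lit 36148540369965) (nat_lit 76) (nat_lit 46654631188487) (nat_lit 76) (nat_lit 46620076368963) (nat_lit 1) (nat_lit 4) (nat_lit 2) (nat_lit 5) (nat_lit 2) (nat_lit 4) (nat_lit 281) (nat_lit 209) (nat_lit 110)) (XT.lf (nat_lit 0) (nat_lit 2575141822) (nat_lit 0) (nat_lit 2575141822) (nat_lit 228) (nat_lit 3283977515) (nat_lit 12) (nat_lit 5) (nat_lit 12) (nat_lit 3) (nat_lit 15) (nat_lit 3) (nat_lit 210) (nat_lit 210) (nat_lit 180))))))))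
noncomputable def xc39 : XT := (XT.nd (nat_lit 2496) (nat_lit 76) (nat_lit 0) (XT.nd (nat_lit 1248) (nat_lit 228) (nat_lit 0) (XT.nd (nat_lit 624) (nat_lit 228) (nat_lit 0) (XT.nd (nat_lit 312) (nat_lit 304) (nat_lit 0) (XT.nd (nat_lit 156) (nat_lit 0) (nat_lit 0) (XT.nd (nat_lit 78) (nat_lit 0) (nat_lit 0) (XT.lf (nat_lit 0) (nat_lit 11308233116) (nat_lit 228) (nat_lit 5632940923) (nat_lit 304) (nat_lit 1153142521) (nat_lit 12) (nat_lit 5) (nat_lit 15) (nat_lit 3) (nat_lit 16) (nat_lit 5) (nat_lit 211) (nat_lit 210) (nat_lit 179)) (XT.lf (nat_lit 76) (nat_lit 1204596349) (nat_lit 0) (nat_lit 11525725563) (nat_lit 304) (nat_lit 6734892885) (nat_lit 13) (nat_lit 5) (nat_lit 12) (nat_lit 5) (nat_lit 16) (nat_lit 5) (nat_lit 212) (nat_lit 210) (nat_lit 178))) (XT.nd (nat_lit 78) (nat_lit 0) (nat_lit 76) (XT.lf (nat_lit 76) (nat_lit 9679309696) (nat_lit 0) (nat_lit 4952269563) (nat_lit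 304) (nat_lit 6370921378) (nat_lit 13) (nat_lit 5) (nat_lit 12) (nat_lit 5) (nat_lit 16) (nat_lit 5) (nat_lit 213) (nat_lit 210) (nat_lit 177)) (XT.lf (nat_lit 0) (nat_lit 16901374397) (nat_lit 228) (nat_lit 3476354550) (nat_lit 76) (nat_lit 2380696859) (nat_lit 13) (nat_lit 5) (nat_lit 16) (nat_lit 5) (nat_lit 14) (nat_lit 5) (nat_lit 214) (nat_lit 210) (nat_lit 176)))) (XT.nd (nat_lit 156) (nat_lit 152) (nat_lit 0) (XT.nd (nat_lit 78) (nat_lit 0) (nat_lit 0) (XT.lf (nat_lit 0) (nat_lit 5808591630) (nat_lit 228) (nat_lit 14157991270) (nat_lit 304) (nat_lit 4743392478) (nat_lit 10) (nat_lit 5) (nat_lit 13) (nat_lit 5) (nat_lit 14) (nat_lit 5) (nat_lit 215) (nat_lit 210) (nat_lit 175)) (XT.lf (nat_lit 0) (nat_lit 16857679113) (nat_lit 228) (nat_lit 6796204716) (nat_lit 304) (nat_lit 3276441876) (nat_lit 10) (nat_lit 5) (nat_lit 13) (nat_lit 5) (nat_lit 14) (nat_lit 5) (nat_lit 216)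 (nat_lit 210) (nat_lit 174))) (XT.nd (nat_lit 78) (nat_lit 152) (nat_lit 0) (XT.lf (nat_lit 0) (nat_lit 27946552866) (nat_lit 304) (nat_lit 8418745) (nat_lit 76) (nat_lit 1521276891) (nat_lit 10) (nat_lit 5) (nat_lit 14) (nat_lit 5) (nat_lit 11) (nat_lit 4) (nat_lit 217) (nat_lit 210) (nat_lit 173)) (XT.lf (nat_lit 0) (nat_lit 1294306814) (nat_lit 152) (nat_lit 20018664219) (nat_lit 76) (nat_lit 10959701945) (nat_lit 8) (nat_lit 5) (nat_lit 10) (nat_lit 5) (nat_lit 9) (nat_lit 5) (nat_lit 218) (nat_lit 210) (nat_lit 172))))) (XT.nd (nat_lit 312) (nat_lit 76) (nat_lit 0) (XT.nd (nat_lit 156) (nat_lit 0) (nat_lit 0) (XT.nd (nat_lit 78) (nat_lit 152) (nat_lit 0) (XT.lf (nat_lit 0) (nat_lit 4371436832) (nat_lit 152) (nat_lit 9222580110) (nat_lit 76) (nat_lit 21885934228) (nat_lit 8) (nat_lit 5) (nat_lit 10) (nat_lit 5) (nat_lit 9) (nat_lit 5) (nat_lit 219) (nat_lit 210) (nat_lit 171))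 (XT.lf (nat_lit 0) (nat_lit 3487800440) (nat_lit 152) (nat_lit 4554304261) (nat_lit 228) (nat_lit 31106627460) (nat_lit 6) (nat_lit 5) (nat_lit 8) (nat_lit 5) (nat_lit 9) (nat_lit 5) (nat_lit 220) (nat_lit 210) (nat_lit 170))) (XT.nd (nat_lit 78) (nat_lit 0) (nat_lit 0) (XT.lf (nat_lit 0) (nat_lit 12998706577) (nat_lit 228) (nat_lit 24435788717) (nat_lit 76) (nat_lit 5823214348) (nat_lit 6) (nat_lit 5) (nat_lit 9) (nat_lit 5) (nat_lit 7) (nat_lit 4) (nat_lit 221) (nat_lit 210) (nat_lit 169)) (XT.lf (nat_lit 0) (nat_lit 18905591486) (nat_lit 228) (nat_lit 11758238955) (nat_lit 76) (nat_lit 17288340401) (nat_lit 6) (nat_lit 5) (nat_lit 9) (nat_lit 5) (nat_lit 7) (nat_lit 4) (nat_lit 222) (nat_lit 210) (nat_lit 168)))) (XT.nd (nat_lit 156) (nat_lit 0) (nat_lit 0) (XT.nd (nat_lit 78) (nat_lit 0) (nat_lit 0) (XT.lf (nat_lit 0) (nat_lit 3082792077) (nat_lit 76) (nat_lit 22734604659) (nat_lit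 152) (nat_lit 27515707008) (nat_lit 5) (nat_lit 5) (nat_lit 6) (nat_lit 5) (nat_lit 7) (nat_lit 4) (nat_lit 223) (nat_lit 210) (nat_lit 167)) (XT.lf (nat_lit 0) (nat_lit 21459413669) (nat_lit 76) (nat_lit 12913075114) (nat_lit 152) (nat_lit 25057828364) (nat_lit 5) (nat_lit 5) (nat_lit 6) (nat_lit 5) (nat_lit 7) (nat_lit 4) (nat_lit 224) (nat_lit 210) (nat_lit 166))) (XT.nd (nat_lit 78) (nat_lit 0) (nat_lit 0) (XT.lf (nat_lit 0) (nat_lit 42582067792) (nat_lit 76) (nat_lit 1621716663) (nat_lit 152) (nat_lit 22239489712) (nat_lit 5) (nat_lit 5) (nat_lit 6) (nat_lit 5) (nat_lit 7) (nat_lit 4) (nat_lit 225) (nat_lit 210) (nat_lit 165)) (XT.lf (nat_lit 0) (nat_lit 55974044656) (nat_lit 152) (nat_lit 8115570534) (nat_lit 0) (nat_lit 10349008225) (nat_lit 5) (nat_lit 5) (nat_lit 7) (nat_lit 4) (nat_lit 5) (nat_lit 4) (nat_lit 226) (nat_lit 210) (nat_lit 164)))))) (XT.nd (nat_lit 624) (nat_lit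 0) (nat_lit 0) (XT.nd (nat_lit 312) (nat_lit 76) (nat_lit 0) (XT.nd (nat_lit 156) (nat_lit 76) (nat_lit 0) (XT.nd (nat_lit 78) (nat_lit 0) (nat_lit 0) (XT.lf (nat_lit 0) (nat_lit 10874091205) (nat_lit 76) (nat_lit 59157805227) (nat_lit 76) (nat_lit 13523148300) (nat_lit 4) (nat_lit 4) (nat_lit 5) (nat_lit 5) (nat_lit 5) (nat_lit 4) (nat_lit 227) (nat_lit 210) (nat_lit 163)) (XT.lf (nat_lit 0) (nat_lit 33615994621) (nat_lit 76) (nat_lit 53001576444) (nat_lit 76) (nat_lit 7358553867) (nat_lit 4) (nat_lit 4) (nat_lit 5) (nat_lit 5) (nat_lit 5) (nat_lit 4) (nat_lit 228) (nat_lit 210) (nat_lit 162))) (XT.nd (nat_lit 78) (nat_lit 76) (nat_lit 0) (XT.lf (nat_lit 0) (nat_lit 59761977420) (nat_lit 76) (nat_lit 45924703892) (nat_lit 76) (nat_lit 274406837) (nat_lit 4) (nat_lit 4) (nat_lit 5) (nat_lit 5) (nat_lit 5) (nat_lit 4) (nat_lit 229) (nat_lit 210) (nat_lit 161)) (XT.lf (nat_lit 0) (nat_lit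 7167441186) (nat_lit 152) (nat_lit 30246624136) (nat_lit 76) (nat_lit 82281488556) (nat_lit 3) (nat_lit 5) (nat_lit 5) (nat_lit 5) (nat_lit 4) (nat_lit 4) (nat_lit 230) (nat_lit 210) (nat_lit 160)))) (XT.nd (nat_lit 156) (nat_lit 0) (nat_lit 0) (XT.nd (nat_lit 78) (nat_lit 76) (nat_lit 0) (XT.lf (nat_lit 0) (nat_lit 15693934177) (nat_lit 152) (nat_lit 11920164755) (nat_lit 76) (nat_lit 107874699779) (nat_lit 3) (nat_lit 5) (nat_lit 5) (nat_lit 5) (nat_lit 4) (nat_lit 4) (nat_lit 231) (nat_lit 210) (nat_lit 159)) (XT.lf (nat_lit 0) (nat_lit 10044414402) (nat_lit 76) (nat_lit 15867827796) (nat_lit 152) (nat_lit 127676895443) (nat_lit 2) (nat_lit 5) (nat_lit 3) (nat_lit 5) (nat_lit 4) (nat_lit 4) (nat_lit 232) (nat_lit 210) (nat_lit 158))) (XT.nd (nat_lit 78) (nat_lit 0) (nat_lit 0) (XT.lf (nat_lit 0) (nat_lit 36638502610) (nat_lit 76) (nat_lit 1645017455) (nat_lit 152) (nat_lit 136028002958)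 (nat_lit 2) (nat_lit 5) (nat_lit 3) (nat_lit 5) (nat_lit 4) (nat_lit 4) (nat_lit 233) (nat_lit 210) (nat_lit 157)) (XT.lf (nat_lit 0) (nat_lit 53117078080) (nat_lit 152) (nat_lit 131534262124) (nat_lit 0) (nat_lit 13399963095) (nat_lit 2) (nat_lit 5) (nat_lit 4) (nat_lit 4) (nat_lit 2) (nat_lit 4) (nat_lit 234) (nat_lit 210) (nat_lit 156))))) (XT.nd (nat_lit 312) (nat_lit 0) (nat_lit 0) (XT.nd (nat_lit 156) (nat_lit 0) (nat_lit 0) (XT.nd (nat_lit 78) (nat_lit 0) (nat_lit 0) (XT.lf (nat_lit 0) (nat_lit 70251767829) (nat_lit 152) (nat_lit 124556972031) (nat_lit 0) (nat_lit 30531918099) (nat_lit 2) (nat_lit 5) (nat_lit 4) (nat_lit 4) (nat_lit 2) (nat_lit 4) (nat_lit 235) (nat_lit 210) (nat_lit 155)) (XT.lf (nat_lit 0) (nat_lit 89954716580) (nat_lit 152) (nat_lit 116536521271) (nat_lit 0) (nat_lit 50232488810) (nat_lit 2) (nat_lit 5) (nat_lit 4) (nat_lit 4) (nat_lit 2) (nat_lit 4) (nat_lit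 236) (nat_lit 210) (nat_lit 154))) (XT.nd (nat_lit 78) (nat_lit 0) (nat_lit 0) (XT.lf (nat_lit 0) (nat_lit 112611416807) (nat_lit 152) (nat_lit 107315987983) (nat_lit 0) (nat_lit 72887121177) (nat_lit 2) (nat_lit 5) (nat_lit 4) (nat_lit 4) (nat_lit 2) (nat_lit 4) (nat_lit 237) (nat_lit 210) (nat_lit 153)) (XT.lf (nat_lit 0) (nat_lit 138665151776) (nat_lit 152) (nat_lit 96714970428) (nat_lit 0) (nat_lit 98939058005) (nat_lit 2) (nat_lit 5) (nat_lit 4) (nat_lit 4) (nat_lit 2) (nat_lit 4) (nat_lit 238) (nat_lit 210) (nat_lit 152)))) (XT.nd (nat_lit 156) (nat_lit 0) (nat_lit 0) (XT.nd (nat_lit 78) (nat_lit 0) (nat_lit 0) (XT.lf (nat_lit 0) (nat_lit 168625668474) (nat_lit 152) (nat_lit 84526057393) (nat_lit 0) (nat_lit 128898011104) (nat_lit 2) (nat_lit 5) (nat_lit 4) (nat_lit 4) (nat_lit 2) (nat_lit 4) (nat_lit 239) (nat_lit 210) (nat_lit 151)) (XT.lf (nat_lit 0) (nat_lit 203079150925)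 (nat_lit 152) (nat_lit 70510770144) (nat_lit 0) (nat_lit 163350133904) (nat_lit 2) (nat_lit 5) (nat_lit 4) (nat_lit 4) (nat_lit 2) (nat_lit 4) (nat_lit 240) (nat_lit 210) (nat_lit 150))) (XT.nd (nat_lit 78) (nat_lit 0) (nat_lit 0) (XT.lf (nat_lit 0) (nat_lit 242699689003) (nat_lit 152) (nat_lit 54394896540) (nat_lit 0) (nat_lit 202969489675) (nat_lit 2) (nat_lit 5) (nat_lit 4) (nat_lit 4) (nat_lit 2) (nat_lit 4) (nat_lit 241) (nat_lit 210) (nat_lit 149)) (XT.lf (nat_lit 0) (nat_lit 288262467148) (nat_lit 152) (nat_lit 35863126011) (nat_lit 0) (nat_lit 248531239728) (nat_lit 2) (nat_lit 5) (nat_lit 4) (nat_lit 4) (nat_lit 2) (nat_lit 4) (nat_lit 242) (nat_lit 210) (nat_lit 148))))))) (XT.nd (nat_lit 1248) (nat_lit 0) (nat_lit 0) (XT.nd (nat_lit 624) (nat_lit 0) (nat_lit 0) (XT.nd (nat_lit 312) (nat_lit 0) (nat_lit 0) (XT.nd (nat_lit 156) (nat_lit 0) (nat_lit 0) (XT.nd (nat_lit 78)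 (nat_lit 76) (nat_lit 0) (XT.lf (nat_lit 0) (nat_lit 340658931019) (nat_lit 152) (nat_lit 14552880437) (nat_lit 0) (nat_lit 300926809606) (nat_lit 2) (nat_lit 5) (nat_lit 4) (nat_lit 4) (nat_lit 2) (nat_lit 4) (nat_lit 243) (nat_lit 210) (nat_lit 147)) (XT.lf (nat_lit 0) (nat_lit 10925437791) (nat_lit 76) (nat_lit 390441190112) (nat_lit 76) (nat_lit 350708291313) (nat_lit 1) (nat_lit 4) (nat_lit 2) (nat_lit 5) (nat_lit 2) (nat_lit 4) (nat_lit 244) (nat_lit 210) (nat_lit 146))) (XT.nd (nat_lit 78) (nat_lit 0) (nat_lit 0) (XT.lf (nat_lit 0) (nat_lit 41859977872) (nat_lit 76) (nat_lit 430080623104) (nat_lit 76) (nat_lit 390347048319) (nat_lit 1) (nat_lit 4) (nat_lit 2) (nat_lit 5) (nat_lit 2) (nat_lit 4) (nat_lit 245) (nat_lit 210) (nat_lit 145)) (XT.lf (nat_lit 0) (nat_lit 77433767492) (nat_lit 76) (nat_lit 475666383308) (nat_lit 76) (nat_lit 435932220707) (nat_lit 1) (nat_lit 4) (nat_lit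 2) (nat_lit 5) (nat_lit 2) (nat_lit 4) (nat_lit 246) (nat_lit 210) (nat_lit 144)))) (XT.nd (nat_lit 156) (nat_lit 0) (nat_lit 0) (XT.nd (nat_lit 78) (nat_lit 0) (nat_lit 0) (XT.lf (nat_lit 0) (nat_lit 118342815578) (nat_lit 76) (nat_lit 528090366031) (nat_lit 76) (nat_lit 488355692287) (nat_lit 1) (nat_lit 4) (nat_lit 2) (nat_lit 5) (nat_lit 2) (nat_lit 4) (nat_lit 247) (nat_lit 210) (nat_lit 143)) (XT.lf (nat_lit 0) (nat_lit 165387516548) (nat_lit 76) (nat_lit 588378257892) (nat_lit 76) (nat_lit 548643139675) (nat_lit 1) (nat_lit 4) (nat_lit 2) (nat_lit 5) (nat_lit 2) (nat_lit 4) (nat_lit 248) (nat_lit 210) (nat_lit 142))) (XT.nd (nat_lit 78) (nat_lit 0) (nat_lit 0) (XT.lf (nat_lit 0) (nat_lit 219488310205) (nat_lit 76) (nat_lit 657709604601) (nat_lit 76) (nat_lit 617974099887) (nat_lit 1) (nat_lit 4) (nat_lit 2) (nat_lit 5) (nat_lit 2) (nat_lit 4) (nat_lit 249) (nat_lit 210) (nat_lit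 141)) (XT.lf (nat_lit 0) (nat_lit 281703690338) (nat_lit 76) (nat_lit 737440889029) (nat_lit 76) (nat_lit 697705048229) (nat_lit 1) (nat_lit 4) (nat_lit 2) (nat_lit 5) (nat_lit 2) (nat_lit 4) (nat_lit 250) (nat_lit 210) (nat_lit 140))))) (XT.nd (nat_lit 312) (nat_lit 0) (nat_lit 0) (XT.nd (nat_lit 156) (nat_lit 0) (nat_lit 0) (XT.nd (nat_lit 78) (nat_lit 0) (nat_lit 0) (XT.lf (nat_lit 0) (nat_lit 353250914383) (nat_lit 76) (nat_lit 829132071089) (nat_lit 76) (nat_lit 789395938041) (nat_lit 1) (nat_lit 4) (nat_lit 2) (nat_lit 5) (nat_lit 2) (nat_lit 4) (nat_lit 251) (nat_lit 210) (nat_lit 139)) (XT.lf (nat_lit 0) (nat_lit 435529819333) (nat_lit 76) (nat_lit 934577108689) (nat_lit 76) (nat_lit 894840721512) (nat_lit 1) (nat_lit 4) (nat_lit 2) (nat_lit 5) (nat_lit 2) (nat_lit 4) (nat_lit 252) (nat_lit 210) (nat_lit 138))) (XT.nd (nat_lit 78) (nat_lit 0) (nat_lit 0) (XT.lf (nat_lit 0)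 (nat_lit 530150209850) (nat_lit 76) (nat_lit 1055839056914) (nat_lit 76) (nat_lit 1016102448756) (nat_lit 1) (nat_lit 4) (nat_lit 2) (nat_lit 5) (nat_lit 2) (nat_lit 4) (nat_lit 253) (nat_lit 210) (nat_lit 137)) (XT.lf (nat_lit 0) (nat_lit 638963354444) (nat_lit 76) (nat_lit 1195290432142) (nat_lit 76) (nat_lit 1155553631826) (nat_lit 1) (nat_lit 4) (nat_lit 2) (nat_lit 5) (nat_lit 2) (nat_lit 4) (nat_lit 254) (nat_lit 210) (nat_lit 136)))) (XT.nd (nat_lit 156) (nat_lit 0) (nat_lit 0) (XT.nd (nat_lit 78) (nat_lit 0) (nat_lit 0) (XT.lf (nat_lit 0) (nat_lit 764098205945) (nat_lit 76) (nat_lit 1355659630845) (nat_lit 76) (nat_lit 1315922663436) (nat_lit 1) (nat_lit 4) (nat_lit 2) (nat_lit 5) (nat_lit 2) (nat_lit 4) (nat_lit 255) (nat_lit 210) (nat_lit 135)) (XT.lf (nat_lit 0) (nat_lit 908003054924) (nat_lit 76) (nat_lit 1540084311258) (nat_lit 76) (nat_lit 1500347198550) (nat_lit 1)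 (nat_lit 4) (nat_lit 2) (nat_lit 5) (nat_lit 2) (nat_lit 4) (nat_lit 256) (nat_lit 210) (nat_lit 134))) (XT.nd (nat_lit 78) (nat_lit 0) (nat_lit 0) (XT.lf (nat_lit 0) (nat_lit 1073493431036) (nat_lit 76) (nat_lit 1752172782347) (nat_lit 76) (nat_lit 1712435543291) (nat_lit 1) (nat_lit 4) (nat_lit 2) (nat_lit 5) (nat_lit 2) (nat_lit 4) (nat_lit 257) (nat_lit 210) (nat_lit 133)) (XT.lf (nat_lit 0) (nat_lit 1263807189466) (nat_lit 76) (nat_lit 1996074601153) (nat_lit 76) (nat_lit 1956337252231) (nat_lit 1) (nat_lit 4) (nat_lit 2) (nat_lit 5) (nat_lit 2) (nat_lit 4) (nat_lit 258) (nat_lit 210) (nat_lit 132)))))) (XT.nd (nat_lit 624) (nat_lit 0) (nat_lit 0) (XT.nd (nat_lit 312) (nat_lit 0) (nat_lit 0) (XT.nd (nat_lit 156) (nat_lit 0) (nat_lit 0) (XT.nd (nat_lit 78) (nat_lit 0) (nat_lit 0) (XT.lf (nat_lit 0) (nat_lit 1482667860270) (nat_lit 76) (nat_lit 2276561759784) (nat_lit 76) (nat_lit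 2236824315326) (nat_lit 1) (nat_lit 4) (nat_lit 2) (nat_lit 5) (nat_lit 2) (nat_lit 4) (nat_lit 259) (nat_lit 210) (nat_lit 131)) (XT.lf (nat_lit 0) (nat_lit 1734357500051) (nat_lit 76) (nat_lit 2599122050475) (nat_lit 76) (nat_lit 2559384522941) (nat_lit 1) (nat_lit 4) (nat_lit 2) (nat_lit 5) (nat_lit 2) (nat_lit 4) (nat_lit 260) (nat_lit 210) (nat_lit 130))) (XT.nd (nat_lit 78) (nat_lit 0) (nat_lit 0) (XT.lf (nat_lit 0) (nat_lit 2023800471326) (nat_lit 76) (nat_lit 2970066435434) (nat_lit 76) (nat_lit 2930328835661) (nat_lit 1) (nat_lit 4) (nat_lit 2) (nat_lit 5) (nat_lit 2) (nat_lit 4) (nat_lit 261) (nat_lit 210) (nat_lit 129)) (XT.lf (nat_lit 0) (nat_lit 2356659788751) (nat_lit 76) (nat_lit 3396652522193) (nat_lit 76) (nat_lit 3356914859603) (nat_lit 1) (nat_lit 4) (nat_lit 2) (nat_lit 5) (nat_lit 2) (nat_lit 4) (nat_lit 262) (nat_lit 210) (nat_lit 128)))) (XT.nd (nat_lit 156)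 (nat_lit 0) (nat_lit 0) (XT.nd (nat_lit 78) (nat_lit 0) (nat_lit 0) (XT.lf (nat_lit 0) (nat_lit 2739447917231) (nat_lit 76) (nat_lit 3887226560275) (nat_lit 76) (nat_lit 3847488843063) (nat_lit 1) (nat_lit 4) (nat_lit 2) (nat_lit 5) (nat_lit 2) (nat_lit 4) (nat_lit 263) (nat_lit 210) (nat_lit 127)) (XT.lf (nat_lit 0) (nat_lit 3179654189715) (nat_lit 76) (nat_lit 4451386737383) (nat_lit 76) (nat_lit 4411648972672) (nat_lit 1) (nat_lit 4) (nat_lit 2) (nat_lit 5) (nat_lit 2) (nat_lit 4) (nat_lit 264) (nat_lit 210) (nat_lit 126))) (XT.nd (nat_lit 78) (nat_lit 0) (nat_lit 0) (XT.lf (nat_lit 0) (nat_lit 3685891337621) (nat_lit 76) (nat_lit 5100170970025) (nat_lit 76) (nat_lit 5060433164011) (nat_lit 1) (nat_lit 4) (nat_lit 2) (nat_lit 5) (nat_lit 2) (nat_lit 4) (nat_lit 265) (nat_lit 210) (nat_lit 125)) (XT.lf (nat_lit 0) (nat_lit 4268064000800) (nat_lit 76) (nat_lit 5846272862753) (nat_lit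 76) (nat_lit 5806535020823) (nat_lit 1) (nat_lit 4) (nat_lit 2) (nat_lit 5) (nat_lit 2) (nat_lit 4) (nat_lit 266) (nat_lit 210) (nat_lit 124))))) (XT.nd (nat_lit 312) (nat_lit 0) (nat_lit 0) (XT.nd (nat_lit 156) (nat_lit 0) (nat_lit 0) (XT.nd (nat_lit 78) (nat_lit 0) (nat_lit 0) (XT.lf (nat_lit 0) (nat_lit 4937562513967) (nat_lit 76) (nat_lit 6704290061293) (nat_lit 76) (nat_lit 6664552188132) (nat_lit 1) (nat_lit 4) (nat_lit 2) (nat_lit 5) (nat_lit 2) (nat_lit 4) (nat_lit 267) (nat_lit 210) (nat_lit 123)) (XT.lf (nat_lit 0) (nat_lit 5707485761073) (nat_lit 76) (nat_lit 7691009858661) (nat_lit 76) (nat_lit 7651271958343) (nat_lit 1) (nat_lit 4) (nat_lit 2) (nat_lit 5) (nat_lit 2) (nat_lit 4) (nat_lit 268) (nat_lit 210) (nat_lit 122))) (XT.nd (nat_lit 78) (nat_lit 0) (nat_lit 0) (XT.lf (nat_lit 0) (nat_lit 6592897457824) (nat_lit 76) (nat_lit 8825737642197) (nat_lit 76) (nat_lit 8785999718264)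 (nat_lit 1) (nat_lit 4) (nat_lit 2) (nat_lit 5) (nat_lit 2) (nat_lit 4) (nat_lit 269) (nat_lit 210) (nat_lit 121)) (XT.lf (nat_lit 0) (nat_lit 7611120876548) (nat_lit 76) (nat_lit 10130674607665) (nat_lit 76) (nat_lit 10090936663197) (nat_lit 1) (nat_lit 4) (nat_lit 2) (nat_lit 5) (nat_lit 2) (nat_lit 4) (nat_lit 270) (nat_lit 210) (nat_lit 120)))) (XT.nd (nat_lit 156) (nat_lit 0) (nat_lit 0) (XT.nd (nat_lit 78) (nat_lit 0) (nat_lit 0) (XT.lf (nat_lit 0) (nat_lit 8782077779784) (nat_lit 76) (nat_lit 11631352130478) (nat_lit 76) (nat_lit 11591614168153) (nat_lit 1) (nat_lit 4) (nat_lit 2) (nat_lit 5) (nat_lit 2) (nat_lit 4) (nat_lit 271) (nat_lit 210) (nat_lit 119)) (XT.lf (nat_lit 0) (nat_lit 10128678193900) (nat_lit 76) (nat_lit 13357131292601) (nat_lit 76) (nat_lit 13317393314749) (nat_lit 1) (nat_lit 4) (nat_lit 2) (nat_lit 5) (nat_lit 2) (nat_lit 4) (nat_lit 272) (nat_lit 210)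 (nat_lit 118))) (XT.nd (nat_lit 78) (nat_lit 0) (nat_lit 0) (XT.lf (nat_lit 0) (nat_lit 11677268648737) (nat_lit 76) (nat_lit 15341777338514) (nat_lit 76) (nat_lit 15302039347160) (nat_lit 1) (nat_lit 4) (nat_lit 2) (nat_lit 5) (nat_lit 2) (nat_lit 4) (nat_lit 273) (nat_lit 210) (nat_lit 117)) (XT.lf (nat_lit 0) (nat_lit 13458147653196) (nat_lit 76) (nat_lit 17624120299547) (nat_lit 76) (nat_lit 17584382296452) (nat_lit 1) (nat_lit 4) (nat_lit 2) (nat_lit 5) (nat_lit 2) (nat_lit 4) (nat_lit 274) (nat_lit 210) (nat_lit 116))))))))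
noncomputable def xc40 : XT := (XT.nd (nat_lit 28314) (nat_lit 0) (nat_lit 0) (XT.nd (nat_lit 27066) (nat_lit 0) (nat_lit 76) (XT.nd (nat_lit 26442) (nat_lit 0) (nat_lit 380) (XT.nd (nat_lit 26130) (nat_lit 0) (nat_lit 836) (XT.nd (nat_lit 156) (nat_lit 0) (nat_lit 0) (XT.nd (nat_lit 78) (nat_lit 0) (nat_lit 0) (XT.lf (nat_lit 0) (nat_lit 20569865248966) (nat_lit 76) (nat_lit 26738371665229) (nat_lit 76) (nat_lit 26698633635327) (nat_lit 1) (nat_lit 4) (nat_lit 2) (nat_lit 5) (nat_lit 2) (nat_lit 4) (nat_lit 277) (nat_lit 210) (nat_lit 113)) (XT.lf (nat_lit 0) (nat_lit 23684633690341) (nat_lit 76) (nat_lit 30730203798779) (nat_lit 76) (nat_lit 30690465762164) (nat_lit 1) (nat_lit 4) (nat_lit 2) (nat_lit 5) (nat_lit 2) (nat_lit 4) (nat_lit 278) (nat_lit 210) (nat_lit 112))) (XT.nd (nat_lit 78) (nat_lit 0) (nat_lit 0) (XT.lf (nat_lit 0) (nat_lit 27266617388673) (nat_lit 76) (nat_lit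 35320810756456) (nat_lit 76) (nat_lit 35281072714003) (nat_lit 1) (nat_lit 4) (nat_lit 2) (nat_lit 5) (nat_lit 2) (nat_lit 4) (nat_lit 279) (nat_lit 210) (nat_lit 111)) (XT.lf (nat_lit 0) (nat_lit 31385898633711) (nat_lit 76) (nat_lit 40600008761344) (nat_lit 76) (nat_lit 40560270713815) (nat_lit 1) (nat_lit 4) (nat_lit 2) (nat_lit 5) (nat_lit 2) (nat_lit 4) (nat_lit 280) (nat_lit 210) (nat_lit 110)))) (XT.nd (nat_lit 156) (nat_lit 0) (nat_lit 0) (XT.nd (nat_lit 78) (nat_lit 0) (nat_lit 0) (XT.lf (nat_lit 0) (nat_lit 3048984182) (nat_lit 0) (nat_lit 3048984182) (nat_lit 228) (nat_lit 3571252997) (nat_lit 12) (nat_lit 5) (nat_lit 12) (nat_lit 3) (nat_lit 15) (nat_lit 3) (nat_lit 211) (nat_lit 211) (nat_lit 178)) (XT.lf (nat_lit 0) (nat_lit 13302756850) (nat_lit 228) (nat_lit 6266793035) (nat_lit 304) (nat_lit 1187374938) (nat_lit 12) (nat_lit 5) (nat_lit 15) (nat_lit 3) (nat_lit 16)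 (nat_lit 5) (nat_lit 212) (nat_lit 211) (nat_lit 177))) (XT.nd (nat_lit 78) (nat_lit 0) (nat_lit 0) (XT.lf (nat_lit 76) (nat_lit 1586779872) (nat_lit 0) (nat_lit 13320815302) (nat_lit 304) (nat_lit 7431333612) (nat_lit 13) (nat_lit 5) (nat_lit 12) (nat_lit 5) (nat_lit 16) (nat_lit 5) (nat_lit 213) (nat_lit 211) (nat_lit 176)) (XT.lf (nat_lit 76) (nat_lit 11306418386) (nat_lit 0) (nat_lit 5752702089) (nat_lit 304) (nat_lit 7053695928) (nat_lit 13) (nat_lit 5) (nat_lit 12) (nat_lit 5) (nat_lit 16) (nat_lit 5) (nat_lit 214) (nat_lit 211) (nat_lit 175))))) (XT.nd (nat_lit 312) (nat_lit 228) (nat_lit 0) (XT.nd (nat_lit 156) (nat_lit 76) (nat_lit 0) (XT.nd (nat_lit 78) (nat_lit 228) (nat_lit 0) (XT.lf (nat_lit 0) (nat_lit 19636945392) (nat_lit 228) (nat_lit 3808541358) (nat_lit 76) (nat_lit 2692179783) (nat_lit 13) (nat_lit 5) (nat_lit 16) (nat_lit 5) (nat_lit 14) (nat_lit 5) (nat_lit 215)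 (nat_lit 211) (nat_lit 174)) (XT.lf (nat_lit 0) (nat_lit 6860543732) (nat_lit 228) (nat_lit 16282737779) (nat_lit 304) (nat_lit 5242047916) (nat_lit 10) (nat_lit 5) (nat_lit 13) (nat_lit 5) (nat_lit 14) (nat_lit 5) (nat_lit 216) (nat_lit 211) (nat_lit 173))) (XT.nd (nat_lit 78) (nat_lit 76) (nat_lit 0) (XT.lf (nat_lit 0) (nat_lit 19543429553) (nat_lit 228) (nat_lit 7816546570) (nat_lit 304) (nat_lit 3582818215) (nat_lit 10) (nat_lit 5) (nat_lit 13) (nat_lit 5) (nat_lit 14) (nat_lit 5) (nat_lit 217) (nat_lit 211) (nat_lit 172)) (XT.lf (nat_lit 0) (nat_lit 165215336) (nat_lit 76) (nat_lit 32117528621) (nat_lit 152) (nat_lit 1590372538) (nat_lit 9) (nat_lit 5) (nat_lit 10) (nat_lit 5) (nat_lit 11) (nat_lit 4) (nat_lit 218) (nat_lit 211) (nat_lit 171)))) (XT.nd (nat_lit 156) (nat_lit 152) (nat_lit 0) (XT.nd (nat_lit 78) (nat_lit 0) (nat_lit 0) (XT.lf (nat_lit 0) (nat_lit 1622550868) (nat_lit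 152) (nat_lit 22853230226) (nat_lit 76) (nat_lit 12615456533) (nat_lit 8) (nat_lit 5) (nat_lit 10) (nat_lit 5) (nat_lit 9) (nat_lit 5) (nat_lit 219) (nat_lit 211) (nat_lit 170)) (XT.lf (nat_lit 0) (nat_lit 5143759340) (nat_lit 152) (nat_lit 10459677017) (nat_lit 76) (nat_lit 25179084620) (nat_lit 8) (nat_lit 5) (nat_lit 10) (nat_lit 5) (nat_lit 9) (nat_lit 5) (nat_lit 220) (nat_lit 211) (nat_lit 169))) (XT.nd (nat_lit 78) (nat_lit 0) (nat_lit 0) (XT.lf (nat_lit 0) (nat_lit 4150611065) (nat_lit 152) (nat_lit 5204988936) (nat_lit 228) (nat_lit 35647685201) (nat_lit 6) (nat_lit 5) (nat_lit 8) (nat_lit 5) (nat_lit 9) (nat_lit 5) (nat_lit 221) (nat_lit 211) (nat_lit 168)) (XT.lf (nat_lit 0) (nat_lit 15042881028) (nat_lit 228) (nat_lit 27965458587) (nat_lit 76) (nat_lit 6722410469) (nat_lit 6) (nat_lit 5) (nat_lit 9) (nat_lit 5) (nat_lit 7) (nat_lit 4) (nat_lit 222) (nat_lit 211) (nat_lit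 167)))))) (XT.nd (nat_lit 624) (nat_lit 152) (nat_lit 0) (XT.nd (nat_lit 312) (nat_lit 76) (nat_lit 0) (XT.nd (nat_lit 156) (nat_lit 0) (nat_lit 0) (XT.nd (nat_lit 78) (nat_lit 76) (nat_lit 0) (XT.lf (nat_lit 0) (nat_lit 21823489744) (nat_lit 228) (nat_lit 13403976157) (nat_lit 76) (nat_lit 19903951434) (nat_lit 6) (nat_lit 5) (nat_lit 9) (nat_lit 5) (nat_lit 7) (nat_lit 4) (nat_lit 223) (nat_lit 211) (nat_lit 166)) (XT.lf (nat_lit 0) (nat_lit 3657845955) (nat_lit 76) (nat_lit 26108180386) (nat_lit 152) (nat_lit 31554535425) (nat_lit 5) (nat_lit 5) (nat_lit 6) (nat_lit 5) (nat_lit 7) (nat_lit 4) (nat_lit 224) (nat_lit 211) (nat_lit 165))) (XT.nd (nat_lit 78) (nat_lit 0) (nat_lit 0) (XT.lf (nat_lit 0) (nat_lit 24776269256) (nat_lit 76) (nat_lit 14818197275) (nat_lit 152) (nat_lit 28739522067) (nat_lit 5) (nat_lit 5) (nat_lit 6) (nat_lit 5) (nat_lit 7) (nat_lit 4) (nat_lit 225) (nat_lit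 211) (nat_lit 164)) (XT.lf (nat_lit 0) (nat_lit 49054546253) (nat_lit 76) (nat_lit 1837287984) (nat_lit 152) (nat_lit 25508473559) (nat_lit 5) (nat_lit 5) (nat_lit 6) (nat_lit 5) (nat_lit 7) (nat_lit 4) (nat_lit 226) (nat_lit 211) (nat_lit 163)))) (XT.nd (nat_lit 156) (nat_lit 0) (nat_lit 0) (XT.nd (nat_lit 78) (nat_lit 76) (nat_lit 0) (XT.lf (nat_lit 0) (nat_lit 64421132692) (nat_lit 152) (nat_lit 9251619712) (nat_lit 0) (nat_lit 11923291079) (nat_lit 5) (nat_lit 5) (nat_lit 7) (nat_lit 4) (nat_lit 5) (nat_lit 4) (nat_lit 227) (nat_lit 211) (nat_lit 162)) (XT.lf (nat_lit 0) (nat_lit 12582796452) (nat_lit 76) (nat_lit 68001428945) (nat_lit 76) (nat_lit 15496312854) (nat_lit 4) (nat_lit 4) (nat_lit 5) (nat_lit 5) (nat_lit 5) (nat_lit 4) (nat_lit 228) (nat_lit 211) (nat_lit 161))) (XT.nd (nat_lit 78) (nat_lit 0) (nat_lit 0) (XT.lf (nat_lit 0) (nat_lit 38725864741) (nat_lit 76) (nat_lit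 60925685027) (nat_lit 76) (nat_lit 8414243304) (nat_lit 4) (nat_lit 4) (nat_lit 5) (nat_lit 5) (nat_lit 5) (nat_lit 4) (nat_lit 229) (nat_lit 211) (nat_lit 160)) (XT.lf (nat_lit 0) (nat_lit 68784944405) (nat_lit 76) (nat_lit 52790689577) (nat_lit 76) (nat_lit 273747303) (nat_lit 4) (nat_lit 4) (nat_lit 5) (nat_lit 5) (nat_lit 5) (nat_lit 4) (nat_lit 230) (nat_lit 211) (nat_lit 159))))) (XT.nd (nat_lit 312) (nat_lit 0) (nat_lit 0) (XT.nd (nat_lit 156) (nat_lit 76) (nat_lit 0) (XT.nd (nat_lit 78) (nat_lit 0) (nat_lit 0) (XT.lf (nat_lit 0) (nat_lit 8275685542) (nat_lit 152) (nat_lit 34729001444) (nat_lit 76) (nat_lit 94639869676) (nat_lit 3) (nat_lit 5) (nat_lit 5) (nat_lit 5) (nat_lit 4) (nat_lit 4) (nat_lit 231) (nat_lit 211) (nat_lit 158)) (XT.lf (nat_lit 0) (nat_lit 18076831415) (nat_lit 152) (nat_lit 13660697024) (nat_lit 76) (nat_lit 124069955038) (nat_lit 3) (nat_lit 5) (nat_lit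 5) (nat_lit 5) (nat_lit 4) (nat_lit 4) (nat_lit 232) (nat_lit 211) (nat_lit 157))) (XT.nd (nat_lit 78) (nat_lit 0) (nat_lit 0) (XT.lf (nat_lit 0) (nat_lit 11596410260) (nat_lit 76) (nat_lit 18229595101) (nat_lit 152) (nat_lit 146797190879) (nat_lit 2) (nat_lit 5) (nat_lit 3) (nat_lit 5) (nat_lit 4) (nat_lit 4) (nat_lit 233) (nat_lit 211) (nat_lit 156)) (XT.lf (nat_lit 0) (nat_lit 42173698608) (nat_lit 76) (nat_lit 1875764105) (nat_lit 152) (nat_lit 156405039158) (nat_lit 2) (nat_lit 5) (nat_lit 3) (nat_lit 5) (nat_lit 4) (nat_lit 4) (nat_lit 234) (nat_lit 211) (nat_lit 155)))) (XT.nd (nat_lit 156) (nat_lit 0) (nat_lit 0) (XT.nd (nat_lit 78) (nat_lit 0) (nat_lit 0) (XT.lf (nat_lit 0) (nat_lit 61105576671) (nat_lit 152) (nat_lit 151227438452) (nat_lit 0) (nat_lit 15422636695) (nat_lit 2) (nat_lit 5) (nat_lit 4) (nat_lit 4) (nat_lit 2) (nat_lit 4) (nat_lit 235) (nat_lit 211) (nat_lit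 154)) (XT.lf (nat_lit 0) (nat_lit 80807738986) (nat_lit 152) (nat_lit 143208376105) (nat_lit 0) (nat_lit 35122731150) (nat_lit 2) (nat_lit 5) (nat_lit 4) (nat_lit 4) (nat_lit 2) (nat_lit 4) (nat_lit 236) (nat_lit 211) (nat_lit 153))) (XT.nd (nat_lit 78) (nat_lit 0) (nat_lit 0) (XT.lf (nat_lit 0) (nat_lit 103463755356) (nat_lit 152) (nat_lit 133989050131) (nat_lit 0) (nat_lit 57776949380) (nat_lit 2) (nat_lit 5) (nat_lit 4) (nat_lit 4) (nat_lit 2) (nat_lit 4) (nat_lit 237) (nat_lit 211) (nat_lit 152)) (XT.lf (nat_lit 0) (nat_lit 129516895666) (nat_lit 152) (nat_lit 123389082414) (nat_lit 0) (nat_lit 83828526091) (nat_lit 2) (nat_lit 5) (nat_lit 4) (nat_lit 4) (nat_lit 2) (nat_lit 4) (nat_lit 238) (nat_lit 211) (nat_lit 151))))))) (XT.nd (nat_lit 1248) (nat_lit 0) (nat_lit 0) (XT.nd (nat_lit 624) (nat_lit 0) (nat_lit 0) (XT.nd (nat_lit 312) (nat_lit 76) (nat_lit 0) (XT.nd (nat_lit 156)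 (nat_lit 0) (nat_lit 0) (XT.nd (nat_lit 78) (nat_lit 0) (nat_lit 0) (XT.lf (nat_lit 0) (nat_lit 159476895271) (nat_lit 152) (nat_lit 111201082282) (nat_lit 0) (nat_lit 113787166044) (nat_lit 2) (nat_lit 5) (nat_lit 4) (nat_lit 4) (nat_lit 2) (nat_lit 4) (nat_lit 239) (nat_lit 211) (nat_lit 150)) (XT.lf (nat_lit 0) (nat_lit 193929928075) (nat_lit 152) (nat_lit 97186588863) (nat_lit 0) (nat_lit 148239016542) (nat_lit 2) (nat_lit 5) (nat_lit 4) (nat_lit 4) (nat_lit 2) (nat_lit 4) (nat_lit 240) (nat_lit 211) (nat_lit 149))) (XT.nd (nat_lit 78) (nat_lit 0) (nat_lit 0) (XT.lf (nat_lit 0) (nat_lit 233550075155) (nat_lit 152) (nat_lit 81071405545) (nat_lit 0) (nat_lit 187858135530) (nat_lit 2) (nat_lit 5) (nat_lit 4) (nat_lit 4) (nat_lit 2) (nat_lit 4) (nat_lit 241) (nat_lit 211) (nat_lit 148)) (XT.lf (nat_lit 0) (nat_lit 279112513302) (nat_lit 152) (nat_lit 62540235264) (nat_lit 0) (nat_lit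 233419679684) (nat_lit 2) (nat_lit 5) (nat_lit 4) (nat_lit 4) (nat_lit 2) (nat_lit 4) (nat_lit 242) (nat_lit 211) (nat_lit 147)))) (XT.nd (nat_lit 156) (nat_lit 76) (nat_lit 0) (XT.nd (nat_lit 78) (nat_lit 0) (nat_lit 0) (XT.lf (nat_lit 0) (nat_lit 331508681523) (nat_lit 152) (nat_lit 41230511645) (nat_lit 0) (nat_lit 285815070519) (nat_lit 2) (nat_lit 5) (nat_lit 4) (nat_lit 4) (nat_lit 2) (nat_lit 4) (nat_lit 243) (nat_lit 211) (nat_lit 146)) (XT.lf (nat_lit 0) (nat_lit 391763722240) (nat_lit 152) (nat_lit 16725305314) (nat_lit 0) (nat_lit 346069435249) (nat_lit 2) (nat_lit 5) (nat_lit 4) (nat_lit 4) (nat_lit 2) (nat_lit 4) (nat_lit 244) (nat_lit 211) (nat_lit 145))) (XT.nd (nat_lit 78) (nat_lit 0) (nat_lit 0) (XT.lf (nat_lit 0) (nat_lit 12574283049) (nat_lit 76) (nat_lit 449002929620) (nat_lit 76) (nat_lit 403308054814) (nat_lit 1) (nat_lit 4) (nat_lit 2) (nat_lit 5) (nat_lit 2)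 (nat_lit 4) (nat_lit 245) (nat_lit 211) (nat_lit 144)) (XT.lf (nat_lit 0) (nat_lit 48147695936) (nat_lit 76) (nat_lit 494588856562) (nat_lit 76) (nat_lit 448893470613) (nat_lit 1) (nat_lit 4) (nat_lit 2) (nat_lit 5) (nat_lit 2) (nat_lit 4) (nat_lit 246) (nat_lit 211) (nat_lit 143))))) (XT.nd (nat_lit 312) (nat_lit 0) (nat_lit 0) (XT.nd (nat_lit 156) (nat_lit 0) (nat_lit 0) (XT.nd (nat_lit 78) (nat_lit 0) (nat_lit 0) (XT.lf (nat_lit 0) (nat_lit 89056416427) (nat_lit 76) (nat_lit 547012984276) (nat_lit 76) (nat_lit 501317153854) (nat_lit 1) (nat_lit 4) (nat_lit 2) (nat_lit 5) (nat_lit 2) (nat_lit 4) (nat_lit 247) (nat_lit 211) (nat_lit 142)) (XT.lf (nat_lit 0) (nat_lit 136100832532) (nat_lit 76) (nat_lit 607301002215) (nat_lit 76) (nat_lit 561604785295) (nat_lit 1) (nat_lit 4) (nat_lit 2) (nat_lit 5) (nat_lit 2) (nat_lit 4) (nat_lit 248) (nat_lit 211) (nat_lit 141))) (XT.nd (nat_lit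 78) (nat_lit 0) (nat_lit 0) (XT.lf (nat_lit 0) (nat_lit 190201378481) (nat_lit 76) (nat_lit 676632458558) (nat_lit 76) (nat_lit 630935905553) (nat_lit 1) (nat_lit 4) (nat_lit 2) (nat_lit 5) (nat_lit 2) (nat_lit 4) (nat_lit 249) (nat_lit 211) (nat_lit 140)) (XT.lf (nat_lit 0) (nat_lit 252416543215) (nat_lit 76) (nat_lit 756363838320) (nat_lit 76) (nat_lit 710666993067) (nat_lit 1) (nat_lit 4) (nat_lit 2) (nat_lit 5) (nat_lit 2) (nat_lit 4) (nat_lit 250) (nat_lit 211) (nat_lit 139)))) (XT.nd (nat_lit 156) (nat_lit 0) (nat_lit 0) (XT.nd (nat_lit 78) (nat_lit 0) (nat_lit 0) (XT.lf (nat_lit 0) (nat_lit 323963579957) (nat_lit 76) (nat_lit 848055103278) (nat_lit 76) (nat_lit 802358003896) (nat_lit 1) (nat_lit 4) (nat_lit 2) (nat_lit 5) (nat_lit 2) (nat_lit 4) (nat_lit 251) (nat_lit 211) (nat_lit 138)) (XT.lf (nat_lit 0) (nat_lit 406242322034) (nat_lit 76) (nat_lit 953500212964) (nat_lit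 76) (nat_lit 907802892601) (nat_lit 1) (nat_lit 4) (nat_lit 2) (nat_lit 5) (nat_lit 2) (nat_lit 4) (nat_lit 252) (nat_lit 211) (nat_lit 137))) (XT.nd (nat_lit 78) (nat_lit 0) (nat_lit 0) (XT.lf (nat_lit 0) (nat_lit 500862570923) (nat_lit 76) (nat_lit 1074762223872) (nat_lit 76) (nat_lit 1029064711351) (nat_lit 1) (nat_lit 4) (nat_lit 2) (nat_lit 5) (nat_lit 2) (nat_lit 4) (nat_lit 253) (nat_lit 211) (nat_lit 136)) (XT.lf (nat_lit 0) (nat_lit 609675592363) (nat_lit 76) (nat_lit 1214213653608) (nat_lit 76) (nat_lit 1168515973993) (nat_lit 1) (nat_lit 4) (nat_lit 2) (nat_lit 5) (nat_lit 2) (nat_lit 4) (nat_lit 254) (nat_lit 211) (nat_lit 135)))))) (XT.nd (nat_lit 624) (nat_lit 0) (nat_lit 0) (XT.nd (nat_lit 312) (nat_lit 0) (nat_lit 0) (XT.nd (nat_lit 156) (nat_lit 0) (nat_lit 0) (XT.nd (nat_lit 78) (nat_lit 0) (nat_lit 0) (XT.lf (nat_lit 0) (nat_lit 734810336772) (nat_lit 76) (nat_lit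 1374582899708) (nat_lit 76) (nat_lit 1328885074795) (nat_lit 1) (nat_lit 4) (nat_lit 2) (nat_lit 5) (nat_lit 2) (nat_lit 4) (nat_lit 255) (nat_lit 211) (nat_lit 134)) (XT.lf (nat_lit 0) (nat_lit 878715092629) (nat_lit 76) (nat_lit 1559007621337) (nat_lit 76) (nat_lit 1513309670077) (nat_lit 1) (nat_lit 4) (nat_lit 2) (nat_lit 5) (nat_lit 2) (nat_lit 4) (nat_lit 256) (nat_lit 211) (nat_lit 133))) (XT.nd (nat_lit 78) (nat_lit 0) (nat_lit 0) (XT.lf (nat_lit 0) (nat_lit 1044205387765) (nat_lit 76) (nat_lit 1771096128265) (nat_lit 76) (nat_lit 1725398067137) (nat_lit 1) (nat_lit 4) (nat_lit 2) (nat_lit 5) (nat_lit 2) (nat_lit 4) (nat_lit 257) (nat_lit 211) (nat_lit 132)) (XT.lf (nat_lit 0) (nat_lit 1234519075780) (nat_lit 76) (nat_lit 2014997978236) (nat_lit 76) (nat_lit 1969299821572) (nat_lit 1) (nat_lit 4) (nat_lit 2) (nat_lit 5) (nat_lit 2) (nat_lit 4) (nat_lit 258) (nat_lit 211) (nat_lit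 131)))) (XT.nd (nat_lit 156) (nat_lit 0) (nat_lit 0) (XT.nd (nat_lit 78) (nat_lit 0) (nat_lit 0) (XT.lf (nat_lit 0) (nat_lit 1453379685355) (nat_lit 76) (nat_lit 2295485163967) (nat_lit 76) (nat_lit 2249786924228) (nat_lit 1) (nat_lit 4) (nat_lit 2) (nat_lit 5) (nat_lit 2) (nat_lit 4) (nat_lit 259) (nat_lit 211) (nat_lit 130)) (XT.lf (nat_lit 0) (nat_lit 1705069271892) (nat_lit 76) (nat_lit 2618045478222) (nat_lit 76) (nat_lit 2572347166244) (nat_lit 1) (nat_lit 4) (nat_lit 2) (nat_lit 5) (nat_lit 2) (nat_lit 4) (nat_lit 260) (nat_lit 211) (nat_lit 129))) (XT.nd (nat_lit 78) (nat_lit 0) (nat_lit 0) (XT.lf (nat_lit 0) (nat_lit 1994512196869) (nat_lit 76) (nat_lit 2988989883672) (nat_lit 76) (nat_lit 2943291508878) (nat_lit 1) (nat_lit 4) (nat_lit 2) (nat_lit 5) (nat_lit 2) (nat_lit 4) (nat_lit 261) (nat_lit 211) (nat_lit 128)) (XT.lf (nat_lit 0) (nat_lit 2327371474034) (nat_lit 76)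 (nat_lit 3415575988250) (nat_lit 76) (nat_lit 3369877558832) (nat_lit 1) (nat_lit 4) (nat_lit 2) (nat_lit 5) (nat_lit 2) (nat_lit 4) (nat_lit 262) (nat_lit 211) (nat_lit 127))))) (XT.nd (nat_lit 312) (nat_lit 0) (nat_lit 0) (XT.nd (nat_lit 156) (nat_lit 0) (nat_lit 0) (XT.nd (nat_lit 78) (nat_lit 0) (nat_lit 0) (XT.lf (nat_lit 0) (nat_lit 2710159567505) (nat_lit 76) (nat_lit 3906150041827) (nat_lit 76) (nat_lit 3860451564911) (nat_lit 1) (nat_lit 4) (nat_lit 2) (nat_lit 5) (nat_lit 2) (nat_lit 4) (nat_lit 263) (nat_lit 211) (nat_lit 126)) (XT.lf (nat_lit 0) (nat_lit 3150365809548) (nat_lit 76) (nat_lit 4470310232408) (nat_lit 76) (nat_lit 4424611714189) (nat_lit 1) (nat_lit 4) (nat_lit 2) (nat_lit 5) (nat_lit 2) (nat_lit 4) (nat_lit 264) (nat_lit 211) (nat_lit 125))) (XT.nd (nat_lit 78) (nat_lit 0) (nat_lit 0) (XT.lf (nat_lit 0) (nat_lit 3656602930983) (nat_lit 76) (nat_lit 5119094476766)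 (nat_lit 76) (nat_lit 5073395922631) (nat_lit 1) (nat_lit 4) (nat_lit 2) (nat_lit 5) (nat_lit 2) (nat_lit 4) (nat_lit 265) (nat_lit 211) (nat_lit 124)) (XT.lf (nat_lit 0) (nat_lit 4238775571143) (nat_lit 76) (nat_lit 5865196379681) (nat_lit 76) (nat_lit 5819497794315) (nat_lit 1) (nat_lit 4) (nat_lit 2) (nat_lit 5) (nat_lit 2) (nat_lit 4) (nat_lit 266) (nat_lit 211) (nat_lit 123)))) (XT.nd (nat_lit 156) (nat_lit 0) (nat_lit 0) (XT.nd (nat_lit 78) (nat_lit 0) (nat_lit 0) (XT.lf (nat_lit 0) (nat_lit 4908274064294) (nat_lit 76) (nat_lit 6723213587081) (nat_lit 76) (nat_lit 6677514974557) (nat_lit 1) (nat_lit 4) (nat_lit 2) (nat_lit 5) (nat_lit 2) (nat_lit 4) (nat_lit 267) (nat_lit 211) (nat_lit 122)) (XT.lf (nat_lit 0) (nat_lit 5678197293995) (nat_lit 76) (nat_lit 7709933392152) (nat_lit 76) (nat_lit 7664234756014) (nat_lit 1) (nat_lit 4) (nat_lit 2) (nat_lit 5) (nat_lit 2) (nat_lit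 4) (nat_lit 268) (nat_lit 211) (nat_lit 121))) (XT.nd (nat_lit 78) (nat_lit 0) (nat_lit 0) (XT.lf (nat_lit 0) (nat_lit 6563608975611) (nat_lit 76) (nat_lit 8844661182387) (nat_lit 76) (nat_lit 8798962525713) (nat_lit 1) (nat_lit 4) (nat_lit 2) (nat_lit 5) (nat_lit 2) (nat_lit 4) (nat_lit 269) (nat_lit 211) (nat_lit 120)) (XT.lf (nat_lit 0) (nat_lit 7581832381173) (nat_lit 76) (nat_lit 10149598153680) (nat_lit 76) (nat_lit 10103899479150) (nat_lit 1) (nat_lit 4) (nat_lit 2) (nat_lit 5) (nat_lit 2) (nat_lit 4) (nat_lit 270) (nat_lit 211) (nat_lit 119))))))))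
noncomputable def xc41 : XT := (XT.nd (nat_lit 28626) (nat_lit 0) (nat_lit 0) (XT.nd (nat_lit 27378) (nat_lit 0) (nat_lit 76) (XT.nd (nat_lit 26754) (nat_lit 0) (nat_lit 532) (XT.nd (nat_lit 468) (nat_lit 0) (nat_lit 0) (XT.nd (nat_lit 156) (nat_lit 0) (nat_lit 0) (XT.nd (nat_lit 78) (nat_lit 0) (nat_lit 0) (XT.lf (nat_lit 0) (nat_lit 8752789272965) (nat_lit 76) (nat_lit 11650275681557) (nat_lit 76) (nat_lit 11604576991500) (nat_lit 1) (nat_lit 4) (nat_lit 2) (nat_lit 5) (nat_lit 2) (nat_lit 4) (nat_lit 271) (nat_lit 211) (nat_lit 118)) (XT.lf (nat_lit 0) (nat_lit 10099389677129) (nat_lit 76) (nat_lit 13376054848086) (nat_lit 76) (nat_lit 13330356144527) (nat_lit 1) (nat_lit 4) (nat_lit 2) (nat_lit 5) (nat_lit 2) (nat_lit 4) (nat_lit 272) (nat_lit 211) (nat_lit 117))) (XT.nd (nat_lit 78) (nat_lit 0) (nat_lit 0) (XT.lf (nat_lit 0) (nat_lit 11647980123314) (nat_lit 76) (nat_lit 15360700897828)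 (nat_lit 76) (nat_lit 15315002182528) (nat_lit 1) (nat_lit 4) (nat_lit 2) (nat_lit 5) (nat_lit 2) (nat_lit 4) (nat_lit 273) (nat_lit 211) (nat_lit 116)) (XT.lf (nat_lit 0) (nat_lit 13428859120247) (nat_lit 76) (nat_lit 17643043862192) (nat_lit 76) (nat_lit 17597345136682) (nat_lit 1) (nat_lit 4) (nat_lit 2) (nat_lit 5) (nat_lit 2) (nat_lit 4) (nat_lit 274) (nat_lit 211) (nat_lit 115)))) (XT.nd (nat_lit 156) (nat_lit 0) (nat_lit 0) (XT.nd (nat_lit 78) (nat_lit 0) (nat_lit 0) (XT.lf (nat_lit 0) (nat_lit 20540576698836) (nat_lit 76) (nat_lit 26757295235478) (nat_lit 76) (nat_lit 26711596486658) (nat_lit 1) (nat_lit 4) (nat_lit 2) (nat_lit 5) (nat_lit 2) (nat_lit 4) (nat_lit 277) (nat_lit 211) (nat_lit 112)) (XT.lf (nat_lit 0) (nat_lit 23655345135909) (nat_lit 76) (nat_lit 30749127370932) (nat_lit 76) (nat_lit 30703428616275) (nat_lit 1) (nat_lit 4) (nat_lit 2) (nat_lit 5) (nat_lit 2)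 (nat_lit 4) (nat_lit 278) (nat_lit 211) (nat_lit 111))) (XT.nd (nat_lit 26052) (nat_lit 0) (nat_lit 836) (XT.lf (nat_lit 0) (nat_lit 27237328830500) (nat_lit 76) (nat_lit 35339734330264) (nat_lit 76) (nat_lit 35294035570531) (nat_lit 1) (nat_lit 4) (nat_lit 2) (nat_lit 5) (nat_lit 2) (nat_lit 4) (nat_lit 279) (nat_lit 211) (nat_lit 110)) (XT.lf (nat_lit 0) (nat_lit 3572548132) (nat_lit 0) (nat_lit 3572548132) (nat_lit 228) (nat_lit 3951688664) (nat_lit 12) (nat_lit 5) (nat_lit 12) (nat_lit 3) (nat_lit 15) (nat_lit 3) (nat_lit 212) (nat_lit 212) (nat_lit 176))))) (XT.nd (nat_lit 312) (nat_lit 304) (nat_lit 0) (XT.nd (nat_lit 156) (nat_lit 0) (nat_lit 0) (XT.nd (nat_lit 78) (nat_lit 0) (nat_lit 0) (XT.lf (nat_lit 0) (nat_lit 15523719539) (nat_lit 228) (nat_lit 7047198360) (nat_lit 304) (nat_lit 1260574591) (nat_lit 12) (nat_lit 5) (nat_lit 15) (nat_lit 3) (nat_lit 16) (nat_lit 5) (nat_lit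 213) (nat_lit 212) (nat_lit 175)) (XT.lf (nat_lit 76) (nat_lit 1977155318) (nat_lit 0) (nat_lit 15369017678) (nat_lit 304) (nat_lit 8308760908) (nat_lit 13) (nat_lit 5) (nat_lit 12) (nat_lit 5) (nat_lit 16) (nat_lit 5) (nat_lit 214) (nat_lit 212) (nat_lit 174))) (XT.nd (nat_lit 78) (nat_lit 0) (nat_lit 76) (XT.lf (nat_lit 76) (nat_lit 13134866766) (nat_lit 0) (nat_lit 6659155298) (nat_lit 304) (nat_lit 7905426191) (nat_lit 13) (nat_lit 5) (nat_lit 12) (nat_lit 5) (nat_lit 16) (nat_lit 5) (nat_lit 215) (nat_lit 212) (nat_lit 173)) (XT.lf (nat_lit 0) (nat_lit 22733991803) (nat_lit 228) (nat_lit 4236709991) (nat_lit 76) (nat_lit 3061510263) (nat_lit 13) (nat_lit 5) (nat_lit 16) (nat_lit 5) (nat_lit 14) (nat_lit 5) (nat_lit 216) (nat_lit 212) (nat_lit 172)))) (XT.nd (nat_lit 156) (nat_lit 152) (nat_lit 0) (XT.nd (nat_lit 78) (nat_lit 0) (nat_lit 0) (XT.lf (nat_lit 0) (nat_lit 8026232746)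 (nat_lit 228) (nat_lit 18725940747) (nat_lit 304) (nat_lit 5867407327) (nat_lit 10) (nat_lit 5) (nat_lit 13) (nat_lit 5) (nat_lit 14) (nat_lit 5) (nat_lit 217) (nat_lit 212) (nat_lit 171)) (XT.lf (nat_lit 0) (nat_lit 22593733076) (nat_lit 228) (nat_lit 8989717513) (nat_lit 304) (nat_lit 3980286359) (nat_lit 10) (nat_lit 5) (nat_lit 13) (nat_lit 5) (nat_lit 14) (nat_lit 5) (nat_lit 218) (nat_lit 212) (nat_lit 170))) (XT.nd (nat_lit 78) (nat_lit 76) (nat_lit 0) (XT.lf (nat_lit 0) (nat_lit 322960243) (nat_lit 76) (nat_lit 36911570154) (nat_lit 152) (nat_lit 1700925752) (nat_lit 9) (nat_lit 5) (nat_lit 10) (nat_lit 5) (nat_lit 11) (nat_lit 4) (nat_lit 219) (nat_lit 212) (nat_lit 169)) (XT.lf (nat_lit 0) (nat_lit 1967330876) (nat_lit 152) (nat_lit 26154005969) (nat_lit 76) (nat_lit 14516696976) (nat_lit 8) (nat_lit 5) (nat_lit 10) (nat_lit 5) (nat_lit 9) (nat_lit 5) (nat_lit 220) (nat_lit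 212) (nat_lit 168)))))) (XT.nd (nat_lit 624) (nat_lit 228) (nat_lit 0) (XT.nd (nat_lit 312) (nat_lit 76) (nat_lit 0) (XT.nd (nat_lit 156) (nat_lit 0) (nat_lit 0) (XT.nd (nat_lit 78) (nat_lit 152) (nat_lit 0) (XT.lf (nat_lit 0) (nat_lit 6003494874) (nat_lit 152) (nat_lit 11918012230) (nat_lit 76) (nat_lit 28963705541) (nat_lit 8) (nat_lit 5) (nat_lit 10) (nat_lit 5) (nat_lit 9) (nat_lit 5) (nat_lit 221) (nat_lit 212) (nat_lit 167)) (XT.lf (nat_lit 0) (nat_lit 4878791049) (nat_lit 152) (nat_lit 5961192125) (nat_lit 228) (nat_lit 40900368130) (nat_lit 6) (nat_lit 5) (nat_lit 8) (nat_lit 5) (nat_lit 9) (nat_lit 5) (nat_lit 222) (nat_lit 212) (nat_lit 166))) (XT.nd (nat_lit 78) (nat_lit 0) (nat_lit 0) (XT.lf (nat_lit 0) (nat_lit 17370669299) (nat_lit 228) (nat_lit 32057669861) (nat_lit 76) (nat_lit 7750215495) (nat_lit 6) (nat_lit 5) (nat_lit 9) (nat_lit 5) (nat_lit 7) (nat_lit 4) (nat_lit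 223) (nat_lit 212) (nat_lit 165)) (XT.lf (nat_lit 0) (nat_lit 25159062003) (nat_lit 228) (nat_lit 15325348655) (nat_lit 76) (nat_lit 22906451501) (nat_lit 6) (nat_lit 5) (nat_lit 9) (nat_lit 5) (nat_lit 7) (nat_lit 4) (nat_lit 224) (nat_lit 212) (nat_lit 164)))) (XT.nd (nat_lit 156) (nat_lit 0) (nat_lit 0) (XT.nd (nat_lit 78) (nat_lit 0) (nat_lit 0) (XT.lf (nat_lit 0) (nat_lit 4291691141) (nat_lit 76) (nat_lit 29996721265) (nat_lit 152) (nat_lit 36220776129) (nat_lit 5) (nat_lit 5) (nat_lit 6) (nat_lit 5) (nat_lit 7) (nat_lit 4) (nat_lit 225) (nat_lit 212) (nat_lit 163)) (XT.lf (nat_lit 0) (nat_lit 28566769029) (nat_lit 76) (nat_lit 17016851928) (nat_lit 152) (nat_lit 32992242021) (nat_lit 5) (nat_lit 5) (nat_lit 6) (nat_lit 5) (nat_lit 7) (nat_lit 4) (nat_lit 226) (nat_lit 212) (nat_lit 162))) (XT.nd (nat_lit 78) (nat_lit 0) (nat_lit 0) (XT.lf (nat_lit 0) (nat_lit 56477127656) (nat_lit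 76) (nat_lit 2091946453) (nat_lit 152) (nat_lit 29284128631) (nat_lit 5) (nat_lit 5) (nat_lit 6) (nat_lit 5) (nat_lit 7) (nat_lit 4) (nat_lit 227) (nat_lit 212) (nat_lit 161)) (XT.lf (nat_lit 0) (nat_lit 74122851812) (nat_lit 152) (nat_lit 10577898470) (nat_lit 0) (nat_lit 13728368197) (nat_lit 5) (nat_lit 5) (nat_lit 7) (nat_lit 4) (nat_lit 5) (nat_lit 4) (nat_lit 228) (nat_lit 212) (nat_lit 160))))) (XT.nd (nat_lit 312) (nat_lit 76) (nat_lit 0) (XT.nd (nat_lit 156) (nat_lit 76) (nat_lit 0) (XT.nd (nat_lit 78) (nat_lit 0) (nat_lit 0) (XT.lf (nat_lit 0) (nat_lit 14528886291) (nat_lit 76) (nat_lit 78178923388) (nat_lit 76) (nat_lit 17778939223) (nat_lit 4) (nat_lit 4) (nat_lit 5) (nat_lit 5) (nat_lit 5) (nat_lit 4) (nat_lit 229) (nat_lit 212) (nat_lit 159)) (XT.lf (nat_lit 0) (nat_lit 44585762166) (nat_lit 76) (nat_lit 70044781347) (nat_lit 76) (nat_lit 9640014095) (nat_lit 4) (nat_lit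 4) (nat_lit 5) (nat_lit 5) (nat_lit 5) (nat_lit 4) (nat_lit 230) (nat_lit 212) (nat_lit 158))) (XT.nd (nat_lit 78) (nat_lit 76) (nat_lit 0) (XT.lf (nat_lit 0) (nat_lit 79147049295) (nat_lit 76) (nat_lit 60692113506) (nat_lit 76) (nat_lit 283187047) (nat_lit 4) (nat_lit 4) (nat_lit 5) (nat_lit 5) (nat_lit 5) (nat_lit 4) (nat_lit 231) (nat_lit 212) (nat_lit 157)) (XT.lf (nat_lit 0) (nat_lit 9542088035) (nat_lit 152) (nat_lit 39897053883) (nat_lit 76) (nat_lit 108848067773) (nat_lit 3) (nat_lit 5) (nat_lit 5) (nat_lit 5) (nat_lit 4) (nat_lit 4) (nat_lit 232) (nat_lit 212) (nat_lit 156)))) (XT.nd (nat_lit 156) (nat_lit 0) (nat_lit 0) (XT.nd (nat_lit 78) (nat_lit 76) (nat_lit 0) (XT.lf (nat_lit 0) (nat_lit 20810138442) (nat_lit 152) (nat_lit 15673890466) (nat_lit 76) (nat_lit 142691072334) (nat_lit 3) (nat_lit 5) (nat_lit 5) (nat_lit 5) (nat_lit 4) (nat_lit 4) (nat_lit 233) (nat_lit 212)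 (nat_lit 155)) (XT.lf (nat_lit 0) (nat_lit 13370150587) (nat_lit 76) (nat_lit 20950116133) (nat_lit 152) (nat_lit 168793148430) (nat_lit 2) (nat_lit 5) (nat_lit 3) (nat_lit 5) (nat_lit 4) (nat_lit 4) (nat_lit 234) (nat_lit 212) (nat_lit 154))) (XT.nd (nat_lit 78) (nat_lit 0) (nat_lit 0) (XT.lf (nat_lit 0) (nat_lit 48529561041) (nat_lit 76) (nat_lit 2145025909) (nat_lit 152) (nat_lit 179845254962) (nat_lit 2) (nat_lit 5) (nat_lit 3) (nat_lit 5) (nat_lit 4) (nat_lit 4) (nat_lit 235) (nat_lit 212) (nat_lit 153)) (XT.lf (nat_lit 0) (nat_lit 70287244460) (nat_lit 152) (nat_lit 173883604889) (nat_lit 0) (nat_lit 17745619448) (nat_lit 2) (nat_lit 5) (nat_lit 4) (nat_lit 4) (nat_lit 2) (nat_lit 4) (nat_lit 236) (nat_lit 212) (nat_lit 152))))))) (XT.nd (nat_lit 1248) (nat_lit 0) (nat_lit 0) (XT.nd (nat_lit 624) (nat_lit 76) (nat_lit 0) (XT.nd (nat_lit 312) (nat_lit 0) (nat_lit 0) (XT.nd (nat_lit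 156) (nat_lit 0) (nat_lit 0) (XT.nd (nat_lit 78) (nat_lit 0) (nat_lit 0) (XT.lf (nat_lit 0) (nat_lit 92942666171) (nat_lit 152) (nat_lit 164665328754) (nat_lit 0) (nat_lit 40399477561) (nat_lit 2) (nat_lit 5) (nat_lit 4) (nat_lit 4) (nat_lit 2) (nat_lit 4) (nat_lit 237) (nat_lit 212) (nat_lit 151)) (XT.lf (nat_lit 0) (nat_lit 118995289388) (nat_lit 152) (nat_lit 154066273941) (nat_lit 0) (nat_lit 66450741125) (nat_lit 2) (nat_lit 5) (nat_lit 4) (nat_lit 4) (nat_lit 2) (nat_lit 4) (nat_lit 238) (nat_lit 212) (nat_lit 150))) (XT.nd (nat_lit 78) (nat_lit 0) (nat_lit 0) (XT.lf (nat_lit 0) (nat_lit 148954839345) (nat_lit 152) (nat_lit 141879067638) (nat_lit 0) (nat_lit 96409108776) (nat_lit 2) (nat_lit 5) (nat_lit 4) (nat_lit 4) (nat_lit 2) (nat_lit 4) (nat_lit 239) (nat_lit 212) (nat_lit 149)) (XT.lf (nat_lit 0) (nat_lit 183407481152) (nat_lit 152) (nat_lit 127865264504) (nat_lit 0) (nat_lit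 130860722491) (nat_lit 2) (nat_lit 5) (nat_lit 4) (nat_lit 4) (nat_lit 2) (nat_lit 4) (nat_lit 240) (nat_lit 212) (nat_lit 148)))) (XT.nd (nat_lit 156) (nat_lit 0) (nat_lit 0) (XT.nd (nat_lit 78) (nat_lit 0) (nat_lit 0) (XT.lf (nat_lit 0) (nat_lit 223027288234) (nat_lit 152) (nat_lit 111750681435) (nat_lit 0) (nat_lit 170479635580) (nat_lit 2) (nat_lit 5) (nat_lit 4) (nat_lit 4) (nat_lit 2) (nat_lit 4) (nat_lit 241) (nat_lit 212) (nat_lit 147)) (XT.lf (nat_lit 0) (nat_lit 268589430731) (nat_lit 152) (nat_lit 93220033110) (nat_lit 0) (nat_lit 216041000691) (nat_lit 2) (nat_lit 5) (nat_lit 4) (nat_lit 4) (nat_lit 2) (nat_lit 4) (nat_lit 242) (nat_lit 212) (nat_lit 146))) (XT.nd (nat_lit 78) (nat_lit 0) (nat_lit 0) (XT.lf (nat_lit 0) (nat_lit 320985341865) (nat_lit 152) (nat_lit 71910763365) (nat_lit 0) (nat_lit 268436235838) (nat_lit 2) (nat_lit 5) (nat_lit 4) (nat_lit 4) (nat_lit 2)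 (nat_lit 4) (nat_lit 243) (nat_lit 212) (nat_lit 145)) (XT.lf (nat_lit 0) (nat_lit 381240159028) (nat_lit 152) (nat_lit 47405951706) (nat_lit 0) (nat_lit 328690465186) (nat_lit 2) (nat_lit 5) (nat_lit 4) (nat_lit 4) (nat_lit 2) (nat_lit 4) (nat_lit 244) (nat_lit 212) (nat_lit 144))))) (XT.nd (nat_lit 312) (nat_lit 0) (nat_lit 0) (XT.nd (nat_lit 156) (nat_lit 0) (nat_lit 0) (XT.nd (nat_lit 78) (nat_lit 76) (nat_lit 0) (XT.lf (nat_lit 0) (nat_lit 450532780816) (nat_lit 152) (nat_lit 19226156166) (nat_lit 0) (nat_lit 397982575831) (nat_lit 2) (nat_lit 5) (nat_lit 4) (nat_lit 4) (nat_lit 2) (nat_lit 4) (nat_lit 245) (nat_lit 212) (nat_lit 143)) (XT.lf (nat_lit 0) (nat_lit 14468009317) (nat_lit 76) (nat_lit 516350012534) (nat_lit 76) (nat_lit 463799363076) (nat_lit 1) (nat_lit 4) (nat_lit 2) (nat_lit 5) (nat_lit 2) (nat_lit 4) (nat_lit 246) (nat_lit 212) (nat_lit 142))) (XT.nd (nat_lit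 78) (nat_lit 0) (nat_lit 0) (XT.lf (nat_lit 0) (nat_lit 55376444944) (nat_lit 76) (nat_lit 568774266326) (nat_lit 76) (nat_lit 516223230370) (nat_lit 1) (nat_lit 4) (nat_lit 2) (nat_lit 5) (nat_lit 2) (nat_lit 4) (nat_lit 247) (nat_lit 212) (nat_lit 141)) (XT.lf (nat_lit 0) (nat_lit 102420613341) (nat_lit 76) (nat_lit 629062393899) (nat_lit 76) (nat_lit 576511021858) (nat_lit 1) (nat_lit 4) (nat_lit 2) (nat_lit 5) (nat_lit 2) (nat_lit 4) (nat_lit 248) (nat_lit 212) (nat_lit 140)))) (XT.nd (nat_lit 156) (nat_lit 0) (nat_lit 0) (XT.nd (nat_lit 78) (nat_lit 0) (nat_lit 0) (XT.lf (nat_lit 0) (nat_lit 156520943891) (nat_lit 76) (nat_lit 698393945576) (nat_lit 76) (nat_lit 645842281287) (nat_lit 1) (nat_lit 4) (nat_lit 2) (nat_lit 5) (nat_lit 2) (nat_lit 4) (nat_lit 249) (nat_lit 212) (nat_lit 139)) (XT.lf (nat_lit 0) (nat_lit 218735921321) (nat_lit 76) (nat_lit 778125408236) (nat_lit 76)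 (nat_lit 725573489818) (nat_lit 1) (nat_lit 4) (nat_lit 2) (nat_lit 5) (nat_lit 2) (nat_lit 4) (nat_lit 250) (nat_lit 212) (nat_lit 138))) (XT.nd (nat_lit 78) (nat_lit 0) (nat_lit 0) (XT.lf (nat_lit 0) (nat_lit 290282795191) (nat_lit 76) (nat_lit 869816745280) (nat_lit 76) (nat_lit 817264605881) (nat_lit 1) (nat_lit 4) (nat_lit 2) (nat_lit 5) (nat_lit 2) (nat_lit 4) (nat_lit 251) (nat_lit 212) (nat_lit 137)) (XT.lf (nat_lit 0) (nat_lit 372561395641) (nat_lit 76) (nat_lit 975261917649) (nat_lit 76) (nat_lit 922709586092) (nat_lit 1) (nat_lit 4) (nat_lit 2) (nat_lit 5) (nat_lit 2) (nat_lit 4) (nat_lit 252) (nat_lit 212) (nat_lit 136)))))) (XT.nd (nat_lit 624) (nat_lit 0) (nat_lit 0) (XT.nd (nat_lit 312) (nat_lit 0) (nat_lit 0) (XT.nd (nat_lit 156) (nat_lit 0) (nat_lit 0) (XT.nd (nat_lit 78) (nat_lit 0) (nat_lit 0) (XT.lf (nat_lit 0) (nat_lit 467181521375) (nat_lit 76) (nat_lit 1096523983065)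 (nat_lit 76) (nat_lit 1043971484414) (nat_lit 1) (nat_lit 4) (nat_lit 2) (nat_lit 5) (nat_lit 2) (nat_lit 4) (nat_lit 253) (nat_lit 212) (nat_lit 135)) (XT.lf (nat_lit 0) (nat_lit 575994435723) (nat_lit 76) (nat_lit 1235975460198) (nat_lit 76) (nat_lit 1183422816249) (nat_lit 1) (nat_lit 4) (nat_lit 2) (nat_lit 5) (nat_lit 2) (nat_lit 4) (nat_lit 254) (nat_lit 212) (nat_lit 134))) (XT.nd (nat_lit 78) (nat_lit 0) (nat_lit 0) (XT.lf (nat_lit 0) (nat_lit 701129087009) (nat_lit 76) (nat_lit 1396344747514) (nat_lit 76) (nat_lit 1343791977218) (nat_lit 1) (nat_lit 4) (nat_lit 2) (nat_lit 5) (nat_lit 2) (nat_lit 4) (nat_lit 255) (nat_lit 212) (nat_lit 133)) (XT.lf (nat_lit 0) (nat_lit 845033761890) (nat_lit 76) (nat_lit 1580769504982) (nat_lit 76) (nat_lit 1528216624819) (nat_lit 1) (nat_lit 4) (nat_lit 2) (nat_lit 5) (nat_lit 2) (nat_lit 4) (nat_lit 256) (nat_lit 212) (nat_lit 132)))) (XT.nd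 (nat_lit 156) (nat_lit 0) (nat_lit 0) (XT.nd (nat_lit 78) (nat_lit 0) (nat_lit 0) (XT.lf (nat_lit 0) (nat_lit 1010523986612) (nat_lit 76) (nat_lit 1792858043075) (nat_lit 76) (nat_lit 1740305067375) (nat_lit 1) (nat_lit 4) (nat_lit 2) (nat_lit 5) (nat_lit 2) (nat_lit 4) (nat_lit 257) (nat_lit 212) (nat_lit 131)) (XT.lf (nat_lit 0) (nat_lit 1200837613398) (nat_lit 76) (nat_lit 2036759920145) (nat_lit 76) (nat_lit 1984206861371) (nat_lit 1) (nat_lit 4) (nat_lit 2) (nat_lit 5) (nat_lit 2) (nat_lit 4) (nat_lit 258) (nat_lit 212) (nat_lit 130))) (XT.nd (nat_lit 78) (nat_lit 0) (nat_lit 0) (XT.lf (nat_lit 0) (nat_lit 1419698169729) (nat_lit 76) (nat_lit 2317247129441) (nat_lit 76) (nat_lit 2264693998427) (nat_lit 1) (nat_lit 4) (nat_lit 2) (nat_lit 5) (nat_lit 2) (nat_lit 4) (nat_lit 259) (nat_lit 212) (nat_lit 129)) (XT.lf (nat_lit 0) (nat_lit 1671387709968) (nat_lit 76) (nat_lit 2639807464188)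 (nat_lit 76) (nat_lit 2587254270358) (nat_lit 1) (nat_lit 4) (nat_lit 2) (nat_lit 5) (nat_lit 2) (nat_lit 4) (nat_lit 260) (nat_lit 212) (nat_lit 128))))) (XT.nd (nat_lit 312) (nat_lit 0) (nat_lit 0) (XT.nd (nat_lit 156) (nat_lit 0) (nat_lit 0) (XT.nd (nat_lit 78) (nat_lit 0) (nat_lit 0) (XT.lf (nat_lit 0) (nat_lit 1960830594685) (nat_lit 76) (nat_lit 3010751887457) (nat_lit 76) (nat_lit 2958198639003) (nat_lit 1) (nat_lit 4) (nat_lit 2) (nat_lit 5) (nat_lit 2) (nat_lit 4) (nat_lit 261) (nat_lit 212) (nat_lit 127)) (XT.lf (nat_lit 0) (nat_lit 2293689836841) (nat_lit 76) (nat_lit 3437338007529) (nat_lit 76) (nat_lit 3384784711576) (nat_lit 1) (nat_lit 4) (nat_lit 2) (nat_lit 5) (nat_lit 2) (nat_lit 4) (nat_lit 262) (nat_lit 212) (nat_lit 126))) (XT.nd (nat_lit 78) (nat_lit 0) (nat_lit 0) (XT.lf (nat_lit 0) (nat_lit 2676477899871) (nat_lit 76) (nat_lit 3927912074579) (nat_lit 76) (nat_lit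 3875358737324) (nat_lit 1) (nat_lit 4) (nat_lit 2) (nat_lit 5) (nat_lit 2) (nat_lit 4) (nat_lit 263) (nat_lit 212) (nat_lit 125)) (XT.lf (nat_lit 0) (nat_lit 3116684115442) (nat_lit 76) (nat_lit 4492072276876) (nat_lit 76) (nat_lit 4439518903705) (nat_lit 1) (nat_lit 4) (nat_lit 2) (nat_lit 5) (nat_lit 2) (nat_lit 4) (nat_lit 264) (nat_lit 212) (nat_lit 124)))) (XT.nd (nat_lit 156) (nat_lit 0) (nat_lit 0) (XT.nd (nat_lit 78) (nat_lit 0) (nat_lit 0) (XT.lf (nat_lit 0) (nat_lit 3622921213859) (nat_lit 76) (nat_lit 5140856531422) (nat_lit 76) (nat_lit 5088303127020) (nat_lit 1) (nat_lit 4) (nat_lit 2) (nat_lit 5) (nat_lit 2) (nat_lit 4) (nat_lit 265) (nat_lit 212) (nat_lit 123)) (XT.lf (nat_lit 0) (nat_lit 4205093834003) (nat_lit 76) (nat_lit 5886958443196) (nat_lit 76) (nat_lit 5834405011637) (nat_lit 1) (nat_lit 4) (nat_lit 2) (nat_lit 5) (nat_lit 2) (nat_lit 4) (nat_lit 266) (nat_lit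 212) (nat_lit 122))) (XT.nd (nat_lit 78) (nat_lit 0) (nat_lit 0) (XT.lf (nat_lit 0) (nat_lit 4874592309748) (nat_lit 76) (nat_lit 6744975658299) (nat_lit 76) (nat_lit 6692422203125) (nat_lit 1) (nat_lit 4) (nat_lit 2) (nat_lit 5) (nat_lit 2) (nat_lit 4) (nat_lit 267) (nat_lit 212) (nat_lit 121)) (XT.lf (nat_lit 0) (nat_lit 5644515524314) (nat_lit 76) (nat_lit 7731695470069) (nat_lit 76) (nat_lit 7679141994360) (nat_lit 1) (nat_lit 4) (nat_lit 2) (nat_lit 5) (nat_lit 2) (nat_lit 4) (nat_lit 268) (nat_lit 212) (nat_lit 120))))))))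
noncomputable def xc42 : XT := (XT.nd (nat_lit 28938) (nat_lit 0) (nat_lit 0) (XT.nd (nat_lit 27690) (nat_lit 0) (nat_lit 76) (XT.nd (nat_lit 27066) (nat_lit 0) (nat_lit 532) (XT.nd (nat_lit 312) (nat_lit 0) (nat_lit 0) (XT.nd (nat_lit 156) (nat_lit 0) (nat_lit 0) (XT.nd (nat_lit 78) (nat_lit 0) (nat_lit 0) (XT.lf (nat_lit 0) (nat_lit 6529927192769) (nat_lit 76) (nat_lit 8866423266129) (nat_lit 76) (nat_lit 8813869772563) (nat_lit 1) (nat_lit 4) (nat_lit 2) (nat_lit 5) (nat_lit 2) (nat_lit 4) (nat_lit 269) (nat_lit 212) (nat_lit 119)) (XT.lf (nat_lit 0) (nat_lit 7548150586887) (nat_lit 76) (nat_lit 10171360242487) (nat_lit 76) (nat_lit 10118806733394) (nat_lit 1) (nat_lit 4) (nat_lit 2) (nat_lit 5) (nat_lit 2) (nat_lit 4) (nat_lit 270) (nat_lit 212) (nat_lit 118))) (XT.nd (nat_lit 78) (nat_lit 0) (nat_lit 0) (XT.lf (nat_lit 0) (nat_lit 8719107468728) (nat_lit 76) (nat_lit 11672037774769)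 (nat_lit 76) (nat_lit 11619484252174) (nat_lit 1) (nat_lit 4) (nat_lit 2) (nat_lit 5) (nat_lit 2) (nat_lit 4) (nat_lit 271) (nat_lit 212) (nat_lit 117)) (XT.lf (nat_lit 0) (nat_lit 10065707864239) (nat_lit 76) (nat_lit 13397816945127) (nat_lit 76) (nat_lit 13345263410791) (nat_lit 1) (nat_lit 4) (nat_lit 2) (nat_lit 5) (nat_lit 2) (nat_lit 4) (nat_lit 272) (nat_lit 212) (nat_lit 116)))) (XT.nd (nat_lit 26598) (nat_lit 0) (nat_lit 836) (XT.nd (nat_lit 78) (nat_lit 0) (nat_lit 0) (XT.lf (nat_lit 0) (nat_lit 11614298302898) (nat_lit 76) (nat_lit 15382462998200) (nat_lit 76) (nat_lit 15329909453654) (nat_lit 1) (nat_lit 4) (nat_lit 2) (nat_lit 5) (nat_lit 2) (nat_lit 4) (nat_lit 273) (nat_lit 212) (nat_lit 115)) (XT.lf (nat_lit 0) (nat_lit 13395177293288) (nat_lit 76) (nat_lit 17664805965460) (nat_lit 76) (nat_lit 17612252412036) (nat_lit 1) (nat_lit 4) (nat_lit 2) (nat_lit 5) (nat_lit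 2) (nat_lit 4) (nat_lit 274) (nat_lit 212) (nat_lit 114))) (XT.nd (nat_lit 78) (nat_lit 0) (nat_lit 0) (XT.lf (nat_lit 0) (nat_lit 4158499405) (nat_lit 0) (nat_lit 4158499405) (nat_lit 228) (nat_lit 4427048932) (nat_lit 12) (nat_lit 5) (nat_lit 12) (nat_lit 3) (nat_lit 15) (nat_lit 3) (nat_lit 213) (nat_lit 213) (nat_lit 174)) (XT.lf (nat_lit 0) (nat_lit 18022825041) (nat_lit 228) (nat_lit 7983587278) (nat_lit 304) (nat_lit 1370336329) (nat_lit 12) (nat_lit 5) (nat_lit 15) (nat_lit 3) (nat_lit 16) (nat_lit 5) (nat_lit 214) (nat_lit 213) (nat_lit 173))))) (XT.nd (nat_lit 312) (nat_lit 152) (nat_lit 0) (XT.nd (nat_lit 156) (nat_lit 152) (nat_lit 0) (XT.nd (nat_lit 78) (nat_lit 0) (nat_lit 0) (XT.lf (nat_lit 76) (nat_lit 2388933505) (nat_lit 0) (nat_lit 17712238064) (nat_lit 304) (nat_lit 9375662761) (nat_lit 13) (nat_lit 5) (nat_lit 12) (nat_lit 5) (nat_lit 16) (nat_lit 5) (nat_lit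 215) (nat_lit 213) (nat_lit 172)) (XT.lf (nat_lit 76) (nat_lit 15205274946) (nat_lit 0) (nat_lit 7690957058) (nat_lit 304) (nat_lit 8935229438) (nat_lit 13) (nat_lit 5) (nat_lit 12) (nat_lit 5) (nat_lit 16) (nat_lit 5) (nat_lit 216) (nat_lit 213) (nat_lit 171))) (XT.nd (nat_lit 78) (nat_lit 228) (nat_lit 0) (XT.lf (nat_lit 0) (nat_lit 26258649818) (nat_lit 228) (nat_lit 4764002825) (nat_lit 76) (nat_lit 3494652502) (nat_lit 13) (nat_lit 5) (nat_lit 16) (nat_lit 5) (nat_lit 14) (nat_lit 5) (nat_lit 217) (nat_lit 213) (nat_lit 170)) (XT.lf (nat_lit 0) (nat_lit 9333462520) (nat_lit 228) (nat_lit 21535430952) (nat_lit 304) (nat_lit 6625818784) (nat_lit 10) (nat_lit 5) (nat_lit 13) (nat_lit 5) (nat_lit 14) (nat_lit 5) (nat_lit 218) (nat_lit 213) (nat_lit 169)))) (XT.nd (nat_lit 156) (nat_lit 76) (nat_lit 0) (XT.nd (nat_lit 78) (nat_lit 76) (nat_lit 0) (XT.lf (nat_lit 0) (nat_lit 26072614657)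 (nat_lit 228) (nat_lit 10338696091) (nat_lit 304) (nat_lit 4471503537) (nat_lit 10) (nat_lit 5) (nat_lit 13) (nat_lit 5) (nat_lit 14) (nat_lit 5) (nat_lit 219) (nat_lit 213) (nat_lit 168)) (XT.lf (nat_lit 0) (nat_lit 471943112) (nat_lit 76) (nat_lit 42430469942) (nat_lit 152) (nat_lit 1859276210) (nat_lit 9) (nat_lit 5) (nat_lit 10) (nat_lit 5) (nat_lit 11) (nat_lit 4) (nat_lit 220) (nat_lit 213) (nat_lit 167))) (XT.nd (nat_lit 78) (nat_lit 0) (nat_lit 0) (XT.lf (nat_lit 0) (nat_lit 2339101492) (nat_lit 152) (nat_lit 29980918743) (nat_lit 76) (nat_lit 16700947808) (nat_lit 8) (nat_lit 5) (nat_lit 10) (nat_lit 5) (nat_lit 9) (nat_lit 5) (nat_lit 221) (nat_lit 213) (nat_lit 166)) (XT.lf (nat_lit 0) (nat_lit 6970689527) (nat_lit 152) (nat_lit 13622072219) (nat_lit 76) (nat_lit 33314127708) (nat_lit 8) (nat_lit 5) (nat_lit 10) (nat_lit 5) (nat_lit 9) (nat_lit 5) (nat_lit 222) (nat_lit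 213) (nat_lit 165)))))) (XT.nd (nat_lit 624) (nat_lit 152) (nat_lit 0) (XT.nd (nat_lit 312) (nat_lit 76) (nat_lit 0) (XT.nd (nat_lit 156) (nat_lit 76) (nat_lit 0) (XT.nd (nat_lit 78) (nat_lit 0) (nat_lit 0) (XT.lf (nat_lit 0) (nat_lit 5690449649) (nat_lit 152) (nat_lit 6836811282) (nat_lit 228) (nat_lit 46963990570) (nat_lit 6) (nat_lit 5) (nat_lit 8) (nat_lit 5) (nat_lit 9) (nat_lit 5) (nat_lit 223) (nat_lit 213) (nat_lit 164)) (XT.lf (nat_lit 0) (nat_lit 20030225169) (nat_lit 228) (nat_lit 36788734319) (nat_lit 76) (nat_lit 8927449864) (nat_lit 6) (nat_lit 5) (nat_lit 9) (nat_lit 5) (nat_lit 7) (nat_lit 4) (nat_lit 224) (nat_lit 213) (nat_lit 163))) (XT.nd (nat_lit 78) (nat_lit 76) (nat_lit 0) (XT.lf (nat_lit 0) (nat_lit 28979839108) (nat_lit 228) (nat_lit 17556684847) (nat_lit 76) (nat_lit 26355203614) (nat_lit 6) (nat_lit 5) (nat_lit 9) (nat_lit 5) (nat_lit 7) (nat_lit 4) (nat_lit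 225) (nat_lit 213) (nat_lit 162)) (XT.lf (nat_lit 0) (nat_lit 4999844277) (nat_lit 76) (nat_lit 34475294726) (nat_lit 152) (nat_lit 41603276587) (nat_lit 5) (nat_lit 5) (nat_lit 6) (nat_lit 5) (nat_lit 7) (nat_lit 4) (nat_lit 226) (nat_lit 213) (nat_lit 161)))) (XT.nd (nat_lit 156) (nat_lit 76) (nat_lit 0) (XT.nd (nat_lit 78) (nat_lit 0) (nat_lit 0) (XT.lf (nat_lit 0) (nat_lit 32907783918) (nat_lit 76) (nat_lit 19551175605) (nat_lit 152) (nat_lit 37897064444) (nat_lit 5) (nat_lit 5) (nat_lit 6) (nat_lit 5) (nat_lit 7) (nat_lit 4) (nat_lit 227) (nat_lit 213) (nat_lit 160)) (XT.lf (nat_lit 0) (nat_lit 64997392052) (nat_lit 76) (nat_lit 2389908758) (nat_lit 152) (nat_lit 33638474987) (nat_lit 5) (nat_lit 5) (nat_lit 6) (nat_lit 5) (nat_lit 7) (nat_lit 4) (nat_lit 228) (nat_lit 213) (nat_lit 159))) (XT.nd (nat_lit 78) (nat_lit 76) (nat_lit 0) (XT.lf (nat_lit 0) (nat_lit 85270428330) (nat_lit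 152) (nat_lit 12118107477) (nat_lit 0) (nat_lit 15800162902) (nat_lit 5) (nat_lit 5) (nat_lit 7) (nat_lit 4) (nat_lit 5) (nat_lit 4) (nat_lit 229) (nat_lit 213) (nat_lit 158)) (XT.lf (nat_lit 0) (nat_lit 16752582465) (nat_lit 76) (nat_lit 89888582389) (nat_lit 76) (nat_lit 20414157755) (nat_lit 4) (nat_lit 4) (nat_lit 5) (nat_lit 5) (nat_lit 5) (nat_lit 4) (nat_lit 230) (nat_lit 213) (nat_lit 157))))) (XT.nd (nat_lit 312) (nat_lit 76) (nat_lit 0) (XT.nd (nat_lit 156) (nat_lit 76) (nat_lit 0) (XT.nd (nat_lit 78) (nat_lit 0) (nat_lit 0) (XT.lf (nat_lit 0) (nat_lit 51312203213) (nat_lit 76) (nat_lit 80536559847) (nat_lit 76) (nat_lit 11058518513) (nat_lit 4) (nat_lit 4) (nat_lit 5) (nat_lit 5) (nat_lit 5) (nat_lit 4) (nat_lit 231) (nat_lit 213) (nat_lit 156)) (XT.lf (nat_lit 0) (nat_lit 91052651665) (nat_lit 76) (nat_lit 69782940356) (nat_lit 76) (nat_lit 301754064) (nat_lit 4) (nat_lit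 4) (nat_lit 5) (nat_lit 5) (nat_lit 5) (nat_lit 4) (nat_lit 232) (nat_lit 213) (nat_lit 155))) (XT.nd (nat_lit 78) (nat_lit 0) (nat_lit 0) (XT.lf (nat_lit 0) (nat_lit 10992342383) (nat_lit 152) (nat_lit 45850384912) (nat_lit 76) (nat_lit 125184516235) (nat_lit 3) (nat_lit 5) (nat_lit 5) (nat_lit 5) (nat_lit 4) (nat_lit 4) (nat_lit 233) (nat_lit 213) (nat_lit 154)) (XT.lf (nat_lit 0) (nat_lit 23948129767) (nat_lit 152) (nat_lit 17997820076) (nat_lit 76) (nat_lit 164102766484) (nat_lit 3) (nat_lit 5) (nat_lit 5) (nat_lit 5) (nat_lit 4) (nat_lit 4) (nat_lit 234) (nat_lit 213) (nat_lit 153)))) (XT.nd (nat_lit 156) (nat_lit 0) (nat_lit 0) (XT.nd (nat_lit 78) (nat_lit 0) (nat_lit 0) (XT.lf (nat_lit 0) (nat_lit 15401592864) (nat_lit 76) (nat_lit 24082109369) (nat_lit 152) (nat_lit 194094259763) (nat_lit 2) (nat_lit 5) (nat_lit 3) (nat_lit 5) (nat_lit 4) (nat_lit 4) (nat_lit 235) (nat_lit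 213) (nat_lit 152)) (XT.lf (nat_lit 0) (nat_lit 55831534057) (nat_lit 76) (nat_lit 2457628331) (nat_lit 152) (nat_lit 206806511961) (nat_lit 2) (nat_lit 5) (nat_lit 3) (nat_lit 5) (nat_lit 4) (nat_lit 4) (nat_lit 236) (nat_lit 213) (nat_lit 151))) (XT.nd (nat_lit 78) (nat_lit 0) (nat_lit 0) (XT.lf (nat_lit 0) (nat_lit 80842301857) (nat_lit 152) (nat_lit 199945011912) (nat_lit 0) (nat_lit 20414711703) (nat_lit 2) (nat_lit 5) (nat_lit 4) (nat_lit 4) (nat_lit 2) (nat_lit 4) (nat_lit 237) (nat_lit 213) (nat_lit 150)) (XT.lf (nat_lit 0) (nat_lit 106894475426) (nat_lit 152) (nat_lit 189346750928) (nat_lit 0) (nat_lit 46465702966) (nat_lit 2) (nat_lit 5) (nat_lit 4) (nat_lit 4) (nat_lit 2) (nat_lit 4) (nat_lit 238) (nat_lit 213) (nat_lit 149))))))) (XT.nd (nat_lit 1248) (nat_lit 0) (nat_lit 0) (XT.nd (nat_lit 624) (nat_lit 76) (nat_lit 0) (XT.nd (nat_lit 312) (nat_lit 0) (nat_lit 0) (XT.nd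 (nat_lit 156) (nat_lit 0) (nat_lit 0) (XT.nd (nat_lit 78) (nat_lit 0) (nat_lit 0) (XT.lf (nat_lit 0) (nat_lit 136853634386) (nat_lit 152) (nat_lit 177160234911) (nat_lit 0) (nat_lit 76423833834) (nat_lit 2) (nat_lit 5) (nat_lit 4) (nat_lit 4) (nat_lit 2) (nat_lit 4) (nat_lit 239) (nat_lit 213) (nat_lit 148)) (XT.lf (nat_lit 0) (nat_lit 171305936195) (nat_lit 152) (nat_lit 163147032026) (nat_lit 0) (nat_lit 110875241650) (nat_lit 2) (nat_lit 5) (nat_lit 4) (nat_lit 4) (nat_lit 2) (nat_lit 4) (nat_lit 240) (nat_lit 213) (nat_lit 147))) (XT.nd (nat_lit 78) (nat_lit 0) (nat_lit 0) (XT.lf (nat_lit 0) (nat_lit 210925447627) (nat_lit 152) (nat_lit 147032970912) (nat_lit 0) (nat_lit 150493975697) (nat_lit 2) (nat_lit 5) (nat_lit 4) (nat_lit 4) (nat_lit 2) (nat_lit 4) (nat_lit 241) (nat_lit 213) (nat_lit 146)) (XT.lf (nat_lit 0) (nat_lit 256487333037) (nat_lit 152) (nat_lit 128502776461) (nat_lit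 0) (nat_lit 196055185119) (nat_lit 2) (nat_lit 5) (nat_lit 4) (nat_lit 4) (nat_lit 2) (nat_lit 4) (nat_lit 242) (nat_lit 213) (nat_lit 145)))) (XT.nd (nat_lit 156) (nat_lit 0) (nat_lit 0) (XT.nd (nat_lit 78) (nat_lit 0) (nat_lit 0) (XT.lf (nat_lit 0) (nat_lit 308883020617) (nat_lit 152) (nat_lit 107193901390) (nat_lit 0) (nat_lit 248450284884) (nat_lit 2) (nat_lit 5) (nat_lit 4) (nat_lit 4) (nat_lit 2) (nat_lit 4) (nat_lit 243) (nat_lit 213) (nat_lit 144)) (XT.lf (nat_lit 0) (nat_lit 369137643385) (nat_lit 152) (nat_lit 82689432926) (nat_lit 0) (nat_lit 308704396508) (nat_lit 2) (nat_lit 5) (nat_lit 4) (nat_lit 4) (nat_lit 2) (nat_lit 4) (nat_lit 244) (nat_lit 213) (nat_lit 143))) (XT.nd (nat_lit 78) (nat_lit 0) (nat_lit 0) (XT.lf (nat_lit 0) (nat_lit 438430096134) (nat_lit 152) (nat_lit 54509935815) (nat_lit 0) (nat_lit 377996404785) (nat_lit 2) (nat_lit 5) (nat_lit 4) (nat_lit 4)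 (nat_lit 2) (nat_lit 4) (nat_lit 245) (nat_lit 213) (nat_lit 142)) (XT.lf (nat_lit 0) (nat_lit 518116100767) (nat_lit 152) (nat_lit 22104072072) (nat_lit 0) (nat_lit 457682022919) (nat_lit 2) (nat_lit 5) (nat_lit 4) (nat_lit 4) (nat_lit 2) (nat_lit 4) (nat_lit 246) (nat_lit 213) (nat_lit 141))))) (XT.nd (nat_lit 312) (nat_lit 0) (nat_lit 0) (XT.nd (nat_lit 156) (nat_lit 0) (nat_lit 0) (XT.nd (nat_lit 78) (nat_lit 0) (nat_lit 0) (XT.lf (nat_lit 0) (nat_lit 16643945165) (nat_lit 76) (nat_lit 593799976396) (nat_lit 76) (nat_lit 533365562464) (nat_lit 1) (nat_lit 4) (nat_lit 2) (nat_lit 5) (nat_lit 2) (nat_lit 4) (nat_lit 247) (nat_lit 213) (nat_lit 140)) (XT.lf (nat_lit 0) (nat_lit 63687898164) (nat_lit 76) (nat_lit 654088199303) (nat_lit 76) (nat_lit 593653493123) (nat_lit 1) (nat_lit 4) (nat_lit 2) (nat_lit 5) (nat_lit 2) (nat_lit 4) (nat_lit 248) (nat_lit 213) (nat_lit 139))) (XT.nd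 (nat_lit 78) (nat_lit 0) (nat_lit 0) (XT.lf (nat_lit 0) (nat_lit 117788041411) (nat_lit 76) (nat_lit 723419833878) (nat_lit 76) (nat_lit 662984873569) (nat_lit 1) (nat_lit 4) (nat_lit 2) (nat_lit 5) (nat_lit 2) (nat_lit 4) (nat_lit 249) (nat_lit 213) (nat_lit 138)) (XT.lf (nat_lit 0) (nat_lit 180002855969) (nat_lit 76) (nat_lit 803151368624) (nat_lit 76) (nat_lit 742716187334) (nat_lit 1) (nat_lit 4) (nat_lit 2) (nat_lit 5) (nat_lit 2) (nat_lit 4) (nat_lit 250) (nat_lit 213) (nat_lit 137)))) (XT.nd (nat_lit 156) (nat_lit 0) (nat_lit 0) (XT.nd (nat_lit 78) (nat_lit 0) (nat_lit 0) (XT.lf (nat_lit 0) (nat_lit 251549588210) (nat_lit 76) (nat_lit 894842768351) (nat_lit 76) (nat_lit 834407394903) (nat_lit 1) (nat_lit 4) (nat_lit 2) (nat_lit 5) (nat_lit 2) (nat_lit 4) (nat_lit 251) (nat_lit 213) (nat_lit 136)) (XT.lf (nat_lit 0) (nat_lit 333828065505) (nat_lit 76) (nat_lit 1000287995228)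 (nat_lit 76) (nat_lit 939852454686) (nat_lit 1) (nat_lit 4) (nat_lit 2) (nat_lit 5) (nat_lit 2) (nat_lit 4) (nat_lit 252) (nat_lit 213) (nat_lit 135))) (XT.nd (nat_lit 78) (nat_lit 0) (nat_lit 0) (XT.lf (nat_lit 0) (nat_lit 428448084148) (nat_lit 76) (nat_lit 1121550108042) (nat_lit 76) (nat_lit 1061114422201) (nat_lit 1) (nat_lit 4) (nat_lit 2) (nat_lit 5) (nat_lit 2) (nat_lit 4) (nat_lit 253) (nat_lit 213) (nat_lit 134)) (XT.lf (nat_lit 0) (nat_lit 537260905373) (nat_lit 76) (nat_lit 1261001626390) (nat_lit 76) (nat_lit 1200565814202) (nat_lit 1) (nat_lit 4) (nat_lit 2) (nat_lit 5) (nat_lit 2) (nat_lit 4) (nat_lit 254) (nat_lit 213) (nat_lit 133)))))) (XT.nd (nat_lit 624) (nat_lit 0) (nat_lit 0) (XT.nd (nat_lit 312) (nat_lit 0) (nat_lit 0) (XT.nd (nat_lit 156) (nat_lit 0) (nat_lit 0) (XT.nd (nat_lit 78) (nat_lit 0) (nat_lit 0) (XT.lf (nat_lit 0) (nat_lit 662395475684) (nat_lit 76)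 (nat_lit 1421370949545) (nat_lit 76) (nat_lit 1360935027491) (nat_lit 1) (nat_lit 4) (nat_lit 2) (nat_lit 5) (nat_lit 2) (nat_lit 4) (nat_lit 255) (nat_lit 213) (nat_lit 132)) (XT.lf (nat_lit 0) (nat_lit 806300080150) (nat_lit 76) (nat_lit 1605795738178) (nat_lit 76) (nat_lit 1545359720587) (nat_lit 1) (nat_lit 4) (nat_lit 2) (nat_lit 5) (nat_lit 2) (nat_lit 4) (nat_lit 256) (nat_lit 213) (nat_lit 131))) (XT.nd (nat_lit 78) (nat_lit 0) (nat_lit 0) (XT.lf (nat_lit 0) (nat_lit 971790243642) (nat_lit 76) (nat_lit 1817884303370) (nat_lit 76) (nat_lit 1757448202704) (nat_lit 1) (nat_lit 4) (nat_lit 2) (nat_lit 5) (nat_lit 2) (nat_lit 4) (nat_lit 257) (nat_lit 213) (nat_lit 130)) (XT.lf (nat_lit 0) (nat_lit 1162103817185) (nat_lit 76) (nat_lit 2061786204006) (nat_lit 76) (nat_lit 2001350031101) (nat_lit 1) (nat_lit 4) (nat_lit 2) (nat_lit 5) (nat_lit 2) (nat_lit 4) (nat_lit 258) (nat_lit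 213) (nat_lit 129)))) (XT.nd (nat_lit 156) (nat_lit 0) (nat_lit 0) (XT.nd (nat_lit 78) (nat_lit 0) (nat_lit 0) (XT.lf (nat_lit 0) (nat_lit 1380964327217) (nat_lit 76) (nat_lit 2342273433793) (nat_lit 76) (nat_lit 2281837198071) (nat_lit 1) (nat_lit 4) (nat_lit 2) (nat_lit 5) (nat_lit 2) (nat_lit 4) (nat_lit 259) (nat_lit 213) (nat_lit 128)) (XT.lf (nat_lit 0) (nat_lit 1632653827197) (nat_lit 76) (nat_lit 2664833786359) (nat_lit 76) (nat_lit 2604397496014) (nat_lit 1) (nat_lit 4) (nat_lit 2) (nat_lit 5) (nat_lit 2) (nat_lit 4) (nat_lit 260) (nat_lit 213) (nat_lit 127))) (XT.nd (nat_lit 78) (nat_lit 0) (nat_lit 0) (XT.lf (nat_lit 0) (nat_lit 1922096676905) (nat_lit 76) (nat_lit 3035778225122) (nat_lit 76) (nat_lit 2975341887278) (nat_lit 1) (nat_lit 4) (nat_lit 2) (nat_lit 5) (nat_lit 2) (nat_lit 4) (nat_lit 261) (nat_lit 213) (nat_lit 126)) (XT.lf (nat_lit 0) (nat_lit 2254955888620)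 (nat_lit 76) (nat_lit 3462364358667) (nat_lit 76) (nat_lit 3401927979520) (nat_lit 1) (nat_lit 4) (nat_lit 2) (nat_lit 5) (nat_lit 2) (nat_lit 4) (nat_lit 262) (nat_lit 213) (nat_lit 125))))) (XT.nd (nat_lit 312) (nat_lit 0) (nat_lit 0) (XT.nd (nat_lit 156) (nat_lit 0) (nat_lit 0) (XT.nd (nat_lit 78) (nat_lit 0) (nat_lit 0) (XT.lf (nat_lit 0) (nat_lit 2637743925178) (nat_lit 76) (nat_lit 3952938437433) (nat_lit 76) (nat_lit 3892502022371) (nat_lit 1) (nat_lit 4) (nat_lit 2) (nat_lit 5) (nat_lit 2) (nat_lit 4) (nat_lit 263) (nat_lit 213) (nat_lit 124)) (XT.lf (nat_lit 0) (nat_lit 3077950117731) (nat_lit 76) (nat_lit 4517098649919) (nat_lit 76) (nat_lit 4456662203625) (nat_lit 1) (nat_lit 4) (nat_lit 2) (nat_lit 5) (nat_lit 2) (nat_lit 4) (nat_lit 264) (nat_lit 213) (nat_lit 123))) (XT.nd (nat_lit 78) (nat_lit 0) (nat_lit 0) (XT.lf (nat_lit 0) (nat_lit 3584187196131) (nat_lit 76) (nat_lit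 5165882913323) (nat_lit 76) (nat_lit 5105446439872) (nat_lit 1) (nat_lit 4) (nat_lit 2) (nat_lit 5) (nat_lit 2) (nat_lit 4) (nat_lit 265) (nat_lit 213) (nat_lit 122)) (XT.lf (nat_lit 0) (nat_lit 4166359798870) (nat_lit 76) (nat_lit 5911984832801) (nat_lit 76) (nat_lit 5851548335735) (nat_lit 1) (nat_lit 4) (nat_lit 2) (nat_lit 5) (nat_lit 2) (nat_lit 4) (nat_lit 266) (nat_lit 213) (nat_lit 121)))) (XT.nd (nat_lit 156) (nat_lit 0) (nat_lit 0) (XT.nd (nat_lit 78) (nat_lit 0) (nat_lit 0) (XT.lf (nat_lit 0) (nat_lit 4835858259480) (nat_lit 76) (nat_lit 6770002054602) (nat_lit 76) (nat_lit 6709565537002) (nat_lit 1) (nat_lit 4) (nat_lit 2) (nat_lit 5) (nat_lit 2) (nat_lit 4) (nat_lit 267) (nat_lit 213) (nat_lit 120)) (XT.lf (nat_lit 0) (nat_lit 5605781460885) (nat_lit 76) (nat_lit 7756721872197) (nat_lit 76) (nat_lit 7696285336740) (nat_lit 1) (nat_lit 4) (nat_lit 2) (nat_lit 5) (nat_lit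 2) (nat_lit 4) (nat_lit 268) (nat_lit 213) (nat_lit 119))) (XT.nd (nat_lit 78) (nat_lit 0) (nat_lit 0) (XT.lf (nat_lit 0) (nat_lit 6491193117896) (nat_lit 76) (nat_lit 8891449673322) (nat_lit 76) (nat_lit 8831013122337) (nat_lit 1) (nat_lit 4) (nat_lit 2) (nat_lit 5) (nat_lit 2) (nat_lit 4) (nat_lit 269) (nat_lit 213) (nat_lit 118)) (XT.lf (nat_lit 0) (nat_lit 7509416502063) (nat_lit 76) (nat_lit 10196386654085) (nat_lit 76) (nat_lit 10135950089598) (nat_lit 1) (nat_lit 4) (nat_lit 2) (nat_lit 5) (nat_lit 2) (nat_lit 4) (nat_lit 270) (nat_lit 213) (nat_lit 117))))))))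
noncomputable def xc43 : XT := (XT.nd (nat_lit 29016) (nat_lit 0) (nat_lit 0) (XT.nd (nat_lit 27768) (nat_lit 0) (nat_lit 76) (XT.nd (nat_lit 27144) (nat_lit 0) (nat_lit 380) (XT.nd (nat_lit 26832) (nat_lit 0) (nat_lit 836) (XT.nd (nat_lit 156) (nat_lit 0) (nat_lit 0) (XT.nd (nat_lit 78) (nat_lit 0) (nat_lit 0) (XT.lf (nat_lit 0) (nat_lit 8680373375250) (nat_lit 76) (nat_lit 11697064190196) (nat_lit 76) (nat_lit 11636627613969) (nat_lit 1) (nat_lit 4) (nat_lit 2) (nat_lit 5) (nat_lit 2) (nat_lit 4) (nat_lit 271) (nat_lit 213) (nat_lit 116)) (XT.lf (nat_lit 0) (nat_lit 10026973763236) (nat_lit 76) (nat_lit 13422843363885) (nat_lit 76) (nat_lit 13362406777448) (nat_lit 1) (nat_lit 4) (nat_lit 2) (nat_lit 5) (nat_lit 2) (nat_lit 4) (nat_lit 272) (nat_lit 213) (nat_lit 115))) (XT.nd (nat_lit 78) (nat_lit 0) (nat_lit 0) (XT.lf (nat_lit 0) (nat_lit 11575564195352) (nat_lit 76) (nat_lit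 15407489419854) (nat_lit 76) (nat_lit 15347052824539) (nat_lit 1) (nat_lit 4) (nat_lit 2) (nat_lit 5) (nat_lit 2) (nat_lit 4) (nat_lit 273) (nat_lit 213) (nat_lit 114)) (XT.lf (nat_lit 0) (nat_lit 13356443180052) (nat_lit 76) (nat_lit 17689832389632) (nat_lit 76) (nat_lit 17629395786597) (nat_lit 1) (nat_lit 4) (nat_lit 2) (nat_lit 5) (nat_lit 2) (nat_lit 4) (nat_lit 274) (nat_lit 213) (nat_lit 113)))) (XT.nd (nat_lit 156) (nat_lit 0) (nat_lit 0) (XT.nd (nat_lit 78) (nat_lit 0) (nat_lit 0) (XT.lf (nat_lit 0) (nat_lit 4820133712) (nat_lit 0) (nat_lit 4820133712) (nat_lit 228) (nat_lit 5002340276) (nat_lit 12) (nat_lit 5) (nat_lit 12) (nat_lit 3) (nat_lit 15) (nat_lit 3) (nat_lit 214) (nat_lit 214) (nat_lit 172)) (XT.lf (nat_lit 0) (nat_lit 20855207262) (nat_lit 228) (nat_lit 9089865758) (nat_lit 304) (nat_lit 1515906097) (nat_lit 12) (nat_lit 5) (nat_lit 15) (nat_lit 3) (nat_lit 16)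 (nat_lit 5) (nat_lit 215) (nat_lit 214) (nat_lit 171))) (XT.nd (nat_lit 78) (nat_lit 0) (nat_lit 0) (XT.lf (nat_lit 76) (nat_lit 2834384978) (nat_lit 0) (nat_lit 20397707222) (nat_lit 304) (nat_lit 10646350713) (nat_lit 13) (nat_lit 5) (nat_lit 12) (nat_lit 5) (nat_lit 16) (nat_lit 5) (nat_lit 216) (nat_lit 214) (nat_lit 170)) (XT.lf (nat_lit 76) (nat_lit 17561815272) (nat_lit 0) (nat_lit 8869499267) (nat_lit 304) (nat_lit 10157547365) (nat_lit 13) (nat_lit 5) (nat_lit 12) (nat_lit 5) (nat_lit 16) (nat_lit 5) (nat_lit 217) (nat_lit 214) (nat_lit 169))))) (XT.nd (nat_lit 312) (nat_lit 228) (nat_lit 0) (XT.nd (nat_lit 156) (nat_lit 76) (nat_lit 0) (XT.nd (nat_lit 78) (nat_lit 228) (nat_lit 0) (XT.lf (nat_lit 0) (nat_lit 30284070539) (nat_lit 228) (nat_lit 5396778172) (nat_lit 76) (nat_lit 3999126899) (nat_lit 13) (nat_lit 5) (nat_lit 16) (nat_lit 5) (nat_lit 14) (nat_lit 5) (nat_lit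 218) (nat_lit 214) (nat_lit 168)) (XT.lf (nat_lit 0) (nat_lit 10811587653) (nat_lit 228) (nat_lit 24766198596) (nat_lit 304) (nat_lit 7527669188) (nat_lit 10) (nat_lit 5) (nat_lit 13) (nat_lit 5) (nat_lit 14) (nat_lit 5) (nat_lit 219) (nat_lit 214) (nat_lit 167))) (XT.nd (nat_lit 78) (nat_lit 76) (nat_lit 0) (XT.lf (nat_lit 0) (nat_lit 30051424903) (nat_lit 228) (nat_lit 11889894419) (nat_lit 304) (nat_lit 5062209578) (nat_lit 10) (nat_lit 5) (nat_lit 13) (nat_lit 5) (nat_lit 14) (nat_lit 5) (nat_lit 220) (nat_lit 214) (nat_lit 166)) (XT.lf (nat_lit 0) (nat_lit 618756381) (nat_lit 76) (nat_lit 48781554054) (nat_lit 152) (nat_lit 2064981701) (nat_lit 9) (nat_lit 5) (nat_lit 10) (nat_lit 5) (nat_lit 11) (nat_lit 4) (nat_lit 221) (nat_lit 214) (nat_lit 165)))) (XT.nd (nat_lit 156) (nat_lit 152) (nat_lit 0) (XT.nd (nat_lit 78) (nat_lit 0) (nat_lit 0) (XT.lf (nat_lit 0) (nat_lit 2747940995)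 (nat_lit 152) (nat_lit 34405324516) (nat_lit 76) (nat_lit 19211191141) (nat_lit 8) (nat_lit 5) (nat_lit 10) (nat_lit 5) (nat_lit 9) (nat_lit 5) (nat_lit 222) (nat_lit 214) (nat_lit 164)) (XT.lf (nat_lit 0) (nat_lit 8066705373) (nat_lit 152) (nat_lit 15602137801) (nat_lit 76) (nat_lit 38315682657) (nat_lit 8) (nat_lit 5) (nat_lit 10) (nat_lit 5) (nat_lit 9) (nat_lit 5) (nat_lit 223) (nat_lit 214) (nat_lit 163))) (XT.nd (nat_lit 78) (nat_lit 0) (nat_lit 0) (XT.lf (nat_lit 0) (nat_lit 6604387563) (nat_lit 152) (nat_lit 7848299204) (nat_lit 228) (nat_lit 53954575712) (nat_lit 6) (nat_lit 5) (nat_lit 8) (nat_lit 5) (nat_lit 9) (nat_lit 5) (nat_lit 224) (nat_lit 214) (nat_lit 162)) (XT.lf (nat_lit 0) (nat_lit 23075557036) (nat_lit 228) (nat_lit 42248378287) (nat_lit 76) (nat_lit 10277684202) (nat_lit 6) (nat_lit 5) (nat_lit 9) (nat_lit 5) (nat_lit 7) (nat_lit 4) (nat_lit 225) (nat_lit 214)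 (nat_lit 161)))))) (XT.nd (nat_lit 624) (nat_lit 152) (nat_lit 0) (XT.nd (nat_lit 312) (nat_lit 76) (nat_lit 0) (XT.nd (nat_lit 156) (nat_lit 0) (nat_lit 0) (XT.nd (nat_lit 78) (nat_lit 76) (nat_lit 0) (XT.lf (nat_lit 0) (nat_lit 33362291576) (nat_lit 228) (nat_lit 20139173506) (nat_lit 76) (nat_lit 30318150990) (nat_lit 6) (nat_lit 5) (nat_lit 9) (nat_lit 5) (nat_lit 7) (nat_lit 4) (nat_lit 226) (nat_lit 214) (nat_lit 160)) (XT.lf (nat_lit 0) (nat_lit 5798516166) (nat_lit 76) (nat_lit 39630759272) (nat_lit 152) (nat_lit 47805495136) (nat_lit 5) (nat_lit 5) (nat_lit 6) (nat_lit 5) (nat_lit 7) (nat_lit 4) (nat_lit 227) (nat_lit 214) (nat_lit 159))) (XT.nd (nat_lit 78) (nat_lit 0) (nat_lit 0) (XT.lf (nat_lit 0) (nat_lit 37886295199) (nat_lit 76) (nat_lit 22470087022) (nat_lit 152) (nat_lit 43548343295) (nat_lit 5) (nat_lit 5) (nat_lit 6) (nat_lit 5) (nat_lit 7) (nat_lit 4) (nat_lit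 228) (nat_lit 214) (nat_lit 158)) (XT.lf (nat_lit 0) (nat_lit 74783821463) (nat_lit 76) (nat_lit 2736425573) (nat_lit 152) (nat_lit 38655306394) (nat_lit 5) (nat_lit 5) (nat_lit 6) (nat_lit 5) (nat_lit 7) (nat_lit 4) (nat_lit 229) (nat_lit 214) (nat_lit 157)))) (XT.nd (nat_lit 156) (nat_lit 0) (nat_lit 0) (XT.nd (nat_lit 78) (nat_lit 76) (nat_lit 0) (XT.lf (nat_lit 0) (nat_lit 98083033218) (nat_lit 152) (nat_lit 13900681243) (nat_lit 0) (nat_lit 18179668983) (nat_lit 5) (nat_lit 5) (nat_lit 7) (nat_lit 4) (nat_lit 5) (nat_lit 4) (nat_lit 230) (nat_lit 214) (nat_lit 156)) (XT.lf (nat_lit 0) (nat_lit 19299014810) (nat_lit 76) (nat_lit 103358879571) (nat_lit 76) (nat_lit 23452370378) (nat_lit 4) (nat_lit 4) (nat_lit 5) (nat_lit 5) (nat_lit 5) (nat_lit 4) (nat_lit 231) (nat_lit 214) (nat_lit 155))) (XT.nd (nat_lit 78) (nat_lit 0) (nat_lit 0) (XT.lf (nat_lit 0) (nat_lit 59038203238) (nat_lit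 76) (nat_lit 92605748019) (nat_lit 76) (nat_lit 12696504080) (nat_lit 4) (nat_lit 4) (nat_lit 5) (nat_lit 5) (nat_lit 5) (nat_lit 4) (nat_lit 232) (nat_lit 214) (nat_lit 154)) (XT.lf (nat_lit 0) (nat_lit 104735914235) (nat_lit 76) (nat_lit 80240558970) (nat_lit 76) (nat_lit 328936991) (nat_lit 4) (nat_lit 4) (nat_lit 5) (nat_lit 5) (nat_lit 5) (nat_lit 4) (nat_lit 233) (nat_lit 214) (nat_lit 153))))) (XT.nd (nat_lit 312) (nat_lit 0) (nat_lit 0) (XT.nd (nat_lit 156) (nat_lit 76) (nat_lit 0) (XT.nd (nat_lit 78) (nat_lit 0) (nat_lit 0) (XT.lf (nat_lit 0) (nat_lit 12655515966) (nat_lit 152) (nat_lit 52704330510) (nat_lit 76) (nat_lit 143969179149) (nat_lit 3) (nat_lit 5) (nat_lit 5) (nat_lit 5) (nat_lit 4) (nat_lit 4) (nat_lit 234) (nat_lit 214) (nat_lit 152)) (XT.lf (nat_lit 0) (nat_lit 27552803341) (nat_lit 152) (nat_lit 20676960793) (nat_lit 76) (nat_lit 188724255786) (nat_lit 3) (nat_lit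 5) (nat_lit 5) (nat_lit 5) (nat_lit 4) (nat_lit 4) (nat_lit 235) (nat_lit 214) (nat_lit 151))) (XT.nd (nat_lit 78) (nat_lit 0) (nat_lit 0) (XT.lf (nat_lit 0) (nat_lit 17731430802) (nat_lit 76) (nat_lit 27686467979) (nat_lit 152) (nat_lit 223194893298) (nat_lit 2) (nat_lit 5) (nat_lit 3) (nat_lit 5) (nat_lit 4) (nat_lit 4) (nat_lit 236) (nat_lit 214) (nat_lit 150)) (XT.lf (nat_lit 0) (nat_lit 64223306781) (nat_lit 76) (nat_lit 2819352758) (nat_lit 152) (nat_lit 237815744904) (nat_lit 2) (nat_lit 5) (nat_lit 3) (nat_lit 5) (nat_lit 4) (nat_lit 4) (nat_lit 237) (nat_lit 214) (nat_lit 149)))) (XT.nd (nat_lit 156) (nat_lit 0) (nat_lit 0) (XT.nd (nat_lit 78) (nat_lit 0) (nat_lit 0) (XT.lf (nat_lit 0) (nat_lit 92977698726) (nat_lit 152) (nat_lit 229920783578) (nat_lit 0) (nat_lit 23482399999) (nat_lit 2) (nat_lit 5) (nat_lit 4) (nat_lit 4) (nat_lit 2) (nat_lit 4) (nat_lit 238) (nat_lit 214)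 (nat_lit 148)) (XT.lf (nat_lit 0) (nat_lit 122936517689) (nat_lit 152) (nat_lit 217734867810) (nat_lit 0) (nat_lit 53440324968) (nat_lit 2) (nat_lit 5) (nat_lit 4) (nat_lit 4) (nat_lit 2) (nat_lit 4) (nat_lit 239) (nat_lit 214) (nat_lit 147))) (XT.nd (nat_lit 78) (nat_lit 0) (nat_lit 0) (XT.lf (nat_lit 0) (nat_lit 157388523847) (nat_lit 152) (nat_lit 203722186880) (nat_lit 0) (nat_lit 87891553741) (nat_lit 2) (nat_lit 5) (nat_lit 4) (nat_lit 4) (nat_lit 2) (nat_lit 4) (nat_lit 240) (nat_lit 214) (nat_lit 146)) (XT.lf (nat_lit 0) (nat_lit 197007778192) (nat_lit 152) (nat_lit 187608579641) (nat_lit 0) (nat_lit 127510132099) (nat_lit 2) (nat_lit 5) (nat_lit 4) (nat_lit 4) (nat_lit 2) (nat_lit 4) (nat_lit 241) (nat_lit 214) (nat_lit 145))))))) (XT.nd (nat_lit 1248) (nat_lit 0) (nat_lit 0) (XT.nd (nat_lit 624) (nat_lit 0) (nat_lit 0) (XT.nd (nat_lit 312) (nat_lit 76) (nat_lit 0) (XT.nd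 (nat_lit 156) (nat_lit 0) (nat_lit 0) (XT.nd (nat_lit 78) (nat_lit 0) (nat_lit 0) (XT.lf (nat_lit 0) (nat_lit 242569440048) (nat_lit 152) (nat_lit 169078779863) (nat_lit 0) (nat_lit 173071206140) (nat_lit 2) (nat_lit 5) (nat_lit 4) (nat_lit 4) (nat_lit 2) (nat_lit 4) (nat_lit 242) (nat_lit 214) (nat_lit 144)) (XT.lf (nat_lit 0) (nat_lit 294964933233) (nat_lit 152) (nat_lit 147770247986) (nat_lit 0) (nat_lit 225466188181) (nat_lit 2) (nat_lit 5) (nat_lit 4) (nat_lit 4) (nat_lit 2) (nat_lit 4) (nat_lit 243) (nat_lit 214) (nat_lit 143))) (XT.nd (nat_lit 78) (nat_lit 0) (nat_lit 0) (XT.lf (nat_lit 0) (nat_lit 355219386962) (nat_lit 152) (nat_lit 123266077951) (nat_lit 0) (nat_lit 285720197438) (nat_lit 2) (nat_lit 5) (nat_lit 4) (nat_lit 4) (nat_lit 2) (nat_lit 4) (nat_lit 244) (nat_lit 214) (nat_lit 142)) (XT.lf (nat_lit 0) (nat_lit 424511692721) (nat_lit 152) (nat_lit 95086840345) (nat_lit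 0) (nat_lit 355012116699) (nat_lit 2) (nat_lit 5) (nat_lit 4) (nat_lit 4) (nat_lit 2) (nat_lit 4) (nat_lit 245) (nat_lit 214) (nat_lit 141)))) (XT.nd (nat_lit 156) (nat_lit 76) (nat_lit 0) (XT.nd (nat_lit 78) (nat_lit 0) (nat_lit 0) (XT.lf (nat_lit 0) (nat_lit 504197569536) (nat_lit 152) (nat_lit 62681202258) (nat_lit 0) (nat_lit 434697657428) (nat_lit 2) (nat_lit 5) (nat_lit 4) (nat_lit 4) (nat_lit 2) (nat_lit 4) (nat_lit 246) (nat_lit 214) (nat_lit 140)) (XT.lf (nat_lit 0) (nat_lit 595836088909) (nat_lit 152) (nat_lit 25415140335) (nat_lit 0) (nat_lit 526335884553) (nat_lit 2) (nat_lit 5) (nat_lit 4) (nat_lit 4) (nat_lit 2) (nat_lit 4) (nat_lit 247) (nat_lit 214) (nat_lit 139))) (XT.nd (nat_lit 78) (nat_lit 0) (nat_lit 0) (XT.lf (nat_lit 0) (nat_lit 19144873008) (nat_lit 76) (nat_lit 682868053749) (nat_lit 76) (nat_lit 613367595265) (nat_lit 1) (nat_lit 4) (nat_lit 2) (nat_lit 5)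 (nat_lit 2) (nat_lit 4) (nat_lit 248) (nat_lit 214) (nat_lit 138)) (XT.lf (nat_lit 0) (nat_lit 73244853383) (nat_lit 76) (nat_lit 752199760410) (nat_lit 76) (nat_lit 682699080945) (nat_lit 1) (nat_lit 4) (nat_lit 2) (nat_lit 5) (nat_lit 2) (nat_lit 4) (nat_lit 249) (nat_lit 214) (nat_lit 137))))) (XT.nd (nat_lit 312) (nat_lit 0) (nat_lit 0) (XT.nd (nat_lit 156) (nat_lit 0) (nat_lit 0) (XT.nd (nat_lit 78) (nat_lit 0) (nat_lit 0) (XT.lf (nat_lit 0) (nat_lit 135459526313) (nat_lit 76) (nat_lit 831931357840) (nat_lit 76) (nat_lit 762430486217) (nat_lit 1) (nat_lit 4) (nat_lit 2) (nat_lit 5) (nat_lit 2) (nat_lit 4) (nat_lit 250) (nat_lit 214) (nat_lit 136)) (XT.lf (nat_lit 0) (nat_lit 207006135399) (nat_lit 76) (nat_lit 923622812074) (nat_lit 76) (nat_lit 854121773357) (nat_lit 1) (nat_lit 4) (nat_lit 2) (nat_lit 5) (nat_lit 2) (nat_lit 4) (nat_lit 251) (nat_lit 214) (nat_lit 135))) (XT.nd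 (nat_lit 78) (nat_lit 0) (nat_lit 0) (XT.lf (nat_lit 0) (nat_lit 289284505603) (nat_lit 76) (nat_lit 1029068086349) (nat_lit 76) (nat_lit 959566902333) (nat_lit 1) (nat_lit 4) (nat_lit 2) (nat_lit 5) (nat_lit 2) (nat_lit 4) (nat_lit 252) (nat_lit 214) (nat_lit 134)) (XT.lf (nat_lit 0) (nat_lit 383904431123) (nat_lit 76) (nat_lit 1150330240378) (nat_lit 76) (nat_lit 1080828930015) (nat_lit 1) (nat_lit 4) (nat_lit 2) (nat_lit 5) (nat_lit 2) (nat_lit 4) (nat_lit 253) (nat_lit 214) (nat_lit 133)))) (XT.nd (nat_lit 156) (nat_lit 0) (nat_lit 0) (XT.nd (nat_lit 78) (nat_lit 0) (nat_lit 0) (XT.lf (nat_lit 0) (nat_lit 492717171372) (nat_lit 76) (nat_lit 1289781794565) (nat_lit 76) (nat_lit 1220280374336) (nat_lit 1) (nat_lit 4) (nat_lit 2) (nat_lit 5) (nat_lit 2) (nat_lit 4) (nat_lit 254) (nat_lit 214) (nat_lit 132)) (XT.lf (nat_lit 0) (nat_lit 617851671268) (nat_lit 76) (nat_lit 1450151148885)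 (nat_lit 76) (nat_lit 1380649633120) (nat_lit 1) (nat_lit 4) (nat_lit 2) (nat_lit 5) (nat_lit 2) (nat_lit 4) (nat_lit 255) (nat_lit 214) (nat_lit 131))) (XT.nd (nat_lit 78) (nat_lit 0) (nat_lit 0) (XT.lf (nat_lit 0) (nat_lit 761756214505) (nat_lit 76) (nat_lit 1634575964618) (nat_lit 76) (nat_lit 1565074365777) (nat_lit 1) (nat_lit 4) (nat_lit 2) (nat_lit 5) (nat_lit 2) (nat_lit 4) (nat_lit 256) (nat_lit 214) (nat_lit 130)) (XT.lf (nat_lit 0) (nat_lit 927246324753) (nat_lit 76) (nat_lit 1846664553375) (nat_lit 76) (nat_lit 1777162882295) (nat_lit 1) (nat_lit 4) (nat_lit 2) (nat_lit 5) (nat_lit 2) (nat_lit 4) (nat_lit 257) (nat_lit 214) (nat_lit 129)))))) (XT.nd (nat_lit 624) (nat_lit 0) (nat_lit 0) (XT.nd (nat_lit 312) (nat_lit 0) (nat_lit 0) (XT.nd (nat_lit 156) (nat_lit 0) (nat_lit 0) (XT.nd (nat_lit 78) (nat_lit 0) (nat_lit 0) (XT.lf (nat_lit 0) (nat_lit 1117559851998) (nat_lit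 76) (nat_lit 2090566474502) (nat_lit 76) (nat_lit 2021064740605) (nat_lit 1) (nat_lit 4) (nat_lit 2) (nat_lit 5) (nat_lit 2) (nat_lit 4) (nat_lit 258) (nat_lit 214) (nat_lit 128)) (XT.lf (nat_lit 0) (nat_lit 1336420321771) (nat_lit 76) (nat_lit 2371053722108) (nat_lit 76) (nat_lit 2301551933588) (nat_lit 1) (nat_lit 4) (nat_lit 2) (nat_lit 5) (nat_lit 2) (nat_lit 4) (nat_lit 259) (nat_lit 214) (nat_lit 127))) (XT.nd (nat_lit 78) (nat_lit 0) (nat_lit 0) (XT.lf (nat_lit 0) (nat_lit 1588109786742) (nat_lit 76) (nat_lit 2693614090168) (nat_lit 76) (nat_lit 2624112254149) (nat_lit 1) (nat_lit 4) (nat_lit 2) (nat_lit 5) (nat_lit 2) (nat_lit 4) (nat_lit 260) (nat_lit 214) (nat_lit 126)) (XT.lf (nat_lit 0) (nat_lit 1877552606009) (nat_lit 76) (nat_lit 3064558542404) (nat_lit 76) (nat_lit 2995056665083) (nat_lit 1) (nat_lit 4) (nat_lit 2) (nat_lit 5) (nat_lit 2) (nat_lit 4) (nat_lit 261) (nat_lit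 214) (nat_lit 125)))) (XT.nd (nat_lit 156) (nat_lit 0) (nat_lit 0) (XT.nd (nat_lit 78) (nat_lit 0) (nat_lit 0) (XT.lf (nat_lit 0) (nat_lit 2210411791252) (nat_lit 76) (nat_lit 3491144687665) (nat_lit 76) (nat_lit 3421642774428) (nat_lit 1) (nat_lit 4) (nat_lit 2) (nat_lit 5) (nat_lit 2) (nat_lit 4) (nat_lit 262) (nat_lit 214) (nat_lit 124)) (XT.lf (nat_lit 0) (nat_lit 2593199804792) (nat_lit 76) (nat_lit 3981718776620) (nat_lit 76) (nat_lit 3912216832151) (nat_lit 1) (nat_lit 4) (nat_lit 2) (nat_lit 5) (nat_lit 2) (nat_lit 4) (nat_lit 263) (nat_lit 214) (nat_lit 123))) (XT.nd (nat_lit 78) (nat_lit 0) (nat_lit 0) (XT.lf (nat_lit 0) (nat_lit 3033405977328) (nat_lit 76) (nat_lit 4545878997964) (nat_lit 76) (nat_lit 4476377026338) (nat_lit 1) (nat_lit 4) (nat_lit 2) (nat_lit 5) (nat_lit 2) (nat_lit 4) (nat_lit 264) (nat_lit 214) (nat_lit 122)) (XT.lf (nat_lit 0) (nat_lit 3539643038323)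 (nat_lit 76) (nat_lit 5194663269072) (nat_lit 76) (nat_lit 5125161273831) (nat_lit 1) (nat_lit 4) (nat_lit 2) (nat_lit 5) (nat_lit 2) (nat_lit 4) (nat_lit 265) (nat_lit 214) (nat_lit 121))))) (XT.nd (nat_lit 312) (nat_lit 0) (nat_lit 0) (XT.nd (nat_lit 156) (nat_lit 0) (nat_lit 0) (XT.nd (nat_lit 78) (nat_lit 0) (nat_lit 0) (XT.lf (nat_lit 0) (nat_lit 4121815625927) (nat_lit 76) (nat_lit 5940765195248) (nat_lit 76) (nat_lit 5871263179472) (nat_lit 1) (nat_lit 4) (nat_lit 2) (nat_lit 5) (nat_lit 2) (nat_lit 4) (nat_lit 266) (nat_lit 214) (nat_lit 120)) (XT.lf (nat_lit 0) (nat_lit 4791314073376) (nat_lit 76) (nat_lit 6798782422874) (nat_lit 76) (nat_lit 6729280389242) (nat_lit 1) (nat_lit 4) (nat_lit 2) (nat_lit 5) (nat_lit 2) (nat_lit 4) (nat_lit 267) (nat_lit 214) (nat_lit 119))) (XT.nd (nat_lit 78) (nat_lit 0) (nat_lit 0) (XT.lf (nat_lit 0) (nat_lit 5561237263337) (nat_lit 76) (nat_lit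 7785502245535) (nat_lit 76) (nat_lit 7716000196375) (nat_lit 1) (nat_lit 4) (nat_lit 2) (nat_lit 5) (nat_lit 2) (nat_lit 4) (nat_lit 268) (nat_lit 214) (nat_lit 118)) (XT.lf (nat_lit 0) (nat_lit 6446648910397) (nat_lit 76) (nat_lit 8920230051064) (nat_lit 76) (nat_lit 8850727988402) (nat_lit 1) (nat_lit 4) (nat_lit 2) (nat_lit 5) (nat_lit 2) (nat_lit 4) (nat_lit 269) (nat_lit 214) (nat_lit 117)))) (XT.nd (nat_lit 156) (nat_lit 0) (nat_lit 0) (XT.nd (nat_lit 78) (nat_lit 0) (nat_lit 0) (XT.lf (nat_lit 0) (nat_lit 7464872285910) (nat_lit 76) (nat_lit 10225167035657) (nat_lit 76) (nat_lit 10155664961254) (nat_lit 1) (nat_lit 4) (nat_lit 2) (nat_lit 5) (nat_lit 2) (nat_lit 4) (nat_lit 270) (nat_lit 214) (nat_lit 116)) (XT.lf (nat_lit 0) (nat_lit 8635829151571) (nat_lit 76) (nat_lit 11725844575099) (nat_lit 76) (nat_lit 11656342490487) (nat_lit 1) (nat_lit 4) (nat_lit 2) (nat_lit 5) (nat_lit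 2) (nat_lit 4) (nat_lit 271) (nat_lit 214) (nat_lit 115))) (XT.nd (nat_lit 78) (nat_lit 0) (nat_lit 0) (XT.lf (nat_lit 0) (nat_lit 9982429533014) (nat_lit 76) (nat_lit 13451623751683) (nat_lit 76) (nat_lit 13382121658194) (nat_lit 1) (nat_lit 4) (nat_lit 2) (nat_lit 5) (nat_lit 2) (nat_lit 4) (nat_lit 272) (nat_lit 214) (nat_lit 114)) (XT.lf (nat_lit 0) (nat_lit 11531019959441) (nat_lit 76) (nat_lit 15436269810170) (nat_lit 76) (nat_lit 15366767708961) (nat_lit 1) (nat_lit 4) (nat_lit 2) (nat_lit 5) (nat_lit 2) (nat_lit 4) (nat_lit 273) (nat_lit 214) (nat_lit 113))))))))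
noncomputable def xc44 : XT := (XT.nd (nat_lit 29094) (nat_lit 0) (nat_lit 0) (XT.nd (nat_lit 27846) (nat_lit 0) (nat_lit 76) (XT.nd (nat_lit 27222) (nat_lit 0) (nat_lit 304) (XT.nd (nat_lit 26910) (nat_lit 0) (nat_lit 684) (XT.nd (nat_lit 26754) (nat_lit 0) (nat_lit 836) (XT.nd (nat_lit 26676) (nat_lit 0) (nat_lit 836) (XT.lf (nat_lit 0) (nat_lit 13311898939193) (nat_lit 76) (nat_lit 17718612782138) (nat_lit 76) (nat_lit 17649110674216) (nat_lit 1) (nat_lit 4) (nat_lit 2) (nat_lit 5) (nat_lit 2) (nat_lit 4) (nat_lit 274) (nat_lit 214) (nat_lit 112)) (XT.lf (nat_lit 0) (nat_lit 5571780913) (nat_lit 0) (nat_lit 5571780913) (nat_lit 228) (nat_lit 5685571471) (nat_lit 12) (nat_lit 5) (nat_lit 12) (nat_lit 3) (nat_lit 15) (nat_lit 3) (nat_lit 215) (nat_lit 215) (nat_lit 170))) (XT.nd (nat_lit 78) (nat_lit 0) (nat_lit 0) (XT.lf (nat_lit 0) (nat_lit 24080999479) (nat_lit 228) (nat_lit 10384340245)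 (nat_lit 304) (nat_lit 1697937999) (nat_lit 12) (nat_lit 5) (nat_lit 15) (nat_lit 3) (nat_lit 16) (nat_lit 5) (nat_lit 216) (nat_lit 215) (nat_lit 169)) (XT.lf (nat_lit 76) (nat_lit 3325411494) (nat_lit 0) (nat_lit 23479014306) (nat_lit 304) (nat_lit 12140723764) (nat_lit 13) (nat_lit 5) (nat_lit 12) (nat_lit 5) (nat_lit 16) (nat_lit 5) (nat_lit 217) (nat_lit 215) (nat_lit 168)))) (XT.nd (nat_lit 156) (nat_lit 152) (nat_lit 0) (XT.nd (nat_lit 78) (nat_lit 0) (nat_lit 76) (XT.lf (nat_lit 76) (nat_lit 20253364754) (nat_lit 0) (nat_lit 10218751114) (nat_lit 304) (nat_lit 11591979856) (nat_lit 13) (nat_lit 5) (nat_lit 12) (nat_lit 5) (nat_lit 16) (nat_lit 5) (nat_lit 218) (nat_lit 215) (nat_lit 167)) (XT.lf (nat_lit 0) (nat_lit 34892180740) (nat_lit 228) (nat_lit 6144423384) (nat_lit 76) (nat_lit 4584082151) (nat_lit 13) (nat_lit 5) (nat_lit 16) (nat_lit 5) (nat_lit 14) (nat_lit 5) (nat_lit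 219) (nat_lit 215) (nat_lit 166))) (XT.nd (nat_lit 78) (nat_lit 0) (nat_lit 0) (XT.lf (nat_lit 0) (nat_lit 12492384973) (nat_lit 228) (nat_lit 28481470919) (nat_lit 304) (nat_lit 8587237402) (nat_lit 10) (nat_lit 5) (nat_lit 13) (nat_lit 5) (nat_lit 14) (nat_lit 5) (nat_lit 220) (nat_lit 215) (nat_lit 165)) (XT.lf (nat_lit 0) (nat_lit 34610494441) (nat_lit 228) (nat_lit 13673676437) (nat_lit 304) (nat_lit 5761034784) (nat_lit 10) (nat_lit 5) (nat_lit 13) (nat_lit 5) (nat_lit 14) (nat_lit 5) (nat_lit 221) (nat_lit 215) (nat_lit 164))))) (XT.nd (nat_lit 312) (nat_lit 76) (nat_lit 0) (XT.nd (nat_lit 156) (nat_lit 152) (nat_lit 0) (XT.nd (nat_lit 78) (nat_lit 76) (nat_lit 0) (XT.lf (nat_lit 0) (nat_lit 769053242) (nat_lit 76) (nat_lit 56088589523) (nat_lit 152) (nat_lit 2319389872) (nat_lit 9) (nat_lit 5) (nat_lit 10) (nat_lit 5) (nat_lit 11) (nat_lit 4) (nat_lit 222) (nat_lit 215) (nat_lit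 163)) (XT.lf (nat_lit 0) (nat_lit 3203969028) (nat_lit 152) (nat_lit 39511127323) (nat_lit 76) (nat_lit 22096727023) (nat_lit 8) (nat_lit 5) (nat_lit 10) (nat_lit 5) (nat_lit 9) (nat_lit 5) (nat_lit 223) (nat_lit 215) (nat_lit 162))) (XT.nd (nat_lit 78) (nat_lit 152) (nat_lit 0) (XT.lf (nat_lit 0) (nat_lit 9314830208) (nat_lit 152) (nat_lit 17894635975) (nat_lit 76) (nat_lit 44066389151) (nat_lit 8) (nat_lit 5) (nat_lit 10) (nat_lit 5) (nat_lit 9) (nat_lit 5) (nat_lit 224) (nat_lit 215) (nat_lit 161)) (XT.lf (nat_lit 0) (nat_lit 7640694444) (nat_lit 152) (nat_lit 9014932538) (nat_lit 228) (nat_lit 62006920145) (nat_lit 6) (nat_lit 5) (nat_lit 8) (nat_lit 5) (nat_lit 9) (nat_lit 5) (nat_lit 225) (nat_lit 215) (nat_lit 160)))) (XT.nd (nat_lit 156) (nat_lit 76) (nat_lit 0) (XT.nd (nat_lit 78) (nat_lit 0) (nat_lit 0) (XT.lf (nat_lit 0) (nat_lit 26567739810) (nat_lit 228) (nat_lit 48541274971)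 (nat_lit 76) (nat_lit 11827742775) (nat_lit 6) (nat_lit 5) (nat_lit 9) (nat_lit 5) (nat_lit 7) (nat_lit 4) (nat_lit 226) (nat_lit 215) (nat_lit 159)) (XT.lf (nat_lit 0) (nat_lit 38393460719) (nat_lit 228) (nat_lit 23121475566) (nat_lit 76) (nat_lit 34873183153) (nat_lit 6) (nat_lit 5) (nat_lit 9) (nat_lit 5) (nat_lit 7) (nat_lit 4) (nat_lit 227) (nat_lit 215) (nat_lit 158))) (XT.nd (nat_lit 78) (nat_lit 0) (nat_lit 0) (XT.lf (nat_lit 0) (nat_lit 6705114194) (nat_lit 76) (nat_lit 45563403664) (nat_lit 152) (nat_lit 54947379566) (nat_lit 5) (nat_lit 5) (nat_lit 6) (nat_lit 5) (nat_lit 7) (nat_lit 4) (nat_lit 228) (nat_lit 215) (nat_lit 157)) (XT.lf (nat_lit 0) (nat_lit 43601257395) (nat_lit 76) (nat_lit 25830191815) (nat_lit 152) (nat_lit 50055429710) (nat_lit 5) (nat_lit 5) (nat_lit 6) (nat_lit 5) (nat_lit 7) (nat_lit 4) (nat_lit 229) (nat_lit 215) (nat_lit 156)))))) (XT.nd (nat_lit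 624) (nat_lit 0) (nat_lit 0) (XT.nd (nat_lit 312) (nat_lit 152) (nat_lit 0) (XT.nd (nat_lit 156) (nat_lit 76) (nat_lit 0) (XT.nd (nat_lit 78) (nat_lit 0) (nat_lit 0) (XT.lf (nat_lit 0) (nat_lit 86029236348) (nat_lit 76) (nat_lit 3137838748) (nat_lit 152) (nat_lit 44431719677) (nat_lit 5) (nat_lit 5) (nat_lit 6) (nat_lit 5) (nat_lit 7) (nat_lit 4) (nat_lit 230) (nat_lit 215) (nat_lit 155)) (XT.lf (nat_lit 0) (nat_lit 112812154091) (nat_lit 152) (nat_lit 15959210760) (nat_lit 0) (nat_lit 20913788816) (nat_lit 5) (nat_lit 5) (nat_lit 7) (nat_lit 4) (nat_lit 5) (nat_lit 4) (nat_lit 231) (nat_lit 215) (nat_lit 154))) (XT.nd (nat_lit 78) (nat_lit 0) (nat_lit 0) (XT.lf (nat_lit 0) (nat_lit 22219231852) (nat_lit 76) (nat_lit 118852889067) (nat_lit 76) (nat_lit 26952145752) (nat_lit 4) (nat_lit 4) (nat_lit 5) (nat_lit 5) (nat_lit 5) (nat_lit 4) (nat_lit 232) (nat_lit 215) (nat_lit 153)) (XT.lf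 (nat_lit 0) (nat_lit 67915990090) (nat_lit 76) (nat_lit 106488068971) (nat_lit 76) (nat_lit 14585257795) (nat_lit 4) (nat_lit 4) (nat_lit 5) (nat_lit 5) (nat_lit 5) (nat_lit 4) (nat_lit 233) (nat_lit 215) (nat_lit 152)))) (XT.nd (nat_lit 156) (nat_lit 76) (nat_lit 0) (XT.nd (nat_lit 78) (nat_lit 76) (nat_lit 0) (XT.lf (nat_lit 0) (nat_lit 120465480819) (nat_lit 76) (nat_lit 92269215640) (nat_lit 76) (nat_lit 364606325) (nat_lit 4) (nat_lit 4) (nat_lit 5) (nat_lit 5) (nat_lit 5) (nat_lit 4) (nat_lit 234) (nat_lit 215) (nat_lit 151)) (XT.lf (nat_lit 0) (nat_lit 14564673021) (nat_lit 152) (nat_lit 60592125917) (nat_lit 76) (nat_lit 165569838046) (nat_lit 3) (nat_lit 5) (nat_lit 5) (nat_lit 5) (nat_lit 4) (nat_lit 4) (nat_lit 235) (nat_lit 215) (nat_lit 150))) (XT.nd (nat_lit 78) (nat_lit 76) (nat_lit 0) (XT.lf (nat_lit 0) (nat_lit 31695140938) (nat_lit 152) (nat_lit 23762979548) (nat_lit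 76) (nat_lit 217037487219) (nat_lit 3) (nat_lit 5) (nat_lit 5) (nat_lit 5) (nat_lit 4) (nat_lit 4) (nat_lit 236) (nat_lit 215) (nat_lit 149)) (XT.lf (nat_lit 0) (nat_lit 20405965089) (nat_lit 76) (nat_lit 31833420939) (nat_lit 152) (nat_lit 256663915247) (nat_lit 2) (nat_lit 5) (nat_lit 3) (nat_lit 5) (nat_lit 4) (nat_lit 4) (nat_lit 237) (nat_lit 215) (nat_lit 148))))) (XT.nd (nat_lit 312) (nat_lit 0) (nat_lit 0) (XT.nd (nat_lit 156) (nat_lit 0) (nat_lit 0) (XT.nd (nat_lit 78) (nat_lit 0) (nat_lit 0) (XT.lf (nat_lit 0) (nat_lit 73869689465) (nat_lit 76) (nat_lit 3237023292) (nat_lit 152) (nat_lit 273479226600) (nat_lit 2) (nat_lit 5) (nat_lit 3) (nat_lit 5) (nat_lit 4) (nat_lit 4) (nat_lit 238) (nat_lit 215) (nat_lit 147)) (XT.lf (nat_lit 0) (nat_lit 106931197838) (nat_lit 152) (nat_lit 264396817848) (nat_lit 0) (nat_lit 27008904831) (nat_lit 2) (nat_lit 5) (nat_lit 4) (nat_lit 4)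 (nat_lit 2) (nat_lit 4) (nat_lit 239) (nat_lit 215) (nat_lit 146))) (XT.nd (nat_lit 78) (nat_lit 0) (nat_lit 0) (XT.lf (nat_lit 0) (nat_lit 141382946910) (nat_lit 152) (nat_lit 250384590793) (nat_lit 0) (nat_lit 61459977915) (nat_lit 2) (nat_lit 5) (nat_lit 4) (nat_lit 4) (nat_lit 2) (nat_lit 4) (nat_lit 240) (nat_lit 215) (nat_lit 145)) (XT.lf (nat_lit 0) (nat_lit 181001977701) (nat_lit 152) (nat_lit 234271378227) (nat_lit 0) (nat_lit 101078420891) (nat_lit 2) (nat_lit 5) (nat_lit 4) (nat_lit 4) (nat_lit 2) (nat_lit 4) (nat_lit 241) (nat_lit 215) (nat_lit 144)))) (XT.nd (nat_lit 156) (nat_lit 0) (nat_lit 0) (XT.nd (nat_lit 78) (nat_lit 0) (nat_lit 0) (XT.lf (nat_lit 0) (nat_lit 226563445162) (nat_lit 152) (nat_lit 215741921643) (nat_lit 0) (nat_lit 146639377209) (nat_lit 2) (nat_lit 5) (nat_lit 4) (nat_lit 4) (nat_lit 2) (nat_lit 4) (nat_lit 242) (nat_lit 215) (nat_lit 143)) (XT.lf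 (nat_lit 0) (nat_lit 278958769308) (nat_lit 152) (nat_lit 194433688196) (nat_lit 0) (nat_lit 199034256882) (nat_lit 2) (nat_lit 5) (nat_lit 4) (nat_lit 4) (nat_lit 2) (nat_lit 4) (nat_lit 243) (nat_lit 215) (nat_lit 142))) (XT.nd (nat_lit 78) (nat_lit 0) (nat_lit 0) (XT.lf (nat_lit 0) (nat_lit 339213076046) (nat_lit 152) (nat_lit 169929777665) (nat_lit 0) (nat_lit 259288177123) (nat_lit 2) (nat_lit 5) (nat_lit 4) (nat_lit 4) (nat_lit 2) (nat_lit 4) (nat_lit 244) (nat_lit 215) (nat_lit 141)) (XT.lf (nat_lit 0) (nat_lit 408505253987) (nat_lit 152) (nat_lit 141750765714) (nat_lit 0) (nat_lit 328580018979) (nat_lit 2) (nat_lit 5) (nat_lit 4) (nat_lit 4) (nat_lit 2) (nat_lit 4) (nat_lit 245) (nat_lit 215) (nat_lit 140))))))) (XT.nd (nat_lit 1248) (nat_lit 0) (nat_lit 0) (XT.nd (nat_lit 624) (nat_lit 0) (nat_lit 0) (XT.nd (nat_lit 312) (nat_lit 0) (nat_lit 0) (XT.nd (nat_lit 156) (nat_lit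 76) (nat_lit 0) (XT.nd (nat_lit 78) (nat_lit 0) (nat_lit 0) (XT.lf (nat_lit 0) (nat_lit 488191019656) (nat_lit 152) (nat_lit 109345323849) (nat_lit 0) (nat_lit 408265492400) (nat_lit 2) (nat_lit 5) (nat_lit 4) (nat_lit 4) (nat_lit 2) (nat_lit 4) (nat_lit 246) (nat_lit 215) (nat_lit 139)) (XT.lf (nat_lit 0) (nat_lit 579829442381) (nat_lit 152) (nat_lit 72079432555) (nat_lit 0) (nat_lit 499903660995) (nat_lit 2) (nat_lit 5) (nat_lit 4) (nat_lit 4) (nat_lit 2) (nat_lit 4) (nat_lit 247) (nat_lit 215) (nat_lit 138))) (XT.nd (nat_lit 78) (nat_lit 76) (nat_lit 0) (XT.lf (nat_lit 0) (nat_lit 685213447823) (nat_lit 152) (nat_lit 29223976567) (nat_lit 0) (nat_lit 605287445456) (nat_lit 2) (nat_lit 5) (nat_lit 4) (nat_lit 4) (nat_lit 2) (nat_lit 4) (nat_lit 248) (nat_lit 215) (nat_lit 137)) (XT.lf (nat_lit 0) (nat_lit 22019882650) (nat_lit 76) (nat_lit 785296810692) (nat_lit 76) (nat_lit 705370616167)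 (nat_lit 1) (nat_lit 4) (nat_lit 2) (nat_lit 5) (nat_lit 2) (nat_lit 4) (nat_lit 249) (nat_lit 215) (nat_lit 136)))) (XT.nd (nat_lit 156) (nat_lit 0) (nat_lit 0) (XT.nd (nat_lit 78) (nat_lit 0) (nat_lit 0) (XT.lf (nat_lit 0) (nat_lit 84234432425) (nat_lit 76) (nat_lit 865028462629) (nat_lit 76) (nat_lit 785102101010) (nat_lit 1) (nat_lit 4) (nat_lit 2) (nat_lit 5) (nat_lit 2) (nat_lit 4) (nat_lit 250) (nat_lit 215) (nat_lit 135)) (XT.lf (nat_lit 0) (nat_lit 155780934421) (nat_lit 76) (nat_lit 956719964261) (nat_lit 76) (nat_lit 876793457344) (nat_lit 1) (nat_lit 4) (nat_lit 2) (nat_lit 5) (nat_lit 2) (nat_lit 4) (nat_lit 251) (nat_lit 215) (nat_lit 134))) (XT.nd (nat_lit 78) (nat_lit 0) (nat_lit 0) (XT.lf (nat_lit 0) (nat_lit 238059211502) (nat_lit 76) (nat_lit 1062165279751) (nat_lit 76) (nat_lit 982238646487) (nat_lit 1) (nat_lit 4) (nat_lit 2) (nat_lit 5) (nat_lit 2) (nat_lit 4)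 (nat_lit 252) (nat_lit 215) (nat_lit 133)) (XT.lf (nat_lit 0) (nat_lit 332679056046) (nat_lit 76) (nat_lit 1183427469619) (nat_lit 76) (nat_lit 1103500726488) (nat_lit 1) (nat_lit 4) (nat_lit 2) (nat_lit 5) (nat_lit 2) (nat_lit 4) (nat_lit 253) (nat_lit 215) (nat_lit 132))))) (XT.nd (nat_lit 312) (nat_lit 0) (nat_lit 0) (XT.nd (nat_lit 156) (nat_lit 0) (nat_lit 0) (XT.nd (nat_lit 78) (nat_lit 0) (nat_lit 0) (XT.lf (nat_lit 0) (nat_lit 441491725880) (nat_lit 76) (nat_lit 1322879054971) (nat_lit 76) (nat_lit 1242952216304) (nat_lit 1) (nat_lit 4) (nat_lit 2) (nat_lit 5) (nat_lit 2) (nat_lit 4) (nat_lit 254) (nat_lit 215) (nat_lit 131)) (XT.lf (nat_lit 0) (nat_lit 566626164547) (nat_lit 76) (nat_lit 1483248436391) (nat_lit 76) (nat_lit 1403321514649) (nat_lit 1) (nat_lit 4) (nat_lit 2) (nat_lit 5) (nat_lit 2) (nat_lit 4) (nat_lit 255) (nat_lit 215) (nat_lit 130))) (XT.nd (nat_lit 78)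 (nat_lit 0) (nat_lit 0) (XT.lf (nat_lit 0) (nat_lit 710530654540) (nat_lit 76) (nat_lit 1667673275689) (nat_lit 76) (nat_lit 1587746281707) (nat_lit 1) (nat_lit 4) (nat_lit 2) (nat_lit 5) (nat_lit 2) (nat_lit 4) (nat_lit 256) (nat_lit 215) (nat_lit 129)) (XT.lf (nat_lit 0) (nat_lit 876020718490) (nat_lit 76) (nat_lit 1879761884937) (nat_lit 76) (nat_lit 1799834828139) (nat_lit 1) (nat_lit 4) (nat_lit 2) (nat_lit 5) (nat_lit 2) (nat_lit 4) (nat_lit 257) (nat_lit 215) (nat_lit 128)))) (XT.nd (nat_lit 156) (nat_lit 0) (nat_lit 0) (XT.nd (nat_lit 78) (nat_lit 0) (nat_lit 0) (XT.lf (nat_lit 0) (nat_lit 1066334205475) (nat_lit 76) (nat_lit 2123663823883) (nat_lit 76) (nat_lit 2043736712461) (nat_lit 1) (nat_lit 4) (nat_lit 2) (nat_lit 5) (nat_lit 2) (nat_lit 4) (nat_lit 258) (nat_lit 215) (nat_lit 127)) (XT.lf (nat_lit 0) (nat_lit 1285194640240) (nat_lit 76) (nat_lit 2404151086983) (nat_lit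 76) (nat_lit 2324223928063) (nat_lit 1) (nat_lit 4) (nat_lit 2) (nat_lit 5) (nat_lit 2) (nat_lit 4) (nat_lit 259) (nat_lit 215) (nat_lit 126))) (XT.nd (nat_lit 78) (nat_lit 0) (nat_lit 0) (XT.lf (nat_lit 0) (nat_lit 1536884074769) (nat_lit 76) (nat_lit 2726711468516) (nat_lit 76) (nat_lit 2646784268293) (nat_lit 1) (nat_lit 4) (nat_lit 2) (nat_lit 5) (nat_lit 2) (nat_lit 4) (nat_lit 260) (nat_lit 215) (nat_lit 125)) (XT.lf (nat_lit 0) (nat_lit 1826326867564) (nat_lit 76) (nat_lit 3097655932468) (nat_lit 76) (nat_lit 3017728696330) (nat_lit 1) (nat_lit 4) (nat_lit 2) (nat_lit 5) (nat_lit 2) (nat_lit 4) (nat_lit 261) (nat_lit 215) (nat_lit 124)))))) (XT.nd (nat_lit 624) (nat_lit 0) (nat_lit 0) (XT.nd (nat_lit 312) (nat_lit 0) (nat_lit 0) (XT.nd (nat_lit 156) (nat_lit 0) (nat_lit 0) (XT.nd (nat_lit 78) (nat_lit 0) (nat_lit 0) (XT.lf (nat_lit 0) (nat_lit 2159186029789) (nat_lit 76) (nat_lit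 3524242087917) (nat_lit 76) (nat_lit 3444314820548) (nat_lit 1) (nat_lit 4) (nat_lit 2) (nat_lit 5) (nat_lit 2) (nat_lit 4) (nat_lit 262) (nat_lit 215) (nat_lit 123)) (XT.lf (nat_lit 0) (nat_lit 2541974023313) (nat_lit 76) (nat_lit 4014816185731) (nat_lit 76) (nat_lit 3934888891204) (nat_lit 1) (nat_lit 4) (nat_lit 2) (nat_lit 5) (nat_lit 2) (nat_lit 4) (nat_lit 263) (nat_lit 215) (nat_lit 122))) (XT.nd (nat_lit 78) (nat_lit 0) (nat_lit 0) (XT.lf (nat_lit 0) (nat_lit 2982180178444) (nat_lit 76) (nat_lit 4578976414778) (nat_lit 76) (nat_lit 4499049096636) (nat_lit 1) (nat_lit 4) (nat_lit 2) (nat_lit 5) (nat_lit 2) (nat_lit 4) (nat_lit 264) (nat_lit 215) (nat_lit 121)) (XT.lf (nat_lit 0) (nat_lit 3488417224304) (nat_lit 76) (nat_lit 5227760692585) (nat_lit 76) (nat_lit 5147833353908) (nat_lit 1) (nat_lit 4) (nat_lit 2) (nat_lit 5) (nat_lit 2) (nat_lit 4) (nat_lit 265) (nat_lit 215)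 (nat_lit 120)))) (XT.nd (nat_lit 156) (nat_lit 0) (nat_lit 0) (XT.nd (nat_lit 78) (nat_lit 0) (nat_lit 0) (XT.lf (nat_lit 0) (nat_lit 4070589798747) (nat_lit 76) (nat_lit 5973862624586) (nat_lit 76) (nat_lit 5893935268053) (nat_lit 1) (nat_lit 4) (nat_lit 2) (nat_lit 5) (nat_lit 2) (nat_lit 4) (nat_lit 266) (nat_lit 215) (nat_lit 119)) (XT.lf (nat_lit 0) (nat_lit 4740088234752) (nat_lit 76) (nat_lit 6831879857277) (nat_lit 76) (nat_lit 6751952485217) (nat_lit 1) (nat_lit 4) (nat_lit 2) (nat_lit 5) (nat_lit 2) (nat_lit 4) (nat_lit 267) (nat_lit 215) (nat_lit 118))) (XT.nd (nat_lit 78) (nat_lit 0) (nat_lit 0) (XT.lf (nat_lit 0) (nat_lit 5510011414761) (nat_lit 76) (nat_lit 7818599684342) (nat_lit 76) (nat_lit 7738672298779) (nat_lit 1) (nat_lit 4) (nat_lit 2) (nat_lit 5) (nat_lit 2) (nat_lit 4) (nat_lit 268) (nat_lit 215) (nat_lit 117)) (XT.lf (nat_lit 0) (nat_lit 6395423053167) (nat_lit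 76) (nat_lit 8953327493701) (nat_lit 76) (nat_lit 8873400096398) (nat_lit 1) (nat_lit 4) (nat_lit 2) (nat_lit 5) (nat_lit 2) (nat_lit 4) (nat_lit 269) (nat_lit 215) (nat_lit 116))))) (XT.nd (nat_lit 390) (nat_lit 0) (nat_lit 0) (XT.nd (nat_lit 156) (nat_lit 0) (nat_lit 0) (XT.nd (nat_lit 78) (nat_lit 0) (nat_lit 0) (XT.lf (nat_lit 0) (nat_lit 7413646421155) (nat_lit 76) (nat_lit 10258264481624) (nat_lit 76) (nat_lit 10178337074111) (nat_lit 1) (nat_lit 4) (nat_lit 2) (nat_lit 5) (nat_lit 2) (nat_lit 4) (nat_lit 270) (nat_lit 215) (nat_lit 115)) (XT.lf (nat_lit 0) (nat_lit 8584603280274) (nat_lit 76) (nat_lit 11758942023962) (nat_lit 76) (nat_lit 11679014607571) (nat_lit 1) (nat_lit 4) (nat_lit 2) (nat_lit 5) (nat_lit 2) (nat_lit 4) (nat_lit 271) (nat_lit 215) (nat_lit 114))) (XT.nd (nat_lit 78) (nat_lit 0) (nat_lit 0) (XT.lf (nat_lit 0) (nat_lit 9931203656027) (nat_lit 76) (nat_lit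 13484721203066) (nat_lit 76) (nat_lit 13404793778955) (nat_lit 1) (nat_lit 4) (nat_lit 2) (nat_lit 5) (nat_lit 2) (nat_lit 4) (nat_lit 272) (nat_lit 215) (nat_lit 113)) (XT.lf (nat_lit 0) (nat_lit 11479794077505) (nat_lit 76) (nat_lit 15469367263742) (nat_lit 76) (nat_lit 15389439832918) (nat_lit 1) (nat_lit 4) (nat_lit 2) (nat_lit 5) (nat_lit 2) (nat_lit 4) (nat_lit 273) (nat_lit 215) (nat_lit 112)))) (XT.nd (nat_lit 156) (nat_lit 0) (nat_lit 0) (XT.nd (nat_lit 78) (nat_lit 0) (nat_lit 0) (XT.lf (nat_lit 0) (nat_lit 15308683866680) (nat_lit 76) (nat_lit 20376404661127) (nat_lit 76) (nat_lit 20296477219390) (nat_lit 1) (nat_lit 4) (nat_lit 2) (nat_lit 5) (nat_lit 2) (nat_lit 4) (nat_lit 275) (nat_lit 215) (nat_lit 110)) (XT.lf (nat_lit 0) (nat_lit 17663896295469) (nat_lit 76) (nat_lit 23394803251263) (nat_lit 76) (nat_lit 23314875805112) (nat_lit 1) (nat_lit 4) (nat_lit 2) (nat_lit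 5) (nat_lit 2) (nat_lit 4) (nat_lit 276) (nat_lit 215) (nat_lit 109))) (XT.nd (nat_lit 26520) (nat_lit 0) (nat_lit 836) (XT.lf (nat_lit 0) (nat_lit 20372390582494) (nat_lit 76) (nat_lit 26865961632610) (nat_lit 76) (nat_lit 26786034182621) (nat_lit 1) (nat_lit 4) (nat_lit 2) (nat_lit 5) (nat_lit 2) (nat_lit 4) (nat_lit 277) (nat_lit 215) (nat_lit 108)) (XT.lf (nat_lit 0) (nat_lit 6429194283) (nat_lit 0) (nat_lit 6429194283) (nat_lit 228) (nat_lit 6487654944) (nat_lit 12) (nat_lit 5) (nat_lit 12) (nat_lit 3) (nat_lit 15) (nat_lit 3) (nat_lit 216) (nat_lit 216) (nat_lit 168))))))))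
noncomputable def xc45 : XT := (XT.nd (nat_lit 2496) (nat_lit 76) (nat_lit 0) (XT.nd (nat_lit 1248) (nat_lit 228) (nat_lit 0) (XT.nd (nat_lit 624) (nat_lit 228) (nat_lit 0) (XT.nd (nat_lit 312) (nat_lit 304) (nat_lit 0) (XT.nd (nat_lit 156) (nat_lit 0) (nat_lit 0) (XT.nd (nat_lit 78) (nat_lit 0) (nat_lit 0) (XT.lf (nat_lit 0) (nat_lit 27766881822) (nat_lit 228) (nat_lit 11889813302) (nat_lit 304) (nat_lit 1918334549) (nat_lit 12) (nat_lit 5) (nat_lit 15) (nat_lit 3) (nat_lit 16) (nat_lit 5) (nat_lit 217) (nat_lit 216) (nat_lit 167)) (XT.lf (nat_lit 76) (nat_lit 3874029471) (nat_lit 0) (nat_lit 27017237719) (nat_lit 304) (nat_lit 13884267447) (nat_lit 13) (nat_lit 5) (nat_lit 12) (nat_lit 5) (nat_lit 16) (nat_lit 5) (nat_lit 218) (nat_lit 216) (nat_lit 166))) (XT.nd (nat_lit 78) (nat_lit 0) (nat_lit 76) (XT.lf (nat_lit 76) (nat_lit 23334679252) (nat_lit 0) (nat_lit 11765799665) (nat_lit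 304) (nat_lit 13263329111) (nat_lit 13) (nat_lit 5) (nat_lit 12) (nat_lit 5) (nat_lit 16) (nat_lit 5) (nat_lit 219) (nat_lit 216) (nat_lit 165)) (XT.lf (nat_lit 0) (nat_lit 40175534974) (nat_lit 228) (nat_lit 7019303139) (nat_lit 76) (nat_lit 5260417510) (nat_lit 13) (nat_lit 5) (nat_lit 16) (nat_lit 5) (nat_lit 14) (nat_lit 5) (nat_lit 220) (nat_lit 216) (nat_lit 164)))) (XT.nd (nat_lit 156) (nat_lit 152) (nat_lit 0) (XT.nd (nat_lit 78) (nat_lit 0) (nat_lit 0) (XT.lf (nat_lit 0) (nat_lit 14410899938) (nat_lit 228) (nat_lit 32753950562) (nat_lit 304) (nat_lit 9822708898) (nat_lit 10) (nat_lit 5) (nat_lit 13) (nat_lit 5) (nat_lit 14) (nat_lit 5) (nat_lit 221) (nat_lit 216) (nat_lit 163)) (XT.lf (nat_lit 0) (nat_lit 39840900971) (nat_lit 228) (nat_lit 15724953124) (nat_lit 304) (nat_lit 6579438599) (nat_lit 10) (nat_lit 5) (nat_lit 13) (nat_lit 5) (nat_lit 14) (nat_lit 5) (nat_lit 222)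 (nat_lit 216) (nat_lit 162))) (XT.nd (nat_lit 78) (nat_lit 76) (nat_lit 0) (XT.lf (nat_lit 0) (nat_lit 927876940) (nat_lit 76) (nat_lit 64494167071) (nat_lit 152) (nat_lit 2625454054) (nat_lit 9) (nat_lit 5) (nat_lit 10) (nat_lit 5) (nat_lit 11) (nat_lit 4) (nat_lit 223) (nat_lit 216) (nat_lit 161)) (XT.lf (nat_lit 0) (nat_lit 3717711365) (nat_lit 152) (nat_lit 45396211642) (nat_lit 76) (nat_lit 25414152682) (nat_lit 8) (nat_lit 5) (nat_lit 10) (nat_lit 5) (nat_lit 9) (nat_lit 5) (nat_lit 224) (nat_lit 216) (nat_lit 160))))) (XT.nd (nat_lit 312) (nat_lit 76) (nat_lit 0) (XT.nd (nat_lit 156) (nat_lit 0) (nat_lit 0) (XT.nd (nat_lit 78) (nat_lit 152) (nat_lit 0) (XT.lf (nat_lit 0) (nat_lit 10740878203) (nat_lit 152) (nat_lit 20542670694) (nat_lit 76) (nat_lit 50678883703) (nat_lit 8) (nat_lit 5) (nat_lit 10) (nat_lit 5) (nat_lit 9) (nat_lit 5) (nat_lit 225) (nat_lit 216) (nat_lit 159))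 (XT.lf (nat_lit 0) (nat_lit 8821315622) (nat_lit 152) (nat_lit 10359148565) (nat_lit 228) (nat_lit 71277075804) (nat_lit 6) (nat_lit 5) (nat_lit 8) (nat_lit 5) (nat_lit 9) (nat_lit 5) (nat_lit 226) (nat_lit 216) (nat_lit 158))) (XT.nd (nat_lit 78) (nat_lit 0) (nat_lit 0) (XT.lf (nat_lit 0) (nat_lit 30576227223) (nat_lit 228) (nat_lit 55788923638) (nat_lit 76) (nat_lit 13608260291) (nat_lit 6) (nat_lit 5) (nat_lit 9) (nat_lit 5) (nat_lit 7) (nat_lit 4) (nat_lit 227) (nat_lit 216) (nat_lit 157)) (XT.lf (nat_lit 0) (nat_lit 44172763689) (nat_lit 228) (nat_lit 26560529442) (nat_lit 76) (nat_lit 40109687669) (nat_lit 6) (nat_lit 5) (nat_lit 9) (nat_lit 5) (nat_lit 7) (nat_lit 4) (nat_lit 228) (nat_lit 216) (nat_lit 156)))) (XT.nd (nat_lit 156) (nat_lit 0) (nat_lit 0) (XT.nd (nat_lit 78) (nat_lit 0) (nat_lit 0) (XT.lf (nat_lit 0) (nat_lit 7738722989) (nat_lit 76) (nat_lit 52388863552) (nat_lit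 152) (nat_lit 63167603824) (nat_lit 5) (nat_lit 5) (nat_lit 6) (nat_lit 5) (nat_lit 7) (nat_lit 4) (nat_lit 229) (nat_lit 216) (nat_lit 155)) (XT.lf (nat_lit 0) (nat_lit 50165656148) (nat_lit 76) (nat_lit 29696850448) (nat_lit 152) (nat_lit 57544715752) (nat_lit 5) (nat_lit 5) (nat_lit 6) (nat_lit 5) (nat_lit 7) (nat_lit 4) (nat_lit 230) (nat_lit 216) (nat_lit 154))) (XT.nd (nat_lit 78) (nat_lit 0) (nat_lit 0) (XT.lf (nat_lit 0) (nat_lit 98954674100) (nat_lit 76) (nat_lit 3601670960) (nat_lit 152) (nat_lit 51079931180) (nat_lit 5) (nat_lit 5) (nat_lit 6) (nat_lit 5) (nat_lit 7) (nat_lit 4) (nat_lit 231) (nat_lit 216) (nat_lit 153)) (XT.lf (nat_lit 0) (nat_lit 129746579012) (nat_lit 152) (nat_lit 18332999619) (nat_lit 0) (nat_lit 24056278299) (nat_lit 5) (nat_lit 5) (nat_lit 7) (nat_lit 4) (nat_lit 5) (nat_lit 4) (nat_lit 232) (nat_lit 216) (nat_lit 152)))))) (XT.nd (nat_lit 624) (nat_lit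 0) (nat_lit 0) (XT.nd (nat_lit 312) (nat_lit 76) (nat_lit 0) (XT.nd (nat_lit 156) (nat_lit 76) (nat_lit 0) (XT.nd (nat_lit 78) (nat_lit 0) (nat_lit 0) (XT.lf (nat_lit 0) (nat_lit 25571296078) (nat_lit 76) (nat_lit 136673395252) (nat_lit 76) (nat_lit 30981296400) (nat_lit 4) (nat_lit 4) (nat_lit 5) (nat_lit 5) (nat_lit 5) (nat_lit 4) (nat_lit 233) (nat_lit 216) (nat_lit 151)) (XT.lf (nat_lit 0) (nat_lit 78120066385) (nat_lit 76) (nat_lit 122454820903) (nat_lit 76) (nat_lit 16761158451) (nat_lit 4) (nat_lit 4) (nat_lit 5) (nat_lit 5) (nat_lit 5) (nat_lit 4) (nat_lit 234) (nat_lit 216) (nat_lit 150))) (XT.nd (nat_lit 78) (nat_lit 76) (nat_lit 0) (XT.lf (nat_lit 0) (nat_lit 138549805360) (nat_lit 76) (nat_lit 106103981975) (nat_lit 76) (nat_lit 408959871) (nat_lit 4) (nat_lit 4) (nat_lit 5) (nat_lit 5) (nat_lit 5) (nat_lit 4) (nat_lit 235) (nat_lit 216) (nat_lit 149)) (XT.lf (nat_lit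 0) (nat_lit 16757562754) (nat_lit 152) (nat_lit 69667444488) (nat_lit 76) (nat_lit 190409307723) (nat_lit 3) (nat_lit 5) (nat_lit 5) (nat_lit 5) (nat_lit 4) (nat_lit 4) (nat_lit 236) (nat_lit 216) (nat_lit 148)))) (XT.nd (nat_lit 156) (nat_lit 0) (nat_lit 0) (XT.nd (nat_lit 78) (nat_lit 76) (nat_lit 0) (XT.lf (nat_lit 0) (nat_lit 36456532756) (nat_lit 152) (nat_lit 27315687074) (nat_lit 76) (nat_lit 249596583320) (nat_lit 3) (nat_lit 5) (nat_lit 5) (nat_lit 5) (nat_lit 4) (nat_lit 4) (nat_lit 237) (nat_lit 216) (nat_lit 147)) (XT.lf (nat_lit 0) (nat_lit 23478065649) (nat_lit 76) (nat_lit 36603884185) (nat_lit 152) (nat_lit 295155780761) (nat_lit 2) (nat_lit 5) (nat_lit 3) (nat_lit 5) (nat_lit 4) (nat_lit 4) (nat_lit 238) (nat_lit 216) (nat_lit 146))) (XT.nd (nat_lit 78) (nat_lit 0) (nat_lit 0) (XT.lf (nat_lit 0) (nat_lit 84959887056) (nat_lit 76) (nat_lit 3718620356) (nat_lit 152)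 (nat_lit 314494396004) (nat_lit 2) (nat_lit 5) (nat_lit 3) (nat_lit 5) (nat_lit 4) (nat_lit 4) (nat_lit 239) (nat_lit 216) (nat_lit 145)) (XT.lf (nat_lit 0) (nat_lit 122976052790) (nat_lit 152) (nat_lit 304047203839) (nat_lit 0) (nat_lit 31063374644) (nat_lit 2) (nat_lit 5) (nat_lit 4) (nat_lit 4) (nat_lit 2) (nat_lit 4) (nat_lit 240) (nat_lit 216) (nat_lit 144))))) (XT.nd (nat_lit 312) (nat_lit 0) (nat_lit 0) (XT.nd (nat_lit 156) (nat_lit 0) (nat_lit 0) (XT.nd (nat_lit 78) (nat_lit 0) (nat_lit 0) (XT.lf (nat_lit 0) (nat_lit 162594889187) (nat_lit 152) (nat_lit 287934334467) (nat_lit 0) (nat_lit 70681699897) (nat_lit 2) (nat_lit 5) (nat_lit 4) (nat_lit 4) (nat_lit 2) (nat_lit 4) (nat_lit 241) (nat_lit 216) (nat_lit 143)) (XT.lf (nat_lit 0) (nat_lit 208156187608) (nat_lit 152) (nat_lit 269405176313) (nat_lit 0) (nat_lit 116242553846) (nat_lit 2) (nat_lit 5) (nat_lit 4) (nat_lit 4)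 (nat_lit 2) (nat_lit 4) (nat_lit 242) (nat_lit 216) (nat_lit 142))) (XT.nd (nat_lit 78) (nat_lit 0) (nat_lit 0) (XT.lf (nat_lit 0) (nat_lit 260551364764) (nat_lit 152) (nat_lit 248097202370) (nat_lit 0) (nat_lit 168637344504) (nat_lit 2) (nat_lit 5) (nat_lit 4) (nat_lit 4) (nat_lit 2) (nat_lit 4) (nat_lit 243) (nat_lit 216) (nat_lit 141)) (XT.lf (nat_lit 0) (nat_lit 320805543685) (nat_lit 152) (nat_lit 223593517495) (nat_lit 0) (nat_lit 228891187340) (nat_lit 2) (nat_lit 5) (nat_lit 4) (nat_lit 4) (nat_lit 2) (nat_lit 4) (nat_lit 244) (nat_lit 216) (nat_lit 140)))) (XT.nd (nat_lit 156) (nat_lit 0) (nat_lit 0) (XT.nd (nat_lit 78) (nat_lit 0) (nat_lit 0) (XT.lf (nat_lit 0) (nat_lit 390097610480) (nat_lit 152) (nat_lit 195414701767) (nat_lit 0) (nat_lit 298182961887) (nat_lit 2) (nat_lit 5) (nat_lit 4) (nat_lit 4) (nat_lit 2) (nat_lit 4) (nat_lit 245) (nat_lit 216) (nat_lit 139)) (XT.lf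 (nat_lit 0) (nat_lit 469783279500) (nat_lit 152) (nat_lit 163009430530) (nat_lit 0) (nat_lit 377868376779) (nat_lit 2) (nat_lit 5) (nat_lit 4) (nat_lit 4) (nat_lit 2) (nat_lit 4) (nat_lit 246) (nat_lit 216) (nat_lit 138))) (XT.nd (nat_lit 78) (nat_lit 0) (nat_lit 0) (XT.lf (nat_lit 0) (nat_lit 561421618183) (nat_lit 152) (nat_lit 125743687608) (nat_lit 0) (nat_lit 469506494479) (nat_lit 2) (nat_lit 5) (nat_lit 4) (nat_lit 4) (nat_lit 2) (nat_lit 4) (nat_lit 247) (nat_lit 216) (nat_lit 137)) (XT.lf (nat_lit 0) (nat_lit 666805550545) (nat_lit 152) (nat_lit 82888360639) (nat_lit 0) (nat_lit 574890234684) (nat_lit 2) (nat_lit 5) (nat_lit 4) (nat_lit 4) (nat_lit 2) (nat_lit 4) (nat_lit 248) (nat_lit 216) (nat_lit 136))))))) (XT.nd (nat_lit 1248) (nat_lit 0) (nat_lit 0) (XT.nd (nat_lit 624) (nat_lit 0) (nat_lit 0) (XT.nd (nat_lit 312) (nat_lit 0) (nat_lit 0) (XT.nd (nat_lit 156) (nat_lit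 0) (nat_lit 0) (XT.nd (nat_lit 78) (nat_lit 76) (nat_lit 0) (XT.lf (nat_lit 0) (nat_lit 787996936133) (nat_lit 152) (nat_lit 33604975836) (nat_lit 0) (nat_lit 696081453179) (nat_lit 2) (nat_lit 5) (nat_lit 4) (nat_lit 4) (nat_lit 2) (nat_lit 4) (nat_lit 249) (nat_lit 216) (nat_lit 135)) (XT.lf (nat_lit 0) (nat_lit 25325344209) (nat_lit 76) (nat_lit 903090235041) (nat_lit 76) (nat_lit 811174606787) (nat_lit 1) (nat_lit 4) (nat_lit 2) (nat_lit 5) (nat_lit 2) (nat_lit 4) (nat_lit 250) (nat_lit 216) (nat_lit 134))) (XT.nd (nat_lit 78) (nat_lit 0) (nat_lit 0) (XT.lf (nat_lit 0) (nat_lit 96871753082) (nat_lit 76) (nat_lit 994781777888) (nat_lit 76) (nat_lit 902866023288) (nat_lit 1) (nat_lit 4) (nat_lit 2) (nat_lit 5) (nat_lit 2) (nat_lit 4) (nat_lit 251) (nat_lit 216) (nat_lit 133)) (XT.lf (nat_lit 0) (nat_lit 179149949186) (nat_lit 76) (nat_lit 1100227129217) (nat_lit 76) (nat_lit 1008311264750)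 (nat_lit 1) (nat_lit 4) (nat_lit 2) (nat_lit 5) (nat_lit 2) (nat_lit 4) (nat_lit 252) (nat_lit 216) (nat_lit 132)))) (XT.nd (nat_lit 156) (nat_lit 0) (nat_lit 0) (XT.nd (nat_lit 78) (nat_lit 0) (nat_lit 0) (XT.lf (nat_lit 0) (nat_lit 273769723316) (nat_lit 76) (nat_lit 1221489350250) (nat_lit 76) (nat_lit 1129573390247) (nat_lit 1) (nat_lit 4) (nat_lit 2) (nat_lit 5) (nat_lit 2) (nat_lit 4) (nat_lit 253) (nat_lit 216) (nat_lit 131)) (XT.lf (nat_lit 0) (nat_lit 382582331921) (nat_lit 76) (nat_lit 1360940962702) (nat_lit 76) (nat_lit 1269024919624) (nat_lit 1) (nat_lit 4) (nat_lit 2) (nat_lit 5) (nat_lit 2) (nat_lit 4) (nat_lit 254) (nat_lit 216) (nat_lit 130))) (XT.nd (nat_lit 78) (nat_lit 0) (nat_lit 0) (XT.lf (nat_lit 0) (nat_lit 507716717344) (nat_lit 76) (nat_lit 1521310367687) (nat_lit 76) (nat_lit 1429394252369) (nat_lit 1) (nat_lit 4) (nat_lit 2) (nat_lit 5) (nat_lit 2) (nat_lit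 4) (nat_lit 255) (nat_lit 216) (nat_lit 129)) (XT.lf (nat_lit 0) (nat_lit 651621161038) (nat_lit 76) (nat_lit 1705735227476) (nat_lit 76) (nat_lit 1613819049341) (nat_lit 1) (nat_lit 4) (nat_lit 2) (nat_lit 5) (nat_lit 2) (nat_lit 4) (nat_lit 256) (nat_lit 216) (nat_lit 128))))) (XT.nd (nat_lit 312) (nat_lit 0) (nat_lit 0) (XT.nd (nat_lit 156) (nat_lit 0) (nat_lit 0) (XT.nd (nat_lit 78) (nat_lit 0) (nat_lit 0) (XT.lf (nat_lit 0) (nat_lit 817111184729) (nat_lit 76) (nat_lit 1917823854543) (nat_lit 76) (nat_lit 1825907621785) (nat_lit 1) (nat_lit 4) (nat_lit 2) (nat_lit 5) (nat_lit 2) (nat_lit 4) (nat_lit 257) (nat_lit 216) (nat_lit 127)) (XT.lf (nat_lit 0) (nat_lit 1007424636706) (nat_lit 76) (nat_lit 2161725808983) (nat_lit 76) (nat_lit 2069809528727) (nat_lit 1) (nat_lit 4) (nat_lit 2) (nat_lit 5) (nat_lit 2) (nat_lit 4) (nat_lit 258) (nat_lit 216) (nat_lit 126))) (XT.nd (nat_lit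 78) (nat_lit 0) (nat_lit 0) (XT.lf (nat_lit 0) (nat_lit 1226285041029) (nat_lit 76) (nat_lit 2442213085557) (nat_lit 76) (nat_lit 2350296763997) (nat_lit 1) (nat_lit 4) (nat_lit 2) (nat_lit 5) (nat_lit 2) (nat_lit 4) (nat_lit 259) (nat_lit 216) (nat_lit 125)) (XT.lf (nat_lit 0) (nat_lit 1477974449086) (nat_lit 76) (nat_lit 2764773478806) (nat_lit 76) (nat_lit 2672857121331) (nat_lit 1) (nat_lit 4) (nat_lit 2) (nat_lit 5) (nat_lit 2) (nat_lit 4) (nat_lit 260) (nat_lit 216) (nat_lit 124)))) (XT.nd (nat_lit 156) (nat_lit 0) (nat_lit 0) (XT.nd (nat_lit 78) (nat_lit 0) (nat_lit 0) (XT.lf (nat_lit 0) (nat_lit 1767417218863) (nat_lit 76) (nat_lit 3135717952946) (nat_lit 76) (nat_lit 3043801564240) (nat_lit 1) (nat_lit 4) (nat_lit 2) (nat_lit 5) (nat_lit 2) (nat_lit 4) (nat_lit 261) (nat_lit 216) (nat_lit 123)) (XT.lf (nat_lit 0) (nat_lit 2100276361072) (nat_lit 76) (nat_lit 3562304117254)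 (nat_lit 76) (nat_lit 3470387701390) (nat_lit 1) (nat_lit 4) (nat_lit 2) (nat_lit 5) (nat_lit 2) (nat_lit 4) (nat_lit 262) (nat_lit 216) (nat_lit 122))) (XT.nd (nat_lit 78) (nat_lit 0) (nat_lit 0) (XT.lf (nat_lit 0) (nat_lit 2483064337190) (nat_lit 76) (nat_lit 4052878222770) (nat_lit 76) (nat_lit 3960961783292) (nat_lit 1) (nat_lit 4) (nat_lit 2) (nat_lit 5) (nat_lit 2) (nat_lit 4) (nat_lit 263) (nat_lit 216) (nat_lit 121)) (XT.lf (nat_lit 0) (nat_lit 2923270477186) (nat_lit 76) (nat_lit 4617038458517) (nat_lit 76) (nat_lit 4525121998503) (nat_lit 1) (nat_lit 4) (nat_lit 2) (nat_lit 5) (nat_lit 2) (nat_lit 4) (nat_lit 264) (nat_lit 216) (nat_lit 120)))))) (XT.nd (nat_lit 624) (nat_lit 0) (nat_lit 0) (XT.nd (nat_lit 312) (nat_lit 0) (nat_lit 0) (XT.nd (nat_lit 156) (nat_lit 0) (nat_lit 0) (XT.nd (nat_lit 78) (nat_lit 0) (nat_lit 0) (XT.lf (nat_lit 0) (nat_lit 3429507509885) (nat_lit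 76) (nat_lit 5265822742148) (nat_lit 76) (nat_lit 5173906264278) (nat_lit 1) (nat_lit 4) (nat_lit 2) (nat_lit 5) (nat_lit 2) (nat_lit 4) (nat_lit 265) (nat_lit 216) (nat_lit 119)) (XT.lf (nat_lit 0) (nat_lit 4011680072884) (nat_lit 76) (nat_lit 6011924679215) (nat_lit 76) (nat_lit 5920008185817) (nat_lit 1) (nat_lit 4) (nat_lit 2) (nat_lit 5) (nat_lit 2) (nat_lit 4) (nat_lit 266) (nat_lit 216) (nat_lit 118))) (XT.nd (nat_lit 78) (nat_lit 0) (nat_lit 0) (XT.lf (nat_lit 0) (nat_lit 4681178498937) (nat_lit 76) (nat_lit 6869941916311) (nat_lit 76) (nat_lit 6778025409411) (nat_lit 1) (nat_lit 4) (nat_lit 2) (nat_lit 5) (nat_lit 2) (nat_lit 4) (nat_lit 267) (nat_lit 216) (nat_lit 117)) (XT.lf (nat_lit 0) (nat_lit 5451101670293) (nat_lit 76) (nat_lit 7856661747205) (nat_lit 76) (nat_lit 7764745228565) (nat_lit 1) (nat_lit 4) (nat_lit 2) (nat_lit 5) (nat_lit 2) (nat_lit 4) (nat_lit 268) (nat_lit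 216) (nat_lit 116)))) (XT.nd (nat_lit 156) (nat_lit 0) (nat_lit 0) (XT.nd (nat_lit 78) (nat_lit 0) (nat_lit 0) (XT.lf (nat_lit 0) (nat_lit 6336513301174) (nat_lit 76) (nat_lit 8991389559895) (nat_lit 76) (nat_lit 8899473031045) (nat_lit 1) (nat_lit 4) (nat_lit 2) (nat_lit 5) (nat_lit 2) (nat_lit 4) (nat_lit 269) (nat_lit 216) (nat_lit 115)) (XT.lf (nat_lit 0) (nat_lit 7354736662619) (nat_lit 76) (nat_lit 10296326550714) (nat_lit 76) (nat_lit 10204410012986) (nat_lit 1) (nat_lit 4) (nat_lit 2) (nat_lit 5) (nat_lit 2) (nat_lit 4) (nat_lit 270) (nat_lit 216) (nat_lit 114))) (XT.nd (nat_lit 78) (nat_lit 0) (nat_lit 0) (XT.lf (nat_lit 0) (nat_lit 8525693516048) (nat_lit 76) (nat_lit 11797004095570) (nat_lit 76) (nat_lit 11705087550123) (nat_lit 1) (nat_lit 4) (nat_lit 2) (nat_lit 5) (nat_lit 2) (nat_lit 4) (nat_lit 271) (nat_lit 216) (nat_lit 113)) (XT.lf (nat_lit 0) (nat_lit 9872293886853)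 (nat_lit 76) (nat_lit 13522783276863) (nat_lit 76) (nat_lit 13430866724703) (nat_lit 1) (nat_lit 4) (nat_lit 2) (nat_lit 5) (nat_lit 2) (nat_lit 4) (nat_lit 272) (nat_lit 216) (nat_lit 112))))) (XT.nd (nat_lit 312) (nat_lit 0) (nat_lit 0) (XT.nd (nat_lit 156) (nat_lit 0) (nat_lit 0) (XT.nd (nat_lit 78) (nat_lit 0) (nat_lit 0) (XT.lf (nat_lit 0) (nat_lit 11420884304030) (nat_lit 76) (nat_lit 15507429339444) (nat_lit 76) (nat_lit 15415512781446) (nat_lit 1) (nat_lit 4) (nat_lit 2) (nat_lit 5) (nat_lit 2) (nat_lit 4) (nat_lit 273) (nat_lit 216) (nat_lit 111)) (XT.lf (nat_lit 0) (nat_lit 13201763275739) (nat_lit 76) (nat_lit 17789772314972) (nat_lit 76) (nat_lit 17697855751898) (nat_lit 1) (nat_lit 4) (nat_lit 2) (nat_lit 5) (nat_lit 2) (nat_lit 4) (nat_lit 274) (nat_lit 216) (nat_lit 110))) (XT.nd (nat_lit 78) (nat_lit 0) (nat_lit 0) (XT.lf (nat_lit 0) (nat_lit 15249774086210) (nat_lit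 76) (nat_lit 20414466739924) (nat_lit 76) (nat_lit 20322550172437) (nat_lit 1) (nat_lit 4) (nat_lit 2) (nat_lit 5) (nat_lit 2) (nat_lit 4) (nat_lit 275) (nat_lit 216) (nat_lit 109)) (XT.lf (nat_lit 0) (nat_lit 17604986512170) (nat_lit 76) (nat_lit 23432865331312) (nat_lit 76) (nat_lit 23340948759987) (nat_lit 1) (nat_lit 4) (nat_lit 2) (nat_lit 5) (nat_lit 2) (nat_lit 4) (nat_lit 276) (nat_lit 216) (nat_lit 108)))) (XT.nd (nat_lit 26676) (nat_lit 0) (nat_lit 836) (XT.nd (nat_lit 26598) (nat_lit 0) (nat_lit 836) (XT.lf (nat_lit 0) (nat_lit 20313480796735) (nat_lit 76) (nat_lit 26904023713748) (nat_lit 76) (nat_lit 26812107139085) (nat_lit 1) (nat_lit 4) (nat_lit 2) (nat_lit 5) (nat_lit 2) (nat_lit 4) (nat_lit 277) (nat_lit 216) (nat_lit 107)) (XT.lf (nat_lit 0) (nat_lit 7409941088) (nat_lit 0) (nat_lit 7409941088) (nat_lit 228) (nat_lit 7422427196) (nat_lit 12) (nat_lit 5) (nat_lit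 12) (nat_lit 3) (nat_lit 15) (nat_lit 3) (nat_lit 217) (nat_lit 217) (nat_lit 166))) (XT.nd (nat_lit 78) (nat_lit 0) (nat_lit 0) (XT.lf (nat_lit 0) (nat_lit 31987666398) (nat_lit 228) (nat_lit 13633831250) (nat_lit 304) (nat_lit 2180153428) (nat_lit 12) (nat_lit 5) (nat_lit 15) (nat_lit 3) (nat_lit 16) (nat_lit 5) (nat_lit 218) (nat_lit 217) (nat_lit 165)) (XT.lf (nat_lit 76) (nat_lit 4492794574) (nat_lit 0) (nat_lit 31082202406) (nat_lit 304) (nat_lit 15908257370) (nat_lit 13) (nat_lit 5) (nat_lit 12) (nat_lit 5) (nat_lit 16) (nat_lit 5) (nat_lit 219) (nat_lit 217) (nat_lit 164))))))))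
noncomputable def xc46 : XT := (XT.nd (nat_lit 2496) (nat_lit 0) (nat_lit 0) (XT.nd (nat_lit 1248) (nat_lit 228) (nat_lit 0) (XT.nd (nat_lit 624) (nat_lit 152) (nat_lit 0) (XT.nd (nat_lit 312) (nat_lit 304) (nat_lit 0) (XT.nd (nat_lit 156) (nat_lit 152) (nat_lit 0) (XT.nd (nat_lit 78) (nat_lit 0) (nat_lit 76) (XT.lf (nat_lit 76) (nat_lit 26867629559) (nat_lit 0) (nat_lit 13541433989) (nat_lit 304) (nat_lit 15201828310) (nat_lit 13) (nat_lit 5) (nat_lit 12) (nat_lit 5) (nat_lit 16) (nat_lit 5) (nat_lit 220) (nat_lit 217) (nat_lit 163)) (XT.lf (nat_lit 0) (nat_lit 46239314841) (nat_lit 228) (nat_lit 8036823371) (nat_lit 76) (nat_lit 6040953133) (nat_lit 13) (nat_lit 5) (nat_lit 16) (nat_lit 5) (nat_lit 14) (nat_lit 5) (nat_lit 221) (nat_lit 217) (nat_lit 162))) (XT.nd (nat_lit 78) (nat_lit 0) (nat_lit 0) (XT.lf (nat_lit 0) (nat_lit 16606302202) (nat_lit 228) (nat_lit 37667238991) (nat_lit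 304) (nat_lit 11256331404) (nat_lit 10) (nat_lit 5) (nat_lit 13) (nat_lit 5) (nat_lit 14) (nat_lit 5) (nat_lit 222) (nat_lit 217) (nat_lit 161)) (XT.lf (nat_lit 0) (nat_lit 45846398963) (nat_lit 228) (nat_lit 18083866392) (nat_lit 304) (nat_lit 7531759755) (nat_lit 10) (nat_lit 5) (nat_lit 13) (nat_lit 5) (nat_lit 14) (nat_lit 5) (nat_lit 223) (nat_lit 217) (nat_lit 160)))) (XT.nd (nat_lit 156) (nat_lit 152) (nat_lit 0) (XT.nd (nat_lit 78) (nat_lit 76) (nat_lit 0) (XT.lf (nat_lit 0) (nat_lit 1099924804) (nat_lit 76) (nat_lit 74162461598) (nat_lit 152) (nat_lit 2987631860) (nat_lit 9) (nat_lit 5) (nat_lit 10) (nat_lit 5) (nat_lit 11) (nat_lit 4) (nat_lit 224) (nat_lit 217) (nat_lit 159)) (XT.lf (nat_lit 0) (nat_lit 4300431951) (nat_lit 152) (nat_lit 52174199321) (nat_lit 76) (nat_lit 29228480957) (nat_lit 8) (nat_lit 5) (nat_lit 10) (nat_lit 5) (nat_lit 9) (nat_lit 5) (nat_lit 225)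 (nat_lit 217) (nat_lit 158))) (XT.nd (nat_lit 78) (nat_lit 152) (nat_lit 0) (XT.lf (nat_lit 0) (nat_lit 12373804612) (nat_lit 152) (nat_lit 23596728630) (nat_lit 76) (nat_lit 58282633974) (nat_lit 8) (nat_lit 5) (nat_lit 10) (nat_lit 5) (nat_lit 9) (nat_lit 5) (nat_lit 226) (nat_lit 217) (nat_lit 157)) (XT.lf (nat_lit 0) (nat_lit 10170612784) (nat_lit 152) (nat_lit 11906953663) (nat_lit 228) (nat_lit 81945285673) (nat_lit 6) (nat_lit 5) (nat_lit 8) (nat_lit 5) (nat_lit 9) (nat_lit 5) (nat_lit 227) (nat_lit 217) (nat_lit 156))))) (XT.nd (nat_lit 312) (nat_lit 76) (nat_lit 0) (XT.nd (nat_lit 156) (nat_lit 76) (nat_lit 0) (XT.nd (nat_lit 78) (nat_lit 0) (nat_lit 0) (XT.lf (nat_lit 0) (nat_lit 35180299448) (nat_lit 228) (nat_lit 64131899175) (nat_lit 76) (nat_lit 15654305459) (nat_lit 6) (nat_lit 5) (nat_lit 9) (nat_lit 5) (nat_lit 7) (nat_lit 4) (nat_lit 228) (nat_lit 217) (nat_lit 155))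 (XT.lf (nat_lit 0) (nat_lit 50814015756) (nat_lit 228) (nat_lit 30522554069) (nat_lit 76) (nat_lit 46130320059) (nat_lit 6) (nat_lit 5) (nat_lit 9) (nat_lit 5) (nat_lit 7) (nat_lit 4) (nat_lit 229) (nat_lit 217) (nat_lit 154))) (XT.nd (nat_lit 78) (nat_lit 0) (nat_lit 0) (XT.lf (nat_lit 0) (nat_lit 8920583737) (nat_lit 76) (nat_lit 60240349485) (nat_lit 152) (nat_lit 72626197950) (nat_lit 5) (nat_lit 5) (nat_lit 6) (nat_lit 5) (nat_lit 7) (nat_lit 4) (nat_lit 230) (nat_lit 217) (nat_lit 153)) (XT.lf (nat_lit 0) (nat_lit 57708810917) (nat_lit 76) (nat_lit 34145427058) (nat_lit 152) (nat_lit 66162034899) (nat_lit 5) (nat_lit 5) (nat_lit 6) (nat_lit 5) (nat_lit 7) (nat_lit 4) (nat_lit 231) (nat_lit 217) (nat_lit 152)))) (XT.nd (nat_lit 156) (nat_lit 76) (nat_lit 0) (XT.nd (nat_lit 78) (nat_lit 0) (nat_lit 0) (XT.lf (nat_lit 0) (nat_lit 113813793777) (nat_lit 76) (nat_lit 4136746859)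 (nat_lit 152) (nat_lit 58729409366) (nat_lit 5) (nat_lit 5) (nat_lit 6) (nat_lit 5) (nat_lit 7) (nat_lit 4) (nat_lit 232) (nat_lit 217) (nat_lit 151)) (XT.lf (nat_lit 0) (nat_lit 149218094640) (nat_lit 152) (nat_lit 21067756552) (nat_lit 0) (nat_lit 27668819221) (nat_lit 5) (nat_lit 5) (nat_lit 7) (nat_lit 4) (nat_lit 5) (nat_lit 4) (nat_lit 233) (nat_lit 217) (nat_lit 150))) (XT.nd (nat_lit 78) (nat_lit 0) (nat_lit 0) (XT.lf (nat_lit 0) (nat_lit 29421492909) (nat_lit 76) (nat_lit 157168788529) (nat_lit 76) (nat_lit 35618153457) (nat_lit 4) (nat_lit 4) (nat_lit 5) (nat_lit 5) (nat_lit 5) (nat_lit 4) (nat_lit 234) (nat_lit 217) (nat_lit 149)) (XT.lf (nat_lit 0) (nat_lit 89850687141) (nat_lit 76) (nat_lit 140818160550) (nat_lit 76) (nat_lit 19266343173) (nat_lit 4) (nat_lit 4) (nat_lit 5) (nat_lit 5) (nat_lit 5) (nat_lit 4) (nat_lit 235) (nat_lit 217) (nat_lit 148)))))) (XT.nd (nat_lit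 624) (nat_lit 76) (nat_lit 0) (XT.nd (nat_lit 312) (nat_lit 0) (nat_lit 0) (XT.nd (nat_lit 156) (nat_lit 76) (nat_lit 0) (XT.nd (nat_lit 78) (nat_lit 76) (nat_lit 0) (XT.lf (nat_lit 0) (nat_lit 159343242076) (nat_lit 76) (nat_lit 122015332760) (nat_lit 76) (nat_lit 462487290) (nat_lit 4) (nat_lit 4) (nat_lit 5) (nat_lit 5) (nat_lit 5) (nat_lit 4) (nat_lit 236) (nat_lit 217) (nat_lit 147)) (XT.lf (nat_lit 0) (nat_lit 19277389060) (nat_lit 152) (nat_lit 80107352982) (nat_lit 76) (nat_lit 218973723897) (nat_lit 3) (nat_lit 5) (nat_lit 5) (nat_lit 5) (nat_lit 4) (nat_lit 4) (nat_lit 237) (nat_lit 217) (nat_lit 146))) (XT.nd (nat_lit 78) (nat_lit 76) (nat_lit 0) (XT.lf (nat_lit 0) (nat_lit 41930396925) (nat_lit 152) (nat_lit 31404163457) (nat_lit 76) (nat_lit 287038696918) (nat_lit 3) (nat_lit 5) (nat_lit 5) (nat_lit 5) (nat_lit 4) (nat_lit 4) (nat_lit 238) (nat_lit 217) (nat_lit 145))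 (XT.lf (nat_lit 0) (nat_lit 27008248689) (nat_lit 76) (nat_lit 42091026438) (nat_lit 152) (nat_lit 339423309105) (nat_lit 2) (nat_lit 5) (nat_lit 3) (nat_lit 5) (nat_lit 4) (nat_lit 4) (nat_lit 239) (nat_lit 217) (nat_lit 144)))) (XT.nd (nat_lit 156) (nat_lit 0) (nat_lit 0) (XT.nd (nat_lit 78) (nat_lit 0) (nat_lit 0) (XT.lf (nat_lit 0) (nat_lit 97711238107) (nat_lit 76) (nat_lit 4273421779) (nat_lit 152) (nat_lit 361663478214) (nat_lit 2) (nat_lit 5) (nat_lit 3) (nat_lit 5) (nat_lit 4) (nat_lit 4) (nat_lit 240) (nat_lit 217) (nat_lit 143)) (XT.lf (nat_lit 0) (nat_lit 141426373961) (nat_lit 152) (nat_lit 349647375768) (nat_lit 0) (nat_lit 35725250662) (nat_lit 2) (nat_lit 5) (nat_lit 4) (nat_lit 4) (nat_lit 2) (nat_lit 4) (nat_lit 241) (nat_lit 217) (nat_lit 142))) (XT.nd (nat_lit 78) (nat_lit 0) (nat_lit 0) (XT.lf (nat_lit 0) (nat_lit 186987525393) (nat_lit 152) (nat_lit 331118477118)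 (nat_lit 0) (nat_lit 81286015596) (nat_lit 2) (nat_lit 5) (nat_lit 4) (nat_lit 4) (nat_lit 2) (nat_lit 4) (nat_lit 242) (nat_lit 217) (nat_lit 141)) (XT.lf (nat_lit 0) (nat_lit 239382574731) (nat_lit 152) (nat_lit 309810728831) (nat_lit 0) (nat_lit 133680728849) (nat_lit 2) (nat_lit 5) (nat_lit 4) (nat_lit 4) (nat_lit 2) (nat_lit 4) (nat_lit 243) (nat_lit 217) (nat_lit 140))))) (XT.nd (nat_lit 312) (nat_lit 76) (nat_lit 0) (XT.nd (nat_lit 156) (nat_lit 0) (nat_lit 0) (XT.nd (nat_lit 78) (nat_lit 0) (nat_lit 0) (XT.lf (nat_lit 0) (nat_lit 299636642506) (nat_lit 152) (nat_lit 285307240178) (nat_lit 0) (nat_lit 193934504376) (nat_lit 2) (nat_lit 5) (nat_lit 4) (nat_lit 4) (nat_lit 2) (nat_lit 4) (nat_lit 244) (nat_lit 217) (nat_lit 139)) (XT.lf (nat_lit 0) (nat_lit 368928612652) (nat_lit 152) (nat_lit 257128595078) (nat_lit 0) (nat_lit 263226220394) (nat_lit 2) (nat_lit 5) (nat_lit 4)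 (nat_lit 4) (nat_lit 2) (nat_lit 4) (nat_lit 245) (nat_lit 217) (nat_lit 138))) (XT.nd (nat_lit 78) (nat_lit 0) (nat_lit 0) (XT.lf (nat_lit 0) (nat_lit 448614197630) (nat_lit 152) (nat_lit 224723472213) (nat_lit 0) (nat_lit 342911584390) (nat_lit 2) (nat_lit 5) (nat_lit 4) (nat_lit 4) (nat_lit 2) (nat_lit 4) (nat_lit 246) (nat_lit 217) (nat_lit 137)) (XT.lf (nat_lit 0) (nat_lit 540252463232) (nat_lit 152) (nat_lit 187457858311) (nat_lit 0) (nat_lit 434549657835) (nat_lit 2) (nat_lit 5) (nat_lit 4) (nat_lit 4) (nat_lit 2) (nat_lit 4) (nat_lit 247) (nat_lit 217) (nat_lit 136)))) (XT.nd (nat_lit 156) (nat_lit 76) (nat_lit 0) (XT.nd (nat_lit 78) (nat_lit 0) (nat_lit 0) (XT.lf (nat_lit 0) (nat_lit 645636332047) (nat_lit 152) (nat_lit 144602643533) (nat_lit 0) (nat_lit 539933359555) (nat_lit 2) (nat_lit 5) (nat_lit 4) (nat_lit 4) (nat_lit 2) (nat_lit 4) (nat_lit 248) (nat_lit 217) (nat_lit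 135)) (XT.lf (nat_lit 0) (nat_lit 766827662376) (nat_lit 152) (nat_lit 95319356286) (nat_lit 0) (nat_lit 661124544585) (nat_lit 2) (nat_lit 5) (nat_lit 4) (nat_lit 4) (nat_lit 2) (nat_lit 4) (nat_lit 249) (nat_lit 217) (nat_lit 134))) (XT.nd (nat_lit 78) (nat_lit 76) (nat_lit 0) (XT.lf (nat_lit 0) (nat_lit 906197588944) (nat_lit 152) (nat_lit 38643758342) (nat_lit 0) (nat_lit 800494344807) (nat_lit 2) (nat_lit 5) (nat_lit 4) (nat_lit 4) (nat_lit 2) (nat_lit 4) (nat_lit 250) (nat_lit 217) (nat_lit 133)) (XT.lf (nat_lit 0) (nat_lit 29126020442) (nat_lit 76) (nat_lit 1038552940614) (nat_lit 76) (nat_lit 932849586610) (nat_lit 1) (nat_lit 4) (nat_lit 2) (nat_lit 5) (nat_lit 2) (nat_lit 4) (nat_lit 251) (nat_lit 217) (nat_lit 132))))))) (XT.nd (nat_lit 1248) (nat_lit 0) (nat_lit 0) (XT.nd (nat_lit 624) (nat_lit 0) (nat_lit 0) (XT.nd (nat_lit 312) (nat_lit 0) (nat_lit 0) (XT.nd (nat_lit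 156) (nat_lit 0) (nat_lit 0) (XT.nd (nat_lit 78) (nat_lit 0) (nat_lit 0) (XT.lf (nat_lit 0) (nat_lit 111404146133) (nat_lit 76) (nat_lit 1143998323108) (nat_lit 76) (nat_lit 1038294873568) (nat_lit 1) (nat_lit 4) (nat_lit 2) (nat_lit 5) (nat_lit 2) (nat_lit 4) (nat_lit 252) (nat_lit 217) (nat_lit 131)) (XT.lf (nat_lit 0) (nat_lit 206023859032) (nat_lit 76) (nat_lit 1265260571241) (nat_lit 76) (nat_lit 1159557038625) (nat_lit 1) (nat_lit 4) (nat_lit 2) (nat_lit 5) (nat_lit 2) (nat_lit 4) (nat_lit 253) (nat_lit 217) (nat_lit 130))) (XT.nd (nat_lit 78) (nat_lit 0) (nat_lit 0) (XT.lf (nat_lit 0) (nat_lit 314836414394) (nat_lit 76) (nat_lit 1404712207258) (nat_lit 76) (nat_lit 1299008602403) (nat_lit 1) (nat_lit 4) (nat_lit 2) (nat_lit 5) (nat_lit 2) (nat_lit 4) (nat_lit 254) (nat_lit 217) (nat_lit 129)) (XT.lf (nat_lit 0) (nat_lit 439970753519) (nat_lit 76) (nat_lit 1565081632734) (nat_lit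 76) (nat_lit 1459377965063) (nat_lit 1) (nat_lit 4) (nat_lit 2) (nat_lit 5) (nat_lit 2) (nat_lit 4) (nat_lit 255) (nat_lit 217) (nat_lit 128)))) (XT.nd (nat_lit 156) (nat_lit 0) (nat_lit 0) (XT.nd (nat_lit 78) (nat_lit 0) (nat_lit 0) (XT.lf (nat_lit 0) (nat_lit 583875156954) (nat_lit 76) (nat_lit 1749506510342) (nat_lit 76) (nat_lit 1643802788047) (nat_lit 1) (nat_lit 4) (nat_lit 2) (nat_lit 5) (nat_lit 2) (nat_lit 4) (nat_lit 256) (nat_lit 217) (nat_lit 127)) (XT.lf (nat_lit 0) (nat_lit 749365145636) (nat_lit 76) (nat_lit 1961595152903) (nat_lit 76) (nat_lit 1855891383110) (nat_lit 1) (nat_lit 4) (nat_lit 2) (nat_lit 5) (nat_lit 2) (nat_lit 4) (nat_lit 257) (nat_lit 217) (nat_lit 126))) (XT.nd (nat_lit 78) (nat_lit 0) (nat_lit 0) (XT.lf (nat_lit 0) (nat_lit 939678567171) (nat_lit 76) (nat_lit 2205497120816) (nat_lit 76) (nat_lit 2099793309720) (nat_lit 1) (nat_lit 4) (nat_lit 2)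 (nat_lit 5) (nat_lit 2) (nat_lit 4) (nat_lit 258) (nat_lit 217) (nat_lit 125)) (XT.lf (nat_lit 0) (nat_lit 1158538945022) (nat_lit 76) (nat_lit 2485984409106) (nat_lit 76) (nat_lit 2380280562094) (nat_lit 1) (nat_lit 4) (nat_lit 2) (nat_lit 5) (nat_lit 2) (nat_lit 4) (nat_lit 259) (nat_lit 217) (nat_lit 124))))) (XT.nd (nat_lit 312) (nat_lit 0) (nat_lit 0) (XT.nd (nat_lit 156) (nat_lit 0) (nat_lit 0) (XT.nd (nat_lit 78) (nat_lit 0) (nat_lit 0) (XT.lf (nat_lit 0) (nat_lit 1410228330062) (nat_lit 76) (nat_lit 2808544812543) (nat_lit 76) (nat_lit 2702840934300) (nat_lit 1) (nat_lit 4) (nat_lit 2) (nat_lit 5) (nat_lit 2) (nat_lit 4) (nat_lit 260) (nat_lit 217) (nat_lit 123)) (XT.lf (nat_lit 0) (nat_lit 1699671079822) (nat_lit 76) (nat_lit 3179489295542) (nat_lit 76) (nat_lit 3073785390141) (nat_lit 1) (nat_lit 4) (nat_lit 2) (nat_lit 5) (nat_lit 2) (nat_lit 4) (nat_lit 261) (nat_lit 217)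 (nat_lit 122))) (XT.nd (nat_lit 78) (nat_lit 0) (nat_lit 0) (XT.lf (nat_lit 0) (nat_lit 2032530204626) (nat_lit 76) (nat_lit 3606075467553) (nat_lit 76) (nat_lit 3500371538538) (nat_lit 1) (nat_lit 4) (nat_lit 2) (nat_lit 5) (nat_lit 2) (nat_lit 4) (nat_lit 262) (nat_lit 217) (nat_lit 121)) (XT.lf (nat_lit 0) (nat_lit 2415318165609) (nat_lit 76) (nat_lit 4096649579768) (nat_lit 76) (nat_lit 3990945630218) (nat_lit 1) (nat_lit 4) (nat_lit 2) (nat_lit 5) (nat_lit 2) (nat_lit 4) (nat_lit 263) (nat_lit 217) (nat_lit 120)))) (XT.nd (nat_lit 156) (nat_lit 0) (nat_lit 0) (XT.nd (nat_lit 78) (nat_lit 0) (nat_lit 0) (XT.lf (nat_lit 0) (nat_lit 2855524292444) (nat_lit 76) (nat_lit 4660809821340) (nat_lit 76) (nat_lit 4555105853933) (nat_lit 1) (nat_lit 4) (nat_lit 2) (nat_lit 5) (nat_lit 2) (nat_lit 4) (nat_lit 264) (nat_lit 217) (nat_lit 119)) (XT.lf (nat_lit 0) (nat_lit 3361761313699) (nat_lit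 76) (nat_lit 5309594110036) (nat_lit 76) (nat_lit 5203890127102) (nat_lit 1) (nat_lit 4) (nat_lit 2) (nat_lit 5) (nat_lit 2) (nat_lit 4) (nat_lit 265) (nat_lit 217) (nat_lit 118))) (XT.nd (nat_lit 78) (nat_lit 0) (nat_lit 0) (XT.lf (nat_lit 0) (nat_lit 3943933866747) (nat_lit 76) (nat_lit 6055696051507) (nat_lit 76) (nat_lit 5949992055071) (nat_lit 1) (nat_lit 4) (nat_lit 2) (nat_lit 5) (nat_lit 2) (nat_lit 4) (nat_lit 266) (nat_lit 217) (nat_lit 117)) (XT.lf (nat_lit 0) (nat_lit 4613432284146) (nat_lit 76) (nat_lit 6913713292433) (nat_lit 76) (nat_lit 6808009284256) (nat_lit 1) (nat_lit 4) (nat_lit 2) (nat_lit 5) (nat_lit 2) (nat_lit 4) (nat_lit 267) (nat_lit 217) (nat_lit 116)))))) (XT.nd (nat_lit 624) (nat_lit 0) (nat_lit 0) (XT.nd (nat_lit 312) (nat_lit 0) (nat_lit 0) (XT.nd (nat_lit 156) (nat_lit 0) (nat_lit 0) (XT.nd (nat_lit 78) (nat_lit 0) (nat_lit 0) (XT.lf (nat_lit 0) (nat_lit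 5383355447977) (nat_lit 76) (nat_lit 7900433126658) (nat_lit 76) (nat_lit 7794729108272) (nat_lit 1) (nat_lit 4) (nat_lit 2) (nat_lit 5) (nat_lit 2) (nat_lit 4) (nat_lit 268) (nat_lit 217) (nat_lit 115)) (XT.lf (nat_lit 0) (nat_lit 6268767072315) (nat_lit 76) (nat_lit 9035160942244) (nat_lit 76) (nat_lit 8929456914979) (nat_lit 1) (nat_lit 4) (nat_lit 2) (nat_lit 5) (nat_lit 2) (nat_lit 4) (nat_lit 269) (nat_lit 217) (nat_lit 114))) (XT.nd (nat_lit 78) (nat_lit 0) (nat_lit 0) (XT.lf (nat_lit 0) (nat_lit 7286990428070) (nat_lit 76) (nat_lit 10340097935581) (nat_lit 76) (nat_lit 10234393900597) (nat_lit 1) (nat_lit 4) (nat_lit 2) (nat_lit 5) (nat_lit 2) (nat_lit 4) (nat_lit 270) (nat_lit 217) (nat_lit 113)) (XT.lf (nat_lit 0) (nat_lit 8457947276551) (nat_lit 76) (nat_lit 11840775482627) (nat_lit 76) (nat_lit 11735071440930) (nat_lit 1) (nat_lit 4) (nat_lit 2) (nat_lit 5) (nat_lit 2)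 (nat_lit 4) (nat_lit 271) (nat_lit 217) (nat_lit 112)))) (XT.nd (nat_lit 156) (nat_lit 0) (nat_lit 0) (XT.nd (nat_lit 78) (nat_lit 0) (nat_lit 0) (XT.lf (nat_lit 0) (nat_lit 9804547643054) (nat_lit 76) (nat_lit 13566554665824) (nat_lit 76) (nat_lit 13460850618290) (nat_lit 1) (nat_lit 4) (nat_lit 2) (nat_lit 5) (nat_lit 2) (nat_lit 4) (nat_lit 272) (nat_lit 217) (nat_lit 111)) (XT.lf (nat_lit 0) (nat_lit 11353138056489) (nat_lit 76) (nat_lit 15551200730061) (nat_lit 76) (nat_lit 15445496677451) (nat_lit 1) (nat_lit 4) (nat_lit 2) (nat_lit 5) (nat_lit 2) (nat_lit 4) (nat_lit 273) (nat_lit 217) (nat_lit 110))) (XT.nd (nat_lit 78) (nat_lit 0) (nat_lit 0) (XT.lf (nat_lit 0) (nat_lit 13134017024945) (nat_lit 76) (nat_lit 17833543707029) (nat_lit 76) (nat_lit 17727839650004) (nat_lit 1) (nat_lit 4) (nat_lit 2) (nat_lit 5) (nat_lit 2) (nat_lit 4) (nat_lit 274) (nat_lit 217) (nat_lit 109))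 (XT.lf (nat_lit 0) (nat_lit 15182027832588) (nat_lit 76) (nat_lit 20458238133233) (nat_lit 76) (nat_lit 20352534072371) (nat_lit 1) (nat_lit 4) (nat_lit 2) (nat_lit 5) (nat_lit 2) (nat_lit 4) (nat_lit 275) (nat_lit 217) (nat_lit 108))))) (XT.nd (nat_lit 26910) (nat_lit 0) (nat_lit 684) (XT.nd (nat_lit 26754) (nat_lit 0) (nat_lit 836) (XT.nd (nat_lit 78) (nat_lit 0) (nat_lit 0) (XT.lf (nat_lit 0) (nat_lit 17537240256088) (nat_lit 76) (nat_lit 23476636725709) (nat_lit 76) (nat_lit 23370932661510) (nat_lit 1) (nat_lit 4) (nat_lit 2) (nat_lit 5) (nat_lit 2) (nat_lit 4) (nat_lit 276) (nat_lit 217) (nat_lit 107)) (XT.lf (nat_lit 0) (nat_lit 20245734538514) (nat_lit 76) (nat_lit 26947795109092) (nat_lit 76) (nat_lit 26842091041990) (nat_lit 1) (nat_lit 4) (nat_lit 2) (nat_lit 5) (nat_lit 2) (nat_lit 4) (nat_lit 277) (nat_lit 217) (nat_lit 106))) (XT.nd (nat_lit 78) (nat_lit 0) (nat_lit 0)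 (XT.lf (nat_lit 0) (nat_lit 8533808555) (nat_lit 0) (nat_lit 8533808555) (nat_lit 228) (nat_lit 8506773514) (nat_lit 12) (nat_lit 5) (nat_lit 12) (nat_lit 3) (nat_lit 15) (nat_lit 3) (nat_lit 218) (nat_lit 218) (nat_lit 164)) (XT.lf (nat_lit 0) (nat_lit 36827973109) (nat_lit 228) (nat_lit 15649073008) (nat_lit 304) (nat_lit 2487568651) (nat_lit 12) (nat_lit 5) (nat_lit 15) (nat_lit 3) (nat_lit 16) (nat_lit 5) (nat_lit 219) (nat_lit 218) (nat_lit 163)))) (XT.nd (nat_lit 156) (nat_lit 152) (nat_lit 0) (XT.nd (nat_lit 78) (nat_lit 0) (nat_lit 0) (XT.lf (nat_lit 76) (nat_lit 5195190647) (nat_lit 0) (nat_lit 35753893092) (nat_lit 304) (nat_lit 18250148003) (nat_lit 13) (nat_lit 5) (nat_lit 12) (nat_lit 5) (nat_lit 16) (nat_lit 5) (nat_lit 220) (nat_lit 218) (nat_lit 162)) (XT.lf (nat_lit 76) (nat_lit 30922536503) (nat_lit 0) (nat_lit 15580788500) (nat_lit 304) (nat_lit 17443539102) (nat_lit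 13) (nat_lit 5) (nat_lit 12) (nat_lit 5) (nat_lit 16) (nat_lit 5) (nat_lit 221) (nat_lit 218) (nat_lit 161))) (XT.nd (nat_lit 78) (nat_lit 228) (nat_lit 0) (XT.lf (nat_lit 0) (nat_lit 53203529360) (nat_lit 228) (nat_lit 9215598113) (nat_lit 76) (nat_lit 6940648463) (nat_lit 13) (nat_lit 5) (nat_lit 16) (nat_lit 5) (nat_lit 14) (nat_lit 5) (nat_lit 222) (nat_lit 218) (nat_lit 160)) (XT.lf (nat_lit 0) (nat_lit 19122780443) (nat_lit 228) (nat_lit 43317472926) (nat_lit 304) (nat_lit 12914698825) (nat_lit 10) (nat_lit 5) (nat_lit 13) (nat_lit 5) (nat_lit 14) (nat_lit 5) (nat_lit 223) (nat_lit 218) (nat_lit 159))))))))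
noncomputable def xc47 : XT := (XT.nd (nat_lit 2496) (nat_lit 0) (nat_lit 0) (XT.nd (nat_lit 1248) (nat_lit 152) (nat_lit 0) (XT.nd (nat_lit 624) (nat_lit 152) (nat_lit 0) (XT.nd (nat_lit 312) (nat_lit 228) (nat_lit 0) (XT.nd (nat_lit 156) (nat_lit 76) (nat_lit 0) (XT.nd (nat_lit 78) (nat_lit 76) (nat_lit 0) (XT.lf (nat_lit 0) (nat_lit 52745561338) (nat_lit 228) (nat_lit 20796575122) (nat_lit 304) (nat_lit 8635365205) (nat_lit 10) (nat_lit 5) (nat_lit 13) (nat_lit 5) (nat_lit 14) (nat_lit 5) (nat_lit 224) (nat_lit 218) (nat_lit 158)) (XT.lf (nat_lit 0) (nat_lit 1289765187) (nat_lit 76) (nat_lit 85282422116) (nat_lit 152) (nat_lit 3411852026) (nat_lit 9) (nat_lit 5) (nat_lit 10) (nat_lit 5) (nat_lit 11) (nat_lit 4) (nat_lit 225) (nat_lit 218) (nat_lit 157))) (XT.nd (nat_lit 78) (nat_lit 0) (nat_lit 0) (XT.lf (nat_lit 0) (nat_lit 4964448639) (nat_lit 152) (nat_lit 59976552987) (nat_lit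 76) (nat_lit 33614420679) (nat_lit 8) (nat_lit 5) (nat_lit 10) (nat_lit 5) (nat_lit 9) (nat_lit 5) (nat_lit 226) (nat_lit 218) (nat_lit 156)) (XT.lf (nat_lit 0) (nat_lit 14246355213) (nat_lit 152) (nat_lit 27115562940) (nat_lit 76) (nat_lit 67026479138) (nat_lit 8) (nat_lit 5) (nat_lit 10) (nat_lit 5) (nat_lit 9) (nat_lit 5) (nat_lit 227) (nat_lit 218) (nat_lit 155)))) (XT.nd (nat_lit 156) (nat_lit 76) (nat_lit 0) (XT.nd (nat_lit 78) (nat_lit 0) (nat_lit 0) (XT.lf (nat_lit 0) (nat_lit 11715939914) (nat_lit 152) (nat_lit 13688409048) (nat_lit 228) (nat_lit 94219421433) (nat_lit 6) (nat_lit 5) (nat_lit 8) (nat_lit 5) (nat_lit 9) (nat_lit 5) (nat_lit 228) (nat_lit 218) (nat_lit 154)) (XT.lf (nat_lit 0) (nat_lit 40470681333) (nat_lit 228) (nat_lit 73732505974) (nat_lit 76) (nat_lit 18006085399) (nat_lit 6) (nat_lit 5) (nat_lit 9) (nat_lit 5) (nat_lit 7) (nat_lit 4) (nat_lit 229) (nat_lit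 218) (nat_lit 153))) (XT.nd (nat_lit 78) (nat_lit 76) (nat_lit 0) (XT.lf (nat_lit 0) (nat_lit 58447715484) (nat_lit 228) (nat_lit 35084260590) (nat_lit 76) (nat_lit 53053028172) (nat_lit 6) (nat_lit 5) (nat_lit 9) (nat_lit 5) (nat_lit 7) (nat_lit 4) (nat_lit 230) (nat_lit 218) (nat_lit 152)) (XT.lf (nat_lit 0) (nat_lit 10274589860) (nat_lit 76) (nat_lit 69271227163) (nat_lit 152) (nat_lit 83507616151) (nat_lit 5) (nat_lit 5) (nat_lit 6) (nat_lit 5) (nat_lit 7) (nat_lit 4) (nat_lit 231) (nat_lit 218) (nat_lit 151))))) (XT.nd (nat_lit 312) (nat_lit 76) (nat_lit 0) (XT.nd (nat_lit 156) (nat_lit 76) (nat_lit 0) (XT.nd (nat_lit 78) (nat_lit 0) (nat_lit 0) (XT.lf (nat_lit 0) (nat_lit 66378974784) (nat_lit 76) (nat_lit 39262741339) (nat_lit 152) (nat_lit 76075460576) (nat_lit 5) (nat_lit 5) (nat_lit 6) (nat_lit 5) (nat_lit 7) (nat_lit 4) (nat_lit 232) (nat_lit 218) (nat_lit 150)) (XT.lf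 (nat_lit 0) (nat_lit 130897899565) (nat_lit 76) (nat_lit 4753346037) (nat_lit 152) (nat_lit 67529360286) (nat_lit 5) (nat_lit 5) (nat_lit 6) (nat_lit 5) (nat_lit 7) (nat_lit 4) (nat_lit 233) (nat_lit 218) (nat_lit 149))) (XT.nd (nat_lit 78) (nat_lit 76) (nat_lit 0) (XT.lf (nat_lit 0) (nat_lit 171608013961) (nat_lit 152) (nat_lit 24216431937) (nat_lit 0) (nat_lit 31822241671) (nat_lit 5) (nat_lit 5) (nat_lit 7) (nat_lit 4) (nat_lit 5) (nat_lit 4) (nat_lit 234) (nat_lit 218) (nat_lit 148)) (XT.lf (nat_lit 0) (nat_lit 33845682757) (nat_lit 76) (nat_lit 180739860296) (nat_lit 76) (nat_lit 40953059914) (nat_lit 4) (nat_lit 4) (nat_lit 5) (nat_lit 5) (nat_lit 5) (nat_lit 4) (nat_lit 235) (nat_lit 218) (nat_lit 147)))) (XT.nd (nat_lit 156) (nat_lit 76) (nat_lit 0) (XT.nd (nat_lit 78) (nat_lit 0) (nat_lit 0) (XT.lf (nat_lit 0) (nat_lit 103337825788) (nat_lit 76) (nat_lit 161937192014) (nat_lit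 76) (nat_lit 22149497639) (nat_lit 4) (nat_lit 4) (nat_lit 5) (nat_lit 5) (nat_lit 5) (nat_lit 4) (nat_lit 236) (nat_lit 218) (nat_lit 146)) (XT.lf (nat_lit 0) (nat_lit 183253020193) (nat_lit 76) (nat_lit 140314421701) (nat_lit 76) (nat_lit 525949940) (nat_lit 4) (nat_lit 4) (nat_lit 5) (nat_lit 5) (nat_lit 5) (nat_lit 4) (nat_lit 237) (nat_lit 218) (nat_lit 145))) (XT.nd (nat_lit 78) (nat_lit 0) (nat_lit 0) (XT.lf (nat_lit 0) (nat_lit 22173679380) (nat_lit 152) (nat_lit 92115737079) (nat_lit 76) (nat_lit 251822066047) (nat_lit 3) (nat_lit 5) (nat_lit 5) (nat_lit 5) (nat_lit 4) (nat_lit 4) (nat_lit 238) (nat_lit 218) (nat_lit 144)) (XT.lf (nat_lit 0) (nat_lit 48224027734) (nat_lit 152) (nat_lit 36108075933) (nat_lit 76) (nat_lit 330096487165) (nat_lit 3) (nat_lit 5) (nat_lit 5) (nat_lit 5) (nat_lit 4) (nat_lit 4) (nat_lit 239) (nat_lit 218) (nat_lit 143)))))) (XT.nd (nat_lit 624)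 (nat_lit 76) (nat_lit 0) (XT.nd (nat_lit 312) (nat_lit 0) (nat_lit 0) (XT.nd (nat_lit 156) (nat_lit 0) (nat_lit 0) (XT.nd (nat_lit 78) (nat_lit 0) (nat_lit 0) (XT.lf (nat_lit 0) (nat_lit 31065892943) (nat_lit 76) (nat_lit 48402078986) (nat_lit 152) (nat_lit 390332390522) (nat_lit 2) (nat_lit 5) (nat_lit 3) (nat_lit 5) (nat_lit 4) (nat_lit 4) (nat_lit 240) (nat_lit 218) (nat_lit 142)) (XT.lf (nat_lit 0) (nat_lit 112373495085) (nat_lit 76) (nat_lit 4912172944) (nat_lit 152) (nat_lit 415909160860) (nat_lit 2) (nat_lit 5) (nat_lit 3) (nat_lit 5) (nat_lit 4) (nat_lit 4) (nat_lit 241) (nat_lit 218) (nat_lit 141))) (XT.nd (nat_lit 78) (nat_lit 0) (nat_lit 0) (XT.lf (nat_lit 0) (nat_lit 162643289037) (nat_lit 152) (nat_lit 402089258204) (nat_lit 0) (nat_lit 41085830187) (nat_lit 2) (nat_lit 5) (nat_lit 4) (nat_lit 4) (nat_lit 2) (nat_lit 4) (nat_lit 242) (nat_lit 218) (nat_lit 140)) (XT.lf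 (nat_lit 0) (nat_lit 215038227229) (nat_lit 152) (nat_lit 380781706138) (nat_lit 0) (nat_lit 93480476131) (nat_lit 2) (nat_lit 5) (nat_lit 4) (nat_lit 4) (nat_lit 2) (nat_lit 4) (nat_lit 243) (nat_lit 218) (nat_lit 139)))) (XT.nd (nat_lit 156) (nat_lit 0) (nat_lit 0) (XT.nd (nat_lit 78) (nat_lit 0) (nat_lit 0) (XT.lf (nat_lit 0) (nat_lit 275292198355) (nat_lit 152) (nat_lit 356278388114) (nat_lit 0) (nat_lit 153734193129) (nat_lit 2) (nat_lit 5) (nat_lit 4) (nat_lit 4) (nat_lit 2) (nat_lit 4) (nat_lit 244) (nat_lit 218) (nat_lit 138)) (XT.lf (nat_lit 0) (nat_lit 344584084460) (nat_lit 152) (nat_lit 328099891386) (nat_lit 0) (nat_lit 223025858252) (nat_lit 2) (nat_lit 5) (nat_lit 4) (nat_lit 4) (nat_lit 2) (nat_lit 4) (nat_lit 245) (nat_lit 218) (nat_lit 137))) (XT.nd (nat_lit 78) (nat_lit 0) (nat_lit 0) (XT.lf (nat_lit 0) (nat_lit 424269596357) (nat_lit 152) (nat_lit 295694897541)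 (nat_lit 0) (nat_lit 302711177992) (nat_lit 2) (nat_lit 5) (nat_lit 4) (nat_lit 4) (nat_lit 2) (nat_lit 4) (nat_lit 246) (nat_lit 218) (nat_lit 136)) (XT.lf (nat_lit 0) (nat_lit 515907798411) (nat_lit 152) (nat_lit 258429395829) (nat_lit 0) (nat_lit 394349212952) (nat_lit 2) (nat_lit 5) (nat_lit 4) (nat_lit 4) (nat_lit 2) (nat_lit 4) (nat_lit 247) (nat_lit 218) (nat_lit 135))))) (XT.nd (nat_lit 312) (nat_lit 76) (nat_lit 0) (XT.nd (nat_lit 156) (nat_lit 0) (nat_lit 0) (XT.nd (nat_lit 78) (nat_lit 0) (nat_lit 0) (XT.lf (nat_lit 0) (nat_lit 621291611967) (nat_lit 152) (nat_lit 215574278608) (nat_lit 0) (nat_lit 499732881209) (nat_lit 2) (nat_lit 5) (nat_lit 4) (nat_lit 4) (nat_lit 2) (nat_lit 4) (nat_lit 248) (nat_lit 218) (nat_lit 134)) (XT.lf (nat_lit 0) (nat_lit 742482894244) (nat_lit 152) (nat_lit 166291076194) (nat_lit 0) (nat_lit 620924037139) (nat_lit 2) (nat_lit 5) (nat_lit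 4) (nat_lit 4) (nat_lit 2) (nat_lit 4) (nat_lit 249) (nat_lit 218) (nat_lit 133))) (XT.nd (nat_lit 78) (nat_lit 0) (nat_lit 0) (XT.lf (nat_lit 0) (nat_lit 881852779028) (nat_lit 152) (nat_lit 109615552017) (nat_lit 0) (nat_lit 760293812057) (nat_lit 2) (nat_lit 5) (nat_lit 4) (nat_lit 4) (nat_lit 2) (nat_lit 4) (nat_lit 250) (nat_lit 218) (nat_lit 132)) (XT.lf (nat_lit 0) (nat_lit 1042128068413) (nat_lit 152) (nat_lit 44438837127) (nat_lit 0) (nat_lit 920569005905) (nat_lit 2) (nat_lit 5) (nat_lit 4) (nat_lit 4) (nat_lit 2) (nat_lit 4) (nat_lit 251) (nat_lit 218) (nat_lit 131)))) (XT.nd (nat_lit 156) (nat_lit 0) (nat_lit 0) (XT.nd (nat_lit 78) (nat_lit 0) (nat_lit 0) (XT.lf (nat_lit 0) (nat_lit 33496340977) (nat_lit 76) (nat_lit 1194335254347) (nat_lit 76) (nat_lit 1072776108764) (nat_lit 1) (nat_lit 4) (nat_lit 2) (nat_lit 5) (nat_lit 2) (nat_lit 4) (nat_lit 252) (nat_lit 218) (nat_lit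 130)) (XT.lf (nat_lit 0) (nat_lit 128116000634) (nat_lit 76) (nat_lit 1315597526045) (nat_lit 76) (nat_lit 1194038308222) (nat_lit 1) (nat_lit 4) (nat_lit 2) (nat_lit 5) (nat_lit 2) (nat_lit 4) (nat_lit 253) (nat_lit 218) (nat_lit 129))) (XT.nd (nat_lit 78) (nat_lit 0) (nat_lit 0) (XT.lf (nat_lit 0) (nat_lit 236928509697) (nat_lit 76) (nat_lit 1455049182553) (nat_lit 76) (nat_lit 1333489901914) (nat_lit 1) (nat_lit 4) (nat_lit 2) (nat_lit 5) (nat_lit 2) (nat_lit 4) (nat_lit 254) (nat_lit 218) (nat_lit 128)) (XT.lf (nat_lit 0) (nat_lit 362062808562) (nat_lit 76) (nat_lit 1615418625848) (nat_lit 76) (nat_lit 1493859290586) (nat_lit 1) (nat_lit 4) (nat_lit 2) (nat_lit 5) (nat_lit 2) (nat_lit 4) (nat_lit 255) (nat_lit 218) (nat_lit 127))))))) (XT.nd (nat_lit 1248) (nat_lit 0) (nat_lit 0) (XT.nd (nat_lit 624) (nat_lit 0) (nat_lit 0) (XT.nd (nat_lit 312) (nat_lit 0) (nat_lit 0) (XT.nd (nat_lit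 156) (nat_lit 0) (nat_lit 0) (XT.nd (nat_lit 78) (nat_lit 0) (nat_lit 0) (XT.lf (nat_lit 0) (nat_lit 505967176989) (nat_lit 76) (nat_lit 1799843518950) (nat_lit 76) (nat_lit 1678284136189) (nat_lit 1) (nat_lit 4) (nat_lit 2) (nat_lit 5) (nat_lit 2) (nat_lit 4) (nat_lit 256) (nat_lit 218) (nat_lit 126)) (XT.lf (nat_lit 0) (nat_lit 671457135229) (nat_lit 76) (nat_lit 2011932174984) (nat_lit 76) (nat_lit 1890372750921) (nat_lit 1) (nat_lit 4) (nat_lit 2) (nat_lit 5) (nat_lit 2) (nat_lit 4) (nat_lit 257) (nat_lit 218) (nat_lit 125))) (XT.nd (nat_lit 78) (nat_lit 0) (nat_lit 0) (XT.lf (nat_lit 0) (nat_lit 861770530293) (nat_lit 76) (nat_lit 2255834154614) (nat_lit 76) (nat_lit 2134274694634) (nat_lit 1) (nat_lit 4) (nat_lit 2) (nat_lit 5) (nat_lit 2) (nat_lit 4) (nat_lit 258) (nat_lit 218) (nat_lit 124)) (XT.lf (nat_lit 0) (nat_lit 1080630885126) (nat_lit 76) (nat_lit 2536321453091) (nat_lit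 76) (nat_lit 2414761961881) (nat_lit 1) (nat_lit 4) (nat_lit 2) (nat_lit 5) (nat_lit 2) (nat_lit 4) (nat_lit 259) (nat_lit 218) (nat_lit 123)))) (XT.nd (nat_lit 156) (nat_lit 0) (nat_lit 0) (XT.nd (nat_lit 78) (nat_lit 0) (nat_lit 0) (XT.lf (nat_lit 0) (nat_lit 1332320250149) (nat_lit 76) (nat_lit 2858881865387) (nat_lit 76) (nat_lit 2737322347019) (nat_lit 1) (nat_lit 4) (nat_lit 2) (nat_lit 5) (nat_lit 2) (nat_lit 4) (nat_lit 260) (nat_lit 218) (nat_lit 122)) (XT.lf (nat_lit 0) (nat_lit 1621762982504) (nat_lit 76) (nat_lit 3229826356090) (nat_lit 76) (nat_lit 3108266814107) (nat_lit 1) (nat_lit 4) (nat_lit 2) (nat_lit 5) (nat_lit 2) (nat_lit 4) (nat_lit 261) (nat_lit 218) (nat_lit 121))) (XT.nd (nat_lit 78) (nat_lit 0) (nat_lit 0) (XT.lf (nat_lit 0) (nat_lit 1954622092172) (nat_lit 76) (nat_lit 3656412534800) (nat_lit 76) (nat_lit 3534852972282) (nat_lit 1) (nat_lit 4) (nat_lit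 2) (nat_lit 5) (nat_lit 2) (nat_lit 4) (nat_lit 262) (nat_lit 218) (nat_lit 120)) (XT.lf (nat_lit 0) (nat_lit 2337410039995) (nat_lit 76) (nat_lit 4146986652840) (nat_lit 76) (nat_lit 4025427072465) (nat_lit 1) (nat_lit 4) (nat_lit 2) (nat_lit 5) (nat_lit 2) (nat_lit 4) (nat_lit 263) (nat_lit 218) (nat_lit 119))))) (XT.nd (nat_lit 312) (nat_lit 0) (nat_lit 0) (XT.nd (nat_lit 156) (nat_lit 0) (nat_lit 0) (XT.nd (nat_lit 78) (nat_lit 0) (nat_lit 0) (XT.lf (nat_lit 0) (nat_lit 2777616155386) (nat_lit 76) (nat_lit 4711146899476) (nat_lit 76) (nat_lit 4589587303574) (nat_lit 1) (nat_lit 4) (nat_lit 2) (nat_lit 5) (nat_lit 2) (nat_lit 4) (nat_lit 264) (nat_lit 218) (nat_lit 118)) (XT.lf (nat_lit 0) (nat_lit 3283853166689) (nat_lit 76) (nat_lit 5359931192577) (nat_lit 76) (nat_lit 5238371583173) (nat_lit 1) (nat_lit 4) (nat_lit 2) (nat_lit 5) (nat_lit 2) (nat_lit 4) (nat_lit 265) (nat_lit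 218) (nat_lit 117))) (XT.nd (nat_lit 78) (nat_lit 0) (nat_lit 0) (XT.lf (nat_lit 0) (nat_lit 3866025711083) (nat_lit 76) (nat_lit 6106033137878) (nat_lit 76) (nat_lit 5984473516733) (nat_lit 1) (nat_lit 4) (nat_lit 2) (nat_lit 5) (nat_lit 2) (nat_lit 4) (nat_lit 266) (nat_lit 218) (nat_lit 116)) (XT.lf (nat_lit 0) (nat_lit 4535524120958) (nat_lit 76) (nat_lit 6964050382134) (nat_lit 76) (nat_lit 6842490750780) (nat_lit 1) (nat_lit 4) (nat_lit 2) (nat_lit 5) (nat_lit 2) (nat_lit 4) (nat_lit 267) (nat_lit 218) (nat_lit 115)))) (XT.nd (nat_lit 156) (nat_lit 0) (nat_lit 0) (XT.nd (nat_lit 78) (nat_lit 0) (nat_lit 0) (XT.lf (nat_lit 0) (nat_lit 5305447278246) (nat_lit 76) (nat_lit 7950770219255) (nat_lit 76) (nat_lit 7829210579024) (nat_lit 1) (nat_lit 4) (nat_lit 2) (nat_lit 5) (nat_lit 2) (nat_lit 4) (nat_lit 268) (nat_lit 218) (nat_lit 114)) (XT.lf (nat_lit 0) (nat_lit 6190858896893)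 (nat_lit 76) (nat_lit 9085498037359) (nat_lit 76) (nat_lit 8963938389407) (nat_lit 1) (nat_lit 4) (nat_lit 2) (nat_lit 5) (nat_lit 2) (nat_lit 4) (nat_lit 269) (nat_lit 218) (nat_lit 113))) (XT.nd (nat_lit 78) (nat_lit 0) (nat_lit 0) (XT.lf (nat_lit 0) (nat_lit 7209082247701) (nat_lit 76) (nat_lit 10390435032886) (nat_lit 76) (nat_lit 10268875378222) (nat_lit 1) (nat_lit 4) (nat_lit 2) (nat_lit 5) (nat_lit 2) (nat_lit 4) (nat_lit 270) (nat_lit 218) (nat_lit 112)) (XT.lf (nat_lit 0) (nat_lit 8380039091880) (nat_lit 76) (nat_lit 11891112581837) (nat_lit 76) (nat_lit 11769552921335) (nat_lit 1) (nat_lit 4) (nat_lit 2) (nat_lit 5) (nat_lit 2) (nat_lit 4) (nat_lit 271) (nat_lit 218) (nat_lit 111)))))) (XT.nd (nat_lit 27300) (nat_lit 0) (nat_lit 532) (XT.nd (nat_lit 312) (nat_lit 0) (nat_lit 0) (XT.nd (nat_lit 156) (nat_lit 0) (nat_lit 0) (XT.nd (nat_lit 78) (nat_lit 0) (nat_lit 0) (XT.lf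 (nat_lit 0) (nat_lit 9726639454642) (nat_lit 76) (nat_lit 13616891766690) (nat_lit 76) (nat_lit 13495332101112) (nat_lit 1) (nat_lit 4) (nat_lit 2) (nat_lit 5) (nat_lit 2) (nat_lit 4) (nat_lit 272) (nat_lit 218) (nat_lit 110)) (XT.lf (nat_lit 0) (nat_lit 11275229864823) (nat_lit 76) (nat_lit 15601537832366) (nat_lit 76) (nat_lit 15479978162374) (nat_lit 1) (nat_lit 4) (nat_lit 2) (nat_lit 5) (nat_lit 2) (nat_lit 4) (nat_lit 273) (nat_lit 218) (nat_lit 109))) (XT.nd (nat_lit 78) (nat_lit 0) (nat_lit 0) (XT.lf (nat_lit 0) (nat_lit 13056108830451) (nat_lit 76) (nat_lit 17883880810586) (nat_lit 76) (nat_lit 17762321136756) (nat_lit 1) (nat_lit 4) (nat_lit 2) (nat_lit 5) (nat_lit 2) (nat_lit 4) (nat_lit 274) (nat_lit 218) (nat_lit 108)) (XT.lf (nat_lit 0) (nat_lit 15104119635633) (nat_lit 76) (nat_lit 20508575237879) (nat_lit 76) (nat_lit 20387015560712) (nat_lit 1) (nat_lit 4) (nat_lit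 2) (nat_lit 5) (nat_lit 2) (nat_lit 4) (nat_lit 275) (nat_lit 218) (nat_lit 107)))) (XT.nd (nat_lit 26832) (nat_lit 0) (nat_lit 836) (XT.nd (nat_lit 78) (nat_lit 0) (nat_lit 0) (XT.lf (nat_lit 0) (nat_lit 17459332056994) (nat_lit 76) (nat_lit 23526973831302) (nat_lit 76) (nat_lit 23405414151233) (nat_lit 1) (nat_lit 4) (nat_lit 2) (nat_lit 5) (nat_lit 2) (nat_lit 4) (nat_lit 276) (nat_lit 218) (nat_lit 106)) (XT.lf (nat_lit 0) (nat_lit 20167826337560) (nat_lit 76) (nat_lit 26998132215508) (nat_lit 76) (nat_lit 26876572532915) (nat_lit 1) (nat_lit 4) (nat_lit 2) (nat_lit 5) (nat_lit 2) (nat_lit 4) (nat_lit 277) (nat_lit 218) (nat_lit 105))) (XT.nd (nat_lit 78) (nat_lit 0) (nat_lit 0) (XT.lf (nat_lit 0) (nat_lit 9823238103) (nat_lit 0) (nat_lit 9823238103) (nat_lit 228) (nat_lit 9760847944) (nat_lit 12) (nat_lit 5) (nat_lit 12) (nat_lit 3) (nat_lit 15) (nat_lit 3) (nat_lit 219) (nat_lit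 219) (nat_lit 162)) (XT.lf (nat_lit 0) (nat_lit 42384045636) (nat_lit 228) (nat_lit 17973875979) (nat_lit 304) (nat_lit 2845877642) (nat_lit 12) (nat_lit 5) (nat_lit 15) (nat_lit 3) (nat_lit 16) (nat_lit 5) (nat_lit 220) (nat_lit 219) (nat_lit 161))))) (XT.nd (nat_lit 312) (nat_lit 152) (nat_lit 0) (XT.nd (nat_lit 156) (nat_lit 152) (nat_lit 0) (XT.nd (nat_lit 78) (nat_lit 0) (nat_lit 0) (XT.lf (nat_lit 76) (nat_lit 5996001861) (nat_lit 0) (nat_lit 41124054807) (nat_lit 304) (nat_lit 20954136765) (nat_lit 13) (nat_lit 5) (nat_lit 12) (nat_lit 5) (nat_lit 16) (nat_lit 5) (nat_lit 221) (nat_lit 219) (nat_lit 160)) (XT.lf (nat_lit 76) (nat_lit 35579640994) (nat_lit 0) (nat_lit 17924061341) (nat_lit 304) (nat_lit 20030910455) (nat_lit 13) (nat_lit 5) (nat_lit 12) (nat_lit 5) (nat_lit 16) (nat_lit 5) (nat_lit 222) (nat_lit 219) (nat_lit 159))) (XT.nd (nat_lit 78) (nat_lit 228) (nat_lit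 0) (XT.lf (nat_lit 0) (nat_lit 61205470707) (nat_lit 228) (nat_lit 10577711923) (nat_lit 76) (nat_lit 7976870390) (nat_lit 13) (nat_lit 5) (nat_lit 16) (nat_lit 5) (nat_lit 14) (nat_lit 5) (nat_lit 223) (nat_lit 219) (nat_lit 158)) (XT.lf (nat_lit 0) (nat_lit 22010504058) (nat_lit 228) (nat_lit 49815205840) (nat_lit 304) (nat_lit 14829157115) (nat_lit 10) (nat_lit 5) (nat_lit 13) (nat_lit 5) (nat_lit 14) (nat_lit 5) (nat_lit 224) (nat_lit 219) (nat_lit 157)))) (XT.nd (nat_lit 156) (nat_lit 76) (nat_lit 0) (XT.nd (nat_lit 78) (nat_lit 76) (nat_lit 0) (XT.lf (nat_lit 0) (nat_lit 60674183842) (nat_lit 228) (nat_lit 23916158760) (nat_lit 304) (nat_lit 9910890391) (nat_lit 10) (nat_lit 5) (nat_lit 13) (nat_lit 5) (nat_lit 14) (nat_lit 5) (nat_lit 225) (nat_lit 219) (nat_lit 156)) (XT.lf (nat_lit 0) (nat_lit 1502021391) (nat_lit 76) (nat_lit 98071451807) (nat_lit 152) (nat_lit 3905539385)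 (nat_lit 9) (nat_lit 5) (nat_lit 10) (nat_lit 5) (nat_lit 11) (nat_lit 4) (nat_lit 226) (nat_lit 219) (nat_lit 155))) (XT.nd (nat_lit 78) (nat_lit 0) (nat_lit 0) (XT.lf (nat_lit 0) (nat_lit 5723446290) (nat_lit 152) (nat_lit 68955057687) (nat_lit 76) (nat_lit 38657844710) (nat_lit 8) (nat_lit 5) (nat_lit 10) (nat_lit 5) (nat_lit 9) (nat_lit 5) (nat_lit 227) (nat_lit 219) (nat_lit 154)) (XT.lf (nat_lit 0) (nat_lit 16395769673) (nat_lit 152) (nat_lit 31167264122) (nat_lit 76) (nat_lit 77081547469) (nat_lit 8) (nat_lit 5) (nat_lit 10) (nat_lit 5) (nat_lit 9) (nat_lit 5) (nat_lit 228) (nat_lit 219) (nat_lit 153))))))))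
noncomputable def xc48 : XT := (XT.nd (nat_lit 2496) (nat_lit 0) (nat_lit 0) (XT.nd (nat_lit 1248) (nat_lit 76) (nat_lit 0) (XT.nd (nat_lit 624) (nat_lit 152) (nat_lit 0) (XT.nd (nat_lit 312) (nat_lit 76) (nat_lit 0) (XT.nd (nat_lit 156) (nat_lit 76) (nat_lit 0) (XT.nd (nat_lit 78) (nat_lit 0) (nat_lit 0) (XT.lf (nat_lit 0) (nat_lit 13488253558) (nat_lit 152) (nat_lit 15738201472) (nat_lit 228) (nat_lit 108338983351) (nat_lit 6) (nat_lit 5) (nat_lit 8) (nat_lit 5) (nat_lit 9) (nat_lit 5) (nat_lit 229) (nat_lit 219) (nat_lit 152)) (XT.lf (nat_lit 0) (nat_lit 46551368197) (nat_lit 228) (nat_lit 84777880488) (nat_lit 76) (nat_lit 20709746126) (nat_lit 6) (nat_lit 5) (nat_lit 9) (nat_lit 5) (nat_lit 7) (nat_lit 4) (nat_lit 230) (nat_lit 219) (nat_lit 151))) (XT.nd (nat_lit 78) (nat_lit 76) (nat_lit 0) (XT.lf (nat_lit 0) (nat_lit 67223642080) (nat_lit 228) (nat_lit 40334289780) (nat_lit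 76) (nat_lit 61013371892) (nat_lit 6) (nat_lit 5) (nat_lit 9) (nat_lit 5) (nat_lit 7) (nat_lit 4) (nat_lit 231) (nat_lit 219) (nat_lit 150)) (XT.lf (nat_lit 0) (nat_lit 11827815060) (nat_lit 76) (nat_lit 79657998387) (nat_lit 152) (nat_lit 96024298088) (nat_lit 5) (nat_lit 5) (nat_lit 6) (nat_lit 5) (nat_lit 7) (nat_lit 4) (nat_lit 232) (nat_lit 219) (nat_lit 149)))) (XT.nd (nat_lit 156) (nat_lit 76) (nat_lit 0) (XT.nd (nat_lit 78) (nat_lit 0) (nat_lit 0) (XT.lf (nat_lit 0) (nat_lit 76346287715) (nat_lit 76) (nat_lit 45148750061) (nat_lit 152) (nat_lit 87478553154) (nat_lit 5) (nat_lit 5) (nat_lit 6) (nat_lit 5) (nat_lit 7) (nat_lit 4) (nat_lit 233) (nat_lit 219) (nat_lit 148)) (XT.lf (nat_lit 0) (nat_lit 150541685989) (nat_lit 76) (nat_lit 5463389266) (nat_lit 152) (nat_lit 77651610843) (nat_lit 5) (nat_lit 5) (nat_lit 6) (nat_lit 5) (nat_lit 7) (nat_lit 4) (nat_lit 234) (nat_lit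 219) (nat_lit 147))) (XT.nd (nat_lit 78) (nat_lit 76) (nat_lit 0) (XT.lf (nat_lit 0) (nat_lit 197354664164) (nat_lit 152) (nat_lit 27840210075) (nat_lit 0) (nat_lit 36597921639) (nat_lit 5) (nat_lit 5) (nat_lit 7) (nat_lit 4) (nat_lit 5) (nat_lit 4) (nat_lit 235) (nat_lit 219) (nat_lit 146)) (XT.lf (nat_lit 0) (nat_lit 38930826975) (nat_lit 76) (nat_lit 207847628368) (nat_lit 76) (nat_lit 47090108458) (nat_lit 4) (nat_lit 4) (nat_lit 5) (nat_lit 5) (nat_lit 5) (nat_lit 4) (nat_lit 236) (nat_lit 219) (nat_lit 145))))) (XT.nd (nat_lit 312) (nat_lit 76) (nat_lit 0) (XT.nd (nat_lit 156) (nat_lit 76) (nat_lit 0) (XT.nd (nat_lit 78) (nat_lit 0) (nat_lit 0) (XT.lf (nat_lit 0) (nat_lit 118845709922) (nat_lit 76) (nat_lit 186224978666) (nat_lit 76) (nat_lit 25466782769) (nat_lit 4) (nat_lit 4) (nat_lit 5) (nat_lit 5) (nat_lit 5) (nat_lit 4) (nat_lit 237) (nat_lit 219) (nat_lit 144)) (XT.lf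 (nat_lit 0) (nat_lit 210747243018) (nat_lit 76) (nat_lit 161359156999) (nat_lit 76) (nat_lit 600373287) (nat_lit 4) (nat_lit 4) (nat_lit 5) (nat_lit 5) (nat_lit 5) (nat_lit 4) (nat_lit 238) (nat_lit 219) (nat_lit 143))) (XT.nd (nat_lit 78) (nat_lit 0) (nat_lit 0) (XT.lf (nat_lit 0) (nat_lit 25503271522) (nat_lit 152) (nat_lit 105927261082) (nat_lit 76) (nat_lit 289597102658) (nat_lit 3) (nat_lit 5) (nat_lit 5) (nat_lit 5) (nat_lit 4) (nat_lit 4) (nat_lit 239) (nat_lit 219) (nat_lit 142)) (XT.lf (nat_lit 0) (nat_lit 55460710360) (nat_lit 152) (nat_lit 41519212053) (nat_lit 76) (nat_lit 379612461721) (nat_lit 3) (nat_lit 5) (nat_lit 5) (nat_lit 5) (nat_lit 4) (nat_lit 4) (nat_lit 240) (nat_lit 219) (nat_lit 141)))) (XT.nd (nat_lit 156) (nat_lit 0) (nat_lit 0) (XT.nd (nat_lit 78) (nat_lit 0) (nat_lit 0) (XT.lf (nat_lit 0) (nat_lit 35730621459) (nat_lit 76) (nat_lit 55660423789) (nat_lit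 152) (nat_lit 448878910765) (nat_lit 2) (nat_lit 5) (nat_lit 3) (nat_lit 5) (nat_lit 4) (nat_lit 4) (nat_lit 241) (nat_lit 219) (nat_lit 140)) (XT.lf (nat_lit 0) (nat_lit 129233732022) (nat_lit 76) (nat_lit 5647288412) (nat_lit 152) (nat_lit 478292632088) (nat_lit 2) (nat_lit 5) (nat_lit 3) (nat_lit 5) (nat_lit 4) (nat_lit 4) (nat_lit 242) (nat_lit 219) (nat_lit 139))) (XT.nd (nat_lit 78) (nat_lit 0) (nat_lit 0) (XT.lf (nat_lit 0) (nat_lit 187042019807) (nat_lit 152) (nat_lit 462398696893) (nat_lit 0) (nat_lit 47250059668) (nat_lit 2) (nat_lit 5) (nat_lit 4) (nat_lit 4) (nat_lit 2) (nat_lit 4) (nat_lit 243) (nat_lit 219) (nat_lit 138)) (XT.lf (nat_lit 0) (nat_lit 247295906891) (nat_lit 152) (nat_lit 437895527241) (nat_lit 0) (nat_lit 107503725771) (nat_lit 2) (nat_lit 5) (nat_lit 4) (nat_lit 4) (nat_lit 2) (nat_lit 4) (nat_lit 244) (nat_lit 219) (nat_lit 137)))))) (XT.nd (nat_lit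 624) (nat_lit 76) (nat_lit 0) (XT.nd (nat_lit 312) (nat_lit 0) (nat_lit 0) (XT.nd (nat_lit 156) (nat_lit 0) (nat_lit 0) (XT.nd (nat_lit 78) (nat_lit 0) (nat_lit 0) (XT.lf (nat_lit 0) (nat_lit 316587719915) (nat_lit 152) (nat_lit 409717159532) (nat_lit 0) (nat_lit 176795346638) (nat_lit 2) (nat_lit 5) (nat_lit 4) (nat_lit 4) (nat_lit 2) (nat_lit 4) (nat_lit 245) (nat_lit 219) (nat_lit 136)) (XT.lf (nat_lit 0) (nat_lit 396273168265) (nat_lit 152) (nat_lit 377312277878) (nat_lit 0) (nat_lit 256480627893) (nat_lit 2) (nat_lit 5) (nat_lit 4) (nat_lit 4) (nat_lit 2) (nat_lit 4) (nat_lit 246) (nat_lit 219) (nat_lit 135))) (XT.nd (nat_lit 78) (nat_lit 0) (nat_lit 0) (XT.lf (nat_lit 0) (nat_lit 487911315060) (nat_lit 152) (nat_lit 340046873723) (nat_lit 0) (nat_lit 348118629390) (nat_lit 2) (nat_lit 5) (nat_lit 4) (nat_lit 4) (nat_lit 2) (nat_lit 4) (nat_lit 247) (nat_lit 219) (nat_lit 134))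 (XT.lf (nat_lit 0) (nat_lit 593295080564) (nat_lit 152) (nat_lit 297191841335) (nat_lit 0) (nat_lit 453502268546) (nat_lit 2) (nat_lit 5) (nat_lit 4) (nat_lit 4) (nat_lit 2) (nat_lit 4) (nat_lit 248) (nat_lit 219) (nat_lit 133)))) (XT.nd (nat_lit 156) (nat_lit 0) (nat_lit 0) (XT.nd (nat_lit 78) (nat_lit 0) (nat_lit 0) (XT.lf (nat_lit 0) (nat_lit 714486321058) (nat_lit 152) (nat_lit 247908712688) (nat_lit 0) (nat_lit 574693399173) (nat_lit 2) (nat_lit 5) (nat_lit 4) (nat_lit 4) (nat_lit 2) (nat_lit 4) (nat_lit 249) (nat_lit 219) (nat_lit 132)) (XT.lf (nat_lit 0) (nat_lit 853856169508) (nat_lit 152) (nat_lit 191233252656) (nat_lit 0) (nat_lit 714063152088) (nat_lit 2) (nat_lit 5) (nat_lit 4) (nat_lit 4) (nat_lit 2) (nat_lit 4) (nat_lit 250) (nat_lit 219) (nat_lit 131))) (XT.nd (nat_lit 78) (nat_lit 0) (nat_lit 0) (XT.lf (nat_lit 0) (nat_lit 1014131427298) (nat_lit 152) (nat_lit 126056593544)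 (nat_lit 0) (nat_lit 874338326802) (nat_lit 2) (nat_lit 5) (nat_lit 4) (nat_lit 4) (nat_lit 2) (nat_lit 4) (nat_lit 251) (nat_lit 219) (nat_lit 130)) (XT.lf (nat_lit 0) (nat_lit 1198447914688) (nat_lit 152) (nat_lit 51103539848) (nat_lit 0) (nat_lit 1058654741953) (nat_lit 2) (nat_lit 5) (nat_lit 4) (nat_lit 4) (nat_lit 2) (nat_lit 4) (nat_lit 252) (nat_lit 219) (nat_lit 129))))) (XT.nd (nat_lit 312) (nat_lit 0) (nat_lit 0) (XT.nd (nat_lit 156) (nat_lit 0) (nat_lit 0) (XT.nd (nat_lit 78) (nat_lit 0) (nat_lit 0) (XT.lf (nat_lit 0) (nat_lit 38521863934) (nat_lit 76) (nat_lit 1373485068126) (nat_lit 76) (nat_lit 1233691832574) (nat_lit 1) (nat_lit 4) (nat_lit 2) (nat_lit 5) (nat_lit 2) (nat_lit 4) (nat_lit 253) (nat_lit 219) (nat_lit 128)) (XT.lf (nat_lit 0) (nat_lit 147334332737) (nat_lit 76) (nat_lit 1512936742453) (nat_lit 76) (nat_lit 1373143452278) (nat_lit 1) (nat_lit 4) (nat_lit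 2) (nat_lit 5) (nat_lit 2) (nat_lit 4) (nat_lit 254) (nat_lit 219) (nat_lit 127))) (XT.nd (nat_lit 78) (nat_lit 0) (nat_lit 0) (XT.lf (nat_lit 0) (nat_lit 272468596594) (nat_lit 76) (nat_lit 1673306201242) (nat_lit 76) (nat_lit 1533512863568) (nat_lit 1) (nat_lit 4) (nat_lit 2) (nat_lit 5) (nat_lit 2) (nat_lit 4) (nat_lit 255) (nat_lit 219) (nat_lit 126)) (XT.lf (nat_lit 0) (nat_lit 416372934579) (nat_lit 76) (nat_lit 1857731107817) (nat_lit 76) (nat_lit 1717937728840) (nat_lit 1) (nat_lit 4) (nat_lit 2) (nat_lit 5) (nat_lit 2) (nat_lit 4) (nat_lit 256) (nat_lit 219) (nat_lit 125)))) (XT.nd (nat_lit 156) (nat_lit 0) (nat_lit 0) (XT.nd (nat_lit 78) (nat_lit 0) (nat_lit 0) (XT.lf (nat_lit 0) (nat_lit 581862866348) (nat_lit 76) (nat_lit 2069819775568) (nat_lit 76) (nat_lit 1930026360676) (nat_lit 1) (nat_lit 4) (nat_lit 2) (nat_lit 5) (nat_lit 2) (nat_lit 4) (nat_lit 257) (nat_lit 219)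 (nat_lit 124)) (XT.lf (nat_lit 0) (nat_lit 772176238393) (nat_lit 76) (nat_lit 2313721765385) (nat_lit 76) (nat_lit 2173928319262) (nat_lit 1) (nat_lit 4) (nat_lit 2) (nat_lit 5) (nat_lit 2) (nat_lit 4) (nat_lit 258) (nat_lit 219) (nat_lit 123))) (XT.nd (nat_lit 78) (nat_lit 0) (nat_lit 0) (XT.lf (nat_lit 0) (nat_lit 991036573210) (nat_lit 76) (nat_lit 2594209072721) (nat_lit 76) (nat_lit 2454415599441) (nat_lit 1) (nat_lit 4) (nat_lit 2) (nat_lit 5) (nat_lit 2) (nat_lit 4) (nat_lit 259) (nat_lit 219) (nat_lit 122)) (XT.lf (nat_lit 0) (nat_lit 1242725920828) (nat_lit 76) (nat_lit 2916769492720) (nat_lit 76) (nat_lit 2776975995825) (nat_lit 1) (nat_lit 4) (nat_lit 2) (nat_lit 5) (nat_lit 2) (nat_lit 4) (nat_lit 260) (nat_lit 219) (nat_lit 121))))))) (XT.nd (nat_lit 1248) (nat_lit 0) (nat_lit 0) (XT.nd (nat_lit 624) (nat_lit 0) (nat_lit 0) (XT.nd (nat_lit 312) (nat_lit 0) (nat_lit 0)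 (XT.nd (nat_lit 156) (nat_lit 0) (nat_lit 0) (XT.nd (nat_lit 78) (nat_lit 0) (nat_lit 0) (XT.lf (nat_lit 0) (nat_lit 1532168638048) (nat_lit 76) (nat_lit 3287713990121) (nat_lit 76) (nat_lit 3147920472691) (nat_lit 1) (nat_lit 4) (nat_lit 2) (nat_lit 5) (nat_lit 2) (nat_lit 4) (nat_lit 261) (nat_lit 219) (nat_lit 120)) (XT.lf (nat_lit 0) (nat_lit 1865027734555) (nat_lit 76) (nat_lit 3714300174656) (nat_lit 76) (nat_lit 3574506639370) (nat_lit 1) (nat_lit 4) (nat_lit 2) (nat_lit 5) (nat_lit 2) (nat_lit 4) (nat_lit 262) (nat_lit 219) (nat_lit 119))) (XT.nd (nat_lit 78) (nat_lit 0) (nat_lit 0) (XT.lf (nat_lit 0) (nat_lit 2247815670933) (nat_lit 76) (nat_lit 4204874297762) (nat_lit 76) (nat_lit 4065080746947) (nat_lit 1) (nat_lit 4) (nat_lit 2) (nat_lit 5) (nat_lit 2) (nat_lit 4) (nat_lit 263) (nat_lit 219) (nat_lit 118)) (XT.lf (nat_lit 0) (nat_lit 2688021776372) (nat_lit 76) (nat_lit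 4769034548802) (nat_lit 76) (nat_lit 4629240984486) (nat_lit 1) (nat_lit 4) (nat_lit 2) (nat_lit 5) (nat_lit 2) (nat_lit 4) (nat_lit 264) (nat_lit 219) (nat_lit 117)))) (XT.nd (nat_lit 156) (nat_lit 0) (nat_lit 0) (XT.nd (nat_lit 78) (nat_lit 0) (nat_lit 0) (XT.lf (nat_lit 0) (nat_lit 3194258779022) (nat_lit 76) (nat_lit 5417818845734) (nat_lit 76) (nat_lit 5278025269676) (nat_lit 1) (nat_lit 4) (nat_lit 2) (nat_lit 5) (nat_lit 2) (nat_lit 4) (nat_lit 265) (nat_lit 219) (nat_lit 116)) (XT.lf (nat_lit 0) (nat_lit 3776431315892) (nat_lit 76) (nat_lit 6163920794365) (nat_lit 76) (nat_lit 6024127208098) (nat_lit 1) (nat_lit 4) (nat_lit 2) (nat_lit 5) (nat_lit 2) (nat_lit 4) (nat_lit 266) (nat_lit 219) (nat_lit 115))) (XT.nd (nat_lit 78) (nat_lit 0) (nat_lit 0) (XT.lf (nat_lit 0) (nat_lit 4445929719223) (nat_lit 76) (nat_lit 7021938041517) (nat_lit 76) (nat_lit 6882144446373) (nat_lit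 1) (nat_lit 4) (nat_lit 2) (nat_lit 5) (nat_lit 2) (nat_lit 4) (nat_lit 267) (nat_lit 219) (nat_lit 114)) (XT.lf (nat_lit 0) (nat_lit 5215852870821) (nat_lit 76) (nat_lit 8008657881157) (nat_lit 76) (nat_lit 7868864278292) (nat_lit 1) (nat_lit 4) (nat_lit 2) (nat_lit 5) (nat_lit 2) (nat_lit 4) (nat_lit 268) (nat_lit 219) (nat_lit 113))))) (XT.nd (nat_lit 312) (nat_lit 0) (nat_lit 0) (XT.nd (nat_lit 156) (nat_lit 0) (nat_lit 0) (XT.nd (nat_lit 78) (nat_lit 0) (nat_lit 0) (XT.lf (nat_lit 0) (nat_lit 6101264484521) (nat_lit 76) (nat_lit 9143385701450) (nat_lit 76) (nat_lit 9003592091873) (nat_lit 1) (nat_lit 4) (nat_lit 2) (nat_lit 5) (nat_lit 2) (nat_lit 4) (nat_lit 269) (nat_lit 219) (nat_lit 112)) (XT.lf (nat_lit 0) (nat_lit 7119487831026) (nat_lit 76) (nat_lit 10448322698881) (nat_lit 76) (nat_lit 10308529083467) (nat_lit 1) (nat_lit 4) (nat_lit 2) (nat_lit 5) (nat_lit 2) (nat_lit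 4) (nat_lit 270) (nat_lit 219) (nat_lit 111))) (XT.nd (nat_lit 78) (nat_lit 0) (nat_lit 0) (XT.lf (nat_lit 0) (nat_lit 8290444671464) (nat_lit 76) (nat_lit 11949000249488) (nat_lit 76) (nat_lit 11809206628997) (nat_lit 1) (nat_lit 4) (nat_lit 2) (nat_lit 5) (nat_lit 2) (nat_lit 4) (nat_lit 271) (nat_lit 219) (nat_lit 110)) (XT.lf (nat_lit 0) (nat_lit 9637045030973) (nat_lit 76) (nat_lit 13674779435780) (nat_lit 76) (nat_lit 13534985810876) (nat_lit 1) (nat_lit 4) (nat_lit 2) (nat_lit 5) (nat_lit 2) (nat_lit 4) (nat_lit 272) (nat_lit 219) (nat_lit 109)))) (XT.nd (nat_lit 156) (nat_lit 0) (nat_lit 0) (XT.nd (nat_lit 78) (nat_lit 0) (nat_lit 0) (XT.lf (nat_lit 0) (nat_lit 11185635438326) (nat_lit 76) (nat_lit 15659425502709) (nat_lit 76) (nat_lit 15519631873966) (nat_lit 1) (nat_lit 4) (nat_lit 2) (nat_lit 5) (nat_lit 2) (nat_lit 4) (nat_lit 273) (nat_lit 219) (nat_lit 108)) (XT.lf (nat_lit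 0) (nat_lit 12966514401493) (nat_lit 76) (nat_lit 17941768482017) (nat_lit 76) (nat_lit 17801974849937) (nat_lit 1) (nat_lit 4) (nat_lit 2) (nat_lit 5) (nat_lit 2) (nat_lit 4) (nat_lit 274) (nat_lit 219) (nat_lit 107))) (XT.nd (nat_lit 78) (nat_lit 0) (nat_lit 0) (XT.lf (nat_lit 0) (nat_lit 15014525204537) (nat_lit 76) (nat_lit 20566462910257) (nat_lit 76) (nat_lit 20426669275275) (nat_lit 1) (nat_lit 4) (nat_lit 2) (nat_lit 5) (nat_lit 2) (nat_lit 4) (nat_lit 275) (nat_lit 219) (nat_lit 106)) (XT.lf (nat_lit 0) (nat_lit 17369737624038) (nat_lit 76) (nat_lit 23584861504503) (nat_lit 76) (nat_lit 23445067866998) (nat_lit 1) (nat_lit 4) (nat_lit 2) (nat_lit 5) (nat_lit 2) (nat_lit 4) (nat_lit 276) (nat_lit 219) (nat_lit 105)))))) (XT.nd (nat_lit 27378) (nat_lit 0) (nat_lit 304) (XT.nd (nat_lit 27066) (nat_lit 0) (nat_lit 684) (XT.nd (nat_lit 26910) (nat_lit 0) (nat_lit 836) (XT.nd (nat_lit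 26832) (nat_lit 0) (nat_lit 836) (XT.lf (nat_lit 0) (nat_lit 20078231902986) (nat_lit 76) (nat_lit 27056019889425) (nat_lit 76) (nat_lit 26916226249725) (nat_lit 1) (nat_lit 4) (nat_lit 2) (nat_lit 5) (nat_lit 2) (nat_lit 4) (nat_lit 277) (nat_lit 219) (nat_lit 104)) (XT.lf (nat_lit 0) (nat_lit 11303800010) (nat_lit 0) (nat_lit 11303800010) (nat_lit 228) (nat_lit 11208384136) (nat_lit 12) (nat_lit 5) (nat_lit 12) (nat_lit 3) (nat_lit 15) (nat_lit 3) (nat_lit 220) (nat_lit 220) (nat_lit 160))) (XT.nd (nat_lit 78) (nat_lit 0) (nat_lit 0) (XT.lf (nat_lit 0) (nat_lit 48765755741) (nat_lit 228) (nat_lit 20652900302) (nat_lit 304) (nat_lit 3261548470) (nat_lit 12) (nat_lit 5) (nat_lit 15) (nat_lit 3) (nat_lit 16) (nat_lit 5) (nat_lit 221) (nat_lit 220) (nat_lit 159)) (XT.lf (nat_lit 76) (nat_lit 6911683893) (nat_lit 0) (nat_lit 47298014824) (nat_lit 304) (nat_lit 24071901183) (nat_lit 13)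 (nat_lit 5) (nat_lit 12) (nat_lit 5) (nat_lit 16) (nat_lit 5) (nat_lit 222) (nat_lit 220) (nat_lit 158)))) (XT.nd (nat_lit 156) (nat_lit 152) (nat_lit 0) (XT.nd (nat_lit 78) (nat_lit 0) (nat_lit 76) (XT.lf (nat_lit 76) (nat_lit 40930745188) (nat_lit 0) (nat_lit 20617324278) (nat_lit 304) (nat_lit 23013498243) (nat_lit 13) (nat_lit 5) (nat_lit 12) (nat_lit 5) (nat_lit 16) (nat_lit 5) (nat_lit 223) (nat_lit 220) (nat_lit 157)) (XT.lf (nat_lit 0) (nat_lit 70402481817) (nat_lit 228) (nat_lit 12149075019) (nat_lit 76) (nat_lit 9169714489) (nat_lit 13) (nat_lit 5) (nat_lit 16) (nat_lit 5) (nat_lit 14) (nat_lit 5) (nat_lit 224) (nat_lit 220) (nat_lit 156))) (XT.nd (nat_lit 78) (nat_lit 0) (nat_lit 0) (XT.lf (nat_lit 0) (nat_lit 25326678190) (nat_lit 228) (nat_lit 57287571385) (nat_lit 304) (nat_lit 17036331036) (nat_lit 10) (nat_lit 5) (nat_lit 13) (nat_lit 5) (nat_lit 14) (nat_lit 5) (nat_lit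 225) (nat_lit 220) (nat_lit 155)) (XT.lf (nat_lit 0) (nat_lit 69788005787) (nat_lit 228) (nat_lit 27503656200) (nat_lit 304) (nat_lit 11382567735) (nat_lit 10) (nat_lit 5) (nat_lit 13) (nat_lit 5) (nat_lit 14) (nat_lit 5) (nat_lit 226) (nat_lit 220) (nat_lit 154))))) (XT.nd (nat_lit 312) (nat_lit 76) (nat_lit 0) (XT.nd (nat_lit 156) (nat_lit 152) (nat_lit 0) (XT.nd (nat_lit 78) (nat_lit 76) (nat_lit 0) (XT.lf (nat_lit 0) (nat_lit 1741533618) (nat_lit 76) (nat_lit 112779648878) (nat_lit 152) (nat_lit 4477691317) (nat_lit 9) (nat_lit 5) (nat_lit 10) (nat_lit 5) (nat_lit 11) (nat_lit 4) (nat_lit 227) (nat_lit 220) (nat_lit 153)) (XT.lf (nat_lit 0) (nat_lit 6592799041) (nat_lit 152) (nat_lit 79284722202) (nat_lit 76) (nat_lit 44457474861) (nat_lit 8) (nat_lit 5) (nat_lit 10) (nat_lit 5) (nat_lit 9) (nat_lit 5) (nat_lit 228) (nat_lit 220) (nat_lit 152))) (XT.nd (nat_lit 78) (nat_lit 152)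 (nat_lit 0) (XT.lf (nat_lit 0) (nat_lit 18864557565) (nat_lit 152) (nat_lit 35830532751) (nat_lit 76) (nat_lit 88644608671) (nat_lit 8) (nat_lit 5) (nat_lit 10) (nat_lit 5) (nat_lit 9) (nat_lit 5) (nat_lit 229) (nat_lit 220) (nat_lit 151)) (XT.lf (nat_lit 0) (nat_lit 15522775264) (nat_lit 152) (nat_lit 18096308681) (nat_lit 228) (nat_lit 124579735355) (nat_lit 6) (nat_lit 5) (nat_lit 8) (nat_lit 5) (nat_lit 9) (nat_lit 5) (nat_lit 230) (nat_lit 220) (nat_lit 150)))) (XT.nd (nat_lit 156) (nat_lit 76) (nat_lit 0) (XT.nd (nat_lit 78) (nat_lit 0) (nat_lit 0) (XT.lf (nat_lit 0) (nat_lit 53541698882) (nat_lit 228) (nat_lit 97483597433) (nat_lit 76) (nat_lit 23818285866) (nat_lit 6) (nat_lit 5) (nat_lit 9) (nat_lit 5) (nat_lit 7) (nat_lit 4) (nat_lit 231) (nat_lit 220) (nat_lit 149)) (XT.lf (nat_lit 0) (nat_lit 77313819222) (nat_lit 228) (nat_lit 46374898353) (nat_lit 76) (nat_lit 70167184476)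 (nat_lit 6) (nat_lit 5) (nat_lit 9) (nat_lit 5) (nat_lit 7) (nat_lit 4) (nat_lit 232) (nat_lit 220) (nat_lit 148))) (XT.nd (nat_lit 78) (nat_lit 0) (nat_lit 0) (XT.lf (nat_lit 0) (nat_lit 13611088809) (nat_lit 76) (nat_lit 91603739468) (nat_lit 152) (nat_lit 110420789316) (nat_lit 5) (nat_lit 5) (nat_lit 6) (nat_lit 5) (nat_lit 7) (nat_lit 4) (nat_lit 233) (nat_lit 220) (nat_lit 147)) (XT.lf (nat_lit 0) (nat_lit 87806145211) (nat_lit 76) (nat_lit 51918489808) (nat_lit 152) (nat_lit 100594115705) (nat_lit 5) (nat_lit 5) (nat_lit 6) (nat_lit 5) (nat_lit 7) (nat_lit 4) (nat_lit 234) (nat_lit 220) (nat_lit 146))))))))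
noncomputable def xc49 : XT := (XT.nd (nat_lit 1248) (nat_lit 76) (nat_lit 0) (XT.nd (nat_lit 624) (nat_lit 0) (nat_lit 0) (XT.nd (nat_lit 312) (nat_lit 152) (nat_lit 0) (XT.nd (nat_lit 156) (nat_lit 76) (nat_lit 0) (XT.nd (nat_lit 78) (nat_lit 0) (nat_lit 0) (XT.lf (nat_lit 0) (nat_lit 173129820922) (nat_lit 76) (nat_lit 6280660471) (nat_lit 152) (nat_lit 89293943406) (nat_lit 5) (nat_lit 5) (nat_lit 6) (nat_lit 5) (nat_lit 7) (nat_lit 4) (nat_lit 235) (nat_lit 220) (nat_lit 145)) (XT.lf (nat_lit 0) (nat_lit 226961983342) (nat_lit 152) (nat_lit 32009673228) (nat_lit 0) (nat_lit 42089382072) (nat_lit 5) (nat_lit 5) (nat_lit 7) (nat_lit 4) (nat_lit 5) (nat_lit 4) (nat_lit 236) (nat_lit 220) (nat_lit 144))) (XT.nd (nat_lit 78) (nat_lit 0) (nat_lit 0) (XT.lf (nat_lit 0) (nat_lit 44776720818) (nat_lit 76) (nat_lit 239022344667) (nat_lit 76) (nat_lit 54149155582) (nat_lit 4) (nat_lit 4)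 (nat_lit 5) (nat_lit 5) (nat_lit 5) (nat_lit 4) (nat_lit 237) (nat_lit 220) (nat_lit 143)) (XT.lf (nat_lit 0) (nat_lit 136678018406) (nat_lit 76) (nat_lit 214156614199) (nat_lit 76) (nat_lit 29282913971) (nat_lit 4) (nat_lit 4) (nat_lit 5) (nat_lit 5) (nat_lit 5) (nat_lit 4) (nat_lit 238) (nat_lit 220) (nat_lit 142)))) (XT.nd (nat_lit 156) (nat_lit 76) (nat_lit 0) (XT.nd (nat_lit 78) (nat_lit 76) (nat_lit 0) (XT.lf (nat_lit 0) (nat_lit 242364070337) (nat_lit 76) (nat_lit 185561194665) (nat_lit 76) (nat_lit 687049965) (nat_lit 4) (nat_lit 4) (nat_lit 5) (nat_lit 5) (nat_lit 5) (nat_lit 4) (nat_lit 239) (nat_lit 220) (nat_lit 141)) (XT.lf (nat_lit 0) (nat_lit 29331439177) (nat_lit 152) (nat_lit 121811936966) (nat_lit 76) (nat_lit 333037973692) (nat_lit 3) (nat_lit 5) (nat_lit 5) (nat_lit 5) (nat_lit 4) (nat_lit 4) (nat_lit 240) (nat_lit 220) (nat_lit 140))) (XT.nd (nat_lit 78) (nat_lit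 76) (nat_lit 0) (XT.lf (nat_lit 0) (nat_lit 63782144676) (nat_lit 152) (nat_lit 47743256229) (nat_lit 76) (nat_lit 436555466315) (nat_lit 3) (nat_lit 5) (nat_lit 5) (nat_lit 5) (nat_lit 4) (nat_lit 4) (nat_lit 241) (nat_lit 220) (nat_lit 139)) (XT.lf (nat_lit 0) (nat_lit 41093877873) (nat_lit 76) (nat_lit 64007999989) (nat_lit 152) (nat_lit 516208223118) (nat_lit 2) (nat_lit 5) (nat_lit 3) (nat_lit 5) (nat_lit 4) (nat_lit 4) (nat_lit 242) (nat_lit 220) (nat_lit 138))))) (XT.nd (nat_lit 312) (nat_lit 0) (nat_lit 0) (XT.nd (nat_lit 156) (nat_lit 0) (nat_lit 0) (XT.nd (nat_lit 78) (nat_lit 0) (nat_lit 0) (XT.lf (nat_lit 0) (nat_lit 148621977212) (nat_lit 76) (nat_lit 6493088309) (nat_lit 152) (nat_lit 550034331891) (nat_lit 2) (nat_lit 5) (nat_lit 3) (nat_lit 5) (nat_lit 4) (nat_lit 4) (nat_lit 243) (nat_lit 220) (nat_lit 137)) (XT.lf (nat_lit 0) (nat_lit 215100014585) (nat_lit 152)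 (nat_lit 531755514628) (nat_lit 0) (nat_lit 54338593158) (nat_lit 2) (nat_lit 5) (nat_lit 4) (nat_lit 4) (nat_lit 2) (nat_lit 4) (nat_lit 244) (nat_lit 220) (nat_lit 136))) (XT.nd (nat_lit 78) (nat_lit 0) (nat_lit 0) (XT.lf (nat_lit 0) (nat_lit 284391764061) (nat_lit 152) (nat_lit 503577259110) (nat_lit 0) (nat_lit 123630175540) (nat_lit 2) (nat_lit 5) (nat_lit 4) (nat_lit 4) (nat_lit 2) (nat_lit 4) (nat_lit 245) (nat_lit 220) (nat_lit 135)) (XT.lf (nat_lit 0) (nat_lit 364077157152) (nat_lit 152) (nat_lit 471172475013) (nat_lit 0) (nat_lit 203315423332) (nat_lit 2) (nat_lit 5) (nat_lit 4) (nat_lit 4) (nat_lit 2) (nat_lit 4) (nat_lit 246) (nat_lit 220) (nat_lit 134)))) (XT.nd (nat_lit 156) (nat_lit 0) (nat_lit 0) (XT.nd (nat_lit 78) (nat_lit 0) (nat_lit 0) (XT.lf (nat_lit 0) (nat_lit 455715255896) (nat_lit 152) (nat_lit 433907155691) (nat_lit 0) (nat_lit 294953395729) (nat_lit 2) (nat_lit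 5) (nat_lit 4) (nat_lit 4) (nat_lit 2) (nat_lit 4) (nat_lit 247) (nat_lit 220) (nat_lit 133)) (XT.lf (nat_lit 0) (nat_lit 561098979615) (nat_lit 152) (nat_lit 391052197070) (nat_lit 0) (nat_lit 400337009582) (nat_lit 2) (nat_lit 5) (nat_lit 4) (nat_lit 4) (nat_lit 2) (nat_lit 4) (nat_lit 248) (nat_lit 220) (nat_lit 132))) (XT.nd (nat_lit 78) (nat_lit 0) (nat_lit 0) (XT.lf (nat_lit 0) (nat_lit 682290183775) (nat_lit 152) (nat_lit 341769132568) (nat_lit 0) (nat_lit 521528118205) (nat_lit 2) (nat_lit 5) (nat_lit 4) (nat_lit 4) (nat_lit 2) (nat_lit 4) (nat_lit 249) (nat_lit 220) (nat_lit 131)) (XT.lf (nat_lit 0) (nat_lit 821660000631) (nat_lit 152) (nat_lit 285093728315) (nat_lit 0) (nat_lit 660897851986) (nat_lit 2) (nat_lit 5) (nat_lit 4) (nat_lit 4) (nat_lit 2) (nat_lit 4) (nat_lit 250) (nat_lit 220) (nat_lit 130)))))) (XT.nd (nat_lit 624) (nat_lit 0) (nat_lit 0) (XT.nd (nat_lit 312)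 (nat_lit 0) (nat_lit 0) (XT.nd (nat_lit 156) (nat_lit 76) (nat_lit 0) (XT.nd (nat_lit 78) (nat_lit 0) (nat_lit 0) (XT.lf (nat_lit 0) (nat_lit 981935230947) (nat_lit 152) (nat_lit 219917117707) (nat_lit 0) (nat_lit 821173010063) (nat_lit 2) (nat_lit 5) (nat_lit 4) (nat_lit 4) (nat_lit 2) (nat_lit 4) (nat_lit 251) (nat_lit 220) (nat_lit 129)) (XT.lf (nat_lit 0) (nat_lit 1166251694447) (nat_lit 152) (nat_lit 144964106186) (nat_lit 0) (nat_lit 1005489410746) (nat_lit 2) (nat_lit 5) (nat_lit 4) (nat_lit 4) (nat_lit 2) (nat_lit 4) (nat_lit 252) (nat_lit 220) (nat_lit 128))) (XT.nd (nat_lit 78) (nat_lit 76) (nat_lit 0) (XT.lf (nat_lit 0) (nat_lit 1378215582808) (nat_lit 152) (nat_lit 58768221790) (nat_lit 0) (nat_lit 1217453244484) (nat_lit 2) (nat_lit 5) (nat_lit 4) (nat_lit 4) (nat_lit 2) (nat_lit 4) (nat_lit 253) (nat_lit 220) (nat_lit 127)) (XT.lf (nat_lit 0) (nat_lit 44300953966) (nat_lit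 76) (nat_lit 1579507469650) (nat_lit 76) (nat_lit 1418745083827) (nat_lit 1) (nat_lit 4) (nat_lit 2) (nat_lit 5) (nat_lit 2) (nat_lit 4) (nat_lit 254) (nat_lit 220) (nat_lit 126)))) (XT.nd (nat_lit 156) (nat_lit 0) (nat_lit 0) (XT.nd (nat_lit 78) (nat_lit 0) (nat_lit 0) (XT.lf (nat_lit 0) (nat_lit 169435187380) (nat_lit 76) (nat_lit 1739876941912) (nat_lit 76) (nat_lit 1579114514786) (nat_lit 1) (nat_lit 4) (nat_lit 2) (nat_lit 5) (nat_lit 2) (nat_lit 4) (nat_lit 255) (nat_lit 220) (nat_lit 125)) (XT.lf (nat_lit 0) (nat_lit 313339498894) (nat_lit 76) (nat_lit 1924301860203) (nat_lit 76) (nat_lit 1763539397162) (nat_lit 1) (nat_lit 4) (nat_lit 2) (nat_lit 5) (nat_lit 2) (nat_lit 4) (nat_lit 256) (nat_lit 220) (nat_lit 124))) (XT.nd (nat_lit 78) (nat_lit 0) (nat_lit 0) (XT.lf (nat_lit 0) (nat_lit 478829407645) (nat_lit 76) (nat_lit 2136390538142) (nat_lit 76) (nat_lit 1975628043869)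 (nat_lit 1) (nat_lit 4) (nat_lit 2) (nat_lit 5) (nat_lit 2) (nat_lit 4) (nat_lit 257) (nat_lit 220) (nat_lit 123)) (XT.lf (nat_lit 0) (nat_lit 669142759673) (nat_lit 76) (nat_lit 2380292536818) (nat_lit 76) (nat_lit 2219530015388) (nat_lit 1) (nat_lit 4) (nat_lit 2) (nat_lit 5) (nat_lit 2) (nat_lit 4) (nat_lit 258) (nat_lit 220) (nat_lit 122))))) (XT.nd (nat_lit 312) (nat_lit 0) (nat_lit 0) (XT.nd (nat_lit 156) (nat_lit 0) (nat_lit 0) (XT.nd (nat_lit 78) (nat_lit 0) (nat_lit 0) (XT.lf (nat_lit 0) (nat_lit 888003077085) (nat_lit 76) (nat_lit 2660779851858) (nat_lit 76) (nat_lit 2500017306813) (nat_lit 1) (nat_lit 4) (nat_lit 2) (nat_lit 5) (nat_lit 2) (nat_lit 4) (nat_lit 259) (nat_lit 220) (nat_lit 121)) (XT.lf (nat_lit 0) (nat_lit 1139692409568) (nat_lit 76) (nat_lit 2983340278556) (nat_lit 76) (nat_lit 2822577712976) (nat_lit 1) (nat_lit 4) (nat_lit 2) (nat_lit 5) (nat_lit 2) (nat_lit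 4) (nat_lit 260) (nat_lit 220) (nat_lit 120))) (XT.nd (nat_lit 78) (nat_lit 0) (nat_lit 0) (XT.lf (nat_lit 0) (nat_lit 1429135113627) (nat_lit 76) (nat_lit 3354284781782) (nat_lit 76) (nat_lit 3193522198345) (nat_lit 1) (nat_lit 4) (nat_lit 2) (nat_lit 5) (nat_lit 2) (nat_lit 4) (nat_lit 261) (nat_lit 220) (nat_lit 119)) (XT.lf (nat_lit 0) (nat_lit 1761994198690) (nat_lit 76) (nat_lit 3780870971382) (nat_lit 76) (nat_lit 3620108372418) (nat_lit 1) (nat_lit 4) (nat_lit 2) (nat_lit 5) (nat_lit 2) (nat_lit 4) (nat_lit 262) (nat_lit 220) (nat_lit 118)))) (XT.nd (nat_lit 156) (nat_lit 0) (nat_lit 0) (XT.nd (nat_lit 78) (nat_lit 0) (nat_lit 0) (XT.lf (nat_lit 0) (nat_lit 2144782125117) (nat_lit 76) (nat_lit 4271445098892) (nat_lit 76) (nat_lit 4110682486426) (nat_lit 1) (nat_lit 4) (nat_lit 2) (nat_lit 5) (nat_lit 2) (nat_lit 4) (nat_lit 263) (nat_lit 220) (nat_lit 117)) (XT.lf (nat_lit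 0) (nat_lit 2584988221902) (nat_lit 76) (nat_lit 4835605353762) (nat_lit 76) (nat_lit 4674842729556) (nat_lit 1) (nat_lit 4) (nat_lit 2) (nat_lit 5) (nat_lit 2) (nat_lit 4) (nat_lit 264) (nat_lit 220) (nat_lit 116))) (XT.nd (nat_lit 78) (nat_lit 0) (nat_lit 0) (XT.lf (nat_lit 0) (nat_lit 3091225217027) (nat_lit 76) (nat_lit 5484389654024) (nat_lit 76) (nat_lit 5323627019608) (nat_lit 1) (nat_lit 4) (nat_lit 2) (nat_lit 5) (nat_lit 2) (nat_lit 4) (nat_lit 265) (nat_lit 220) (nat_lit 115)) (XT.lf (nat_lit 0) (nat_lit 3673397747353) (nat_lit 76) (nat_lit 6230491605551) (nat_lit 76) (nat_lit 6069728962257) (nat_lit 1) (nat_lit 4) (nat_lit 2) (nat_lit 5) (nat_lit 2) (nat_lit 4) (nat_lit 266) (nat_lit 220) (nat_lit 114)))))))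
noncomputable def xc50 : XT := (XT.nd (nat_lit 28158) (nat_lit 0) (nat_lit 76) (XT.nd (nat_lit 624) (nat_lit 0) (nat_lit 0) (XT.nd (nat_lit 312) (nat_lit 0) (nat_lit 0) (XT.nd (nat_lit 156) (nat_lit 0) (nat_lit 0) (XT.nd (nat_lit 78) (nat_lit 0) (nat_lit 0) (XT.lf (nat_lit 0) (nat_lit 4342896144995) (nat_lit 76) (nat_lit 7088508855222) (nat_lit 76) (nat_lit 6927746204208) (nat_lit 1) (nat_lit 4) (nat_lit 2) (nat_lit 5) (nat_lit 2) (nat_lit 4) (nat_lit 267) (nat_lit 220) (nat_lit 113)) (XT.lf (nat_lit 0) (nat_lit 5112819291645) (nat_lit 76) (nat_lit 8075228697051) (nat_lit 76) (nat_lit 7914466039324) (nat_lit 1) (nat_lit 4) (nat_lit 2) (nat_lit 5) (nat_lit 2) (nat_lit 4) (nat_lit 268) (nat_lit 220) (nat_lit 112))) (XT.nd (nat_lit 78) (nat_lit 0) (nat_lit 0) (XT.lf (nat_lit 0) (nat_lit 5998230901043) (nat_lit 76) (nat_lit 9209956519248) (nat_lit 76) (nat_lit 9049193855685) (nat_lit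 1) (nat_lit 4) (nat_lit 2) (nat_lit 5) (nat_lit 2) (nat_lit 4) (nat_lit 269) (nat_lit 220) (nat_lit 111)) (XT.lf (nat_lit 0) (nat_lit 7016454243807) (nat_lit 76) (nat_lit 10514893518336) (nat_lit 76) (nat_lit 10354130849696) (nat_lit 1) (nat_lit 4) (nat_lit 2) (nat_lit 5) (nat_lit 2) (nat_lit 4) (nat_lit 270) (nat_lit 220) (nat_lit 110)))) (XT.nd (nat_lit 156) (nat_lit 0) (nat_lit 0) (XT.nd (nat_lit 78) (nat_lit 0) (nat_lit 0) (XT.lf (nat_lit 0) (nat_lit 8187411080991) (nat_lit 76) (nat_lit 12015571070382) (nat_lit 76) (nat_lit 11854808397328) (nat_lit 1) (nat_lit 4) (nat_lit 2) (nat_lit 5) (nat_lit 2) (nat_lit 4) (nat_lit 271) (nat_lit 220) (nat_lit 109)) (XT.lf (nat_lit 0) (nat_lit 9534011437671) (nat_lit 76) (nat_lit 13741350257926) (nat_lit 76) (nat_lit 13580587581035) (nat_lit 1) (nat_lit 4) (nat_lit 2) (nat_lit 5) (nat_lit 2) (nat_lit 4) (nat_lit 272) (nat_lit 220) (nat_lit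 108))) (XT.nd (nat_lit 78) (nat_lit 0) (nat_lit 0) (XT.lf (nat_lit 0) (nat_lit 11082601842565) (nat_lit 76) (nat_lit 15725996325944) (nat_lit 76) (nat_lit 15565233645714) (nat_lit 1) (nat_lit 4) (nat_lit 2) (nat_lit 5) (nat_lit 2) (nat_lit 4) (nat_lit 273) (nat_lit 220) (nat_lit 107)) (XT.lf (nat_lit 0) (nat_lit 12863480803593) (nat_lit 76) (nat_lit 18008339306199) (nat_lit 76) (nat_lit 17847576623067) (nat_lit 1) (nat_lit 4) (nat_lit 2) (nat_lit 5) (nat_lit 2) (nat_lit 4) (nat_lit 274) (nat_lit 220) (nat_lit 106))))) (XT.nd (nat_lit 27222) (nat_lit 0) (nat_lit 684) (XT.nd (nat_lit 27066) (nat_lit 0) (nat_lit 836) (XT.nd (nat_lit 78) (nat_lit 0) (nat_lit 0) (XT.lf (nat_lit 0) (nat_lit 14911491604776) (nat_lit 76) (nat_lit 20633033735262) (nat_lit 76) (nat_lit 20472271049607) (nat_lit 1) (nat_lit 4) (nat_lit 2) (nat_lit 5) (nat_lit 2) (nat_lit 4) (nat_lit 275) (nat_lit 220) (nat_lit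 105)) (XT.lf (nat_lit 0) (nat_lit 17266704022660) (nat_lit 76) (nat_lit 23651432330224) (nat_lit 76) (nat_lit 23490669642375) (nat_lit 1) (nat_lit 4) (nat_lit 2) (nat_lit 5) (nat_lit 2) (nat_lit 4) (nat_lit 276) (nat_lit 220) (nat_lit 104))) (XT.nd (nat_lit 78) (nat_lit 0) (nat_lit 0) (XT.lf (nat_lit 0) (nat_lit 13004720630) (nat_lit 0) (nat_lit 13004720630) (nat_lit 228) (nat_lit 12877096578) (nat_lit 12) (nat_lit 5) (nat_lit 12) (nat_lit 3) (nat_lit 15) (nat_lit 3) (nat_lit 221) (nat_lit 221) (nat_lit 158)) (XT.lf (nat_lit 0) (nat_lit 56098844629) (nat_lit 228) (nat_lit 23737937749) (nat_lit 304) (nat_lit 3742303751) (nat_lit 12) (nat_lit 5) (nat_lit 15) (nat_lit 3) (nat_lit 16) (nat_lit 5) (nat_lit 222) (nat_lit 221) (nat_lit 157)))) (XT.nd (nat_lit 156) (nat_lit 152) (nat_lit 0) (XT.nd (nat_lit 78) (nat_lit 0) (nat_lit 0) (XT.lf (nat_lit 76) (nat_lit 7960747821) (nat_lit 0) (nat_lit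 54396763774) (nat_lit 304) (nat_lit 27663513508) (nat_lit 13) (nat_lit 5) (nat_lit 12) (nat_lit 5) (nat_lit 16) (nat_lit 5) (nat_lit 223) (nat_lit 221) (nat_lit 156)) (XT.lf (nat_lit 76) (nat_lit 47081062483) (nat_lit 0) (nat_lit 23713441813) (nat_lit 304) (nat_lit 26448850934) (nat_lit 13) (nat_lit 5) (nat_lit 12) (nat_lit 5) (nat_lit 16) (nat_lit 5) (nat_lit 224) (nat_lit 221) (nat_lit 155))) (XT.nd (nat_lit 78) (nat_lit 228) (nat_lit 0) (XT.lf (nat_lit 0) (nat_lit 80975096437) (nat_lit 228) (nat_lit 13959872044) (nat_lit 76) (nat_lit 10542384170) (nat_lit 13) (nat_lit 5) (nat_lit 16) (nat_lit 5) (nat_lit 14) (nat_lit 5) (nat_lit 225) (nat_lit 221) (nat_lit 154)) (XT.lf (nat_lit 0) (nat_lit 29136718501) (nat_lit 228) (nat_lit 65880771115) (nat_lit 304) (nat_lit 19578775287) (nat_lit 10) (nat_lit 5) (nat_lit 13) (nat_lit 5) (nat_lit 14) (nat_lit 5) (nat_lit 226) (nat_lit 221) (nat_lit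 153)))))) (XT.nd (nat_lit 624) (nat_lit 228) (nat_lit 0) (XT.nd (nat_lit 312) (nat_lit 228) (nat_lit 0) (XT.nd (nat_lit 156) (nat_lit 76) (nat_lit 0) (XT.nd (nat_lit 78) (nat_lit 76) (nat_lit 0) (XT.lf (nat_lit 0) (nat_lit 80265805422) (nat_lit 228) (nat_lit 31629260301) (nat_lit 304) (nat_lit 13078643849) (nat_lit 10) (nat_lit 5) (nat_lit 13) (nat_lit 5) (nat_lit 14) (nat_lit 5) (nat_lit 227) (nat_lit 221) (nat_lit 152)) (XT.lf (nat_lit 0) (nat_lit 2013507720) (nat_lit 76) (nat_lit 129694690198) (nat_lit 152) (nat_lit 5139001744) (nat_lit 9) (nat_lit 5) (nat_lit 10) (nat_lit 5) (nat_lit 11) (nat_lit 4) (nat_lit 228) (nat_lit 221) (nat_lit 151))) (XT.nd (nat_lit 78) (nat_lit 0) (nat_lit 0) (XT.lf (nat_lit 0) (nat_lit 7589912324) (nat_lit 152) (nat_lit 91167151411) (nat_lit 76) (nat_lit 51126817030) (nat_lit 8) (nat_lit 5) (nat_lit 10) (nat_lit 5) (nat_lit 9) (nat_lit 5) (nat_lit 229)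 (nat_lit 221) (nat_lit 150)) (XT.lf (nat_lit 0) (nat_lit 21701365919) (nat_lit 152) (nat_lit 41196174297) (nat_lit 76) (nat_lit 101941926876) (nat_lit 8) (nat_lit 5) (nat_lit 10) (nat_lit 5) (nat_lit 9) (nat_lit 5) (nat_lit 230) (nat_lit 221) (nat_lit 149)))) (XT.nd (nat_lit 156) (nat_lit 76) (nat_lit 0) (XT.nd (nat_lit 78) (nat_lit 0) (nat_lit 0) (XT.lf (nat_lit 0) (nat_lit 17859723630) (nat_lit 152) (nat_lit 20808771609) (nat_lit 228) (nat_lit 143259062010) (nat_lit 6) (nat_lit 5) (nat_lit 8) (nat_lit 5) (nat_lit 9) (nat_lit 5) (nat_lit 231) (nat_lit 221) (nat_lit 148)) (XT.lf (nat_lit 0) (nat_lit 61578719654) (nat_lit 228) (nat_lit 112097845835) (nat_lit 76) (nat_lit 27392599876) (nat_lit 6) (nat_lit 5) (nat_lit 9) (nat_lit 5) (nat_lit 7) (nat_lit 4) (nat_lit 232) (nat_lit 221) (nat_lit 147))) (XT.nd (nat_lit 78) (nat_lit 76) (nat_lit 0) (XT.lf (nat_lit 0) (nat_lit 88915905966)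 (nat_lit 228) (nat_lit 53323923357) (nat_lit 76) (nat_lit 80693628348) (nat_lit 6) (nat_lit 5) (nat_lit 9) (nat_lit 5) (nat_lit 7) (nat_lit 4) (nat_lit 233) (nat_lit 221) (nat_lit 146)) (XT.lf (nat_lit 0) (nat_lit 15659634164) (nat_lit 76) (nat_lit 105342063204) (nat_lit 152) (nat_lit 126978498650) (nat_lit 5) (nat_lit 5) (nat_lit 6) (nat_lit 5) (nat_lit 7) (nat_lit 4) (nat_lit 234) (nat_lit 221) (nat_lit 145))))) (XT.nd (nat_lit 312) (nat_lit 152) (nat_lit 0) (XT.nd (nat_lit 156) (nat_lit 76) (nat_lit 0) (XT.nd (nat_lit 78) (nat_lit 0) (nat_lit 0) (XT.lf (nat_lit 0) (nat_lit 100983051370) (nat_lit 76) (nat_lit 59704317901) (nat_lit 152) (nat_lit 115678529527) (nat_lit 5) (nat_lit 5) (nat_lit 6) (nat_lit 5) (nat_lit 7) (nat_lit 4) (nat_lit 235) (nat_lit 221) (nat_lit 144)) (XT.lf (nat_lit 0) (nat_lit 199104497867) (nat_lit 76) (nat_lit 7221067908) (nat_lit 152) (nat_lit 102683944888)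 (nat_lit 5) (nat_lit 5) (nat_lit 6) (nat_lit 5) (nat_lit 7) (nat_lit 4) (nat_lit 236) (nat_lit 221) (nat_lit 143))) (XT.nd (nat_lit 78) (nat_lit 76) (nat_lit 0) (XT.lf (nat_lit 0) (nat_lit 261009395817) (nat_lit 152) (nat_lit 36806157591) (nat_lit 0) (nat_lit 48404129411) (nat_lit 5) (nat_lit 5) (nat_lit 7) (nat_lit 4) (nat_lit 5) (nat_lit 4) (nat_lit 237) (nat_lit 221) (nat_lit 142)) (XT.lf (nat_lit 0) (nat_lit 51497969807) (nat_lit 76) (nat_lit 274873860482) (nat_lit 76) (nat_lit 62268149604) (nat_lit 4) (nat_lit 4) (nat_lit 5) (nat_lit 5) (nat_lit 5) (nat_lit 4) (nat_lit 238) (nat_lit 221) (nat_lit 141)))) (XT.nd (nat_lit 156) (nat_lit 152) (nat_lit 0) (XT.nd (nat_lit 78) (nat_lit 0) (nat_lit 0) (XT.lf (nat_lit 0) (nat_lit 157183843660) (nat_lit 76) (nat_lit 246278509908) (nat_lit 76) (nat_lit 33672412532) (nat_lit 4) (nat_lit 4) (nat_lit 5) (nat_lit 5) (nat_lit 5) (nat_lit 4)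 (nat_lit 239) (nat_lit 221) (nat_lit 140)) (XT.lf (nat_lit 0) (nat_lit 278722265663) (nat_lit 76) (nat_lit 213393985673) (nat_lit 76) (nat_lit 787552212) (nat_lit 4) (nat_lit 4) (nat_lit 5) (nat_lit 5) (nat_lit 5) (nat_lit 4) (nat_lit 240) (nat_lit 221) (nat_lit 139))) (XT.nd (nat_lit 78) (nat_lit 76) (nat_lit 0) (XT.lf (nat_lit 0) (nat_lit 33733179194) (nat_lit 152) (nat_lit 140080390440) (nat_lit 76) (nat_lit 382994656994) (nat_lit 3) (nat_lit 5) (nat_lit 5) (nat_lit 5) (nat_lit 4) (nat_lit 4) (nat_lit 241) (nat_lit 221) (nat_lit 138)) (XT.nd (nat_lit 78) (nat_lit 76) (nat_lit 0) (XT.lf (nat_lit 0) (nat_lit 73351226500) (nat_lit 152) (nat_lit 54901842862) (nat_lit 76) (nat_lit 502039644739) (nat_lit 3) (nat_lit 5) (nat_lit 5) (nat_lit 5) (nat_lit 4) (nat_lit 4) (nat_lit 242) (nat_lit 221) (nat_lit 137)) (XT.lf (nat_lit 0) (nat_lit 47260729456) (nat_lit 76) (nat_lit 73608075323)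 (nat_lit 152) (nat_lit 593637547882) (nat_lit 2) (nat_lit 5) (nat_lit 3) (nat_lit 5) (nat_lit 4) (nat_lit 4) (nat_lit 243) (nat_lit 221) (nat_lit 136))))))))
noncomputable def xc51 : XT := (XT.nd (nat_lit 29562) (nat_lit 0) (nat_lit 76) (XT.nd (nat_lit 1248) (nat_lit 0) (nat_lit 0) (XT.nd (nat_lit 624) (nat_lit 76) (nat_lit 0) (XT.nd (nat_lit 312) (nat_lit 0) (nat_lit 0) (XT.nd (nat_lit 156) (nat_lit 0) (nat_lit 0) (XT.nd (nat_lit 78) (nat_lit 0) (nat_lit 0) (XT.lf (nat_lit 0) (nat_lit 170917682404) (nat_lit 76) (nat_lit 7466073586) (nat_lit 152) (nat_lit 632537821932) (nat_lit 2) (nat_lit 5) (nat_lit 3) (nat_lit 5) (nat_lit 4) (nat_lit 4) (nat_lit 244) (nat_lit 221) (nat_lit 135)) (XT.lf (nat_lit 0) (nat_lit 247366296022) (nat_lit 152) (nat_lit 611516583373) (nat_lit 0) (nat_lit 62490156830) (nat_lit 2) (nat_lit 5) (nat_lit 4) (nat_lit 4) (nat_lit 2) (nat_lit 4) (nat_lit 245) (nat_lit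 221) (nat_lit 134))) (XT.nd (nat_lit 78) (nat_lit 0) (nat_lit 0) (XT.lf (nat_lit 0) (nat_lit 327051641061) (nat_lit 152) (nat_lit 579111884108) (nat_lit 0) (nat_lit 142175375523) (nat_lit 2) (nat_lit 5) (nat_lit 4) (nat_lit 4) (nat_lit 2) (nat_lit 4) (nat_lit 246) (nat_lit 221) (nat_lit 133)) (XT.lf (nat_lit 0) (nat_lit 418689698021) (nat_lit 152) (nat_lit 541846638553) (nat_lit 0) (nat_lit 233813322615) (nat_lit 2) (nat_lit 5) (nat_lit 4) (nat_lit 4) (nat_lit 2) (nat_lit 4) (nat_lit 247) (nat_lit 221) (nat_lit 132)))) (XT.nd (nat_lit 156) (nat_lit 0) (nat_lit 0) (XT.nd (nat_lit 78) (nat_lit 0) (nat_lit 0) (XT.lf (nat_lit 0) (nat_lit 524073385407) (nat_lit 152) (nat_lit 498991744077) (nat_lit 0) (nat_lit 339196914465) (nat_lit 2) (nat_lit 5) (nat_lit 4) (nat_lit 4) (nat_lit 2) (nat_lit 4) (nat_lit 248) (nat_lit 221) (nat_lit 131)) (XT.lf (nat_lit 0) (nat_lit 645264557973) (nat_lit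 152) (nat_lit 449708735355) (nat_lit 0) (nat_lit 460388003956) (nat_lit 2) (nat_lit 5) (nat_lit 4) (nat_lit 4) (nat_lit 2) (nat_lit 4) (nat_lit 249) (nat_lit 221) (nat_lit 130))) (XT.nd (nat_lit 78) (nat_lit 0) (nat_lit 0) (XT.lf (nat_lit 0) (nat_lit 784634347355) (nat_lit 152) (nat_lit 393033379605) (nat_lit 0) (nat_lit 599757721099) (nat_lit 2) (nat_lit 5) (nat_lit 4) (nat_lit 4) (nat_lit 2) (nat_lit 4) (nat_lit 250) (nat_lit 221) (nat_lit 129)) (XT.lf (nat_lit 0) (nat_lit 944909553781) (nat_lit 152) (nat_lit 327856811173) (nat_lit 0) (nat_lit 760032864708) (nat_lit 2) (nat_lit 5) (nat_lit 4) (nat_lit 4) (nat_lit 2) (nat_lit 4) (nat_lit 251) (nat_lit 221) (nat_lit 128))))) (XT.nd (nat_lit 312) (nat_lit 0) (nat_lit 0) (XT.nd (nat_lit 156) (nat_lit 76) (nat_lit 0) (XT.nd (nat_lit 78) (nat_lit 0) (nat_lit 0) (XT.lf (nat_lit 0) (nat_lit 1129225996507) (nat_lit 152) (nat_lit 252903836328)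 (nat_lit 0) (nat_lit 944349252810) (nat_lit 2) (nat_lit 5) (nat_lit 4) (nat_lit 4) (nat_lit 2) (nat_lit 4) (nat_lit 252) (nat_lit 221) (nat_lit 127)) (XT.lf (nat_lit 0) (nat_lit 1341189866803) (nat_lit 152) (nat_lit 166707983823) (nat_lit 0) (nat_lit 1156313075608) (nat_lit 2) (nat_lit 5) (nat_lit 4) (nat_lit 4) (nat_lit 2) (nat_lit 4) (nat_lit 253) (nat_lit 221) (nat_lit 126))) (XT.nd (nat_lit 78) (nat_lit 76) (nat_lit 0) (XT.lf (nat_lit 0) (nat_lit 1584948283872) (nat_lit 152) (nat_lit 67582813067) (nat_lit 0) (nat_lit 1400071451374) (nat_lit 2) (nat_lit 5) (nat_lit 4) (nat_lit 4) (nat_lit 2) (nat_lit 4) (nat_lit 254) (nat_lit 221) (nat_lit 125)) (XT.lf (nat_lit 0) (nat_lit 50946709871) (nat_lit 76) (nat_lit 1816433318873) (nat_lit 76) (nat_lit 1631556450459) (nat_lit 1) (nat_lit 4) (nat_lit 2) (nat_lit 5) (nat_lit 2) (nat_lit 4) (nat_lit 255) (nat_lit 221) (nat_lit 124)))) (XT.nd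 (nat_lit 156) (nat_lit 0) (nat_lit 0) (XT.nd (nat_lit 78) (nat_lit 0) (nat_lit 0) (XT.lf (nat_lit 0) (nat_lit 194850998366) (nat_lit 76) (nat_lit 2000858247352) (nat_lit 76) (nat_lit 1815981347707) (nat_lit 1) (nat_lit 4) (nat_lit 2) (nat_lit 5) (nat_lit 2) (nat_lit 4) (nat_lit 256) (nat_lit 221) (nat_lit 123)) (XT.lf (nat_lit 0) (nat_lit 360340887101) (nat_lit 76) (nat_lit 2212946934149) (nat_lit 76) (nat_lit 2028070007347) (nat_lit 1) (nat_lit 4) (nat_lit 2) (nat_lit 5) (nat_lit 2) (nat_lit 4) (nat_lit 257) (nat_lit 221) (nat_lit 122))) (XT.nd (nat_lit 78) (nat_lit 0) (nat_lit 0) (XT.lf (nat_lit 0) (nat_lit 550654221724) (nat_lit 76) (nat_lit 2456848940529) (nat_lit 76) (nat_lit 2271971990112) (nat_lit 1) (nat_lit 4) (nat_lit 2) (nat_lit 5) (nat_lit 2) (nat_lit 4) (nat_lit 258) (nat_lit 221) (nat_lit 121)) (XT.lf (nat_lit 0) (nat_lit 769514524001) (nat_lit 76) (nat_lit 2737336262267)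 (nat_lit 76) (nat_lit 2552459291315) (nat_lit 1) (nat_lit 4) (nat_lit 2) (nat_lit 5) (nat_lit 2) (nat_lit 4) (nat_lit 259) (nat_lit 221) (nat_lit 120)))))) (XT.nd (nat_lit 624) (nat_lit 0) (nat_lit 0) (XT.nd (nat_lit 312) (nat_lit 0) (nat_lit 0) (XT.nd (nat_lit 156) (nat_lit 0) (nat_lit 0) (XT.nd (nat_lit 78) (nat_lit 0) (nat_lit 0) (XT.lf (nat_lit 0) (nat_lit 1021203843323) (nat_lit 76) (nat_lit 3059896694790) (nat_lit 76) (nat_lit 2875019705982) (nat_lit 1) (nat_lit 4) (nat_lit 2) (nat_lit 5) (nat_lit 2) (nat_lit 4) (nat_lit 260) (nat_lit 221) (nat_lit 119)) (XT.lf (nat_lit 0) (nat_lit 1310646535938) (nat_lit 76) (nat_lit 3430841203081) (nat_lit 76) (nat_lit 3245964198746) (nat_lit 1) (nat_lit 4) (nat_lit 2) (nat_lit 5) (nat_lit 2) (nat_lit 4) (nat_lit 261) (nat_lit 221) (nat_lit 118))) (XT.nd (nat_lit 78) (nat_lit 0) (nat_lit 0) (XT.lf (nat_lit 0) (nat_lit 1643505611049) (nat_lit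 76) (nat_lit 3857427397086) (nat_lit 76) (nat_lit 3672550379248) (nat_lit 1) (nat_lit 4) (nat_lit 2) (nat_lit 5) (nat_lit 2) (nat_lit 4) (nat_lit 262) (nat_lit 221) (nat_lit 117)) (XT.lf (nat_lit 0) (nat_lit 2026293528822) (nat_lit 76) (nat_lit 4348001528425) (nat_lit 76) (nat_lit 4163124498847) (nat_lit 1) (nat_lit 4) (nat_lit 2) (nat_lit 5) (nat_lit 2) (nat_lit 4) (nat_lit 263) (nat_lit 221) (nat_lit 116)))) (XT.nd (nat_lit 156) (nat_lit 0) (nat_lit 0) (XT.nd (nat_lit 78) (nat_lit 0) (nat_lit 0) (XT.lf (nat_lit 0) (nat_lit 2466499618083) (nat_lit 76) (nat_lit 4912161786626) (nat_lit 76) (nat_lit 4727284746838) (nat_lit 1) (nat_lit 4) (nat_lit 2) (nat_lit 5) (nat_lit 2) (nat_lit 4) (nat_lit 264) (nat_lit 221) (nat_lit 115)) (XT.lf (nat_lit 0) (nat_lit 2972736606665) (nat_lit 76) (nat_lit 5560946089784) (nat_lit 76) (nat_lit 5376069041118) (nat_lit 1) (nat_lit 4) (nat_lit 2) (nat_lit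 5) (nat_lit 2) (nat_lit 4) (nat_lit 265) (nat_lit 221) (nat_lit 114))) (XT.nd (nat_lit 78) (nat_lit 0) (nat_lit 0) (XT.lf (nat_lit 0) (nat_lit 3554909131301) (nat_lit 76) (nat_lit 6307048043829) (nat_lit 76) (nat_lit 6122170987444) (nat_lit 1) (nat_lit 4) (nat_lit 2) (nat_lit 5) (nat_lit 2) (nat_lit 4) (nat_lit 266) (nat_lit 221) (nat_lit 113)) (XT.lf (nat_lit 0) (nat_lit 4224407523995) (nat_lit 76) (nat_lit 7165065295690) (nat_lit 76) (nat_lit 6980188232591) (nat_lit 1) (nat_lit 4) (nat_lit 2) (nat_lit 5) (nat_lit 2) (nat_lit 4) (nat_lit 267) (nat_lit 221) (nat_lit 112))))) (XT.nd (nat_lit 312) (nat_lit 0) (nat_lit 0) (XT.nd (nat_lit 156) (nat_lit 0) (nat_lit 0) (XT.nd (nat_lit 78) (nat_lit 0) (nat_lit 0) (XT.lf (nat_lit 0) (nat_lit 4994330666343) (nat_lit 76) (nat_lit 8151785139423) (nat_lit 76) (nat_lit 7966908070488) (nat_lit 1) (nat_lit 4) (nat_lit 2) (nat_lit 5) (nat_lit 2)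 (nat_lit 4) (nat_lit 268) (nat_lit 221) (nat_lit 111)) (XT.lf (nat_lit 0) (nat_lit 5879742272000) (nat_lit 76) (nat_lit 9286512963277) (nat_lit 76) (nat_lit 9101635889265) (nat_lit 1) (nat_lit 4) (nat_lit 2) (nat_lit 5) (nat_lit 2) (nat_lit 4) (nat_lit 269) (nat_lit 221) (nat_lit 110))) (XT.nd (nat_lit 78) (nat_lit 0) (nat_lit 0) (XT.lf (nat_lit 0) (nat_lit 6897965611511) (nat_lit 76) (nat_lit 10591449963804) (nat_lit 76) (nat_lit 10406572885378) (nat_lit 1) (nat_lit 4) (nat_lit 2) (nat_lit 5) (nat_lit 2) (nat_lit 4) (nat_lit 270) (nat_lit 221) (nat_lit 109)) (XT.lf (nat_lit 0) (nat_lit 8068922445866) (nat_lit 76) (nat_lit 12092127517102) (nat_lit 76) (nat_lit 11907250434838) (nat_lit 1) (nat_lit 4) (nat_lit 2) (nat_lit 5) (nat_lit 2) (nat_lit 4) (nat_lit 271) (nat_lit 221) (nat_lit 108)))) (XT.nd (nat_lit 156) (nat_lit 0) (nat_lit 0) (XT.nd (nat_lit 78) (nat_lit 0) (nat_lit 0) (XT.lf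 (nat_lit 0) (nat_lit 9415522800086) (nat_lit 76) (nat_lit 13817906705735) (nat_lit 76) (nat_lit 13633029620134) (nat_lit 1) (nat_lit 4) (nat_lit 2) (nat_lit 5) (nat_lit 2) (nat_lit 4) (nat_lit 272) (nat_lit 221) (nat_lit 107)) (XT.lf (nat_lit 0) (nat_lit 10964113202840) (nat_lit 76) (nat_lit 15802552774699) (nat_lit 76) (nat_lit 15617675686196) (nat_lit 1) (nat_lit 4) (nat_lit 2) (nat_lit 5) (nat_lit 2) (nat_lit 4) (nat_lit 273) (nat_lit 221) (nat_lit 106))) (XT.nd (nat_lit 78) (nat_lit 0) (nat_lit 0) (XT.lf (nat_lit 0) (nat_lit 12744992162009) (nat_lit 76) (nat_lit 18084895755777) (nat_lit 76) (nat_lit 17900018664751) (nat_lit 1) (nat_lit 4) (nat_lit 2) (nat_lit 5) (nat_lit 2) (nat_lit 4) (nat_lit 274) (nat_lit 221) (nat_lit 105)) (XT.lf (nat_lit 0) (nat_lit 14793002961575) (nat_lit 76) (nat_lit 20709590185557) (nat_lit 76) (nat_lit 20524713092335) (nat_lit 1) (nat_lit 4) (nat_lit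 2) (nat_lit 5) (nat_lit 2) (nat_lit 4) (nat_lit 275) (nat_lit 221) (nat_lit 104))))))) (XT.nd (nat_lit 1248) (nat_lit 228) (nat_lit 0) (XT.nd (nat_lit 624) (nat_lit 304) (nat_lit 0) (XT.nd (nat_lit 312) (nat_lit 228) (nat_lit 0) (XT.nd (nat_lit 156) (nat_lit 0) (nat_lit 0) (XT.nd (nat_lit 78) (nat_lit 0) (nat_lit 0) (XT.lf (nat_lit 0) (nat_lit 14959474560) (nat_lit 0) (nat_lit 14959474560) (nat_lit 228) (nat_lit 14799175107) (nat_lit 12) (nat_lit 5) (nat_lit 12) (nat_lit 3) (nat_lit 15) (nat_lit 3) (nat_lit 222) (nat_lit 222) (nat_lit 156)) (XT.lf (nat_lit 0) (nat_lit 64527452440) (nat_lit 228) (nat_lit 27288875975) (nat_lit 304) (nat_lit 4297239492) (nat_lit 12) (nat_lit 5) (nat_lit 15) (nat_lit 3) (nat_lit 16) (nat_lit 5) (nat_lit 223) (nat_lit 222) (nat_lit 155))) (XT.nd (nat_lit 78) (nat_lit 0) (nat_lit 0) (XT.lf (nat_lit 76) (nat_lit 9164169139) (nat_lit 0) (nat_lit 62559338247)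 (nat_lit 304) (nat_lit 31798543103) (nat_lit 13) (nat_lit 5) (nat_lit 12) (nat_lit 5) (nat_lit 16) (nat_lit 5) (nat_lit 224) (nat_lit 222) (nat_lit 154)) (XT.lf (nat_lit 76) (nat_lit 54151316764) (nat_lit 0) (nat_lit 27273118873) (nat_lit 304) (nat_lit 30403572112) (nat_lit 13) (nat_lit 5) (nat_lit 12) (nat_lit 5) (nat_lit 16) (nat_lit 5) (nat_lit 225) (nat_lit 222) (nat_lit 153)))) (XT.nd (nat_lit 156) (nat_lit 76) (nat_lit 0) (XT.nd (nat_lit 78) (nat_lit 228) (nat_lit 0) (XT.lf (nat_lit 0) (nat_lit 93130617876) (nat_lit 228) (nat_lit 16045108633) (nat_lit 76) (nat_lit 12121634051) (nat_lit 13) (nat_lit 5) (nat_lit 16) (nat_lit 5) (nat_lit 14) (nat_lit 5) (nat_lit 226) (nat_lit 222) (nat_lit 152)) (XT.lf (nat_lit 0) (nat_lit 33515573029) (nat_lit 228) (nat_lit 75762935192) (nat_lit 304) (nat_lit 22505757626) (nat_lit 10) (nat_lit 5) (nat_lit 13) (nat_lit 5) (nat_lit 14) (nat_lit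 5) (nat_lit 227) (nat_lit 222) (nat_lit 151))) (XT.nd (nat_lit 78) (nat_lit 76) (nat_lit 0) (XT.lf (nat_lit 0) (nat_lit 92312934282) (nat_lit 228) (nat_lit 36373691442) (nat_lit 304) (nat_lit 15031889162) (nat_lit 10) (nat_lit 5) (nat_lit 13) (nat_lit 5) (nat_lit 14) (nat_lit 5) (nat_lit 228) (nat_lit 222) (nat_lit 150)) (XT.lf (nat_lit 0) (nat_lit 2323657931) (nat_lit 76) (nat_lit 149147452509) (nat_lit 152) (nat_lit 5902031007) (nat_lit 9) (nat_lit 5) (nat_lit 10) (nat_lit 5) (nat_lit 11) (nat_lit 4) (nat_lit 229) (nat_lit 222) (nat_lit 149))))) (XT.nd (nat_lit 312) (nat_lit 76) (nat_lit 0) (XT.nd (nat_lit 156) (nat_lit 152) (nat_lit 0) (XT.nd (nat_lit 78) (nat_lit 0) (nat_lit 0) (XT.lf (nat_lit 0) (nat_lit 8734594581) (nat_lit 152) (nat_lit 104834451630) (nat_lit 76) (nat_lit 58796384719) (nat_lit 8) (nat_lit 5) (nat_lit 10) (nat_lit 5) (nat_lit 9) (nat_lit 5) (nat_lit 230) (nat_lit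 222) (nat_lit 148)) (XT.lf (nat_lit 0) (nat_lit 24961958119) (nat_lit 152) (nat_lit 47368841753) (nat_lit 76) (nat_lit 117233689938) (nat_lit 8) (nat_lit 5) (nat_lit 10) (nat_lit 5) (nat_lit 9) (nat_lit 5) (nat_lit 231) (nat_lit 222) (nat_lit 147))) (XT.nd (nat_lit 78) (nat_lit 0) (nat_lit 0) (XT.lf (nat_lit 0) (nat_lit 20545133651) (nat_lit 152) (nat_lit 23928587635) (nat_lit 228) (nat_lit 164742149178) (nat_lit 6) (nat_lit 5) (nat_lit 8) (nat_lit 5) (nat_lit 9) (nat_lit 5) (nat_lit 232) (nat_lit 222) (nat_lit 146)) (XT.lf (nat_lit 0) (nat_lit 70819887481) (nat_lit 228) (nat_lit 128906253363) (nat_lit 76) (nat_lit 31502677858) (nat_lit 6) (nat_lit 5) (nat_lit 9) (nat_lit 5) (nat_lit 7) (nat_lit 4) (nat_lit 233) (nat_lit 222) (nat_lit 145)))) (XT.nd (nat_lit 156) (nat_lit 0) (nat_lit 0) (XT.nd (nat_lit 78) (nat_lit 76) (nat_lit 0) (XT.lf (nat_lit 0) (nat_lit 102257083060) (nat_lit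 228) (nat_lit 61317060253) (nat_lit 76) (nat_lit 92798705644) (nat_lit 6) (nat_lit 5) (nat_lit 9) (nat_lit 5) (nat_lit 7) (nat_lit 4) (nat_lit 234) (nat_lit 222) (nat_lit 144)) (XT.lf (nat_lit 0) (nat_lit 18013783095) (nat_lit 76) (nat_lit 121141681051) (nat_lit 152) (nat_lit 146021183419) (nat_lit 5) (nat_lit 5) (nat_lit 6) (nat_lit 5) (nat_lit 7) (nat_lit 4) (nat_lit 235) (nat_lit 222) (nat_lit 143))) (XT.nd (nat_lit 78) (nat_lit 0) (nat_lit 0) (XT.lf (nat_lit 0) (nat_lit 116135034125) (nat_lit 76) (nat_lit 68658494600) (nat_lit 152) (nat_lit 133026752410) (nat_lit 5) (nat_lit 5) (nat_lit 6) (nat_lit 5) (nat_lit 7) (nat_lit 4) (nat_lit 236) (nat_lit 222) (nat_lit 142)) (XT.lf (nat_lit 0) (nat_lit 228974107372) (nat_lit 76) (nat_lit 8302948977) (nat_lit 152) (nat_lit 118083443972) (nat_lit 5) (nat_lit 5) (nat_lit 6) (nat_lit 5) (nat_lit 7) (nat_lit 4) (nat_lit 237) (nat_lit 222)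 (nat_lit 141)))))) (XT.nd (nat_lit 624) (nat_lit 0) (nat_lit 0) (XT.nd (nat_lit 312) (nat_lit 152) (nat_lit 0) (XT.nd (nat_lit 156) (nat_lit 0) (nat_lit 0) (XT.nd (nat_lit 78) (nat_lit 76) (nat_lit 0) (XT.lf (nat_lit 0) (nat_lit 300163160557) (nat_lit 152) (nat_lit 42323325750) (nat_lit 0) (nat_lit 55665762077) (nat_lit 5) (nat_lit 5) (nat_lit 7) (nat_lit 4) (nat_lit 5) (nat_lit 4) (nat_lit 238) (nat_lit 222) (nat_lit 140)) (XT.lf (nat_lit 0) (nat_lit 59226250054) (nat_lit 76) (nat_lit 316103551363) (nat_lit 76) (nat_lit 71605816797) (nat_lit 4) (nat_lit 4) (nat_lit 5) (nat_lit 5) (nat_lit 5) (nat_lit 4) (nat_lit 239) (nat_lit 222) (nat_lit 139))) (XT.nd (nat_lit 78) (nat_lit 0) (nat_lit 0) (XT.lf (nat_lit 0) (nat_lit 180764537405) (nat_lit 76) (nat_lit 283219079271) (nat_lit 76) (nat_lit 38721052457) (nat_lit 4) (nat_lit 4) (nat_lit 5) (nat_lit 5) (nat_lit 5) (nat_lit 4) (nat_lit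 240) (nat_lit 222) (nat_lit 138)) (XT.lf (nat_lit 0) (nat_lit 320533316119) (nat_lit 76) (nat_lit 245402033851) (nat_lit 76) (nat_lit 903752909) (nat_lit 4) (nat_lit 4) (nat_lit 5) (nat_lit 5) (nat_lit 5) (nat_lit 4) (nat_lit 241) (nat_lit 222) (nat_lit 137)))) (XT.nd (nat_lit 156) (nat_lit 76) (nat_lit 0) (XT.nd (nat_lit 78) (nat_lit 0) (nat_lit 0) (XT.lf (nat_lit 0) (nat_lit 38794686615) (nat_lit 152) (nat_lit 161089925700) (nat_lit 76) (nat_lit 440444602045) (nat_lit 3) (nat_lit 5) (nat_lit 5) (nat_lit 5) (nat_lit 4) (nat_lit 4) (nat_lit 242) (nat_lit 222) (nat_lit 136)) (XT.lf (nat_lit 0) (nat_lit 84355241380) (nat_lit 152) (nat_lit 63134925112) (nat_lit 76) (nat_lit 577346240581) (nat_lit 3) (nat_lit 5) (nat_lit 5) (nat_lit 5) (nat_lit 4) (nat_lit 4) (nat_lit 243) (nat_lit 222) (nat_lit 135))) (XT.nd (nat_lit 78) (nat_lit 0) (nat_lit 0) (XT.lf (nat_lit 0) (nat_lit 54351933318)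 (nat_lit 76) (nat_lit 84648436213) (nat_lit 152) (nat_lit 682681736810) (nat_lit 2) (nat_lit 5) (nat_lit 3) (nat_lit 5) (nat_lit 4) (nat_lit 4) (nat_lit 244) (nat_lit 222) (nat_lit 134)) (XT.lf (nat_lit 0) (nat_lit 196557156020) (nat_lit 76) (nat_lit 8585245139) (nat_lit 152) (nat_lit 727417240218) (nat_lit 2) (nat_lit 5) (nat_lit 3) (nat_lit 5) (nat_lit 4) (nat_lit 4) (nat_lit 245) (nat_lit 222) (nat_lit 133))))) (XT.nd (nat_lit 312) (nat_lit 0) (nat_lit 0) (XT.nd (nat_lit 156) (nat_lit 0) (nat_lit 0) (XT.nd (nat_lit 78) (nat_lit 0) (nat_lit 0) (XT.lf (nat_lit 0) (nat_lit 284472207722) (nat_lit 152) (nat_lit 703242363167) (nat_lit 0) (nat_lit 71864266138) (nat_lit 2) (nat_lit 5) (nat_lit 4) (nat_lit 4) (nat_lit 2) (nat_lit 4) (nat_lit 246) (nat_lit 222) (nat_lit 132)) (XT.lf (nat_lit 0) (nat_lit 376110228348) (nat_lit 152) (nat_lit 665977181758) (nat_lit 0) (nat_lit 163502191228)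 (nat_lit 2) (nat_lit 5) (nat_lit 4) (nat_lit 4) (nat_lit 2) (nat_lit 4) (nat_lit 247) (nat_lit 222) (nat_lit 131))) (XT.nd (nat_lit 78) (nat_lit 0) (nat_lit 0) (XT.lf (nat_lit 0) (nat_lit 481493884139) (nat_lit 152) (nat_lit 623122343061) (nat_lit 0) (nat_lit 268885763944) (nat_lit 2) (nat_lit 5) (nat_lit 4) (nat_lit 4) (nat_lit 2) (nat_lit 4) (nat_lit 248) (nat_lit 222) (nat_lit 130)) (XT.lf (nat_lit 0) (nat_lit 602685029231) (nat_lit 152) (nat_lit 573839382841) (nat_lit 0) (nat_lit 390076836797) (nat_lit 2) (nat_lit 5) (nat_lit 4) (nat_lit 4) (nat_lit 2) (nat_lit 4) (nat_lit 249) (nat_lit 222) (nat_lit 129)))) (XT.nd (nat_lit 156) (nat_lit 0) (nat_lit 0) (XT.nd (nat_lit 78) (nat_lit 0) (nat_lit 0) (XT.lf (nat_lit 0) (nat_lit 742054794723) (nat_lit 152) (nat_lit 517164069268) (nat_lit 0) (nat_lit 529446539473) (nat_lit 2) (nat_lit 5) (nat_lit 4) (nat_lit 4) (nat_lit 2) (nat_lit 4)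 (nat_lit 250) (nat_lit 222) (nat_lit 128)) (XT.lf (nat_lit 0) (nat_lit 902329980375) (nat_lit 152) (nat_lit 451987537511) (nat_lit 0) (nat_lit 689721670501) (nat_lit 2) (nat_lit 5) (nat_lit 4) (nat_lit 4) (nat_lit 2) (nat_lit 4) (nat_lit 251) (nat_lit 222) (nat_lit 127))) (XT.nd (nat_lit 78) (nat_lit 0) (nat_lit 0) (XT.lf (nat_lit 0) (nat_lit 1086646405037) (nat_lit 152) (nat_lit 377034594558) (nat_lit 0) (nat_lit 874038047664) (nat_lit 2) (nat_lit 5) (nat_lit 4) (nat_lit 4) (nat_lit 2) (nat_lit 4) (nat_lit 252) (nat_lit 222) (nat_lit 126)) (XT.lf (nat_lit 0) (nat_lit 1298610259625) (nat_lit 152) (nat_lit 290838769785) (nat_lit 0) (nat_lit 1086001860950) (nat_lit 2) (nat_lit 5) (nat_lit 4) (nat_lit 4) (nat_lit 2) (nat_lit 4) (nat_lit 253) (nat_lit 222) (nat_lit 125))))))))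
noncomputable def xc52 : XT := (XT.nd (nat_lit 29796) (nat_lit 0) (nat_lit 0) (XT.nd (nat_lit 1248) (nat_lit 0) (nat_lit 0) (XT.nd (nat_lit 624) (nat_lit 0) (nat_lit 0) (XT.nd (nat_lit 312) (nat_lit 0) (nat_lit 0) (XT.nd (nat_lit 156) (nat_lit 76) (nat_lit 0) (XT.nd (nat_lit 78) (nat_lit 0) (nat_lit 0) (XT.lf (nat_lit 0) (nat_lit 1542368663034) (nat_lit 152) (nat_lit 191713623143) (nat_lit 0) (nat_lit 1329760228443) (nat_lit 2) (nat_lit 5) (nat_lit 4) (nat_lit 4) (nat_lit 2) (nat_lit 4) (nat_lit 254) (nat_lit 222) (nat_lit 124)) (XT.lf (nat_lit 0) (nat_lit 1822690801418) (nat_lit 152) (nat_lit 77719749588) (nat_lit 0) (nat_lit 1610082335596) (nat_lit 2) (nat_lit 5) (nat_lit 4) (nat_lit 4) (nat_lit 2) (nat_lit 4) (nat_lit 255) (nat_lit 222) (nat_lit 123))) (XT.nd (nat_lit 78) (nat_lit 0) (nat_lit 0) (XT.lf (nat_lit 0) (nat_lit 58589179725) (nat_lit 76) (nat_lit 2088898111619) (nat_lit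 76) (nat_lit 1876289618639) (nat_lit 1) (nat_lit 4) (nat_lit 2) (nat_lit 5) (nat_lit 2) (nat_lit 4) (nat_lit 256) (nat_lit 222) (nat_lit 122)) (XT.lf (nat_lit 0) (nat_lit 224079051054) (nat_lit 76) (nat_lit 2300986806120) (nat_lit 76) (nat_lit 2088378289525) (nat_lit 1) (nat_lit 4) (nat_lit 2) (nat_lit 5) (nat_lit 2) (nat_lit 4) (nat_lit 257) (nat_lit 222) (nat_lit 121)))) (XT.nd (nat_lit 156) (nat_lit 0) (nat_lit 0) (XT.nd (nat_lit 78) (nat_lit 0) (nat_lit 0) (XT.lf (nat_lit 0) (nat_lit 414392370543) (nat_lit 76) (nat_lit 2544888819198) (nat_lit 76) (nat_lit 2332280282068) (nat_lit 1) (nat_lit 4) (nat_lit 2) (nat_lit 5) (nat_lit 2) (nat_lit 4) (nat_lit 258) (nat_lit 222) (nat_lit 120)) (XT.lf (nat_lit 0) (nat_lit 633252659658) (nat_lit 76) (nat_lit 2825376146761) (nat_lit 76) (nat_lit 2612767591775) (nat_lit 1) (nat_lit 4) (nat_lit 2) (nat_lit 5) (nat_lit 2) (nat_lit 4) (nat_lit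 259) (nat_lit 222) (nat_lit 119))) (XT.nd (nat_lit 78) (nat_lit 0) (nat_lit 0) (XT.lf (nat_lit 0) (nat_lit 884941967536) (nat_lit 76) (nat_lit 3147936584349) (nat_lit 76) (nat_lit 2935328013836) (nat_lit 1) (nat_lit 4) (nat_lit 2) (nat_lit 5) (nat_lit 2) (nat_lit 4) (nat_lit 260) (nat_lit 222) (nat_lit 118)) (XT.lf (nat_lit 0) (nat_lit 1174384650199) (nat_lit 76) (nat_lit 3518881097045) (nat_lit 76) (nat_lit 3306272513030) (nat_lit 1) (nat_lit 4) (nat_lit 2) (nat_lit 5) (nat_lit 2) (nat_lit 4) (nat_lit 261) (nat_lit 222) (nat_lit 117))))) (XT.nd (nat_lit 312) (nat_lit 0) (nat_lit 0) (XT.nd (nat_lit 156) (nat_lit 0) (nat_lit 0) (XT.nd (nat_lit 78) (nat_lit 0) (nat_lit 0) (XT.lf (nat_lit 0) (nat_lit 1507243716657) (nat_lit 76) (nat_lit 3945467294880) (nat_lit 76) (nat_lit 3732858699123) (nat_lit 1) (nat_lit 4) (nat_lit 2) (nat_lit 5) (nat_lit 2) (nat_lit 4) (nat_lit 262) (nat_lit 222)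 (nat_lit 116)) (XT.lf (nat_lit 0) (nat_lit 1890031626906) (nat_lit 76) (nat_lit 4436041429550) (nat_lit 76) (nat_lit 4223432823584) (nat_lit 1) (nat_lit 4) (nat_lit 2) (nat_lit 5) (nat_lit 2) (nat_lit 4) (nat_lit 263) (nat_lit 222) (nat_lit 115))) (XT.nd (nat_lit 78) (nat_lit 0) (nat_lit 0) (XT.lf (nat_lit 0) (nat_lit 2330237709623) (nat_lit 76) (nat_lit 5000201690647) (nat_lit 76) (nat_lit 4787593075803) (nat_lit 1) (nat_lit 4) (nat_lit 2) (nat_lit 5) (nat_lit 2) (nat_lit 4) (nat_lit 264) (nat_lit 222) (nat_lit 114)) (XT.lf (nat_lit 0) (nat_lit 2836474692515) (nat_lit 76) (nat_lit 5648985996322) (nat_lit 76) (nat_lit 5436377373759) (nat_lit 1) (nat_lit 4) (nat_lit 2) (nat_lit 5) (nat_lit 2) (nat_lit 4) (nat_lit 265) (nat_lit 222) (nat_lit 113)))) (XT.nd (nat_lit 156) (nat_lit 0) (nat_lit 0) (XT.nd (nat_lit 78) (nat_lit 0) (nat_lit 0) (XT.lf (nat_lit 0) (nat_lit 3418647212204) (nat_lit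 76) (nat_lit 6395087952558) (nat_lit 76) (nat_lit 6182479323282) (nat_lit 1) (nat_lit 4) (nat_lit 2) (nat_lit 5) (nat_lit 2) (nat_lit 4) (nat_lit 266) (nat_lit 222) (nat_lit 112)) (XT.lf (nat_lit 0) (nat_lit 4088145600595) (nat_lit 76) (nat_lit 7253105206322) (nat_lit 76) (nat_lit 7040496571209) (nat_lit 1) (nat_lit 4) (nat_lit 2) (nat_lit 5) (nat_lit 2) (nat_lit 4) (nat_lit 267) (nat_lit 222) (nat_lit 111))) (XT.nd (nat_lit 78) (nat_lit 0) (nat_lit 0) (XT.lf (nat_lit 0) (nat_lit 4858068739202) (nat_lit 76) (nat_lit 8239825051712) (nat_lit 76) (nat_lit 8027216411522) (nat_lit 1) (nat_lit 4) (nat_lit 2) (nat_lit 5) (nat_lit 2) (nat_lit 4) (nat_lit 268) (nat_lit 222) (nat_lit 110)) (XT.lf (nat_lit 0) (nat_lit 5743480341606) (nat_lit 76) (nat_lit 9374552877005) (nat_lit 76) (nat_lit 9161944232402) (nat_lit 1) (nat_lit 4) (nat_lit 2) (nat_lit 5) (nat_lit 2) (nat_lit 4) (nat_lit 269) (nat_lit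 222) (nat_lit 109)))))) (XT.nd (nat_lit 27924) (nat_lit 0) (nat_lit 380) (XT.nd (nat_lit 27612) (nat_lit 0) (nat_lit 836) (XT.nd (nat_lit 156) (nat_lit 0) (nat_lit 0) (XT.nd (nat_lit 78) (nat_lit 0) (nat_lit 0) (XT.lf (nat_lit 0) (nat_lit 6761703678288) (nat_lit 76) (nat_lit 10679489878784) (nat_lit 76) (nat_lit 10466881230343) (nat_lit 1) (nat_lit 4) (nat_lit 2) (nat_lit 5) (nat_lit 2) (nat_lit 4) (nat_lit 270) (nat_lit 222) (nat_lit 108)) (XT.lf (nat_lit 0) (nat_lit 7932660510183) (nat_lit 76) (nat_lit 12180167433171) (nat_lit 76) (nat_lit 11967558781392) (nat_lit 1) (nat_lit 4) (nat_lit 2) (nat_lit 5) (nat_lit 2) (nat_lit 4) (nat_lit 271) (nat_lit 222) (nat_lit 107))) (XT.nd (nat_lit 78) (nat_lit 0) (nat_lit 0) (XT.lf (nat_lit 0) (nat_lit 9279260862264) (nat_lit 76) (nat_lit 13905946622751) (nat_lit 76) (nat_lit 13693337968070) (nat_lit 1) (nat_lit 4) (nat_lit 2) (nat_lit 5) (nat_lit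 2) (nat_lit 4) (nat_lit 272) (nat_lit 222) (nat_lit 106)) (XT.lf (nat_lit 0) (nat_lit 10827851263158) (nat_lit 76) (nat_lit 15890592692538) (nat_lit 76) (nat_lit 15677984035333) (nat_lit 1) (nat_lit 4) (nat_lit 2) (nat_lit 5) (nat_lit 2) (nat_lit 4) (nat_lit 273) (nat_lit 222) (nat_lit 105)))) (XT.nd (nat_lit 156) (nat_lit 0) (nat_lit 0) (XT.nd (nat_lit 78) (nat_lit 0) (nat_lit 0) (XT.lf (nat_lit 0) (nat_lit 17206454977) (nat_lit 0) (nat_lit 17206454977) (nat_lit 228) (nat_lit 17011878626) (nat_lit 12) (nat_lit 5) (nat_lit 12) (nat_lit 3) (nat_lit 15) (nat_lit 3) (nat_lit 223) (nat_lit 223) (nat_lit 154)) (XT.lf (nat_lit 0) (nat_lit 74216990810) (nat_lit 228) (nat_lit 31374833127) (nat_lit 304) (nat_lit 4936978670) (nat_lit 12) (nat_lit 5) (nat_lit 15) (nat_lit 3) (nat_lit 16) (nat_lit 5) (nat_lit 224) (nat_lit 223) (nat_lit 153))) (XT.nd (nat_lit 78) (nat_lit 0) (nat_lit 0) (XT.lf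 (nat_lit 76) (nat_lit 10545833561) (nat_lit 0) (nat_lit 71945552714) (nat_lit 304) (nat_lit 36557362428) (nat_lit 13) (nat_lit 5) (nat_lit 12) (nat_lit 5) (nat_lit 16) (nat_lit 5) (nat_lit 225) (nat_lit 223) (nat_lit 152)) (XT.lf (nat_lit 76) (nat_lit 62280135193) (nat_lit 0) (nat_lit 31366098643) (nat_lit 304) (nat_lit 34954575633) (nat_lit 13) (nat_lit 5) (nat_lit 12) (nat_lit 5) (nat_lit 16) (nat_lit 5) (nat_lit 226) (nat_lit 223) (nat_lit 151))))) (XT.nd (nat_lit 312) (nat_lit 228) (nat_lit 0) (XT.nd (nat_lit 156) (nat_lit 76) (nat_lit 0) (XT.nd (nat_lit 78) (nat_lit 228) (nat_lit 0) (XT.lf (nat_lit 0) (nat_lit 107107210160) (nat_lit 228) (nat_lit 18445263043) (nat_lit 76) (nat_lit 13938285400) (nat_lit 13) (nat_lit 5) (nat_lit 16) (nat_lit 5) (nat_lit 14) (nat_lit 5) (nat_lit 227) (nat_lit 223) (nat_lit 150)) (XT.lf (nat_lit 0) (nat_lit 38549220329) (nat_lit 228) (nat_lit 87127412076)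 (nat_lit 304) (nat_lit 25874185388) (nat_lit 10) (nat_lit 5) (nat_lit 13) (nat_lit 5) (nat_lit 14) (nat_lit 5) (nat_lit 228) (nat_lit 223) (nat_lit 149))) (XT.nd (nat_lit 78) (nat_lit 76) (nat_lit 0) (XT.lf (nat_lit 0) (nat_lit 106165362550) (nat_lit 228) (nat_lit 41829776988) (nat_lit 304) (nat_lit 17280206551) (nat_lit 10) (nat_lit 5) (nat_lit 13) (nat_lit 5) (nat_lit 14) (nat_lit 5) (nat_lit 229) (nat_lit 223) (nat_lit 148)) (XT.lf (nat_lit 0) (nat_lit 2678349571) (nat_lit 76) (nat_lit 171518480617) (nat_lit 152) (nat_lit 6781421860) (nat_lit 9) (nat_lit 5) (nat_lit 10) (nat_lit 5) (nat_lit 11) (nat_lit 4) (nat_lit 230) (nat_lit 223) (nat_lit 147)))) (XT.nd (nat_lit 156) (nat_lit 152) (nat_lit 0) (XT.nd (nat_lit 78) (nat_lit 0) (nat_lit 0) (XT.lf (nat_lit 0) (nat_lit 10049468386) (nat_lit 152) (nat_lit 120553742253) (nat_lit 76) (nat_lit 67616254627) (nat_lit 8) (nat_lit 5) (nat_lit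 10) (nat_lit 5) (nat_lit 9) (nat_lit 5) (nat_lit 231) (nat_lit 223) (nat_lit 146)) (XT.lf (nat_lit 0) (nat_lit 28710325418) (nat_lit 152) (nat_lit 54469057476) (nat_lit 76) (nat_lit 134819101863) (nat_lit 8) (nat_lit 5) (nat_lit 10) (nat_lit 5) (nat_lit 9) (nat_lit 5) (nat_lit 232) (nat_lit 223) (nat_lit 145))) (XT.nd (nat_lit 78) (nat_lit 0) (nat_lit 0) (XT.lf (nat_lit 0) (nat_lit 23631781941) (nat_lit 152) (nat_lit 27516741780) (nat_lit 228) (nat_lit 189449106992) (nat_lit 6) (nat_lit 5) (nat_lit 8) (nat_lit 5) (nat_lit 9) (nat_lit 5) (nat_lit 233) (nat_lit 223) (nat_lit 144)) (XT.lf (nat_lit 0) (nat_lit 81446167298) (nat_lit 228) (nat_lit 148237450840) (nat_lit 76) (nat_lit 36228977836) (nat_lit 6) (nat_lit 5) (nat_lit 9) (nat_lit 5) (nat_lit 7) (nat_lit 4) (nat_lit 234) (nat_lit 223) (nat_lit 143))))))) (XT.nd (nat_lit 1248) (nat_lit 76) (nat_lit 0) (XT.nd (nat_lit 624) (nat_lit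 152) (nat_lit 0) (XT.nd (nat_lit 312) (nat_lit 76) (nat_lit 0) (XT.nd (nat_lit 156) (nat_lit 0) (nat_lit 0) (XT.nd (nat_lit 78) (nat_lit 76) (nat_lit 0) (XT.lf (nat_lit 0) (nat_lit 117598512210) (nat_lit 228) (nat_lit 70510497094) (nat_lit 76) (nat_lit 106719292621) (nat_lit 6) (nat_lit 5) (nat_lit 9) (nat_lit 5) (nat_lit 7) (nat_lit 4) (nat_lit 235) (nat_lit 223) (nat_lit 142)) (XT.lf (nat_lit 0) (nat_lit 20719785385) (nat_lit 76) (nat_lit 139311654091) (nat_lit 152) (nat_lit 167921268282) (nat_lit 5) (nat_lit 5) (nat_lit 6) (nat_lit 5) (nat_lit 7) (nat_lit 4) (nat_lit 236) (nat_lit 223) (nat_lit 141))) (XT.nd (nat_lit 78) (nat_lit 0) (nat_lit 0) (XT.lf (nat_lit 0) (nat_lit 133558710831) (nat_lit 76) (nat_lit 78956156514) (nat_lit 152) (nat_lit 152978076011) (nat_lit 5) (nat_lit 5) (nat_lit 6) (nat_lit 5) (nat_lit 7) (nat_lit 4) (nat_lit 237) (nat_lit 223) (nat_lit 140)) (XT.lf (nat_lit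 0) (nat_lit 263323198771) (nat_lit 76) (nat_lit 9547424127) (nat_lit 152) (nat_lit 135793622081) (nat_lit 5) (nat_lit 5) (nat_lit 6) (nat_lit 5) (nat_lit 7) (nat_lit 4) (nat_lit 238) (nat_lit 223) (nat_lit 139)))) (XT.nd (nat_lit 156) (nat_lit 0) (nat_lit 0) (XT.nd (nat_lit 78) (nat_lit 76) (nat_lit 0) (XT.lf (nat_lit 0) (nat_lit 345189415637) (nat_lit 152) (nat_lit 48668984930) (nat_lit 0) (nat_lit 64016392554) (nat_lit 5) (nat_lit 5) (nat_lit 7) (nat_lit 4) (nat_lit 5) (nat_lit 4) (nat_lit 239) (nat_lit 223) (nat_lit 138)) (XT.lf (nat_lit 0) (nat_lit 68112898168) (nat_lit 76) (nat_lit 363518034395) (nat_lit 76) (nat_lit 82344757183) (nat_lit 4) (nat_lit 4) (nat_lit 5) (nat_lit 5) (nat_lit 5) (nat_lit 4) (nat_lit 240) (nat_lit 223) (nat_lit 137))) (XT.nd (nat_lit 78) (nat_lit 0) (nat_lit 0) (XT.lf (nat_lit 0) (nat_lit 207881575065) (nat_lit 76) (nat_lit 325701028403) (nat_lit 76)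 (nat_lit 44527530209) (nat_lit 4) (nat_lit 4) (nat_lit 5) (nat_lit 5) (nat_lit 5) (nat_lit 4) (nat_lit 241) (nat_lit 223) (nat_lit 136)) (XT.lf (nat_lit 0) (nat_lit 368615363144) (nat_lit 76) (nat_lit 282211545225) (nat_lit 76) (nat_lit 1037854874) (nat_lit 4) (nat_lit 4) (nat_lit 5) (nat_lit 5) (nat_lit 5) (nat_lit 4) (nat_lit 242) (nat_lit 223) (nat_lit 135))))) (XT.nd (nat_lit 312) (nat_lit 0) (nat_lit 0) (XT.nd (nat_lit 156) (nat_lit 76) (nat_lit 0) (XT.nd (nat_lit 78) (nat_lit 0) (nat_lit 0) (XT.lf (nat_lit 0) (nat_lit 44615046916) (nat_lit 152) (nat_lit 185251506573) (nat_lit 76) (nat_lit 506511856814) (nat_lit 3) (nat_lit 5) (nat_lit 5) (nat_lit 5) (nat_lit 4) (nat_lit 4) (nat_lit 243) (nat_lit 223) (nat_lit 134)) (XT.lf (nat_lit 0) (nat_lit 97009533943) (nat_lit 152) (nat_lit 72603504764) (nat_lit 76) (nat_lit 663948667505) (nat_lit 3) (nat_lit 5) (nat_lit 5) (nat_lit 5) (nat_lit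 4) (nat_lit 4) (nat_lit 244) (nat_lit 223) (nat_lit 133))) (XT.nd (nat_lit 78) (nat_lit 0) (nat_lit 0) (XT.lf (nat_lit 0) (nat_lit 62506307015) (nat_lit 76) (nat_lit 97345058615) (nat_lit 152) (nat_lit 785082906023) (nat_lit 2) (nat_lit 5) (nat_lit 3) (nat_lit 5) (nat_lit 4) (nat_lit 4) (nat_lit 245) (nat_lit 223) (nat_lit 132)) (XT.lf (nat_lit 0) (nat_lit 226042106554) (nat_lit 76) (nat_lit 9872472753) (nat_lit 152) (nat_lit 836528877288) (nat_lit 2) (nat_lit 5) (nat_lit 3) (nat_lit 5) (nat_lit 4) (nat_lit 4) (nat_lit 246) (nat_lit 223) (nat_lit 131)))) (XT.nd (nat_lit 156) (nat_lit 0) (nat_lit 0) (XT.nd (nat_lit 78) (nat_lit 0) (nat_lit 0) (XT.lf (nat_lit 0) (nat_lit 327143770295) (nat_lit 152) (nat_lit 808727426367) (nat_lit 0) (nat_lit 82644348996) (nat_lit 2) (nat_lit 5) (nat_lit 4) (nat_lit 4) (nat_lit 2) (nat_lit 4) (nat_lit 247) (nat_lit 223) (nat_lit 130)) (XT.lf (nat_lit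 0) (nat_lit 432527398613) (nat_lit 152) (nat_lit 765872636173) (nat_lit 0) (nat_lit 188027905075) (nat_lit 2) (nat_lit 5) (nat_lit 4) (nat_lit 4) (nat_lit 2) (nat_lit 4) (nat_lit 248) (nat_lit 223) (nat_lit 129))) (XT.nd (nat_lit 78) (nat_lit 0) (nat_lit 0) (XT.lf (nat_lit 0) (nat_lit 553718519815) (nat_lit 152) (nat_lit 716589718130) (nat_lit 0) (nat_lit 309218963460) (nat_lit 2) (nat_lit 5) (nat_lit 4) (nat_lit 4) (nat_lit 2) (nat_lit 4) (nat_lit 249) (nat_lit 223) (nat_lit 128)) (XT.lf (nat_lit 0) (nat_lit 693088264533) (nat_lit 152) (nat_lit 659914441232) (nat_lit 0) (nat_lit 448588653555) (nat_lit 2) (nat_lit 5) (nat_lit 4) (nat_lit 4) (nat_lit 2) (nat_lit 4) (nat_lit 250) (nat_lit 223) (nat_lit 127)))))) (XT.nd (nat_lit 624) (nat_lit 0) (nat_lit 0) (XT.nd (nat_lit 312) (nat_lit 76) (nat_lit 0) (XT.nd (nat_lit 156) (nat_lit 0) (nat_lit 0) (XT.nd (nat_lit 78) (nat_lit 0) (nat_lit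 0) (XT.lf (nat_lit 0) (nat_lit 853363432121) (nat_lit 152) (nat_lit 594737941367) (nat_lit 0) (nat_lit 608863773644) (nat_lit 2) (nat_lit 5) (nat_lit 4) (nat_lit 4) (nat_lit 2) (nat_lit 4) (nat_lit 251) (nat_lit 223) (nat_lit 126)) (XT.lf (nat_lit 0) (nat_lit 1037679841074) (nat_lit 152) (nat_lit 519785026146) (nat_lit 0) (nat_lit 793180141294) (nat_lit 2) (nat_lit 5) (nat_lit 4) (nat_lit 4) (nat_lit 2) (nat_lit 4) (nat_lit 252) (nat_lit 223) (nat_lit 125))) (XT.nd (nat_lit 78) (nat_lit 0) (nat_lit 0) (XT.lf (nat_lit 0) (nat_lit 1249643682003) (nat_lit 152) (nat_lit 433589225488) (nat_lit 0) (nat_lit 1005143946308) (nat_lit 2) (nat_lit 5) (nat_lit 4) (nat_lit 4) (nat_lit 2) (nat_lit 4) (nat_lit 253) (nat_lit 223) (nat_lit 124)) (XT.lf (nat_lit 0) (nat_lit 1493402073535) (nat_lit 152) (nat_lit 334464099815) (nat_lit 0) (nat_lit 1248902306609) (nat_lit 2) (nat_lit 5) (nat_lit 4) (nat_lit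 4) (nat_lit 2) (nat_lit 4) (nat_lit 254) (nat_lit 223) (nat_lit 123)))) (XT.nd (nat_lit 156) (nat_lit 76) (nat_lit 0) (XT.nd (nat_lit 78) (nat_lit 0) (nat_lit 0) (XT.lf (nat_lit 0) (nat_lit 1773724201590) (nat_lit 152) (nat_lit 220470244494) (nat_lit 0) (nat_lit 1529224407507) (nat_lit 2) (nat_lit 5) (nat_lit 4) (nat_lit 4) (nat_lit 2) (nat_lit 4) (nat_lit 255) (nat_lit 223) (nat_lit 122)) (XT.lf (nat_lit 0) (nat_lit 2096094629545) (nat_lit 152) (nat_lit 89377344966) (nat_lit 0) (nat_lit 1851594811846) (nat_lit 2) (nat_lit 5) (nat_lit 4) (nat_lit 4) (nat_lit 2) (nat_lit 4) (nat_lit 256) (nat_lit 223) (nat_lit 121))) (XT.nd (nat_lit 78) (nat_lit 0) (nat_lit 0) (XT.lf (nat_lit 0) (nat_lit 67377907061) (nat_lit 76) (nat_lit 2402232673288) (nat_lit 76) (nat_lit 2157732835054) (nat_lit 1) (nat_lit 4) (nat_lit 2) (nat_lit 5) (nat_lit 2) (nat_lit 4) (nat_lit 257) (nat_lit 223) (nat_lit 120))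 (XT.lf (nat_lit 0) (nat_lit 257691213388) (nat_lit 76) (nat_lit 2646134692191) (nat_lit 76) (nat_lit 2401634836101) (nat_lit 1) (nat_lit 4) (nat_lit 2) (nat_lit 5) (nat_lit 2) (nat_lit 4) (nat_lit 258) (nat_lit 223) (nat_lit 119))))) (XT.nd (nat_lit 312) (nat_lit 0) (nat_lit 0) (XT.nd (nat_lit 156) (nat_lit 0) (nat_lit 0) (XT.nd (nat_lit 78) (nat_lit 0) (nat_lit 0) (XT.lf (nat_lit 0) (nat_lit 476551491059) (nat_lit 76) (nat_lit 2926622024820) (nat_lit 76) (nat_lit 2682122153202) (nat_lit 1) (nat_lit 4) (nat_lit 2) (nat_lit 5) (nat_lit 2) (nat_lit 4) (nat_lit 259) (nat_lit 223) (nat_lit 118)) (XT.lf (nat_lit 0) (nat_lit 728240788985) (nat_lit 76) (nat_lit 3249182466812) (nat_lit 76) (nat_lit 3004682581693) (nat_lit 1) (nat_lit 4) (nat_lit 2) (nat_lit 5) (nat_lit 2) (nat_lit 4) (nat_lit 260) (nat_lit 223) (nat_lit 117))) (XT.nd (nat_lit 78) (nat_lit 0) (nat_lit 0) (XT.lf (nat_lit 0)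 (nat_lit 1017683462995) (nat_lit 76) (nat_lit 3620126983338) (nat_lit 76) (nat_lit 3375627086477) (nat_lit 1) (nat_lit 4) (nat_lit 2) (nat_lit 5) (nat_lit 2) (nat_lit 4) (nat_lit 261) (nat_lit 223) (nat_lit 116)) (XT.lf (nat_lit 0) (nat_lit 1350542521929) (nat_lit 76) (nat_lit 4046713184503) (nat_lit 76) (nat_lit 3802213277433) (nat_lit 1) (nat_lit 4) (nat_lit 2) (nat_lit 5) (nat_lit 2) (nat_lit 4) (nat_lit 262) (nat_lit 223) (nat_lit 115)))) (XT.nd (nat_lit 156) (nat_lit 0) (nat_lit 0) (XT.nd (nat_lit 78) (nat_lit 0) (nat_lit 0) (XT.lf (nat_lit 0) (nat_lit 1733330425634) (nat_lit 76) (nat_lit 4537287322069) (nat_lit 76) (nat_lit 4292787406121) (nat_lit 1) (nat_lit 4) (nat_lit 2) (nat_lit 5) (nat_lit 2) (nat_lit 4) (nat_lit 263) (nat_lit 223) (nat_lit 114)) (XT.lf (nat_lit 0) (nat_lit 2173536502661) (nat_lit 76) (nat_lit 5101447585684) (nat_lit 76) (nat_lit 4856947662017) (nat_lit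 1) (nat_lit 4) (nat_lit 2) (nat_lit 5) (nat_lit 2) (nat_lit 4) (nat_lit 264) (nat_lit 223) (nat_lit 113))) (XT.nd (nat_lit 78) (nat_lit 0) (nat_lit 0) (XT.lf (nat_lit 0) (nat_lit 2679773480606) (nat_lit 76) (nat_lit 5750231893550) (nat_lit 76) (nat_lit 5505731963169) (nat_lit 1) (nat_lit 4) (nat_lit 2) (nat_lit 5) (nat_lit 2) (nat_lit 4) (nat_lit 265) (nat_lit 223) (nat_lit 112)) (XT.lf (nat_lit 0) (nat_lit 3261945995992) (nat_lit 76) (nat_lit 6496333851689) (nat_lit 76) (nat_lit 6251833915472) (nat_lit 1) (nat_lit 4) (nat_lit 2) (nat_lit 5) (nat_lit 2) (nat_lit 4) (nat_lit 266) (nat_lit 223) (nat_lit 111))))))))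
noncomputable def xc53 : XT := (XT.nd (nat_lit 30108) (nat_lit 0) (nat_lit 0) (XT.nd (nat_lit 28860) (nat_lit 0) (nat_lit 76) (XT.nd (nat_lit 28236) (nat_lit 0) (nat_lit 380) (XT.nd (nat_lit 27924) (nat_lit 0) (nat_lit 836) (XT.nd (nat_lit 156) (nat_lit 0) (nat_lit 0) (XT.nd (nat_lit 78) (nat_lit 0) (nat_lit 0) (XT.lf (nat_lit 0) (nat_lit 3931444380642) (nat_lit 76) (nat_lit 7354351107110) (nat_lit 76) (nat_lit 7109851165816) (nat_lit 1) (nat_lit 4) (nat_lit 2) (nat_lit 5) (nat_lit 2) (nat_lit 4) (nat_lit 267) (nat_lit 223) (nat_lit 110)) (XT.lf (nat_lit 0) (nat_lit 4701367515996) (nat_lit 76) (nat_lit 8341070953939) (nat_lit 76) (nat_lit 8096571008231) (nat_lit 1) (nat_lit 4) (nat_lit 2) (nat_lit 5) (nat_lit 2) (nat_lit 4) (nat_lit 268) (nat_lit 223) (nat_lit 109))) (XT.nd (nat_lit 234) (nat_lit 0) (nat_lit 0) (XT.lf (nat_lit 0) (nat_lit 5586779115570) (nat_lit 76) (nat_lit 9475798780484)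 (nat_lit 76) (nat_lit 9231298830938) (nat_lit 1) (nat_lit 4) (nat_lit 2) (nat_lit 5) (nat_lit 2) (nat_lit 4) (nat_lit 269) (nat_lit 223) (nat_lit 108)) (XT.lf (nat_lit 0) (nat_lit 9122559629770) (nat_lit 76) (nat_lit 14007192529089) (nat_lit 76) (nat_lit 13762692570780) (nat_lit 1) (nat_lit 4) (nat_lit 2) (nat_lit 5) (nat_lit 2) (nat_lit 4) (nat_lit 272) (nat_lit 223) (nat_lit 105)))) (XT.nd (nat_lit 156) (nat_lit 0) (nat_lit 0) (XT.nd (nat_lit 78) (nat_lit 0) (nat_lit 0) (XT.lf (nat_lit 0) (nat_lit 19789736443) (nat_lit 0) (nat_lit 19789736443) (nat_lit 228) (nat_lit 19558236793) (nat_lit 12) (nat_lit 5) (nat_lit 12) (nat_lit 3) (nat_lit 15) (nat_lit 3) (nat_lit 224) (nat_lit 224) (nat_lit 152)) (XT.lf (nat_lit 0) (nat_lit 85357418830) (nat_lit 228) (nat_lit 36075482109) (nat_lit 304) (nat_lit 5673860634) (nat_lit 12) (nat_lit 5) (nat_lit 15) (nat_lit 3) (nat_lit 16) (nat_lit 5)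 (nat_lit 225) (nat_lit 224) (nat_lit 151))) (XT.nd (nat_lit 78) (nat_lit 0) (nat_lit 0) (XT.lf (nat_lit 76) (nat_lit 12133031128) (nat_lit 0) (nat_lit 82739135133) (nat_lit 304) (nat_lit 42032677839) (nat_lit 13) (nat_lit 5) (nat_lit 12) (nat_lit 5) (nat_lit 16) (nat_lit 5) (nat_lit 226) (nat_lit 224) (nat_lit 150)) (XT.lf (nat_lit 76) (nat_lit 71626783762) (nat_lit 0) (nat_lit 36072534754) (nat_lit 304) (nat_lit 40190554193) (nat_lit 13) (nat_lit 5) (nat_lit 12) (nat_lit 5) (nat_lit 16) (nat_lit 5) (nat_lit 227) (nat_lit 224) (nat_lit 149))))) (XT.nd (nat_lit 312) (nat_lit 228) (nat_lit 0) (XT.nd (nat_lit 156) (nat_lit 76) (nat_lit 0) (XT.nd (nat_lit 78) (nat_lit 228) (nat_lit 0) (XT.lf (nat_lit 0) (nat_lit 123178584388) (nat_lit 228) (nat_lit 21207052964) (nat_lit 76) (nat_lit 16027823100) (nat_lit 13) (nat_lit 5) (nat_lit 16) (nat_lit 5) (nat_lit 14) (nat_lit 5) (nat_lit 228) (nat_lit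 224) (nat_lit 148)) (XT.lf (nat_lit 0) (nat_lit 44336375661) (nat_lit 228) (nat_lit 100196551566) (nat_lit 304) (nat_lit 29749690601) (nat_lit 10) (nat_lit 5) (nat_lit 13) (nat_lit 5) (nat_lit 14) (nat_lit 5) (nat_lit 229) (nat_lit 224) (nat_lit 147))) (XT.nd (nat_lit 78) (nat_lit 76) (nat_lit 0) (XT.lf (nat_lit 0) (nat_lit 122094316745) (nat_lit 228) (nat_lit 48104267605) (nat_lit 304) (nat_lit 19867348321) (nat_lit 10) (nat_lit 5) (nat_lit 13) (nat_lit 5) (nat_lit 14) (nat_lit 5) (nat_lit 230) (nat_lit 224) (nat_lit 146)) (XT.lf (nat_lit 0) (nat_lit 3084746960) (nat_lit 76) (nat_lit 197245428688) (nat_lit 152) (nat_lit 7794163457) (nat_lit 9) (nat_lit 5) (nat_lit 10) (nat_lit 5) (nat_lit 11) (nat_lit 4) (nat_lit 231) (nat_lit 224) (nat_lit 145)))) (XT.nd (nat_lit 156) (nat_lit 152) (nat_lit 0) (XT.nd (nat_lit 78) (nat_lit 0) (nat_lit 0) (XT.lf (nat_lit 0) (nat_lit 11560430889) (nat_lit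 152) (nat_lit 138632359644) (nat_lit 76) (nat_lit 77759004503) (nat_lit 8) (nat_lit 5) (nat_lit 10) (nat_lit 5) (nat_lit 9) (nat_lit 5) (nat_lit 232) (nat_lit 224) (nat_lit 144)) (XT.lf (nat_lit 0) (nat_lit 33019954443) (nat_lit 152) (nat_lit 62635551795) (nat_lit 76) (nat_lit 155042238171) (nat_lit 8) (nat_lit 5) (nat_lit 10) (nat_lit 5) (nat_lit 9) (nat_lit 5) (nat_lit 233) (nat_lit 224) (nat_lit 143))) (XT.nd (nat_lit 78) (nat_lit 0) (nat_lit 0) (XT.lf (nat_lit 0) (nat_lit 27180237885) (nat_lit 152) (nat_lit 31643395580) (nat_lit 228) (nat_lit 217863172804) (nat_lit 6) (nat_lit 5) (nat_lit 8) (nat_lit 5) (nat_lit 9) (nat_lit 5) (nat_lit 234) (nat_lit 224) (nat_lit 142)) (XT.lf (nat_lit 0) (nat_lit 93665585167) (nat_lit 228) (nat_lit 170469483946) (nat_lit 76) (nat_lit 41664003755) (nat_lit 6) (nat_lit 5) (nat_lit 9) (nat_lit 5) (nat_lit 7) (nat_lit 4) (nat_lit 235) (nat_lit 224)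 (nat_lit 141)))))) (XT.nd (nat_lit 624) (nat_lit 152) (nat_lit 0) (XT.nd (nat_lit 312) (nat_lit 76) (nat_lit 0) (XT.nd (nat_lit 156) (nat_lit 0) (nat_lit 0) (XT.nd (nat_lit 78) (nat_lit 76) (nat_lit 0) (XT.lf (nat_lit 0) (nat_lit 135240456672) (nat_lit 228) (nat_lit 81083954684) (nat_lit 76) (nat_lit 122727777160) (nat_lit 6) (nat_lit 5) (nat_lit 9) (nat_lit 5) (nat_lit 7) (nat_lit 4) (nat_lit 236) (nat_lit 224) (nat_lit 140)) (XT.lf (nat_lit 0) (nat_lit 23830728486) (nat_lit 76) (nat_lit 160207435008) (nat_lit 152) (nat_lit 193107120037) (nat_lit 5) (nat_lit 5) (nat_lit 6) (nat_lit 5) (nat_lit 7) (nat_lit 4) (nat_lit 237) (nat_lit 224) (nat_lit 139))) (XT.nd (nat_lit 78) (nat_lit 0) (nat_lit 0) (XT.lf (nat_lit 0) (nat_lit 153595104667) (nat_lit 76) (nat_lit 90798738951) (nat_lit 152) (nat_lit 175922753945) (nat_lit 5) (nat_lit 5) (nat_lit 6) (nat_lit 5) (nat_lit 7) (nat_lit 4) (nat_lit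 238) (nat_lit 224) (nat_lit 138)) (XT.lf (nat_lit 0) (nat_lit 302823928336) (nat_lit 76) (nat_lit 10978806406) (nat_lit 152) (nat_lit 156160897160) (nat_lit 5) (nat_lit 5) (nat_lit 6) (nat_lit 5) (nat_lit 7) (nat_lit 4) (nat_lit 239) (nat_lit 224) (nat_lit 137)))) (XT.nd (nat_lit 156) (nat_lit 0) (nat_lit 0) (XT.nd (nat_lit 78) (nat_lit 76) (nat_lit 0) (XT.lf (nat_lit 0) (nat_lit 396969174672) (nat_lit 152) (nat_lit 55967185462) (nat_lit 0) (nat_lit 73619430768) (nat_lit 5) (nat_lit 5) (nat_lit 7) (nat_lit 4) (nat_lit 5) (nat_lit 4) (nat_lit 240) (nat_lit 224) (nat_lit 136)) (XT.lf (nat_lit 0) (nat_lit 78331882500) (nat_lit 76) (nat_lit 418044945850) (nat_lit 76) (nat_lit 94695009789) (nat_lit 4) (nat_lit 4) (nat_lit 5) (nat_lit 5) (nat_lit 5) (nat_lit 4) (nat_lit 241) (nat_lit 224) (nat_lit 135))) (XT.nd (nat_lit 78) (nat_lit 0) (nat_lit 0) (XT.lf (nat_lit 0) (nat_lit 239065593592)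 (nat_lit 76) (nat_lit 374555492486) (nat_lit 76) (nat_lit 51205389331) (nat_lit 4) (nat_lit 4) (nat_lit 5) (nat_lit 5) (nat_lit 5) (nat_lit 4) (nat_lit 242) (nat_lit 224) (nat_lit 134)) (XT.lf (nat_lit 0) (nat_lit 423909217413) (nat_lit 76) (nat_lit 324542676855) (nat_lit 76) (nat_lit 1192428401) (nat_lit 4) (nat_lit 4) (nat_lit 5) (nat_lit 5) (nat_lit 5) (nat_lit 4) (nat_lit 243) (nat_lit 224) (nat_lit 133))))) (XT.nd (nat_lit 312) (nat_lit 0) (nat_lit 0) (XT.nd (nat_lit 156) (nat_lit 76) (nat_lit 0) (XT.nd (nat_lit 78) (nat_lit 0) (nat_lit 0) (XT.lf (nat_lit 0) (nat_lit 51308179046) (nat_lit 152) (nat_lit 213037789851) (nat_lit 76) (nat_lit 582489062151) (nat_lit 3) (nat_lit 5) (nat_lit 5) (nat_lit 5) (nat_lit 4) (nat_lit 4) (nat_lit 244) (nat_lit 224) (nat_lit 132)) (XT.lf (nat_lit 0) (nat_lit 111561724984) (nat_lit 152) (nat_lit 83492775950) (nat_lit 76) (nat_lit 763541338775)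 (nat_lit 3) (nat_lit 5) (nat_lit 5) (nat_lit 5) (nat_lit 4) (nat_lit 4) (nat_lit 245) (nat_lit 224) (nat_lit 131))) (XT.nd (nat_lit 78) (nat_lit 0) (nat_lit 0) (XT.lf (nat_lit 0) (nat_lit 71883450573) (nat_lit 76) (nat_lit 111946331183) (nat_lit 152) (nat_lit 902844516741) (nat_lit 2) (nat_lit 5) (nat_lit 3) (nat_lit 5) (nat_lit 4) (nat_lit 4) (nat_lit 246) (nat_lit 224) (nat_lit 130)) (XT.lf (nat_lit 0) (nat_lit 259949463845) (nat_lit 76) (nat_lit 11352920863) (nat_lit 152) (nat_lit 962007491328) (nat_lit 2) (nat_lit 5) (nat_lit 3) (nat_lit 5) (nat_lit 4) (nat_lit 4) (nat_lit 247) (nat_lit 224) (nat_lit 129)))) (XT.nd (nat_lit 156) (nat_lit 0) (nat_lit 0) (XT.nd (nat_lit 78) (nat_lit 0) (nat_lit 0) (XT.lf (nat_lit 0) (nat_lit 376215888894) (nat_lit 152) (nat_lit 930035563932) (nat_lit 0) (nat_lit 95041336269) (nat_lit 2) (nat_lit 5) (nat_lit 4) (nat_lit 4) (nat_lit 2) (nat_lit 4)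 (nat_lit 248) (nat_lit 224) (nat_lit 128)) (XT.lf (nat_lit 0) (nat_lit 497406989322) (nat_lit 152) (nat_lit 880752682564) (nat_lit 0) (nat_lit 216232382074) (nat_lit 2) (nat_lit 5) (nat_lit 4) (nat_lit 4) (nat_lit 2) (nat_lit 4) (nat_lit 249) (nat_lit 224) (nat_lit 127))) (XT.nd (nat_lit 78) (nat_lit 0) (nat_lit 0) (XT.lf (nat_lit 0) (nat_lit 636776715976) (nat_lit 152) (nat_lit 824077437558) (nat_lit 0) (nat_lit 355602061229) (nat_lit 2) (nat_lit 5) (nat_lit 4) (nat_lit 4) (nat_lit 2) (nat_lit 4) (nat_lit 250) (nat_lit 224) (nat_lit 126)) (XT.lf (nat_lit 0) (nat_lit 797051867855) (nat_lit 152) (nat_lit 758900965425) (nat_lit 0) (nat_lit 515877171806) (nat_lit 2) (nat_lit 5) (nat_lit 4) (nat_lit 4) (nat_lit 2) (nat_lit 4) (nat_lit 251) (nat_lit 224) (nat_lit 125))))))) (XT.nd (nat_lit 1248) (nat_lit 0) (nat_lit 0) (XT.nd (nat_lit 624) (nat_lit 0) (nat_lit 0) (XT.nd (nat_lit 312) (nat_lit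 76) (nat_lit 0) (XT.nd (nat_lit 156) (nat_lit 0) (nat_lit 0) (XT.nd (nat_lit 78) (nat_lit 0) (nat_lit 0) (XT.lf (nat_lit 0) (nat_lit 981368263150) (nat_lit 152) (nat_lit 683948074318) (nat_lit 0) (nat_lit 700193531184) (nat_lit 2) (nat_lit 5) (nat_lit 4) (nat_lit 4) (nat_lit 2) (nat_lit 4) (nat_lit 252) (nat_lit 224) (nat_lit 124)) (XT.lf (nat_lit 0) (nat_lit 1193332092201) (nat_lit 152) (nat_lit 597752294629) (nat_lit 0) (nat_lit 912157329005) (nat_lit 2) (nat_lit 5) (nat_lit 4) (nat_lit 4) (nat_lit 2) (nat_lit 4) (nat_lit 253) (nat_lit 224) (nat_lit 123))) (XT.nd (nat_lit 78) (nat_lit 0) (nat_lit 0) (XT.lf (nat_lit 0) (nat_lit 1437090473405) (nat_lit 152) (nat_lit 498627187191) (nat_lit 0) (nat_lit 1155915683051) (nat_lit 2) (nat_lit 5) (nat_lit 4) (nat_lit 4) (nat_lit 2) (nat_lit 4) (nat_lit 254) (nat_lit 224) (nat_lit 122)) (XT.lf (nat_lit 0) (nat_lit 1717412592479) (nat_lit 152)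 (nat_lit 384633347726) (nat_lit 0) (nat_lit 1436237778510) (nat_lit 2) (nat_lit 5) (nat_lit 4) (nat_lit 4) (nat_lit 2) (nat_lit 4) (nat_lit 255) (nat_lit 224) (nat_lit 121)))) (XT.nd (nat_lit 156) (nat_lit 76) (nat_lit 0) (XT.nd (nat_lit 78) (nat_lit 0) (nat_lit 0) (XT.lf (nat_lit 0) (nat_lit 2039783012624) (nat_lit 152) (nat_lit 253540461985) (nat_lit 0) (nat_lit 1758608178120) (nat_lit 2) (nat_lit 5) (nat_lit 4) (nat_lit 4) (nat_lit 2) (nat_lit 4) (nat_lit 256) (nat_lit 224) (nat_lit 120)) (XT.lf (nat_lit 0) (nat_lit 2410508981189) (nat_lit 152) (nat_lit 102783669159) (nat_lit 0) (nat_lit 2129334128829) (nat_lit 2) (nat_lit 5) (nat_lit 4) (nat_lit 4) (nat_lit 2) (nat_lit 4) (nat_lit 257) (nat_lit 224) (nat_lit 119))) (XT.nd (nat_lit 78) (nat_lit 0) (nat_lit 0) (XT.lf (nat_lit 0) (nat_lit 77484858055) (nat_lit 76) (nat_lit 2762567457024) (nat_lit 76) (nat_lit 2481392589136) (nat_lit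 1) (nat_lit 4) (nat_lit 2) (nat_lit 5) (nat_lit 2) (nat_lit 4) (nat_lit 258) (nat_lit 224) (nat_lit 118)) (XT.lf (nat_lit 0) (nat_lit 296345125774) (nat_lit 76) (nat_lit 3043054794057) (nat_lit 76) (nat_lit 2761879912667) (nat_lit 1) (nat_lit 4) (nat_lit 2) (nat_lit 5) (nat_lit 2) (nat_lit 4) (nat_lit 259) (nat_lit 224) (nat_lit 117))))) (XT.nd (nat_lit 312) (nat_lit 0) (nat_lit 0) (XT.nd (nat_lit 156) (nat_lit 0) (nat_lit 0) (XT.nd (nat_lit 78) (nat_lit 0) (nat_lit 0) (XT.lf (nat_lit 0) (nat_lit 548034415047) (nat_lit 76) (nat_lit 3365615239879) (nat_lit 76) (nat_lit 3084440346749) (nat_lit 1) (nat_lit 4) (nat_lit 2) (nat_lit 5) (nat_lit 2) (nat_lit 4) (nat_lit 260) (nat_lit 224) (nat_lit 116)) (XT.lf (nat_lit 0) (nat_lit 837477081532) (nat_lit 76) (nat_lit 3736559759735) (nat_lit 76) (nat_lit 3455384856395) (nat_lit 1) (nat_lit 4) (nat_lit 2) (nat_lit 5) (nat_lit 2) (nat_lit 4)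 (nat_lit 261) (nat_lit 224) (nat_lit 115))) (XT.nd (nat_lit 78) (nat_lit 0) (nat_lit 0) (XT.lf (nat_lit 0) (nat_lit 1170336133922) (nat_lit 76) (nat_lit 4163145963796) (nat_lit 76) (nat_lit 3881971051578) (nat_lit 1) (nat_lit 4) (nat_lit 2) (nat_lit 5) (nat_lit 2) (nat_lit 4) (nat_lit 262) (nat_lit 224) (nat_lit 114)) (XT.lf (nat_lit 0) (nat_lit 1553124031937) (nat_lit 76) (nat_lit 4653720103880) (nat_lit 76) (nat_lit 4372545183943) (nat_lit 1) (nat_lit 4) (nat_lit 2) (nat_lit 5) (nat_lit 2) (nat_lit 4) (nat_lit 263) (nat_lit 224) (nat_lit 113)))) (XT.nd (nat_lit 156) (nat_lit 0) (nat_lit 0) (XT.nd (nat_lit 78) (nat_lit 0) (nat_lit 0) (XT.lf (nat_lit 0) (nat_lit 1993330104017) (nat_lit 76) (nat_lit 5217880369685) (nat_lit 76) (nat_lit 4936705443035) (nat_lit 1) (nat_lit 4) (nat_lit 2) (nat_lit 5) (nat_lit 2) (nat_lit 4) (nat_lit 264) (nat_lit 224) (nat_lit 112)) (XT.lf (nat_lit 0)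 (nat_lit 2499567077659) (nat_lit 76) (nat_lit 5866664679455) (nat_lit 76) (nat_lit 5585489746968) (nat_lit 1) (nat_lit 4) (nat_lit 2) (nat_lit 5) (nat_lit 2) (nat_lit 4) (nat_lit 265) (nat_lit 224) (nat_lit 111))) (XT.nd (nat_lit 78) (nat_lit 0) (nat_lit 0) (XT.lf (nat_lit 0) (nat_lit 3081739589304) (nat_lit 76) (nat_lit 6612766639251) (nat_lit 76) (nat_lit 6331591701687) (nat_lit 1) (nat_lit 4) (nat_lit 2) (nat_lit 5) (nat_lit 2) (nat_lit 4) (nat_lit 266) (nat_lit 224) (nat_lit 110)) (XT.lf (nat_lit 0) (nat_lit 3751237970702) (nat_lit 76) (nat_lit 7470783896111) (nat_lit 76) (nat_lit 7189608954133) (nat_lit 1) (nat_lit 4) (nat_lit 2) (nat_lit 5) (nat_lit 2) (nat_lit 4) (nat_lit 267) (nat_lit 224) (nat_lit 109)))))) (XT.nd (nat_lit 28080) (nat_lit 0) (nat_lit 532) (XT.nd (nat_lit 312) (nat_lit 0) (nat_lit 0) (XT.nd (nat_lit 156) (nat_lit 0) (nat_lit 0) (XT.nd (nat_lit 78) (nat_lit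 0) (nat_lit 0) (XT.lf (nat_lit 0) (nat_lit 4521161103226) (nat_lit 76) (nat_lit 8457503744192) (nat_lit 76) (nat_lit 8176328798376) (nat_lit 1) (nat_lit 4) (nat_lit 2) (nat_lit 5) (nat_lit 2) (nat_lit 4) (nat_lit 268) (nat_lit 224) (nat_lit 108)) (XT.lf (nat_lit 0) (nat_lit 5406572700341) (nat_lit 76) (nat_lit 9592231571826) (nat_lit 76) (nat_lit 9311056622673) (nat_lit 1) (nat_lit 4) (nat_lit 2) (nat_lit 5) (nat_lit 2) (nat_lit 4) (nat_lit 269) (nat_lit 224) (nat_lit 107))) (XT.nd (nat_lit 78) (nat_lit 0) (nat_lit 0) (XT.lf (nat_lit 0) (nat_lit 6424796032424) (nat_lit 76) (nat_lit 10897168575640) (nat_lit 76) (nat_lit 10615993623585) (nat_lit 1) (nat_lit 4) (nat_lit 2) (nat_lit 5) (nat_lit 2) (nat_lit 4) (nat_lit 270) (nat_lit 224) (nat_lit 106)) (XT.lf (nat_lit 0) (nat_lit 7595752860321) (nat_lit 76) (nat_lit 12397846131797) (nat_lit 76) (nat_lit 12116671177218) (nat_lit 1) (nat_lit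 4) (nat_lit 2) (nat_lit 5) (nat_lit 2) (nat_lit 4) (nat_lit 271) (nat_lit 224) (nat_lit 105)))) (XT.nd (nat_lit 27612) (nat_lit 0) (nat_lit 836) (XT.nd (nat_lit 78) (nat_lit 0) (nat_lit 0) (XT.lf (nat_lit 0) (nat_lit 8942353208924) (nat_lit 76) (nat_lit 14123625322916) (nat_lit 76) (nat_lit 13842450366143) (nat_lit 1) (nat_lit 4) (nat_lit 2) (nat_lit 5) (nat_lit 2) (nat_lit 4) (nat_lit 272) (nat_lit 224) (nat_lit 104)) (XT.lf (nat_lit 0) (nat_lit 10490943606795) (nat_lit 76) (nat_lit 16108271394042) (nat_lit 76) (nat_lit 15827096435360) (nat_lit 1) (nat_lit 4) (nat_lit 2) (nat_lit 5) (nat_lit 2) (nat_lit 4) (nat_lit 273) (nat_lit 224) (nat_lit 103))) (XT.nd (nat_lit 78) (nat_lit 0) (nat_lit 0) (XT.lf (nat_lit 0) (nat_lit 22759946036) (nat_lit 0) (nat_lit 22759946036) (nat_lit 228) (nat_lit 22487871270) (nat_lit 12) (nat_lit 5) (nat_lit 12) (nat_lit 3) (nat_lit 15) (nat_lit 3) (nat_lit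 225) (nat_lit 225) (nat_lit 150)) (XT.lf (nat_lit 0) (nat_lit 98166989611) (nat_lit 228) (nat_lit 41482588177) (nat_lit 304) (nat_lit 6522168586) (nat_lit 12) (nat_lit 5) (nat_lit 15) (nat_lit 3) (nat_lit 16) (nat_lit 5) (nat_lit 226) (nat_lit 225) (nat_lit 149))))) (XT.nd (nat_lit 312) (nat_lit 152) (nat_lit 0) (XT.nd (nat_lit 156) (nat_lit 152) (nat_lit 0) (XT.nd (nat_lit 78) (nat_lit 0) (nat_lit 0) (XT.lf (nat_lit 76) (nat_lit 13957010398) (nat_lit 0) (nat_lit 95151328285) (nat_lit 304) (nat_lit 48331311876) (nat_lit 13) (nat_lit 5) (nat_lit 12) (nat_lit 5) (nat_lit 16) (nat_lit 5) (nat_lit 227) (nat_lit 225) (nat_lit 148)) (XT.lf (nat_lit 76) (nat_lit 82374300978) (nat_lit 0) (nat_lit 41484565299) (nat_lit 304) (nat_lit 46213687201) (nat_lit 13) (nat_lit 5) (nat_lit 12) (nat_lit 5) (nat_lit 16) (nat_lit 5) (nat_lit 228) (nat_lit 225) (nat_lit 147))) (XT.nd (nat_lit 78) (nat_lit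 228) (nat_lit 0) (XT.lf (nat_lit 0) (nat_lit 141659374092) (nat_lit 228) (nat_lit 24384330542) (nat_lit 76) (nat_lit 18431085329) (nat_lit 13) (nat_lit 5) (nat_lit 16) (nat_lit 5) (nat_lit 14) (nat_lit 5) (nat_lit 229) (nat_lit 225) (nat_lit 146)) (XT.lf (nat_lit 0) (nat_lit 50990440543) (nat_lit 228) (nat_lit 115226055230) (nat_lit 304) (nat_lit 34207892702) (nat_lit 10) (nat_lit 5) (nat_lit 13) (nat_lit 5) (nat_lit 14) (nat_lit 5) (nat_lit 230) (nat_lit 225) (nat_lit 145)))) (XT.nd (nat_lit 156) (nat_lit 76) (nat_lit 0) (XT.nd (nat_lit 78) (nat_lit 76) (nat_lit 0) (XT.lf (nat_lit 0) (nat_lit 140411602110) (nat_lit 228) (nat_lit 55319925945) (nat_lit 304) (nat_lit 22843753622) (nat_lit 10) (nat_lit 5) (nat_lit 13) (nat_lit 5) (nat_lit 14) (nat_lit 5) (nat_lit 231) (nat_lit 225) (nat_lit 144)) (XT.lf (nat_lit 0) (nat_lit 3550971256) (nat_lit 76) (nat_lit 226831619912) (nat_lit 152)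 (nat_lit 8959906743) (nat_lit 9) (nat_lit 5) (nat_lit 10) (nat_lit 5) (nat_lit 11) (nat_lit 4) (nat_lit 232) (nat_lit 225) (nat_lit 143))) (XT.nd (nat_lit 78) (nat_lit 0) (nat_lit 0) (XT.lf (nat_lit 0) (nat_lit 13297173968) (nat_lit 152) (nat_lit 159423853327) (nat_lit 76) (nat_lit 89423090856) (nat_lit 8) (nat_lit 5) (nat_lit 10) (nat_lit 5) (nat_lit 9) (nat_lit 5) (nat_lit 233) (nat_lit 225) (nat_lit 142)) (XT.lf (nat_lit 0) (nat_lit 37975276693) (nat_lit 152) (nat_lit 72027962596) (nat_lit 76) (nat_lit 178298778833) (nat_lit 8) (nat_lit 5) (nat_lit 10) (nat_lit 5) (nat_lit 9) (nat_lit 5) (nat_lit 234) (nat_lit 225) (nat_lit 141))))))))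
noncomputable def xc54 : XT := (XT.nd (nat_lit 2496) (nat_lit 0) (nat_lit 0) (XT.nd (nat_lit 1248) (nat_lit 76) (nat_lit 0) (XT.nd (nat_lit 624) (nat_lit 152) (nat_lit 0) (XT.nd (nat_lit 312) (nat_lit 76) (nat_lit 0) (XT.nd (nat_lit 156) (nat_lit 76) (nat_lit 0) (XT.nd (nat_lit 78) (nat_lit 0) (nat_lit 0) (XT.lf (nat_lit 0) (nat_lit 31260062719) (nat_lit 152) (nat_lit 36389256549) (nat_lit 228) (nat_lit 250540153272) (nat_lit 6) (nat_lit 5) (nat_lit 8) (nat_lit 5) (nat_lit 9) (nat_lit 5) (nat_lit 235) (nat_lit 225) (nat_lit 140)) (XT.lf (nat_lit 0) (nat_lit 107717307838) (nat_lit 228) (nat_lit 196037196126) (nat_lit 76) (nat_lit 47914117923) (nat_lit 6) (nat_lit 5) (nat_lit 9) (nat_lit 5) (nat_lit 7) (nat_lit 4) (nat_lit 236) (nat_lit 225) (nat_lit 139))) (XT.nd (nat_lit 78) (nat_lit 76) (nat_lit 0) (XT.lf (nat_lit 0) (nat_lit 155528164213) (nat_lit 228) (nat_lit 93244191006) (nat_lit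 76) (nat_lit 141137390347) (nat_lit 6) (nat_lit 5) (nat_lit 9) (nat_lit 5) (nat_lit 7) (nat_lit 4) (nat_lit 237) (nat_lit 225) (nat_lit 138)) (XT.lf (nat_lit 0) (nat_lit 27407587508) (nat_lit 76) (nat_lit 184237818920) (nat_lit 152) (nat_lit 222071419810) (nat_lit 5) (nat_lit 5) (nat_lit 6) (nat_lit 5) (nat_lit 7) (nat_lit 4) (nat_lit 238) (nat_lit 225) (nat_lit 137)))) (XT.nd (nat_lit 156) (nat_lit 76) (nat_lit 0) (XT.nd (nat_lit 78) (nat_lit 0) (nat_lit 0) (XT.lf (nat_lit 0) (nat_lit 176636326671) (nat_lit 76) (nat_lit 104417913846) (nat_lit 152) (nat_lit 202309629444) (nat_lit 5) (nat_lit 5) (nat_lit 6) (nat_lit 5) (nat_lit 7) (nat_lit 4) (nat_lit 239) (nat_lit 225) (nat_lit 136)) (XT.lf (nat_lit 0) (nat_lit 348249218720) (nat_lit 76) (nat_lit 12625074369) (nat_lit 152) (nat_lit 179583694697) (nat_lit 5) (nat_lit 5) (nat_lit 6) (nat_lit 5) (nat_lit 7) (nat_lit 4) (nat_lit 240)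 (nat_lit 225) (nat_lit 135))) (XT.nd (nat_lit 78) (nat_lit 76) (nat_lit 0) (XT.lf (nat_lit 0) (nat_lit 456515569164) (nat_lit 152) (nat_lit 64360639684) (nat_lit 0) (nat_lit 84662783441) (nat_lit 5) (nat_lit 5) (nat_lit 7) (nat_lit 4) (nat_lit 5) (nat_lit 4) (nat_lit 241) (nat_lit 225) (nat_lit 134)) (XT.lf (nat_lit 0) (nat_lit 90083214673) (nat_lit 76) (nat_lit 480751087574) (nat_lit 76) (nat_lit 108898156553) (nat_lit 4) (nat_lit 4) (nat_lit 5) (nat_lit 5) (nat_lit 5) (nat_lit 4) (nat_lit 242) (nat_lit 225) (nat_lit 133))))) (XT.nd (nat_lit 312) (nat_lit 76) (nat_lit 0) (XT.nd (nat_lit 156) (nat_lit 76) (nat_lit 0) (XT.nd (nat_lit 78) (nat_lit 0) (nat_lit 0) (XT.lf (nat_lit 0) (nat_lit 274926780280) (nat_lit 76) (nat_lit 430738294486) (nat_lit 76) (nat_lit 58885237118) (nat_lit 4) (nat_lit 4) (nat_lit 5) (nat_lit 5) (nat_lit 5) (nat_lit 4) (nat_lit 243) (nat_lit 225) (nat_lit 132))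 (XT.lf (nat_lit 0) (nat_lit 487496771895) (nat_lit 76) (nat_lit 373223624581) (nat_lit 76) (nat_lit 1370457346) (nat_lit 4) (nat_lit 4) (nat_lit 5) (nat_lit 5) (nat_lit 5) (nat_lit 4) (nat_lit 244) (nat_lit 225) (nat_lit 131))) (XT.nd (nat_lit 78) (nat_lit 0) (nat_lit 0) (XT.lf (nat_lit 0) (nat_lit 59005067598) (nat_lit 152) (nat_lit 244992367434) (nat_lit 76) (nat_lit 669862744207) (nat_lit 3) (nat_lit 5) (nat_lit 5) (nat_lit 5) (nat_lit 4) (nat_lit 4) (nat_lit 245) (nat_lit 225) (nat_lit 130)) (XT.lf (nat_lit 0) (nat_lit 128296559119) (nat_lit 152) (nat_lit 96015743739) (nat_lit 76) (nat_lit 878072820228) (nat_lit 3) (nat_lit 5) (nat_lit 5) (nat_lit 5) (nat_lit 4) (nat_lit 4) (nat_lit 246) (nat_lit 225) (nat_lit 129)))) (XT.nd (nat_lit 156) (nat_lit 0) (nat_lit 0) (XT.nd (nat_lit 78) (nat_lit 0) (nat_lit 0) (XT.lf (nat_lit 0) (nat_lit 82666873644) (nat_lit 76) (nat_lit 128737913206)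 (nat_lit 152) (nat_lit 1038270570294) (nat_lit 2) (nat_lit 5) (nat_lit 3) (nat_lit 5) (nat_lit 4) (nat_lit 4) (nat_lit 247) (nat_lit 225) (nat_lit 128)) (XT.lf (nat_lit 0) (nat_lit 298942670801) (nat_lit 76) (nat_lit 13055539293) (nat_lit 152) (nat_lit 1106308072455) (nat_lit 2) (nat_lit 5) (nat_lit 3) (nat_lit 5) (nat_lit 4) (nat_lit 4) (nat_lit 248) (nat_lit 225) (nat_lit 127))) (XT.nd (nat_lit 78) (nat_lit 0) (nat_lit 0) (XT.lf (nat_lit 0) (nat_lit 432648690417) (nat_lit 152) (nat_lit 1069540160231) (nat_lit 0) (nat_lit 109297789960) (nat_lit 2) (nat_lit 5) (nat_lit 4) (nat_lit 4) (nat_lit 2) (nat_lit 4) (nat_lit 249) (nat_lit 225) (nat_lit 126)) (XT.lf (nat_lit 0) (nat_lit 572018401363) (nat_lit 152) (nat_lit 1012864942957) (nat_lit 0) (nat_lit 248667459603) (nat_lit 2) (nat_lit 5) (nat_lit 4) (nat_lit 4) (nat_lit 2) (nat_lit 4) (nat_lit 250) (nat_lit 225) (nat_lit 125)))))) (XT.nd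 (nat_lit 624) (nat_lit 76) (nat_lit 0) (XT.nd (nat_lit 312) (nat_lit 0) (nat_lit 0) (XT.nd (nat_lit 156) (nat_lit 0) (nat_lit 0) (XT.nd (nat_lit 78) (nat_lit 0) (nat_lit 0) (XT.lf (nat_lit 0) (nat_lit 732293539583) (nat_lit 152) (nat_lit 947688494938) (nat_lit 0) (nat_lit 408942561907) (nat_lit 2) (nat_lit 5) (nat_lit 4) (nat_lit 4) (nat_lit 2) (nat_lit 4) (nat_lit 251) (nat_lit 225) (nat_lit 124)) (XT.lf (nat_lit 0) (nat_lit 916609923000) (nat_lit 152) (nat_lit 872735624801) (nat_lit 0) (nat_lit 593258914093) (nat_lit 2) (nat_lit 5) (nat_lit 4) (nat_lit 4) (nat_lit 2) (nat_lit 4) (nat_lit 252) (nat_lit 225) (nat_lit 123))) (XT.nd (nat_lit 78) (nat_lit 0) (nat_lit 0) (XT.lf (nat_lit 0) (nat_lit 1128573741723) (nat_lit 152) (nat_lit 786539863346) (nat_lit 0) (nat_lit 805222705659) (nat_lit 2) (nat_lit 5) (nat_lit 4) (nat_lit 4) (nat_lit 2) (nat_lit 4) (nat_lit 253) (nat_lit 225) (nat_lit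 122)) (XT.lf (nat_lit 0) (nat_lit 1372332113945) (nat_lit 152) (nat_lit 687414771763) (nat_lit 0) (nat_lit 1048981054266) (nat_lit 2) (nat_lit 5) (nat_lit 4) (nat_lit 4) (nat_lit 2) (nat_lit 4) (nat_lit 254) (nat_lit 225) (nat_lit 121)))) (XT.nd (nat_lit 156) (nat_lit 0) (nat_lit 0) (XT.nd (nat_lit 78) (nat_lit 0) (nat_lit 0) (XT.lf (nat_lit 0) (nat_lit 1652654225210) (nat_lit 152) (nat_lit 573420946086) (nat_lit 0) (nat_lit 1329303144996) (nat_lit 2) (nat_lit 5) (nat_lit 4) (nat_lit 4) (nat_lit 2) (nat_lit 4) (nat_lit 255) (nat_lit 225) (nat_lit 120)) (XT.lf (nat_lit 0) (nat_lit 1975024638564) (nat_lit 152) (nat_lit 442328072334) (nat_lit 0) (nat_lit 1651673540493) (nat_lit 2) (nat_lit 5) (nat_lit 4) (nat_lit 4) (nat_lit 2) (nat_lit 4) (nat_lit 256) (nat_lit 225) (nat_lit 119))) (XT.nd (nat_lit 78) (nat_lit 0) (nat_lit 0) (XT.lf (nat_lit 0) (nat_lit 2345750601224) (nat_lit 152) (nat_lit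 291571289934) (nat_lit 0) (nat_lit 2022399487626) (nat_lit 2) (nat_lit 5) (nat_lit 4) (nat_lit 4) (nat_lit 2) (nat_lit 4) (nat_lit 257) (nat_lit 225) (nat_lit 118)) (XT.lf (nat_lit 0) (nat_lit 2772085447243) (nat_lit 152) (nat_lit 118201009665) (nat_lit 0) (nat_lit 2448734320143) (nat_lit 2) (nat_lit 5) (nat_lit 4) (nat_lit 4) (nat_lit 2) (nat_lit 4) (nat_lit 258) (nat_lit 225) (nat_lit 117))))) (XT.nd (nat_lit 312) (nat_lit 0) (nat_lit 0) (XT.nd (nat_lit 156) (nat_lit 0) (nat_lit 0) (XT.nd (nat_lit 78) (nat_lit 0) (nat_lit 0) (XT.lf (nat_lit 0) (nat_lit 89107787092) (nat_lit 76) (nat_lit 3176952486913) (nat_lit 76) (nat_lit 2853601348072) (nat_lit 1) (nat_lit 4) (nat_lit 2) (nat_lit 5) (nat_lit 2) (nat_lit 4) (nat_lit 259) (nat_lit 225) (nat_lit 116)) (XT.lf (nat_lit 0) (nat_lit 340797068840) (nat_lit 76) (nat_lit 3499512936066) (nat_lit 76) (nat_lit 3176161787016) (nat_lit 1) (nat_lit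 4) (nat_lit 2) (nat_lit 5) (nat_lit 2) (nat_lit 4) (nat_lit 260) (nat_lit 225) (nat_lit 115))) (XT.nd (nat_lit 78) (nat_lit 0) (nat_lit 0) (XT.lf (nat_lit 0) (nat_lit 630239728782) (nat_lit 76) (nat_lit 3870457458818) (nat_lit 76) (nat_lit 3547106300890) (nat_lit 1) (nat_lit 4) (nat_lit 2) (nat_lit 5) (nat_lit 2) (nat_lit 4) (nat_lit 261) (nat_lit 225) (nat_lit 114)) (XT.lf (nat_lit 0) (nat_lit 963098775482) (nat_lit 76) (nat_lit 4297043665397) (nat_lit 76) (nat_lit 3973692499749) (nat_lit 1) (nat_lit 4) (nat_lit 2) (nat_lit 5) (nat_lit 2) (nat_lit 4) (nat_lit 262) (nat_lit 225) (nat_lit 113)))) (XT.nd (nat_lit 156) (nat_lit 0) (nat_lit 0) (XT.nd (nat_lit 78) (nat_lit 0) (nat_lit 0) (XT.lf (nat_lit 0) (nat_lit 1345886668549) (nat_lit 76) (nat_lit 4787617807672) (nat_lit 76) (nat_lit 4464266635311) (nat_lit 1) (nat_lit 4) (nat_lit 2) (nat_lit 5) (nat_lit 2) (nat_lit 4) (nat_lit 263)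 (nat_lit 225) (nat_lit 112)) (XT.lf (nat_lit 0) (nat_lit 1786092736327) (nat_lit 76) (nat_lit 5351778075381) (nat_lit 76) (nat_lit 5028426897183) (nat_lit 1) (nat_lit 4) (nat_lit 2) (nat_lit 5) (nat_lit 2) (nat_lit 4) (nat_lit 264) (nat_lit 225) (nat_lit 111))) (XT.nd (nat_lit 78) (nat_lit 0) (nat_lit 0) (XT.lf (nat_lit 0) (nat_lit 2292329706228) (nat_lit 76) (nat_lit 6000562386807) (nat_lit 76) (nat_lit 5677211203532) (nat_lit 1) (nat_lit 4) (nat_lit 2) (nat_lit 5) (nat_lit 2) (nat_lit 4) (nat_lit 265) (nat_lit 225) (nat_lit 110)) (XT.lf (nat_lit 0) (nat_lit 2874502214619) (nat_lit 76) (nat_lit 6746664348042) (nat_lit 76) (nat_lit 6423313160354) (nat_lit 1) (nat_lit 4) (nat_lit 2) (nat_lit 5) (nat_lit 2) (nat_lit 4) (nat_lit 266) (nat_lit 225) (nat_lit 109))))))) (XT.nd (nat_lit 28782) (nat_lit 0) (nat_lit 76) (XT.nd (nat_lit 28158) (nat_lit 0) (nat_lit 532) (XT.nd (nat_lit 312)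 (nat_lit 0) (nat_lit 0) (XT.nd (nat_lit 156) (nat_lit 0) (nat_lit 0) (XT.nd (nat_lit 78) (nat_lit 0) (nat_lit 0) (XT.lf (nat_lit 0) (nat_lit 3544000593188) (nat_lit 76) (nat_lit 7604681606154) (nat_lit 76) (nat_lit 7281330414628) (nat_lit 1) (nat_lit 4) (nat_lit 2) (nat_lit 5) (nat_lit 2) (nat_lit 4) (nat_lit 267) (nat_lit 225) (nat_lit 108)) (XT.lf (nat_lit 0) (nat_lit 4313923723253) (nat_lit 76) (nat_lit 8591401455324) (nat_lit 76) (nat_lit 8268050260460) (nat_lit 1) (nat_lit 4) (nat_lit 2) (nat_lit 5) (nat_lit 2) (nat_lit 4) (nat_lit 268) (nat_lit 225) (nat_lit 107))) (XT.nd (nat_lit 78) (nat_lit 0) (nat_lit 0) (XT.lf (nat_lit 0) (nat_lit 5199335318229) (nat_lit 76) (nat_lit 9726129283904) (nat_lit 76) (nat_lit 9402778086139) (nat_lit 1) (nat_lit 4) (nat_lit 2) (nat_lit 5) (nat_lit 2) (nat_lit 4) (nat_lit 269) (nat_lit 225) (nat_lit 106)) (XT.lf (nat_lit 0) (nat_lit 6217558648452)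 (nat_lit 76) (nat_lit 11031066288542) (nat_lit 76) (nat_lit 10707715088253) (nat_lit 1) (nat_lit 4) (nat_lit 2) (nat_lit 5) (nat_lit 2) (nat_lit 4) (nat_lit 270) (nat_lit 225) (nat_lit 105)))) (XT.nd (nat_lit 156) (nat_lit 0) (nat_lit 0) (XT.nd (nat_lit 78) (nat_lit 0) (nat_lit 0) (XT.lf (nat_lit 0) (nat_lit 7388515474731) (nat_lit 76) (nat_lit 12531743845415) (nat_lit 76) (nat_lit 12208392642931) (nat_lit 1) (nat_lit 4) (nat_lit 2) (nat_lit 5) (nat_lit 2) (nat_lit 4) (nat_lit 271) (nat_lit 225) (nat_lit 104)) (XT.lf (nat_lit 0) (nat_lit 8735115821928) (nat_lit 76) (nat_lit 14257523037156) (nat_lit 76) (nat_lit 13934171832764) (nat_lit 1) (nat_lit 4) (nat_lit 2) (nat_lit 5) (nat_lit 2) (nat_lit 4) (nat_lit 272) (nat_lit 225) (nat_lit 103))) (XT.nd (nat_lit 27612) (nat_lit 0) (nat_lit 836) (XT.lf (nat_lit 0) (nat_lit 10283706218575) (nat_lit 76) (nat_lit 16242169108823) (nat_lit 76)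 (nat_lit 15918817902772) (nat_lit 1) (nat_lit 4) (nat_lit 2) (nat_lit 5) (nat_lit 2) (nat_lit 4) (nat_lit 273) (nat_lit 225) (nat_lit 102)) (XT.lf (nat_lit 0) (nat_lit 26175260533) (nat_lit 0) (nat_lit 26175260533) (nat_lit 228) (nat_lit 25857950984) (nat_lit 12) (nat_lit 5) (nat_lit 12) (nat_lit 3) (nat_lit 15) (nat_lit 3) (nat_lit 226) (nat_lit 226) (nat_lit 148))))) (XT.nd (nat_lit 312) (nat_lit 304) (nat_lit 0) (XT.nd (nat_lit 156) (nat_lit 0) (nat_lit 0) (XT.nd (nat_lit 78) (nat_lit 0) (nat_lit 0) (XT.lf (nat_lit 0) (nat_lit 112896543125) (nat_lit 228) (nat_lit 47701788315) (nat_lit 304) (nat_lit 7498398492) (nat_lit 12) (nat_lit 5) (nat_lit 15) (nat_lit 3) (nat_lit 16) (nat_lit 5) (nat_lit 227) (nat_lit 226) (nat_lit 147)) (XT.lf (nat_lit 76) (nat_lit 16053605134) (nat_lit 0) (nat_lit 109425027816) (nat_lit 304) (nat_lit 55576269422) (nat_lit 13) (nat_lit 5) (nat_lit 12) (nat_lit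 5) (nat_lit 16) (nat_lit 5) (nat_lit 228) (nat_lit 226) (nat_lit 146))) (XT.nd (nat_lit 78) (nat_lit 0) (nat_lit 76) (XT.lf (nat_lit 76) (nat_lit 94733092365) (nat_lit 0) (nat_lit 47708119911) (nat_lit 304) (nat_lit 53141619206) (nat_lit 13) (nat_lit 5) (nat_lit 12) (nat_lit 5) (nat_lit 16) (nat_lit 5) (nat_lit 229) (nat_lit 226) (nat_lit 145)) (XT.lf (nat_lit 0) (nat_lit 162911306326) (nat_lit 228) (nat_lit 28039121623) (nat_lit 76) (nat_lit 21195059103) (nat_lit 13) (nat_lit 5) (nat_lit 16) (nat_lit 5) (nat_lit 14) (nat_lit 5) (nat_lit 230) (nat_lit 226) (nat_lit 144)))) (XT.nd (nat_lit 156) (nat_lit 152) (nat_lit 0) (XT.nd (nat_lit 78) (nat_lit 0) (nat_lit 0) (XT.lf (nat_lit 0) (nat_lit 58641735193) (nat_lit 228) (nat_lit 132509979339) (nat_lit 304) (nat_lit 39335861870) (nat_lit 10) (nat_lit 5) (nat_lit 13) (nat_lit 5) (nat_lit 14) (nat_lit 5) (nat_lit 231) (nat_lit 226) (nat_lit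 143)) (XT.lf (nat_lit 0) (nat_lit 161475715095) (nat_lit 228) (nat_lit 63617928598) (nat_lit 304) (nat_lit 26267521242) (nat_lit 10) (nat_lit 5) (nat_lit 13) (nat_lit 5) (nat_lit 14) (nat_lit 5) (nat_lit 232) (nat_lit 226) (nat_lit 142))) (XT.nd (nat_lit 78) (nat_lit 76) (nat_lit 0) (XT.lf (nat_lit 0) (nat_lit 4086272712) (nat_lit 76) (nat_lit 260855891762) (nat_lit 152) (nat_lit 10301336056) (nat_lit 9) (nat_lit 5) (nat_lit 10) (nat_lit 5) (nat_lit 11) (nat_lit 4) (nat_lit 233) (nat_lit 226) (nat_lit 141)) (XT.lf (nat_lit 0) (nat_lit 15293775353) (nat_lit 152) (nat_lit 183334890485) (nat_lit 76) (nat_lit 102836732689) (nat_lit 8) (nat_lit 5) (nat_lit 10) (nat_lit 5) (nat_lit 9) (nat_lit 5) (nat_lit 234) (nat_lit 226) (nat_lit 140)))))) (XT.nd (nat_lit 624) (nat_lit 228) (nat_lit 0) (XT.nd (nat_lit 312) (nat_lit 76) (nat_lit 0) (XT.nd (nat_lit 156) (nat_lit 0) (nat_lit 0) (XT.nd (nat_lit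 78) (nat_lit 152) (nat_lit 0) (XT.lf (nat_lit 0) (nat_lit 43673329319) (nat_lit 152) (nat_lit 82829947558) (nat_lit 76) (nat_lit 205043750619) (nat_lit 8) (nat_lit 5) (nat_lit 10) (nat_lit 5) (nat_lit 9) (nat_lit 5) (nat_lit 235) (nat_lit 226) (nat_lit 139)) (XT.lf (nat_lit 0) (nat_lit 35951181126) (nat_lit 152) (nat_lit 41847154771) (nat_lit 228) (nat_lit 288119289342) (nat_lit 6) (nat_lit 5) (nat_lit 8) (nat_lit 5) (nat_lit 9) (nat_lit 5) (nat_lit 236) (nat_lit 226) (nat_lit 138))) (XT.nd (nat_lit 78) (nat_lit 0) (nat_lit 0) (XT.lf (nat_lit 0) (nat_lit 123876329266) (nat_lit 228) (nat_lit 225440726084) (nat_lit 76) (nat_lit 55101623972) (nat_lit 6) (nat_lit 5) (nat_lit 9) (nat_lit 5) (nat_lit 7) (nat_lit 4) (nat_lit 237) (nat_lit 226) (nat_lit 137)) (XT.lf (nat_lit 0) (nat_lit 178858628194) (nat_lit 228) (nat_lit 107229037518) (nat_lit 76) (nat_lit 162308336603) (nat_lit 6) (nat_lit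 5) (nat_lit 9) (nat_lit 5) (nat_lit 7) (nat_lit 4) (nat_lit 238) (nat_lit 226) (nat_lit 136)))) (XT.nd (nat_lit 156) (nat_lit 0) (nat_lit 0) (XT.nd (nat_lit 78) (nat_lit 0) (nat_lit 0) (XT.lf (nat_lit 0) (nat_lit 31520426768) (nat_lit 76) (nat_lit 211872938760) (nat_lit 152) (nat_lit 255380795744) (nat_lit 5) (nat_lit 5) (nat_lit 6) (nat_lit 5) (nat_lit 7) (nat_lit 4) (nat_lit 239) (nat_lit 226) (nat_lit 135)) (XT.lf (nat_lit 0) (nat_lit 203133254918) (nat_lit 76) (nat_lit 120080120055) (nat_lit 152) (nat_lit 232654911219) (nat_lit 5) (nat_lit 5) (nat_lit 6) (nat_lit 5) (nat_lit 7) (nat_lit 4) (nat_lit 240) (nat_lit 226) (nat_lit 134))) (XT.nd (nat_lit 78) (nat_lit 0) (nat_lit 0) (XT.lf (nat_lit 0) (nat_lit 400487887829) (nat_lit 76) (nat_lit 14518417379) (nat_lit 152) (nat_lit 206520237909) (nat_lit 5) (nat_lit 5) (nat_lit 6) (nat_lit 5) (nat_lit 7) (nat_lit 4) (nat_lit 241) (nat_lit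 226) (nat_lit 133)) (XT.lf (nat_lit 0) (nat_lit 524993674512) (nat_lit 152) (nat_lit 74013507964) (nat_lit 0) (nat_lit 97362532192) (nat_lit 5) (nat_lit 5) (nat_lit 7) (nat_lit 4) (nat_lit 5) (nat_lit 4) (nat_lit 242) (nat_lit 226) (nat_lit 132))))) (XT.nd (nat_lit 312) (nat_lit 76) (nat_lit 0) (XT.nd (nat_lit 156) (nat_lit 76) (nat_lit 0) (XT.nd (nat_lit 78) (nat_lit 0) (nat_lit 0) (XT.lf (nat_lit 0) (nat_lit 103596868743) (nat_lit 76) (nat_lit 552863296908) (nat_lit 76) (nat_lit 125232044721) (nat_lit 4) (nat_lit 4) (nat_lit 5) (nat_lit 5) (nat_lit 5) (nat_lit 4) (nat_lit 243) (nat_lit 226) (nat_lit 131)) (XT.lf (nat_lit 0) (nat_lit 316166816340) (nat_lit 76) (nat_lit 495348644049) (nat_lit 76) (nat_lit 67717296325) (nat_lit 4) (nat_lit 4) (nat_lit 5) (nat_lit 5) (nat_lit 5) (nat_lit 4) (nat_lit 244) (nat_lit 226) (nat_lit 130))) (XT.nd (nat_lit 78) (nat_lit 76) (nat_lit 0) (XT.lf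 (nat_lit 0) (nat_lit 560622173781) (nat_lit 76) (nat_lit 429206825129) (nat_lit 76) (nat_lit 1575394330) (nat_lit 4) (nat_lit 4) (nat_lit 5) (nat_lit 5) (nat_lit 5) (nat_lit 4) (nat_lit 245) (nat_lit 226) (nat_lit 129)) (XT.lf (nat_lit 0) (nat_lit 67856328075) (nat_lit 152) (nat_lit 281740397676) (nat_lit 76) (nat_lit 770342399871) (nat_lit 3) (nat_lit 5) (nat_lit 5) (nat_lit 5) (nat_lit 4) (nat_lit 4) (nat_lit 246) (nat_lit 226) (nat_lit 128)))) (XT.nd (nat_lit 156) (nat_lit 0) (nat_lit 0) (XT.nd (nat_lit 78) (nat_lit 76) (nat_lit 0) (XT.lf (nat_lit 0) (nat_lit 147541478062) (nat_lit 152) (nat_lit 110417388019) (nat_lit 76) (nat_lit 1009783955465) (nat_lit 3) (nat_lit 5) (nat_lit 5) (nat_lit 5) (nat_lit 4) (nat_lit 4) (nat_lit 247) (nat_lit 226) (nat_lit 127)) (XT.lf (nat_lit 0) (nat_lit 95067589368) (nat_lit 76) (nat_lit 148048322187) (nat_lit 152) (nat_lit 1194010684035) (nat_lit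 2) (nat_lit 5) (nat_lit 3) (nat_lit 5) (nat_lit 4) (nat_lit 4) (nat_lit 248) (nat_lit 226) (nat_lit 126))) (XT.nd (nat_lit 78) (nat_lit 0) (nat_lit 0) (XT.lf (nat_lit 0) (nat_lit 343784666793) (nat_lit 76) (nat_lit 15013628448) (nat_lit 152) (nat_lit 1272253873060) (nat_lit 2) (nat_lit 5) (nat_lit 3) (nat_lit 5) (nat_lit 4) (nat_lit 4) (nat_lit 249) (nat_lit 226) (nat_lit 125)) (XT.lf (nat_lit 0) (nat_lit 497546310190) (nat_lit 152) (nat_lit 1229970626011) (nat_lit 0) (nat_lit 125692649948) (nat_lit 2) (nat_lit 5) (nat_lit 4) (nat_lit 4) (nat_lit 2) (nat_lit 4) (nat_lit 250) (nat_lit 226) (nat_lit 124))))))))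
noncomputable def xc55 : XT := (XT.nd (nat_lit 30108) (nat_lit 0) (nat_lit 0) (XT.nd (nat_lit 1248) (nat_lit 0) (nat_lit 0) (XT.nd (nat_lit 624) (nat_lit 76) (nat_lit 0) (XT.nd (nat_lit 312) (nat_lit 0) (nat_lit 0) (XT.nd (nat_lit 156) (nat_lit 0) (nat_lit 0) (XT.nd (nat_lit 78) (nat_lit 0) (nat_lit 0) (XT.lf (nat_lit 0) (nat_lit 657821436533) (nat_lit 152) (nat_lit 1164794198962) (nat_lit 0) (nat_lit 285967745059) (nat_lit 2) (nat_lit 5) (nat_lit 4) (nat_lit 4) (nat_lit 2) (nat_lit 4) (nat_lit 251) (nat_lit 226) (nat_lit 123)) (XT.lf (nat_lit 0) (nat_lit 842137809621) (nat_lit 152) (nat_lit 1089841347059) (nat_lit 0) (nat_lit 470284090990) (nat_lit 2) (nat_lit 5) (nat_lit 4) (nat_lit 4) (nat_lit 2) (nat_lit 4) (nat_lit 252) (nat_lit 226) (nat_lit 122))) (XT.nd (nat_lit 78) (nat_lit 0) (nat_lit 0) (XT.lf (nat_lit 0) (nat_lit 1054101619363) (nat_lit 152) (nat_lit 1003645601460) (nat_lit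 0) (nat_lit 682247877117) (nat_lit 2) (nat_lit 5) (nat_lit 4) (nat_lit 4) (nat_lit 2) (nat_lit 4) (nat_lit 253) (nat_lit 226) (nat_lit 121)) (XT.lf (nat_lit 0) (nat_lit 1297859983776) (nat_lit 152) (nat_lit 904520523664) (nat_lit 0) (nat_lit 926006220995) (nat_lit 2) (nat_lit 5) (nat_lit 4) (nat_lit 4) (nat_lit 2) (nat_lit 4) (nat_lit 254) (nat_lit 226) (nat_lit 120)))) (XT.nd (nat_lit 156) (nat_lit 0) (nat_lit 0) (XT.nd (nat_lit 78) (nat_lit 0) (nat_lit 0) (XT.lf (nat_lit 0) (nat_lit 1578182088250) (nat_lit 152) (nat_lit 790526709976) (nat_lit 0) (nat_lit 1206328307612) (nat_lit 2) (nat_lit 5) (nat_lit 4) (nat_lit 4) (nat_lit 2) (nat_lit 4) (nat_lit 255) (nat_lit 226) (nat_lit 119)) (XT.lf (nat_lit 0) (nat_lit 1900552495698) (nat_lit 152) (nat_lit 659433846650) (nat_lit 0) (nat_lit 1528698699533) (nat_lit 2) (nat_lit 5) (nat_lit 4) (nat_lit 4) (nat_lit 2) (nat_lit 4) (nat_lit 256)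 (nat_lit 226) (nat_lit 118))) (XT.nd (nat_lit 78) (nat_lit 0) (nat_lit 0) (XT.lf (nat_lit 0) (nat_lit 2271278453223) (nat_lit 152) (nat_lit 508677073316) (nat_lit 0) (nat_lit 1899424643556) (nat_lit 2) (nat_lit 5) (nat_lit 4) (nat_lit 4) (nat_lit 2) (nat_lit 4) (nat_lit 257) (nat_lit 226) (nat_lit 117)) (XT.lf (nat_lit 0) (nat_lit 2697613294777) (nat_lit 152) (nat_lit 335306800930) (nat_lit 0) (nat_lit 2325759473370) (nat_lit 2) (nat_lit 5) (nat_lit 4) (nat_lit 4) (nat_lit 2) (nat_lit 4) (nat_lit 258) (nat_lit 226) (nat_lit 116))))) (XT.nd (nat_lit 312) (nat_lit 0) (nat_lit 0) (XT.nd (nat_lit 156) (nat_lit 0) (nat_lit 0) (XT.nd (nat_lit 78) (nat_lit 76) (nat_lit 0) (XT.lf (nat_lit 0) (nat_lit 3187898354217) (nat_lit 152) (nat_lit 135931002424) (nat_lit 0) (nat_lit 2816044522599) (nat_lit 2) (nat_lit 5) (nat_lit 4) (nat_lit 4) (nat_lit 2) (nat_lit 4) (nat_lit 259) (nat_lit 226) (nat_lit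 115)) (XT.lf (nat_lit 0) (nat_lit 102474106633) (nat_lit 76) (nat_lit 3653495292908) (nat_lit 76) (nat_lit 3281641452413) (nat_lit 1) (nat_lit 4) (nat_lit 2) (nat_lit 5) (nat_lit 2) (nat_lit 4) (nat_lit 260) (nat_lit 226) (nat_lit 114))) (XT.nd (nat_lit 78) (nat_lit 0) (nat_lit 0) (XT.lf (nat_lit 0) (nat_lit 391916760885) (nat_lit 76) (nat_lit 4024439818178) (nat_lit 76) (nat_lit 3652585969963) (nat_lit 1) (nat_lit 4) (nat_lit 2) (nat_lit 5) (nat_lit 2) (nat_lit 4) (nat_lit 261) (nat_lit 226) (nat_lit 113)) (XT.lf (nat_lit 0) (nat_lit 724775802638) (nat_lit 76) (nat_lit 4451026026947) (nat_lit 76) (nat_lit 4079172172019) (nat_lit 1) (nat_lit 4) (nat_lit 2) (nat_lit 5) (nat_lit 2) (nat_lit 4) (nat_lit 262) (nat_lit 226) (nat_lit 112)))) (XT.nd (nat_lit 156) (nat_lit 0) (nat_lit 0) (XT.nd (nat_lit 78) (nat_lit 0) (nat_lit 0) (XT.lf (nat_lit 0) (nat_lit 1107563691403) (nat_lit 76) (nat_lit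 4941600171126) (nat_lit 76) (nat_lit 4569746310360) (nat_lit 1) (nat_lit 4) (nat_lit 2) (nat_lit 5) (nat_lit 2) (nat_lit 4) (nat_lit 263) (nat_lit 226) (nat_lit 111)) (XT.lf (nat_lit 0) (nat_lit 1547769755439) (nat_lit 76) (nat_lit 5505760440491) (nat_lit 76) (nat_lit 5133906574650) (nat_lit 1) (nat_lit 4) (nat_lit 2) (nat_lit 5) (nat_lit 2) (nat_lit 4) (nat_lit 264) (nat_lit 226) (nat_lit 110))) (XT.nd (nat_lit 78) (nat_lit 0) (nat_lit 0) (XT.lf (nat_lit 0) (nat_lit 2054006722087) (nat_lit 76) (nat_lit 6154544753356) (nat_lit 76) (nat_lit 5782690883101) (nat_lit 1) (nat_lit 4) (nat_lit 2) (nat_lit 5) (nat_lit 2) (nat_lit 4) (nat_lit 265) (nat_lit 226) (nat_lit 109)) (XT.lf (nat_lit 0) (nat_lit 2636179227650) (nat_lit 76) (nat_lit 6900646715843) (nat_lit 76) (nat_lit 6528792841750) (nat_lit 1) (nat_lit 4) (nat_lit 2) (nat_lit 5) (nat_lit 2) (nat_lit 4) (nat_lit 266) (nat_lit 226)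 (nat_lit 108)))))) (XT.nd (nat_lit 28236) (nat_lit 0) (nat_lit 532) (XT.nd (nat_lit 312) (nat_lit 0) (nat_lit 0) (XT.nd (nat_lit 156) (nat_lit 0) (nat_lit 0) (XT.nd (nat_lit 78) (nat_lit 0) (nat_lit 0) (XT.lf (nat_lit 0) (nat_lit 3305677603758) (nat_lit 76) (nat_lit 7758663975044) (nat_lit 76) (nat_lit 7386810097614) (nat_lit 1) (nat_lit 4) (nat_lit 2) (nat_lit 5) (nat_lit 2) (nat_lit 4) (nat_lit 267) (nat_lit 226) (nat_lit 107)) (XT.lf (nat_lit 0) (nat_lit 4075600731684) (nat_lit 76) (nat_lit 8745383825161) (nat_lit 76) (nat_lit 8373529944828) (nat_lit 1) (nat_lit 4) (nat_lit 2) (nat_lit 5) (nat_lit 2) (nat_lit 4) (nat_lit 268) (nat_lit 226) (nat_lit 106))) (XT.nd (nat_lit 78) (nat_lit 0) (nat_lit 0) (XT.lf (nat_lit 0) (nat_lit 4961012324800) (nat_lit 76) (nat_lit 9880111654565) (nat_lit 76) (nat_lit 9508257771708) (nat_lit 1) (nat_lit 4) (nat_lit 2) (nat_lit 5) (nat_lit 2) (nat_lit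 4) (nat_lit 269) (nat_lit 226) (nat_lit 105)) (XT.lf (nat_lit 0) (nat_lit 5979235653406) (nat_lit 76) (nat_lit 11185048659918) (nat_lit 76) (nat_lit 10813194774867) (nat_lit 1) (nat_lit 4) (nat_lit 2) (nat_lit 5) (nat_lit 2) (nat_lit 4) (nat_lit 270) (nat_lit 226) (nat_lit 104)))) (XT.nd (nat_lit 156) (nat_lit 0) (nat_lit 0) (XT.nd (nat_lit 78) (nat_lit 0) (nat_lit 0) (XT.lf (nat_lit 0) (nat_lit 7150192478279) (nat_lit 76) (nat_lit 12685726217413) (nat_lit 76) (nat_lit 12313872330454) (nat_lit 1) (nat_lit 4) (nat_lit 2) (nat_lit 5) (nat_lit 2) (nat_lit 4) (nat_lit 271) (nat_lit 226) (nat_lit 103)) (XT.lf (nat_lit 0) (nat_lit 8496792824253) (nat_lit 76) (nat_lit 14411505409696) (nat_lit 76) (nat_lit 14039651521078) (nat_lit 1) (nat_lit 4) (nat_lit 2) (nat_lit 5) (nat_lit 2) (nat_lit 4) (nat_lit 272) (nat_lit 226) (nat_lit 102))) (XT.nd (nat_lit 27690) (nat_lit 0) (nat_lit 836) (XT.lf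 (nat_lit 0) (nat_lit 10045383219837) (nat_lit 76) (nat_lit 16396151481834) (nat_lit 76) (nat_lit 16024297591772) (nat_lit 1) (nat_lit 4) (nat_lit 2) (nat_lit 5) (nat_lit 2) (nat_lit 4) (nat_lit 273) (nat_lit 226) (nat_lit 101)) (XT.lf (nat_lit 0) (nat_lit 30102549682) (nat_lit 0) (nat_lit 30102549682) (nat_lit 228) (nat_lit 29734298848) (nat_lit 12) (nat_lit 5) (nat_lit 12) (nat_lit 3) (nat_lit 15) (nat_lit 3) (nat_lit 227) (nat_lit 227) (nat_lit 146))))) (XT.nd (nat_lit 312) (nat_lit 304) (nat_lit 0) (XT.nd (nat_lit 156) (nat_lit 0) (nat_lit 0) (XT.nd (nat_lit 78) (nat_lit 0) (nat_lit 0) (XT.lf (nat_lit 0) (nat_lit 129834431075) (nat_lit 228) (nat_lit 54854645909) (nat_lit 304) (nat_lit 8621573856) (nat_lit 12) (nat_lit 5) (nat_lit 15) (nat_lit 3) (nat_lit 16) (nat_lit 5) (nat_lit 228) (nat_lit 227) (nat_lit 145)) (XT.lf (nat_lit 76) (nat_lit 18463946982) (nat_lit 0) (nat_lit 125839538351)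 (nat_lit 304) (nat_lit 63909126292) (nat_lit 13) (nat_lit 5) (nat_lit 12) (nat_lit 5) (nat_lit 16) (nat_lit 5) (nat_lit 229) (nat_lit 227) (nat_lit 144))) (XT.nd (nat_lit 78) (nat_lit 0) (nat_lit 76) (XT.lf (nat_lit 76) (nat_lit 108945057157) (nat_lit 0) (nat_lit 54864995604) (nat_lit 304) (nat_lit 61109745962) (nat_lit 13) (nat_lit 5) (nat_lit 12) (nat_lit 5) (nat_lit 16) (nat_lit 5) (nat_lit 230) (nat_lit 227) (nat_lit 143)) (XT.lf (nat_lit 0) (nat_lit 187350290458) (nat_lit 228) (nat_lit 32242828430) (nat_lit 76) (nat_lit 24373796966) (nat_lit 13) (nat_lit 5) (nat_lit 16) (nat_lit 5) (nat_lit 14) (nat_lit 5) (nat_lit 231) (nat_lit 227) (nat_lit 142)))) (XT.nd (nat_lit 156) (nat_lit 152) (nat_lit 0) (XT.nd (nat_lit 78) (nat_lit 0) (nat_lit 0) (XT.lf (nat_lit 0) (nat_lit 67440058661) (nat_lit 228) (nat_lit 152386488206) (nat_lit 304) (nat_lit 45233810348) (nat_lit 10) (nat_lit 5)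 (nat_lit 13) (nat_lit 5) (nat_lit 14) (nat_lit 5) (nat_lit 232) (nat_lit 227) (nat_lit 141)) (XT.lf (nat_lit 0) (nat_lit 185698866437) (nat_lit 228) (nat_lit 73160628293) (nat_lit 304) (nat_lit 30205535686) (nat_lit 10) (nat_lit 5) (nat_lit 13) (nat_lit 5) (nat_lit 14) (nat_lit 5) (nat_lit 233) (nat_lit 227) (nat_lit 140))) (XT.nd (nat_lit 78) (nat_lit 76) (nat_lit 0) (XT.lf (nat_lit 0) (nat_lit 4701221760) (nat_lit 76) (nat_lit 299983919280) (nat_lit 152) (nat_lit 11844603233) (nat_lit 9) (nat_lit 5) (nat_lit 10) (nat_lit 5) (nat_lit 11) (nat_lit 4) (nat_lit 234) (nat_lit 227) (nat_lit 139)) (XT.lf (nat_lit 0) (nat_lit 17589373067) (nat_lit 152) (nat_lit 210833202816) (nat_lit 76) (nat_lit 118262377342) (nat_lit 8) (nat_lit 5) (nat_lit 10) (nat_lit 5) (nat_lit 9) (nat_lit 5) (nat_lit 235) (nat_lit 227) (nat_lit 138))))))) (XT.nd (nat_lit 1248) (nat_lit 76) (nat_lit 0) (XT.nd (nat_lit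 624) (nat_lit 228) (nat_lit 0) (XT.nd (nat_lit 312) (nat_lit 76) (nat_lit 0) (XT.nd (nat_lit 156) (nat_lit 0) (nat_lit 0) (XT.nd (nat_lit 78) (nat_lit 152) (nat_lit 0) (XT.lf (nat_lit 0) (nat_lit 50225660378) (nat_lit 152) (nat_lit 95252769047) (nat_lit 76) (nat_lit 235800430385) (nat_lit 8) (nat_lit 5) (nat_lit 10) (nat_lit 5) (nat_lit 9) (nat_lit 5) (nat_lit 236) (nat_lit 227) (nat_lit 137)) (XT.lf (nat_lit 0) (nat_lit 41345453001) (nat_lit 152) (nat_lit 48123857280) (nat_lit 228) (nat_lit 331335755960) (nat_lit 6) (nat_lit 5) (nat_lit 8) (nat_lit 5) (nat_lit 9) (nat_lit 5) (nat_lit 237) (nat_lit 227) (nat_lit 136))) (XT.nd (nat_lit 78) (nat_lit 0) (nat_lit 0) (XT.lf (nat_lit 0) (nat_lit 142458856352) (nat_lit 228) (nat_lit 259255285310) (nat_lit 76) (nat_lit 63367161223) (nat_lit 6) (nat_lit 5) (nat_lit 9) (nat_lit 5) (nat_lit 7) (nat_lit 4) (nat_lit 238) (nat_lit 227) (nat_lit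 135)) (XT.lf (nat_lit 0) (nat_lit 205688359550) (nat_lit 228) (nat_lit 123312045591) (nat_lit 76) (nat_lit 186654842447) (nat_lit 6) (nat_lit 5) (nat_lit 9) (nat_lit 5) (nat_lit 7) (nat_lit 4) (nat_lit 239) (nat_lit 227) (nat_lit 134)))) (XT.nd (nat_lit 156) (nat_lit 0) (nat_lit 0) (XT.nd (nat_lit 78) (nat_lit 0) (nat_lit 0) (XT.lf (nat_lit 0) (nat_lit 36249777084) (nat_lit 76) (nat_lit 243653461428) (nat_lit 152) (nat_lit 293686904114) (nat_lit 5) (nat_lit 5) (nat_lit 6) (nat_lit 5) (nat_lit 7) (nat_lit 4) (nat_lit 240) (nat_lit 227) (nat_lit 133)) (XT.lf (nat_lit 0) (nat_lit 233604361679) (nat_lit 76) (nat_lit 138091774458) (nat_lit 152) (nat_lit 267552268778) (nat_lit 5) (nat_lit 5) (nat_lit 6) (nat_lit 5) (nat_lit 7) (nat_lit 4) (nat_lit 241) (nat_lit 227) (nat_lit 132))) (XT.nd (nat_lit 78) (nat_lit 0) (nat_lit 0) (XT.lf (nat_lit 0) (nat_lit 460562043632) (nat_lit 76) (nat_lit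 16695863807) (nat_lit 152) (nat_lit 237497509140) (nat_lit 5) (nat_lit 5) (nat_lit 6) (nat_lit 5) (nat_lit 7) (nat_lit 4) (nat_lit 242) (nat_lit 227) (nat_lit 131)) (XT.lf (nat_lit 0) (nat_lit 603743307900) (nat_lit 152) (nat_lit 85114605862) (nat_lit 0) (nat_lit 111967162482) (nat_lit 5) (nat_lit 5) (nat_lit 7) (nat_lit 4) (nat_lit 5) (nat_lit 4) (nat_lit 243) (nat_lit 227) (nat_lit 130))))) (XT.nd (nat_lit 312) (nat_lit 76) (nat_lit 0) (XT.nd (nat_lit 156) (nat_lit 76) (nat_lit 0) (XT.nd (nat_lit 78) (nat_lit 0) (nat_lit 0) (XT.lf (nat_lit 0) (nat_lit 119137285157) (nat_lit 76) (nat_lit 635792448304) (nat_lit 76) (nat_lit 144016219811) (nat_lit 4) (nat_lit 4) (nat_lit 5) (nat_lit 5) (nat_lit 5) (nat_lit 4) (nat_lit 244) (nat_lit 227) (nat_lit 129)) (XT.lf (nat_lit 0) (nat_lit 363592609314) (nat_lit 76) (nat_lit 569650642274) (nat_lit 76) (nat_lit 77874341541) (nat_lit 4) (nat_lit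 4) (nat_lit 5) (nat_lit 5) (nat_lit 5) (nat_lit 4) (nat_lit 245) (nat_lit 227) (nat_lit 128))) (XT.nd (nat_lit 78) (nat_lit 76) (nat_lit 0) (XT.lf (nat_lit 0) (nat_lit 644716169868) (nat_lit 76) (nat_lit 493587589435) (nat_lit 76) (nat_lit 1811225886) (nat_lit 4) (nat_lit 4) (nat_lit 5) (nat_lit 5) (nat_lit 5) (nat_lit 4) (nat_lit 246) (nat_lit 227) (nat_lit 127)) (XT.lf (nat_lit 0) (nat_lit 78035155612) (nat_lit 152) (nat_lit 324000833605) (nat_lit 76) (nat_lit 885893944376) (nat_lit 3) (nat_lit 5) (nat_lit 5) (nat_lit 5) (nat_lit 4) (nat_lit 4) (nat_lit 247) (nat_lit 227) (nat_lit 126)))) (XT.nd (nat_lit 156) (nat_lit 0) (nat_lit 0) (XT.nd (nat_lit 78) (nat_lit 76) (nat_lit 0) (XT.lf (nat_lit 0) (nat_lit 169673028751) (nat_lit 152) (nat_lit 126979453854) (nat_lit 76) (nat_lit 1161251709240) (nat_lit 3) (nat_lit 5) (nat_lit 5) (nat_lit 5) (nat_lit 4) (nat_lit 4) (nat_lit 248) (nat_lit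 227) (nat_lit 125)) (XT.lf (nat_lit 0) (nat_lit 109328245488) (nat_lit 76) (nat_lit 170255360307) (nat_lit 152) (nat_lit 1373111929890) (nat_lit 2) (nat_lit 5) (nat_lit 3) (nat_lit 5) (nat_lit 4) (nat_lit 4) (nat_lit 249) (nat_lit 227) (nat_lit 124))) (XT.nd (nat_lit 78) (nat_lit 0) (nat_lit 0) (XT.lf (nat_lit 0) (nat_lit 395352816998) (nat_lit 76) (nat_lit 17265489926) (nat_lit 152) (nat_lit 1463091643801) (nat_lit 2) (nat_lit 5) (nat_lit 3) (nat_lit 5) (nat_lit 4) (nat_lit 4) (nat_lit 250) (nat_lit 227) (nat_lit 123)) (XT.lf (nat_lit 0) (nat_lit 572178495820) (nat_lit 152) (nat_lit 1414465797793) (nat_lit 0) (nat_lit 144546692236) (nat_lit 2) (nat_lit 5) (nat_lit 4) (nat_lit 4) (nat_lit 2) (nat_lit 4) (nat_lit 251) (nat_lit 227) (nat_lit 122)))))) (XT.nd (nat_lit 624) (nat_lit 76) (nat_lit 0) (XT.nd (nat_lit 312) (nat_lit 0) (nat_lit 0) (XT.nd (nat_lit 156) (nat_lit 0) (nat_lit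 0) (XT.nd (nat_lit 78) (nat_lit 0) (nat_lit 0) (XT.lf (nat_lit 0) (nat_lit 756494859927) (nat_lit 152) (nat_lit 1339512961745) (nat_lit 0) (nat_lit 328863032728) (nat_lit 2) (nat_lit 5) (nat_lit 4) (nat_lit 4) (nat_lit 2) (nat_lit 4) (nat_lit 252) (nat_lit 227) (nat_lit 121)) (XT.lf (nat_lit 0) (nat_lit 968458661859) (nat_lit 152) (nat_lit 1253317229934) (nat_lit 0) (nat_lit 540826814126) (nat_lit 2) (nat_lit 5) (nat_lit 4) (nat_lit 4) (nat_lit 2) (nat_lit 4) (nat_lit 253) (nat_lit 227) (nat_lit 120))) (XT.nd (nat_lit 78) (nat_lit 0) (nat_lit 0) (XT.lf (nat_lit 0) (nat_lit 1212217019481) (nat_lit 152) (nat_lit 1154192164128) (nat_lit 0) (nat_lit 784585153891) (nat_lit 2) (nat_lit 5) (nat_lit 4) (nat_lit 4) (nat_lit 2) (nat_lit 4) (nat_lit 254) (nat_lit 227) (nat_lit 119)) (XT.lf (nat_lit 0) (nat_lit 1492539118049) (nat_lit 152) (nat_lit 1040198360865) (nat_lit 0) (nat_lit 1064907236932)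 (nat_lit 2) (nat_lit 5) (nat_lit 4) (nat_lit 4) (nat_lit 2) (nat_lit 4) (nat_lit 255) (nat_lit 227) (nat_lit 118)))) (XT.nd (nat_lit 156) (nat_lit 0) (nat_lit 0) (XT.nd (nat_lit 78) (nat_lit 0) (nat_lit 0) (XT.lf (nat_lit 0) (nat_lit 1814909520363) (nat_lit 152) (nat_lit 909105506605) (nat_lit 0) (nat_lit 1387277625743) (nat_lit 2) (nat_lit 5) (nat_lit 4) (nat_lit 4) (nat_lit 2) (nat_lit 4) (nat_lit 256) (nat_lit 227) (nat_lit 117)) (XT.lf (nat_lit 0) (nat_lit 2185635473423) (nat_lit 152) (nat_lit 758348741153) (nat_lit 0) (nat_lit 1758003567063) (nat_lit 2) (nat_lit 5) (nat_lit 4) (nat_lit 4) (nat_lit 2) (nat_lit 4) (nat_lit 257) (nat_lit 227) (nat_lit 116))) (XT.nd (nat_lit 78) (nat_lit 0) (nat_lit 0) (XT.lf (nat_lit 0) (nat_lit 2611970311094) (nat_lit 152) (nat_lit 584978475622) (nat_lit 0) (nat_lit 2184338394524) (nat_lit 2) (nat_lit 5) (nat_lit 4) (nat_lit 4) (nat_lit 2) (nat_lit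 4) (nat_lit 258) (nat_lit 227) (nat_lit 115)) (XT.lf (nat_lit 0) (nat_lit 3102255367157) (nat_lit 152) (nat_lit 385602683078) (nat_lit 0) (nat_lit 2674623441709) (nat_lit 2) (nat_lit 5) (nat_lit 4) (nat_lit 4) (nat_lit 2) (nat_lit 4) (nat_lit 259) (nat_lit 227) (nat_lit 114))))) (XT.nd (nat_lit 312) (nat_lit 0) (nat_lit 0) (XT.nd (nat_lit 156) (nat_lit 0) (nat_lit 0) (XT.nd (nat_lit 78) (nat_lit 76) (nat_lit 0) (XT.lf (nat_lit 0) (nat_lit 3666083175316) (nat_lit 152) (nat_lit 156320532795) (nat_lit 0) (nat_lit 3238451242149) (nat_lit 2) (nat_lit 5) (nat_lit 4) (nat_lit 4) (nat_lit 2) (nat_lit 4) (nat_lit 260) (nat_lit 227) (nat_lit 113)) (XT.lf (nat_lit 0) (nat_lit 117845337167) (nat_lit 76) (nat_lit 4201519536150) (nat_lit 76) (nat_lit 3773887596270) (nat_lit 1) (nat_lit 4) (nat_lit 2) (nat_lit 5) (nat_lit 2) (nat_lit 4) (nat_lit 261) (nat_lit 227) (nat_lit 112))) (XT.nd (nat_lit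 78) (nat_lit 0) (nat_lit 0) (XT.lf (nat_lit 0) (nat_lit 450704374617) (nat_lit 76) (nat_lit 4628105746823) (nat_lit 76) (nat_lit 4200473801106) (nat_lit 1) (nat_lit 4) (nat_lit 2) (nat_lit 5) (nat_lit 2) (nat_lit 4) (nat_lit 262) (nat_lit 227) (nat_lit 111)) (XT.lf (nat_lit 0) (nat_lit 833492259641) (nat_lit 76) (nat_lit 5118679892658) (nat_lit 76) (nat_lit 4691047941864) (nat_lit 1) (nat_lit 4) (nat_lit 2) (nat_lit 5) (nat_lit 2) (nat_lit 4) (nat_lit 263) (nat_lit 227) (nat_lit 110)))) (XT.nd (nat_lit 156) (nat_lit 0) (nat_lit 0) (XT.nd (nat_lit 78) (nat_lit 0) (nat_lit 0) (XT.lf (nat_lit 0) (nat_lit 1273698320424) (nat_lit 76) (nat_lit 5682840163462) (nat_lit 76) (nat_lit 5255208208255) (nat_lit 1) (nat_lit 4) (nat_lit 2) (nat_lit 5) (nat_lit 2) (nat_lit 4) (nat_lit 264) (nat_lit 227) (nat_lit 109)) (XT.lf (nat_lit 0) (nat_lit 1779935284243) (nat_lit 76) (nat_lit 6331624477580)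 (nat_lit 76) (nat_lit 5903992518535) (nat_lit 1) (nat_lit 4) (nat_lit 2) (nat_lit 5) (nat_lit 2) (nat_lit 4) (nat_lit 265) (nat_lit 227) (nat_lit 108))) (XT.nd (nat_lit 78) (nat_lit 0) (nat_lit 0) (XT.lf (nat_lit 0) (nat_lit 2362107787346) (nat_lit 76) (nat_lit 7077726441156) (nat_lit 76) (nat_lit 6650094478773) (nat_lit 1) (nat_lit 4) (nat_lit 2) (nat_lit 5) (nat_lit 2) (nat_lit 4) (nat_lit 266) (nat_lit 227) (nat_lit 107)) (XT.lf (nat_lit 0) (nat_lit 3031606161316) (nat_lit 76) (nat_lit 7935743701303) (nat_lit 76) (nat_lit 7508111736019) (nat_lit 1) (nat_lit 4) (nat_lit 2) (nat_lit 5) (nat_lit 2) (nat_lit 4) (nat_lit 267) (nat_lit 227) (nat_lit 106))))))))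
noncomputable def xc56 : XT := (XT.nd (nat_lit 30186) (nat_lit 0) (nat_lit 0) (XT.nd (nat_lit 28938) (nat_lit 0) (nat_lit 76) (XT.nd (nat_lit 28314) (nat_lit 0) (nat_lit 532) (XT.nd (nat_lit 312) (nat_lit 0) (nat_lit 0) (XT.nd (nat_lit 156) (nat_lit 0) (nat_lit 0) (XT.nd (nat_lit 78) (nat_lit 0) (nat_lit 0) (XT.lf (nat_lit 0) (nat_lit 3801529287382) (nat_lit 76) (nat_lit 8922463552243) (nat_lit 76) (nat_lit 8494831584435) (nat_lit 1) (nat_lit 4) (nat_lit 2) (nat_lit 5) (nat_lit 2) (nat_lit 4) (nat_lit 268) (nat_lit 227) (nat_lit 105)) (XT.lf (nat_lit 0) (nat_lit 4686940878880) (nat_lit 76) (nat_lit 10057191382363) (nat_lit 76) (nat_lit 9629559412360) (nat_lit 1) (nat_lit 4) (nat_lit 2) (nat_lit 5) (nat_lit 2) (nat_lit 4) (nat_lit 269) (nat_lit 227) (nat_lit 104))) (XT.nd (nat_lit 78) (nat_lit 0) (nat_lit 0) (XT.lf (nat_lit 0) (nat_lit 5705164206079) (nat_lit 76) (nat_lit 11362128388339)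 (nat_lit 76) (nat_lit 10934496416428) (nat_lit 1) (nat_lit 4) (nat_lit 2) (nat_lit 5) (nat_lit 2) (nat_lit 4) (nat_lit 270) (nat_lit 227) (nat_lit 103)) (XT.lf (nat_lit 0) (nat_lit 6876121029729) (nat_lit 76) (nat_lit 12862805946375) (nat_lit 76) (nat_lit 12435173972805) (nat_lit 1) (nat_lit 4) (nat_lit 2) (nat_lit 5) (nat_lit 2) (nat_lit 4) (nat_lit 271) (nat_lit 227) (nat_lit 102)))) (XT.nd (nat_lit 27846) (nat_lit 0) (nat_lit 836) (XT.nd (nat_lit 78) (nat_lit 0) (nat_lit 0) (XT.lf (nat_lit 0) (nat_lit 8222721374640) (nat_lit 76) (nat_lit 14588585139129) (nat_lit 76) (nat_lit 14160953164116) (nat_lit 1) (nat_lit 4) (nat_lit 2) (nat_lit 5) (nat_lit 2) (nat_lit 4) (nat_lit 272) (nat_lit 227) (nat_lit 101)) (XT.lf (nat_lit 0) (nat_lit 9771311769299) (nat_lit 76) (nat_lit 16573231211676) (nat_lit 76) (nat_lit 16145599235408) (nat_lit 1) (nat_lit 4) (nat_lit 2) (nat_lit 5) (nat_lit 2)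 (nat_lit 4) (nat_lit 273) (nat_lit 227) (nat_lit 100))) (XT.nd (nat_lit 78) (nat_lit 0) (nat_lit 0) (XT.lf (nat_lit 0) (nat_lit 34618688330) (nat_lit 0) (nat_lit 34618688330) (nat_lit 228) (nat_lit 34192670682) (nat_lit 12) (nat_lit 5) (nat_lit 12) (nat_lit 3) (nat_lit 15) (nat_lit 3) (nat_lit 228) (nat_lit 228) (nat_lit 144)) (XT.lf (nat_lit 0) (nat_lit 149312171525) (nat_lit 228) (nat_lit 63081019995) (nat_lit 304) (nat_lit 9913611893) (nat_lit 12) (nat_lit 5) (nat_lit 15) (nat_lit 3) (nat_lit 16) (nat_lit 5) (nat_lit 229) (nat_lit 228) (nat_lit 143))))) (XT.nd (nat_lit 312) (nat_lit 152) (nat_lit 0) (XT.nd (nat_lit 156) (nat_lit 152) (nat_lit 0) (XT.nd (nat_lit 78) (nat_lit 0) (nat_lit 0) (XT.lf (nat_lit 76) (nat_lit 21235278975) (nat_lit 0) (nat_lit 144716041022) (nat_lit 304) (nat_lit 73492785562) (nat_lit 13) (nat_lit 5) (nat_lit 12) (nat_lit 5) (nat_lit 16) (nat_lit 5) (nat_lit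 230) (nat_lit 228) (nat_lit 142)) (XT.lf (nat_lit 76) (nat_lit 125288328727) (nat_lit 0) (nat_lit 63095242265) (nat_lit 304) (nat_lit 70273851619) (nat_lit 13) (nat_lit 5) (nat_lit 12) (nat_lit 5) (nat_lit 16) (nat_lit 5) (nat_lit 231) (nat_lit 228) (nat_lit 141))) (XT.nd (nat_lit 78) (nat_lit 228) (nat_lit 0) (XT.lf (nat_lit 0) (nat_lit 215454564221) (nat_lit 228) (nat_lit 37077618337) (nat_lit 76) (nat_lit 28029472559) (nat_lit 13) (nat_lit 5) (nat_lit 16) (nat_lit 5) (nat_lit 14) (nat_lit 5) (nat_lit 232) (nat_lit 228) (nat_lit 140)) (XT.lf (nat_lit 0) (nat_lit 77557627529) (nat_lit 228) (nat_lit 175244470486) (nat_lit 304) (nat_lit 52017043863) (nat_lit 10) (nat_lit 5) (nat_lit 13) (nat_lit 5) (nat_lit 14) (nat_lit 5) (nat_lit 233) (nat_lit 228) (nat_lit 139)))) (XT.nd (nat_lit 156) (nat_lit 76) (nat_lit 0) (XT.nd (nat_lit 78) (nat_lit 76) (nat_lit 0) (XT.lf (nat_lit 0) (nat_lit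 213555052984) (nat_lit 228) (nat_lit 84134730405) (nat_lit 304) (nat_lit 34734767747) (nat_lit 10) (nat_lit 5) (nat_lit 13) (nat_lit 5) (nat_lit 14) (nat_lit 5) (nat_lit 234) (nat_lit 228) (nat_lit 138)) (XT.lf (nat_lit 0) (nat_lit 5407923468) (nat_lit 76) (nat_lit 344981237798) (nat_lit 152) (nat_lit 13619831917) (nat_lit 9) (nat_lit 5) (nat_lit 10) (nat_lit 5) (nat_lit 11) (nat_lit 4) (nat_lit 235) (nat_lit 228) (nat_lit 137))) (XT.nd (nat_lit 78) (nat_lit 0) (nat_lit 0) (XT.lf (nat_lit 0) (nat_lit 20228936993) (nat_lit 152) (nat_lit 242456730504) (nat_lit 76) (nat_lit 136001835833) (nat_lit 8) (nat_lit 5) (nat_lit 10) (nat_lit 5) (nat_lit 9) (nat_lit 5) (nat_lit 236) (nat_lit 228) (nat_lit 136)) (XT.lf (nat_lit 0) (nat_lit 57760516362) (nat_lit 152) (nat_lit 109539421157) (nat_lit 76) (nat_lit 271170583543) (nat_lit 8) (nat_lit 5) (nat_lit 10) (nat_lit 5) (nat_lit 9) (nat_lit 5)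 (nat_lit 237) (nat_lit 228) (nat_lit 135)))))) (XT.nd (nat_lit 624) (nat_lit 152) (nat_lit 0) (XT.nd (nat_lit 312) (nat_lit 76) (nat_lit 0) (XT.nd (nat_lit 156) (nat_lit 76) (nat_lit 0) (XT.nd (nat_lit 78) (nat_lit 0) (nat_lit 0) (XT.lf (nat_lit 0) (nat_lit 47548476779) (nat_lit 152) (nat_lit 55342155565) (nat_lit 228) (nat_lit 381035040501) (nat_lit 6) (nat_lit 5) (nat_lit 8) (nat_lit 5) (nat_lit 9) (nat_lit 5) (nat_lit 238) (nat_lit 228) (nat_lit 134)) (XT.lf (nat_lit 0) (nat_lit 163828499697) (nat_lit 228) (nat_lit 298142406320) (nat_lit 76) (nat_lit 72872457452) (nat_lit 6) (nat_lit 5) (nat_lit 9) (nat_lit 5) (nat_lit 7) (nat_lit 4) (nat_lit 239) (nat_lit 228) (nat_lit 133))) (XT.nd (nat_lit 78) (nat_lit 76) (nat_lit 0) (XT.lf (nat_lit 0) (nat_lit 236542322084) (nat_lit 228) (nat_lit 141807833486) (nat_lit 76) (nat_lit 214653261897) (nat_lit 6) (nat_lit 5) (nat_lit 9) (nat_lit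 5) (nat_lit 7) (nat_lit 4) (nat_lit 240) (nat_lit 228) (nat_lit 132)) (XT.lf (nat_lit 0) (nat_lit 41688216276) (nat_lit 76) (nat_lit 280201164464) (nat_lit 152) (nat_lit 337739175275) (nat_lit 5) (nat_lit 5) (nat_lit 6) (nat_lit 5) (nat_lit 7) (nat_lit 4) (nat_lit 241) (nat_lit 228) (nat_lit 131)))) (XT.nd (nat_lit 156) (nat_lit 76) (nat_lit 0) (XT.nd (nat_lit 78) (nat_lit 0) (nat_lit 0) (XT.lf (nat_lit 0) (nat_lit 268645861695) (nat_lit 76) (nat_lit 158805265689) (nat_lit 152) (nat_lit 307684444351) (nat_lit 5) (nat_lit 5) (nat_lit 6) (nat_lit 5) (nat_lit 7) (nat_lit 4) (nat_lit 242) (nat_lit 228) (nat_lit 130)) (XT.lf (nat_lit 0) (nat_lit 529647085624) (nat_lit 76) (nat_lit 19200004302) (nat_lit 152) (nat_lit 273121557472) (nat_lit 5) (nat_lit 5) (nat_lit 6) (nat_lit 5) (nat_lit 7) (nat_lit 4) (nat_lit 243) (nat_lit 228) (nat_lit 129))) (XT.nd (nat_lit 78) (nat_lit 76) (nat_lit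 0) (XT.lf (nat_lit 0) (nat_lit 694305244320) (nat_lit 152) (nat_lit 97881094815) (nat_lit 0) (nat_lit 128762426238) (nat_lit 5) (nat_lit 5) (nat_lit 7) (nat_lit 4) (nat_lit 5) (nat_lit 4) (nat_lit 244) (nat_lit 228) (nat_lit 128)) (XT.lf (nat_lit 0) (nat_lit 137008547951) (nat_lit 76) (nat_lit 731161056087) (nat_lit 76) (nat_lit 165618175189) (nat_lit 4) (nat_lit 4) (nat_lit 5) (nat_lit 5) (nat_lit 5) (nat_lit 4) (nat_lit 245) (nat_lit 228) (nat_lit 127))))) (XT.nd (nat_lit 312) (nat_lit 76) (nat_lit 0) (XT.nd (nat_lit 156) (nat_lit 76) (nat_lit 0) (XT.nd (nat_lit 78) (nat_lit 0) (nat_lit 0) (XT.lf (nat_lit 0) (nat_lit 418132083338) (nat_lit 76) (nat_lit 655098012995) (nat_lit 76) (nat_lit 89555077473) (nat_lit 4) (nat_lit 4) (nat_lit 5) (nat_lit 5) (nat_lit 5) (nat_lit 4) (nat_lit 246) (nat_lit 228) (nat_lit 126)) (XT.lf (nat_lit 0) (nat_lit 741424101980) (nat_lit 76) (nat_lit 567625531659)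 (nat_lit 76) (nat_lit 2082548639) (nat_lit 4) (nat_lit 4) (nat_lit 5) (nat_lit 5) (nat_lit 5) (nat_lit 4) (nat_lit 247) (nat_lit 228) (nat_lit 125))) (XT.nd (nat_lit 78) (nat_lit 0) (nat_lit 0) (XT.lf (nat_lit 0) (nat_lit 89740715023) (nat_lit 152) (nat_lit 372600487022) (nat_lit 76) (nat_lit 1018778175559) (nat_lit 3) (nat_lit 5) (nat_lit 5) (nat_lit 5) (nat_lit 4) (nat_lit 4) (nat_lit 248) (nat_lit 228) (nat_lit 124)) (XT.lf (nat_lit 0) (nat_lit 195124231820) (nat_lit 152) (nat_lit 146025961824) (nat_lit 76) (nat_lit 1335439586954) (nat_lit 3) (nat_lit 5) (nat_lit 5) (nat_lit 5) (nat_lit 4) (nat_lit 4) (nat_lit 249) (nat_lit 228) (nat_lit 123)))) (XT.nd (nat_lit 156) (nat_lit 0) (nat_lit 0) (XT.nd (nat_lit 78) (nat_lit 0) (nat_lit 0) (XT.lf (nat_lit 0) (nat_lit 125727873778) (nat_lit 76) (nat_lit 195793505406) (nat_lit 152) (nat_lit 1579078449619) (nat_lit 2) (nat_lit 5) (nat_lit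 3) (nat_lit 5) (nat_lit 4) (nat_lit 4) (nat_lit 250) (nat_lit 228) (nat_lit 122)) (XT.lf (nat_lit 0) (nat_lit 454656079954) (nat_lit 76) (nat_lit 19855175200) (nat_lit 152) (nat_lit 1682555155802) (nat_lit 2) (nat_lit 5) (nat_lit 3) (nat_lit 5) (nat_lit 4) (nat_lit 4) (nat_lit 251) (nat_lit 228) (nat_lit 121))) (XT.nd (nat_lit 78) (nat_lit 0) (nat_lit 0) (XT.lf (nat_lit 0) (nat_lit 658005450987) (nat_lit 152) (nat_lit 1626635348278) (nat_lit 0) (nat_lit 166228805559) (nat_lit 2) (nat_lit 5) (nat_lit 4) (nat_lit 4) (nat_lit 2) (nat_lit 4) (nat_lit 252) (nat_lit 228) (nat_lit 120)) (XT.lf (nat_lit 0) (nat_lit 869969246129) (nat_lit 152) (nat_lit 1540439628456) (nat_lit 0) (nat_lit 378192582844) (nat_lit 2) (nat_lit 5) (nat_lit 4) (nat_lit 4) (nat_lit 2) (nat_lit 4) (nat_lit 253) (nat_lit 228) (nat_lit 119))))))) (XT.nd (nat_lit 1248) (nat_lit 0) (nat_lit 0) (XT.nd (nat_lit 624) (nat_lit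 76) (nat_lit 0) (XT.nd (nat_lit 312) (nat_lit 0) (nat_lit 0) (XT.nd (nat_lit 156) (nat_lit 0) (nat_lit 0) (XT.nd (nat_lit 78) (nat_lit 0) (nat_lit 0) (XT.lf (nat_lit 0) (nat_lit 1113727597845) (nat_lit 152) (nat_lit 1441314573076) (nat_lit 0) (nat_lit 621950919033) (nat_lit 2) (nat_lit 5) (nat_lit 4) (nat_lit 4) (nat_lit 2) (nat_lit 4) (nat_lit 254) (nat_lit 228) (nat_lit 118)) (XT.lf (nat_lit 0) (nat_lit 1394049691278) (nat_lit 152) (nat_lit 1327320778879) (nat_lit 0) (nat_lit 902272998964) (nat_lit 2) (nat_lit 5) (nat_lit 4) (nat_lit 4) (nat_lit 2) (nat_lit 4) (nat_lit 255) (nat_lit 228) (nat_lit 117))) (XT.nd (nat_lit 78) (nat_lit 0) (nat_lit 0) (XT.lf (nat_lit 0) (nat_lit 1716420089126) (nat_lit 152) (nat_lit 1196227932501) (nat_lit 0) (nat_lit 1224643385072) (nat_lit 2) (nat_lit 5) (nat_lit 4) (nat_lit 4) (nat_lit 2) (nat_lit 4) (nat_lit 256) (nat_lit 228) (nat_lit 116)) (XT.lf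 (nat_lit 0) (nat_lit 2087146038304) (nat_lit 152) (nat_lit 1045471173905) (nat_lit 0) (nat_lit 1595369324040) (nat_lit 2) (nat_lit 5) (nat_lit 4) (nat_lit 4) (nat_lit 2) (nat_lit 4) (nat_lit 257) (nat_lit 228) (nat_lit 115)))) (XT.nd (nat_lit 156) (nat_lit 0) (nat_lit 0) (XT.nd (nat_lit 78) (nat_lit 0) (nat_lit 0) (XT.lf (nat_lit 0) (nat_lit 2513480872599) (nat_lit 152) (nat_lit 872100914335) (nat_lit 0) (nat_lit 2021704149457) (nat_lit 2) (nat_lit 5) (nat_lit 4) (nat_lit 4) (nat_lit 2) (nat_lit 4) (nat_lit 258) (nat_lit 228) (nat_lit 114)) (XT.lf (nat_lit 0) (nat_lit 3003765925725) (nat_lit 152) (nat_lit 672725126973) (nat_lit 0) (nat_lit 2511989194864) (nat_lit 2) (nat_lit 5) (nat_lit 4) (nat_lit 4) (nat_lit 2) (nat_lit 4) (nat_lit 259) (nat_lit 228) (nat_lit 113))) (XT.nd (nat_lit 78) (nat_lit 0) (nat_lit 0) (XT.lf (nat_lit 0) (nat_lit 3567593731332) (nat_lit 152) (nat_lit 443442981198)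 (nat_lit 0) (nat_lit 3075816993757) (nat_lit 2) (nat_lit 5) (nat_lit 4) (nat_lit 4) (nat_lit 2) (nat_lit 4) (nat_lit 260) (nat_lit 228) (nat_lit 112)) (XT.lf (nat_lit 0) (nat_lit 4215995703007) (nat_lit 152) (nat_lit 179768521983) (nat_lit 0) (nat_lit 3724218959595) (nat_lit 2) (nat_lit 5) (nat_lit 4) (nat_lit 4) (nat_lit 2) (nat_lit 4) (nat_lit 261) (nat_lit 228) (nat_lit 111))))) (XT.nd (nat_lit 312) (nat_lit 0) (nat_lit 0) (XT.nd (nat_lit 156) (nat_lit 0) (nat_lit 0) (XT.nd (nat_lit 78) (nat_lit 0) (nat_lit 0) (XT.lf (nat_lit 0) (nat_lit 135522224350) (nat_lit 76) (nat_lit 4831747428241) (nat_lit 76) (nat_lit 4339970679753) (nat_lit 1) (nat_lit 4) (nat_lit 2) (nat_lit 5) (nat_lit 2) (nat_lit 4) (nat_lit 262) (nat_lit 228) (nat_lit 110)) (XT.lf (nat_lit 0) (nat_lit 518310106121) (nat_lit 76) (nat_lit 5322321575515) (nat_lit 76) (nat_lit 4830544822613) (nat_lit 1) (nat_lit 4) (nat_lit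 2) (nat_lit 5) (nat_lit 2) (nat_lit 4) (nat_lit 263) (nat_lit 228) (nat_lit 109))) (XT.nd (nat_lit 78) (nat_lit 0) (nat_lit 0) (XT.lf (nat_lit 0) (nat_lit 958516164075) (nat_lit 76) (nat_lit 5886481847572) (nat_lit 76) (nat_lit 5394705090832) (nat_lit 1) (nat_lit 4) (nat_lit 2) (nat_lit 5) (nat_lit 2) (nat_lit 4) (nat_lit 264) (nat_lit 228) (nat_lit 108)) (XT.lf (nat_lit 0) (nat_lit 1464753125434) (nat_lit 76) (nat_lit 6535266162778) (nat_lit 76) (nat_lit 6043489402701) (nat_lit 1) (nat_lit 4) (nat_lit 2) (nat_lit 5) (nat_lit 2) (nat_lit 4) (nat_lit 265) (nat_lit 228) (nat_lit 107)))) (XT.nd (nat_lit 156) (nat_lit 0) (nat_lit 0) (XT.nd (nat_lit 78) (nat_lit 0) (nat_lit 0) (XT.lf (nat_lit 0) (nat_lit 2046925626398) (nat_lit 76) (nat_lit 7281368127301) (nat_lit 76) (nat_lit 6789591364321) (nat_lit 1) (nat_lit 4) (nat_lit 2) (nat_lit 5) (nat_lit 2) (nat_lit 4) (nat_lit 266) (nat_lit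 228) (nat_lit 106)) (XT.lf (nat_lit 0) (nat_lit 2716423998508) (nat_lit 76) (nat_lit 8139385388272) (nat_lit 76) (nat_lit 7647608622768) (nat_lit 1) (nat_lit 4) (nat_lit 2) (nat_lit 5) (nat_lit 2) (nat_lit 4) (nat_lit 267) (nat_lit 228) (nat_lit 105))) (XT.nd (nat_lit 78) (nat_lit 0) (nat_lit 0) (XT.lf (nat_lit 0) (nat_lit 3486347122956) (nat_lit 76) (nat_lit 9126105239927) (nat_lit 76) (nat_lit 8634328472229) (nat_lit 1) (nat_lit 4) (nat_lit 2) (nat_lit 5) (nat_lit 2) (nat_lit 4) (nat_lit 268) (nat_lit 228) (nat_lit 104)) (XT.lf (nat_lit 0) (nat_lit 4371758713048) (nat_lit 76) (nat_lit 10260833070669) (nat_lit 76) (nat_lit 9769056301063) (nat_lit 1) (nat_lit 4) (nat_lit 2) (nat_lit 5) (nat_lit 2) (nat_lit 4) (nat_lit 269) (nat_lit 228) (nat_lit 103)))))) (XT.nd (nat_lit 28392) (nat_lit 0) (nat_lit 380) (XT.nd (nat_lit 28080) (nat_lit 0) (nat_lit 836) (XT.nd (nat_lit 156) (nat_lit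 0) (nat_lit 0) (XT.nd (nat_lit 78) (nat_lit 0) (nat_lit 0) (XT.lf (nat_lit 0) (nat_lit 5389982039024) (nat_lit 76) (nat_lit 11565770077187) (nat_lit 76) (nat_lit 11073993305921) (nat_lit 1) (nat_lit 4) (nat_lit 2) (nat_lit 5) (nat_lit 2) (nat_lit 4) (nat_lit 270) (nat_lit 228) (nat_lit 102)) (XT.lf (nat_lit 0) (nat_lit 6560938861611) (nat_lit 76) (nat_lit 13066447635694) (nat_lit 76) (nat_lit 12574670862985) (nat_lit 1) (nat_lit 4) (nat_lit 2) (nat_lit 5) (nat_lit 2) (nat_lit 4) (nat_lit 271) (nat_lit 228) (nat_lit 101))) (XT.nd (nat_lit 78) (nat_lit 0) (nat_lit 0) (XT.lf (nat_lit 0) (nat_lit 7907539205597) (nat_lit 76) (nat_lit 14792226828857) (nat_lit 76) (nat_lit 14300450054894) (nat_lit 1) (nat_lit 4) (nat_lit 2) (nat_lit 5) (nat_lit 2) (nat_lit 4) (nat_lit 272) (nat_lit 228) (nat_lit 100)) (XT.lf (nat_lit 0) (nat_lit 9456129599452) (nat_lit 76) (nat_lit 16776872901759) (nat_lit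 76) (nat_lit 16285096126705) (nat_lit 1) (nat_lit 4) (nat_lit 2) (nat_lit 5) (nat_lit 2) (nat_lit 4) (nat_lit 273) (nat_lit 228) (nat_lit 99)))) (XT.nd (nat_lit 156) (nat_lit 0) (nat_lit 0) (XT.nd (nat_lit 78) (nat_lit 0) (nat_lit 0) (XT.lf (nat_lit 0) (nat_lit 39812063372) (nat_lit 0) (nat_lit 39812063372) (nat_lit 228) (nat_lit 39320230647) (nat_lit 12) (nat_lit 5) (nat_lit 12) (nat_lit 3) (nat_lit 15) (nat_lit 3) (nat_lit 229) (nat_lit 229) (nat_lit 142)) (XT.lf (nat_lit 0) (nat_lit 171710944921) (nat_lit 228) (nat_lit 72541794695) (nat_lit 304) (nat_lit 11399747786) (nat_lit 12) (nat_lit 5) (nat_lit 15) (nat_lit 3) (nat_lit 16) (nat_lit 5) (nat_lit 230) (nat_lit 229) (nat_lit 141))) (XT.nd (nat_lit 78) (nat_lit 0) (nat_lit 0) (XT.lf (nat_lit 76) (nat_lit 24421886470) (nat_lit 0) (nat_lit 166423879628) (nat_lit 304) (nat_lit 84514654494) (nat_lit 13) (nat_lit 5) (nat_lit 12) (nat_lit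 5) (nat_lit 16) (nat_lit 5) (nat_lit 231) (nat_lit 229) (nat_lit 140)) (XT.lf (nat_lit 76) (nat_lit 144082722079) (nat_lit 0) (nat_lit 72559904651) (nat_lit 304) (nat_lit 80813147708) (nat_lit 13) (nat_lit 5) (nat_lit 12) (nat_lit 5) (nat_lit 16) (nat_lit 5) (nat_lit 232) (nat_lit 229) (nat_lit 139))))) (XT.nd (nat_lit 312) (nat_lit 228) (nat_lit 0) (XT.nd (nat_lit 156) (nat_lit 76) (nat_lit 0) (XT.nd (nat_lit 78) (nat_lit 228) (nat_lit 0) (XT.lf (nat_lit 0) (nat_lit 247774057130) (nat_lit 228) (nat_lit 42638025279) (nat_lit 76) (nat_lit 32233595558) (nat_lit 13) (nat_lit 5) (nat_lit 16) (nat_lit 5) (nat_lit 14) (nat_lit 5) (nat_lit 233) (nat_lit 229) (nat_lit 138)) (XT.lf (nat_lit 0) (nat_lit 89192451293) (nat_lit 228) (nat_lit 201531147900) (nat_lit 304) (nat_lit 59818210623) (nat_lit 10) (nat_lit 5) (nat_lit 13) (nat_lit 5) (nat_lit 14) (nat_lit 5) (nat_lit 234) (nat_lit 229) (nat_lit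 137))) (XT.nd (nat_lit 78) (nat_lit 76) (nat_lit 0) (XT.lf (nat_lit 0) (nat_lit 245589336702) (nat_lit 228) (nat_lit 96754945915) (nat_lit 304) (nat_lit 39943774370) (nat_lit 10) (nat_lit 5) (nat_lit 13) (nat_lit 5) (nat_lit 14) (nat_lit 5) (nat_lit 235) (nat_lit 229) (nat_lit 136)) (XT.lf (nat_lit 0) (nat_lit 6220260150) (nat_lit 76) (nat_lit 396728219782) (nat_lit 152) (nat_lit 15661701374) (nat_lit 9) (nat_lit 5) (nat_lit 10) (nat_lit 5) (nat_lit 11) (nat_lit 4) (nat_lit 236) (nat_lit 229) (nat_lit 135)))) (XT.nd (nat_lit 156) (nat_lit 152) (nat_lit 0) (XT.nd (nat_lit 78) (nat_lit 0) (nat_lit 0) (XT.lf (nat_lit 0) (nat_lit 23264153130) (nat_lit 152) (nat_lit 278824141604) (nat_lit 76) (nat_lit 156402188251) (nat_lit 8) (nat_lit 5) (nat_lit 10) (nat_lit 5) (nat_lit 9) (nat_lit 5) (nat_lit 237) (nat_lit 229) (nat_lit 134)) (XT.lf (nat_lit 0) (nat_lit 66425355197) (nat_lit 152) (nat_lit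 125969379135) (nat_lit 76) (nat_lit 311846238068) (nat_lit 8) (nat_lit 5) (nat_lit 10) (nat_lit 5) (nat_lit 9) (nat_lit 5) (nat_lit 238) (nat_lit 229) (nat_lit 133))) (XT.nd (nat_lit 78) (nat_lit 0) (nat_lit 0) (XT.lf (nat_lit 0) (nat_lit 54681660074) (nat_lit 152) (nat_lit 63643266947) (nat_lit 228) (nat_lit 438189480808) (nat_lit 6) (nat_lit 5) (nat_lit 8) (nat_lit 5) (nat_lit 9) (nat_lit 5) (nat_lit 239) (nat_lit 229) (nat_lit 132)) (XT.lf (nat_lit 0) (nat_lit 188403390827) (nat_lit 228) (nat_lit 342862881230) (nat_lit 76) (nat_lit 83803493969) (nat_lit 6) (nat_lit 5) (nat_lit 9) (nat_lit 5) (nat_lit 7) (nat_lit 4) (nat_lit 240) (nat_lit 229) (nat_lit 131))))))))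
noncomputable def xc57 : XT := (XT.nd (nat_lit 30420) (nat_lit 0) (nat_lit 76) (XT.nd (nat_lit 1248) (nat_lit 76) (nat_lit 0) (XT.nd (nat_lit 624) (nat_lit 152) (nat_lit 0) (XT.nd (nat_lit 312) (nat_lit 76) (nat_lit 0) (XT.nd (nat_lit 156) (nat_lit 0) (nat_lit 0) (XT.nd (nat_lit 78) (nat_lit 76) (nat_lit 0) (XT.lf (nat_lit 0) (nat_lit 272024206202) (nat_lit 228) (nat_lit 163078238041) (nat_lit 76) (nat_lit 246851397180) (nat_lit 6) (nat_lit 5) (nat_lit 9) (nat_lit 5) (nat_lit 7) (nat_lit 4) (nat_lit 241) (nat_lit 229) (nat_lit 130)) (XT.lf (nat_lit 0) (nat_lit 47942184164) (nat_lit 76) (nat_lit 322231100057) (nat_lit 152) (nat_lit 388399473528) (nat_lit 5) (nat_lit 5) (nat_lit 6) (nat_lit 5) (nat_lit 7) (nat_lit 4) (nat_lit 242) (nat_lit 229) (nat_lit 129))) (XT.nd (nat_lit 78) (nat_lit 0) (nat_lit 0) (XT.lf (nat_lit 0) (nat_lit 308943380468) (nat_lit 76) (nat_lit 182625847650) (nat_lit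 152) (nat_lit 353836608362) (nat_lit 5) (nat_lit 5) (nat_lit 6) (nat_lit 5) (nat_lit 7) (nat_lit 4) (nat_lit 243) (nat_lit 229) (nat_lit 128)) (XT.lf (nat_lit 0) (nat_lit 609094704571) (nat_lit 76) (nat_lit 22079824172) (nat_lit 152) (nat_lit 314089354013) (nat_lit 5) (nat_lit 5) (nat_lit 6) (nat_lit 5) (nat_lit 7) (nat_lit 4) (nat_lit 244) (nat_lit 229) (nat_lit 127)))) (XT.nd (nat_lit 156) (nat_lit 0) (nat_lit 0) (XT.nd (nat_lit 78) (nat_lit 76) (nat_lit 0) (XT.lf (nat_lit 0) (nat_lit 798451363849) (nat_lit 152) (nat_lit 112562728280) (nat_lit 0) (nat_lit 148076933376) (nat_lit 5) (nat_lit 5) (nat_lit 7) (nat_lit 4) (nat_lit 5) (nat_lit 4) (nat_lit 245) (nat_lit 229) (nat_lit 126)) (XT.lf (nat_lit 0) (nat_lit 157560336775) (nat_lit 76) (nat_lit 840835018309) (nat_lit 76) (nat_lit 190460540337) (nat_lit 4) (nat_lit 4) (nat_lit 5) (nat_lit 5) (nat_lit 5) (nat_lit 4) (nat_lit 246)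 (nat_lit 229) (nat_lit 125))) (XT.nd (nat_lit 78) (nat_lit 0) (nat_lit 0) (XT.lf (nat_lit 0) (nat_lit 480852336387) (nat_lit 76) (nat_lit 753362544343) (nat_lit 76) (nat_lit 102988025068) (nat_lit 4) (nat_lit 4) (nat_lit 5) (nat_lit 5) (nat_lit 5) (nat_lit 4) (nat_lit 247) (nat_lit 229) (nat_lit 124)) (XT.lf (nat_lit 0) (nat_lit 852638100363) (nat_lit 76) (nat_lit 652769213059) (nat_lit 76) (nat_lit 2394657869) (nat_lit 4) (nat_lit 4) (nat_lit 5) (nat_lit 5) (nat_lit 5) (nat_lit 4) (nat_lit 248) (nat_lit 229) (nat_lit 123))))) (XT.nd (nat_lit 312) (nat_lit 0) (nat_lit 0) (XT.nd (nat_lit 156) (nat_lit 76) (nat_lit 0) (XT.nd (nat_lit 78) (nat_lit 0) (nat_lit 0) (XT.lf (nat_lit 0) (nat_lit 103202038586) (nat_lit 152) (nat_lit 428490203460) (nat_lit 76) (nat_lit 1171595007395) (nat_lit 3) (nat_lit 5) (nat_lit 5) (nat_lit 5) (nat_lit 4) (nat_lit 4) (nat_lit 249) (nat_lit 229) (nat_lit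 122)) (XT.lf (nat_lit 0) (nat_lit 224393054688) (nat_lit 152) (nat_lit 167929545998) (nat_lit 76) (nat_lit 1535755616738) (nat_lit 3) (nat_lit 5) (nat_lit 5) (nat_lit 5) (nat_lit 4) (nat_lit 4) (nat_lit 250) (nat_lit 229) (nat_lit 121))) (XT.nd (nat_lit 78) (nat_lit 0) (nat_lit 0) (XT.lf (nat_lit 0) (nat_lit 144587350850) (nat_lit 76) (nat_lit 225162411030) (nat_lit 152) (nat_lit 1815940013089) (nat_lit 2) (nat_lit 5) (nat_lit 3) (nat_lit 5) (nat_lit 4) (nat_lit 4) (nat_lit 251) (nat_lit 229) (nat_lit 120)) (XT.lf (nat_lit 0) (nat_lit 522854749342) (nat_lit 76) (nat_lit 22833346969) (nat_lit 152) (nat_lit 1934938251805) (nat_lit 2) (nat_lit 5) (nat_lit 3) (nat_lit 5) (nat_lit 4) (nat_lit 4) (nat_lit 252) (nat_lit 229) (nat_lit 119)))) (XT.nd (nat_lit 156) (nat_lit 0) (nat_lit 0) (XT.nd (nat_lit 78) (nat_lit 0) (nat_lit 0) (XT.lf (nat_lit 0) (nat_lit 756706405342) (nat_lit 152) (nat_lit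 1870630409172) (nat_lit 0) (nat_lit 191163209181) (nat_lit 2) (nat_lit 5) (nat_lit 4) (nat_lit 4) (nat_lit 2) (nat_lit 4) (nat_lit 253) (nat_lit 229) (nat_lit 118)) (XT.lf (nat_lit 0) (nat_lit 1000464751923) (nat_lit 152) (nat_lit 1771505362856) (nat_lit 0) (nat_lit 434921542260) (nat_lit 2) (nat_lit 5) (nat_lit 4) (nat_lit 4) (nat_lit 2) (nat_lit 4) (nat_lit 254) (nat_lit 229) (nat_lit 117))) (XT.nd (nat_lit 78) (nat_lit 0) (nat_lit 0) (XT.lf (nat_lit 0) (nat_lit 1280786840892) (nat_lit 152) (nat_lit 1657511576543) (nat_lit 0) (nat_lit 715243619488) (nat_lit 2) (nat_lit 5) (nat_lit 4) (nat_lit 4) (nat_lit 2) (nat_lit 4) (nat_lit 255) (nat_lit 229) (nat_lit 116)) (XT.lf (nat_lit 0) (nat_lit 1603157234857) (nat_lit 152) (nat_lit 1526418737020) (nat_lit 0) (nat_lit 1037614003243) (nat_lit 2) (nat_lit 5) (nat_lit 4) (nat_lit 4) (nat_lit 2) (nat_lit 4) (nat_lit 256) (nat_lit 229) (nat_lit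 115)))))) (XT.nd (nat_lit 624) (nat_lit 0) (nat_lit 0) (XT.nd (nat_lit 312) (nat_lit 76) (nat_lit 0) (XT.nd (nat_lit 156) (nat_lit 0) (nat_lit 0) (XT.nd (nat_lit 78) (nat_lit 0) (nat_lit 0) (XT.lf (nat_lit 0) (nat_lit 1973883180658) (nat_lit 152) (nat_lit 1375661984384) (nat_lit 0) (nat_lit 1408339940167) (nat_lit 2) (nat_lit 5) (nat_lit 4) (nat_lit 4) (nat_lit 2) (nat_lit 4) (nat_lit 257) (nat_lit 229) (nat_lit 114)) (XT.lf (nat_lit 0) (nat_lit 2400218012017) (nat_lit 152) (nat_lit 1202291729998) (nat_lit 0) (nat_lit 1834674763806) (nat_lit 2) (nat_lit 5) (nat_lit 4) (nat_lit 4) (nat_lit 2) (nat_lit 4) (nat_lit 258) (nat_lit 229) (nat_lit 113))) (XT.nd (nat_lit 78) (nat_lit 0) (nat_lit 0) (XT.lf (nat_lit 0) (nat_lit 2890503062591) (nat_lit 152) (nat_lit 1002915947143) (nat_lit 0) (nat_lit 2324959807667) (nat_lit 2) (nat_lit 5) (nat_lit 4) (nat_lit 4) (nat_lit 2) (nat_lit 4) (nat_lit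 259) (nat_lit 229) (nat_lit 112)) (XT.lf (nat_lit 0) (nat_lit 3454330865977) (nat_lit 152) (nat_lit 773633805287) (nat_lit 0) (nat_lit 2888787605216) (nat_lit 2) (nat_lit 5) (nat_lit 4) (nat_lit 4) (nat_lit 2) (nat_lit 4) (nat_lit 260) (nat_lit 229) (nat_lit 111)))) (XT.nd (nat_lit 156) (nat_lit 76) (nat_lit 0) (XT.nd (nat_lit 78) (nat_lit 0) (nat_lit 0) (XT.lf (nat_lit 0) (nat_lit 4102732835722) (nat_lit 152) (nat_lit 509959349480) (nat_lit 0) (nat_lit 3537189569885) (nat_lit 2) (nat_lit 5) (nat_lit 4) (nat_lit 4) (nat_lit 2) (nat_lit 4) (nat_lit 261) (nat_lit 229) (nat_lit 110)) (XT.lf (nat_lit 0) (nat_lit 4848395097319) (nat_lit 152) (nat_lit 206733731674) (nat_lit 0) (nat_lit 4282851827068) (nat_lit 2) (nat_lit 5) (nat_lit 4) (nat_lit 4) (nat_lit 2) (nat_lit 4) (nat_lit 262) (nat_lit 229) (nat_lit 109))) (XT.nd (nat_lit 78) (nat_lit 0) (nat_lit 0) (XT.lf (nat_lit 0) (nat_lit 155850623490)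 (nat_lit 76) (nat_lit 5556509513493) (nat_lit 76) (nat_lit 4990966239404) (nat_lit 1) (nat_lit 4) (nat_lit 2) (nat_lit 5) (nat_lit 2) (nat_lit 4) (nat_lit 263) (nat_lit 229) (nat_lit 108)) (XT.lf (nat_lit 0) (nat_lit 596056678985) (nat_lit 76) (nat_lit 6120669786639) (nat_lit 76) (nat_lit 5555126509212) (nat_lit 1) (nat_lit 4) (nat_lit 2) (nat_lit 5) (nat_lit 2) (nat_lit 4) (nat_lit 264) (nat_lit 229) (nat_lit 107))))) (XT.nd (nat_lit 312) (nat_lit 0) (nat_lit 0) (XT.nd (nat_lit 156) (nat_lit 0) (nat_lit 0) (XT.nd (nat_lit 78) (nat_lit 0) (nat_lit 0) (XT.lf (nat_lit 0) (nat_lit 1102293638205) (nat_lit 76) (nat_lit 6769454102791) (nat_lit 76) (nat_lit 6203910822463) (nat_lit 1) (nat_lit 4) (nat_lit 2) (nat_lit 5) (nat_lit 2) (nat_lit 4) (nat_lit 265) (nat_lit 229) (nat_lit 106)) (XT.lf (nat_lit 0) (nat_lit 1684466137309) (nat_lit 76) (nat_lit 7515556068137) (nat_lit 76) (nat_lit 6950012785285)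 (nat_lit 1) (nat_lit 4) (nat_lit 2) (nat_lit 5) (nat_lit 2) (nat_lit 4) (nat_lit 266) (nat_lit 229) (nat_lit 105))) (XT.nd (nat_lit 78) (nat_lit 0) (nat_lit 0) (XT.lf (nat_lit 0) (nat_lit 2353964507801) (nat_lit 76) (nat_lit 8373573329824) (nat_lit 76) (nat_lit 7808030044777) (nat_lit 1) (nat_lit 4) (nat_lit 2) (nat_lit 5) (nat_lit 2) (nat_lit 4) (nat_lit 267) (nat_lit 229) (nat_lit 104)) (XT.lf (nat_lit 0) (nat_lit 3123887630843) (nat_lit 76) (nat_lit 9360293182102) (nat_lit 76) (nat_lit 8794749895147) (nat_lit 1) (nat_lit 4) (nat_lit 2) (nat_lit 5) (nat_lit 2) (nat_lit 4) (nat_lit 268) (nat_lit 229) (nat_lit 103)))) (XT.nd (nat_lit 156) (nat_lit 0) (nat_lit 0) (XT.nd (nat_lit 78) (nat_lit 0) (nat_lit 0) (XT.lf (nat_lit 0) (nat_lit 4009299219712) (nat_lit 76) (nat_lit 10495021013386) (nat_lit 76) (nat_lit 9929477724771) (nat_lit 1) (nat_lit 4) (nat_lit 2) (nat_lit 5) (nat_lit 2)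 (nat_lit 4) (nat_lit 269) (nat_lit 229) (nat_lit 102)) (XT.lf (nat_lit 0) (nat_lit 5027522544625) (nat_lit 76) (nat_lit 11799958020374) (nat_lit 76) (nat_lit 11234414730316) (nat_lit 1) (nat_lit 4) (nat_lit 2) (nat_lit 5) (nat_lit 2) (nat_lit 4) (nat_lit 270) (nat_lit 229) (nat_lit 101))) (XT.nd (nat_lit 78) (nat_lit 0) (nat_lit 0) (XT.lf (nat_lit 0) (nat_lit 6198479366286) (nat_lit 76) (nat_lit 13300635579290) (nat_lit 76) (nat_lit 12735092287978) (nat_lit 1) (nat_lit 4) (nat_lit 2) (nat_lit 5) (nat_lit 2) (nat_lit 4) (nat_lit 271) (nat_lit 229) (nat_lit 100)) (XT.lf (nat_lit 0) (nat_lit 7545079709468) (nat_lit 76) (nat_lit 15026414772809) (nat_lit 76) (nat_lit 14460871480406) (nat_lit 1) (nat_lit 4) (nat_lit 2) (nat_lit 5) (nat_lit 2) (nat_lit 4) (nat_lit 272) (nat_lit 229) (nat_lit 99))))))) (XT.nd (nat_lit 1248) (nat_lit 228) (nat_lit 0) (XT.nd (nat_lit 624) (nat_lit 304) (nat_lit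 0) (XT.nd (nat_lit 312) (nat_lit 228) (nat_lit 0) (XT.nd (nat_lit 156) (nat_lit 0) (nat_lit 0) (XT.nd (nat_lit 78) (nat_lit 0) (nat_lit 0) (XT.lf (nat_lit 0) (nat_lit 45784305235) (nat_lit 0) (nat_lit 45784305235) (nat_lit 228) (nat_lit 45217251530) (nat_lit 12) (nat_lit 5) (nat_lit 12) (nat_lit 3) (nat_lit 15) (nat_lit 3) (nat_lit 230) (nat_lit 230) (nat_lit 140)) (XT.lf (nat_lit 0) (nat_lit 197469059375) (nat_lit 228) (nat_lit 83422021708) (nat_lit 304) (nat_lit 13109024970) (nat_lit 12) (nat_lit 5) (nat_lit 15) (nat_lit 3) (nat_lit 16) (nat_lit 5) (nat_lit 231) (nat_lit 230) (nat_lit 139))) (XT.nd (nat_lit 78) (nat_lit 0) (nat_lit 0) (XT.lf (nat_lit 76) (nat_lit 28086164261) (nat_lit 0) (nat_lit 191387788569) (nat_lit 304) (nat_lit 97190303403) (nat_lit 13) (nat_lit 5) (nat_lit 12) (nat_lit 5) (nat_lit 16) (nat_lit 5) (nat_lit 232) (nat_lit 230) (nat_lit 138)) (XT.lf (nat_lit 76)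 (nat_lit 165695995452) (nat_lit 0) (nat_lit 83444174693) (nat_lit 304) (nat_lit 92933772677) (nat_lit 13) (nat_lit 5) (nat_lit 12) (nat_lit 5) (nat_lit 16) (nat_lit 5) (nat_lit 233) (nat_lit 230) (nat_lit 137)))) (XT.nd (nat_lit 156) (nat_lit 76) (nat_lit 0) (XT.nd (nat_lit 78) (nat_lit 228) (nat_lit 0) (XT.lf (nat_lit 0) (nat_lit 284941154944) (nat_lit 228) (nat_lit 49032794623) (nat_lit 76) (nat_lit 37068409648) (nat_lit 13) (nat_lit 5) (nat_lit 16) (nat_lit 5) (nat_lit 14) (nat_lit 5) (nat_lit 234) (nat_lit 230) (nat_lit 136)) (XT.lf (nat_lit 0) (nat_lit 102572210961) (nat_lit 228) (nat_lit 231760825259) (nat_lit 304) (nat_lit 68789891314) (nat_lit 10) (nat_lit 5) (nat_lit 13) (nat_lit 5) (nat_lit 14) (nat_lit 5) (nat_lit 235) (nat_lit 230) (nat_lit 135))) (XT.nd (nat_lit 78) (nat_lit 76) (nat_lit 0) (XT.lf (nat_lit 0) (nat_lit 282428512836) (nat_lit 228) (nat_lit 111268192300)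 (nat_lit 304) (nat_lit 45934426697) (nat_lit 10) (nat_lit 5) (nat_lit 13) (nat_lit 5) (nat_lit 14) (nat_lit 5) (nat_lit 236) (nat_lit 230) (nat_lit 134)) (XT.lf (nat_lit 0) (nat_lit 7154167347) (nat_lit 76) (nat_lit 456237298734) (nat_lit 152) (nat_lit 18010120791) (nat_lit 9) (nat_lit 5) (nat_lit 10) (nat_lit 5) (nat_lit 11) (nat_lit 4) (nat_lit 237) (nat_lit 230) (nat_lit 133))))) (XT.nd (nat_lit 312) (nat_lit 76) (nat_lit 0) (XT.nd (nat_lit 156) (nat_lit 152) (nat_lit 0) (XT.nd (nat_lit 78) (nat_lit 0) (nat_lit 0) (XT.lf (nat_lit 0) (nat_lit 26754438171) (nat_lit 152) (nat_lit 320646932239) (nat_lit 76) (nat_lit 179862574744) (nat_lit 8) (nat_lit 5) (nat_lit 10) (nat_lit 5) (nat_lit 9) (nat_lit 5) (nat_lit 238) (nat_lit 230) (nat_lit 132)) (XT.lf (nat_lit 0) (nat_lit 76389734191) (nat_lit 152) (nat_lit 144864063739) (nat_lit 76) (nat_lit 358623224436) (nat_lit 8) (nat_lit 5) (nat_lit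 10) (nat_lit 5) (nat_lit 9) (nat_lit 5) (nat_lit 239) (nat_lit 230) (nat_lit 131))) (XT.nd (nat_lit 78) (nat_lit 0) (nat_lit 0) (XT.lf (nat_lit 0) (nat_lit 62884598521) (nat_lit 152) (nat_lit 73189596722) (nat_lit 228) (nat_lit 503917286092) (nat_lit 6) (nat_lit 5) (nat_lit 8) (nat_lit 5) (nat_lit 9) (nat_lit 5) (nat_lit 240) (nat_lit 230) (nat_lit 130)) (XT.lf (nat_lit 0) (nat_lit 216664365369) (nat_lit 228) (nat_lit 394291643442) (nat_lit 76) (nat_lit 96374145019) (nat_lit 6) (nat_lit 5) (nat_lit 9) (nat_lit 5) (nat_lit 7) (nat_lit 4) (nat_lit 241) (nat_lit 230) (nat_lit 129)))) (XT.nd (nat_lit 156) (nat_lit 0) (nat_lit 0) (XT.nd (nat_lit 78) (nat_lit 76) (nat_lit 0) (XT.lf (nat_lit 0) (nat_lit 312828242278) (nat_lit 228) (nat_lit 187539391162) (nat_lit 76) (nat_lit 283879217154) (nat_lit 6) (nat_lit 5) (nat_lit 9) (nat_lit 5) (nat_lit 7) (nat_lit 4) (nat_lit 242) (nat_lit 230)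 (nat_lit 128)) (XT.lf (nat_lit 0) (nat_lit 55134067892) (nat_lit 76) (nat_lit 370565584290) (nat_lit 152) (nat_lit 446658957477) (nat_lit 5) (nat_lit 5) (nat_lit 6) (nat_lit 5) (nat_lit 7) (nat_lit 4) (nat_lit 243) (nat_lit 230) (nat_lit 127))) (XT.nd (nat_lit 78) (nat_lit 0) (nat_lit 0) (XT.lf (nat_lit 0) (nat_lit 355285371107) (nat_lit 76) (nat_lit 210019567601) (nat_lit 152) (nat_lit 406911719547) (nat_lit 5) (nat_lit 5) (nat_lit 6) (nat_lit 5) (nat_lit 7) (nat_lit 4) (nat_lit 244) (nat_lit 230) (nat_lit 126)) (XT.lf (nat_lit 0) (nat_lit 700459330751) (nat_lit 76) (nat_lit 25391661105) (nat_lit 152) (nat_lit 361202426620) (nat_lit 5) (nat_lit 5) (nat_lit 6) (nat_lit 5) (nat_lit 7) (nat_lit 4) (nat_lit 245) (nat_lit 230) (nat_lit 125)))))) (XT.nd (nat_lit 624) (nat_lit 0) (nat_lit 0) (XT.nd (nat_lit 312) (nat_lit 152) (nat_lit 0) (XT.nd (nat_lit 156) (nat_lit 0) (nat_lit 0) (XT.nd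 (nat_lit 78) (nat_lit 76) (nat_lit 0) (XT.lf (nat_lit 0) (nat_lit 918219320133) (nat_lit 152) (nat_lit 129446736194) (nat_lit 0) (nat_lit 170288581664) (nat_lit 5) (nat_lit 5) (nat_lit 7) (nat_lit 4) (nat_lit 5) (nat_lit 4) (nat_lit 246) (nat_lit 230) (nat_lit 124)) (XT.lf (nat_lit 0) (nat_lit 181194770378) (nat_lit 76) (nat_lit 966960122706) (nat_lit 76) (nat_lit 219029348322) (nat_lit 4) (nat_lit 4) (nat_lit 5) (nat_lit 5) (nat_lit 5) (nat_lit 4) (nat_lit 247) (nat_lit 230) (nat_lit 123))) (XT.nd (nat_lit 78) (nat_lit 0) (nat_lit 0) (XT.lf (nat_lit 0) (nat_lit 552980519964) (nat_lit 76) (nat_lit 866366796995) (nat_lit 76) (nat_lit 118435991380) (nat_lit 4) (nat_lit 4) (nat_lit 5) (nat_lit 5) (nat_lit 5) (nat_lit 4) (nat_lit 248) (nat_lit 230) (nat_lit 122)) (XT.lf (nat_lit 0) (nat_lit 980534105086) (nat_lit 76) (nat_lit 750684482845) (nat_lit 76) (nat_lit 2753650072) (nat_lit 4)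 (nat_lit 4) (nat_lit 5) (nat_lit 5) (nat_lit 5) (nat_lit 4) (nat_lit 249) (nat_lit 230) (nat_lit 121)))) (XT.nd (nat_lit 156) (nat_lit 76) (nat_lit 0) (XT.nd (nat_lit 78) (nat_lit 0) (nat_lit 0) (XT.lf (nat_lit 0) (nat_lit 118682507935) (nat_lit 152) (nat_lit 492763464326) (nat_lit 76) (nat_lit 1347334338279) (nat_lit 3) (nat_lit 5) (nat_lit 5) (nat_lit 5) (nat_lit 4) (nat_lit 4) (nat_lit 250) (nat_lit 230) (nat_lit 120)) (XT.lf (nat_lit 0) (nat_lit 258052155118) (nat_lit 152) (nat_lit 193118743417) (nat_lit 76) (nat_lit 1766119028618) (nat_lit 3) (nat_lit 5) (nat_lit 5) (nat_lit 5) (nat_lit 4) (nat_lit 4) (nat_lit 251) (nat_lit 230) (nat_lit 119))) (XT.nd (nat_lit 78) (nat_lit 0) (nat_lit 0) (XT.lf (nat_lit 0) (nat_lit 166275677299) (nat_lit 76) (nat_lit 258936681806) (nat_lit 152) (nat_lit 2088330860819) (nat_lit 2) (nat_lit 5) (nat_lit 3) (nat_lit 5) (nat_lit 4) (nat_lit 4) (nat_lit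 252) (nat_lit 230) (nat_lit 118)) (XT.lf (nat_lit 0) (nat_lit 601283156372) (nat_lit 76) (nat_lit 26258269990) (nat_lit 152) (nat_lit 2225178855460) (nat_lit 2) (nat_lit 5) (nat_lit 3) (nat_lit 5) (nat_lit 4) (nat_lit 4) (nat_lit 253) (nat_lit 230) (nat_lit 117))))) (XT.nd (nat_lit 312) (nat_lit 0) (nat_lit 0) (XT.nd (nat_lit 156) (nat_lit 0) (nat_lit 0) (XT.nd (nat_lit 78) (nat_lit 0) (nat_lit 0) (XT.lf (nat_lit 0) (nat_lit 870212469513) (nat_lit 152) (nat_lit 2151224788053) (nat_lit 0) (nat_lit 219837753158) (nat_lit 2) (nat_lit 5) (nat_lit 4) (nat_lit 4) (nat_lit 2) (nat_lit 4) (nat_lit 254) (nat_lit 230) (nat_lit 116)) (XT.lf (nat_lit 0) (nat_lit 1150534554599) (nat_lit 152) (nat_lit 2037231008594) (nat_lit 0) (nat_lit 500159828034) (nat_lit 2) (nat_lit 5) (nat_lit 4) (nat_lit 4) (nat_lit 2) (nat_lit 4) (nat_lit 255) (nat_lit 230) (nat_lit 115))) (XT.nd (nat_lit 78) (nat_lit 0)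 (nat_lit 0) (XT.lf (nat_lit 0) (nat_lit 1472904945188) (nat_lit 152) (nat_lit 1906138175032) (nat_lit 0) (nat_lit 822530209745) (nat_lit 2) (nat_lit 5) (nat_lit 4) (nat_lit 4) (nat_lit 2) (nat_lit 4) (nat_lit 256) (nat_lit 230) (nat_lit 114)) (XT.lf (nat_lit 0) (nat_lit 1843630888053) (nat_lit 152) (nat_lit 1755381427580) (nat_lit 0) (nat_lit 1193256144890) (nat_lit 2) (nat_lit 5) (nat_lit 4) (nat_lit 4) (nat_lit 2) (nat_lit 4) (nat_lit 257) (nat_lit 230) (nat_lit 113)))) (XT.nd (nat_lit 156) (nat_lit 0) (nat_lit 0) (XT.nd (nat_lit 78) (nat_lit 0) (nat_lit 0) (XT.lf (nat_lit 0) (nat_lit 2269965716859) (nat_lit 152) (nat_lit 1582011177700) (nat_lit 0) (nat_lit 1619590966983) (nat_lit 2) (nat_lit 5) (nat_lit 4) (nat_lit 4) (nat_lit 2) (nat_lit 4) (nat_lit 258) (nat_lit 230) (nat_lit 112)) (XT.lf (nat_lit 0) (nat_lit 2760250765213) (nat_lit 152) (nat_lit 1382635398765) (nat_lit 0) (nat_lit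 2109876009500) (nat_lit 2) (nat_lit 5) (nat_lit 4) (nat_lit 4) (nat_lit 2) (nat_lit 4) (nat_lit 259) (nat_lit 230) (nat_lit 111))) (XT.nd (nat_lit 78) (nat_lit 0) (nat_lit 0) (XT.lf (nat_lit 0) (nat_lit 3324078566669) (nat_lit 152) (nat_lit 1153353260317) (nat_lit 0) (nat_lit 2673703805880) (nat_lit 2) (nat_lit 5) (nat_lit 4) (nat_lit 4) (nat_lit 2) (nat_lit 4) (nat_lit 260) (nat_lit 230) (nat_lit 110)) (XT.lf (nat_lit 0) (nat_lit 3972480534735) (nat_lit 152) (nat_lit 889678807474) (nat_lit 0) (nat_lit 3322105769532) (nat_lit 2) (nat_lit 5) (nat_lit 4) (nat_lit 4) (nat_lit 2) (nat_lit 4) (nat_lit 261) (nat_lit 230) (nat_lit 109))))))))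
noncomputable def xc58 : XT := (XT.nd (nat_lit 29250) (nat_lit 0) (nat_lit 152) (XT.nd (nat_lit 624) (nat_lit 0) (nat_lit 0) (XT.nd (nat_lit 312) (nat_lit 0) (nat_lit 0) (XT.nd (nat_lit 156) (nat_lit 76) (nat_lit 0) (XT.nd (nat_lit 78) (nat_lit 0) (nat_lit 0) (XT.lf (nat_lit 0) (nat_lit 4718142794872) (nat_lit 152) (nat_lit 586453192244) (nat_lit 0) (nat_lit 4067768025831) (nat_lit 2) (nat_lit 5) (nat_lit 4) (nat_lit 4) (nat_lit 2) (nat_lit 4) (nat_lit 262) (nat_lit 230) (nat_lit 108)) (XT.lf (nat_lit 0) (nat_lit 5575654391301) (nat_lit 152) (nat_lit 237743739548) (nat_lit 0) (nat_lit 4925279618923) (nat_lit 2) (nat_lit 5) (nat_lit 4) (nat_lit 4) (nat_lit 2) (nat_lit 4) (nat_lit 263) (nat_lit 230) (nat_lit 107))) (XT.nd (nat_lit 78) (nat_lit 0) (nat_lit 0) (XT.lf (nat_lit 0) (nat_lit 179228266532) (nat_lit 76) (nat_lit 6389985918601) (nat_lit 76) (nat_lit 5739611143320) (nat_lit 1)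 (nat_lit 4) (nat_lit 2) (nat_lit 5) (nat_lit 2) (nat_lit 4) (nat_lit 264) (nat_lit 230) (nat_lit 106)) (XT.lf (nat_lit 0) (nat_lit 685465223892) (nat_lit 76) (nat_lit 7038770235577) (nat_lit 76) (nat_lit 6388395457773) (nat_lit 1) (nat_lit 4) (nat_lit 2) (nat_lit 5) (nat_lit 2) (nat_lit 4) (nat_lit 265) (nat_lit 230) (nat_lit 105)))) (XT.nd (nat_lit 156) (nat_lit 0) (nat_lit 0) (XT.nd (nat_lit 78) (nat_lit 0) (nat_lit 0) (XT.lf (nat_lit 0) (nat_lit 1267637721378) (nat_lit 76) (nat_lit 7784872201638) (nat_lit 76) (nat_lit 7134497421640) (nat_lit 1) (nat_lit 4) (nat_lit 2) (nat_lit 5) (nat_lit 2) (nat_lit 4) (nat_lit 266) (nat_lit 230) (nat_lit 104)) (XT.lf (nat_lit 0) (nat_lit 1937136090464) (nat_lit 76) (nat_lit 8642889463948) (nat_lit 76) (nat_lit 7992514682041) (nat_lit 1) (nat_lit 4) (nat_lit 2) (nat_lit 5) (nat_lit 2) (nat_lit 4) (nat_lit 267) (nat_lit 230) (nat_lit 103))) (XT.nd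 (nat_lit 78) (nat_lit 0) (nat_lit 0) (XT.lf (nat_lit 0) (nat_lit 2707059212283) (nat_lit 76) (nat_lit 9629609316767) (nat_lit 76) (nat_lit 8979234533201) (nat_lit 1) (nat_lit 4) (nat_lit 2) (nat_lit 5) (nat_lit 2) (nat_lit 4) (nat_lit 268) (nat_lit 230) (nat_lit 102)) (XT.lf (nat_lit 0) (nat_lit 3592470800089) (nat_lit 76) (nat_lit 10764337148521) (nat_lit 76) (nat_lit 10113962363512) (nat_lit 1) (nat_lit 4) (nat_lit 2) (nat_lit 5) (nat_lit 2) (nat_lit 4) (nat_lit 269) (nat_lit 230) (nat_lit 101))))) (XT.nd (nat_lit 28314) (nat_lit 0) (nat_lit 836) (XT.nd (nat_lit 156) (nat_lit 0) (nat_lit 0) (XT.nd (nat_lit 78) (nat_lit 0) (nat_lit 0) (XT.lf (nat_lit 0) (nat_lit 4610694124077) (nat_lit 76) (nat_lit 12069274155918) (nat_lit 76) (nat_lit 11418899369655) (nat_lit 1) (nat_lit 4) (nat_lit 2) (nat_lit 5) (nat_lit 2) (nat_lit 4) (nat_lit 270) (nat_lit 230) (nat_lit 100)) (XT.lf (nat_lit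 0) (nat_lit 5781650944934) (nat_lit 76) (nat_lit 13569951715191) (nat_lit 76) (nat_lit 12919576927836) (nat_lit 1) (nat_lit 4) (nat_lit 2) (nat_lit 5) (nat_lit 2) (nat_lit 4) (nat_lit 271) (nat_lit 230) (nat_lit 99))) (XT.nd (nat_lit 28080) (nat_lit 0) (nat_lit 836) (XT.lf (nat_lit 0) (nat_lit 7128251287417) (nat_lit 76) (nat_lit 15295730909019) (nat_lit 76) (nat_lit 14645356120716) (nat_lit 1) (nat_lit 4) (nat_lit 2) (nat_lit 5) (nat_lit 2) (nat_lit 4) (nat_lit 272) (nat_lit 230) (nat_lit 98)) (XT.lf (nat_lit 0) (nat_lit 52652277944) (nat_lit 0) (nat_lit 52652277944) (nat_lit 228) (nat_lit 51999072745) (nat_lit 12) (nat_lit 5) (nat_lit 12) (nat_lit 3) (nat_lit 15) (nat_lit 3) (nat_lit 231) (nat_lit 231) (nat_lit 138)))) (XT.nd (nat_lit 156) (nat_lit 0) (nat_lit 0) (XT.nd (nat_lit 78) (nat_lit 0) (nat_lit 0) (XT.lf (nat_lit 0) (nat_lit 227090531866) (nat_lit 228) (nat_lit 95934536917)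 (nat_lit 304) (nat_lit 15074860769) (nat_lit 12) (nat_lit 5) (nat_lit 15) (nat_lit 3) (nat_lit 16) (nat_lit 5) (nat_lit 232) (nat_lit 231) (nat_lit 137)) (XT.lf (nat_lit 76) (nat_lit 32299841126) (nat_lit 0) (nat_lit 220096204111) (nat_lit 304) (nat_lit 111767677447) (nat_lit 13) (nat_lit 5) (nat_lit 12) (nat_lit 5) (nat_lit 16) (nat_lit 5) (nat_lit 233) (nat_lit 231) (nat_lit 136))) (XT.nd (nat_lit 78) (nat_lit 0) (nat_lit 76) (XT.lf (nat_lit 76) (nat_lit 190551048880) (nat_lit 0) (nat_lit 95961015902) (nat_lit 304) (nat_lit 106872819912) (nat_lit 13) (nat_lit 5) (nat_lit 12) (nat_lit 5) (nat_lit 16) (nat_lit 5) (nat_lit 234) (nat_lit 231) (nat_lit 135)) (XT.lf (nat_lit 0) (nat_lit 327683076196) (nat_lit 228) (nat_lit 56387007239) (nat_lit 76) (nat_lit 42628500779) (nat_lit 13) (nat_lit 5) (nat_lit 16) (nat_lit 5) (nat_lit 14) (nat_lit 5) (nat_lit 235) (nat_lit 231) (nat_lit 134))))))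 (XT.nd (nat_lit 624) (nat_lit 228) (nat_lit 0) (XT.nd (nat_lit 312) (nat_lit 152) (nat_lit 0) (XT.nd (nat_lit 156) (nat_lit 152) (nat_lit 0) (XT.nd (nat_lit 78) (nat_lit 0) (nat_lit 0) (XT.lf (nat_lit 0) (nat_lit 117958717066) (nat_lit 228) (nat_lit 266524952959) (nat_lit 304) (nat_lit 79107580377) (nat_lit 10) (nat_lit 5) (nat_lit 13) (nat_lit 5) (nat_lit 14) (nat_lit 5) (nat_lit 236) (nat_lit 231) (nat_lit 133)) (XT.lf (nat_lit 0) (nat_lit 324793376249) (nat_lit 228) (nat_lit 127958424547) (nat_lit 304) (nat_lit 52823899715) (nat_lit 10) (nat_lit 5) (nat_lit 13) (nat_lit 5) (nat_lit 14) (nat_lit 5) (nat_lit 237) (nat_lit 231) (nat_lit 132))) (XT.nd (nat_lit 78) (nat_lit 76) (nat_lit 0) (XT.lf (nat_lit 0) (nat_lit 8227948914) (nat_lit 76) (nat_lit 524672777086) (nat_lit 152) (nat_lit 20711006933) (nat_lit 9) (nat_lit 5) (nat_lit 10) (nat_lit 5) (nat_lit 11) (nat_lit 4) (nat_lit 238)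 (nat_lit 231) (nat_lit 131)) (XT.lf (nat_lit 0) (nat_lit 30768104517) (nat_lit 152) (nat_lit 368743344018) (nat_lit 76) (nat_lit 206842005006) (nat_lit 8) (nat_lit 5) (nat_lit 10) (nat_lit 5) (nat_lit 9) (nat_lit 5) (nat_lit 239) (nat_lit 231) (nat_lit 130)))) (XT.nd (nat_lit 156) (nat_lit 0) (nat_lit 0) (XT.nd (nat_lit 78) (nat_lit 152) (nat_lit 0) (XT.lf (nat_lit 0) (nat_lit 87848629642) (nat_lit 152) (nat_lit 166593127163) (nat_lit 76) (nat_lit 412416746405) (nat_lit 8) (nat_lit 5) (nat_lit 10) (nat_lit 5) (nat_lit 9) (nat_lit 5) (nat_lit 240) (nat_lit 231) (nat_lit 129)) (XT.lf (nat_lit 0) (nat_lit 72317809611) (nat_lit 152) (nat_lit 84167915046) (nat_lit 228) (nat_lit 579504412587) (nat_lit 6) (nat_lit 5) (nat_lit 8) (nat_lit 5) (nat_lit 9) (nat_lit 5) (nat_lit 241) (nat_lit 231) (nat_lit 128))) (XT.nd (nat_lit 78) (nat_lit 0) (nat_lit 0) (XT.lf (nat_lit 0) (nat_lit 249164372475)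 (nat_lit 228) (nat_lit 453434883363) (nat_lit 76) (nat_lit 110830362769) (nat_lit 6) (nat_lit 5) (nat_lit 9) (nat_lit 5) (nat_lit 7) (nat_lit 4) (nat_lit 242) (nat_lit 231) (nat_lit 127)) (XT.lf (nat_lit 0) (nat_lit 359752784968) (nat_lit 228) (nat_lit 215669859319) (nat_lit 76) (nat_lit 326461183202) (nat_lit 6) (nat_lit 5) (nat_lit 9) (nat_lit 5) (nat_lit 7) (nat_lit 4) (nat_lit 243) (nat_lit 231) (nat_lit 126))))) (XT.nd (nat_lit 312) (nat_lit 152) (nat_lit 0) (XT.nd (nat_lit 156) (nat_lit 0) (nat_lit 0) (XT.nd (nat_lit 78) (nat_lit 0) (nat_lit 0) (XT.lf (nat_lit 0) (nat_lit 63404598570) (nat_lit 76) (nat_lit 426150285241) (nat_lit 152) (nat_lit 513657470604) (nat_lit 5) (nat_lit 5) (nat_lit 6) (nat_lit 5) (nat_lit 7) (nat_lit 4) (nat_lit 244) (nat_lit 231) (nat_lit 125)) (XT.lf (nat_lit 0) (nat_lit 408578542420) (nat_lit 76) (nat_lit 241522383879) (nat_lit 152) (nat_lit 467948190092)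 (nat_lit 5) (nat_lit 5) (nat_lit 6) (nat_lit 5) (nat_lit 7) (nat_lit 4) (nat_lit 245) (nat_lit 231) (nat_lit 124))) (XT.nd (nat_lit 78) (nat_lit 0) (nat_lit 0) (XT.lf (nat_lit 0) (nat_lit 805528548318) (nat_lit 76) (nat_lit 29200306911) (nat_lit 152) (nat_lit 415382540711) (nat_lit 5) (nat_lit 5) (nat_lit 6) (nat_lit 5) (nat_lit 7) (nat_lit 4) (nat_lit 246) (nat_lit 231) (nat_lit 123)) (XT.lf (nat_lit 0) (nat_lit 1055952408478) (nat_lit 152) (nat_lit 148863443161) (nat_lit 0) (nat_lit 195831950790) (nat_lit 5) (nat_lit 5) (nat_lit 7) (nat_lit 4) (nat_lit 5) (nat_lit 4) (nat_lit 247) (nat_lit 231) (nat_lit 122)))) (XT.nd (nat_lit 156) (nat_lit 76) (nat_lit 0) (XT.nd (nat_lit 78) (nat_lit 0) (nat_lit 0) (XT.lf (nat_lit 0) (nat_lit 208374275603) (nat_lit 76) (nat_lit 1112004028939) (nat_lit 76) (nat_lit 251883544093) (nat_lit 4) (nat_lit 4) (nat_lit 5) (nat_lit 5) (nat_lit 5) (nat_lit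 4) (nat_lit 248) (nat_lit 231) (nat_lit 121)) (XT.lf (nat_lit 0) (nat_lit 635927849844) (nat_lit 76) (nat_lit 996321719003) (nat_lit 76) (nat_lit 136201210541) (nat_lit 4) (nat_lit 4) (nat_lit 5) (nat_lit 5) (nat_lit 5) (nat_lit 4) (nat_lit 249) (nat_lit 231) (nat_lit 120))) (XT.nd (nat_lit 78) (nat_lit 76) (nat_lit 0) (XT.lf (nat_lit 0) (nat_lit 1127614439880) (nat_lit 76) (nat_lit 863287070453) (nat_lit 76) (nat_lit 3166541456) (nat_lit 4) (nat_lit 4) (nat_lit 5) (nat_lit 5) (nat_lit 5) (nat_lit 4) (nat_lit 250) (nat_lit 231) (nat_lit 119)) (XT.lf (nat_lit 0) (nat_lit 136485007801) (nat_lit 152) (nat_lit 566677780079) (nat_lit 76) (nat_lit 1549434549342) (nat_lit 3) (nat_lit 5) (nat_lit 5) (nat_lit 5) (nat_lit 4) (nat_lit 4) (nat_lit 251) (nat_lit 231) (nat_lit 118)))))))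
noncomputable def xc59 : XT := (XT.nd (nat_lit 1248) (nat_lit 0) (nat_lit 0) (XT.nd (nat_lit 624) (nat_lit 76) (nat_lit 0) (XT.nd (nat_lit 312) (nat_lit 0) (nat_lit 0) (XT.nd (nat_lit 156) (nat_lit 0) (nat_lit 0) (XT.nd (nat_lit 78) (nat_lit 76) (nat_lit 0) (XT.lf (nat_lit 0) (nat_lit 296760085930) (nat_lit 152) (nat_lit 222086377629) (nat_lit 76) (nat_lit 2031036935364) (nat_lit 3) (nat_lit 5) (nat_lit 5) (nat_lit 5) (nat_lit 4) (nat_lit 4) (nat_lit 252) (nat_lit 231) (nat_lit 117)) (XT.lf (nat_lit 0) (nat_lit 191217198136) (nat_lit 76) (nat_lit 297777115360) (nat_lit 152) (nat_lit 2401580373320) (nat_lit 2) (nat_lit 5) (nat_lit 3) (nat_lit 5) (nat_lit 4) (nat_lit 4) (nat_lit 253) (nat_lit 231) (nat_lit 116))) (XT.nd (nat_lit 78) (nat_lit 0) (nat_lit 0) (XT.lf (nat_lit 0) (nat_lit 691475776994) (nat_lit 76) (nat_lit 30196950734) (nat_lit 152) (nat_lit 2558955582368) (nat_lit 2) (nat_lit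 5) (nat_lit 3) (nat_lit 5) (nat_lit 4) (nat_lit 4) (nat_lit 254) (nat_lit 231) (nat_lit 115)) (XT.lf (nat_lit 0) (nat_lit 1000744418103) (nat_lit 152) (nat_lit 2473908368269) (nat_lit 0) (nat_lit 252813463466) (nat_lit 2) (nat_lit 5) (nat_lit 4) (nat_lit 4) (nat_lit 2) (nat_lit 4) (nat_lit 255) (nat_lit 231) (nat_lit 114)))) (XT.nd (nat_lit 156) (nat_lit 0) (nat_lit 0) (XT.nd (nat_lit 78) (nat_lit 0) (nat_lit 0) (XT.lf (nat_lit 0) (nat_lit 1323114805756) (nat_lit 152) (nat_lit 2342815539891) (nat_lit 0) (nat_lit 575183843399) (nat_lit 2) (nat_lit 5) (nat_lit 4) (nat_lit 4) (nat_lit 2) (nat_lit 4) (nat_lit 256) (nat_lit 231) (nat_lit 113)) (XT.lf (nat_lit 0) (nat_lit 1693840746068) (nat_lit 152) (nat_lit 2192058796946) (nat_lit 0) (nat_lit 945909776998) (nat_lit 2) (nat_lit 5) (nat_lit 4) (nat_lit 4) (nat_lit 2) (nat_lit 4) (nat_lit 257) (nat_lit 231) (nat_lit 112))) (XT.nd (nat_lit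 78) (nat_lit 0) (nat_lit 0) (XT.lf (nat_lit 0) (nat_lit 2120175572654) (nat_lit 152) (nat_lit 2018688550985) (nat_lit 0) (nat_lit 1372244597747) (nat_lit 2) (nat_lit 5) (nat_lit 4) (nat_lit 4) (nat_lit 2) (nat_lit 4) (nat_lit 258) (nat_lit 231) (nat_lit 111)) (XT.lf (nat_lit 0) (nat_lit 2610460619077) (nat_lit 152) (nat_lit 1819312775458) (nat_lit 0) (nat_lit 1862529639094) (nat_lit 2) (nat_lit 5) (nat_lit 4) (nat_lit 4) (nat_lit 2) (nat_lit 4) (nat_lit 259) (nat_lit 231) (nat_lit 110))))) (XT.nd (nat_lit 312) (nat_lit 76) (nat_lit 0) (XT.nd (nat_lit 156) (nat_lit 0) (nat_lit 0) (XT.nd (nat_lit 78) (nat_lit 0) (nat_lit 0) (XT.lf (nat_lit 0) (nat_lit 3174288418855) (nat_lit 152) (nat_lit 1590030639974) (nat_lit 0) (nat_lit 2426357434458) (nat_lit 2) (nat_lit 5) (nat_lit 4) (nat_lit 4) (nat_lit 2) (nat_lit 4) (nat_lit 260) (nat_lit 231) (nat_lit 109)) (XT.lf (nat_lit 0) (nat_lit 3822690385461)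 (nat_lit 152) (nat_lit 1326356189707) (nat_lit 0) (nat_lit 3074759397226) (nat_lit 2) (nat_lit 5) (nat_lit 4) (nat_lit 4) (nat_lit 2) (nat_lit 4) (nat_lit 261) (nat_lit 231) (nat_lit 108))) (XT.nd (nat_lit 78) (nat_lit 0) (nat_lit 0) (XT.lf (nat_lit 0) (nat_lit 4568352644329) (nat_lit 152) (nat_lit 1023130576719) (nat_lit 0) (nat_lit 3820421652757) (nat_lit 2) (nat_lit 5) (nat_lit 4) (nat_lit 4) (nat_lit 2) (nat_lit 4) (nat_lit 262) (nat_lit 231) (nat_lit 107)) (XT.lf (nat_lit 0) (nat_lit 5425864239654) (nat_lit 152) (nat_lit 674421125971) (nat_lit 0) (nat_lit 4677933245180) (nat_lit 2) (nat_lit 5) (nat_lit 4) (nat_lit 4) (nat_lit 2) (nat_lit 4) (nat_lit 263) (nat_lit 231) (nat_lit 106)))) (XT.nd (nat_lit 156) (nat_lit 0) (nat_lit 0) (XT.nd (nat_lit 78) (nat_lit 76) (nat_lit 0) (XT.lf (nat_lit 0) (nat_lit 6412002572215) (nat_lit 152) (nat_lit 273405261255) (nat_lit 0) (nat_lit 5664071575217)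 (nat_lit 2) (nat_lit 5) (nat_lit 4) (nat_lit 4) (nat_lit 2) (nat_lit 4) (nat_lit 264) (nat_lit 231) (nat_lit 105)) (XT.lf (nat_lit 0) (nat_lit 206112543955) (nat_lit 76) (nat_lit 7348483789819) (nat_lit 76) (nat_lit 6600552790626) (nat_lit 1) (nat_lit 4) (nat_lit 2) (nat_lit 5) (nat_lit 2) (nat_lit 4) (nat_lit 265) (nat_lit 231) (nat_lit 104))) (XT.nd (nat_lit 78) (nat_lit 0) (nat_lit 0) (XT.lf (nat_lit 0) (nat_lit 788285040035) (nat_lit 76) (nat_lit 8094585756503) (nat_lit 76) (nat_lit 7346654755402) (nat_lit 1) (nat_lit 4) (nat_lit 2) (nat_lit 5) (nat_lit 2) (nat_lit 4) (nat_lit 266) (nat_lit 231) (nat_lit 103)) (XT.lf (nat_lit 0) (nat_lit 1457783407898) (nat_lit 76) (nat_lit 8952603019353) (nat_lit 76) (nat_lit 8204672016593) (nat_lit 1) (nat_lit 4) (nat_lit 2) (nat_lit 5) (nat_lit 2) (nat_lit 4) (nat_lit 267) (nat_lit 231) (nat_lit 102)))))) (XT.nd (nat_lit 28626) (nat_lit 0)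 (nat_lit 380) (XT.nd (nat_lit 546) (nat_lit 0) (nat_lit 0) (XT.nd (nat_lit 156) (nat_lit 0) (nat_lit 0) (XT.nd (nat_lit 78) (nat_lit 0) (nat_lit 0) (XT.lf (nat_lit 0) (nat_lit 2227706528653) (nat_lit 76) (nat_lit 9939322872643) (nat_lit 76) (nat_lit 9191391868440) (nat_lit 1) (nat_lit 4) (nat_lit 2) (nat_lit 5) (nat_lit 2) (nat_lit 4) (nat_lit 268) (nat_lit 231) (nat_lit 101)) (XT.lf (nat_lit 0) (nat_lit 3113118115534) (nat_lit 76) (nat_lit 11074050704807) (nat_lit 76) (nat_lit 10326119699349) (nat_lit 1) (nat_lit 4) (nat_lit 2) (nat_lit 5) (nat_lit 2) (nat_lit 4) (nat_lit 269) (nat_lit 231) (nat_lit 100))) (XT.nd (nat_lit 312) (nat_lit 0) (nat_lit 0) (XT.lf (nat_lit 0) (nat_lit 4131341438718) (nat_lit 76) (nat_lit 12378987712560) (nat_lit 76) (nat_lit 11631056706011) (nat_lit 1) (nat_lit 4) (nat_lit 2) (nat_lit 5) (nat_lit 2) (nat_lit 4) (nat_lit 270) (nat_lit 231) (nat_lit 99))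 (XT.lf (nat_lit 0) (nat_lit 9978367942603) (nat_lit 76) (nat_lit 19872433525164) (nat_lit 76) (nat_lit 19124502515501) (nat_lit 1) (nat_lit 4) (nat_lit 2) (nat_lit 5) (nat_lit 2) (nat_lit 4) (nat_lit 274) (nat_lit 231) (nat_lit 95)))) (XT.nd (nat_lit 27924) (nat_lit 0) (nat_lit 836) (XT.nd (nat_lit 78) (nat_lit 0) (nat_lit 0) (XT.lf (nat_lit 0) (nat_lit 12026378734051) (nat_lit 76) (nat_lit 22497127958536) (nat_lit 76) (nat_lit 21749196948330) (nat_lit 1) (nat_lit 4) (nat_lit 2) (nat_lit 5) (nat_lit 2) (nat_lit 4) (nat_lit 275) (nat_lit 231) (nat_lit 94)) (XT.lf (nat_lit 0) (nat_lit 14381591143470) (nat_lit 76) (nat_lit 25515526557245) (nat_lit 76) (nat_lit 24767595546567) (nat_lit 1) (nat_lit 4) (nat_lit 2) (nat_lit 5) (nat_lit 2) (nat_lit 4) (nat_lit 276) (nat_lit 231) (nat_lit 93))) (XT.nd (nat_lit 78) (nat_lit 0) (nat_lit 0) (XT.lf (nat_lit 0) (nat_lit 60550366838) (nat_lit 0)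 (nat_lit 60550366838) (nat_lit 228) (nat_lit 59798354062) (nat_lit 12) (nat_lit 5) (nat_lit 12) (nat_lit 3) (nat_lit 15) (nat_lit 3) (nat_lit 232) (nat_lit 232) (nat_lit 136)) (XT.lf (nat_lit 0) (nat_lit 261154953676) (nat_lit 228) (nat_lit 110324121578) (nat_lit 304) (nat_lit 17335698242) (nat_lit 12) (nat_lit 5) (nat_lit 15) (nat_lit 3) (nat_lit 16) (nat_lit 5) (nat_lit 233) (nat_lit 232) (nat_lit 135))))) (XT.nd (nat_lit 312) (nat_lit 304) (nat_lit 0) (XT.nd (nat_lit 156) (nat_lit 152) (nat_lit 0) (XT.nd (nat_lit 78) (nat_lit 0) (nat_lit 0) (XT.lf (nat_lit 76) (nat_lit 37145386087) (nat_lit 0) (nat_lit 253110821688) (nat_lit 304) (nat_lit 128531943268) (nat_lit 13) (nat_lit 5) (nat_lit 12) (nat_lit 5) (nat_lit 16) (nat_lit 5) (nat_lit 234) (nat_lit 232) (nat_lit 134)) (XT.lf (nat_lit 76) (nat_lit 219134200813) (nat_lit 0) (nat_lit 110355330862) (nat_lit 304) (nat_lit 122902972641)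 (nat_lit 13) (nat_lit 5) (nat_lit 12) (nat_lit 5) (nat_lit 16) (nat_lit 5) (nat_lit 235) (nat_lit 232) (nat_lit 133))) (XT.nd (nat_lit 78) (nat_lit 228) (nat_lit 0) (XT.lf (nat_lit 0) (nat_lit 376836103229) (nat_lit 228) (nat_lit 64844524050) (nat_lit 76) (nat_lit 49022647112) (nat_lit 13) (nat_lit 5) (nat_lit 16) (nat_lit 5) (nat_lit 14) (nat_lit 5) (nat_lit 236) (nat_lit 232) (nat_lit 132)) (XT.lf (nat_lit 0) (nat_lit 135653034615) (nat_lit 228) (nat_lit 306503698861) (nat_lit 304) (nat_lit 90973116577) (nat_lit 10) (nat_lit 5) (nat_lit 13) (nat_lit 5) (nat_lit 14) (nat_lit 5) (nat_lit 237) (nat_lit 232) (nat_lit 131)))) (XT.nd (nat_lit 156) (nat_lit 228) (nat_lit 0) (XT.nd (nat_lit 78) (nat_lit 76) (nat_lit 0) (XT.lf (nat_lit 0) (nat_lit 373512826155) (nat_lit 228) (nat_lit 147152190801) (nat_lit 304) (nat_lit 60746962188) (nat_lit 10) (nat_lit 5) (nat_lit 13) (nat_lit 5) (nat_lit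 14) (nat_lit 5) (nat_lit 238) (nat_lit 232) (nat_lit 130)) (XT.lf (nat_lit 0) (nat_lit 9462637634) (nat_lit 76) (nat_lit 603373605590) (nat_lit 152) (nat_lit 23817180108) (nat_lit 9) (nat_lit 5) (nat_lit 10) (nat_lit 5) (nat_lit 11) (nat_lit 4) (nat_lit 239) (nat_lit 232) (nat_lit 129))) (XT.nd (nat_lit 78) (nat_lit 152) (nat_lit 0) (XT.lf (nat_lit 0) (nat_lit 35383698736) (nat_lit 152) (nat_lit 424054370719) (nat_lit 76) (nat_lit 237868339064) (nat_lit 8) (nat_lit 5) (nat_lit 10) (nat_lit 5) (nat_lit 9) (nat_lit 5) (nat_lit 240) (nat_lit 232) (nat_lit 128)) (XT.nd (nat_lit 78) (nat_lit 152) (nat_lit 0) (XT.lf (nat_lit 0) (nat_lit 101026253254) (nat_lit 152) (nat_lit 191581683280) (nat_lit 76) (nat_lit 474279287329) (nat_lit 8) (nat_lit 5) (nat_lit 10) (nat_lit 5) (nat_lit 9) (nat_lit 5) (nat_lit 241) (nat_lit 232) (nat_lit 127)) (XT.lf (nat_lit 0) (nat_lit 83165875240) (nat_lit 152)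 (nat_lit 96793010669) (nat_lit 228) (nat_lit 666429721796) (nat_lit 6) (nat_lit 5) (nat_lit 8) (nat_lit 5) (nat_lit 9) (nat_lit 5) (nat_lit 242) (nat_lit 232) (nat_lit 126))))))))
noncomputable def xc60 : XT := (XT.nd (nat_lit 30576) (nat_lit 0) (nat_lit 76) (XT.nd (nat_lit 1248) (nat_lit 76) (nat_lit 0) (XT.nd (nat_lit 624) (nat_lit 152) (nat_lit 0) (XT.nd (nat_lit 312) (nat_lit 76) (nat_lit 0) (XT.nd (nat_lit 156) (nat_lit 76) (nat_lit 0) (XT.nd (nat_lit 78) (nat_lit 0) (nat_lit 0) (XT.lf (nat_lit 0) (nat_lit 286539294736) (nat_lit 228) (nat_lit 521449732809) (nat_lit 76) (nat_lit 127454989771) (nat_lit 6) (nat_lit 5) (nat_lit 9) (nat_lit 5) (nat_lit 7) (nat_lit 4) (nat_lit 243) (nat_lit 232) (nat_lit 125)) (XT.lf (nat_lit 0) (nat_lit 413715934357) (nat_lit 228) (nat_lit 248020005122) (nat_lit 76) (nat_lit 375430423801) (nat_lit 6) (nat_lit 5) (nat_lit 9) (nat_lit 5) (nat_lit 7)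 (nat_lit 4) (nat_lit 244) (nat_lit 232) (nat_lit 124))) (XT.nd (nat_lit 78) (nat_lit 0) (nat_lit 0) (XT.lf (nat_lit 0) (nat_lit 72915606310) (nat_lit 76) (nat_lit 490072724668) (nat_lit 152) (nat_lit 590705841293) (nat_lit 5) (nat_lit 5) (nat_lit 6) (nat_lit 5) (nat_lit 7) (nat_lit 4) (nat_lit 245) (nat_lit 232) (nat_lit 123)) (XT.lf (nat_lit 0) (nat_lit 469865600265) (nat_lit 76) (nat_lit 277750651583) (nat_lit 152) (nat_lit 538140201299) (nat_lit 5) (nat_lit 5) (nat_lit 6) (nat_lit 5) (nat_lit 7) (nat_lit 4) (nat_lit 246) (nat_lit 232) (nat_lit 122)))) (XT.nd (nat_lit 156) (nat_lit 76) (nat_lit 0) (XT.nd (nat_lit 78) (nat_lit 0) (nat_lit 0) (XT.lf (nat_lit 0) (nat_lit 926358070985) (nat_lit 76) (nat_lit 33580274794) (nat_lit 152) (nat_lit 477689732856) (nat_lit 5) (nat_lit 5) (nat_lit 6) (nat_lit 5) (nat_lit 7) (nat_lit 4) (nat_lit 247) (nat_lit 232) (nat_lit 121)) (XT.lf (nat_lit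 0) (nat_lit 1214345413664) (nat_lit 152) (nat_lit 171192730175) (nat_lit 0) (nat_lit 225206805318) (nat_lit 5) (nat_lit 5) (nat_lit 7) (nat_lit 4) (nat_lit 5) (nat_lit 4) (nat_lit 248) (nat_lit 232) (nat_lit 120))) (XT.nd (nat_lit 78) (nat_lit 0) (nat_lit 0) (XT.lf (nat_lit 0) (nat_lit 239630635974) (nat_lit 76) (nat_lit 1278804548462) (nat_lit 76) (nat_lit 289665919581) (nat_lit 4) (nat_lit 4) (nat_lit 5) (nat_lit 5) (nat_lit 5) (nat_lit 4) (nat_lit 249) (nat_lit 232) (nat_lit 119)) (XT.lf (nat_lit 0) (nat_lit 731317217783) (nat_lit 76) (nat_lit 1145769903098) (nat_lit 76) (nat_lit 156631256360) (nat_lit 4) (nat_lit 4) (nat_lit 5) (nat_lit 5) (nat_lit 5) (nat_lit 4) (nat_lit 250) (nat_lit 232) (nat_lit 118))))) (XT.nd (nat_lit 312) (nat_lit 0) (nat_lit 0) (XT.nd (nat_lit 156) (nat_lit 76) (nat_lit 0) (XT.nd (nat_lit 78) (nat_lit 76) (nat_lit 0) (XT.lf (nat_lit 0) (nat_lit 1296756771481)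 (nat_lit 76) (nat_lit 992780066886) (nat_lit 76) (nat_lit 3641404621) (nat_lit 4) (nat_lit 4) (nat_lit 5) (nat_lit 5) (nat_lit 5) (nat_lit 4) (nat_lit 251) (nat_lit 232) (nat_lit 117)) (XT.lf (nat_lit 0) (nat_lit 156957852488) (nat_lit 152) (nat_lit 651679292916) (nat_lit 76) (nat_lit 1781849777354) (nat_lit 3) (nat_lit 5) (nat_lit 5) (nat_lit 5) (nat_lit 4) (nat_lit 4) (nat_lit 252) (nat_lit 232) (nat_lit 116))) (XT.nd (nat_lit 78) (nat_lit 76) (nat_lit 0) (XT.lf (nat_lit 0) (nat_lit 341274180138) (nat_lit 152) (nat_lit 255399200208) (nat_lit 76) (nat_lit 2335692515331) (nat_lit 3) (nat_lit 5) (nat_lit 5) (nat_lit 5) (nat_lit 4) (nat_lit 4) (nat_lit 253) (nat_lit 232) (nat_lit 115)) (XT.lf (nat_lit 0) (nat_lit 219899905828) (nat_lit 76) (nat_lit 342443630704) (nat_lit 152) (nat_lit 2761817341135) (nat_lit 2) (nat_lit 5) (nat_lit 3) (nat_lit 5) (nat_lit 4) (nat_lit 4) (nat_lit 254)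 (nat_lit 232) (nat_lit 114)))) (XT.nd (nat_lit 156) (nat_lit 0) (nat_lit 0) (XT.nd (nat_lit 78) (nat_lit 0) (nat_lit 0) (XT.lf (nat_lit 0) (nat_lit 795197254823) (nat_lit 76) (nat_lit 34726448161) (nat_lit 152) (nat_lit 2942798843042) (nat_lit 2) (nat_lit 5) (nat_lit 3) (nat_lit 5) (nat_lit 4) (nat_lit 4) (nat_lit 255) (nat_lit 232) (nat_lit 113)) (XT.lf (nat_lit 0) (nat_lit 1150856139921) (nat_lit 152) (nat_lit 2844994519168) (nat_lit 0) (nat_lit 290735518778) (nat_lit 2) (nat_lit 5) (nat_lit 4) (nat_lit 4) (nat_lit 2) (nat_lit 4) (nat_lit 256) (nat_lit 232) (nat_lit 112))) (XT.nd (nat_lit 78) (nat_lit 0) (nat_lit 0) (XT.lf (nat_lit 0) (nat_lit 1521582078013) (nat_lit 152) (nat_lit 2694237780142) (nat_lit 0) (nat_lit 661461451032) (nat_lit 2) (nat_lit 5) (nat_lit 4) (nat_lit 4) (nat_lit 2) (nat_lit 4) (nat_lit 257) (nat_lit 232) (nat_lit 111)) (XT.lf (nat_lit 0) (nat_lit 1947916902668)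 (nat_lit 152) (nat_lit 2520867537590) (nat_lit 0) (nat_lit 1087796270612) (nat_lit 2) (nat_lit 5) (nat_lit 4) (nat_lit 4) (nat_lit 2) (nat_lit 4) (nat_lit 258) (nat_lit 232) (nat_lit 110)))))) (XT.nd (nat_lit 624) (nat_lit 0) (nat_lit 0) (XT.nd (nat_lit 312) (nat_lit 76) (nat_lit 0) (XT.nd (nat_lit 156) (nat_lit 0) (nat_lit 0) (XT.nd (nat_lit 78) (nat_lit 0) (nat_lit 0) (XT.lf (nat_lit 0) (nat_lit 2438201947413) (nat_lit 152) (nat_lit 2321491765027) (nat_lit 0) (nat_lit 1578081310943) (nat_lit 2) (nat_lit 5) (nat_lit 4) (nat_lit 4) (nat_lit 2) (nat_lit 4) (nat_lit 259) (nat_lit 232) (nat_lit 109)) (XT.lf (nat_lit 0) (nat_lit 3002029745731) (nat_lit 152) (nat_lit 2092209632119) (nat_lit 0) (nat_lit 2141909105423) (nat_lit 2) (nat_lit 5) (nat_lit 4) (nat_lit 4) (nat_lit 2) (nat_lit 4) (nat_lit 260) (nat_lit 232) (nat_lit 108))) (XT.nd (nat_lit 78) (nat_lit 0) (nat_lit 0) (XT.lf (nat_lit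 0) (nat_lit 3650431711068) (nat_lit 152) (nat_lit 1828535184094) (nat_lit 0) (nat_lit 2790311067422) (nat_lit 2) (nat_lit 5) (nat_lit 4) (nat_lit 4) (nat_lit 2) (nat_lit 4) (nat_lit 261) (nat_lit 232) (nat_lit 107)) (XT.lf (nat_lit 0) (nat_lit 4396093968832) (nat_lit 152) (nat_lit 1525309573054) (nat_lit 0) (nat_lit 3535973322284) (nat_lit 2) (nat_lit 5) (nat_lit 4) (nat_lit 4) (nat_lit 2) (nat_lit 4) (nat_lit 262) (nat_lit 232) (nat_lit 106)))) (XT.nd (nat_lit 156) (nat_lit 76) (nat_lit 0) (XT.nd (nat_lit 78) (nat_lit 0) (nat_lit 0) (XT.lf (nat_lit 0) (nat_lit 5253605563197) (nat_lit 152) (nat_lit 1176600124001) (nat_lit 0) (nat_lit 4393484914126) (nat_lit 2) (nat_lit 5) (nat_lit 4) (nat_lit 4) (nat_lit 2) (nat_lit 4) (nat_lit 263) (nat_lit 232) (nat_lit 105)) (XT.lf (nat_lit 0) (nat_lit 6239743894923) (nat_lit 152) (nat_lit 775584260758) (nat_lit 0) (nat_lit 5379623243657) (nat_lit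 2) (nat_lit 5) (nat_lit 4) (nat_lit 4) (nat_lit 2) (nat_lit 4) (nat_lit 264) (nat_lit 232) (nat_lit 104))) (XT.nd (nat_lit 78) (nat_lit 76) (nat_lit 0) (XT.lf (nat_lit 0) (nat_lit 7373802974848) (nat_lit 152) (nat_lit 314416020783) (nat_lit 0) (nat_lit 6513682321673) (nat_lit 2) (nat_lit 5) (nat_lit 4) (nat_lit 4) (nat_lit 2) (nat_lit 4) (nat_lit 265) (nat_lit 232) (nat_lit 103)) (XT.lf (nat_lit 0) (nat_lit 237029453860) (nat_lit 76) (nat_lit 8450756345761) (nat_lit 76) (nat_lit 7590635690927) (nat_lit 1) (nat_lit 4) (nat_lit 2) (nat_lit 5) (nat_lit 2) (nat_lit 4) (nat_lit 266) (nat_lit 232) (nat_lit 102))))) (XT.nd (nat_lit 546) (nat_lit 0) (nat_lit 0) (XT.nd (nat_lit 156) (nat_lit 0) (nat_lit 0) (XT.nd (nat_lit 78) (nat_lit 0) (nat_lit 0) (XT.lf (nat_lit 0) (nat_lit 906527820660) (nat_lit 76) (nat_lit 9308773609082) (nat_lit 76) (nat_lit 8448652952806) (nat_lit 1) (nat_lit 4) (nat_lit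 2) (nat_lit 5) (nat_lit 2) (nat_lit 4) (nat_lit 267) (nat_lit 232) (nat_lit 101)) (XT.lf (nat_lit 0) (nat_lit 1676450940490) (nat_lit 76) (nat_lit 10295493462781) (nat_lit 76) (nat_lit 9435372805250) (nat_lit 1) (nat_lit 4) (nat_lit 2) (nat_lit 5) (nat_lit 2) (nat_lit 4) (nat_lit 268) (nat_lit 232) (nat_lit 100))) (XT.nd (nat_lit 312) (nat_lit 0) (nat_lit 0) (XT.lf (nat_lit 0) (nat_lit 2561862526567) (nat_lit 76) (nat_lit 11430221295301) (nat_lit 76) (nat_lit 10570100636679) (nat_lit 1) (nat_lit 4) (nat_lit 2) (nat_lit 5) (nat_lit 2) (nat_lit 4) (nat_lit 269) (nat_lit 232) (nat_lit 99)) (XT.lf (nat_lit 0) (nat_lit 7646233401507) (nat_lit 76) (nat_lit 17946261131464) (nat_lit 76) (nat_lit 17086140469727) (nat_lit 1) (nat_lit 4) (nat_lit 2) (nat_lit 5) (nat_lit 2) (nat_lit 4) (nat_lit 273) (nat_lit 232) (nat_lit 95)))) (XT.nd (nat_lit 156) (nat_lit 0) (nat_lit 0) (XT.nd (nat_lit 78)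 (nat_lit 0) (nat_lit 0) (XT.lf (nat_lit 0) (nat_lit 9427112350940) (nat_lit 76) (nat_lit 20228604116851) (nat_lit 76) (nat_lit 19368483454572) (nat_lit 1) (nat_lit 4) (nat_lit 2) (nat_lit 5) (nat_lit 2) (nat_lit 4) (nat_lit 274) (nat_lit 232) (nat_lit 94)) (XT.lf (nat_lit 0) (nat_lit 11475123142041) (nat_lit 76) (nat_lit 22853298550377) (nat_lit 76) (nat_lit 21993177887626) (nat_lit 1) (nat_lit 4) (nat_lit 2) (nat_lit 5) (nat_lit 2) (nat_lit 4) (nat_lit 275) (nat_lit 232) (nat_lit 93))) (XT.nd (nat_lit 27924) (nat_lit 0) (nat_lit 836) (XT.lf (nat_lit 0) (nat_lit 13830335551158) (nat_lit 76) (nat_lit 25871697149219) (nat_lit 76) (nat_lit 25011576486058) (nat_lit 1) (nat_lit 4) (nat_lit 2) (nat_lit 5) (nat_lit 2) (nat_lit 4) (nat_lit 276) (nat_lit 232) (nat_lit 92)) (XT.lf (nat_lit 0) (nat_lit 69633108783) (nat_lit 0) (nat_lit 69633108783) (nat_lit 228) (nat_lit 68767668915) (nat_lit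 12) (nat_lit 5) (nat_lit 12) (nat_lit 3) (nat_lit 15) (nat_lit 3) (nat_lit 233) (nat_lit 233) (nat_lit 134))))))) (XT.nd (nat_lit 1248) (nat_lit 228) (nat_lit 0) (XT.nd (nat_lit 624) (nat_lit 228) (nat_lit 0) (XT.nd (nat_lit 312) (nat_lit 304) (nat_lit 0) (XT.nd (nat_lit 156) (nat_lit 0) (nat_lit 0) (XT.nd (nat_lit 78) (nat_lit 0) (nat_lit 0) (XT.lf (nat_lit 0) (nat_lit 300328833423) (nat_lit 228) (nat_lit 126872289246) (nat_lit 304) (nat_lit 19935756841) (nat_lit 12) (nat_lit 5) (nat_lit 15) (nat_lit 3) (nat_lit 16) (nat_lit 5) (nat_lit 234) (nat_lit 233) (nat_lit 133)) (XT.lf (nat_lit 76) (nat_lit 42717624088) (nat_lit 0) (nat_lit 291077586311) (nat_lit 304) (nat_lit 147811064968) (nat_lit 13) (nat_lit 5) (nat_lit 12) (nat_lit 5) (nat_lit 16) (nat_lit 5) (nat_lit 235) (nat_lit 233) (nat_lit 132))) (XT.nd (nat_lit 78) (nat_lit 0) (nat_lit 76) (XT.lf (nat_lit 76) (nat_lit 252004704924)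 (nat_lit 0) (nat_lit 126908753422) (nat_lit 304) (nat_lit 141337836111) (nat_lit 13) (nat_lit 5) (nat_lit 12) (nat_lit 5) (nat_lit 16) (nat_lit 5) (nat_lit 236) (nat_lit 233) (nat_lit 131)) (XT.lf (nat_lit 0) (nat_lit 433361946391) (nat_lit 228) (nat_lit 74570798670) (nat_lit 76) (nat_lit 56375946800) (nat_lit 13) (nat_lit 5) (nat_lit 16) (nat_lit 5) (nat_lit 14) (nat_lit 5) (nat_lit 237) (nat_lit 233) (nat_lit 130)))) (XT.nd (nat_lit 156) (nat_lit 152) (nat_lit 0) (XT.nd (nat_lit 78) (nat_lit 0) (nat_lit 0) (XT.lf (nat_lit 0) (nat_lit 156001375432) (nat_lit 228) (nat_lit 352479255927) (nat_lit 304) (nat_lit 104618629729) (nat_lit 10) (nat_lit 5) (nat_lit 13) (nat_lit 5) (nat_lit 14) (nat_lit 5) (nat_lit 238) (nat_lit 233) (nat_lit 129)) (XT.lf (nat_lit 0) (nat_lit 429540085405) (nat_lit 228) (nat_lit 169225021366) (nat_lit 304) (nat_lit 69858611443) (nat_lit 10) (nat_lit 5) (nat_lit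 13) (nat_lit 5) (nat_lit 14) (nat_lit 5) (nat_lit 239) (nat_lit 233) (nat_lit 128))) (XT.nd (nat_lit 78) (nat_lit 76) (nat_lit 0) (XT.lf (nat_lit 0) (nat_lit 10882408615) (nat_lit 76) (nat_lit 693879579843) (nat_lit 152) (nat_lit 27389395789) (nat_lit 9) (nat_lit 5) (nat_lit 10) (nat_lit 5) (nat_lit 11) (nat_lit 4) (nat_lit 240) (nat_lit 233) (nat_lit 127)) (XT.lf (nat_lit 0) (nat_lit 40691539778) (nat_lit 152) (nat_lit 487662167234) (nat_lit 76) (nat_lit 273548615110) (nat_lit 8) (nat_lit 5) (nat_lit 10) (nat_lit 5) (nat_lit 9) (nat_lit 5) (nat_lit 241) (nat_lit 233) (nat_lit 126))))) (XT.nd (nat_lit 312) (nat_lit 76) (nat_lit 0) (XT.nd (nat_lit 156) (nat_lit 0) (nat_lit 0) (XT.nd (nat_lit 78) (nat_lit 152) (nat_lit 0) (XT.lf (nat_lit 0) (nat_lit 116180440140) (nat_lit 152) (nat_lit 220318623517) (nat_lit 76) (nat_lit 545421202329) (nat_lit 8) (nat_lit 5) (nat_lit 10) (nat_lit 5)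 (nat_lit 9) (nat_lit 5) (nat_lit 242) (nat_lit 233) (nat_lit 125)) (XT.lf (nat_lit 0) (nat_lit 95641054588) (nat_lit 152) (nat_lit 111311892982) (nat_lit 228) (nat_lit 766393913390) (nat_lit 6) (nat_lit 5) (nat_lit 8) (nat_lit 5) (nat_lit 9) (nat_lit 5) (nat_lit 243) (nat_lit 233) (nat_lit 124))) (XT.nd (nat_lit 78) (nat_lit 0) (nat_lit 0) (XT.lf (nat_lit 0) (nat_lit 329520390375) (nat_lit 228) (nat_lit 599666903083) (nat_lit 76) (nat_lit 146573293124) (nat_lit 6) (nat_lit 5) (nat_lit 9) (nat_lit 5) (nat_lit 7) (nat_lit 4) (nat_lit 244) (nat_lit 233) (nat_lit 123)) (XT.lf (nat_lit 0) (nat_lit 475773499666) (nat_lit 228) (nat_lit 285222754023) (nat_lit 76) (nat_lit 431745035099) (nat_lit 6) (nat_lit 5) (nat_lit 9) (nat_lit 5) (nat_lit 7) (nat_lit 4) (nat_lit 245) (nat_lit 233) (nat_lit 122)))) (XT.nd (nat_lit 156) (nat_lit 0) (nat_lit 0) (XT.nd (nat_lit 78) (nat_lit 0) (nat_lit 0)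 (XT.lf (nat_lit 0) (nat_lit 83853187675) (nat_lit 76) (nat_lit 563583555214) (nat_lit 152) (nat_lit 679311528525) (nat_lit 5) (nat_lit 5) (nat_lit 6) (nat_lit 5) (nat_lit 7) (nat_lit 4) (nat_lit 246) (nat_lit 233) (nat_lit 121)) (XT.lf (nat_lit 0) (nat_lit 540345649365) (nat_lit 76) (nat_lit 319413181360) (nat_lit 152) (nat_lit 618861067180) (nat_lit 5) (nat_lit 5) (nat_lit 6) (nat_lit 5) (nat_lit 7) (nat_lit 4) (nat_lit 247) (nat_lit 233) (nat_lit 120))) (XT.nd (nat_lit 78) (nat_lit 0) (nat_lit 0) (XT.lf (nat_lit 0) (nat_lit 1065311963424) (nat_lit 76) (nat_lit 38617256917) (nat_lit 152) (nat_lit 549343049903) (nat_lit 5) (nat_lit 5) (nat_lit 6) (nat_lit 5) (nat_lit 7) (nat_lit 4) (nat_lit 248) (nat_lit 233) (nat_lit 119)) (XT.lf (nat_lit 0) (nat_lit 1396497334533) (nat_lit 152) (nat_lit 196871466195) (nat_lit 0) (nat_lit 258987872929) (nat_lit 5) (nat_lit 5) (nat_lit 7) (nat_lit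 4) (nat_lit 5) (nat_lit 4) (nat_lit 249) (nat_lit 233) (nat_lit 118)))))) (XT.nd (nat_lit 624) (nat_lit 0) (nat_lit 0) (XT.nd (nat_lit 312) (nat_lit 76) (nat_lit 0) (XT.nd (nat_lit 156) (nat_lit 76) (nat_lit 0) (XT.nd (nat_lit 78) (nat_lit 0) (nat_lit 0) (XT.lf (nat_lit 0) (nat_lit 275575396989) (nat_lit 76) (nat_lit 1470625166596) (nat_lit 76) (nat_lit 333115689464) (nat_lit 4) (nat_lit 4) (nat_lit 5) (nat_lit 5) (nat_lit 5) (nat_lit 4) (nat_lit 250) (nat_lit 233) (nat_lit 117)) (XT.lf (nat_lit 0) (nat_lit 841014944466) (nat_lit 76) (nat_lit 1317635332793) (nat_lit 76) (nat_lit 180125842159) (nat_lit 4) (nat_lit 4) (nat_lit 5) (nat_lit 5) (nat_lit 5) (nat_lit 4) (nat_lit 251) (nat_lit 233) (nat_lit 116))) (XT.nd (nat_lit 78) (nat_lit 76) (nat_lit 0) (XT.lf (nat_lit 0) (nat_lit 1491270412435) (nat_lit 76) (nat_lit 1141697028423) (nat_lit 76) (nat_lit 4187526049) (nat_lit 4) (nat_lit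 4) (nat_lit 5) (nat_lit 5) (nat_lit 5) (nat_lit 4) (nat_lit 252) (nat_lit 233) (nat_lit 115)) (XT.lf (nat_lit 0) (nat_lit 180501601073) (nat_lit 152) (nat_lit 749431070276) (nat_lit 76) (nat_lit 2049127278447) (nat_lit 3) (nat_lit 5) (nat_lit 5) (nat_lit 5) (nat_lit 4) (nat_lit 4) (nat_lit 253) (nat_lit 233) (nat_lit 114)))) (XT.nd (nat_lit 156) (nat_lit 0) (nat_lit 0) (XT.nd (nat_lit 78) (nat_lit 76) (nat_lit 0) (XT.lf (nat_lit 0) (nat_lit 392465368648) (nat_lit 152) (nat_lit 293708978867) (nat_lit 76) (nat_lit 2686046422621) (nat_lit 3) (nat_lit 5) (nat_lit 5) (nat_lit 5) (nat_lit 4) (nat_lit 4) (nat_lit 254) (nat_lit 233) (nat_lit 113)) (XT.lf (nat_lit 0) (nat_lit 252884988466) (nat_lit 76) (nat_lit 393810136020) (nat_lit 152) (nat_lit 3176089875626) (nat_lit 2) (nat_lit 5) (nat_lit 3) (nat_lit 5) (nat_lit 4) (nat_lit 4) (nat_lit 255) (nat_lit 233) (nat_lit 112))) (XT.nd (nat_lit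 78) (nat_lit 0) (nat_lit 0) (XT.lf (nat_lit 0) (nat_lit 914476927189) (nat_lit 76) (nat_lit 39935381221) (nat_lit 152) (nat_lit 3384218611516) (nat_lit 2) (nat_lit 5) (nat_lit 3) (nat_lit 5) (nat_lit 4) (nat_lit 4) (nat_lit 256) (nat_lit 233) (nat_lit 111)) (XT.lf (nat_lit 0) (nat_lit 1323484605598) (nat_lit 152) (nat_lit 3271743618146) (nat_lit 0) (nat_lit 334345873658) (nat_lit 2) (nat_lit 5) (nat_lit 4) (nat_lit 4) (nat_lit 2) (nat_lit 4) (nat_lit 257) (nat_lit 233) (nat_lit 110))))) (XT.nd (nat_lit 312) (nat_lit 0) (nat_lit 0) (XT.nd (nat_lit 156) (nat_lit 0) (nat_lit 0) (XT.nd (nat_lit 78) (nat_lit 0) (nat_lit 0) (XT.lf (nat_lit 0) (nat_lit 1749819428575) (nat_lit 152) (nat_lit 3098373378558) (nat_lit 0) (nat_lit 760680692221) (nat_lit 2) (nat_lit 5) (nat_lit 4) (nat_lit 4) (nat_lit 2) (nat_lit 4) (nat_lit 258) (nat_lit 233) (nat_lit 109)) (XT.lf (nat_lit 0) (nat_lit 2240104471860)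 (nat_lit 152) (nat_lit 2898997608571) (nat_lit 0) (nat_lit 1250965731668) (nat_lit 2) (nat_lit 5) (nat_lit 4) (nat_lit 4) (nat_lit 2) (nat_lit 4) (nat_lit 259) (nat_lit 233) (nat_lit 108))) (XT.nd (nat_lit 78) (nat_lit 0) (nat_lit 0) (XT.lf (nat_lit 0) (nat_lit 2803932268909) (nat_lit 152) (nat_lit 2669715477905) (nat_lit 0) (nat_lit 1814793525379) (nat_lit 2) (nat_lit 5) (nat_lit 4) (nat_lit 4) (nat_lit 2) (nat_lit 4) (nat_lit 260) (nat_lit 233) (nat_lit 107)) (XT.lf (nat_lit 0) (nat_lit 3452334233142) (nat_lit 152) (nat_lit 2406041031828) (nat_lit 0) (nat_lit 2463195486710) (nat_lit 2) (nat_lit 5) (nat_lit 4) (nat_lit 4) (nat_lit 2) (nat_lit 4) (nat_lit 261) (nat_lit 233) (nat_lit 106)))) (XT.nd (nat_lit 156) (nat_lit 0) (nat_lit 0) (XT.nd (nat_lit 78) (nat_lit 0) (nat_lit 0) (XT.lf (nat_lit 0) (nat_lit 4197996489947) (nat_lit 152) (nat_lit 2102815422482) (nat_lit 0) (nat_lit 3208857740991)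 (nat_lit 2) (nat_lit 5) (nat_lit 4) (nat_lit 4) (nat_lit 2) (nat_lit 4) (nat_lit 262) (nat_lit 233) (nat_lit 105)) (XT.lf (nat_lit 0) (nat_lit 5055508083477) (nat_lit 152) (nat_lit 1754105974903) (nat_lit 0) (nat_lit 4066369332327) (nat_lit 2) (nat_lit 5) (nat_lit 4) (nat_lit 4) (nat_lit 2) (nat_lit 4) (nat_lit 263) (nat_lit 233) (nat_lit 104))) (XT.nd (nat_lit 78) (nat_lit 0) (nat_lit 0) (XT.lf (nat_lit 0) (nat_lit 6041646414477) (nat_lit 152) (nat_lit 1353090112941) (nat_lit 0) (nat_lit 5052507661419) (nat_lit 2) (nat_lit 5) (nat_lit 4) (nat_lit 4) (nat_lit 2) (nat_lit 4) (nat_lit 264) (nat_lit 233) (nat_lit 103)) (XT.lf (nat_lit 0) (nat_lit 7175705493771) (nat_lit 152) (nat_lit 891921874080) (nat_lit 0) (nat_lit 6186566739053) (nat_lit 2) (nat_lit 5) (nat_lit 4) (nat_lit 4) (nat_lit 2) (nat_lit 4) (nat_lit 265) (nat_lit 233) (nat_lit 102))))))))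
noncomputable def xc61 : XT := (XT.nd (nat_lit 30654) (nat_lit 0) (nat_lit 0) (XT.nd (nat_lit 29406) (nat_lit 0) (nat_lit 76) (XT.nd (nat_lit 28782) (nat_lit 0) (nat_lit 608) (XT.nd (nat_lit 468) (nat_lit 0) (nat_lit 0) (XT.nd (nat_lit 156) (nat_lit 0) (nat_lit 0) (XT.nd (nat_lit 78) (nat_lit 76) (nat_lit 0) (XT.lf (nat_lit 0) (nat_lit 8479873433778) (nat_lit 152) (nat_lit 361578401473) (nat_lit 0) (nat_lit 7490734677618) (nat_lit 2) (nat_lit 5) (nat_lit 4) (nat_lit 4) (nat_lit 2) (nat_lit 4) (nat_lit 266) (nat_lit 233) (nat_lit 101)) (XT.lf (nat_lit 0) (nat_lit 272583893348) (nat_lit 76) (nat_lit 9718369788150) (nat_lit 76) (nat_lit 8729231030735) (nat_lit 1) (nat_lit 4) (nat_lit 2) (nat_lit 5) (nat_lit 2) (nat_lit 4) (nat_lit 267) (nat_lit 233) (nat_lit 100))) (XT.nd (nat_lit 78) (nat_lit 0) (nat_lit 0) (XT.lf (nat_lit 0) (nat_lit 1042507012374) (nat_lit 76) (nat_lit 10705089642205)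 (nat_lit 76) (nat_lit 9715950883699) (nat_lit 1) (nat_lit 4) (nat_lit 2) (nat_lit 5) (nat_lit 2) (nat_lit 4) (nat_lit 268) (nat_lit 233) (nat_lit 99)) (XT.lf (nat_lit 0) (nat_lit 1927918597752) (nat_lit 76) (nat_lit 11839817475034) (nat_lit 76) (nat_lit 10850678715579) (nat_lit 1) (nat_lit 4) (nat_lit 2) (nat_lit 5) (nat_lit 2) (nat_lit 4) (nat_lit 269) (nat_lit 233) (nat_lit 98)))) (XT.nd (nat_lit 156) (nat_lit 0) (nat_lit 0) (XT.nd (nat_lit 78) (nat_lit 0) (nat_lit 0) (XT.lf (nat_lit 0) (nat_lit 5463699079536) (nat_lit 76) (nat_lit 16371211237986) (nat_lit 76) (nat_lit 15382072476364) (nat_lit 1) (nat_lit 4) (nat_lit 2) (nat_lit 5) (nat_lit 2) (nat_lit 4) (nat_lit 272) (nat_lit 233) (nat_lit 95)) (XT.lf (nat_lit 0) (nat_lit 7012289470695) (nat_lit 76) (nat_lit 18355857312081) (nat_lit 76) (nat_lit 17366718549918) (nat_lit 1) (nat_lit 4) (nat_lit 2) (nat_lit 5) (nat_lit 2) (nat_lit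 4) (nat_lit 273) (nat_lit 233) (nat_lit 94))) (XT.nd (nat_lit 78) (nat_lit 0) (nat_lit 0) (XT.lf (nat_lit 0) (nat_lit 8793168419781) (nat_lit 76) (nat_lit 20638200297622) (nat_lit 76) (nat_lit 19649061534987) (nat_lit 1) (nat_lit 4) (nat_lit 2) (nat_lit 5) (nat_lit 2) (nat_lit 4) (nat_lit 274) (nat_lit 233) (nat_lit 93)) (XT.lf (nat_lit 0) (nat_lit 10841179210580) (nat_lit 76) (nat_lit 23262894731282) (nat_lit 76) (nat_lit 22273755968236) (nat_lit 1) (nat_lit 4) (nat_lit 2) (nat_lit 5) (nat_lit 2) (nat_lit 4) (nat_lit 275) (nat_lit 233) (nat_lit 92))))) (XT.nd (nat_lit 312) (nat_lit 228) (nat_lit 0) (XT.nd (nat_lit 156) (nat_lit 0) (nat_lit 0) (XT.nd (nat_lit 78) (nat_lit 0) (nat_lit 0) (XT.lf (nat_lit 0) (nat_lit 80078216439) (nat_lit 0) (nat_lit 80078216439) (nat_lit 228) (nat_lit 79082487867) (nat_lit 12) (nat_lit 5) (nat_lit 12) (nat_lit 3) (nat_lit 15) (nat_lit 3) (nat_lit 234)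 (nat_lit 234) (nat_lit 132)) (XT.lf (nat_lit 0) (nat_lit 345378639870) (nat_lit 228) (nat_lit 145902791939) (nat_lit 304) (nat_lit 22925896445) (nat_lit 12) (nat_lit 5) (nat_lit 15) (nat_lit 3) (nat_lit 16) (nat_lit 5) (nat_lit 235) (nat_lit 234) (nat_lit 131))) (XT.nd (nat_lit 78) (nat_lit 0) (nat_lit 0) (XT.lf (nat_lit 76) (nat_lit 49125592909) (nat_lit 0) (nat_lit 334739331154) (nat_lit 304) (nat_lit 169982218256) (nat_lit 13) (nat_lit 5) (nat_lit 12) (nat_lit 5) (nat_lit 16) (nat_lit 5) (nat_lit 236) (nat_lit 234) (nat_lit 130)) (XT.lf (nat_lit 76) (nat_lit 289805693453) (nat_lit 0) (nat_lit 145945159388) (nat_lit 304) (nat_lit 162538071130) (nat_lit 13) (nat_lit 5) (nat_lit 12) (nat_lit 5) (nat_lit 16) (nat_lit 5) (nat_lit 237) (nat_lit 234) (nat_lit 129)))) (XT.nd (nat_lit 156) (nat_lit 76) (nat_lit 0) (XT.nd (nat_lit 78) (nat_lit 228) (nat_lit 0) (XT.lf (nat_lit 0) (nat_lit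 498366561736) (nat_lit 228) (nat_lit 85756112997) (nat_lit 76) (nat_lit 64832265187) (nat_lit 13) (nat_lit 5) (nat_lit 16) (nat_lit 5) (nat_lit 14) (nat_lit 5) (nat_lit 238) (nat_lit 234) (nat_lit 128)) (XT.lf (nat_lit 0) (nat_lit 179401873335) (nat_lit 228) (nat_lit 405351146007) (nat_lit 304) (nat_lit 120311080646) (nat_lit 10) (nat_lit 5) (nat_lit 13) (nat_lit 5) (nat_lit 14) (nat_lit 5) (nat_lit 239) (nat_lit 234) (nat_lit 127))) (XT.nd (nat_lit 78) (nat_lit 76) (nat_lit 0) (XT.lf (nat_lit 0) (nat_lit 493971351770) (nat_lit 228) (nat_lit 194608776042) (nat_lit 304) (nat_lit 80337104427) (nat_lit 10) (nat_lit 5) (nat_lit 13) (nat_lit 5) (nat_lit 14) (nat_lit 5) (nat_lit 240) (nat_lit 234) (nat_lit 126)) (XT.lf (nat_lit 0) (nat_lit 12515053715) (nat_lit 76) (nat_lit 797961466472) (nat_lit 152) (nat_lit 31497531937) (nat_lit 9) (nat_lit 5) (nat_lit 10) (nat_lit 5) (nat_lit 11) (nat_lit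 4) (nat_lit 241) (nat_lit 234) (nat_lit 125)))))) (XT.nd (nat_lit 624) (nat_lit 228) (nat_lit 0) (XT.nd (nat_lit 312) (nat_lit 76) (nat_lit 0) (XT.nd (nat_lit 156) (nat_lit 152) (nat_lit 0) (XT.nd (nat_lit 78) (nat_lit 0) (nat_lit 0) (XT.lf (nat_lit 0) (nat_lit 46795487177) (nat_lit 152) (nat_lit 560811220792) (nat_lit 76) (nat_lit 314580926420) (nat_lit 8) (nat_lit 5) (nat_lit 10) (nat_lit 5) (nat_lit 9) (nat_lit 5) (nat_lit 242) (nat_lit 234) (nat_lit 124)) (XT.lf (nat_lit 0) (nat_lit 133607694363) (nat_lit 152) (nat_lit 253366180934) (nat_lit 76) (nat_lit 627234399238) (nat_lit 8) (nat_lit 5) (nat_lit 10) (nat_lit 5) (nat_lit 9) (nat_lit 5) (nat_lit 243) (nat_lit 234) (nat_lit 123))) (XT.nd (nat_lit 78) (nat_lit 0) (nat_lit 0) (XT.lf (nat_lit 0) (nat_lit 109987438154) (nat_lit 152) (nat_lit 128008624538) (nat_lit 228) (nat_lit 881352798753) (nat_lit 6) (nat_lit 5) (nat_lit 8) (nat_lit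 5) (nat_lit 9) (nat_lit 5) (nat_lit 244) (nat_lit 234) (nat_lit 122)) (XT.lf (nat_lit 0) (nat_lit 378948601241) (nat_lit 228) (nat_lit 689616719530) (nat_lit 76) (nat_lit 168559328594) (nat_lit 6) (nat_lit 5) (nat_lit 9) (nat_lit 5) (nat_lit 7) (nat_lit 4) (nat_lit 245) (nat_lit 234) (nat_lit 121)))) (XT.nd (nat_lit 156) (nat_lit 0) (nat_lit 0) (XT.nd (nat_lit 78) (nat_lit 76) (nat_lit 0) (XT.lf (nat_lit 0) (nat_lit 547139657059) (nat_lit 228) (nat_lit 328005976678) (nat_lit 76) (nat_lit 496506826453) (nat_lit 6) (nat_lit 5) (nat_lit 9) (nat_lit 5) (nat_lit 7) (nat_lit 4) (nat_lit 246) (nat_lit 234) (nat_lit 120)) (XT.lf (nat_lit 0) (nat_lit 96431347618) (nat_lit 76) (nat_lit 648121029400) (nat_lit 152) (nat_lit 781208114921) (nat_lit 5) (nat_lit 5) (nat_lit 6) (nat_lit 5) (nat_lit 7) (nat_lit 4) (nat_lit 247) (nat_lit 234) (nat_lit 119))) (XT.nd (nat_lit 78) (nat_lit 0) (nat_lit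 0) (XT.lf (nat_lit 0) (nat_lit 621397654849) (nat_lit 76) (nat_lit 367325107176) (nat_lit 152) (nat_lit 711690103011) (nat_lit 5) (nat_lit 5) (nat_lit 6) (nat_lit 5) (nat_lit 7) (nat_lit 4) (nat_lit 248) (nat_lit 234) (nat_lit 118)) (XT.lf (nat_lit 0) (nat_lit 1225108895398) (nat_lit 76) (nat_lit 44409800769) (nat_lit 152) (nat_lit 631744399349) (nat_lit 5) (nat_lit 5) (nat_lit 6) (nat_lit 5) (nat_lit 7) (nat_lit 4) (nat_lit 249) (nat_lit 234) (nat_lit 117))))) (XT.nd (nat_lit 312) (nat_lit 152) (nat_lit 0) (XT.nd (nat_lit 156) (nat_lit 0) (nat_lit 0) (XT.nd (nat_lit 78) (nat_lit 76) (nat_lit 0) (XT.lf (nat_lit 0) (nat_lit 1605972016996) (nat_lit 152) (nat_lit 226402054930) (nat_lit 0) (nat_lit 297836089265) (nat_lit 5) (nat_lit 5) (nat_lit 7) (nat_lit 4) (nat_lit 5) (nat_lit 4) (nat_lit 250) (nat_lit 234) (nat_lit 116)) (XT.lf (nat_lit 0) (nat_lit 316911831769) (nat_lit 76) (nat_lit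 1691218893089) (nat_lit 76) (nat_lit 383082953618) (nat_lit 4) (nat_lit 4) (nat_lit 5) (nat_lit 5) (nat_lit 5) (nat_lit 4) (nat_lit 251) (nat_lit 234) (nat_lit 115))) (XT.nd (nat_lit 78) (nat_lit 0) (nat_lit 0) (XT.lf (nat_lit 0) (nat_lit 967167295033) (nat_lit 76) (nat_lit 1515280590541) (nat_lit 76) (nat_lit 207144640861) (nat_lit 4) (nat_lit 4) (nat_lit 5) (nat_lit 5) (nat_lit 5) (nat_lit 4) (nat_lit 252) (nat_lit 234) (nat_lit 114)) (XT.lf (nat_lit 0) (nat_lit 1714961068993) (nat_lit 76) (nat_lit 1312951546017) (nat_lit 76) (nat_lit 4815587458) (nat_lit 4) (nat_lit 4) (nat_lit 5) (nat_lit 5) (nat_lit 5) (nat_lit 4) (nat_lit 253) (nat_lit 234) (nat_lit 113)))) (XT.nd (nat_lit 156) (nat_lit 76) (nat_lit 0) (XT.nd (nat_lit 78) (nat_lit 0) (nat_lit 0) (XT.lf (nat_lit 0) (nat_lit 207576894702) (nat_lit 152) (nat_lit 861845642667) (nat_lit 76) (nat_lit 2356496396292) (nat_lit 3) (nat_lit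 5) (nat_lit 5) (nat_lit 5) (nat_lit 4) (nat_lit 4) (nat_lit 254) (nat_lit 234) (nat_lit 112)) (XT.lf (nat_lit 0) (nat_lit 451335220439) (nat_lit 152) (nat_lit 337765249045) (nat_lit 76) (nat_lit 3088953408691) (nat_lit 3) (nat_lit 5) (nat_lit 5) (nat_lit 5) (nat_lit 4) (nat_lit 4) (nat_lit 255) (nat_lit 234) (nat_lit 111))) (XT.nd (nat_lit 78) (nat_lit 0) (nat_lit 0) (XT.lf (nat_lit 0) (nat_lit 290817809904) (nat_lit 76) (nat_lit 452881626715) (nat_lit 152) (nat_lit 3652503306551) (nat_lit 2) (nat_lit 5) (nat_lit 3) (nat_lit 5) (nat_lit 4) (nat_lit 4) (nat_lit 256) (nat_lit 234) (nat_lit 110)) (XT.lf (nat_lit 0) (nat_lit 1051648529892) (nat_lit 76) (nat_lit 45925662571) (nat_lit 152) (nat_lit 3891851359401) (nat_lit 2) (nat_lit 5) (nat_lit 3) (nat_lit 5) (nat_lit 4) (nat_lit 4) (nat_lit 257) (nat_lit 234) (nat_lit 109))))))) (XT.nd (nat_lit 29562) (nat_lit 0) (nat_lit 304) (XT.nd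 (nat_lit 624) (nat_lit 76) (nat_lit 0) (XT.nd (nat_lit 312) (nat_lit 0) (nat_lit 0) (XT.nd (nat_lit 156) (nat_lit 0) (nat_lit 0) (XT.nd (nat_lit 78) (nat_lit 0) (nat_lit 0) (XT.lf (nat_lit 0) (nat_lit 1522007330230) (nat_lit 152) (nat_lit 3762505101211) (nat_lit 0) (nat_lit 384497775170) (nat_lit 2) (nat_lit 5) (nat_lit 4) (nat_lit 4) (nat_lit 2) (nat_lit 4) (nat_lit 258) (nat_lit 234) (nat_lit 108)) (XT.lf (nat_lit 0) (nat_lit 2012292372246) (nat_lit 152) (nat_lit 3563129333465) (nat_lit 0) (nat_lit 874782813849) (nat_lit 2) (nat_lit 5) (nat_lit 4) (nat_lit 4) (nat_lit 2) (nat_lit 4) (nat_lit 259) (nat_lit 234) (nat_lit 107))) (XT.nd (nat_lit 78) (nat_lit 0) (nat_lit 0) (XT.lf (nat_lit 0) (nat_lit 2576120168191) (nat_lit 152) (nat_lit 3333847204747) (nat_lit 0) (nat_lit 1438610606892) (nat_lit 2) (nat_lit 5) (nat_lit 4) (nat_lit 4) (nat_lit 2) (nat_lit 4) (nat_lit 260) (nat_lit 234)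 (nat_lit 106)) (XT.lf (nat_lit 0) (nat_lit 3224522131464) (nat_lit 152) (nat_lit 3070172760365) (nat_lit 0) (nat_lit 2087012567641) (nat_lit 2) (nat_lit 5) (nat_lit 4) (nat_lit 4) (nat_lit 2) (nat_lit 4) (nat_lit 261) (nat_lit 234) (nat_lit 105)))) (XT.nd (nat_lit 156) (nat_lit 0) (nat_lit 0) (XT.nd (nat_lit 78) (nat_lit 0) (nat_lit 0) (XT.lf (nat_lit 0) (nat_lit 3970184387434) (nat_lit 152) (nat_lit 2766947152492) (nat_lit 0) (nat_lit 2832674821417) (nat_lit 2) (nat_lit 5) (nat_lit 4) (nat_lit 4) (nat_lit 2) (nat_lit 4) (nat_lit 262) (nat_lit 234) (nat_lit 104)) (XT.lf (nat_lit 0) (nat_lit 4827695980239) (nat_lit 152) (nat_lit 2418237706194) (nat_lit 0) (nat_lit 3690186412314) (nat_lit 2) (nat_lit 5) (nat_lit 4) (nat_lit 4) (nat_lit 2) (nat_lit 4) (nat_lit 263) (nat_lit 234) (nat_lit 103))) (XT.nd (nat_lit 78) (nat_lit 0) (nat_lit 0) (XT.lf (nat_lit 0) (nat_lit 5813834310608) (nat_lit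 152) (nat_lit 2017221845346) (nat_lit 0) (nat_lit 4676324741023) (nat_lit 2) (nat_lit 5) (nat_lit 4) (nat_lit 4) (nat_lit 2) (nat_lit 4) (nat_lit 264) (nat_lit 234) (nat_lit 102)) (XT.lf (nat_lit 0) (nat_lit 6947893389353) (nat_lit 152) (nat_lit 1556053607454) (nat_lit 0) (nat_lit 5810383818325) (nat_lit 2) (nat_lit 5) (nat_lit 4) (nat_lit 4) (nat_lit 2) (nat_lit 4) (nat_lit 265) (nat_lit 234) (nat_lit 101))))) (XT.nd (nat_lit 468) (nat_lit 0) (nat_lit 0) (XT.nd (nat_lit 156) (nat_lit 76) (nat_lit 0) (XT.nd (nat_lit 78) (nat_lit 0) (nat_lit 0) (XT.lf (nat_lit 0) (nat_lit 8252061328883) (nat_lit 152) (nat_lit 1025710135690) (nat_lit 0) (nat_lit 7114551756601) (nat_lit 2) (nat_lit 5) (nat_lit 4) (nat_lit 4) (nat_lit 2) (nat_lit 4) (nat_lit 266) (nat_lit 234) (nat_lit 100)) (XT.lf (nat_lit 0) (nat_lit 9751854458451) (nat_lit 152) (nat_lit 415815144735) (nat_lit 0) (nat_lit 8614344885077)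 (nat_lit 2) (nat_lit 5) (nat_lit 4) (nat_lit 4) (nat_lit 2) (nat_lit 4) (nat_lit 267) (nat_lit 234) (nat_lit 99))) (XT.nd (nat_lit 78) (nat_lit 0) (nat_lit 0) (XT.lf (nat_lit 0) (nat_lit 313471493537) (nat_lit 76) (nat_lit 11176125249208) (nat_lit 76) (nat_lit 10038615674886) (nat_lit 1) (nat_lit 4) (nat_lit 2) (nat_lit 5) (nat_lit 2) (nat_lit 4) (nat_lit 268) (nat_lit 234) (nat_lit 98)) (XT.lf (nat_lit 0) (nat_lit 1198883078307) (nat_lit 76) (nat_lit 12310853082306) (nat_lit 76) (nat_lit 11173343507159) (nat_lit 1) (nat_lit 4) (nat_lit 2) (nat_lit 5) (nat_lit 2) (nat_lit 4) (nat_lit 269) (nat_lit 234) (nat_lit 97)))) (XT.nd (nat_lit 156) (nat_lit 0) (nat_lit 0) (XT.nd (nat_lit 78) (nat_lit 0) (nat_lit 0) (XT.lf (nat_lit 0) (nat_lit 4734663558702) (nat_lit 76) (nat_lit 16842246845872) (nat_lit 76) (nat_lit 15704737268841) (nat_lit 1) (nat_lit 4) (nat_lit 2) (nat_lit 5) (nat_lit 2)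 (nat_lit 4) (nat_lit 272) (nat_lit 234) (nat_lit 94)) (XT.lf (nat_lit 0) (nat_lit 6283253949514) (nat_lit 76) (nat_lit 18826892920122) (nat_lit 76) (nat_lit 17689383342619) (nat_lit 1) (nat_lit 4) (nat_lit 2) (nat_lit 5) (nat_lit 2) (nat_lit 4) (nat_lit 273) (nat_lit 234) (nat_lit 93))) (XT.nd (nat_lit 28236) (nat_lit 0) (nat_lit 836) (XT.lf (nat_lit 0) (nat_lit 8064132898298) (nat_lit 76) (nat_lit 21109235905796) (nat_lit 76) (nat_lit 19971726327884) (nat_lit 1) (nat_lit 4) (nat_lit 2) (nat_lit 5) (nat_lit 2) (nat_lit 4) (nat_lit 274) (nat_lit 234) (nat_lit 92)) (XT.lf (nat_lit 0) (nat_lit 92090055777) (nat_lit 0) (nat_lit 92090055777) (nat_lit 228) (nat_lit 90944610473) (nat_lit 12) (nat_lit 5) (nat_lit 12) (nat_lit 3) (nat_lit 15) (nat_lit 3) (nat_lit 235) (nat_lit 235) (nat_lit 130)))))) (XT.nd (nat_lit 624) (nat_lit 228) (nat_lit 0) (XT.nd (nat_lit 312) (nat_lit 304) (nat_lit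 0) (XT.nd (nat_lit 156) (nat_lit 0) (nat_lit 0) (XT.nd (nat_lit 78) (nat_lit 0) (nat_lit 0) (XT.lf (nat_lit 0) (nat_lit 397185799883) (nat_lit 228) (nat_lit 167787953116) (nat_lit 304) (nat_lit 26364611594) (nat_lit 12) (nat_lit 5) (nat_lit 15) (nat_lit 3) (nat_lit 16) (nat_lit 5) (nat_lit 236) (nat_lit 235) (nat_lit 129)) (XT.lf (nat_lit 76) (nat_lit 56494677750) (nat_lit 0) (nat_lit 384950311655) (nat_lit 304) (nat_lit 195479168040) (nat_lit 13) (nat_lit 5) (nat_lit 12) (nat_lit 5) (nat_lit 16) (nat_lit 5) (nat_lit 237) (nat_lit 235) (nat_lit 128))) (XT.nd (nat_lit 78) (nat_lit 0) (nat_lit 76) (XT.lf (nat_lit 76) (nat_lit 333276761301) (nat_lit 0) (nat_lit 167837003582) (nat_lit 304) (nat_lit 186918448796) (nat_lit 13) (nat_lit 5) (nat_lit 12) (nat_lit 5) (nat_lit 16) (nat_lit 5) (nat_lit 238) (nat_lit 235) (nat_lit 127)) (XT.lf (nat_lit 0) (nat_lit 573121790522) (nat_lit 228) (nat_lit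 98619298966) (nat_lit 76) (nat_lit 74557049288) (nat_lit 13) (nat_lit 5) (nat_lit 16) (nat_lit 5) (nat_lit 14) (nat_lit 5) (nat_lit 239) (nat_lit 235) (nat_lit 126)))) (XT.nd (nat_lit 156) (nat_lit 152) (nat_lit 0) (XT.nd (nat_lit 78) (nat_lit 0) (nat_lit 0) (XT.lf (nat_lit 0) (nat_lit 206312374818) (nat_lit 228) (nat_lit 466153819187) (nat_lit 304) (nat_lit 138357482976) (nat_lit 10) (nat_lit 5) (nat_lit 13) (nat_lit 5) (nat_lit 14) (nat_lit 5) (nat_lit 240) (nat_lit 235) (nat_lit 125)) (XT.lf (nat_lit 0) (nat_lit 568067246259) (nat_lit 228) (nat_lit 223800093560) (nat_lit 304) (nat_lit 92387444207) (nat_lit 10) (nat_lit 5) (nat_lit 13) (nat_lit 5) (nat_lit 14) (nat_lit 5) (nat_lit 241) (nat_lit 235) (nat_lit 124))) (XT.nd (nat_lit 78) (nat_lit 76) (nat_lit 0) (XT.lf (nat_lit 0) (nat_lit 14392526372) (nat_lit 76) (nat_lit 917655648373) (nat_lit 152) (nat_lit 36221955133) (nat_lit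 9) (nat_lit 5) (nat_lit 10) (nat_lit 5) (nat_lit 11) (nat_lit 4) (nat_lit 242) (nat_lit 235) (nat_lit 123)) (XT.lf (nat_lit 0) (nat_lit 53814973907) (nat_lit 152) (nat_lit 644932698598) (nat_lit 76) (nat_lit 361768079783) (nat_lit 8) (nat_lit 5) (nat_lit 10) (nat_lit 5) (nat_lit 9) (nat_lit 5) (nat_lit 243) (nat_lit 235) (nat_lit 122))))) (XT.nd (nat_lit 312) (nat_lit 76) (nat_lit 0) (XT.nd (nat_lit 156) (nat_lit 0) (nat_lit 0) (XT.nd (nat_lit 78) (nat_lit 152) (nat_lit 0) (XT.lf (nat_lit 0) (nat_lit 153648990825) (nat_lit 152) (nat_lit 291370929541) (nat_lit 76) (nat_lit 721319571646) (nat_lit 8) (nat_lit 5) (nat_lit 10) (nat_lit 5) (nat_lit 9) (nat_lit 5) (nat_lit 244) (nat_lit 235) (nat_lit 121)) (XT.lf (nat_lit 0) (nat_lit 126485724295) (nat_lit 152) (nat_lit 147209878603) (nat_lit 228) (nat_lit 1013555566093) (nat_lit 6) (nat_lit 5) (nat_lit 8) (nat_lit 5) (nat_lit 9) (nat_lit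 5) (nat_lit 245) (nat_lit 235) (nat_lit 120))) (XT.nd (nat_lit 78) (nat_lit 0) (nat_lit 0) (XT.lf (nat_lit 0) (nat_lit 435791006595) (nat_lit 228) (nat_lit 793059061852) (nat_lit 76) (nat_lit 193843259265) (nat_lit 6) (nat_lit 5) (nat_lit 9) (nat_lit 5) (nat_lit 7) (nat_lit 4) (nat_lit 246) (nat_lit 235) (nat_lit 119)) (XT.lf (nat_lit 0) (nat_lit 629210705763) (nat_lit 228) (nat_lit 377206729174) (nat_lit 76) (nat_lit 570982877709) (nat_lit 6) (nat_lit 5) (nat_lit 9) (nat_lit 5) (nat_lit 7) (nat_lit 4) (nat_lit 247) (nat_lit 235) (nat_lit 118)))) (XT.nd (nat_lit 156) (nat_lit 0) (nat_lit 0) (XT.nd (nat_lit 78) (nat_lit 0) (nat_lit 0) (XT.lf (nat_lit 0) (nat_lit 110896187221) (nat_lit 76) (nat_lit 745339139125) (nat_lit 152) (nat_lit 898389224120) (nat_lit 5) (nat_lit 5) (nat_lit 6) (nat_lit 5) (nat_lit 7) (nat_lit 4) (nat_lit 248) (nat_lit 235) (nat_lit 117)) (XT.lf (nat_lit 0) (nat_lit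 714607422607) (nat_lit 76) (nat_lit 422423834396) (nat_lit 152) (nat_lit 818443524516) (nat_lit 5) (nat_lit 5) (nat_lit 6) (nat_lit 5) (nat_lit 7) (nat_lit 4) (nat_lit 249) (nat_lit 235) (nat_lit 116))) (XT.nd (nat_lit 78) (nat_lit 0) (nat_lit 0) (XT.lf (nat_lit 0) (nat_lit 1408875333647) (nat_lit 76) (nat_lit 51071237096) (nat_lit 152) (nat_lit 726505977558) (nat_lit 5) (nat_lit 5) (nat_lit 6) (nat_lit 5) (nat_lit 7) (nat_lit 4) (nat_lit 250) (nat_lit 235) (nat_lit 115)) (XT.lf (nat_lit 0) (nat_lit 1846867881763) (nat_lit 152) (nat_lit 260362263967) (nat_lit 0) (nat_lit 342511529421) (nat_lit 5) (nat_lit 5) (nat_lit 7) (nat_lit 4) (nat_lit 5) (nat_lit 4) (nat_lit 251) (nat_lit 235) (nat_lit 114))))))))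
noncomputable def xc62 : XT := (XT.nd (nat_lit 31122) (nat_lit 0) (nat_lit 76) (XT.nd (nat_lit 1248) (nat_lit 76) (nat_lit 0) (XT.nd (nat_lit 624) (nat_lit 0) (nat_lit 0) (XT.nd (nat_lit 312) (nat_lit 76) (nat_lit 0) (XT.nd (nat_lit 156) (nat_lit 76) (nat_lit 0) (XT.nd (nat_lit 78) (nat_lit 0) (nat_lit 0) (XT.lf (nat_lit 0) (nat_lit 364448701227) (nat_lit 76) (nat_lit 1944901690383) (nat_lit 76) (nat_lit 440545329163) (nat_lit 4) (nat_lit 4) (nat_lit 5) (nat_lit 5) (nat_lit 5) (nat_lit 4) (nat_lit 252) (nat_lit 235) (nat_lit 113)) (XT.lf (nat_lit 0) (nat_lit 1112242471630) (nat_lit 76) (nat_lit 1742572647236) (nat_lit 76) (nat_lit 238216278296) (nat_lit 4) (nat_lit 4) (nat_lit 5) (nat_lit 5) (nat_lit 5) (nat_lit 4) (nat_lit 253) (nat_lit 235) (nat_lit 112))) (XT.nd (nat_lit 78) (nat_lit 76) (nat_lit 0) (XT.lf (nat_lit 0) (nat_lit 1972205300944) (nat_lit 76) (nat_lit 1509894250192)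 (nat_lit 76) (nat_lit 5537874539) (nat_lit 4) (nat_lit 4) (nat_lit 5) (nat_lit 5) (nat_lit 5) (nat_lit 4) (nat_lit 254) (nat_lit 235) (nat_lit 111)) (XT.lf (nat_lit 0) (nat_lit 238713469337) (nat_lit 152) (nat_lit 991122422414) (nat_lit 76) (nat_lit 2709970875455) (nat_lit 3) (nat_lit 5) (nat_lit 5) (nat_lit 5) (nat_lit 4) (nat_lit 4) (nat_lit 255) (nat_lit 235) (nat_lit 110)))) (XT.nd (nat_lit 156) (nat_lit 0) (nat_lit 0) (XT.nd (nat_lit 78) (nat_lit 76) (nat_lit 0) (XT.lf (nat_lit 0) (nat_lit 519035538662) (nat_lit 152) (nat_lit 388429978442) (nat_lit 76) (nat_lit 3552296437142) (nat_lit 3) (nat_lit 5) (nat_lit 5) (nat_lit 5) (nat_lit 4) (nat_lit 4) (nat_lit 256) (nat_lit 235) (nat_lit 109)) (XT.lf (nat_lit 0) (nat_lit 334440536716) (nat_lit 76) (nat_lit 520813848258) (nat_lit 152) (nat_lit 4200378764410) (nat_lit 2) (nat_lit 5) (nat_lit 3) (nat_lit 5) (nat_lit 4) (nat_lit 4) (nat_lit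 257) (nat_lit 235) (nat_lit 108))) (XT.nd (nat_lit 78) (nat_lit 0) (nat_lit 0) (XT.lf (nat_lit 0) (nat_lit 1209395857485) (nat_lit 76) (nat_lit 52814492423) (nat_lit 152) (nat_lit 4475629030160) (nat_lit 2) (nat_lit 5) (nat_lit 3) (nat_lit 5) (nat_lit 4) (nat_lit 4) (nat_lit 258) (nat_lit 235) (nat_lit 107)) (XT.lf (nat_lit 0) (nat_lit 1750308455316) (nat_lit 152) (nat_lit 4326880821282) (nat_lit 0) (nat_lit 442172456920) (nat_lit 2) (nat_lit 5) (nat_lit 4) (nat_lit 4) (nat_lit 2) (nat_lit 4) (nat_lit 259) (nat_lit 235) (nat_lit 106))))) (XT.nd (nat_lit 312) (nat_lit 0) (nat_lit 0) (XT.nd (nat_lit 156) (nat_lit 0) (nat_lit 0) (XT.nd (nat_lit 78) (nat_lit 0) (nat_lit 0) (XT.lf (nat_lit 0) (nat_lit 2314136250301) (nat_lit 152) (nat_lit 4097598694259) (nat_lit 0) (nat_lit 1006000249381) (nat_lit 2) (nat_lit 5) (nat_lit 4) (nat_lit 4) (nat_lit 2) (nat_lit 4) (nat_lit 260) (nat_lit 235)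 (nat_lit 105)) (XT.lf (nat_lit 0) (nat_lit 2962538212740) (nat_lit 152) (nat_lit 3833924251350) (nat_lit 0) (nat_lit 1654402209626) (nat_lit 2) (nat_lit 5) (nat_lit 4) (nat_lit 4) (nat_lit 2) (nat_lit 4) (nat_lit 261) (nat_lit 235) (nat_lit 104))) (XT.nd (nat_lit 78) (nat_lit 0) (nat_lit 0) (XT.lf (nat_lit 0) (nat_lit 3708200467984) (nat_lit 152) (nat_lit 3530698644759) (nat_lit 0) (nat_lit 2400064462962) (nat_lit 2) (nat_lit 5) (nat_lit 4) (nat_lit 4) (nat_lit 2) (nat_lit 4) (nat_lit 262) (nat_lit 235) (nat_lit 103)) (XT.lf (nat_lit 0) (nat_lit 4565712060158) (nat_lit 152) (nat_lit 3181989199575) (nat_lit 0) (nat_lit 3257576053476) (nat_lit 2) (nat_lit 5) (nat_lit 4) (nat_lit 4) (nat_lit 2) (nat_lit 4) (nat_lit 263) (nat_lit 235) (nat_lit 102)))) (XT.nd (nat_lit 156) (nat_lit 0) (nat_lit 0) (XT.nd (nat_lit 78) (nat_lit 0) (nat_lit 0) (XT.lf (nat_lit 0) (nat_lit 5551850389979) (nat_lit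 152) (nat_lit 2780973339696) (nat_lit 0) (nat_lit 4243714381854) (nat_lit 2) (nat_lit 5) (nat_lit 4) (nat_lit 4) (nat_lit 2) (nat_lit 4) (nat_lit 264) (nat_lit 235) (nat_lit 101)) (XT.lf (nat_lit 0) (nat_lit 6685909468246) (nat_lit 152) (nat_lit 2319805102646) (nat_lit 0) (nat_lit 5377773458867) (nat_lit 2) (nat_lit 5) (nat_lit 4) (nat_lit 4) (nat_lit 2) (nat_lit 4) (nat_lit 265) (nat_lit 235) (nat_lit 100))) (XT.nd (nat_lit 78) (nat_lit 0) (nat_lit 0) (XT.lf (nat_lit 0) (nat_lit 7990077407361) (nat_lit 152) (nat_lit 1789461631614) (nat_lit 0) (nat_lit 6681941396891) (nat_lit 2) (nat_lit 5) (nat_lit 4) (nat_lit 4) (nat_lit 2) (nat_lit 4) (nat_lit 266) (nat_lit 235) (nat_lit 99)) (XT.lf (nat_lit 0) (nat_lit 9489870536569) (nat_lit 152) (nat_lit 1179566641297) (nat_lit 0) (nat_lit 8181734525149) (nat_lit 2) (nat_lit 5) (nat_lit 4) (nat_lit 4) (nat_lit 2) (nat_lit 4) (nat_lit 267) (nat_lit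 235) (nat_lit 98)))))) (XT.nd (nat_lit 29250) (nat_lit 0) (nat_lit 304) (XT.nd (nat_lit 28938) (nat_lit 0) (nat_lit 684) (XT.nd (nat_lit 28782) (nat_lit 0) (nat_lit 836) (XT.nd (nat_lit 78) (nat_lit 76) (nat_lit 0) (XT.lf (nat_lit 0) (nat_lit 11214632634482) (nat_lit 152) (nat_lit 478187403623) (nat_lit 0) (nat_lit 9906496622238) (nat_lit 2) (nat_lit 5) (nat_lit 4) (nat_lit 4) (nat_lit 2) (nat_lit 4) (nat_lit 268) (nat_lit 235) (nat_lit 97)) (XT.lf (nat_lit 0) (nat_lit 360492229808) (nat_lit 76) (nat_lit 12852544031172) (nat_lit 76) (nat_lit 11544408018211) (nat_lit 1) (nat_lit 4) (nat_lit 2) (nat_lit 5) (nat_lit 2) (nat_lit 4) (nat_lit 269) (nat_lit 235) (nat_lit 96))) (XT.nd (nat_lit 78) (nat_lit 0) (nat_lit 0) (XT.lf (nat_lit 0) (nat_lit 105903644955) (nat_lit 0) (nat_lit 105903644955) (nat_lit 228) (nat_lit 104586112573) (nat_lit 12) (nat_lit 5) (nat_lit 12) (nat_lit 3) (nat_lit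 15) (nat_lit 3) (nat_lit 236) (nat_lit 236) (nat_lit 128)) (XT.lf (nat_lit 0) (nat_lit 456763945127) (nat_lit 228) (nat_lit 192955951290) (nat_lit 304) (nat_lit 30319175305) (nat_lit 12) (nat_lit 5) (nat_lit 15) (nat_lit 3) (nat_lit 16) (nat_lit 5) (nat_lit 237) (nat_lit 236) (nat_lit 127)))) (XT.nd (nat_lit 156) (nat_lit 152) (nat_lit 0) (XT.nd (nat_lit 78) (nat_lit 0) (nat_lit 0) (XT.lf (nat_lit 76) (nat_lit 64969065351) (nat_lit 0) (nat_lit 442692919521) (nat_lit 304) (nat_lit 224800753677) (nat_lit 13) (nat_lit 5) (nat_lit 12) (nat_lit 5) (nat_lit 16) (nat_lit 5) (nat_lit 238) (nat_lit 236) (nat_lit 126)) (XT.lf (nat_lit 76) (nat_lit 383268437182) (nat_lit 0) (nat_lit 193012607265) (nat_lit 304) (nat_lit 214955964316) (nat_lit 13) (nat_lit 5) (nat_lit 12) (nat_lit 5) (nat_lit 16) (nat_lit 5) (nat_lit 239) (nat_lit 236) (nat_lit 125))) (XT.nd (nat_lit 78) (nat_lit 228) (nat_lit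 0) (XT.lf (nat_lit 0) (nat_lit 659090243998) (nat_lit 228) (nat_lit 113412019155) (nat_lit 76) (nat_lit 85740564582) (nat_lit 13) (nat_lit 5) (nat_lit 16) (nat_lit 5) (nat_lit 14) (nat_lit 5) (nat_lit 240) (nat_lit 236) (nat_lit 124)) (XT.lf (nat_lit 0) (nat_lit 237259397757) (nat_lit 228) (nat_lit 536076893032) (nat_lit 304) (nat_lit 159110909001) (nat_lit 10) (nat_lit 5) (nat_lit 13) (nat_lit 5) (nat_lit 14) (nat_lit 5) (nat_lit 241) (nat_lit 236) (nat_lit 123))))) (XT.nd (nat_lit 312) (nat_lit 228) (nat_lit 0) (XT.nd (nat_lit 156) (nat_lit 76) (nat_lit 0) (XT.nd (nat_lit 78) (nat_lit 76) (nat_lit 0) (XT.lf (nat_lit 0) (nat_lit 653277478169) (nat_lit 228) (nat_lit 257370108435) (nat_lit 304) (nat_lit 106245390037) (nat_lit 10) (nat_lit 5) (nat_lit 13) (nat_lit 5) (nat_lit 14) (nat_lit 5) (nat_lit 242) (nat_lit 236) (nat_lit 122)) (XT.lf (nat_lit 0) (nat_lit 16551567596) (nat_lit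 76) (nat_lit 1055303966842) (nat_lit 152) (nat_lit 41655092188) (nat_lit 9) (nat_lit 5) (nat_lit 10) (nat_lit 5) (nat_lit 11) (nat_lit 4) (nat_lit 243) (nat_lit 236) (nat_lit 121))) (XT.nd (nat_lit 78) (nat_lit 0) (nat_lit 0) (XT.lf (nat_lit 0) (nat_lit 61887343739) (nat_lit 152) (nat_lit 741672448142) (nat_lit 76) (nat_lit 416033302639) (nat_lit 8) (nat_lit 5) (nat_lit 10) (nat_lit 5) (nat_lit 9) (nat_lit 5) (nat_lit 244) (nat_lit 236) (nat_lit 120)) (XT.lf (nat_lit 0) (nat_lit 176696447053) (nat_lit 152) (nat_lit 335076433976) (nat_lit 76) (nat_lit 829517516861) (nat_lit 8) (nat_lit 5) (nat_lit 10) (nat_lit 5) (nat_lit 9) (nat_lit 5) (nat_lit 245) (nat_lit 236) (nat_lit 119)))) (XT.nd (nat_lit 156) (nat_lit 76) (nat_lit 0) (XT.nd (nat_lit 78) (nat_lit 0) (nat_lit 0) (XT.lf (nat_lit 0) (nat_lit 145458711799) (nat_lit 152) (nat_lit 169291330439) (nat_lit 228) (nat_lit 1165588785716)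 (nat_lit 6) (nat_lit 5) (nat_lit 8) (nat_lit 5) (nat_lit 9) (nat_lit 5) (nat_lit 246) (nat_lit 236) (nat_lit 118)) (XT.lf (nat_lit 0) (nat_lit 501159744667) (nat_lit 228) (nat_lit 912017795908) (nat_lit 76) (nat_lit 222919771883) (nat_lit 6) (nat_lit 5) (nat_lit 9) (nat_lit 5) (nat_lit 7) (nat_lit 4) (nat_lit 247) (nat_lit 236) (nat_lit 117))) (XT.nd (nat_lit 78) (nat_lit 76) (nat_lit 0) (XT.lf (nat_lit 0) (nat_lit 723592387353) (nat_lit 228) (nat_lit 433787629661) (nat_lit 76) (nat_lit 656630329999) (nat_lit 6) (nat_lit 5) (nat_lit 9) (nat_lit 5) (nat_lit 7) (nat_lit 4) (nat_lit 248) (nat_lit 236) (nat_lit 116)) (XT.lf (nat_lit 0) (nat_lit 127530719244) (nat_lit 76) (nat_lit 857139976205) (nat_lit 152) (nat_lit 1033147526045) (nat_lit 5) (nat_lit 5) (nat_lit 6) (nat_lit 5) (nat_lit 7) (nat_lit 4) (nat_lit 249) (nat_lit 236) (nat_lit 115))))))) (XT.nd (nat_lit 1248) (nat_lit 0) (nat_lit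 0) (XT.nd (nat_lit 624) (nat_lit 76) (nat_lit 0) (XT.nd (nat_lit 312) (nat_lit 76) (nat_lit 0) (XT.nd (nat_lit 156) (nat_lit 76) (nat_lit 0) (XT.nd (nat_lit 78) (nat_lit 0) (nat_lit 0) (XT.lf (nat_lit 0) (nat_lit 821798626380) (nat_lit 76) (nat_lit 485787380174) (nat_lit 152) (nat_lit 941209982155) (nat_lit 5) (nat_lit 5) (nat_lit 6) (nat_lit 5) (nat_lit 7) (nat_lit 4) (nat_lit 250) (nat_lit 236) (nat_lit 114)) (XT.lf (nat_lit 0) (nat_lit 1620206712288) (nat_lit 76) (nat_lit 58731897112) (nat_lit 152) (nat_lit 835481812420) (nat_lit 5) (nat_lit 5) (nat_lit 6) (nat_lit 5) (nat_lit 7) (nat_lit 4) (nat_lit 251) (nat_lit 236) (nat_lit 113))) (XT.nd (nat_lit 78) (nat_lit 76) (nat_lit 0) (XT.lf (nat_lit 0) (nat_lit 2123898111074) (nat_lit 152) (nat_lit 299416528551) (nat_lit 0) (nat_lit 393888279073) (nat_lit 5) (nat_lit 5) (nat_lit 7) (nat_lit 4) (nat_lit 5) (nat_lit 4) (nat_lit 252) (nat_lit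 236) (nat_lit 112)) (XT.lf (nat_lit 0) (nat_lit 419116078013) (nat_lit 76) (nat_lit 2236636916214) (nat_lit 76) (nat_lit 506627077500) (nat_lit 4) (nat_lit 4) (nat_lit 5) (nat_lit 5) (nat_lit 5) (nat_lit 4) (nat_lit 253) (nat_lit 236) (nat_lit 111)))) (XT.nd (nat_lit 156) (nat_lit 76) (nat_lit 0) (XT.nd (nat_lit 78) (nat_lit 0) (nat_lit 0) (XT.lf (nat_lit 0) (nat_lit 1279078904637) (nat_lit 76) (nat_lit 2003958520211) (nat_lit 76) (nat_lit 273948675660) (nat_lit 4) (nat_lit 4) (nat_lit 5) (nat_lit 5) (nat_lit 5) (nat_lit 4) (nat_lit 254) (nat_lit 236) (nat_lit 110)) (XT.lf (nat_lit 0) (nat_lit 2268036150227) (nat_lit 76) (nat_lit 1736378366755) (nat_lit 76) (nat_lit 6368517128) (nat_lit 4) (nat_lit 4) (nat_lit 5) (nat_lit 5) (nat_lit 5) (nat_lit 4) (nat_lit 255) (nat_lit 236) (nat_lit 109))) (XT.nd (nat_lit 78) (nat_lit 0) (nat_lit 0) (XT.lf (nat_lit 0) (nat_lit 274520520309) (nat_lit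 152) (nat_lit 1139790735376) (nat_lit 76) (nat_lit 3116466521684) (nat_lit 3) (nat_lit 5) (nat_lit 5) (nat_lit 5) (nat_lit 4) (nat_lit 4) (nat_lit 256) (nat_lit 236) (nat_lit 108)) (XT.lf (nat_lit 0) (nat_lit 596890896044) (nat_lit 152) (nat_lit 446694431383) (nat_lit 76) (nat_lit 4085140915679) (nat_lit 3) (nat_lit 5) (nat_lit 5) (nat_lit 5) (nat_lit 4) (nat_lit 4) (nat_lit 257) (nat_lit 236) (nat_lit 107))))) (XT.nd (nat_lit 312) (nat_lit 0) (nat_lit 0) (XT.nd (nat_lit 156) (nat_lit 0) (nat_lit 0) (XT.nd (nat_lit 78) (nat_lit 0) (nat_lit 0) (XT.lf (nat_lit 0) (nat_lit 384606659057) (nat_lit 76) (nat_lit 598935908511) (nat_lit 152) (nat_lit 4830435550244) (nat_lit 2) (nat_lit 5) (nat_lit 3) (nat_lit 5) (nat_lit 4) (nat_lit 4) (nat_lit 258) (nat_lit 236) (nat_lit 106)) (XT.lf (nat_lit 0) (nat_lit 1390805272485) (nat_lit 76) (nat_lit 60736651516) (nat_lit 152) (nat_lit 5146973359617)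 (nat_lit 2) (nat_lit 5) (nat_lit 3) (nat_lit 5) (nat_lit 4) (nat_lit 4) (nat_lit 259) (nat_lit 236) (nat_lit 105))) (XT.nd (nat_lit 78) (nat_lit 0) (nat_lit 0) (XT.lf (nat_lit 0) (nat_lit 2012854742934) (nat_lit 152) (nat_lit 4975912910365) (nat_lit 0) (nat_lit 508498337158) (nat_lit 2) (nat_lit 5) (nat_lit 4) (nat_lit 4) (nat_lit 2) (nat_lit 4) (nat_lit 260) (nat_lit 236) (nat_lit 104)) (XT.lf (nat_lit 0) (nat_lit 2661256704647) (nat_lit 152) (nat_lit 4712238468737) (nat_lit 0) (nat_lit 1156900296963) (nat_lit 2) (nat_lit 5) (nat_lit 4) (nat_lit 4) (nat_lit 2) (nat_lit 4) (nat_lit 261) (nat_lit 236) (nat_lit 103)))) (XT.nd (nat_lit 156) (nat_lit 0) (nat_lit 0) (XT.nd (nat_lit 78) (nat_lit 0) (nat_lit 0) (XT.lf (nat_lit 0) (nat_lit 3406918959260) (nat_lit 152) (nat_lit 4409012863261) (nat_lit 0) (nat_lit 1902562549917) (nat_lit 2) (nat_lit 5) (nat_lit 4) (nat_lit 4) (nat_lit 2) (nat_lit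 4) (nat_lit 262) (nat_lit 236) (nat_lit 102)) (XT.lf (nat_lit 0) (nat_lit 4264430550886) (nat_lit 152) (nat_lit 4060303419045) (nat_lit 0) (nat_lit 2760074140099) (nat_lit 2) (nat_lit 5) (nat_lit 4) (nat_lit 4) (nat_lit 2) (nat_lit 4) (nat_lit 263) (nat_lit 236) (nat_lit 101))) (XT.nd (nat_lit 78) (nat_lit 0) (nat_lit 0) (XT.lf (nat_lit 0) (nat_lit 5250568880229) (nat_lit 152) (nat_lit 3659287560009) (nat_lit 0) (nat_lit 3746212468188) (nat_lit 2) (nat_lit 5) (nat_lit 4) (nat_lit 4) (nat_lit 2) (nat_lit 4) (nat_lit 264) (nat_lit 236) (nat_lit 100)) (XT.lf (nat_lit 0) (nat_lit 6384627958081) (nat_lit 152) (nat_lit 3198119323692) (nat_lit 0) (nat_lit 4880271544949) (nat_lit 2) (nat_lit 5) (nat_lit 4) (nat_lit 4) (nat_lit 2) (nat_lit 4) (nat_lit 265) (nat_lit 236) (nat_lit 99)))))) (XT.nd (nat_lit 29328) (nat_lit 0) (nat_lit 304) (XT.nd (nat_lit 29016) (nat_lit 0) (nat_lit 760) (XT.nd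 (nat_lit 156) (nat_lit 0) (nat_lit 0) (XT.nd (nat_lit 78) (nat_lit 0) (nat_lit 0) (XT.lf (nat_lit 0) (nat_lit 7688795896836) (nat_lit 152) (nat_lit 2667775853297) (nat_lit 0) (nat_lit 6184439482755) (nat_lit 2) (nat_lit 5) (nat_lit 4) (nat_lit 4) (nat_lit 2) (nat_lit 4) (nat_lit 266) (nat_lit 236) (nat_lit 98)) (XT.lf (nat_lit 0) (nat_lit 9188589025729) (nat_lit 152) (nat_lit 2057880863533) (nat_lit 0) (nat_lit 7684232610823) (nat_lit 2) (nat_lit 5) (nat_lit 4) (nat_lit 4) (nat_lit 2) (nat_lit 4) (nat_lit 267) (nat_lit 236) (nat_lit 97))) (XT.nd (nat_lit 78) (nat_lit 0) (nat_lit 0) (XT.lf (nat_lit 0) (nat_lit 10913351123370) (nat_lit 152) (nat_lit 1356501626341) (nat_lit 0) (nat_lit 9408994707747) (nat_lit 2) (nat_lit 5) (nat_lit 4) (nat_lit 4) (nat_lit 2) (nat_lit 4) (nat_lit 268) (nat_lit 236) (nat_lit 96)) (XT.lf (nat_lit 0) (nat_lit 12896827535146) (nat_lit 152) (nat_lit 549915504470)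 (nat_lit 0) (nat_lit 11392471118899) (nat_lit 2) (nat_lit 5) (nat_lit 4) (nat_lit 4) (nat_lit 2) (nat_lit 4) (nat_lit 269) (nat_lit 236) (nat_lit 95)))) (XT.nd (nat_lit 156) (nat_lit 0) (nat_lit 0) (XT.nd (nat_lit 78) (nat_lit 0) (nat_lit 0) (XT.lf (nat_lit 0) (nat_lit 121789252802) (nat_lit 0) (nat_lit 121789252802) (nat_lit 228) (nat_lit 120273886192) (nat_lit 12) (nat_lit 5) (nat_lit 12) (nat_lit 3) (nat_lit 15) (nat_lit 3) (nat_lit 237) (nat_lit 237) (nat_lit 126)) (XT.lf (nat_lit 0) (nat_lit 525278745033) (nat_lit 228) (nat_lit 221899196692) (nat_lit 304) (nat_lit 34866954793) (nat_lit 12) (nat_lit 5) (nat_lit 15) (nat_lit 3) (nat_lit 16) (nat_lit 5) (nat_lit 238) (nat_lit 237) (nat_lit 125))) (XT.nd (nat_lit 78) (nat_lit 0) (nat_lit 0) (XT.lf (nat_lit 76) (nat_lit 74714565751) (nat_lit 0) (nat_lit 509096903664) (nat_lit 304) (nat_lit 258520647773) (nat_lit 13) (nat_lit 5) (nat_lit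 12) (nat_lit 5) (nat_lit 16) (nat_lit 5) (nat_lit 239) (nat_lit 237) (nat_lit 124)) (XT.lf (nat_lit 76) (nat_lit 440758825017) (nat_lit 0) (nat_lit 221964538541) (nat_lit 304) (nat_lit 247199168568) (nat_lit 13) (nat_lit 5) (nat_lit 12) (nat_lit 5) (nat_lit 16) (nat_lit 5) (nat_lit 240) (nat_lit 237) (nat_lit 123))))) (XT.nd (nat_lit 312) (nat_lit 228) (nat_lit 0) (XT.nd (nat_lit 156) (nat_lit 76) (nat_lit 0) (XT.nd (nat_lit 78) (nat_lit 228) (nat_lit 0) (XT.lf (nat_lit 0) (nat_lit 757953920406) (nat_lit 228) (nat_lit 130423689964) (nat_lit 76) (nat_lit 98601617436) (nat_lit 13) (nat_lit 5) (nat_lit 16) (nat_lit 5) (nat_lit 14) (nat_lit 5) (nat_lit 241) (nat_lit 237) (nat_lit 122)) (XT.lf (nat_lit 0) (nat_lit 272848433482) (nat_lit 228) (nat_lit 616488427718) (nat_lit 304) (nat_lit 182977396828) (nat_lit 10) (nat_lit 5) (nat_lit 13) (nat_lit 5) (nat_lit 14) (nat_lit 5) (nat_lit 242)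 (nat_lit 237) (nat_lit 121))) (XT.nd (nat_lit 78) (nat_lit 76) (nat_lit 0) (XT.lf (nat_lit 0) (nat_lit 751269209513) (nat_lit 228) (nat_lit 295975625336) (nat_lit 304) (nat_lit 122182069392) (nat_lit 10) (nat_lit 5) (nat_lit 13) (nat_lit 5) (nat_lit 14) (nat_lit 5) (nat_lit 243) (nat_lit 237) (nat_lit 120)) (XT.lf (nat_lit 0) (nat_lit 19034425433) (nat_lit 76) (nat_lit 1213599540101) (nat_lit 152) (nat_lit 47903237895) (nat_lit 9) (nat_lit 5) (nat_lit 10) (nat_lit 5) (nat_lit 11) (nat_lit 4) (nat_lit 244) (nat_lit 237) (nat_lit 119)))) (XT.nd (nat_lit 156) (nat_lit 152) (nat_lit 0) (XT.nd (nat_lit 78) (nat_lit 0) (nat_lit 0) (XT.lf (nat_lit 0) (nat_lit 71170538870) (nat_lit 152) (nat_lit 852923197975) (nat_lit 76) (nat_lit 478438306268) (nat_lit 8) (nat_lit 5) (nat_lit 10) (nat_lit 5) (nat_lit 9) (nat_lit 5) (nat_lit 245) (nat_lit 237) (nat_lit 118)) (XT.lf (nat_lit 0) (nat_lit 203200995476)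 (nat_lit 152) (nat_lit 385337796996) (nat_lit 76) (nat_lit 953945151550) (nat_lit 8) (nat_lit 5) (nat_lit 10) (nat_lit 5) (nat_lit 9) (nat_lit 5) (nat_lit 246) (nat_lit 237) (nat_lit 117))) (XT.nd (nat_lit 78) (nat_lit 0) (nat_lit 0) (XT.lf (nat_lit 0) (nat_lit 167277616006) (nat_lit 152) (nat_lit 194685007355) (nat_lit 228) (nat_lit 1340427016397) (nat_lit 6) (nat_lit 5) (nat_lit 8) (nat_lit 5) (nat_lit 9) (nat_lit 5) (nat_lit 247) (nat_lit 237) (nat_lit 116)) (XT.lf (nat_lit 0) (nat_lit 576333772215) (nat_lit 228) (nat_lit 1048820370608) (nat_lit 76) (nat_lit 256357755609) (nat_lit 6) (nat_lit 5) (nat_lit 9) (nat_lit 5) (nat_lit 7) (nat_lit 4) (nat_lit 248) (nat_lit 237) (nat_lit 115))))))))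
noncomputable def xc63 : XT := (XT.nd (nat_lit 31278) (nat_lit 0) (nat_lit 0) (XT.nd (nat_lit 1248) (nat_lit 0) (nat_lit 0) (XT.nd (nat_lit 624) (nat_lit 152) (nat_lit 0) (XT.nd (nat_lit 312) (nat_lit 76) (nat_lit 0) (XT.nd (nat_lit 156) (nat_lit 0) (nat_lit 0) (XT.nd (nat_lit 78) (nat_lit 76) (nat_lit 0) (XT.lf (nat_lit 0) (nat_lit 832131302714) (nat_lit 228) (nat_lit 498855691775) (nat_lit 76) (nat_lit 755124895101) (nat_lit 6) (nat_lit 5) (nat_lit 9) (nat_lit 5) (nat_lit 7) (nat_lit 4) (nat_lit 249) (nat_lit 237) (nat_lit 114)) (XT.lf (nat_lit 0) (nat_lit 146660405724) (nat_lit 76) (nat_lit 985710947087) (nat_lit 152) (nat_lit 1188119593180) (nat_lit 5) (nat_lit 5) (nat_lit 6) (nat_lit 5) (nat_lit 7) (nat_lit 4) (nat_lit 250) (nat_lit 237) (nat_lit 113))) (XT.nd (nat_lit 78) (nat_lit 0) (nat_lit 0) (XT.lf (nat_lit 0) (nat_lit 945068488680) (nat_lit 76) (nat_lit 558655464984) (nat_lit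 152) (nat_lit 1082391425764) (nat_lit 5) (nat_lit 5) (nat_lit 6) (nat_lit 5) (nat_lit 7) (nat_lit 4) (nat_lit 251) (nat_lit 237) (nat_lit 112)) (XT.lf (nat_lit 0) (nat_lit 1863237778559) (nat_lit 76) (nat_lit 67541662360) (nat_lit 152) (nat_lit 960804037574) (nat_lit 5) (nat_lit 5) (nat_lit 6) (nat_lit 5) (nat_lit 7) (nat_lit 4) (nat_lit 252) (nat_lit 237) (nat_lit 111)))) (XT.nd (nat_lit 156) (nat_lit 0) (nat_lit 0) (XT.nd (nat_lit 78) (nat_lit 76) (nat_lit 0) (XT.lf (nat_lit 0) (nat_lit 2442482863308) (nat_lit 152) (nat_lit 344328951115) (nat_lit 0) (nat_lit 452971536237) (nat_lit 5) (nat_lit 5) (nat_lit 7) (nat_lit 4) (nat_lit 5) (nat_lit 4) (nat_lit 253) (nat_lit 237) (nat_lit 110)) (XT.lf (nat_lit 0) (nat_lit 481983543856) (nat_lit 76) (nat_lit 2572132432680) (nat_lit 76) (nat_lit 582621100533) (nat_lit 4) (nat_lit 4) (nat_lit 5) (nat_lit 5) (nat_lit 5) (nat_lit 4) (nat_lit 254)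 (nat_lit 237) (nat_lit 109))) (XT.nd (nat_lit 78) (nat_lit 0) (nat_lit 0) (XT.lf (nat_lit 0) (nat_lit 1470940787412) (nat_lit 76) (nat_lit 2304552280011) (nat_lit 76) (nat_lit 315040943450) (nat_lit 4) (nat_lit 4) (nat_lit 5) (nat_lit 5) (nat_lit 5) (nat_lit 4) (nat_lit 255) (nat_lit 237) (nat_lit 108)) (XT.lf (nat_lit 0) (nat_lit 2608241613699) (nat_lit 76) (nat_lit 1996835105915) (nat_lit 76) (nat_lit 7323765516) (nat_lit 4) (nat_lit 4) (nat_lit 5) (nat_lit 5) (nat_lit 5) (nat_lit 4) (nat_lit 256) (nat_lit 237) (nat_lit 107))))) (XT.nd (nat_lit 312) (nat_lit 0) (nat_lit 0) (XT.nd (nat_lit 156) (nat_lit 76) (nat_lit 0) (XT.nd (nat_lit 78) (nat_lit 0) (nat_lit 0) (XT.lf (nat_lit 0) (nat_lit 315698621471) (nat_lit 152) (nat_lit 1310759307573) (nat_lit 76) (nat_lit 3583936511211) (nat_lit 3) (nat_lit 5) (nat_lit 5) (nat_lit 5) (nat_lit 4) (nat_lit 4) (nat_lit 257) (nat_lit 237) (nat_lit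 106)) (XT.lf (nat_lit 0) (nat_lit 686424550552) (nat_lit 152) (nat_lit 513698562951) (nat_lit 76) (nat_lit 4697912062834) (nat_lit 3) (nat_lit 5) (nat_lit 5) (nat_lit 5) (nat_lit 4) (nat_lit 4) (nat_lit 258) (nat_lit 237) (nat_lit 105))) (XT.nd (nat_lit 78) (nat_lit 0) (nat_lit 0) (XT.lf (nat_lit 0) (nat_lit 442297689548) (nat_lit 76) (nat_lit 688776281944) (nat_lit 152) (nat_lit 5555000860983) (nat_lit 2) (nat_lit 5) (nat_lit 3) (nat_lit 5) (nat_lit 4) (nat_lit 4) (nat_lit 259) (nat_lit 237) (nat_lit 104)) (XT.lf (nat_lit 0) (nat_lit 1599426090864) (nat_lit 76) (nat_lit 69847138075) (nat_lit 152) (nat_lit 5919019344605) (nat_lit 2) (nat_lit 5) (nat_lit 3) (nat_lit 5) (nat_lit 4) (nat_lit 4) (nat_lit 260) (nat_lit 237) (nat_lit 103)))) (XT.nd (nat_lit 156) (nat_lit 0) (nat_lit 0) (XT.nd (nat_lit 78) (nat_lit 0) (nat_lit 0) (XT.lf (nat_lit 0) (nat_lit 2314782968983) (nat_lit 152) (nat_lit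 5722299821129) (nat_lit 0) (nat_lit 584773096579) (nat_lit 2) (nat_lit 5) (nat_lit 4) (nat_lit 4) (nat_lit 2) (nat_lit 4) (nat_lit 261) (nat_lit 237) (nat_lit 102)) (XT.lf (nat_lit 0) (nat_lit 3060445223048) (nat_lit 152) (nat_lit 5419074216621) (nat_lit 0) (nat_lit 1330435349201) (nat_lit 2) (nat_lit 5) (nat_lit 4) (nat_lit 4) (nat_lit 2) (nat_lit 4) (nat_lit 262) (nat_lit 237) (nat_lit 101))) (XT.nd (nat_lit 78) (nat_lit 0) (nat_lit 0) (XT.lf (nat_lit 0) (nat_lit 3917956814196) (nat_lit 152) (nat_lit 5070364773248) (nat_lit 0) (nat_lit 2187946939094) (nat_lit 2) (nat_lit 5) (nat_lit 4) (nat_lit 4) (nat_lit 2) (nat_lit 4) (nat_lit 263) (nat_lit 237) (nat_lit 100)) (XT.lf (nat_lit 0) (nat_lit 4904095143124) (nat_lit 152) (nat_lit 4669348914944) (nat_lit 0) (nat_lit 3174085266931) (nat_lit 2) (nat_lit 5) (nat_lit 4) (nat_lit 4) (nat_lit 2) (nat_lit 4) (nat_lit 264) (nat_lit 237) (nat_lit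 99)))))) (XT.nd (nat_lit 29406) (nat_lit 0) (nat_lit 304) (XT.nd (nat_lit 312) (nat_lit 0) (nat_lit 0) (XT.nd (nat_lit 156) (nat_lit 0) (nat_lit 0) (XT.nd (nat_lit 78) (nat_lit 0) (nat_lit 0) (XT.lf (nat_lit 0) (nat_lit 6038154220616) (nat_lit 152) (nat_lit 4208180679264) (nat_lit 0) (nat_lit 4308144343474) (nat_lit 2) (nat_lit 5) (nat_lit 4) (nat_lit 4) (nat_lit 2) (nat_lit 4) (nat_lit 265) (nat_lit 237) (nat_lit 98)) (XT.lf (nat_lit 0) (nat_lit 7342322159057) (nat_lit 152) (nat_lit 3677837209422) (nat_lit 0) (nat_lit 5612312281090) (nat_lit 2) (nat_lit 5) (nat_lit 4) (nat_lit 4) (nat_lit 2) (nat_lit 4) (nat_lit 266) (nat_lit 237) (nat_lit 97))) (XT.nd (nat_lit 78) (nat_lit 0) (nat_lit 0) (XT.lf (nat_lit 0) (nat_lit 8842115287677) (nat_lit 152) (nat_lit 3067942220141) (nat_lit 0) (nat_lit 7112105408993) (nat_lit 2) (nat_lit 5) (nat_lit 4) (nat_lit 4) (nat_lit 2) (nat_lit 4) (nat_lit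 267) (nat_lit 237) (nat_lit 96)) (XT.lf (nat_lit 0) (nat_lit 10566877385081) (nat_lit 152) (nat_lit 2366562983367) (nat_lit 0) (nat_lit 8836867505773) (nat_lit 2) (nat_lit 5) (nat_lit 4) (nat_lit 4) (nat_lit 2) (nat_lit 4) (nat_lit 268) (nat_lit 237) (nat_lit 95)))) (XT.nd (nat_lit 28938) (nat_lit 0) (nat_lit 760) (XT.nd (nat_lit 28860) (nat_lit 0) (nat_lit 760) (XT.lf (nat_lit 0) (nat_lit 12550353796651) (nat_lit 152) (nat_lit 1559976861861) (nat_lit 0) (nat_lit 10820343916801) (nat_lit 2) (nat_lit 5) (nat_lit 4) (nat_lit 4) (nat_lit 2) (nat_lit 4) (nat_lit 269) (nat_lit 237) (nat_lit 94)) (XT.lf (nat_lit 0) (nat_lit 140057686927) (nat_lit 0) (nat_lit 140057686927) (nat_lit 228) (nat_lit 138314860791) (nat_lit 12) (nat_lit 5) (nat_lit 12) (nat_lit 3) (nat_lit 15) (nat_lit 3) (nat_lit 238) (nat_lit 238) (nat_lit 124))) (XT.nd (nat_lit 78) (nat_lit 0) (nat_lit 0) (XT.lf (nat_lit 0)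 (nat_lit 604070714169) (nat_lit 228) (nat_lit 255183964822) (nat_lit 304) (nat_lit 40096924811) (nat_lit 12) (nat_lit 5) (nat_lit 15) (nat_lit 3) (nat_lit 16) (nat_lit 5) (nat_lit 239) (nat_lit 238) (nat_lit 123)) (XT.lf (nat_lit 76) (nat_lit 85921856925) (nat_lit 0) (nat_lit 585461474158) (nat_lit 304) (nat_lit 297298579378) (nat_lit 13) (nat_lit 5) (nat_lit 12) (nat_lit 5) (nat_lit 16) (nat_lit 5) (nat_lit 240) (nat_lit 238) (nat_lit 122))))) (XT.nd (nat_lit 312) (nat_lit 304) (nat_lit 0) (XT.nd (nat_lit 156) (nat_lit 152) (nat_lit 0) (XT.nd (nat_lit 78) (nat_lit 0) (nat_lit 76) (XT.lf (nat_lit 76) (nat_lit 506872741214) (nat_lit 0) (nat_lit 255259249709) (nat_lit 304) (nat_lit 284278899886) (nat_lit 13) (nat_lit 5) (nat_lit 12) (nat_lit 5) (nat_lit 16) (nat_lit 5) (nat_lit 241) (nat_lit 238) (nat_lit 121)) (XT.lf (nat_lit 0) (nat_lit 871647114182) (nat_lit 228) (nat_lit 149987143599)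 (nat_lit 76) (nat_lit 113391835981) (nat_lit 13) (nat_lit 5) (nat_lit 16) (nat_lit 5) (nat_lit 14) (nat_lit 5) (nat_lit 242) (nat_lit 238) (nat_lit 120))) (XT.nd (nat_lit 78) (nat_lit 0) (nat_lit 0) (XT.lf (nat_lit 0) (nat_lit 313775793825) (nat_lit 228) (nat_lit 708961692429) (nat_lit 304) (nat_lit 210423894048) (nat_lit 10) (nat_lit 5) (nat_lit 13) (nat_lit 5) (nat_lit 14) (nat_lit 5) (nat_lit 243) (nat_lit 238) (nat_lit 119)) (XT.lf (nat_lit 0) (nat_lit 863959673828) (nat_lit 228) (nat_lit 340371969618) (nat_lit 304) (nat_lit 140509282145) (nat_lit 10) (nat_lit 5) (nat_lit 13) (nat_lit 5) (nat_lit 14) (nat_lit 5) (nat_lit 244) (nat_lit 238) (nat_lit 118)))) (XT.nd (nat_lit 156) (nat_lit 152) (nat_lit 0) (XT.nd (nat_lit 78) (nat_lit 76) (nat_lit 0) (XT.lf (nat_lit 0) (nat_lit 21889682026) (nat_lit 76) (nat_lit 1395639454658) (nat_lit 152) (nat_lit 55088634263) (nat_lit 9) (nat_lit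 5) (nat_lit 10) (nat_lit 5) (nat_lit 11) (nat_lit 4) (nat_lit 245) (nat_lit 238) (nat_lit 117)) (XT.lf (nat_lit 0) (nat_lit 81846190452) (nat_lit 152) (nat_lit 980861588909) (nat_lit 76) (nat_lit 550204058434) (nat_lit 8) (nat_lit 5) (nat_lit 10) (nat_lit 5) (nat_lit 9) (nat_lit 5) (nat_lit 246) (nat_lit 238) (nat_lit 116))) (XT.nd (nat_lit 78) (nat_lit 152) (nat_lit 0) (XT.lf (nat_lit 0) (nat_lit 233681206321) (nat_lit 152) (nat_lit 443138389360) (nat_lit 76) (nat_lit 1097036929695) (nat_lit 8) (nat_lit 5) (nat_lit 10) (nat_lit 5) (nat_lit 9) (nat_lit 5) (nat_lit 247) (nat_lit 238) (nat_lit 115)) (XT.lf (nat_lit 0) (nat_lit 192369332084) (nat_lit 152) (nat_lit 223887741331) (nat_lit 228) (nat_lit 1541491002938) (nat_lit 6) (nat_lit 5) (nat_lit 8) (nat_lit 5) (nat_lit 9) (nat_lit 5) (nat_lit 248) (nat_lit 238) (nat_lit 114))))))) (XT.nd (nat_lit 1248) (nat_lit 0) (nat_lit 0) (XT.nd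 (nat_lit 624) (nat_lit 152) (nat_lit 0) (XT.nd (nat_lit 312) (nat_lit 76) (nat_lit 0) (XT.nd (nat_lit 156) (nat_lit 76) (nat_lit 0) (XT.nd (nat_lit 78) (nat_lit 0) (nat_lit 0) (XT.lf (nat_lit 0) (nat_lit 662783887837) (nat_lit 228) (nat_lit 1206143354603) (nat_lit 76) (nat_lit 294811432517) (nat_lit 6) (nat_lit 5) (nat_lit 9) (nat_lit 5) (nat_lit 7) (nat_lit 4) (nat_lit 249) (nat_lit 238) (nat_lit 113)) (XT.lf (nat_lit 0) (nat_lit 956951041417) (nat_lit 228) (nat_lit 573683983283) (nat_lit 76) (nat_lit 868393641164) (nat_lit 6) (nat_lit 5) (nat_lit 9) (nat_lit 5) (nat_lit 7) (nat_lit 4) (nat_lit 250) (nat_lit 238) (nat_lit 112))) (XT.nd (nat_lit 78) (nat_lit 0) (nat_lit 0) (XT.lf (nat_lit 0) (nat_lit 168659526011) (nat_lit 76) (nat_lit 1133567569832) (nat_lit 152) (nat_lit 1366337485448) (nat_lit 5) (nat_lit 5) (nat_lit 6) (nat_lit 5) (nat_lit 7) (nat_lit 4) (nat_lit 251) (nat_lit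 238) (nat_lit 111)) (XT.lf (nat_lit 0) (nat_lit 1086828813658) (nat_lit 76) (nat_lit 642453767933) (nat_lit 152) (nat_lit 1244750099013) (nat_lit 5) (nat_lit 5) (nat_lit 6) (nat_lit 5) (nat_lit 7) (nat_lit 4) (nat_lit 252) (nat_lit 238) (nat_lit 110)))) (XT.nd (nat_lit 156) (nat_lit 76) (nat_lit 0) (XT.nd (nat_lit 78) (nat_lit 0) (nat_lit 0) (XT.lf (nat_lit 0) (nat_lit 2142723490279) (nat_lit 76) (nat_lit 77672897107) (nat_lit 152) (nat_lit 1104924607892) (nat_lit 5) (nat_lit 5) (nat_lit 6) (nat_lit 5) (nat_lit 7) (nat_lit 4) (nat_lit 253) (nat_lit 238) (nat_lit 109)) (XT.lf (nat_lit 0) (nat_lit 2808855319703) (nat_lit 152) (nat_lit 395978250894) (nat_lit 0) (nat_lit 520917278244) (nat_lit 5) (nat_lit 5) (nat_lit 7) (nat_lit 4) (nat_lit 5) (nat_lit 4) (nat_lit 254) (nat_lit 238) (nat_lit 108))) (XT.nd (nat_lit 78) (nat_lit 0) (nat_lit 0) (XT.lf (nat_lit 0) (nat_lit 554281116373) (nat_lit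 76) (nat_lit 2957952281729) (nat_lit 76) (nat_lit 670014236431) (nat_lit 4) (nat_lit 4) (nat_lit 5) (nat_lit 5) (nat_lit 5) (nat_lit 4) (nat_lit 255) (nat_lit 238) (nat_lit 107)) (XT.lf (nat_lit 0) (nat_lit 1691581941122) (nat_lit 76) (nat_lit 2650235108228) (nat_lit 76) (nat_lit 362297059593) (nat_lit 4) (nat_lit 4) (nat_lit 5) (nat_lit 5) (nat_lit 5) (nat_lit 4) (nat_lit 256) (nat_lit 238) (nat_lit 106))))) (XT.nd (nat_lit 312) (nat_lit 0) (nat_lit 0) (XT.nd (nat_lit 156) (nat_lit 76) (nat_lit 0) (XT.nd (nat_lit 78) (nat_lit 76) (nat_lit 0) (XT.lf (nat_lit 0) (nat_lit 2999477886709) (nat_lit 76) (nat_lit 2296360359815) (nat_lit 76) (nat_lit 8422308278) (nat_lit 4) (nat_lit 4) (nat_lit 5) (nat_lit 5) (nat_lit 5) (nat_lit 4) (nat_lit 257) (nat_lit 238) (nat_lit 105)) (XT.lf (nat_lit 0) (nat_lit 363053432171) (nat_lit 152) (nat_lit 1507373174892) (nat_lit 76) (nat_lit 4121526996418)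 (nat_lit 3) (nat_lit 5) (nat_lit 5) (nat_lit 5) (nat_lit 4) (nat_lit 4) (nat_lit 258) (nat_lit 238) (nat_lit 104))) (XT.nd (nat_lit 78) (nat_lit 76) (nat_lit 0) (XT.lf (nat_lit 0) (nat_lit 789388248333) (nat_lit 152) (nat_lit 590753322337) (nat_lit 76) (nat_lit 5402598879673) (nat_lit 3) (nat_lit 5) (nat_lit 5) (nat_lit 5) (nat_lit 4) (nat_lit 4) (nat_lit 259) (nat_lit 238) (nat_lit 103)) (XT.lf (nat_lit 0) (nat_lit 508642366899) (nat_lit 76) (nat_lit 792092714524) (nat_lit 152) (nat_lit 6388250973648) (nat_lit 2) (nat_lit 5) (nat_lit 3) (nat_lit 5) (nat_lit 4) (nat_lit 4) (nat_lit 260) (nat_lit 238) (nat_lit 102)))) (XT.nd (nat_lit 156) (nat_lit 0) (nat_lit 0) (XT.nd (nat_lit 78) (nat_lit 0) (nat_lit 0) (XT.lf (nat_lit 0) (nat_lit 1839340025293) (nat_lit 76) (nat_lit 80324200341) (nat_lit 152) (nat_lit 6806872231964) (nat_lit 2) (nat_lit 5) (nat_lit 3) (nat_lit 5) (nat_lit 4) (nat_lit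 4) (nat_lit 261) (nat_lit 238) (nat_lit 101)) (XT.lf (nat_lit 0) (nat_lit 2662000425378) (nat_lit 152) (nat_lit 6580644774796) (nat_lit 0) (nat_lit 672489067756) (nat_lit 2) (nat_lit 5) (nat_lit 4) (nat_lit 4) (nat_lit 2) (nat_lit 4) (nat_lit 262) (nat_lit 238) (nat_lit 100))) (XT.nd (nat_lit 78) (nat_lit 0) (nat_lit 0) (XT.lf (nat_lit 0) (nat_lit 3519512016111) (nat_lit 152) (nat_lit 6231935332155) (nat_lit 0) (nat_lit 1530000657398) (nat_lit 2) (nat_lit 5) (nat_lit 4) (nat_lit 4) (nat_lit 2) (nat_lit 4) (nat_lit 263) (nat_lit 238) (nat_lit 99)) (XT.lf (nat_lit 0) (nat_lit 4505650344678) (nat_lit 152) (nat_lit 5830919474488) (nat_lit 0) (nat_lit 2516138985017) (nat_lit 2) (nat_lit 5) (nat_lit 4) (nat_lit 4) (nat_lit 2) (nat_lit 4) (nat_lit 264) (nat_lit 238) (nat_lit 98)))))) (XT.nd (nat_lit 29562) (nat_lit 0) (nat_lit 304) (XT.nd (nat_lit 29250) (nat_lit 0) (nat_lit 760) (XT.nd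 (nat_lit 156) (nat_lit 0) (nat_lit 0) (XT.nd (nat_lit 78) (nat_lit 0) (nat_lit 0) (XT.lf (nat_lit 0) (nat_lit 5639709421856) (nat_lit 152) (nat_lit 5369751239362) (nat_lit 0) (nat_lit 3650198061370) (nat_lit 2) (nat_lit 5) (nat_lit 4) (nat_lit 4) (nat_lit 2) (nat_lit 4) (nat_lit 265) (nat_lit 238) (nat_lit 97)) (XT.lf (nat_lit 0) (nat_lit 6943877360024) (nat_lit 152) (nat_lit 4839407770003) (nat_lit 0) (nat_lit 4954365998820) (nat_lit 2) (nat_lit 5) (nat_lit 4) (nat_lit 4) (nat_lit 2) (nat_lit 4) (nat_lit 266) (nat_lit 238) (nat_lit 96))) (XT.nd (nat_lit 78) (nat_lit 0) (nat_lit 0) (XT.lf (nat_lit 0) (nat_lit 8443670488407) (nat_lit 152) (nat_lit 4229512781140) (nat_lit 0) (nat_lit 6454159126580) (nat_lit 2) (nat_lit 5) (nat_lit 4) (nat_lit 4) (nat_lit 2) (nat_lit 4) (nat_lit 267) (nat_lit 238) (nat_lit 95)) (XT.lf (nat_lit 0) (nat_lit 10168432585605) (nat_lit 152) (nat_lit 3528133544731)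 (nat_lit 0) (nat_lit 8178921223234) (nat_lit 2) (nat_lit 5) (nat_lit 4) (nat_lit 4) (nat_lit 2) (nat_lit 4) (nat_lit 268) (nat_lit 238) (nat_lit 94)))) (XT.nd (nat_lit 156) (nat_lit 0) (nat_lit 0) (XT.nd (nat_lit 78) (nat_lit 0) (nat_lit 0) (XT.lf (nat_lit 0) (nat_lit 161066374902) (nat_lit 0) (nat_lit 161066374902) (nat_lit 228) (nat_lit 159062007996) (nat_lit 12) (nat_lit 5) (nat_lit 12) (nat_lit 3) (nat_lit 15) (nat_lit 3) (nat_lit 239) (nat_lit 239) (nat_lit 122)) (XT.lf (nat_lit 0) (nat_lit 694681440298) (nat_lit 228) (nat_lit 293461475331) (nat_lit 304) (nat_lit 46111408182) (nat_lit 12) (nat_lit 5) (nat_lit 15) (nat_lit 3) (nat_lit 16) (nat_lit 5) (nat_lit 240) (nat_lit 239) (nat_lit 121))) (XT.nd (nat_lit 78) (nat_lit 0) (nat_lit 0) (XT.lf (nat_lit 76) (nat_lit 98810215850) (nat_lit 0) (nat_lit 673280721704) (nat_lit 304) (nat_lit 341893241096) (nat_lit 13) (nat_lit 5) (nat_lit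 12) (nat_lit 5) (nat_lit 16) (nat_lit 5) (nat_lit 241) (nat_lit 239) (nat_lit 120)) (XT.lf (nat_lit 76) (nat_lit 582903722297) (nat_lit 0) (nat_lit 293548160141) (nat_lit 304) (nat_lit 326920626010) (nat_lit 13) (nat_lit 5) (nat_lit 12) (nat_lit 5) (nat_lit 16) (nat_lit 5) (nat_lit 242) (nat_lit 239) (nat_lit 119))))) (XT.nd (nat_lit 312) (nat_lit 228) (nat_lit 0) (XT.nd (nat_lit 156) (nat_lit 76) (nat_lit 0) (XT.nd (nat_lit 78) (nat_lit 228) (nat_lit 0) (XT.lf (nat_lit 0) (nat_lit 1002394261246) (nat_lit 228) (nat_lit 172485139631) (nat_lit 76) (nat_lit 130400593177) (nat_lit 13) (nat_lit 5) (nat_lit 16) (nat_lit 5) (nat_lit 14) (nat_lit 5) (nat_lit 243) (nat_lit 239) (nat_lit 118)) (XT.lf (nat_lit 0) (nat_lit 360842234975) (nat_lit 228) (nat_lit 815305946711) (nat_lit 304) (nat_lit 241987393237) (nat_lit 10) (nat_lit 5) (nat_lit 13) (nat_lit 5) (nat_lit 14) (nat_lit 5) (nat_lit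 244) (nat_lit 239) (nat_lit 117))) (XT.nd (nat_lit 78) (nat_lit 76) (nat_lit 0) (XT.lf (nat_lit 0) (nat_lit 993553687577) (nat_lit 228) (nat_lit 391427765424) (nat_lit 304) (nat_lit 161585600625) (nat_lit 10) (nat_lit 5) (nat_lit 13) (nat_lit 5) (nat_lit 14) (nat_lit 5) (nat_lit 245) (nat_lit 239) (nat_lit 116)) (XT.lf (nat_lit 0) (nat_lit 25173204482) (nat_lit 76) (nat_lit 1604985360411) (nat_lit 152) (nat_lit 63351861867) (nat_lit 9) (nat_lit 5) (nat_lit 10) (nat_lit 5) (nat_lit 11) (nat_lit 4) (nat_lit 246) (nat_lit 239) (nat_lit 115)))) (XT.nd (nat_lit 156) (nat_lit 152) (nat_lit 0) (XT.nd (nat_lit 78) (nat_lit 0) (nat_lit 0) (XT.lf (nat_lit 0) (nat_lit 94123172519) (nat_lit 152) (nat_lit 1127990760128) (nat_lit 76) (nat_lit 632734671906) (nat_lit 8) (nat_lit 5) (nat_lit 10) (nat_lit 5) (nat_lit 9) (nat_lit 5) (nat_lit 247) (nat_lit 239) (nat_lit 114)) (XT.lf (nat_lit 0) (nat_lit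 268733433790) (nat_lit 152) (nat_lit 509609089402) (nat_lit 76) (nat_lit 1261592473243) (nat_lit 8) (nat_lit 5) (nat_lit 10) (nat_lit 5) (nat_lit 9) (nat_lit 5) (nat_lit 248) (nat_lit 239) (nat_lit 113))) (XT.nd (nat_lit 78) (nat_lit 0) (nat_lit 0) (XT.lf (nat_lit 0) (nat_lit 221224787606) (nat_lit 152) (nat_lit 257470889580) (nat_lit 228) (nat_lit 1772714603535) (nat_lit 6) (nat_lit 5) (nat_lit 8) (nat_lit 5) (nat_lit 9) (nat_lit 5) (nat_lit 249) (nat_lit 239) (nat_lit 112)) (XT.lf (nat_lit 0) (nat_lit 762201508661) (nat_lit 228) (nat_lit 1387064803656) (nat_lit 76) (nat_lit 339033157653) (nat_lit 6) (nat_lit 5) (nat_lit 9) (nat_lit 5) (nat_lit 7) (nat_lit 4) (nat_lit 250) (nat_lit 239) (nat_lit 111))))))))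
noncomputable def xc64 : XT := (XT.nd (nat_lit 31434) (nat_lit 0) (nat_lit 0) (XT.nd (nat_lit 1248) (nat_lit 0) (nat_lit 0) (XT.nd (nat_lit 624) (nat_lit 152) (nat_lit 0) (XT.nd (nat_lit 312) (nat_lit 76) (nat_lit 0) (XT.nd (nat_lit 156) (nat_lit 0) (nat_lit 0) (XT.nd (nat_lit 78) (nat_lit 76) (nat_lit 0) (XT.lf (nat_lit 0) (nat_lit 1100493730368) (nat_lit 228) (nat_lit 659736533700) (nat_lit 76) (nat_lit 998652696259) (nat_lit 6) (nat_lit 5) (nat_lit 9) (nat_lit 5) (nat_lit 7) (nat_lit 4) (nat_lit 251) (nat_lit 239) (nat_lit 110)) (XT.lf (nat_lit 0) (nat_lit 193958499848) (nat_lit 76) (nat_lit 1303602690699) (nat_lit 152) (nat_lit 1571288072947) (nat_lit 5) (nat_lit 5) (nat_lit 6) (nat_lit 5) (nat_lit 7) (nat_lit 4) (nat_lit 252) (nat_lit 239) (nat_lit 109))) (XT.nd (nat_lit 78) (nat_lit 0) (nat_lit 0) (XT.lf (nat_lit 0) (nat_lit 1249853174781) (nat_lit 76) (nat_lit 738821820421)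 (nat_lit 152) (nat_lit 1431462583153) (nat_lit 5) (nat_lit 5) (nat_lit 6) (nat_lit 5) (nat_lit 7) (nat_lit 4) (nat_lit 253) (nat_lit 239) (nat_lit 108)) (XT.lf (nat_lit 0) (nat_lit 2464132047799) (nat_lit 76) (nat_lit 89323820627) (nat_lit 152) (nat_lit 1270663272370) (nat_lit 5) (nat_lit 5) (nat_lit 6) (nat_lit 5) (nat_lit 7) (nat_lit 4) (nat_lit 254) (nat_lit 239) (nat_lit 107)))) (XT.nd (nat_lit 156) (nat_lit 0) (nat_lit 0) (XT.nd (nat_lit 78) (nat_lit 76) (nat_lit 0) (XT.lf (nat_lit 0) (nat_lit 3230183637997) (nat_lit 152) (nat_lit 455374956099) (nat_lit 0) (nat_lit 599054878730) (nat_lit 5) (nat_lit 5) (nat_lit 7) (nat_lit 4) (nat_lit 5) (nat_lit 4) (nat_lit 255) (nat_lit 239) (nat_lit 106)) (XT.lf (nat_lit 0) (nat_lit 637423314785) (nat_lit 76) (nat_lit 3401645112001) (nat_lit 76) (nat_lit 770516349831) (nat_lit 4) (nat_lit 4) (nat_lit 5) (nat_lit 5) (nat_lit 5) (nat_lit 4)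 (nat_lit 256) (nat_lit 239) (nat_lit 105))) (XT.nd (nat_lit 78) (nat_lit 0) (nat_lit 0) (XT.lf (nat_lit 0) (nat_lit 1945319259209) (nat_lit 76) (nat_lit 3047770364038) (nat_lit 76) (nat_lit 416641599345) (nat_lit 4) (nat_lit 4) (nat_lit 5) (nat_lit 5) (nat_lit 5) (nat_lit 4) (nat_lit 257) (nat_lit 239) (nat_lit 104)) (XT.lf (nat_lit 0) (nat_lit 3449399593122) (nat_lit 76) (nat_lit 2640814404723) (nat_lit 76) (nat_lit 9685637836) (nat_lit 4) (nat_lit 4) (nat_lit 5) (nat_lit 5) (nat_lit 5) (nat_lit 4) (nat_lit 258) (nat_lit 239) (nat_lit 103))))) (XT.nd (nat_lit 312) (nat_lit 0) (nat_lit 0) (XT.nd (nat_lit 156) (nat_lit 76) (nat_lit 0) (XT.nd (nat_lit 78) (nat_lit 0) (nat_lit 0) (XT.lf (nat_lit 0) (nat_lit 417511460213) (nat_lit 152) (nat_lit 1733479129337) (nat_lit 76) (nat_lit 4739756052327) (nat_lit 3) (nat_lit 5) (nat_lit 5) (nat_lit 5) (nat_lit 4) (nat_lit 4) (nat_lit 259) (nat_lit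 239) (nat_lit 102)) (XT.lf (nat_lit 0) (nat_lit 907796497076) (nat_lit 152) (nat_lit 679366301740) (nat_lit 76) (nat_lit 6212988717229) (nat_lit 3) (nat_lit 5) (nat_lit 5) (nat_lit 5) (nat_lit 4) (nat_lit 4) (nat_lit 260) (nat_lit 239) (nat_lit 101))) (XT.nd (nat_lit 78) (nat_lit 0) (nat_lit 0) (XT.lf (nat_lit 0) (nat_lit 584938740020) (nat_lit 76) (nat_lit 910906614360) (nat_lit 152) (nat_lit 7346488607233) (nat_lit 2) (nat_lit 5) (nat_lit 3) (nat_lit 5) (nat_lit 4) (nat_lit 4) (nat_lit 261) (nat_lit 239) (nat_lit 100)) (XT.lf (nat_lit 0) (nat_lit 2115241044814) (nat_lit 76) (nat_lit 92372824007) (nat_lit 152) (nat_lit 7827903055922) (nat_lit 2) (nat_lit 5) (nat_lit 3) (nat_lit 5) (nat_lit 4) (nat_lit 4) (nat_lit 262) (nat_lit 239) (nat_lit 99)))) (XT.nd (nat_lit 156) (nat_lit 0) (nat_lit 0) (XT.nd (nat_lit 78) (nat_lit 0) (nat_lit 0) (XT.lf (nat_lit 0) (nat_lit 3061300497537) (nat_lit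 152) (nat_lit 7567741476269) (nat_lit 0) (nat_lit 773362432978) (nat_lit 2) (nat_lit 5) (nat_lit 4) (nat_lit 4) (nat_lit 2) (nat_lit 4) (nat_lit 263) (nat_lit 239) (nat_lit 98)) (XT.lf (nat_lit 0) (nat_lit 4047438825791) (nat_lit 152) (nat_lit 7166725619156) (nat_lit 0) (nat_lit 1759500760406) (nat_lit 2) (nat_lit 5) (nat_lit 4) (nat_lit 4) (nat_lit 2) (nat_lit 4) (nat_lit 264) (nat_lit 239) (nat_lit 97))) (XT.nd (nat_lit 78) (nat_lit 0) (nat_lit 0) (XT.lf (nat_lit 0) (nat_lit 5181497902696) (nat_lit 152) (nat_lit 6705557384511) (nat_lit 0) (nat_lit 2893559836594) (nat_lit 2) (nat_lit 5) (nat_lit 4) (nat_lit 4) (nat_lit 2) (nat_lit 4) (nat_lit 265) (nat_lit 239) (nat_lit 96)) (XT.lf (nat_lit 0) (nat_lit 6485665840627) (nat_lit 152) (nat_lit 6175213915571) (nat_lit 0) (nat_lit 4197727773901) (nat_lit 2) (nat_lit 5) (nat_lit 4) (nat_lit 4) (nat_lit 2) (nat_lit 4) (nat_lit 266) (nat_lit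 239) (nat_lit 95)))))) (XT.nd (nat_lit 29562) (nat_lit 0) (nat_lit 304) (XT.nd (nat_lit 29250) (nat_lit 0) (nat_lit 760) (XT.nd (nat_lit 234) (nat_lit 0) (nat_lit 0) (XT.nd (nat_lit 78) (nat_lit 0) (nat_lit 0) (XT.lf (nat_lit 0) (nat_lit 7985458968804) (nat_lit 152) (nat_lit 5565318927072) (nat_lit 0) (nat_lit 5697520901535) (nat_lit 2) (nat_lit 5) (nat_lit 4) (nat_lit 4) (nat_lit 2) (nat_lit 4) (nat_lit 267) (nat_lit 239) (nat_lit 94)) (XT.lf (nat_lit 0) (nat_lit 9710221065822) (nat_lit 152) (nat_lit 4863939690979) (nat_lit 0) (nat_lit 7422282998082) (nat_lit 2) (nat_lit 5) (nat_lit 4) (nat_lit 4) (nat_lit 2) (nat_lit 4) (nat_lit 268) (nat_lit 239) (nat_lit 93))) (XT.nd (nat_lit 28938) (nat_lit 0) (nat_lit 760) (XT.lf (nat_lit 0) (nat_lit 13974695349685) (nat_lit 152) (nat_lit 3129779531528) (nat_lit 0) (nat_lit 11686757281178) (nat_lit 2) (nat_lit 5) (nat_lit 4) (nat_lit 4) (nat_lit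 2) (nat_lit 4) (nat_lit 270) (nat_lit 239) (nat_lit 91)) (XT.lf (nat_lit 0) (nat_lit 185226357555) (nat_lit 0) (nat_lit 185226357555) (nat_lit 228) (nat_lit 182921247257) (nat_lit 12) (nat_lit 5) (nat_lit 12) (nat_lit 3) (nat_lit 15) (nat_lit 3) (nat_lit 240) (nat_lit 240) (nat_lit 120)))) (XT.nd (nat_lit 156) (nat_lit 0) (nat_lit 0) (XT.nd (nat_lit 78) (nat_lit 0) (nat_lit 0) (XT.lf (nat_lit 0) (nat_lit 798883746326) (nat_lit 228) (nat_lit 337480632953) (nat_lit 304) (nat_lit 53028077557) (nat_lit 12) (nat_lit 5) (nat_lit 15) (nat_lit 3) (nat_lit 16) (nat_lit 5) (nat_lit 241) (nat_lit 240) (nat_lit 119)) (XT.lf (nat_lit 76) (nat_lit 113631809011) (nat_lit 0) (nat_lit 774272849940) (nat_lit 304) (nat_lit 393177132600) (nat_lit 13) (nat_lit 5) (nat_lit 12) (nat_lit 5) (nat_lit 16) (nat_lit 5) (nat_lit 242) (nat_lit 240) (nat_lit 118))) (XT.nd (nat_lit 78) (nat_lit 0) (nat_lit 76) (XT.lf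 (nat_lit 76) (nat_lit 670339333498) (nat_lit 0) (nat_lit 337580401536) (nat_lit 304) (nat_lit 375958637598) (nat_lit 13) (nat_lit 5) (nat_lit 12) (nat_lit 5) (nat_lit 16) (nat_lit 5) (nat_lit 243) (nat_lit 240) (nat_lit 117)) (XT.lf (nat_lit 0) (nat_lit 1152753460876) (nat_lit 228) (nat_lit 198357853481) (nat_lit 76) (nat_lit 149960668391) (nat_lit 13) (nat_lit 5) (nat_lit 16) (nat_lit 5) (nat_lit 14) (nat_lit 5) (nat_lit 244) (nat_lit 240) (nat_lit 116))))) (XT.nd (nat_lit 312) (nat_lit 152) (nat_lit 0) (XT.nd (nat_lit 156) (nat_lit 152) (nat_lit 0) (XT.nd (nat_lit 78) (nat_lit 0) (nat_lit 0) (XT.lf (nat_lit 0) (nat_lit 414968624721) (nat_lit 228) (nat_lit 937601839034) (nat_lit 304) (nat_lit 278285438012) (nat_lit 10) (nat_lit 5) (nat_lit 13) (nat_lit 5) (nat_lit 14) (nat_lit 5) (nat_lit 245) (nat_lit 240) (nat_lit 115)) (XT.lf (nat_lit 0) (nat_lit 1142586788105) (nat_lit 228) (nat_lit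 450141930513) (nat_lit 304) (nat_lit 185823384883) (nat_lit 10) (nat_lit 5) (nat_lit 13) (nat_lit 5) (nat_lit 14) (nat_lit 5) (nat_lit 246) (nat_lit 240) (nat_lit 114))) (XT.nd (nat_lit 78) (nat_lit 76) (nat_lit 0) (XT.lf (nat_lit 0) (nat_lit 28949238201) (nat_lit 76) (nat_lit 1845733155063) (nat_lit 152) (nat_lit 72854590080) (nat_lit 9) (nat_lit 5) (nat_lit 10) (nat_lit 5) (nat_lit 11) (nat_lit 4) (nat_lit 247) (nat_lit 240) (nat_lit 113)) (XT.lf (nat_lit 0) (nat_lit 108241688850) (nat_lit 152) (nat_lit 1297189323397) (nat_lit 76) (nat_lit 727644876252) (nat_lit 8) (nat_lit 5) (nat_lit 10) (nat_lit 5) (nat_lit 9) (nat_lit 5) (nat_lit 248) (nat_lit 240) (nat_lit 112)))) (XT.nd (nat_lit 156) (nat_lit 0) (nat_lit 0) (XT.nd (nat_lit 78) (nat_lit 152) (nat_lit 0) (XT.lf (nat_lit 0) (nat_lit 309043484035) (nat_lit 152) (nat_lit 586050408681) (nat_lit 76) (nat_lit 1450831347325) (nat_lit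 8) (nat_lit 5) (nat_lit 10) (nat_lit 5) (nat_lit 9) (nat_lit 5) (nat_lit 249) (nat_lit 240) (nat_lit 111)) (XT.lf (nat_lit 0) (nat_lit 254408547872) (nat_lit 152) (nat_lit 296091513225) (nat_lit 228) (nat_lit 2038621756377) (nat_lit 6) (nat_lit 5) (nat_lit 8) (nat_lit 5) (nat_lit 9) (nat_lit 5) (nat_lit 250) (nat_lit 240) (nat_lit 110))) (XT.nd (nat_lit 78) (nat_lit 0) (nat_lit 0) (XT.lf (nat_lit 0) (nat_lit 876531763428) (nat_lit 228) (nat_lit 1595124483269) (nat_lit 76) (nat_lit 389888139058) (nat_lit 6) (nat_lit 5) (nat_lit 9) (nat_lit 5) (nat_lit 7) (nat_lit 4) (nat_lit 251) (nat_lit 240) (nat_lit 109)) (XT.lf (nat_lit 0) (nat_lit 1265567814678) (nat_lit 228) (nat_lit 758696978159) (nat_lit 76) (nat_lit 1148450607443) (nat_lit 6) (nat_lit 5) (nat_lit 9) (nat_lit 5) (nat_lit 7) (nat_lit 4) (nat_lit 252) (nat_lit 240) (nat_lit 108))))))) (XT.nd (nat_lit 30342) (nat_lit 0) (nat_lit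 228) (XT.nd (nat_lit 624) (nat_lit 76) (nat_lit 0) (XT.nd (nat_lit 312) (nat_lit 152) (nat_lit 0) (XT.nd (nat_lit 156) (nat_lit 0) (nat_lit 0) (XT.nd (nat_lit 78) (nat_lit 0) (nat_lit 0) (XT.lf (nat_lit 0) (nat_lit 223052308804) (nat_lit 76) (nat_lit 1499143083258) (nat_lit 152) (nat_lit 1806981257184) (nat_lit 5) (nat_lit 5) (nat_lit 6) (nat_lit 5) (nat_lit 7) (nat_lit 4) (nat_lit 253) (nat_lit 240) (nat_lit 107)) (XT.lf (nat_lit 0) (nat_lit 1437331180545) (nat_lit 76) (nat_lit 849645083879) (nat_lit 152) (nat_lit 1646181947404) (nat_lit 5) (nat_lit 5) (nat_lit 6) (nat_lit 5) (nat_lit 7) (nat_lit 4) (nat_lit 254) (nat_lit 240) (nat_lit 106))) (XT.nd (nat_lit 78) (nat_lit 0) (nat_lit 0) (XT.lf (nat_lit 0) (nat_lit 2833751880661) (nat_lit 76) (nat_lit 102722385370) (nat_lit 152) (nat_lit 1461262743032) (nat_lit 5) (nat_lit 5) (nat_lit 6) (nat_lit 5) (nat_lit 7) (nat_lit 4) (nat_lit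 255) (nat_lit 240) (nat_lit 105)) (XT.lf (nat_lit 0) (nat_lit 3714711199076) (nat_lit 152) (nat_lit 523681174992) (nat_lit 0) (nat_lit 688913117156) (nat_lit 5) (nat_lit 5) (nat_lit 7) (nat_lit 4) (nat_lit 5) (nat_lit 4) (nat_lit 256) (nat_lit 240) (nat_lit 104)))) (XT.nd (nat_lit 156) (nat_lit 76) (nat_lit 0) (XT.nd (nat_lit 78) (nat_lit 0) (nat_lit 0) (XT.lf (nat_lit 0) (nat_lit 733036835409) (nat_lit 76) (nat_lit 3911891869737) (nat_lit 76) (nat_lit 886093785621) (nat_lit 4) (nat_lit 4) (nat_lit 5) (nat_lit 5) (nat_lit 5) (nat_lit 4) (nat_lit 257) (nat_lit 240) (nat_lit 103)) (XT.lf (nat_lit 0) (nat_lit 2237117168444) (nat_lit 76) (nat_lit 3504935910762) (nat_lit 76) (nat_lit 479137824739) (nat_lit 4) (nat_lit 4) (nat_lit 5) (nat_lit 5) (nat_lit 5) (nat_lit 4) (nat_lit 258) (nat_lit 240) (nat_lit 102))) (XT.nd (nat_lit 78) (nat_lit 76) (nat_lit 0) (XT.lf (nat_lit 0) (nat_lit 3966809549790)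 (nat_lit 76) (nat_lit 3036936558578) (nat_lit 76) (nat_lit 11138470895) (nat_lit 4) (nat_lit 4) (nat_lit 5) (nat_lit 5) (nat_lit 5) (nat_lit 4) (nat_lit 259) (nat_lit 240) (nat_lit 101)) (XT.lf (nat_lit 0) (nat_lit 480138189238) (nat_lit 152) (nat_lit 1993500982262) (nat_lit 76) (nat_lit 5450719465050) (nat_lit 3) (nat_lit 5) (nat_lit 5) (nat_lit 5) (nat_lit 4) (nat_lit 4) (nat_lit 260) (nat_lit 240) (nat_lit 100))))) (XT.nd (nat_lit 312) (nat_lit 0) (nat_lit 0) (XT.nd (nat_lit 156) (nat_lit 0) (nat_lit 0) (XT.nd (nat_lit 78) (nat_lit 76) (nat_lit 0) (XT.lf (nat_lit 0) (nat_lit 1043965980328) (nat_lit 152) (nat_lit 781271232674) (nat_lit 76) (nat_lit 7144937029052) (nat_lit 3) (nat_lit 5) (nat_lit 5) (nat_lit 5) (nat_lit 4) (nat_lit 4) (nat_lit 261) (nat_lit 240) (nat_lit 99)) (XT.lf (nat_lit 0) (nat_lit 672679564699) (nat_lit 76) (nat_lit 1047542600961) (nat_lit 152) (nat_lit 8448461888894)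 (nat_lit 2) (nat_lit 5) (nat_lit 3) (nat_lit 5) (nat_lit 4) (nat_lit 4) (nat_lit 262) (nat_lit 240) (nat_lit 98))) (XT.nd (nat_lit 78) (nat_lit 0) (nat_lit 0) (XT.lf (nat_lit 0) (nat_lit 2432527213428) (nat_lit 76) (nat_lit 106228742780) (nat_lit 152) (nat_lit 9002088506115) (nat_lit 2) (nat_lit 5) (nat_lit 3) (nat_lit 5) (nat_lit 4) (nat_lit 4) (nat_lit 263) (nat_lit 240) (nat_lit 97)) (XT.lf (nat_lit 0) (nat_lit 3520495578484) (nat_lit 152) (nat_lit 8702902686559) (nat_lit 0) (nat_lit 889366801749) (nat_lit 2) (nat_lit 5) (nat_lit 4) (nat_lit 4) (nat_lit 2) (nat_lit 4) (nat_lit 264) (nat_lit 240) (nat_lit 96)))) (XT.nd (nat_lit 156) (nat_lit 0) (nat_lit 0) (XT.nd (nat_lit 78) (nat_lit 0) (nat_lit 0) (XT.lf (nat_lit 0) (nat_lit 4654554655152) (nat_lit 152) (nat_lit 8241734452333) (nat_lit 0) (nat_lit 2023425877793) (nat_lit 2) (nat_lit 5) (nat_lit 4) (nat_lit 4) (nat_lit 2) (nat_lit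 4) (nat_lit 265) (nat_lit 240) (nat_lit 95)) (XT.lf (nat_lit 0) (nat_lit 5958722592876) (nat_lit 152) (nat_lit 7711390983757) (nat_lit 0) (nat_lit 3327593814975) (nat_lit 2) (nat_lit 5) (nat_lit 4) (nat_lit 4) (nat_lit 2) (nat_lit 4) (nat_lit 266) (nat_lit 240) (nat_lit 94))) (XT.nd (nat_lit 156) (nat_lit 0) (nat_lit 0) (XT.lf (nat_lit 0) (nat_lit 7458515720874) (nat_lit 152) (nat_lit 7101495995575) (nat_lit 0) (nat_lit 4827386942501) (nat_lit 2) (nat_lit 5) (nat_lit 4) (nat_lit 4) (nat_lit 2) (nat_lit 4) (nat_lit 267) (nat_lit 240) (nat_lit 93)) (XT.lf (nat_lit 0) (nat_lit 11166754228835) (nat_lit 152) (nat_lit 5593530639083) (nat_lit 0) (nat_lit 8535625449695) (nat_lit 2) (nat_lit 5) (nat_lit 4) (nat_lit 4) (nat_lit 2) (nat_lit 4) (nat_lit 269) (nat_lit 240) (nat_lit 91)))))) (XT.nd (nat_lit 624) (nat_lit 304) (nat_lit 0) (XT.nd (nat_lit 312) (nat_lit 228) (nat_lit 0) (XT.nd (nat_lit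 156) (nat_lit 0) (nat_lit 0) (XT.nd (nat_lit 78) (nat_lit 0) (nat_lit 0) (XT.lf (nat_lit 0) (nat_lit 213010331164) (nat_lit 0) (nat_lit 213010331164) (nat_lit 228) (nat_lit 210359387512) (nat_lit 12) (nat_lit 5) (nat_lit 12) (nat_lit 3) (nat_lit 15) (nat_lit 3) (nat_lit 241) (nat_lit 241) (nat_lit 118)) (XT.lf (nat_lit 0) (nat_lit 918716376315) (nat_lit 228) (nat_lit 388102679746) (nat_lit 304) (nat_lit 60982257544) (nat_lit 12) (nat_lit 5) (nat_lit 15) (nat_lit 3) (nat_lit 16) (nat_lit 5) (nat_lit 242) (nat_lit 241) (nat_lit 117))) (XT.nd (nat_lit 78) (nat_lit 0) (nat_lit 0) (XT.lf (nat_lit 76) (nat_lit 130676626324) (nat_lit 0) (nat_lit 890413792538) (nat_lit 304) (nat_lit 452153630913) (nat_lit 13) (nat_lit 5) (nat_lit 12) (nat_lit 5) (nat_lit 16) (nat_lit 5) (nat_lit 243) (nat_lit 241) (nat_lit 116)) (XT.lf (nat_lit 76) (nat_lit 770890273489) (nat_lit 0) (nat_lit 388217474904)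 (nat_lit 304) (nat_lit 432352370997) (nat_lit 13) (nat_lit 5) (nat_lit 12) (nat_lit 5) (nat_lit 16) (nat_lit 5) (nat_lit 244) (nat_lit 241) (nat_lit 115)))) (XT.nd (nat_lit 156) (nat_lit 76) (nat_lit 0) (XT.nd (nat_lit 78) (nat_lit 228) (nat_lit 0) (XT.lf (nat_lit 0) (nat_lit 1325666525711) (nat_lit 228) (nat_lit 228111488331) (nat_lit 76) (nat_lit 172454758244) (nat_lit 13) (nat_lit 5) (nat_lit 16) (nat_lit 5) (nat_lit 14) (nat_lit 5) (nat_lit 245) (nat_lit 241) (nat_lit 114)) (XT.lf (nat_lit 0) (nat_lit 477213959639) (nat_lit 228) (nat_lit 1078242115128) (nat_lit 304) (nat_lit 320028205161) (nat_lit 10) (nat_lit 5) (nat_lit 13) (nat_lit 5) (nat_lit 14) (nat_lit 5) (nat_lit 246) (nat_lit 241) (nat_lit 113))) (XT.nd (nat_lit 78) (nat_lit 76) (nat_lit 0) (XT.lf (nat_lit 0) (nat_lit 1313974842155) (nat_lit 228) (nat_lit 517663220297) (nat_lit 304) (nat_lit 213696850396) (nat_lit 10)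 (nat_lit 5) (nat_lit 13) (nat_lit 5) (nat_lit 14) (nat_lit 5) (nat_lit 247) (nat_lit 241) (nat_lit 112)) (XT.lf (nat_lit 0) (nat_lit 33291664041) (nat_lit 76) (nat_lit 2122593121207) (nat_lit 152) (nat_lit 83782739978) (nat_lit 9) (nat_lit 5) (nat_lit 10) (nat_lit 5) (nat_lit 11) (nat_lit 4) (nat_lit 248) (nat_lit 241) (nat_lit 111))))) (XT.nd (nat_lit 312) (nat_lit 76) (nat_lit 0) (XT.nd (nat_lit 156) (nat_lit 152) (nat_lit 0) (XT.nd (nat_lit 78) (nat_lit 0) (nat_lit 0) (XT.lf (nat_lit 0) (nat_lit 124477972765) (nat_lit 152) (nat_lit 1491767683532) (nat_lit 76) (nat_lit 836791610381) (nat_lit 8) (nat_lit 5) (nat_lit 10) (nat_lit 5) (nat_lit 9) (nat_lit 5) (nat_lit 249) (nat_lit 241) (nat_lit 110)) (XT.lf (nat_lit 0) (nat_lit 355400033239) (nat_lit 152) (nat_lit 673957936615) (nat_lit 76) (nat_lit 1668456051764) (nat_lit 8) (nat_lit 5) (nat_lit 10) (nat_lit 5) (nat_lit 9) (nat_lit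 5) (nat_lit 250) (nat_lit 241) (nat_lit 109))) (XT.nd (nat_lit 78) (nat_lit 0) (nat_lit 0) (XT.lf (nat_lit 0) (nat_lit 292569861905) (nat_lit 152) (nat_lit 340505232805) (nat_lit 228) (nat_lit 2344414991335) (nat_lit 6) (nat_lit 5) (nat_lit 8) (nat_lit 5) (nat_lit 9) (nat_lit 5) (nat_lit 251) (nat_lit 241) (nat_lit 108)) (XT.lf (nat_lit 0) (nat_lit 1008011549468) (nat_lit 228) (nat_lit 1834393124806) (nat_lit 76) (nat_lit 448371365782) (nat_lit 6) (nat_lit 5) (nat_lit 9) (nat_lit 5) (nat_lit 7) (nat_lit 4) (nat_lit 252) (nat_lit 241) (nat_lit 107)))) (XT.nd (nat_lit 156) (nat_lit 0) (nat_lit 0) (XT.nd (nat_lit 78) (nat_lit 76) (nat_lit 0) (XT.lf (nat_lit 0) (nat_lit 1455403005597) (nat_lit 228) (nat_lit 872501497967) (nat_lit 76) (nat_lit 1320718203660) (nat_lit 6) (nat_lit 5) (nat_lit 9) (nat_lit 5) (nat_lit 7) (nat_lit 4) (nat_lit 253) (nat_lit 241) (nat_lit 106)) (XT.lf (nat_lit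 0) (nat_lit 256510180817) (nat_lit 76) (nat_lit 1724014537395) (nat_lit 152) (nat_lit 2078028425568) (nat_lit 5) (nat_lit 5) (nat_lit 6) (nat_lit 5) (nat_lit 7) (nat_lit 4) (nat_lit 254) (nat_lit 241) (nat_lit 105))) (XT.nd (nat_lit 78) (nat_lit 0) (nat_lit 0) (XT.lf (nat_lit 0) (nat_lit 1652930879968) (nat_lit 76) (nat_lit 977091839199) (nat_lit 152) (nat_lit 1893109221955) (nat_lit 5) (nat_lit 5) (nat_lit 6) (nat_lit 5) (nat_lit 7) (nat_lit 4) (nat_lit 255) (nat_lit 241) (nat_lit 104)) (XT.lf (nat_lit 0) (nat_lit 3258814682188) (nat_lit 76) (nat_lit 118130736860) (nat_lit 152) (nat_lit 1680452139218) (nat_lit 5) (nat_lit 5) (nat_lit 6) (nat_lit 5) (nat_lit 7) (nat_lit 4) (nat_lit 256) (nat_lit 241) (nat_lit 103))))))))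
noncomputable def xc65 : XT := (XT.nd (nat_lit 31824) (nat_lit 0) (nat_lit 0) (XT.nd (nat_lit 30576) (nat_lit 0) (nat_lit 76) (XT.nd (nat_lit 624) (nat_lit 0) (nat_lit 0) (XT.nd (nat_lit 312) (nat_lit 152) (nat_lit 0) (XT.nd (nat_lit 156) (nat_lit 0) (nat_lit 0) (XT.nd (nat_lit 78) (nat_lit 76) (nat_lit 0) (XT.lf (nat_lit 0) (nat_lit 4271917890567) (nat_lit 152) (nat_lit 602233332700) (nat_lit 0) (nat_lit 792250089732) (nat_lit 5) (nat_lit 5) (nat_lit 7) (nat_lit 4) (nat_lit 5) (nat_lit 4) (nat_lit 257) (nat_lit 241) (nat_lit 102)) (XT.lf (nat_lit 0) (nat_lit 842992378419) (nat_lit 76) (nat_lit 4498675643343) (nat_lit 76) (nat_lit 1019007840849) (nat_lit 4) (nat_lit 4) (nat_lit 5) (nat_lit 5) (nat_lit 5) (nat_lit 4) (nat_lit 258) (nat_lit 241) (nat_lit 101))) (XT.nd (nat_lit 78) (nat_lit 0) (nat_lit 0) (XT.lf (nat_lit 0) (nat_lit 2572684759100) (nat_lit 76) (nat_lit 4030676291417)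 (nat_lit 76) (nat_lit 551008487479) (nat_lit 4) (nat_lit 4) (nat_lit 5) (nat_lit 5) (nat_lit 5) (nat_lit 4) (nat_lit 259) (nat_lit 241) (nat_lit 100)) (XT.lf (nat_lit 0) (nat_lit 4561830995641) (nat_lit 76) (nat_lit 3492477037182) (nat_lit 76) (nat_lit 12809231990) (nat_lit 4) (nat_lit 4) (nat_lit 5) (nat_lit 5) (nat_lit 5) (nat_lit 4) (nat_lit 260) (nat_lit 241) (nat_lit 99)))) (XT.nd (nat_lit 156) (nat_lit 76) (nat_lit 0) (XT.nd (nat_lit 78) (nat_lit 0) (nat_lit 0) (XT.lf (nat_lit 0) (nat_lit 552158925181) (nat_lit 152) (nat_lit 2292526117143) (nat_lit 76) (nat_lit 6268327388493) (nat_lit 3) (nat_lit 5) (nat_lit 5) (nat_lit 5) (nat_lit 4) (nat_lit 4) (nat_lit 261) (nat_lit 241) (nat_lit 98)) (XT.lf (nat_lit 0) (nat_lit 1200560883948) (nat_lit 152) (nat_lit 898461906742) (nat_lit 76) (nat_lit 8216677586615) (nat_lit 3) (nat_lit 5) (nat_lit 5) (nat_lit 5) (nat_lit 4) (nat_lit 4) (nat_lit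 262) (nat_lit 241) (nat_lit 97))) (XT.nd (nat_lit 78) (nat_lit 0) (nat_lit 0) (XT.lf (nat_lit 0) (nat_lit 773581509744) (nat_lit 76) (nat_lit 1204673986907) (nat_lit 152) (nat_lit 9715731165103) (nat_lit 2) (nat_lit 5) (nat_lit 3) (nat_lit 5) (nat_lit 4) (nat_lit 4) (nat_lit 263) (nat_lit 241) (nat_lit 96)) (XT.lf (nat_lit 0) (nat_lit 2797406304434) (nat_lit 76) (nat_lit 122163050546) (nat_lit 152) (nat_lit 10352401775836) (nat_lit 2) (nat_lit 5) (nat_lit 3) (nat_lit 5) (nat_lit 4) (nat_lit 4) (nat_lit 264) (nat_lit 241) (nat_lit 95))))) (XT.nd (nat_lit 29640) (nat_lit 0) (nat_lit 608) (XT.nd (nat_lit 29484) (nat_lit 0) (nat_lit 760) (XT.nd (nat_lit 234) (nat_lit 0) (nat_lit 0) (XT.lf (nat_lit 0) (nat_lit 4048569920032) (nat_lit 152) (nat_lit 10008338081111) (nat_lit 0) (nat_lit 1022771824904) (nat_lit 2) (nat_lit 5) (nat_lit 4) (nat_lit 4) (nat_lit 2) (nat_lit 4) (nat_lit 265) (nat_lit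 241) (nat_lit 94)) (XT.lf (nat_lit 0) (nat_lit 8577293082145) (nat_lit 152) (nat_lit 8166720389367) (nat_lit 0) (nat_lit 5551494985778) (nat_lit 2) (nat_lit 5) (nat_lit 4) (nat_lit 4) (nat_lit 2) (nat_lit 4) (nat_lit 268) (nat_lit 241) (nat_lit 91))) (XT.nd (nat_lit 78) (nat_lit 0) (nat_lit 0) (XT.lf (nat_lit 0) (nat_lit 244961895942) (nat_lit 0) (nat_lit 244961895942) (nat_lit 228) (nat_lit 241913260225) (nat_lit 12) (nat_lit 5) (nat_lit 12) (nat_lit 3) (nat_lit 15) (nat_lit 3) (nat_lit 242) (nat_lit 242) (nat_lit 116)) (XT.lf (nat_lit 0) (nat_lit 1056523884211) (nat_lit 228) (nat_lit 446318045300) (nat_lit 304) (nat_lit 70129572246) (nat_lit 12) (nat_lit 5) (nat_lit 15) (nat_lit 3) (nat_lit 16) (nat_lit 5) (nat_lit 243) (nat_lit 242) (nat_lit 115)))) (XT.nd (nat_lit 156) (nat_lit 152) (nat_lit 0) (XT.nd (nat_lit 78) (nat_lit 0) (nat_lit 0) (XT.lf (nat_lit 76) (nat_lit 150278155026)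 (nat_lit 0) (nat_lit 1023975872842) (nat_lit 304) (nat_lit 519976621427) (nat_lit 13) (nat_lit 5) (nat_lit 12) (nat_lit 5) (nat_lit 16) (nat_lit 5) (nat_lit 244) (nat_lit 242) (nat_lit 114)) (XT.lf (nat_lit 76) (nat_lit 886523844732) (nat_lit 0) (nat_lit 446450106073) (nat_lit 304) (nat_lit 497205179583) (nat_lit 13) (nat_lit 5) (nat_lit 12) (nat_lit 5) (nat_lit 16) (nat_lit 5) (nat_lit 245) (nat_lit 242) (nat_lit 113))) (XT.nd (nat_lit 78) (nat_lit 228) (nat_lit 0) (XT.lf (nat_lit 0) (nat_lit 1524516539126) (nat_lit 228) (nat_lit 262328178936) (nat_lit 76) (nat_lit 198322964112) (nat_lit 13) (nat_lit 5) (nat_lit 16) (nat_lit 5) (nat_lit 14) (nat_lit 5) (nat_lit 246) (nat_lit 242) (nat_lit 112)) (XT.lf (nat_lit 0) (nat_lit 548796084745) (nat_lit 228) (nat_lit 1239978432578) (nat_lit 304) (nat_lit 368032399223) (nat_lit 10) (nat_lit 5) (nat_lit 13) (nat_lit 5) (nat_lit 14) (nat_lit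 5) (nat_lit 247) (nat_lit 242) (nat_lit 111)))))) (XT.nd (nat_lit 624) (nat_lit 152) (nat_lit 0) (XT.nd (nat_lit 312) (nat_lit 228) (nat_lit 0) (XT.nd (nat_lit 156) (nat_lit 76) (nat_lit 0) (XT.nd (nat_lit 78) (nat_lit 76) (nat_lit 0) (XT.lf (nat_lit 0) (nat_lit 1511071095574) (nat_lit 228) (nat_lit 595312703499) (nat_lit 304) (nat_lit 245751346032) (nat_lit 10) (nat_lit 5) (nat_lit 13) (nat_lit 5) (nat_lit 14) (nat_lit 5) (nat_lit 248) (nat_lit 242) (nat_lit 110)) (XT.lf (nat_lit 0) (nat_lit 38285443976) (nat_lit 76) (nat_lit 2440982084007) (nat_lit 152) (nat_lit 96350121777) (nat_lit 9) (nat_lit 5) (nat_lit 10) (nat_lit 5) (nat_lit 11) (nat_lit 4) (nat_lit 249) (nat_lit 242) (nat_lit 109))) (XT.nd (nat_lit 78) (nat_lit 0) (nat_lit 0) (XT.lf (nat_lit 0) (nat_lit 143149691809) (nat_lit 152) (nat_lit 1715532807045) (nat_lit 76) (nat_lit 962310353973) (nat_lit 8) (nat_lit 5) (nat_lit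 10) (nat_lit 5) (nat_lit 9) (nat_lit 5) (nat_lit 250) (nat_lit 242) (nat_lit 108)) (XT.lf (nat_lit 0) (nat_lit 408710058337) (nat_lit 152) (nat_lit 775051601875) (nat_lit 76) (nat_lit 1918724461299) (nat_lit 8) (nat_lit 5) (nat_lit 10) (nat_lit 5) (nat_lit 9) (nat_lit 5) (nat_lit 251) (nat_lit 242) (nat_lit 107)))) (XT.nd (nat_lit 156) (nat_lit 76) (nat_lit 0) (XT.nd (nat_lit 78) (nat_lit 0) (nat_lit 0) (XT.lf (nat_lit 0) (nat_lit 336455365276) (nat_lit 152) (nat_lit 391581012127) (nat_lit 228) (nat_lit 2696077218487) (nat_lit 6) (nat_lit 5) (nat_lit 8) (nat_lit 5) (nat_lit 9) (nat_lit 5) (nat_lit 252) (nat_lit 242) (nat_lit 106)) (XT.lf (nat_lit 0) (nat_lit 1159213298165) (nat_lit 228) (nat_lit 2109552070122) (nat_lit 76) (nat_lit 515627075085) (nat_lit 6) (nat_lit 5) (nat_lit 9) (nat_lit 5) (nat_lit 7) (nat_lit 4) (nat_lit 253) (nat_lit 242) (nat_lit 105))) (XT.nd (nat_lit 78) (nat_lit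 76) (nat_lit 0) (XT.lf (nat_lit 0) (nat_lit 1673713470590) (nat_lit 228) (nat_lit 1003376702310) (nat_lit 76) (nat_lit 1518825938065) (nat_lit 6) (nat_lit 5) (nat_lit 9) (nat_lit 5) (nat_lit 7) (nat_lit 4) (nat_lit 254) (nat_lit 242) (nat_lit 104)) (XT.lf (nat_lit 0) (nat_lit 294986727366) (nat_lit 76) (nat_lit 1982616711689) (nat_lit 152) (nat_lit 2389732674134) (nat_lit 5) (nat_lit 5) (nat_lit 6) (nat_lit 5) (nat_lit 7) (nat_lit 4) (nat_lit 255) (nat_lit 242) (nat_lit 103))))) (XT.nd (nat_lit 312) (nat_lit 76) (nat_lit 0) (XT.nd (nat_lit 156) (nat_lit 76) (nat_lit 0) (XT.nd (nat_lit 78) (nat_lit 0) (nat_lit 0) (XT.lf (nat_lit 0) (nat_lit 1900870528856) (nat_lit 76) (nat_lit 1123655609587) (nat_lit 152) (nat_lit 2177075591971) (nat_lit 5) (nat_lit 5) (nat_lit 6) (nat_lit 5) (nat_lit 7) (nat_lit 4) (nat_lit 256) (nat_lit 242) (nat_lit 102)) (XT.lf (nat_lit 0) (nat_lit 3747636899206)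 (nat_lit 76) (nat_lit 135850342614) (nat_lit 152) (nat_lit 1932519948556) (nat_lit 5) (nat_lit 5) (nat_lit 6) (nat_lit 5) (nat_lit 7) (nat_lit 4) (nat_lit 257) (nat_lit 242) (nat_lit 101))) (XT.nd (nat_lit 78) (nat_lit 76) (nat_lit 0) (XT.lf (nat_lit 0) (nat_lit 4912705582945) (nat_lit 152) (nat_lit 692568318585) (nat_lit 0) (nat_lit 911087606974) (nat_lit 5) (nat_lit 5) (nat_lit 7) (nat_lit 4) (nat_lit 5) (nat_lit 4) (nat_lit 258) (nat_lit 242) (nat_lit 100)) (XT.lf (nat_lit 0) (nat_lit 969441248565) (nat_lit 76) (nat_lit 5173476984662) (nat_lit 76) (nat_lit 1171859007437) (nat_lit 4) (nat_lit 4) (nat_lit 5) (nat_lit 5) (nat_lit 5) (nat_lit 4) (nat_lit 259) (nat_lit 242) (nat_lit 99)))) (XT.nd (nat_lit 156) (nat_lit 76) (nat_lit 0) (XT.nd (nat_lit 78) (nat_lit 0) (nat_lit 0) (XT.lf (nat_lit 0) (nat_lit 2958587484603) (nat_lit 76) (nat_lit 4635277730623) (nat_lit 76) (nat_lit 633659752306)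 (nat_lit 4) (nat_lit 4) (nat_lit 5) (nat_lit 5) (nat_lit 5) (nat_lit 4) (nat_lit 260) (nat_lit 242) (nat_lit 98)) (XT.lf (nat_lit 0) (nat_lit 5246105655107) (nat_lit 76) (nat_lit 4016348588841) (nat_lit 76) (nat_lit 14730609576) (nat_lit 4) (nat_lit 4) (nat_lit 5) (nat_lit 5) (nat_lit 5) (nat_lit 4) (nat_lit 261) (nat_lit 242) (nat_lit 97))) (XT.nd (nat_lit 78) (nat_lit 0) (nat_lit 0) (XT.lf (nat_lit 0) (nat_lit 634982769672) (nat_lit 152) (nat_lit 2636405025294) (nat_lit 76) (nat_lit 7208576499554) (nat_lit 3) (nat_lit 5) (nat_lit 5) (nat_lit 5) (nat_lit 4) (nat_lit 4) (nat_lit 262) (nat_lit 242) (nat_lit 96)) (XT.lf (nat_lit 0) (nat_lit 1380645021509) (nat_lit 152) (nat_lit 1033231184562) (nat_lit 76) (nat_lit 9449179227030) (nat_lit 3) (nat_lit 5) (nat_lit 5) (nat_lit 5) (nat_lit 4) (nat_lit 4) (nat_lit 263) (nat_lit 242) (nat_lit 95))))))) (XT.nd (nat_lit 30732) (nat_lit 0) (nat_lit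 76) (XT.nd (nat_lit 30108) (nat_lit 0) (nat_lit 228) (XT.nd (nat_lit 29796) (nat_lit 0) (nat_lit 608) (XT.nd (nat_lit 29640) (nat_lit 0) (nat_lit 760) (XT.nd (nat_lit 234) (nat_lit 0) (nat_lit 0) (XT.lf (nat_lit 0) (nat_lit 889618744025) (nat_lit 76) (nat_lit 1385375081768) (nat_lit 152) (nat_lit 11173090834480) (nat_lit 2) (nat_lit 5) (nat_lit 3) (nat_lit 5) (nat_lit 4) (nat_lit 4) (nat_lit 264) (nat_lit 242) (nat_lit 94)) (XT.lf (nat_lit 0) (nat_lit 6155648539354) (nat_lit 152) (nat_lit 10899693799236) (nat_lit 0) (nat_lit 2675980728175) (nat_lit 2) (nat_lit 5) (nat_lit 4) (nat_lit 4) (nat_lit 2) (nat_lit 4) (nat_lit 267) (nat_lit 242) (nat_lit 91))) (XT.nd (nat_lit 78) (nat_lit 0) (nat_lit 0) (XT.lf (nat_lit 0) (nat_lit 281706191754) (nat_lit 0) (nat_lit 281706191754) (nat_lit 228) (nat_lit 278200222481) (nat_lit 12) (nat_lit 5) (nat_lit 12) (nat_lit 3) (nat_lit 15) (nat_lit 3)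 (nat_lit 243) (nat_lit 243) (nat_lit 114)) (XT.lf (nat_lit 0) (nat_lit 1215002505745) (nat_lit 228) (nat_lit 513265724565) (nat_lit 304) (nat_lit 80648989989) (nat_lit 12) (nat_lit 5) (nat_lit 15) (nat_lit 3) (nat_lit 16) (nat_lit 5) (nat_lit 244) (nat_lit 243) (nat_lit 113)))) (XT.nd (nat_lit 156) (nat_lit 152) (nat_lit 0) (XT.nd (nat_lit 78) (nat_lit 0) (nat_lit 0) (XT.lf (nat_lit 76) (nat_lit 172819904559) (nat_lit 0) (nat_lit 1177572262406) (nat_lit 304) (nat_lit 597973073717) (nat_lit 13) (nat_lit 5) (nat_lit 12) (nat_lit 5) (nat_lit 16) (nat_lit 5) (nat_lit 245) (nat_lit 243) (nat_lit 112)) (XT.lf (nat_lit 76) (nat_lit 1019502444293) (nat_lit 0) (nat_lit 513417629495) (nat_lit 304) (nat_lit 571785920935) (nat_lit 13) (nat_lit 5) (nat_lit 12) (nat_lit 5) (nat_lit 16) (nat_lit 5) (nat_lit 246) (nat_lit 243) (nat_lit 111))) (XT.nd (nat_lit 78) (nat_lit 228) (nat_lit 0) (XT.lf (nat_lit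 0) (nat_lit 1753194046127) (nat_lit 228) (nat_lit 301677381093) (nat_lit 76) (nat_lit 228071402779) (nat_lit 13) (nat_lit 5) (nat_lit 16) (nat_lit 5) (nat_lit 14) (nat_lit 5) (nat_lit 247) (nat_lit 243) (nat_lit 110)) (XT.lf (nat_lit 0) (nat_lit 631115521019) (nat_lit 228) (nat_lit 1425975197602) (nat_lit 304) (nat_lit 423237231347) (nat_lit 10) (nat_lit 5) (nat_lit 13) (nat_lit 5) (nat_lit 14) (nat_lit 5) (nat_lit 248) (nat_lit 243) (nat_lit 109))))) (XT.nd (nat_lit 312) (nat_lit 228) (nat_lit 0) (XT.nd (nat_lit 156) (nat_lit 76) (nat_lit 0) (XT.nd (nat_lit 78) (nat_lit 76) (nat_lit 0) (XT.lf (nat_lit 0) (nat_lit 1737731780399) (nat_lit 228) (nat_lit 684609609143) (nat_lit 304) (nat_lit 282614023798) (nat_lit 10) (nat_lit 5) (nat_lit 13) (nat_lit 5) (nat_lit 14) (nat_lit 5) (nat_lit 249) (nat_lit 243) (nat_lit 108)) (XT.lf (nat_lit 0) (nat_lit 44028283506) (nat_lit 76) (nat_lit 2807129392540)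 (nat_lit 152) (nat_lit 110802617966) (nat_lit 9) (nat_lit 5) (nat_lit 10) (nat_lit 5) (nat_lit 11) (nat_lit 4) (nat_lit 250) (nat_lit 243) (nat_lit 107))) (XT.nd (nat_lit 78) (nat_lit 0) (nat_lit 0) (XT.lf (nat_lit 0) (nat_lit 164622163070) (nat_lit 152) (nat_lit 1972862706161) (nat_lit 76) (nat_lit 1106656908608) (nat_lit 8) (nat_lit 5) (nat_lit 10) (nat_lit 5) (nat_lit 9) (nat_lit 5) (nat_lit 251) (nat_lit 243) (nat_lit 106)) (XT.lf (nat_lit 0) (nat_lit 470016582295) (nat_lit 152) (nat_lit 891309323078) (nat_lit 76) (nat_lit 2206533131832) (nat_lit 8) (nat_lit 5) (nat_lit 10) (nat_lit 5) (nat_lit 9) (nat_lit 5) (nat_lit 252) (nat_lit 243) (nat_lit 105)))) (XT.nd (nat_lit 156) (nat_lit 76) (nat_lit 0) (XT.nd (nat_lit 78) (nat_lit 0) (nat_lit 0) (XT.lf (nat_lit 0) (nat_lit 386923688279) (nat_lit 152) (nat_lit 450318159712) (nat_lit 228) (nat_lit 3100488784966) (nat_lit 6) (nat_lit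 5) (nat_lit 8) (nat_lit 5) (nat_lit 9) (nat_lit 5) (nat_lit 253) (nat_lit 243) (nat_lit 104)) (XT.lf (nat_lit 0) (nat_lit 1333095305197) (nat_lit 228) (nat_lit 2425984862943) (nat_lit 76) (nat_lit 592971139701) (nat_lit 6) (nat_lit 5) (nat_lit 9) (nat_lit 5) (nat_lit 7) (nat_lit 4) (nat_lit 254) (nat_lit 243) (nat_lit 103))) (XT.nd (nat_lit 78) (nat_lit 76) (nat_lit 0) (XT.lf (nat_lit 0) (nat_lit 1924770501881) (nat_lit 228) (nat_lit 1153883192267) (nat_lit 76) (nat_lit 1746649831691) (nat_lit 6) (nat_lit 5) (nat_lit 9) (nat_lit 5) (nat_lit 7) (nat_lit 4) (nat_lit 255) (nat_lit 243) (nat_lit 102)) (XT.lf (nat_lit 0) (nat_lit 339234751161) (nat_lit 76) (nat_lit 2280009213667) (nat_lit 152) (nat_lit 2748192563709) (nat_lit 5) (nat_lit 5) (nat_lit 6) (nat_lit 5) (nat_lit 7) (nat_lit 4) (nat_lit 256) (nat_lit 243) (nat_lit 101)))))) (XT.nd (nat_lit 30264) (nat_lit 0) (nat_lit 456) (XT.nd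 (nat_lit 312) (nat_lit 76) (nat_lit 0) (XT.nd (nat_lit 156) (nat_lit 76) (nat_lit 0) (XT.nd (nat_lit 78) (nat_lit 0) (nat_lit 0) (XT.lf (nat_lit 0) (nat_lit 2186001120958) (nat_lit 76) (nat_lit 1292203946873) (nat_lit 152) (nat_lit 2503636920727) (nat_lit 5) (nat_lit 5) (nat_lit 6) (nat_lit 5) (nat_lit 7) (nat_lit 4) (nat_lit 257) (nat_lit 243) (nat_lit 100)) (XT.lf (nat_lit 0) (nat_lit 4309782445194) (nat_lit 76) (nat_lit 156227890395) (nat_lit 152) (nat_lit 2222397932109) (nat_lit 5) (nat_lit 5) (nat_lit 6) (nat_lit 5) (nat_lit 7) (nat_lit 4) (nat_lit 258) (nat_lit 243) (nat_lit 99))) (XT.nd (nat_lit 78) (nat_lit 76) (nat_lit 0) (XT.lf (nat_lit 0) (nat_lit 5649611427036) (nat_lit 152) (nat_lit 796453555771) (nat_lit 0) (nat_lit 1047750750881) (nat_lit 5) (nat_lit 5) (nat_lit 7) (nat_lit 4) (nat_lit 5) (nat_lit 4) (nat_lit 259) (nat_lit 243) (nat_lit 98)) (XT.lf (nat_lit 0) (nat_lit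 1114857445969) (nat_lit 76) (nat_lit 5949498528443) (nat_lit 76) (nat_lit 1347637851339) (nat_lit 4) (nat_lit 4) (nat_lit 5) (nat_lit 5) (nat_lit 5) (nat_lit 4) (nat_lit 260) (nat_lit 243) (nat_lit 97)))) (XT.nd (nat_lit 156) (nat_lit 76) (nat_lit 0) (XT.nd (nat_lit 78) (nat_lit 0) (nat_lit 0) (XT.lf (nat_lit 0) (nat_lit 3402375616093) (nat_lit 76) (nat_lit 5330569386809) (nat_lit 76) (nat_lit 728708708880) (nat_lit 4) (nat_lit 4) (nat_lit 5) (nat_lit 5) (nat_lit 5) (nat_lit 4) (nat_lit 261) (nat_lit 243) (nat_lit 96)) (XT.lf (nat_lit 0) (nat_lit 6033021511024) (nat_lit 76) (nat_lit 4618800874204) (nat_lit 76) (nat_lit 16940195558) (nat_lit 4) (nat_lit 4) (nat_lit 5) (nat_lit 5) (nat_lit 5) (nat_lit 4) (nat_lit 262) (nat_lit 243) (nat_lit 95))) (XT.nd (nat_lit 78) (nat_lit 0) (nat_lit 0) (XT.lf (nat_lit 0) (nat_lit 730230189443) (nat_lit 152) (nat_lit 3031865771965) (nat_lit 76) (nat_lit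 8289862976595) (nat_lit 3) (nat_lit 5) (nat_lit 5) (nat_lit 5) (nat_lit 4) (nat_lit 4) (nat_lit 263) (nat_lit 243) (nat_lit 94)) (XT.lf (nat_lit 0) (nat_lit 1587741778492) (nat_lit 152) (nat_lit 1188215856053) (nat_lit 76) (nat_lit 10866556112917) (nat_lit 3) (nat_lit 5) (nat_lit 5) (nat_lit 5) (nat_lit 4) (nat_lit 4) (nat_lit 264) (nat_lit 243) (nat_lit 93))))) (XT.nd (nat_lit 312) (nat_lit 228) (nat_lit 0) (XT.nd (nat_lit 156) (nat_lit 0) (nat_lit 0) (XT.nd (nat_lit 78) (nat_lit 0) (nat_lit 0) (XT.lf (nat_lit 0) (nat_lit 323962129154) (nat_lit 0) (nat_lit 323962129154) (nat_lit 228) (nat_lit 319930235606) (nat_lit 12) (nat_lit 5) (nat_lit 12) (nat_lit 3) (nat_lit 15) (nat_lit 3) (nat_lit 244) (nat_lit 244) (nat_lit 112)) (XT.lf (nat_lit 0) (nat_lit 1397252911022) (nat_lit 228) (nat_lit 590255562434) (nat_lit 304) (nat_lit 92746324806) (nat_lit 12) (nat_lit 5) (nat_lit 15) (nat_lit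 3) (nat_lit 16) (nat_lit 5) (nat_lit 245) (nat_lit 244) (nat_lit 111))) (XT.nd (nat_lit 78) (nat_lit 0) (nat_lit 0) (XT.lf (nat_lit 76) (nat_lit 198742910113) (nat_lit 0) (nat_lit 1354208108299) (nat_lit 304) (nat_lit 687669003830) (nat_lit 13) (nat_lit 5) (nat_lit 12) (nat_lit 5) (nat_lit 16) (nat_lit 5) (nat_lit 246) (nat_lit 244) (nat_lit 110)) (XT.lf (nat_lit 76) (nat_lit 1172427828216) (nat_lit 0) (nat_lit 590430279598) (nat_lit 304) (nat_lit 657553782167) (nat_lit 13) (nat_lit 5) (nat_lit 12) (nat_lit 5) (nat_lit 16) (nat_lit 5) (nat_lit 247) (nat_lit 244) (nat_lit 109)))) (XT.nd (nat_lit 156) (nat_lit 76) (nat_lit 0) (XT.nd (nat_lit 78) (nat_lit 228) (nat_lit 0) (XT.lf (nat_lit 0) (nat_lit 2016173172805) (nat_lit 228) (nat_lit 346928969593) (nat_lit 76) (nat_lit 262282108697) (nat_lit 13) (nat_lit 5) (nat_lit 16) (nat_lit 5) (nat_lit 14) (nat_lit 5) (nat_lit 248) (nat_lit 244)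 (nat_lit 108)) (XT.lf (nat_lit 0) (nat_lit 725782866988) (nat_lit 228) (nat_lit 1639871477345) (nat_lit 304) (nat_lit 486722795058) (nat_lit 10) (nat_lit 5) (nat_lit 13) (nat_lit 5) (nat_lit 14) (nat_lit 5) (nat_lit 249) (nat_lit 244) (nat_lit 107))) (XT.nd (nat_lit 78) (nat_lit 76) (nat_lit 0) (XT.lf (nat_lit 0) (nat_lit 1998391562951) (nat_lit 228) (nat_lit 787301050604) (nat_lit 304) (nat_lit 325006109115) (nat_lit 10) (nat_lit 5) (nat_lit 13) (nat_lit 5) (nat_lit 14) (nat_lit 5) (nat_lit 250) (nat_lit 244) (nat_lit 106)) (XT.lf (nat_lit 0) (nat_lit 50632543373) (nat_lit 76) (nat_lit 3228198798345) (nat_lit 152) (nat_lit 127422993967) (nat_lit 9) (nat_lit 5) (nat_lit 10) (nat_lit 5) (nat_lit 11) (nat_lit 4) (nat_lit 251) (nat_lit 244) (nat_lit 105))))))))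
noncomputable def xc66 : XT := (XT.nd (nat_lit 32214) (nat_lit 0) (nat_lit 76) (XT.nd (nat_lit 30966) (nat_lit 0) (nat_lit 76) (XT.nd (nat_lit 624) (nat_lit 152) (nat_lit 0) (XT.nd (nat_lit 312) (nat_lit 76) (nat_lit 0) (XT.nd (nat_lit 156) (nat_lit 152) (nat_lit 0) (XT.nd (nat_lit 78) (nat_lit 0) (nat_lit 0) (XT.lf (nat_lit 0) (nat_lit 189315500754) (nat_lit 152) (nat_lit 2268792095495) (nat_lit 76) (nat_lit 1272655446063) (nat_lit 8) (nat_lit 5) (nat_lit 10) (nat_lit 5) (nat_lit 9) (nat_lit 5) (nat_lit 252) (nat_lit 244) (nat_lit 104)) (XT.lf (nat_lit 0) (nat_lit 540519081139) (nat_lit 152) (nat_lit 1025005707113) (nat_lit 76) (nat_lit 2537513102618) (nat_lit 8) (nat_lit 5) (nat_lit 10) (nat_lit 5) (nat_lit 9) (nat_lit 5) (nat_lit 253) (nat_lit 244) (nat_lit 103))) (XT.nd (nat_lit 78) (nat_lit 0) (nat_lit 0) (XT.lf (nat_lit 0) (nat_lit 444962255292) (nat_lit 152) (nat_lit 517865880468)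 (nat_lit 228) (nat_lit 3565562090390) (nat_lit 6) (nat_lit 5) (nat_lit 8) (nat_lit 5) (nat_lit 9) (nat_lit 5) (nat_lit 254) (nat_lit 244) (nat_lit 102)) (XT.lf (nat_lit 0) (nat_lit 1533059610283) (nat_lit 228) (nat_lit 2789882579002) (nat_lit 76) (nat_lit 681916813193) (nat_lit 6) (nat_lit 5) (nat_lit 9) (nat_lit 5) (nat_lit 7) (nat_lit 4) (nat_lit 255) (nat_lit 244) (nat_lit 101)))) (XT.nd (nat_lit 156) (nat_lit 0) (nat_lit 0) (XT.nd (nat_lit 78) (nat_lit 76) (nat_lit 0) (XT.lf (nat_lit 0) (nat_lit 2213486085256) (nat_lit 228) (nat_lit 1326965659471) (nat_lit 76) (nat_lit 2008647308650) (nat_lit 6) (nat_lit 5) (nat_lit 9) (nat_lit 5) (nat_lit 7) (nat_lit 4) (nat_lit 256) (nat_lit 244) (nat_lit 100)) (XT.lf (nat_lit 0) (nat_lit 390119974943) (nat_lit 76) (nat_lit 2622010592107) (nat_lit 152) (nat_lit 3160421439535) (nat_lit 5) (nat_lit 5) (nat_lit 6) (nat_lit 5) (nat_lit 7) (nat_lit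 4) (nat_lit 257) (nat_lit 244) (nat_lit 99))) (XT.nd (nat_lit 78) (nat_lit 0) (nat_lit 0) (XT.lf (nat_lit 0) (nat_lit 2513901298761) (nat_lit 76) (nat_lit 1486034535764) (nat_lit 152) (nat_lit 2879182451245) (nat_lit 5) (nat_lit 5) (nat_lit 6) (nat_lit 5) (nat_lit 7) (nat_lit 4) (nat_lit 258) (nat_lit 244) (nat_lit 98)) (XT.lf (nat_lit 0) (nat_lit 4956249820372) (nat_lit 76) (nat_lit 179662071224) (nat_lit 152) (nat_lit 2555757615324) (nat_lit 5) (nat_lit 5) (nat_lit 6) (nat_lit 5) (nat_lit 7) (nat_lit 4) (nat_lit 259) (nat_lit 244) (nat_lit 97))))) (XT.nd (nat_lit 312) (nat_lit 76) (nat_lit 0) (XT.nd (nat_lit 156) (nat_lit 0) (nat_lit 0) (XT.nd (nat_lit 78) (nat_lit 76) (nat_lit 0) (XT.lf (nat_lit 0) (nat_lit 6497053146119) (nat_lit 152) (nat_lit 915921581121) (nat_lit 0) (nat_lit 1204913365676) (nat_lit 5) (nat_lit 5) (nat_lit 7) (nat_lit 4) (nat_lit 5) (nat_lit 4) (nat_lit 260)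 (nat_lit 244) (nat_lit 96)) (XT.lf (nat_lit 0) (nat_lit 1282086070516) (nat_lit 76) (nat_lit 6841923304747) (nat_lit 76) (nat_lit 1549783523586) (nat_lit 4) (nat_lit 4) (nat_lit 5) (nat_lit 5) (nat_lit 5) (nat_lit 4) (nat_lit 261) (nat_lit 244) (nat_lit 95))) (XT.nd (nat_lit 78) (nat_lit 0) (nat_lit 0) (XT.lf (nat_lit 0) (nat_lit 3912731965160) (nat_lit 76) (nat_lit 6130154792253) (nat_lit 76) (nat_lit 838015010469) (nat_lit 4) (nat_lit 4) (nat_lit 5) (nat_lit 5) (nat_lit 5) (nat_lit 4) (nat_lit 262) (nat_lit 244) (nat_lit 94)) (XT.lf (nat_lit 0) (nat_lit 6937974743464) (nat_lit 76) (nat_lit 5311621003094) (nat_lit 76) (nat_lit 19481220768) (nat_lit 4) (nat_lit 4) (nat_lit 5) (nat_lit 5) (nat_lit 5) (nat_lit 4) (nat_lit 263) (nat_lit 244) (nat_lit 93)))) (XT.nd (nat_lit 29874) (nat_lit 0) (nat_lit 684) (XT.nd (nat_lit 29796) (nat_lit 0) (nat_lit 684) (XT.lf (nat_lit 0) (nat_lit 839764721127)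 (nat_lit 152) (nat_lit 3486645632374) (nat_lit 76) (nat_lit 9533342424678) (nat_lit 3) (nat_lit 5) (nat_lit 5) (nat_lit 5) (nat_lit 4) (nat_lit 4) (nat_lit 264) (nat_lit 244) (nat_lit 92)) (XT.lf (nat_lit 0) (nat_lit 372556455057) (nat_lit 0) (nat_lit 372556455057) (nat_lit 228) (nat_lit 367919755637) (nat_lit 12) (nat_lit 5) (nat_lit 12) (nat_lit 3) (nat_lit 15) (nat_lit 3) (nat_lit 245) (nat_lit 245) (nat_lit 110))) (XT.nd (nat_lit 78) (nat_lit 0) (nat_lit 0) (XT.lf (nat_lit 0) (nat_lit 1606840869918) (nat_lit 228) (nat_lit 678793881058) (nat_lit 304) (nat_lit 106658263181) (nat_lit 12) (nat_lit 5) (nat_lit 15) (nat_lit 3) (nat_lit 16) (nat_lit 5) (nat_lit 246) (nat_lit 245) (nat_lit 109)) (XT.lf (nat_lit 76) (nat_lit 228554361655) (nat_lit 0) (nat_lit 1557339329482) (nat_lit 304) (nat_lit 790819331006) (nat_lit 13) (nat_lit 5) (nat_lit 12) (nat_lit 5) (nat_lit 16) (nat_lit 5) (nat_lit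 247) (nat_lit 245) (nat_lit 108)))))) (XT.nd (nat_lit 624) (nat_lit 152) (nat_lit 0) (XT.nd (nat_lit 312) (nat_lit 304) (nat_lit 0) (XT.nd (nat_lit 156) (nat_lit 152) (nat_lit 0) (XT.nd (nat_lit 78) (nat_lit 0) (nat_lit 76) (XT.lf (nat_lit 76) (nat_lit 1348292015513) (nat_lit 0) (nat_lit 678994825833) (nat_lit 304) (nat_lit 756186829145) (nat_lit 13) (nat_lit 5) (nat_lit 12) (nat_lit 5) (nat_lit 16) (nat_lit 5) (nat_lit 248) (nat_lit 245) (nat_lit 107)) (XT.lf (nat_lit 0) (nat_lit 2318599163666) (nat_lit 228) (nat_lit 398968300919) (nat_lit 76) (nat_lit 301624421599) (nat_lit 13) (nat_lit 5) (nat_lit 16) (nat_lit 5) (nat_lit 14) (nat_lit 5) (nat_lit 249) (nat_lit 245) (nat_lit 106))) (XT.nd (nat_lit 78) (nat_lit 0) (nat_lit 0) (XT.lf (nat_lit 0) (nat_lit 834650310508) (nat_lit 228) (nat_lit 1885852199025) (nat_lit 304) (nat_lit 559731198445) (nat_lit 10) (nat_lit 5) (nat_lit 13) (nat_lit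 5) (nat_lit 14) (nat_lit 5) (nat_lit 250) (nat_lit 245) (nat_lit 105)) (XT.lf (nat_lit 0) (nat_lit 2298150309108) (nat_lit 228) (nat_lit 905396208263) (nat_lit 304) (nat_lit 373757011680) (nat_lit 10) (nat_lit 5) (nat_lit 13) (nat_lit 5) (nat_lit 14) (nat_lit 5) (nat_lit 251) (nat_lit 245) (nat_lit 104)))) (XT.nd (nat_lit 156) (nat_lit 152) (nat_lit 0) (XT.nd (nat_lit 78) (nat_lit 76) (nat_lit 0) (XT.lf (nat_lit 0) (nat_lit 58227437991) (nat_lit 76) (nat_lit 3712428615771) (nat_lit 152) (nat_lit 146536430439) (nat_lit 9) (nat_lit 5) (nat_lit 10) (nat_lit 5) (nat_lit 11) (nat_lit 4) (nat_lit 252) (nat_lit 245) (nat_lit 103)) (XT.lf (nat_lit 0) (nat_lit 217712835867) (nat_lit 152) (nat_lit 2609110897275) (nat_lit 76) (nat_lit 1463553763852) (nat_lit 8) (nat_lit 5) (nat_lit 10) (nat_lit 5) (nat_lit 9) (nat_lit 5) (nat_lit 253) (nat_lit 245) (nat_lit 102))) (XT.nd (nat_lit 78) (nat_lit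 152) (nat_lit 0) (XT.lf (nat_lit 0) (nat_lit 621596952005) (nat_lit 152) (nat_lit 1178756552271) (nat_lit 76) (nat_lit 2918140068776) (nat_lit 8) (nat_lit 5) (nat_lit 10) (nat_lit 5) (nat_lit 9) (nat_lit 5) (nat_lit 254) (nat_lit 245) (nat_lit 101)) (XT.lf (nat_lit 0) (nat_lit 511706603998) (nat_lit 152) (nat_lit 595545760118) (nat_lit 228) (nat_lit 4100396394632) (nat_lit 6) (nat_lit 5) (nat_lit 8) (nat_lit 5) (nat_lit 9) (nat_lit 5) (nat_lit 255) (nat_lit 245) (nat_lit 100))))) (XT.nd (nat_lit 312) (nat_lit 76) (nat_lit 0) (XT.nd (nat_lit 156) (nat_lit 76) (nat_lit 0) (XT.nd (nat_lit 78) (nat_lit 0) (nat_lit 0) (XT.lf (nat_lit 0) (nat_lit 1763018558862) (nat_lit 228) (nat_lit 3208364955734) (nat_lit 76) (nat_lit 784204337089) (nat_lit 6) (nat_lit 5) (nat_lit 9) (nat_lit 5) (nat_lit 7) (nat_lit 4) (nat_lit 256) (nat_lit 245) (nat_lit 99)) (XT.lf (nat_lit 0) (nat_lit 2545509004163)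 (nat_lit 228) (nat_lit 1526010499593) (nat_lit 76) (nat_lit 2309944406615) (nat_lit 6) (nat_lit 5) (nat_lit 9) (nat_lit 5) (nat_lit 7) (nat_lit 4) (nat_lit 257) (nat_lit 245) (nat_lit 98))) (XT.nd (nat_lit 78) (nat_lit 0) (nat_lit 0) (XT.lf (nat_lit 0) (nat_lit 448637979583) (nat_lit 76) (nat_lit 3015312178192) (nat_lit 152) (nat_lit 3634484648864) (nat_lit 5) (nat_lit 5) (nat_lit 6) (nat_lit 5) (nat_lit 7) (nat_lit 4) (nat_lit 258) (nat_lit 245) (nat_lit 97)) (XT.lf (nat_lit 0) (nat_lit 2890986500879) (nat_lit 76) (nat_lit 1708939713755) (nat_lit 152) (nat_lit 3311059813191) (nat_lit 5) (nat_lit 5) (nat_lit 6) (nat_lit 5) (nat_lit 7) (nat_lit 4) (nat_lit 259) (nat_lit 245) (nat_lit 96)))) (XT.nd (nat_lit 156) (nat_lit 76) (nat_lit 0) (XT.nd (nat_lit 78) (nat_lit 0) (nat_lit 0) (XT.lf (nat_lit 0) (nat_lit 5699687299779) (nat_lit 76) (nat_lit 206611379843) (nat_lit 152) (nat_lit 2939121252631)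 (nat_lit 5) (nat_lit 5) (nat_lit 6) (nat_lit 5) (nat_lit 7) (nat_lit 4) (nat_lit 260) (nat_lit 245) (nat_lit 95)) (XT.lf (nat_lit 0) (nat_lit 7471611121838) (nat_lit 152) (nat_lit 1053309812228) (nat_lit 0) (nat_lit 1385650372163) (nat_lit 5) (nat_lit 5) (nat_lit 7) (nat_lit 4) (nat_lit 5) (nat_lit 4) (nat_lit 261) (nat_lit 245) (nat_lit 94))) (XT.nd (nat_lit 78) (nat_lit 0) (nat_lit 0) (XT.lf (nat_lit 0) (nat_lit 1474398986880) (nat_lit 76) (nat_lit 7868211798218) (nat_lit 76) (nat_lit 1782251048000) (nat_lit 4) (nat_lit 4) (nat_lit 5) (nat_lit 5) (nat_lit 5) (nat_lit 4) (nat_lit 262) (nat_lit 245) (nat_lit 93)) (XT.lf (nat_lit 0) (nat_lit 4499641764966) (nat_lit 76) (nat_lit 7049678009143) (nat_lit 76) (nat_lit 963717258453) (nat_lit 4) (nat_lit 4) (nat_lit 5) (nat_lit 5) (nat_lit 5) (nat_lit 4) (nat_lit 263) (nat_lit 245) (nat_lit 92))))))) (XT.nd (nat_lit 31044) (nat_lit 0) (nat_lit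 0) (XT.nd (nat_lit 30420) (nat_lit 0) (nat_lit 76) (XT.nd (nat_lit 30108) (nat_lit 0) (nat_lit 456) (XT.nd (nat_lit 29952) (nat_lit 0) (nat_lit 608) (XT.nd (nat_lit 29874) (nat_lit 0) (nat_lit 608) (XT.lf (nat_lit 0) (nat_lit 7978670959358) (nat_lit 76) (nat_lit 6108364151864) (nat_lit 76) (nat_lit 22403400764) (nat_lit 4) (nat_lit 4) (nat_lit 5) (nat_lit 5) (nat_lit 5) (nat_lit 4) (nat_lit 264) (nat_lit 245) (nat_lit 91)) (XT.lf (nat_lit 0) (nat_lit 428439928253) (nat_lit 0) (nat_lit 428439928253) (nat_lit 228) (nat_lit 423107707406) (nat_lit 12) (nat_lit 5) (nat_lit 12) (nat_lit 3) (nat_lit 15) (nat_lit 3) (nat_lit 246) (nat_lit 246) (nat_lit 108))) (XT.nd (nat_lit 78) (nat_lit 0) (nat_lit 0) (XT.lf (nat_lit 0) (nat_lit 1847867017225) (nat_lit 228) (nat_lit 780612951315) (nat_lit 304) (nat_lit 122656994836) (nat_lit 12) (nat_lit 5) (nat_lit 15) (nat_lit 3) (nat_lit 16) (nat_lit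 5) (nat_lit 247) (nat_lit 246) (nat_lit 107)) (XT.lf (nat_lit 76) (nat_lit 262837527264) (nat_lit 0) (nat_lit 1790940232639) (nat_lit 304) (nat_lit 909442212965) (nat_lit 13) (nat_lit 5) (nat_lit 12) (nat_lit 5) (nat_lit 16) (nat_lit 5) (nat_lit 248) (nat_lit 246) (nat_lit 106)))) (XT.nd (nat_lit 156) (nat_lit 152) (nat_lit 0) (XT.nd (nat_lit 78) (nat_lit 0) (nat_lit 76) (XT.lf (nat_lit 76) (nat_lit 1550535827719) (nat_lit 0) (nat_lit 780844052955) (nat_lit 304) (nat_lit 869614838132) (nat_lit 13) (nat_lit 5) (nat_lit 12) (nat_lit 5) (nat_lit 16) (nat_lit 5) (nat_lit 249) (nat_lit 246) (nat_lit 105)) (XT.lf (nat_lit 0) (nat_lit 2666389049513) (nat_lit 228) (nat_lit 458813535385) (nat_lit 76) (nat_lit 346868082267) (nat_lit 13) (nat_lit 5) (nat_lit 16) (nat_lit 5) (nat_lit 14) (nat_lit 5) (nat_lit 250) (nat_lit 246) (nat_lit 104))) (XT.nd (nat_lit 78) (nat_lit 0) (nat_lit 0) (XT.lf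 (nat_lit 0) (nat_lit 959847867271) (nat_lit 228) (nat_lit 2168730028938) (nat_lit 304) (nat_lit 643690866211) (nat_lit 10) (nat_lit 5) (nat_lit 13) (nat_lit 5) (nat_lit 14) (nat_lit 5) (nat_lit 251) (nat_lit 246) (nat_lit 103)) (XT.lf (nat_lit 0) (nat_lit 2642872864333) (nat_lit 228) (nat_lit 1041205639554) (nat_lit 304) (nat_lit 429820552997) (nat_lit 10) (nat_lit 5) (nat_lit 13) (nat_lit 5) (nat_lit 14) (nat_lit 5) (nat_lit 252) (nat_lit 246) (nat_lit 102))))) (XT.nd (nat_lit 312) (nat_lit 76) (nat_lit 0) (XT.nd (nat_lit 156) (nat_lit 152) (nat_lit 0) (XT.nd (nat_lit 78) (nat_lit 76) (nat_lit 0) (XT.lf (nat_lit 0) (nat_lit 66961563604) (nat_lit 76) (nat_lit 4269292906378) (nat_lit 152) (nat_lit 168516885460) (nat_lit 9) (nat_lit 5) (nat_lit 10) (nat_lit 5) (nat_lit 11) (nat_lit 4) (nat_lit 253) (nat_lit 246) (nat_lit 101)) (XT.lf (nat_lit 0) (nat_lit 250369768808) (nat_lit 152)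 (nat_lit 3000477522381) (nat_lit 76) (nat_lit 1683086829096) (nat_lit 8) (nat_lit 5) (nat_lit 10) (nat_lit 5) (nat_lit 9) (nat_lit 5) (nat_lit 254) (nat_lit 246) (nat_lit 100))) (XT.nd (nat_lit 78) (nat_lit 152) (nat_lit 0) (XT.lf (nat_lit 0) (nat_lit 714836501380) (nat_lit 152) (nat_lit 1355570026864) (nat_lit 76) (nat_lit 3355861079671) (nat_lit 8) (nat_lit 5) (nat_lit 10) (nat_lit 5) (nat_lit 9) (nat_lit 5) (nat_lit 255) (nat_lit 246) (nat_lit 99)) (XT.lf (nat_lit 0) (nat_lit 588462602471) (nat_lit 152) (nat_lit 684877622305) (nat_lit 228) (nat_lit 4715455846783) (nat_lit 6) (nat_lit 5) (nat_lit 8) (nat_lit 5) (nat_lit 9) (nat_lit 5) (nat_lit 256) (nat_lit 246) (nat_lit 98)))) (XT.nd (nat_lit 156) (nat_lit 76) (nat_lit 0) (XT.nd (nat_lit 78) (nat_lit 0) (nat_lit 0) (XT.lf (nat_lit 0) (nat_lit 2027471348013) (nat_lit 228) (nat_lit 3689619691443) (nat_lit 76) (nat_lit 901834989102)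 (nat_lit 6) (nat_lit 5) (nat_lit 9) (nat_lit 5) (nat_lit 7) (nat_lit 4) (nat_lit 257) (nat_lit 246) (nat_lit 97)) (XT.lf (nat_lit 0) (nat_lit 2927335359414) (nat_lit 228) (nat_lit 1754912067879) (nat_lit 76) (nat_lit 2656436068868) (nat_lit 6) (nat_lit 5) (nat_lit 9) (nat_lit 5) (nat_lit 7) (nat_lit 4) (nat_lit 258) (nat_lit 246) (nat_lit 96))) (XT.nd (nat_lit 78) (nat_lit 0) (nat_lit 0) (XT.lf (nat_lit 0) (nat_lit 515933682871) (nat_lit 76) (nat_lit 3467609002857) (nat_lit 152) (nat_lit 4179657341202) (nat_lit 5) (nat_lit 5) (nat_lit 6) (nat_lit 5) (nat_lit 7) (nat_lit 4) (nat_lit 259) (nat_lit 246) (nat_lit 95)) (XT.lf (nat_lit 0) (nat_lit 3324634481533) (nat_lit 76) (nat_lit 1965280669023) (nat_lit 152) (nat_lit 3807718780830) (nat_lit 5) (nat_lit 5) (nat_lit 6) (nat_lit 5) (nat_lit 7) (nat_lit 4) (nat_lit 260) (nat_lit 246) (nat_lit 94)))))) (XT.nd (nat_lit 30498) (nat_lit 0)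 (nat_lit 152) (XT.nd (nat_lit 30186) (nat_lit 0) (nat_lit 608) (XT.nd (nat_lit 156) (nat_lit 76) (nat_lit 0) (XT.nd (nat_lit 78) (nat_lit 0) (nat_lit 0) (XT.lf (nat_lit 0) (nat_lit 6554640399547) (nat_lit 76) (nat_lit 237603085259) (nat_lit 152) (nat_lit 3379989436752) (nat_lit 5) (nat_lit 5) (nat_lit 6) (nat_lit 5) (nat_lit 7) (nat_lit 4) (nat_lit 261) (nat_lit 246) (nat_lit 93)) (XT.lf (nat_lit 0) (nat_lit 8592352792988) (nat_lit 152) (nat_lit 1211306279479) (nat_lit 0) (nat_lit 1593497929224) (nat_lit 5) (nat_lit 5) (nat_lit 7) (nat_lit 4) (nat_lit 5) (nat_lit 4) (nat_lit 262) (nat_lit 246) (nat_lit 92))) (XT.nd (nat_lit 78) (nat_lit 0) (nat_lit 0) (XT.lf (nat_lit 0) (nat_lit 1695558839287) (nat_lit 76) (nat_lit 9048443566257) (nat_lit 76) (nat_lit 2049588702082) (nat_lit 4) (nat_lit 4) (nat_lit 5) (nat_lit 5) (nat_lit 5) (nat_lit 4) (nat_lit 263) (nat_lit 246) (nat_lit 91)) (XT.lf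 (nat_lit 0) (nat_lit 5174588033515) (nat_lit 76) (nat_lit 8107129709042) (nat_lit 76) (nat_lit 1108274844510) (nat_lit 4) (nat_lit 4) (nat_lit 5) (nat_lit 5) (nat_lit 5) (nat_lit 4) (nat_lit 264) (nat_lit 246) (nat_lit 90)))) (XT.nd (nat_lit 156) (nat_lit 0) (nat_lit 0) (XT.nd (nat_lit 78) (nat_lit 0) (nat_lit 0) (XT.lf (nat_lit 0) (nat_lit 492705921224) (nat_lit 0) (nat_lit 492705921224) (nat_lit 228) (nat_lit 486573854763) (nat_lit 12) (nat_lit 5) (nat_lit 12) (nat_lit 3) (nat_lit 15) (nat_lit 3) (nat_lit 247) (nat_lit 247) (nat_lit 106)) (XT.lf (nat_lit 0) (nat_lit 2125047082526) (nat_lit 228) (nat_lit 897704885013) (nat_lit 304) (nat_lit 141055538147) (nat_lit 12) (nat_lit 5) (nat_lit 15) (nat_lit 3) (nat_lit 16) (nat_lit 5) (nat_lit 248) (nat_lit 247) (nat_lit 105))) (XT.nd (nat_lit 78) (nat_lit 0) (nat_lit 0) (XT.lf (nat_lit 76) (nat_lit 302263164944) (nat_lit 0) (nat_lit 2059581270359)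 (nat_lit 304) (nat_lit 1045858531531) (nat_lit 13) (nat_lit 5) (nat_lit 12) (nat_lit 5) (nat_lit 16) (nat_lit 5) (nat_lit 249) (nat_lit 247) (nat_lit 104)) (XT.lf (nat_lit 76) (nat_lit 1783116209347) (nat_lit 0) (nat_lit 897970663354) (nat_lit 304) (nat_lit 1000057052218) (nat_lit 13) (nat_lit 5) (nat_lit 12) (nat_lit 5) (nat_lit 16) (nat_lit 5) (nat_lit 250) (nat_lit 247) (nat_lit 103))))) (XT.nd (nat_lit 312) (nat_lit 228) (nat_lit 0) (XT.nd (nat_lit 156) (nat_lit 76) (nat_lit 0) (XT.nd (nat_lit 78) (nat_lit 228) (nat_lit 0) (XT.lf (nat_lit 0) (nat_lit 3066347415483) (nat_lit 228) (nat_lit 527635557624) (nat_lit 76) (nat_lit 398898292662) (nat_lit 13) (nat_lit 5) (nat_lit 16) (nat_lit 5) (nat_lit 14) (nat_lit 5) (nat_lit 251) (nat_lit 247) (nat_lit 102)) (XT.lf (nat_lit 0) (nat_lit 1103825055064) (nat_lit 228) (nat_lit 2494039533324) (nat_lit 304) (nat_lit 740244487067) (nat_lit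 10) (nat_lit 5) (nat_lit 13) (nat_lit 5) (nat_lit 14) (nat_lit 5) (nat_lit 252) (nat_lit 247) (nat_lit 101))) (XT.nd (nat_lit 78) (nat_lit 76) (nat_lit 0) (XT.lf (nat_lit 0) (nat_lit 3039303800680) (nat_lit 228) (nat_lit 1197386485526) (nat_lit 304) (nat_lit 494293628055) (nat_lit 10) (nat_lit 5) (nat_lit 13) (nat_lit 5) (nat_lit 14) (nat_lit 5) (nat_lit 253) (nat_lit 247) (nat_lit 100)) (XT.lf (nat_lit 0) (nat_lit 77005805641) (nat_lit 76) (nat_lit 4909686841004) (nat_lit 152) (nat_lit 193794411062) (nat_lit 9) (nat_lit 5) (nat_lit 10) (nat_lit 5) (nat_lit 11) (nat_lit 4) (nat_lit 254) (nat_lit 247) (nat_lit 99)))) (XT.nd (nat_lit 156) (nat_lit 152) (nat_lit 0) (XT.nd (nat_lit 78) (nat_lit 0) (nat_lit 0) (XT.lf (nat_lit 0) (nat_lit 287925239846) (nat_lit 152) (nat_lit 3450549143565) (nat_lit 76) (nat_lit 1935549853963) (nat_lit 8) (nat_lit 5) (nat_lit 10) (nat_lit 5) (nat_lit 9)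 (nat_lit 5) (nat_lit 255) (nat_lit 247) (nat_lit 98)) (XT.lf (nat_lit 0) (nat_lit 822061981559) (nat_lit 152) (nat_lit 1558905524657) (nat_lit 76) (nat_lit 3859240242059) (nat_lit 8) (nat_lit 5) (nat_lit 10) (nat_lit 5) (nat_lit 9) (nat_lit 5) (nat_lit 256) (nat_lit 247) (nat_lit 97))) (XT.nd (nat_lit 78) (nat_lit 0) (nat_lit 0) (XT.lf (nat_lit 0) (nat_lit 676731998795) (nat_lit 152) (nat_lit 787609264267) (nat_lit 228) (nat_lit 5422774218474) (nat_lit 6) (nat_lit 5) (nat_lit 8) (nat_lit 5) (nat_lit 9) (nat_lit 5) (nat_lit 257) (nat_lit 247) (nat_lit 96)) (XT.lf (nat_lit 0) (nat_lit 2331592054238) (nat_lit 228) (nat_lit 4243062639374) (nat_lit 76) (nat_lit 1037110238564) (nat_lit 6) (nat_lit 5) (nat_lit 9) (nat_lit 5) (nat_lit 7) (nat_lit 4) (nat_lit 258) (nat_lit 247) (nat_lit 95))))))))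
noncomputable def xc67 : XT := (XT.nd (nat_lit 31278) (nat_lit 0) (nat_lit 0) (XT.nd (nat_lit 30654) (nat_lit 0) (nat_lit 76) (XT.nd (nat_lit 312) (nat_lit 0) (nat_lit 0) (XT.nd (nat_lit 156) (nat_lit 0) (nat_lit 0) (XT.nd (nat_lit 78) (nat_lit 76) (nat_lit 0) (XT.lf (nat_lit 0) (nat_lit 3366435666825) (nat_lit 228) (nat_lit 2018148873030) (nat_lit 76) (nat_lit 3054901480152) (nat_lit 6) (nat_lit 5) (nat_lit 9) (nat_lit 5) (nat_lit 7) (nat_lit 4) (nat_lit 259) (nat_lit 247) (nat_lit 94)) (XT.lf (nat_lit 0) (nat_lit 593323740104) (nat_lit 76) (nat_lit 3987750351724) (nat_lit 152) (nat_lit 4806605938609) (nat_lit 5) (nat_lit 5) (nat_lit 6) (nat_lit 5) (nat_lit 7) (nat_lit 4) (nat_lit 260) (nat_lit 247) (nat_lit 93))) (XT.nd (nat_lit 78) (nat_lit 0) (nat_lit 0) (XT.lf (nat_lit 0) (nat_lit 3823329657938) (nat_lit 76) (nat_lit 2260072768019) (nat_lit 152) (nat_lit 4378876594672) (nat_lit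 5) (nat_lit 5) (nat_lit 6) (nat_lit 5) (nat_lit 7) (nat_lit 4) (nat_lit 261) (nat_lit 247) (nat_lit 92)) (XT.lf (nat_lit 0) (nat_lit 7537836463111) (nat_lit 76) (nat_lit 273243546867) (nat_lit 152) (nat_lit 3886987849411) (nat_lit 5) (nat_lit 5) (nat_lit 6) (nat_lit 5) (nat_lit 7) (nat_lit 4) (nat_lit 262) (nat_lit 247) (nat_lit 91)))) (XT.nd (nat_lit 30186) (nat_lit 0) (nat_lit 532) (XT.nd (nat_lit 30108) (nat_lit 0) (nat_lit 532) (XT.lf (nat_lit 0) (nat_lit 9881205714110) (nat_lit 152) (nat_lit 1393002217935) (nat_lit 0) (nat_lit 1832522619542) (nat_lit 5) (nat_lit 5) (nat_lit 7) (nat_lit 4) (nat_lit 5) (nat_lit 4) (nat_lit 263) (nat_lit 247) (nat_lit 90)) (XT.lf (nat_lit 0) (nat_lit 566611812231) (nat_lit 0) (nat_lit 566611812231) (nat_lit 228) (nat_lit 559559926359) (nat_lit 12) (nat_lit 5) (nat_lit 12) (nat_lit 3) (nat_lit 15) (nat_lit 3) (nat_lit 248) (nat_lit 248) (nat_lit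 104))) (XT.nd (nat_lit 78) (nat_lit 0) (nat_lit 0) (XT.lf (nat_lit 0) (nat_lit 2443804154521) (nat_lit 228) (nat_lit 1032360610960) (nat_lit 304) (nat_lit 162213864396) (nat_lit 12) (nat_lit 5) (nat_lit 15) (nat_lit 3) (nat_lit 16) (nat_lit 5) (nat_lit 249) (nat_lit 248) (nat_lit 103)) (XT.lf (nat_lit 76) (nat_lit 347602646181) (nat_lit 0) (nat_lit 2368518463048) (nat_lit 304) (nat_lit 1202737301145) (nat_lit 13) (nat_lit 5) (nat_lit 12) (nat_lit 5) (nat_lit 16) (nat_lit 5) (nat_lit 250) (nat_lit 248) (nat_lit 102))))) (XT.nd (nat_lit 312) (nat_lit 304) (nat_lit 0) (XT.nd (nat_lit 156) (nat_lit 152) (nat_lit 0) (XT.nd (nat_lit 78) (nat_lit 0) (nat_lit 76) (XT.lf (nat_lit 76) (nat_lit 2050583646398) (nat_lit 0) (nat_lit 1032666264713) (nat_lit 304) (nat_lit 1150065601255) (nat_lit 13) (nat_lit 5) (nat_lit 12) (nat_lit 5) (nat_lit 16) (nat_lit 5) (nat_lit 251) (nat_lit 248) (nat_lit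 101)) (XT.lf (nat_lit 0) (nat_lit 3526299534264) (nat_lit 228) (nat_lit 606780885166) (nat_lit 76) (nat_lit 458733035091) (nat_lit 13) (nat_lit 5) (nat_lit 16) (nat_lit 5) (nat_lit 14) (nat_lit 5) (nat_lit 252) (nat_lit 248) (nat_lit 100))) (XT.nd (nat_lit 78) (nat_lit 0) (nat_lit 0) (XT.lf (nat_lit 0) (nat_lit 1269398819148) (nat_lit 228) (nat_lit 2868145463356) (nat_lit 304) (nat_lit 851281153266) (nat_lit 10) (nat_lit 5) (nat_lit 13) (nat_lit 5) (nat_lit 14) (nat_lit 5) (nat_lit 253) (nat_lit 248) (nat_lit 99)) (XT.lf (nat_lit 0) (nat_lit 3495199375847) (nat_lit 228) (nat_lit 1376994458384) (nat_lit 304) (nat_lit 568437666297) (nat_lit 10) (nat_lit 5) (nat_lit 13) (nat_lit 5) (nat_lit 14) (nat_lit 5) (nat_lit 254) (nat_lit 248) (nat_lit 98)))) (XT.nd (nat_lit 156) (nat_lit 152) (nat_lit 0) (XT.nd (nat_lit 78) (nat_lit 76) (nat_lit 0) (XT.lf (nat_lit 0) (nat_lit 88556682156) (nat_lit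 76) (nat_lit 5646139866149) (nat_lit 152) (nat_lit 222863567264) (nat_lit 9) (nat_lit 5) (nat_lit 10) (nat_lit 5) (nat_lit 11) (nat_lit 4) (nat_lit 255) (nat_lit 248) (nat_lit 97)) (XT.lf (nat_lit 0) (nat_lit 331114030146) (nat_lit 152) (nat_lit 3968131509677) (nat_lit 76) (nat_lit 2225882332438) (nat_lit 8) (nat_lit 5) (nat_lit 10) (nat_lit 5) (nat_lit 9) (nat_lit 5) (nat_lit 256) (nat_lit 248) (nat_lit 96))) (XT.nd (nat_lit 78) (nat_lit 152) (nat_lit 0) (XT.lf (nat_lit 0) (nat_lit 945371282552) (nat_lit 152) (nat_lit 1792741348639) (nat_lit 76) (nat_lit 4438126278699) (nat_lit 8) (nat_lit 5) (nat_lit 10) (nat_lit 5) (nat_lit 9) (nat_lit 5) (nat_lit 257) (nat_lit 248) (nat_lit 95)) (XT.lf (nat_lit 0) (nat_lit 778241803116) (nat_lit 152) (nat_lit 905750652861) (nat_lit 228) (nat_lit 6236190347217) (nat_lit 6) (nat_lit 5) (nat_lit 8) (nat_lit 5) (nat_lit 9) (nat_lit 5) (nat_lit 258)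 (nat_lit 248) (nat_lit 94)))))) (XT.nd (nat_lit 30810) (nat_lit 0) (nat_lit 76) (XT.nd (nat_lit 30498) (nat_lit 0) (nat_lit 532) (XT.nd (nat_lit 156) (nat_lit 76) (nat_lit 0) (XT.nd (nat_lit 78) (nat_lit 0) (nat_lit 0) (XT.lf (nat_lit 0) (nat_lit 2681330865416) (nat_lit 228) (nat_lit 4879522030906) (nat_lit 76) (nat_lit 1192676775177) (nat_lit 6) (nat_lit 5) (nat_lit 9) (nat_lit 5) (nat_lit 7) (nat_lit 4) (nat_lit 259) (nat_lit 248) (nat_lit 93)) (XT.lf (nat_lit 0) (nat_lit 3871401019494) (nat_lit 228) (nat_lit 2320871200181) (nat_lit 76) (nat_lit 3513136702896) (nat_lit 6) (nat_lit 5) (nat_lit 9) (nat_lit 5) (nat_lit 7) (nat_lit 4) (nat_lit 260) (nat_lit 248) (nat_lit 92))) (XT.nd (nat_lit 78) (nat_lit 0) (nat_lit 0) (XT.lf (nat_lit 0) (nat_lit 682322304751) (nat_lit 76) (nat_lit 4585912903303) (nat_lit 152) (nat_lit 5527596826546) (nat_lit 5) (nat_lit 5) (nat_lit 6) (nat_lit 5)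 (nat_lit 7) (nat_lit 4) (nat_lit 261) (nat_lit 248) (nat_lit 91)) (XT.lf (nat_lit 0) (nat_lit 4396829109787) (nat_lit 76) (nat_lit 2599083682195) (nat_lit 152) (nat_lit 5035708081392) (nat_lit 5) (nat_lit 5) (nat_lit 6) (nat_lit 5) (nat_lit 7) (nat_lit 4) (nat_lit 262) (nat_lit 248) (nat_lit 90)))) (XT.nd (nat_lit 156) (nat_lit 0) (nat_lit 0) (XT.nd (nat_lit 78) (nat_lit 0) (nat_lit 0) (XT.lf (nat_lit 0) (nat_lit 651603586200) (nat_lit 0) (nat_lit 651603586200) (nat_lit 228) (nat_lit 643493910307) (nat_lit 12) (nat_lit 5) (nat_lit 12) (nat_lit 3) (nat_lit 15) (nat_lit 3) (nat_lit 249) (nat_lit 249) (nat_lit 102)) (XT.lf (nat_lit 0) (nat_lit 2810374784970) (nat_lit 228) (nat_lit 1187214697459) (nat_lit 304) (nat_lit 186545940674) (nat_lit 12) (nat_lit 5) (nat_lit 15) (nat_lit 3) (nat_lit 16) (nat_lit 5) (nat_lit 250) (nat_lit 249) (nat_lit 101))) (XT.nd (nat_lit 78) (nat_lit 0) (nat_lit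 0) (XT.lf (nat_lit 76) (nat_lit 399743048020) (nat_lit 0) (nat_lit 2723796234119) (nat_lit 304) (nat_lit 1383147888668) (nat_lit 13) (nat_lit 5) (nat_lit 12) (nat_lit 5) (nat_lit 16) (nat_lit 5) (nat_lit 251) (nat_lit 249) (nat_lit 100)) (XT.lf (nat_lit 76) (nat_lit 2358171197628) (nat_lit 0) (nat_lit 1187566205824) (nat_lit 304) (nat_lit 1322575434792) (nat_lit 13) (nat_lit 5) (nat_lit 12) (nat_lit 5) (nat_lit 16) (nat_lit 5) (nat_lit 252) (nat_lit 249) (nat_lit 99))))) (XT.nd (nat_lit 312) (nat_lit 228) (nat_lit 0) (XT.nd (nat_lit 156) (nat_lit 76) (nat_lit 0) (XT.nd (nat_lit 78) (nat_lit 228) (nat_lit 0) (XT.lf (nat_lit 0) (nat_lit 4055244469288) (nat_lit 228) (nat_lit 697798013327) (nat_lit 76) (nat_lit 527542989243) (nat_lit 13) (nat_lit 5) (nat_lit 16) (nat_lit 5) (nat_lit 14) (nat_lit 5) (nat_lit 253) (nat_lit 249) (nat_lit 98)) (XT.lf (nat_lit 0) (nat_lit 1459808646424) (nat_lit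 228) (nat_lit 3298367282885) (nat_lit 304) (nat_lit 978973321067) (nat_lit 10) (nat_lit 5) (nat_lit 13) (nat_lit 5) (nat_lit 14) (nat_lit 5) (nat_lit 254) (nat_lit 249) (nat_lit 97))) (XT.nd (nat_lit 78) (nat_lit 76) (nat_lit 0) (XT.lf (nat_lit 0) (nat_lit 4019479286053) (nat_lit 228) (nat_lit 1583543627164) (nat_lit 304) (nat_lit 653703311729) (nat_lit 10) (nat_lit 5) (nat_lit 13) (nat_lit 5) (nat_lit 14) (nat_lit 5) (nat_lit 255) (nat_lit 249) (nat_lit 96)) (XT.lf (nat_lit 0) (nat_lit 101840188766) (nat_lit 76) (nat_lit 6493060845312) (nat_lit 152) (nat_lit 256293098227) (nat_lit 9) (nat_lit 5) (nat_lit 10) (nat_lit 5) (nat_lit 11) (nat_lit 4) (nat_lit 256) (nat_lit 249) (nat_lit 95)))) (XT.nd (nat_lit 156) (nat_lit 152) (nat_lit 0) (XT.nd (nat_lit 78) (nat_lit 0) (nat_lit 0) (XT.lf (nat_lit 0) (nat_lit 380781137937) (nat_lit 152) (nat_lit 4563351232028) (nat_lit 76) (nat_lit 2559764682591)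 (nat_lit 8) (nat_lit 5) (nat_lit 10) (nat_lit 5) (nat_lit 9) (nat_lit 5) (nat_lit 257) (nat_lit 249) (nat_lit 94)) (XT.lf (nat_lit 0) (nat_lit 1087176977777) (nat_lit 152) (nat_lit 2061652547369) (nat_lit 76) (nat_lit 5103845220754) (nat_lit 8) (nat_lit 5) (nat_lit 10) (nat_lit 5) (nat_lit 9) (nat_lit 5) (nat_lit 258) (nat_lit 249) (nat_lit 93))) (XT.nd (nat_lit 78) (nat_lit 0) (nat_lit 0) (XT.lf (nat_lit 0) (nat_lit 894978076988) (nat_lit 152) (nat_lit 1041613249998) (nat_lit 228) (nat_lit 7171618896255) (nat_lit 6) (nat_lit 5) (nat_lit 8) (nat_lit 5) (nat_lit 9) (nat_lit 5) (nat_lit 259) (nat_lit 249) (nat_lit 92)) (XT.lf (nat_lit 0) (nat_lit 3083530497529) (nat_lit 228) (nat_lit 5611450332234) (nat_lit 76) (nat_lit 1371578292081) (nat_lit 6) (nat_lit 5) (nat_lit 9) (nat_lit 5) (nat_lit 7) (nat_lit 4) (nat_lit 260) (nat_lit 249) (nat_lit 91)))))))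
noncomputable def xc68 : XT := (XT.nd (nat_lit 62088) (nat_lit 0) (nat_lit 228) (XT.nd (nat_lit 30966) (nat_lit 0) (nat_lit 0) (XT.nd (nat_lit 30654) (nat_lit 0) (nat_lit 304) (XT.nd (nat_lit 30498) (nat_lit 0) (nat_lit 456) (XT.nd (nat_lit 30420) (nat_lit 0) (nat_lit 456) (XT.lf (nat_lit 0) (nat_lit 4452111174419) (nat_lit 228) (nat_lit 2669001877331) (nat_lit 76) (nat_lit 4040107208875) (nat_lit 6) (nat_lit 5) (nat_lit 9) (nat_lit 5) (nat_lit 7) (nat_lit 4) (nat_lit 261) (nat_lit 249) (nat_lit 90)) (XT.lf (nat_lit 0) (nat_lit 749344125744) (nat_lit 0) (nat_lit 749344125744) (nat_lit 228) (nat_lit 740017993069) (nat_lit 12) (nat_lit 5) (nat_lit 12) (nat_lit 3) (nat_lit 15) (nat_lit 3) (nat_lit 250) (nat_lit 250) (nat_lit 100))) (XT.nd (nat_lit 78) (nat_lit 0) (nat_lit 0) (XT.lf (nat_lit 0) (nat_lit 3231931008214) (nat_lit 228) (nat_lit 1365296898187) (nat_lit 304) (nat_lit 214527829218)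 (nat_lit 12) (nat_lit 5) (nat_lit 15) (nat_lit 3) (nat_lit 16) (nat_lit 5) (nat_lit 251) (nat_lit 250) (nat_lit 99)) (XT.lf (nat_lit 76) (nat_lit 459704508937) (nat_lit 0) (nat_lit 3132365670458) (nat_lit 304) (nat_lit 1590620066184) (nat_lit 13) (nat_lit 5) (nat_lit 12) (nat_lit 5) (nat_lit 16) (nat_lit 5) (nat_lit 252) (nat_lit 250) (nat_lit 98)))) (XT.nd (nat_lit 156) (nat_lit 152) (nat_lit 0) (XT.nd (nat_lit 78) (nat_lit 0) (nat_lit 76) (XT.lf (nat_lit 76) (nat_lit 2711896880502) (nat_lit 0) (nat_lit 1365701137759) (nat_lit 304) (nat_lit 1520961744981) (nat_lit 13) (nat_lit 5) (nat_lit 12) (nat_lit 5) (nat_lit 16) (nat_lit 5) (nat_lit 253) (nat_lit 250) (nat_lit 97)) (XT.lf (nat_lit 0) (nat_lit 4663531143375) (nat_lit 228) (nat_lit 802467711838) (nat_lit 76) (nat_lit 606674436788) (nat_lit 13) (nat_lit 5) (nat_lit 16) (nat_lit 5) (nat_lit 14) (nat_lit 5) (nat_lit 254) (nat_lit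 250) (nat_lit 96))) (XT.nd (nat_lit 78) (nat_lit 0) (nat_lit 0) (XT.lf (nat_lit 0) (nat_lit 1678779946717) (nat_lit 228) (nat_lit 3793122375337) (nat_lit 304) (nat_lit 1125819315304) (nat_lit 10) (nat_lit 5) (nat_lit 13) (nat_lit 5) (nat_lit 14) (nat_lit 5) (nat_lit 255) (nat_lit 250) (nat_lit 95)) (XT.lf (nat_lit 0) (nat_lit 4622401181857) (nat_lit 228) (nat_lit 1821075171256) (nat_lit 304) (nat_lit 751758805077) (nat_lit 10) (nat_lit 5) (nat_lit 13) (nat_lit 5) (nat_lit 14) (nat_lit 5) (nat_lit 256) (nat_lit 250) (nat_lit 94))))) (XT.nd (nat_lit 30810) (nat_lit 0) (nat_lit 456) (XT.nd (nat_lit 156) (nat_lit 152) (nat_lit 0) (XT.nd (nat_lit 78) (nat_lit 76) (nat_lit 0) (XT.lf (nat_lit 0) (nat_lit 117116220322) (nat_lit 76) (nat_lit 7467019971533) (nat_lit 152) (nat_lit 294737059841) (nat_lit 9) (nat_lit 5) (nat_lit 10) (nat_lit 5) (nat_lit 11) (nat_lit 4) (nat_lit 257) (nat_lit 250)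 (nat_lit 93)) (XT.lf (nat_lit 0) (nat_lit 437898311099) (nat_lit 152) (nat_lit 5247853913731) (nat_lit 76) (nat_lit 2943729385198) (nat_lit 8) (nat_lit 5) (nat_lit 10) (nat_lit 5) (nat_lit 9) (nat_lit 5) (nat_lit 258) (nat_lit 250) (nat_lit 92))) (XT.nd (nat_lit 78) (nat_lit 152) (nat_lit 0) (XT.lf (nat_lit 0) (nat_lit 1250253526593) (nat_lit 152) (nat_lit 2370900426778) (nat_lit 76) (nat_lit 5869422004056) (nat_lit 8) (nat_lit 5) (nat_lit 10) (nat_lit 5) (nat_lit 9) (nat_lit 5) (nat_lit 259) (nat_lit 250) (nat_lit 91)) (XT.lf (nat_lit 0) (nat_lit 1029224791110) (nat_lit 152) (nat_lit 1197855236900) (nat_lit 228) (nat_lit 8247361728390) (nat_lit 6) (nat_lit 5) (nat_lit 8) (nat_lit 5) (nat_lit 9) (nat_lit 5) (nat_lit 260) (nat_lit 250) (nat_lit 90)))) (XT.nd (nat_lit 156) (nat_lit 0) (nat_lit 0) (XT.nd (nat_lit 78) (nat_lit 0) (nat_lit 0) (XT.lf (nat_lit 0) (nat_lit 861745745827) (nat_lit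 0) (nat_lit 861745745827) (nat_lit 228) (nat_lit 851020689168) (nat_lit 12) (nat_lit 5) (nat_lit 12) (nat_lit 3) (nat_lit 15) (nat_lit 3) (nat_lit 251) (nat_lit 251) (nat_lit 98)) (XT.lf (nat_lit 0) (nat_lit 3716720663603) (nat_lit 228) (nat_lit 1570091429973) (nat_lit 304) (nat_lit 246707001667) (nat_lit 12) (nat_lit 5) (nat_lit 15) (nat_lit 3) (nat_lit 16) (nat_lit 5) (nat_lit 252) (nat_lit 251) (nat_lit 97))) (XT.nd (nat_lit 78) (nat_lit 0) (nat_lit 0) (XT.lf (nat_lit 76) (nat_lit 528660188086) (nat_lit 0) (nat_lit 3602220521950) (nat_lit 304) (nat_lit 1829213071739) (nat_lit 13) (nat_lit 5) (nat_lit 12) (nat_lit 5) (nat_lit 16) (nat_lit 5) (nat_lit 253) (nat_lit 251) (nat_lit 96)) (XT.lf (nat_lit 76) (nat_lit 3118681415019) (nat_lit 0) (nat_lit 1570556309226) (nat_lit 304) (nat_lit 1749106002926) (nat_lit 13) (nat_lit 5) (nat_lit 12) (nat_lit 5) (nat_lit 16) (nat_lit 5) (nat_lit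 254) (nat_lit 251) (nat_lit 95)))))) (XT.nd (nat_lit 62400) (nat_lit 0) (nat_lit 228) (XT.nd (nat_lit 31122) (nat_lit 0) (nat_lit 76) (XT.nd (nat_lit 234) (nat_lit 76) (nat_lit 0) (XT.nd (nat_lit 156) (nat_lit 228) (nat_lit 0) (XT.lf (nat_lit 0) (nat_lit 5363060817673) (nat_lit 228) (nat_lit 922837865976) (nat_lit 76) (nat_lit 697675601671) (nat_lit 13) (nat_lit 5) (nat_lit 16) (nat_lit 5) (nat_lit 14) (nat_lit 5) (nat_lit 255) (nat_lit 251) (nat_lit 94)) (XT.lf (nat_lit 0) (nat_lit 5315761361325) (nat_lit 228) (nat_lit 2094236446957) (nat_lit 304) (nat_lit 864522623259) (nat_lit 10) (nat_lit 5) (nat_lit 13) (nat_lit 5) (nat_lit 14) (nat_lit 5) (nat_lit 257) (nat_lit 251) (nat_lit 92))) (XT.nd (nat_lit 30810) (nat_lit 0) (nat_lit 228) (XT.lf (nat_lit 0) (nat_lit 134683655822) (nat_lit 76) (nat_lit 8587072966829) (nat_lit 152) (nat_lit 338947616458) (nat_lit 9) (nat_lit 5) (nat_lit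 10) (nat_lit 5) (nat_lit 11) (nat_lit 4) (nat_lit 258) (nat_lit 251) (nat_lit 91)) (XT.lf (nat_lit 0) (nat_lit 991007608624) (nat_lit 0) (nat_lit 991007608624) (nat_lit 228) (nat_lit 978673790380) (nat_lit 12) (nat_lit 5) (nat_lit 12) (nat_lit 3) (nat_lit 15) (nat_lit 3) (nat_lit 252) (nat_lit 252) (nat_lit 96)))) (XT.nd (nat_lit 156) (nat_lit 152) (nat_lit 0) (XT.nd (nat_lit 78) (nat_lit 0) (nat_lit 0) (XT.lf (nat_lit 0) (nat_lit 4274228766287) (nat_lit 228) (nat_lit 1805605142244) (nat_lit 304) (nat_lit 283713050455) (nat_lit 12) (nat_lit 5) (nat_lit 15) (nat_lit 3) (nat_lit 16) (nat_lit 5) (nat_lit 253) (nat_lit 252) (nat_lit 95)) (XT.lf (nat_lit 76) (nat_lit 607959218422) (nat_lit 0) (nat_lit 4142553600941) (nat_lit 304) (nat_lit 2103595029193) (nat_lit 13) (nat_lit 5) (nat_lit 12) (nat_lit 5) (nat_lit 16) (nat_lit 5) (nat_lit 254) (nat_lit 252) (nat_lit 94))) (XT.nd (nat_lit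 156) (nat_lit 152) (nat_lit 0) (XT.lf (nat_lit 76) (nat_lit 3586483629119) (nat_lit 0) (nat_lit 1806139756217) (nat_lit 304) (nat_lit 2011471900489) (nat_lit 13) (nat_lit 5) (nat_lit 12) (nat_lit 5) (nat_lit 16) (nat_lit 5) (nat_lit 255) (nat_lit 252) (nat_lit 93)) (XT.lf (nat_lit 0) (nat_lit 2220186484333) (nat_lit 228) (nat_lit 5016404341412) (nat_lit 304) (nat_lit 1488896038835) (nat_lit 10) (nat_lit 5) (nat_lit 13) (nat_lit 5) (nat_lit 14) (nat_lit 5) (nat_lit 257) (nat_lit 252) (nat_lit 91))))) (XT.nd (nat_lit 312) (nat_lit 0) (nat_lit 0) (XT.nd (nat_lit 156) (nat_lit 0) (nat_lit 0) (XT.nd (nat_lit 78) (nat_lit 0) (nat_lit 0) (XT.lf (nat_lit 0) (nat_lit 1139658750615) (nat_lit 0) (nat_lit 1139658750615) (nat_lit 228) (nat_lit 1125474857301) (nat_lit 12) (nat_lit 5) (nat_lit 12) (nat_lit 3) (nat_lit 15) (nat_lit 3) (nat_lit 253) (nat_lit 253) (nat_lit 94)) (XT.lf (nat_lit 0) (nat_lit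 4915363083607) (nat_lit 228) (nat_lit 2076445911899) (nat_lit 304) (nat_lit 326270006918) (nat_lit 12) (nat_lit 5) (nat_lit 15) (nat_lit 3) (nat_lit 16) (nat_lit 5) (nat_lit 254) (nat_lit 253) (nat_lit 93))) (XT.nd (nat_lit 78) (nat_lit 0) (nat_lit 0) (XT.lf (nat_lit 76) (nat_lit 699153102791) (nat_lit 0) (nat_lit 4763936641610) (nat_lit 304) (nat_lit 2419134281071) (nat_lit 13) (nat_lit 5) (nat_lit 12) (nat_lit 5) (nat_lit 16) (nat_lit 5) (nat_lit 255) (nat_lit 253) (nat_lit 92)) (XT.lf (nat_lit 76) (nat_lit 4124456174883) (nat_lit 0) (nat_lit 2077060720109) (nat_lit 304) (nat_lit 2313192683388) (nat_lit 13) (nat_lit 5) (nat_lit 12) (nat_lit 5) (nat_lit 16) (nat_lit 5) (nat_lit 256) (nat_lit 253) (nat_lit 91)))) (XT.nd (nat_lit 31122) (nat_lit 0) (nat_lit 0) (XT.nd (nat_lit 31044) (nat_lit 76) (nat_lit 0) (XT.lf (nat_lit 0) (nat_lit 7092647935398) (nat_lit 228) (nat_lit 1220453073951)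 (nat_lit 76) (nat_lit 922675982293) (nat_lit 13) (nat_lit 5) (nat_lit 16) (nat_lit 5) (nat_lit 14) (nat_lit 5) (nat_lit 257) (nat_lit 253) (nat_lit 90)) (XT.lf (nat_lit 0) (nat_lit 1310607563735) (nat_lit 0) (nat_lit 1310607563735) (nat_lit 228) (nat_lit 1294296084659) (nat_lit 12) (nat_lit 5) (nat_lit 12) (nat_lit 3) (nat_lit 15) (nat_lit 3) (nat_lit 254) (nat_lit 254) (nat_lit 92))) (XT.nd (nat_lit 78) (nat_lit 0) (nat_lit 0) (XT.lf (nat_lit 0) (nat_lit 5652667547945) (nat_lit 228) (nat_lit 2387912797412) (nat_lit 304) (nat_lit 375210507119) (nat_lit 12) (nat_lit 5) (nat_lit 15) (nat_lit 3) (nat_lit 16) (nat_lit 5) (nat_lit 255) (nat_lit 254) (nat_lit 91)) (XT.nd (nat_lit 31200) (nat_lit 0) (nat_lit 0) (XT.lf (nat_lit 76) (nat_lit 804026069424) (nat_lit 0) (nat_lit 5478527138250) (nat_lit 304) (nat_lit 2782004421341) (nat_lit 13) (nat_lit 5) (nat_lit 12) (nat_lit 5) (nat_lit 16)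 (nat_lit 5) (nat_lit 256) (nat_lit 254) (nat_lit 90)) (XT.lf (nat_lit 0) (nat_lit 1507198698694) (nat_lit 0) (nat_lit 1507198698694) (nat_lit 228) (nat_lit 1488440496422) (nat_lit 12) (nat_lit 5) (nat_lit 12) (nat_lit 3) (nat_lit 15) (nat_lit 3) (nat_lit 255) (nat_lit 255) (nat_lit 90))))))))

set_option maxRecDepth 10000000 in
noncomputable def Tp : PT := (PT.nd (nat_lit 3166878) pc0 pc1)

set_option maxRecDepth 10000000 in
noncomputable def Tx : XT := (XT.nd (nat_lit 4964076) (nat_lit 0) (nat_lit 76) XT.nil (XT.nd (nat_lit 3031782) (nat_lit 0) (nat_lit 0) (XT.nd (nat_lit 1467258) (nat_lit 0) (nat_lit 0) (XT.nd (nat_lit 1030224) (nat_lit 0) (nat_lit 0) (XT.nd (nat_lit 747162) (nat_lit 0) (nat_lit 0) (XT.nd (nat_lit 529854) (nat_lit 0) (nat_lit 0) (XT.nd (nat_lit 374556) (nat_lit 0) (nat_lit 0) (XT.nd (nat_lit 280566) (nat_lit 0) (nat_lit 0) xc0 xc1) (XT.nd (nat_lit 92664) (nat_lit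 0) (nat_lit 0) xc2 xc3)) (XT.nd (nat_lit 124020) (nat_lit 0) (nat_lit 0) (XT.nd (nat_lit 62400) (nat_lit 0) (nat_lit 0) xc4 xc5) (XT.nd (nat_lit 32916) (nat_lit 0) (nat_lit 0) xc6 xc7))) (XT.nd (nat_lit 156234) (nat_lit 0) (nat_lit 0) (XT.nd (nat_lit 64818) (nat_lit 0) (nat_lit 0) (XT.nd (nat_lit 32448) (nat_lit 0) (nat_lit 0) xc8 xc9) (XT.nd (nat_lit 59436) (nat_lit 0) (nat_lit 0) xc10 xc11)) (XT.nd (nat_lit 63648) (nat_lit 0) (nat_lit 0) (XT.nd (nat_lit 31902) (nat_lit 0) (nat_lit 0) xc12 xc13) (XT.nd (nat_lit 31590) (nat_lit 0) (nat_lit 0) xc14 (XT.nd (nat_lit 29016) (nat_lit 0) (nat_lit 0) xc15 xc16))))) (XT.nd (nat_lit 219726) (nat_lit 0) (nat_lit 0) (XT.nd (nat_lit 123708) (nat_lit 0) (nat_lit 0) (XT.nd (nat_lit 62400) (nat_lit 0) (nat_lit 0) (XT.nd (nat_lit 31356) (nat_lit 0) (nat_lit 0) xc17 xc18) (XT.nd (nat_lit 30732) (nat_lit 0) (nat_lit 0) xc19 xc20)) (XT.nd (nat_lit 60762)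 (nat_lit 0) (nat_lit 0) (XT.nd (nat_lit 30420) (nat_lit 0) (nat_lit 0) xc21 xc22) (XT.nd (nat_lit 30264) (nat_lit 0) (nat_lit 0) xc23 xc24))) (XT.nd (nat_lit 120978) (nat_lit 0) (nat_lit 0) (XT.nd (nat_lit 60450) (nat_lit 0) (nat_lit 0) (XT.nd (nat_lit 30186) (nat_lit 0) (nat_lit 0) xc25 xc26) (XT.nd (nat_lit 30264) (nat_lit 0) (nat_lit 0) xc27 xc28)) (XT.nd (nat_lit 35334) (nat_lit 0) (nat_lit 0) (XT.nd (nat_lit 30342) (nat_lit 0) (nat_lit 0) xc29 xc30) (XT.nd (nat_lit 30420) (nat_lit 0) (nat_lit 0) xc31 (XT.nd (nat_lit 28002) (nat_lit 0) (nat_lit 0) xc32 xc33)))))) (XT.nd (nat_lit 500136) (nat_lit 0) (nat_lit 0) (XT.nd (nat_lit 220584) (nat_lit 0) (nat_lit 0) (XT.nd (nat_lit 122694) (nat_lit 0) (nat_lit 0) (XT.nd (nat_lit 61308) (nat_lit 0) (nat_lit 0) (XT.nd (nat_lit 30576) (nat_lit 0) (nat_lit 0) xc34 xc35) (XT.nd (nat_lit 30654) (nat_lit 0) (nat_lit 0) xc36 xc37)) (XT.nd (nat_lit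 35958) (nat_lit 0) (nat_lit 0) (XT.nd (nat_lit 30810) (nat_lit 0) (nat_lit 0) xc38 xc39) (XT.nd (nat_lit 30810) (nat_lit 0) (nat_lit 0) xc40 xc41))) (XT.nd (nat_lit 152568) (nat_lit 0) (nat_lit 0) (XT.nd (nat_lit 62946) (nat_lit 0) (nat_lit 0) (XT.nd (nat_lit 31434) (nat_lit 0) (nat_lit 0) xc42 xc43) (XT.nd (nat_lit 58110) (nat_lit 0) (nat_lit 0) xc44 xc45)) (XT.nd (nat_lit 63258) (nat_lit 0) (nat_lit 0) (XT.nd (nat_lit 31590) (nat_lit 0) (nat_lit 0) xc46 xc47) (XT.nd (nat_lit 31746) (nat_lit 0) (nat_lit 0) xc48 (XT.nd (nat_lit 2496) (nat_lit 0) (nat_lit 0) xc49 xc50))))) (XT.nd (nat_lit 343980) (nat_lit 0) (nat_lit 0) (XT.nd (nat_lit 156936) (nat_lit 0) (nat_lit 0) (XT.nd (nat_lit 64350) (nat_lit 0) (nat_lit 0) (XT.nd (nat_lit 32058) (nat_lit 0) (nat_lit 0) xc51 xc52) (XT.nd (nat_lit 60060) (nat_lit 0) (nat_lit 0) xc53 xc54)) (XT.nd (nat_lit 93054) (nat_lit 0) (nat_lit 0) (XT.nd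 (nat_lit 32604) (nat_lit 0) (nat_lit 0) xc55 xc56) (XT.nd (nat_lit 32916) (nat_lit 0) (nat_lit 0) xc57 (XT.nd (nat_lit 30498) (nat_lit 0) (nat_lit 0) xc58 xc59)))) (XT.nd (nat_lit 219570) (nat_lit 0) (nat_lit 76) (XT.nd (nat_lit 94536) (nat_lit 0) (nat_lit 0) (XT.nd (nat_lit 33072) (nat_lit 0) (nat_lit 0) xc60 xc61) (XT.nd (nat_lit 62322) (nat_lit 0) (nat_lit 76) xc62 xc63)) (XT.nd (nat_lit 156468) (nat_lit 0) (nat_lit 76) (XT.nd (nat_lit 63024) (nat_lit 0) (nat_lit 0) xc64 xc65) (XT.nd (nat_lit 94380) (nat_lit 0) (nat_lit 152) xc66 (XT.nd (nat_lit 62712) (nat_lit 0) (nat_lit 76) xc67 xc68))))))) XT.nil))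

set_option maxRecDepth 10000000 in
noncomputable def Te : XT := XT.nil

set_option maxRecDepth 10000000 in
noncomputable def Tz : ZL := (ZL.cons (nat_lit 76) (nat_lit 3) (nat_lit 78765735570022635179) (ZL.cons (nat_lit 152) (nat_lit 6) (nat_lit 149220355840754279116) (ZL.cons (nat_lit 228) (nat_lit 6) (nat_lit 142376913062227355818) (ZL.cons (nat_lit 304) (nat_lit 3) (nat_lit 70557214713518860088) (ZL.cons (nat_lit 380) (nat_lit 6) (nat_lit 134506953866921394030) (ZL.cons (nat_lit 456) (nat_lit 6) (nat_lit 129268652464663894298) (ZL.cons (nat_lit 532) (nat_lit 3) (nat_lit 64085420303988627302) (ZL.cons (nat_lit 608) (nat_lit 6) (nat_lit 125297036714568878594) (ZL.cons (nat_lit 684) (nat_lit 6) (nat_lit 123244605852067769606) (ZL.cons (nat_lit 760) (nat_lit 6) (nat_lit 119631866745272970840) (ZL.cons (nat_lit 836) (nat_lit 3) (nat_lit 59338623869729250773) (ZL.cons (nat_lit 912) (nat_lit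 6) (nat_lit 116088455254600033884) (ZL.cons (nat_lit 988) (nat_lit 6) (nat_lit 117261939261590351380) (ZL.cons (nat_lit 1064) (nat_lit 6) (nat_lit 115477216772458952262) (ZL.cons (nat_lit 1140) (nat_lit 3) (nat_lit 56477113078714884825) (ZL.cons (nat_lit 1216) (nat_lit 6) (nat_lit 113581903649540869704) (ZL.cons (nat_lit 1292) (nat_lit 3) (nat_lit 56375900083111969940) (ZL.cons (nat_lit 1368) (nat_lit 6) (nat_lit 111402293558185074764) (ZL.cons (nat_lit 1444) (nat_lit 1) (nat_lit 18446744073709551617) ZL.nil)))))))))))))))))))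

noncomputable def vl : XL := ⟨(nat_lit 0), (nat_lit 76), (nat_lit 220075044), (nat_lit 152), (nat_lit 282044288), (nat_lit 152), (nat_lit 282044288), (nat_lit 1), (nat_lit 4), (nat_lit 2), (nat_lit 5), (nat_lit 2), (nat_lit 4), (nat_lit 0), (nat_lit 0), (nat_lit 0)⟩

noncomputable def cp0 : Nat := (nat_lit 885210344830350390359685259173106887691413813286931057703041105920)

noncomputable def cp1 : Nat := (nat_lit 610595026527508897916625944280386338249756050438536571400730224744873866166143965507289450565094288796135370416185916429479937194465303581766471026666681286697885084840241513083821347379515830983085197404984055059335866826049554161373830945081037882216614695524739262725460010329927413671148739691576130973344194337994341180850530334966641731386221321550900013226834763974056561018013444751221646906654640585090433691866281297974659975930787176592179200)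

noncomputable def rc0 : Nat := (nat_lit 610595026527508897916625944280386338249756050438536571400730224744873866166143965507289450565094288796135370416185916429479937194465303581766471026666681286697885084840241513083821347379515830983085197404984055059335866826049554161373830945081037882216614695524739262725460010329927413671148739691576130973344194337994341180850530334966641731386221321550900013226834763974056561018013444751221646906654640585090433691866281297974659975930787176592179200)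

end Vale.Agent.Lib.P154.PChain.BY.S0
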