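import Vale.Agent.Lib.P154.PChain.BY.R0_0

set_option linter.all false

namespace Vale.Agent.Lib.P154.PChain.BY.S1

open Vale.Agent.Lib.P154.Chain

noncomputable def pc0 : PT := (PT.nd (nat_lit 3072966) (PT.nd (nat_lit 2979288) (PT.nd (nat_lit 2885766) (PT.nd (nat_lit 2854488) (PT.nd (nat_lit 2854410) (PT.nd (nat_lit 2823210) PT.nil (PT.lf (nat_lit 76) (nat_lit 3) (nat_lit 1) (nat_lit 1) (nat_lit 105) (nat_lit 90) (nat_lit 105))) (PT.lf (nat_lit 152) (nat_lit 6) (nat_lit 2) (nat_lit 3) (nat_lit 104) (nat_lit 91) (nat_lit 105))) (PT.nd (nat_lit 31122) (PT.lf (nat_lit 152) (nat_lit 6) (nat_lit 2) (nat_lit 1) (nat_lit 105) (nat_lit 91) (nat_lit 104)) (PT.nd (nat_lit 78) (PT.lf (nat_lit 228) (nat_lit 6) (nat_lit 3) (nat_lit 3) (nat_lit 103) (nat_lit 92) (nat_lit 105)) (PT.lf (nat_lit 304) (nat_lit 3) (nat_lit 4) (nat_lit 1) (nat_lit 104) (nat_lit 92) (nat_lit 104))))) (PT.nd (nat_lit 62322)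 (PT.nd (nat_lit 31122) (PT.lf (nat_lit 228) (nat_lit 6) (nat_lit 3) (nat_lit 1) (nat_lit 105) (nat_lit 92) (nat_lit 103)) (PT.nd (nat_lit 78) (PT.lf (nat_lit 380) (nat_lit 6) (nat_lit 5) (nat_lit 3) (nat_lit 103) (nat_lit 93) (nat_lit 104)) (PT.lf (nat_lit 380) (nat_lit 6) (nat_lit 5) (nat_lit 1) (nat_lit 104) (nat_lit 93) (nat_lit 103)))) (PT.nd (nat_lit 78) (PT.lf (nat_lit 456) (nat_lit 6) (nat_lit 6) (nat_lit 3) (nat_lit 102) (nat_lit 94) (nat_lit 104)) (PT.nd (nat_lit 78) (PT.lf (nat_lit 532) (nat_lit 3) (nat_lit 7) (nat_lit 1) (nat_lit 103) (nat_lit 94) (nat_lit 103)) (PT.lf (nat_lit 456) (nat_lit 6) (nat_lit 6) (nat_lit 1) (nat_lit 104) (nat_lit 94) (nat_lit 102)))))) (PT.nd (nat_lit 31356) (PT.nd (nat_lit 156) (PT.nd (nat_lit 78) (PT.lf (nat_lit 608) (nat_lit 6) (nat_lit 8) (nat_lit 3) (nat_lit 101) (nat_lit 95) (nat_lit 104)) (PT.lf (nat_lit 684) (nat_lit 6) (nat_lit 9) (nat_lit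 3) (nat_lit 102) (nat_lit 95) (nat_lit 103))) (PT.nd (nat_lit 78) (PT.lf (nat_lit 684) (nat_lit 6) (nat_lit 9) (nat_lit 1) (nat_lit 103) (nat_lit 95) (nat_lit 102)) (PT.nd (nat_lit 31044) (PT.lf (nat_lit 608) (nat_lit 6) (nat_lit 8) (nat_lit 1) (nat_lit 104) (nat_lit 95) (nat_lit 101)) (PT.lf (nat_lit 760) (nat_lit 6) (nat_lit 10) (nat_lit 3) (nat_lit 101) (nat_lit 96) (nat_lit 103))))) (PT.nd (nat_lit 31200) (PT.nd (nat_lit 78) (PT.lf (nat_lit 836) (nat_lit 3) (nat_lit 11) (nat_lit 1) (nat_lit 102) (nat_lit 96) (nat_lit 102)) (PT.nd (nat_lit 31044) (PT.lf (nat_lit 760) (nat_lit 6) (nat_lit 10) (nat_lit 1) (nat_lit 103) (nat_lit 96) (nat_lit 101)) (PT.lf (nat_lit 988) (nat_lit 6) (nat_lit 13) (nat_lit 3) (nat_lit 100) (nat_lit 97) (nat_lit 103)))) (PT.nd (nat_lit 78) (PT.lf (nat_lit 1064) (nat_lit 6) (nat_lit 14) (nat_lit 3) (nat_lit 101) (nat_lit 97) (nat_lit 102)) (PT.nd (nat_lit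 78) (PT.lf (nat_lit 1064) (nat_lit 6) (nat_lit 14) (nat_lit 1) (nat_lit 102) (nat_lit 97) (nat_lit 101)) (PT.lf (nat_lit 988) (nat_lit 6) (nat_lit 13) (nat_lit 1) (nat_lit 103) (nat_lit 97) (nat_lit 100))))))) (PT.nd (nat_lit 62400) (PT.nd (nat_lit 31200) (PT.nd (nat_lit 156) (PT.nd (nat_lit 78) (PT.lf (nat_lit 912) (nat_lit 6) (nat_lit 12) (nat_lit 3) (nat_lit 99) (nat_lit 98) (nat_lit 103)) (PT.lf (nat_lit 1216) (nat_lit 6) (nat_lit 16) (nat_lit 3) (nat_lit 100) (nat_lit 98) (nat_lit 102))) (PT.nd (nat_lit 78) (PT.lf (nat_lit 1292) (nat_lit 3) (nat_lit 17) (nat_lit 1) (nat_lit 101) (nat_lit 98) (nat_lit 101)) (PT.nd (nat_lit 78) (PT.lf (nat_lit 1216) (nat_lit 6) (nat_lit 16) (nat_lit 1) (nat_lit 102) (nat_lit 98) (nat_lit 100)) (PT.lf (nat_lit 912) (nat_lit 6) (nat_lit 12) (nat_lit 1) (nat_lit 103) (nat_lit 98) (nat_lit 99))))) (PT.nd (nat_lit 234) (PT.nd (nat_lit 78) (PT.lf (nat_lit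 912) (nat_lit 6) (nat_lit 12) (nat_lit 5) (nat_lit 98) (nat_lit 99) (nat_lit 103)) (PT.nd (nat_lit 78) (PT.lf (nat_lit 1140) (nat_lit 3) (nat_lit 15) (nat_lit 3) (nat_lit 99) (nat_lit 99) (nat_lit 102)) (PT.lf (nat_lit 1368) (nat_lit 6) (nat_lit 18) (nat_lit 3) (nat_lit 100) (nat_lit 99) (nat_lit 101)))) (PT.nd (nat_lit 78) (PT.lf (nat_lit 1368) (nat_lit 6) (nat_lit 18) (nat_lit 1) (nat_lit 101) (nat_lit 99) (nat_lit 100)) (PT.nd (nat_lit 78) (PT.lf (nat_lit 1140) (nat_lit 3) (nat_lit 15) (nat_lit 0) (nat_lit 102) (nat_lit 99) (nat_lit 99)) (PT.lf (nat_lit 912) (nat_lit 6) (nat_lit 12) (nat_lit 0) (nat_lit 103) (nat_lit 99) (nat_lit 98)))))) (PT.nd (nat_lit 468) (PT.nd (nat_lit 234) (PT.nd (nat_lit 78) (PT.lf (nat_lit 988) (nat_lit 6) (nat_lit 13) (nat_lit 5) (nat_lit 97) (nat_lit 100) (nat_lit 103)) (PT.nd (nat_lit 78) (PT.lf (nat_lit 1216) (nat_lit 6) (nat_lit 16) (nat_lit 5) (nat_lit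 98) (nat_lit 100) (nat_lit 102)) (PT.lf (nat_lit 1368) (nat_lit 6) (nat_lit 18) (nat_lit 5) (nat_lit 99) (nat_lit 100) (nat_lit 101)))) (PT.nd (nat_lit 78) (PT.lf (nat_lit 1444) (nat_lit 1) (nat_lit 19) (nat_lit 0) (nat_lit 100) (nat_lit 100) (nat_lit 100)) (PT.nd (nat_lit 78) (PT.lf (nat_lit 1368) (nat_lit 6) (nat_lit 18) (nat_lit 0) (nat_lit 101) (nat_lit 100) (nat_lit 99)) (PT.lf (nat_lit 1216) (nat_lit 6) (nat_lit 16) (nat_lit 0) (nat_lit 102) (nat_lit 100) (nat_lit 98))))) (PT.nd (nat_lit 30810) (PT.nd (nat_lit 30654) (PT.lf (nat_lit 988) (nat_lit 6) (nat_lit 13) (nat_lit 0) (nat_lit 103) (nat_lit 100) (nat_lit 97)) (PT.nd (nat_lit 78) (PT.lf (nat_lit 608) (nat_lit 6) (nat_lit 8) (nat_lit 5) (nat_lit 95) (nat_lit 101) (nat_lit 104)) (PT.lf (nat_lit 760) (nat_lit 6) (nat_lit 10) (nat_lit 5) (nat_lit 96) (nat_lit 101) (nat_lit 103)))) (PT.nd (nat_lit 78) (PT.lf (nat_lit 1064) (nat_lit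 6) (nat_lit 14) (nat_lit 5) (nat_lit 97) (nat_lit 101) (nat_lit 102)) (PT.nd (nat_lit 78) (PT.lf (nat_lit 1292) (nat_lit 3) (nat_lit 17) (nat_lit 4) (nat_lit 98) (nat_lit 101) (nat_lit 101)) (PT.lf (nat_lit 1368) (nat_lit 6) (nat_lit 18) (nat_lit 4) (nat_lit 99) (nat_lit 101) (nat_lit 100))))))))
noncomputable def pc1 : PT := (PT.nd (nat_lit 62478) (PT.nd (nat_lit 31278) (PT.nd (nat_lit 30810) (PT.nd (nat_lit 156) (PT.nd (nat_lit 78) (PT.lf (nat_lit 1368) (nat_lit 6) (nat_lit 18) (nat_lit 2) (nat_lit 100) (nat_lit 101) (nat_lit 99)) (PT.lf (nat_lit 1292) (nat_lit 3) (nat_lit 17) (nat_lit 0) (nat_lit 101) (nat_lit 101) (nat_lit 98))) (PT.nd (nat_lit 78) (PT.lf (nat_lit 1064) (nat_lit 6) (nat_lit 14) (nat_lit 0) (nat_lit 102) (nat_lit 101) (nat_lit 97)) (PT.nd (nat_lit 78) (PT.lf (nat_lit 760) (nat_lit 6) (nat_lit 10) (nat_lit 0) (nat_lit 103) (nat_lit 101) (nat_lit 96)) (PT.lf (nat_lit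 608) (nat_lit 6) (nat_lit 8) (nat_lit 0) (nat_lit 104) (nat_lit 101) (nat_lit 95))))) (PT.nd (nat_lit 234) (PT.nd (nat_lit 78) (PT.lf (nat_lit 456) (nat_lit 6) (nat_lit 6) (nat_lit 5) (nat_lit 94) (nat_lit 102) (nat_lit 104)) (PT.nd (nat_lit 78) (PT.lf (nat_lit 684) (nat_lit 6) (nat_lit 9) (nat_lit 5) (nat_lit 95) (nat_lit 102) (nat_lit 103)) (PT.lf (nat_lit 836) (nat_lit 3) (nat_lit 11) (nat_lit 4) (nat_lit 96) (nat_lit 102) (nat_lit 102)))) (PT.nd (nat_lit 78) (PT.lf (nat_lit 1064) (nat_lit 6) (nat_lit 14) (nat_lit 4) (nat_lit 97) (nat_lit 102) (nat_lit 101)) (PT.nd (nat_lit 78) (PT.lf (nat_lit 1216) (nat_lit 6) (nat_lit 16) (nat_lit 4) (nat_lit 98) (nat_lit 102) (nat_lit 100)) (PT.lf (nat_lit 1140) (nat_lit 3) (nat_lit 15) (nat_lit 2) (nat_lit 99) (nat_lit 102) (nat_lit 99)))))) (PT.nd (nat_lit 30732) (PT.nd (nat_lit 234) (PT.nd (nat_lit 78) (PT.lf (nat_lit 1216) (nat_lit 6) (nat_lit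 16) (nat_lit 2) (nat_lit 100) (nat_lit 102) (nat_lit 98)) (PT.nd (nat_lit 78) (PT.lf (nat_lit 1064) (nat_lit 6) (nat_lit 14) (nat_lit 2) (nat_lit 101) (nat_lit 102) (nat_lit 97)) (PT.lf (nat_lit 836) (nat_lit 3) (nat_lit 11) (nat_lit 0) (nat_lit 102) (nat_lit 102) (nat_lit 96)))) (PT.nd (nat_lit 78) (PT.lf (nat_lit 684) (nat_lit 6) (nat_lit 9) (nat_lit 0) (nat_lit 103) (nat_lit 102) (nat_lit 95)) (PT.nd (nat_lit 30342) (PT.lf (nat_lit 456) (nat_lit 6) (nat_lit 6) (nat_lit 0) (nat_lit 104) (nat_lit 102) (nat_lit 94)) (PT.lf (nat_lit 228) (nat_lit 6) (nat_lit 3) (nat_lit 5) (nat_lit 92) (nat_lit 103) (nat_lit 105))))) (PT.nd (nat_lit 234) (PT.nd (nat_lit 78) (PT.lf (nat_lit 380) (nat_lit 6) (nat_lit 5) (nat_lit 5) (nat_lit 93) (nat_lit 103) (nat_lit 104)) (PT.nd (nat_lit 78) (PT.lf (nat_lit 532) (nat_lit 3) (nat_lit 7) (nat_lit 4) (nat_lit 94) (nat_lit 103) (nat_lit 103)) (PT.lf (nat_lit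 684) (nat_lit 6) (nat_lit 9) (nat_lit 4) (nat_lit 95) (nat_lit 103) (nat_lit 102)))) (PT.nd (nat_lit 78) (PT.lf (nat_lit 760) (nat_lit 6) (nat_lit 10) (nat_lit 4) (nat_lit 96) (nat_lit 103) (nat_lit 101)) (PT.nd (nat_lit 78) (PT.lf (nat_lit 988) (nat_lit 6) (nat_lit 13) (nat_lit 4) (nat_lit 97) (nat_lit 103) (nat_lit 100)) (PT.lf (nat_lit 912) (nat_lit 6) (nat_lit 12) (nat_lit 4) (nat_lit 98) (nat_lit 103) (nat_lit 99))))))) (PT.nd (nat_lit 30966) (PT.nd (nat_lit 390) (PT.nd (nat_lit 156) (PT.nd (nat_lit 78) (PT.lf (nat_lit 912) (nat_lit 6) (nat_lit 12) (nat_lit 2) (nat_lit 99) (nat_lit 103) (nat_lit 98)) (PT.lf (nat_lit 988) (nat_lit 6) (nat_lit 13) (nat_lit 2) (nat_lit 100) (nat_lit 103) (nat_lit 97))) (PT.nd (nat_lit 78) (PT.lf (nat_lit 760) (nat_lit 6) (nat_lit 10) (nat_lit 2) (nat_lit 101) (nat_lit 103) (nat_lit 96)) (PT.nd (nat_lit 78) (PT.lf (nat_lit 684) (nat_lit 6) (nat_lit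 9) (nat_lit 2) (nat_lit 102) (nat_lit 103) (nat_lit 95)) (PT.lf (nat_lit 532) (nat_lit 3) (nat_lit 7) (nat_lit 0) (nat_lit 103) (nat_lit 103) (nat_lit 94))))) (PT.nd (nat_lit 30342) (PT.nd (nat_lit 78) (PT.lf (nat_lit 380) (nat_lit 6) (nat_lit 5) (nat_lit 0) (nat_lit 104) (nat_lit 103) (nat_lit 93)) (PT.nd (nat_lit 30186) (PT.lf (nat_lit 228) (nat_lit 6) (nat_lit 3) (nat_lit 0) (nat_lit 105) (nat_lit 103) (nat_lit 92)) (PT.lf (nat_lit 152) (nat_lit 6) (nat_lit 2) (nat_lit 5) (nat_lit 91) (nat_lit 104) (nat_lit 105)))) (PT.nd (nat_lit 78) (PT.lf (nat_lit 304) (nat_lit 3) (nat_lit 4) (nat_lit 4) (nat_lit 92) (nat_lit 104) (nat_lit 104)) (PT.nd (nat_lit 78) (PT.lf (nat_lit 380) (nat_lit 6) (nat_lit 5) (nat_lit 4) (nat_lit 93) (nat_lit 104) (nat_lit 103)) (PT.lf (nat_lit 456) (nat_lit 6) (nat_lit 6) (nat_lit 4) (nat_lit 94) (nat_lit 104) (nat_lit 102)))))) (PT.nd (nat_lit 30888) (PT.nd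 (nat_lit 624) (PT.nd (nat_lit 468) (PT.lf (nat_lit 608) (nat_lit 6) (nat_lit 8) (nat_lit 4) (nat_lit 95) (nat_lit 104) (nat_lit 101)) (PT.nd (nat_lit 78) (PT.lf (nat_lit 608) (nat_lit 6) (nat_lit 8) (nat_lit 2) (nat_lit 101) (nat_lit 104) (nat_lit 95)) (PT.lf (nat_lit 456) (nat_lit 6) (nat_lit 6) (nat_lit 2) (nat_lit 102) (nat_lit 104) (nat_lit 94)))) (PT.nd (nat_lit 78) (PT.lf (nat_lit 380) (nat_lit 6) (nat_lit 5) (nat_lit 2) (nat_lit 103) (nat_lit 104) (nat_lit 93)) (PT.nd (nat_lit 78) (PT.lf (nat_lit 304) (nat_lit 3) (nat_lit 4) (nat_lit 0) (nat_lit 104) (nat_lit 104) (nat_lit 92)) (PT.lf (nat_lit 152) (nat_lit 6) (nat_lit 2) (nat_lit 0) (nat_lit 105) (nat_lit 104) (nat_lit 91))))) (PT.nd (nat_lit 1014) (PT.nd (nat_lit 78) (PT.lf (nat_lit 76) (nat_lit 3) (nat_lit 1) (nat_lit 4) (nat_lit 90) (nat_lit 105) (nat_lit 105)) (PT.nd (nat_lit 78) (PT.lf (nat_lit 152) (nat_lit 6) (nat_lit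 2) (nat_lit 4) (nat_lit 91) (nat_lit 105) (nat_lit 104)) (PT.lf (nat_lit 228) (nat_lit 6) (nat_lit 3) (nat_lit 4) (nat_lit 92) (nat_lit 105) (nat_lit 103)))) (PT.nd (nat_lit 78) (PT.lf (nat_lit 228) (nat_lit 6) (nat_lit 3) (nat_lit 2) (nat_lit 103) (nat_lit 105) (nat_lit 92)) (PT.nd (nat_lit 78) (PT.lf (nat_lit 152) (nat_lit 6) (nat_lit 2) (nat_lit 2) (nat_lit 104) (nat_lit 105) (nat_lit 91)) (PT.lf (nat_lit 76) (nat_lit 3) (nat_lit 1) (nat_lit 0) (nat_lit 105) (nat_lit 105) (nat_lit 90))))))))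
noncomputable def xc0 : XT := (XT.nd (nat_lit 124722) (nat_lit 0) (nat_lit 0) (XT.nd (nat_lit 93366) (nat_lit 0) (nat_lit 0) (XT.nd (nat_lit 62244) (nat_lit 0) (nat_lit 0) (XT.nd (nat_lit 31200) (nat_lit 0) (nat_lit 0) (XT.nd (nat_lit 31122) (nat_lit 0) (nat_lit 0) (XT.lf (nat_lit 0) (nat_lit 1941934743319) (nat_lit 152) (nat_lit 669519821546) (nat_lit 0) (nat_lit 1941934743319) (nat_lit 1) (nat_lit 5) (nat_lit 3) (nat_lit 4) (nat_lit 1) (nat_lit 4) (nat_lit 262) (nat_lit 169) (nat_lit 169)) (XT.lf (nat_lit 0) (nat_lit 1468169181012) (nat_lit 152) (nat_lit 506699927324) (nat_lit 0) (nat_lit 1468169181012) (nat_lit 1) (nat_lit 5) (nat_lit 3) (nat_lit 4) (nat_lit 1) (nat_lit 4) (nat_lit 260) (nat_lit 170) (nat_lit 170))) (XT.nd (nat_lit 78) (nat_lit 0) (nat_lit 0) (XT.lf (nat_lit 0) (nat_lit 3377073300638) (nat_lit 152) (nat_lit 1164848350709) (nat_lit 0) (nat_lit 3377039016811) (nat_lit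 1) (nat_lit 5) (nat_lit 3) (nat_lit 4) (nat_lit 1) (nat_lit 4) (nat_lit 261) (nat_lit 170) (nat_lit 169)) (XT.lf (nat_lit 0) (nat_lit 3883890979528) (nat_lit 152) (nat_lit 1339061836063) (nat_lit 0) (nat_lit 3883826883679) (nat_lit 1) (nat_lit 5) (nat_lit 3) (nat_lit 4) (nat_lit 1) (nat_lit 4) (nat_lit 262) (nat_lit 170) (nat_lit 168)))) (XT.nd (nat_lit 156) (nat_lit 0) (nat_lit 0) (XT.nd (nat_lit 78) (nat_lit 0) (nat_lit 0) (XT.lf (nat_lit 0) (nat_lit 1109902479673) (nat_lit 152) (nat_lit 383651708518) (nat_lit 0) (nat_lit 1109902479673) (nat_lit 1) (nat_lit 5) (nat_lit 3) (nat_lit 4) (nat_lit 1) (nat_lit 4) (nat_lit 258) (nat_lit 171) (nat_lit 171)) (XT.lf (nat_lit 0) (nat_lit 2553102515203) (nat_lit 152) (nat_lit 881753225134) (nat_lit 0) (nat_lit 2553063088803) (nat_lit 1) (nat_lit 5) (nat_lit 3) (nat_lit 4) (nat_lit 1) (nat_lit 4) (nat_lit 259) (nat_lit 171) (nat_lit 170))) (XT.nd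 (nat_lit 78) (nat_lit 0) (nat_lit 0) (XT.lf (nat_lit 0) (nat_lit 2936363078847) (nat_lit 152) (nat_lit 1013425376564) (nat_lit 0) (nat_lit 2936289368620) (nat_lit 1) (nat_lit 5) (nat_lit 3) (nat_lit 4) (nat_lit 1) (nat_lit 4) (nat_lit 260) (nat_lit 171) (nat_lit 169)) (XT.nd (nat_lit 78) (nat_lit 0) (nat_lit 0) (XT.lf (nat_lit 0) (nat_lit 3377085226523) (nat_lit 152) (nat_lit 1164896065594) (nat_lit 0) (nat_lit 3376981704273) (nat_lit 1) (nat_lit 5) (nat_lit 3) (nat_lit 4) (nat_lit 1) (nat_lit 4) (nat_lit 261) (nat_lit 171) (nat_lit 168)) (XT.lf (nat_lit 0) (nat_lit 3883891782860) (nat_lit 152) (nat_lit 1339128849183) (nat_lit 0) (nat_lit 3883762337111) (nat_lit 1) (nat_lit 5) (nat_lit 3) (nat_lit 4) (nat_lit 1) (nat_lit 4) (nat_lit 262) (nat_lit 171) (nat_lit 167)))))) (XT.nd (nat_lit 390) (nat_lit 0) (nat_lit 0) (XT.nd (nat_lit 156) (nat_lit 0) (nat_lit 0) (XT.nd (nat_lit 78) (nat_lit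 0) (nat_lit 0) (XT.lf (nat_lit 0) (nat_lit 838964729891) (nat_lit 152) (nat_lit 290686642183) (nat_lit 0) (nat_lit 838964729891) (nat_lit 1) (nat_lit 5) (nat_lit 3) (nat_lit 4) (nat_lit 1) (nat_lit 4) (nat_lit 256) (nat_lit 172) (nat_lit 172)) (XT.lf (nat_lit 0) (nat_lit 1929994712499) (nat_lit 152) (nat_lit 667836716896) (nat_lit 0) (nat_lit 1929949372138) (nat_lit 1) (nat_lit 5) (nat_lit 3) (nat_lit 4) (nat_lit 1) (nat_lit 4) (nat_lit 257) (nat_lit 172) (nat_lit 171))) (XT.nd (nat_lit 78) (nat_lit 0) (nat_lit 0) (XT.lf (nat_lit 0) (nat_lit 2219833383692) (nat_lit 152) (nat_lit 767332767239) (nat_lit 0) (nat_lit 2219748616931) (nat_lit 1) (nat_lit 5) (nat_lit 3) (nat_lit 4) (nat_lit 1) (nat_lit 4) (nat_lit 258) (nat_lit 172) (nat_lit 170)) (XT.nd (nat_lit 78) (nat_lit 0) (nat_lit 0) (XT.lf (nat_lit 0) (nat_lit 2553116229972) (nat_lit 152) (nat_lit 881808097252) (nat_lit 0) (nat_lit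 2552997179384) (nat_lit 1) (nat_lit 5) (nat_lit 3) (nat_lit 4) (nat_lit 1) (nat_lit 4) (nat_lit 259) (nat_lit 172) (nat_lit 169)) (XT.lf (nat_lit 0) (nat_lit 2936364002679) (nat_lit 152) (nat_lit 1013502441652) (nat_lit 0) (nat_lit 2936215140068) (nat_lit 1) (nat_lit 5) (nat_lit 3) (nat_lit 4) (nat_lit 1) (nat_lit 4) (nat_lit 260) (nat_lit 172) (nat_lit 168))))) (XT.nd (nat_lit 30732) (nat_lit 0) (nat_lit 0) (XT.nd (nat_lit 78) (nat_lit 0) (nat_lit 0) (XT.lf (nat_lit 0) (nat_lit 3377075027801) (nat_lit 152) (nat_lit 1164992428917) (nat_lit 0) (nat_lit 3376900241692) (nat_lit 1) (nat_lit 5) (nat_lit 3) (nat_lit 4) (nat_lit 1) (nat_lit 4) (nat_lit 261) (nat_lit 172) (nat_lit 167)) (XT.lf (nat_lit 0) (nat_lit 3883871912351) (nat_lit 152) (nat_lit 1339241993579) (nat_lit 0) (nat_lit 3883674584069) (nat_lit 1) (nat_lit 5) (nat_lit 3) (nat_lit 4) (nat_lit 1) (nat_lit 4) (nat_lit 262) (nat_lit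 172) (nat_lit 166))) (XT.nd (nat_lit 78) (nat_lit 0) (nat_lit 0) (XT.lf (nat_lit 0) (nat_lit 634054715947) (nat_lit 152) (nat_lit 220480320846) (nat_lit 0) (nat_lit 634054715947) (nat_lit 1) (nat_lit 5) (nat_lit 3) (nat_lit 4) (nat_lit 1) (nat_lit 4) (nat_lit 254) (nat_lit 173) (nat_lit 173)) (XT.nd (nat_lit 78) (nat_lit 0) (nat_lit 0) (XT.lf (nat_lit 0) (nat_lit 1458758055491) (nat_lit 152) (nat_lit 506250793800) (nat_lit 0) (nat_lit 1458705914076) (nat_lit 1) (nat_lit 5) (nat_lit 3) (nat_lit 4) (nat_lit 1) (nat_lit 4) (nat_lit 255) (nat_lit 173) (nat_lit 172)) (XT.lf (nat_lit 0) (nat_lit 1677962147780) (nat_lit 152) (nat_lit 581407037100) (nat_lit 0) (nat_lit 1677864666005) (nat_lit 1) (nat_lit 5) (nat_lit 3) (nat_lit 4) (nat_lit 1) (nat_lit 4) (nat_lit 256) (nat_lit 173) (nat_lit 171))))))) (XT.nd (nat_lit 31200) (nat_lit 0) (nat_lit 0) (XT.nd (nat_lit 390) (nat_lit 0) (nat_lit 0)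 (XT.nd (nat_lit 156) (nat_lit 0) (nat_lit 0) (XT.nd (nat_lit 78) (nat_lit 0) (nat_lit 0) (XT.lf (nat_lit 0) (nat_lit 1930010484482) (nat_lit 152) (nat_lit 667899819831) (nat_lit 0) (nat_lit 1929873576307) (nat_lit 1) (nat_lit 5) (nat_lit 3) (nat_lit 4) (nat_lit 1) (nat_lit 4) (nat_lit 257) (nat_lit 173) (nat_lit 170)) (XT.lf (nat_lit 0) (nat_lit 2219834446098) (nat_lit 152) (nat_lit 767421392090) (nat_lit 0) (nat_lit 2219663254096) (nat_lit 1) (nat_lit 5) (nat_lit 3) (nat_lit 4) (nat_lit 1) (nat_lit 4) (nat_lit 258) (nat_lit 173) (nat_lit 169))) (XT.nd (nat_lit 78) (nat_lit 0) (nat_lit 0) (XT.lf (nat_lit 0) (nat_lit 2553104501441) (nat_lit 152) (nat_lit 881918915073) (nat_lit 0) (nat_lit 2552903497415) (nat_lit 1) (nat_lit 5) (nat_lit 3) (nat_lit 4) (nat_lit 1) (nat_lit 4) (nat_lit 259) (nat_lit 173) (nat_lit 168)) (XT.nd (nat_lit 78) (nat_lit 0) (nat_lit 0) (XT.lf (nat_lit 0) (nat_lit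 2936341151594) (nat_lit 152) (nat_lit 1013632557708) (nat_lit 0) (nat_lit 2936114224070) (nat_lit 1) (nat_lit 5) (nat_lit 3) (nat_lit 4) (nat_lit 1) (nat_lit 4) (nat_lit 260) (nat_lit 173) (nat_lit 167)) (XT.lf (nat_lit 0) (nat_lit 3377042504929) (nat_lit 152) (nat_lit 1165139326046) (nat_lit 0) (nat_lit 3376793035233) (nat_lit 1) (nat_lit 5) (nat_lit 3) (nat_lit 4) (nat_lit 1) (nat_lit 4) (nat_lit 261) (nat_lit 173) (nat_lit 166))))) (XT.nd (nat_lit 30576) (nat_lit 0) (nat_lit 0) (XT.nd (nat_lit 30498) (nat_lit 0) (nat_lit 0) (XT.lf (nat_lit 0) (nat_lit 3883830979231) (nat_lit 152) (nat_lit 1339403482946) (nat_lit 0) (nat_lit 3883561907646) (nat_lit 1) (nat_lit 5) (nat_lit 3) (nat_lit 4) (nat_lit 1) (nat_lit 4) (nat_lit 262) (nat_lit 173) (nat_lit 165)) (XT.lf (nat_lit 0) (nat_lit 479064833791) (nat_lit 152) (nat_lit 167496174141) (nat_lit 0) (nat_lit 479064833791) (nat_lit 1) (nat_lit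 5) (nat_lit 3) (nat_lit 4) (nat_lit 1) (nat_lit 4) (nat_lit 252) (nat_lit 174) (nat_lit 174))) (XT.nd (nat_lit 78) (nat_lit 0) (nat_lit 0) (XT.lf (nat_lit 0) (nat_lit 1102346157854) (nat_lit 152) (nat_lit 384259164756) (nat_lit 0) (nat_lit 1102286195227) (nat_lit 1) (nat_lit 5) (nat_lit 3) (nat_lit 4) (nat_lit 1) (nat_lit 4) (nat_lit 253) (nat_lit 174) (nat_lit 173)) (XT.nd (nat_lit 78) (nat_lit 0) (nat_lit 0) (XT.lf (nat_lit 0) (nat_lit 1268147023093) (nat_lit 152) (nat_lit 440999457335) (nat_lit 0) (nat_lit 1268034919051) (nat_lit 1) (nat_lit 5) (nat_lit 3) (nat_lit 4) (nat_lit 1) (nat_lit 4) (nat_lit 254) (nat_lit 174) (nat_lit 172)) (XT.lf (nat_lit 0) (nat_lit 1458776193272) (nat_lit 152) (nat_lit 506323362176) (nat_lit 0) (nat_lit 1458618748870) (nat_lit 1) (nat_lit 5) (nat_lit 3) (nat_lit 4) (nat_lit 1) (nat_lit 4) (nat_lit 255) (nat_lit 174) (nat_lit 171)))))) (XT.nd (nat_lit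 390) (nat_lit 0) (nat_lit 0) (XT.nd (nat_lit 156) (nat_lit 0) (nat_lit 0) (XT.nd (nat_lit 78) (nat_lit 0) (nat_lit 0) (XT.lf (nat_lit 0) (nat_lit 1677963369547) (nat_lit 152) (nat_lit 581508955679) (nat_lit 0) (nat_lit 1677766498745) (nat_lit 1) (nat_lit 5) (nat_lit 3) (nat_lit 4) (nat_lit 1) (nat_lit 4) (nat_lit 256) (nat_lit 174) (nat_lit 170)) (XT.lf (nat_lit 0) (nat_lit 1929996996672) (nat_lit 152) (nat_lit 668027260325) (nat_lit 0) (nat_lit 1929765842043) (nat_lit 1) (nat_lit 5) (nat_lit 3) (nat_lit 4) (nat_lit 1) (nat_lit 4) (nat_lit 257) (nat_lit 174) (nat_lit 169))) (XT.nd (nat_lit 78) (nat_lit 0) (nat_lit 0) (XT.lf (nat_lit 0) (nat_lit 2219808167350) (nat_lit 152) (nat_lit 767571025554) (nat_lit 0) (nat_lit 2219547200698) (nat_lit 1) (nat_lit 5) (nat_lit 3) (nat_lit 4) (nat_lit 1) (nat_lit 4) (nat_lit 258) (nat_lit 174) (nat_lit 168)) (XT.nd (nat_lit 78) (nat_lit 0) (nat_lit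 0) (XT.lf (nat_lit 0) (nat_lit 2553067100139) (nat_lit 152) (nat_lit 882087846772) (nat_lit 0) (nat_lit 2552780209988) (nat_lit 1) (nat_lit 5) (nat_lit 3) (nat_lit 4) (nat_lit 1) (nat_lit 4) (nat_lit 259) (nat_lit 174) (nat_lit 167)) (XT.lf (nat_lit 0) (nat_lit 2936294078506) (nat_lit 152) (nat_lit 1013818270480) (nat_lit 0) (nat_lit 2935984646183) (nat_lit 1) (nat_lit 5) (nat_lit 3) (nat_lit 4) (nat_lit 1) (nat_lit 4) (nat_lit 260) (nat_lit 174) (nat_lit 166))))) (XT.nd (nat_lit 30420) (nat_lit 0) (nat_lit 0) (XT.nd (nat_lit 78) (nat_lit 0) (nat_lit 0) (XT.lf (nat_lit 0) (nat_lit 3376987021593) (nat_lit 152) (nat_lit 1165339631056) (nat_lit 0) (nat_lit 3376657987381) (nat_lit 1) (nat_lit 5) (nat_lit 3) (nat_lit 4) (nat_lit 1) (nat_lit 4) (nat_lit 261) (nat_lit 174) (nat_lit 165)) (XT.lf (nat_lit 0) (nat_lit 3883768182634) (nat_lit 152) (nat_lit 1339616476859) (nat_lit 0) (nat_lit 3883422103301)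 (nat_lit 1) (nat_lit 5) (nat_lit 3) (nat_lit 4) (nat_lit 1) (nat_lit 4) (nat_lit 262) (nat_lit 174) (nat_lit 164))) (XT.nd (nat_lit 78) (nat_lit 0) (nat_lit 0) (XT.lf (nat_lit 0) (nat_lit 361814472245) (nat_lit 152) (nat_lit 127549753508) (nat_lit 0) (nat_lit 361814472245) (nat_lit 1) (nat_lit 5) (nat_lit 3) (nat_lit 4) (nat_lit 1) (nat_lit 4) (nat_lit 250) (nat_lit 175) (nat_lit 175)) (XT.nd (nat_lit 78) (nat_lit 0) (nat_lit 0) (XT.lf (nat_lit 0) (nat_lit 832744882318) (nat_lit 152) (nat_lit 292235091936) (nat_lit 0) (nat_lit 832675925297) (nat_lit 1) (nat_lit 5) (nat_lit 3) (nat_lit 4) (nat_lit 1) (nat_lit 4) (nat_lit 251) (nat_lit 175) (nat_lit 174)) (XT.lf (nat_lit 0) (nat_lit 958172897460) (nat_lit 152) (nat_lit 335036986271) (nat_lit 0) (nat_lit 958043977813) (nat_lit 1) (nat_lit 5) (nat_lit 3) (nat_lit 4) (nat_lit 1) (nat_lit 4) (nat_lit 252) (nat_lit 175) (nat_lit 173))))))))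
noncomputable def xc1 : XT := (XT.nd (nat_lit 31590) (nat_lit 0) (nat_lit 0) (XT.nd (nat_lit 702) (nat_lit 0) (nat_lit 0) (XT.nd (nat_lit 312) (nat_lit 0) (nat_lit 0) (XT.nd (nat_lit 156) (nat_lit 0) (nat_lit 0) (XT.nd (nat_lit 78) (nat_lit 0) (nat_lit 0) (XT.lf (nat_lit 0) (nat_lit 1102367016302) (nat_lit 152) (nat_lit 384342618389) (nat_lit 0) (nat_lit 1102185955240) (nat_lit 1) (nat_lit 5) (nat_lit 3) (nat_lit 4) (nat_lit 1) (nat_lit 4) (nat_lit 253) (nat_lit 175) (nat_lit 172)) (XT.lf (nat_lit 0) (nat_lit 1268148428125) (nat_lit 152) (nat_lit 441116663700) (nat_lit 0) (nat_lit 1267922026702) (nat_lit 1) (nat_lit 5) (nat_lit 3) (nat_lit 4) (nat_lit 1) (nat_lit 4) (nat_lit 254) (nat_lit 175) (nat_lit 171))) (XT.nd (nat_lit 78) (nat_lit 0) (nat_lit 0) (XT.lf (nat_lit 0) (nat_lit 1458760682289) (nat_lit 152) (nat_lit 506469918744) (nat_lit 0) (nat_lit 1458494854466) (nat_lit 1) (nat_lit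 5) (nat_lit 3) (nat_lit 4) (nat_lit 1) (nat_lit 4) (nat_lit 255) (nat_lit 175) (nat_lit 170)) (XT.lf (nat_lit 0) (nat_lit 1677933148987) (nat_lit 152) (nat_lit 581681034162) (nat_lit 0) (nat_lit 1677633037337) (nat_lit 1) (nat_lit 5) (nat_lit 3) (nat_lit 4) (nat_lit 1) (nat_lit 4) (nat_lit 256) (nat_lit 175) (nat_lit 169)))) (XT.nd (nat_lit 156) (nat_lit 0) (nat_lit 0) (XT.nd (nat_lit 78) (nat_lit 0) (nat_lit 0) (XT.lf (nat_lit 0) (nat_lit 1929953985174) (nat_lit 152) (nat_lit 668221531779) (nat_lit 0) (nat_lit 1929624061501) (nat_lit 1) (nat_lit 5) (nat_lit 3) (nat_lit 4) (nat_lit 1) (nat_lit 4) (nat_lit 257) (nat_lit 175) (nat_lit 168)) (XT.lf (nat_lit 0) (nat_lit 2219754033298) (nat_lit 152) (nat_lit 767784595242) (nat_lit 0) (nat_lit 2219398186127) (nat_lit 1) (nat_lit 5) (nat_lit 3) (nat_lit 4) (nat_lit 1) (nat_lit 4) (nat_lit 258) (nat_lit 175) (nat_lit 167))) (XT.nd (nat_lit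 78) (nat_lit 0) (nat_lit 0) (XT.lf (nat_lit 0) (nat_lit 2553003294301) (nat_lit 152) (nat_lit 882318197533) (nat_lit 0) (nat_lit 2552624904957) (nat_lit 1) (nat_lit 5) (nat_lit 3) (nat_lit 4) (nat_lit 1) (nat_lit 4) (nat_lit 259) (nat_lit 175) (nat_lit 166)) (XT.nd (nat_lit 78) (nat_lit 0) (nat_lit 0) (XT.lf (nat_lit 0) (nat_lit 2936221862419) (nat_lit 152) (nat_lit 1014063213479) (nat_lit 0) (nat_lit 2935823871186) (nat_lit 1) (nat_lit 5) (nat_lit 3) (nat_lit 4) (nat_lit 1) (nat_lit 4) (nat_lit 260) (nat_lit 175) (nat_lit 165)) (XT.lf (nat_lit 0) (nat_lit 3376907492246) (nat_lit 152) (nat_lit 1165597262958) (nat_lit 0) (nat_lit 3376492455893) (nat_lit 1) (nat_lit 5) (nat_lit 3) (nat_lit 4) (nat_lit 1) (nat_lit 4) (nat_lit 261) (nat_lit 175) (nat_lit 164)))))) (XT.nd (nat_lit 30498) (nat_lit 0) (nat_lit 0) (XT.nd (nat_lit 30264) (nat_lit 0) (nat_lit 0) (XT.nd (nat_lit 30186) (nat_lit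 0) (nat_lit 0) (XT.lf (nat_lit 0) (nat_lit 3883682293932) (nat_lit 152) (nat_lit 1339885142589) (nat_lit 0) (nat_lit 3883252435733) (nat_lit 1) (nat_lit 5) (nat_lit 3) (nat_lit 4) (nat_lit 1) (nat_lit 4) (nat_lit 262) (nat_lit 175) (nat_lit 163)) (XT.lf (nat_lit 0) (nat_lit 273092248666) (nat_lit 152) (nat_lit 97479307835) (nat_lit 0) (nat_lit 273092248666) (nat_lit 1) (nat_lit 5) (nat_lit 3) (nat_lit 4) (nat_lit 1) (nat_lit 4) (nat_lit 248) (nat_lit 176) (nat_lit 176))) (XT.nd (nat_lit 78) (nat_lit 0) (nat_lit 0) (XT.lf (nat_lit 0) (nat_lit 628769507509) (nat_lit 152) (nat_lit 222903665720) (nat_lit 0) (nat_lit 628690206935) (nat_lit 1) (nat_lit 5) (nat_lit 3) (nat_lit 4) (nat_lit 1) (nat_lit 4) (nat_lit 249) (nat_lit 176) (nat_lit 175)) (XT.nd (nat_lit 78) (nat_lit 0) (nat_lit 0) (XT.lf (nat_lit 0) (nat_lit 723678658850) (nat_lit 152) (nat_lit 255150840704) (nat_lit 0) (nat_lit 723530401255)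 (nat_lit 1) (nat_lit 5) (nat_lit 3) (nat_lit 4) (nat_lit 1) (nat_lit 4) (nat_lit 250) (nat_lit 176) (nat_lit 174)) (XT.lf (nat_lit 0) (nat_lit 832768869533) (nat_lit 152) (nat_lit 292331063613) (nat_lit 0) (nat_lit 832560649312) (nat_lit 1) (nat_lit 5) (nat_lit 3) (nat_lit 4) (nat_lit 1) (nat_lit 4) (nat_lit 251) (nat_lit 176) (nat_lit 173))))) (XT.nd (nat_lit 156) (nat_lit 0) (nat_lit 0) (XT.nd (nat_lit 78) (nat_lit 0) (nat_lit 0) (XT.lf (nat_lit 0) (nat_lit 958174513247) (nat_lit 152) (nat_lit 335171773591) (nat_lit 0) (nat_lit 957914151611) (nat_lit 1) (nat_lit 5) (nat_lit 3) (nat_lit 4) (nat_lit 1) (nat_lit 4) (nat_lit 252) (nat_lit 176) (nat_lit 172)) (XT.lf (nat_lit 0) (nat_lit 1102349178672) (nat_lit 152) (nat_lit 384511158442) (nat_lit 0) (nat_lit 1102043476675) (nat_lit 1) (nat_lit 5) (nat_lit 3) (nat_lit 4) (nat_lit 1) (nat_lit 4) (nat_lit 253) (nat_lit 176) (nat_lit 171)))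 (XT.nd (nat_lit 78) (nat_lit 0) (nat_lit 0) (XT.lf (nat_lit 0) (nat_lit 1268113674480) (nat_lit 152) (nat_lit 441314553956) (nat_lit 0) (nat_lit 1267768546083) (nat_lit 1) (nat_lit 5) (nat_lit 3) (nat_lit 4) (nat_lit 1) (nat_lit 4) (nat_lit 254) (nat_lit 176) (nat_lit 170)) (XT.nd (nat_lit 78) (nat_lit 0) (nat_lit 0) (XT.lf (nat_lit 0) (nat_lit 1458711219068) (nat_lit 152) (nat_lit 506693330915) (nat_lit 0) (nat_lit 1458331806844) (nat_lit 1) (nat_lit 5) (nat_lit 3) (nat_lit 4) (nat_lit 1) (nat_lit 4) (nat_lit 255) (nat_lit 176) (nat_lit 169)) (XT.lf (nat_lit 0) (nat_lit 1677870894828) (nat_lit 152) (nat_lit 581926639304) (nat_lit 0) (nat_lit 1677461670581) (nat_lit 1) (nat_lit 5) (nat_lit 3) (nat_lit 4) (nat_lit 1) (nat_lit 4) (nat_lit 256) (nat_lit 176) (nat_lit 168))))))) (XT.nd (nat_lit 30732) (nat_lit 0) (nat_lit 0) (XT.nd (nat_lit 390) (nat_lit 0) (nat_lit 0) (XT.nd (nat_lit 156)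 (nat_lit 0) (nat_lit 0) (XT.nd (nat_lit 78) (nat_lit 0) (nat_lit 0) (XT.lf (nat_lit 0) (nat_lit 1929880608461) (nat_lit 152) (nat_lit 668486435155) (nat_lit 0) (nat_lit 1929445460716) (nat_lit 1) (nat_lit 5) (nat_lit 3) (nat_lit 4) (nat_lit 1) (nat_lit 4) (nat_lit 257) (nat_lit 176) (nat_lit 167)) (XT.lf (nat_lit 0) (nat_lit 2219670984799) (nat_lit 152) (nat_lit 768066279691) (nat_lit 0) (nat_lit 2219213294881) (nat_lit 1) (nat_lit 5) (nat_lit 3) (nat_lit 4) (nat_lit 1) (nat_lit 4) (nat_lit 258) (nat_lit 176) (nat_lit 166))) (XT.nd (nat_lit 78) (nat_lit 0) (nat_lit 0) (XT.lf (nat_lit 0) (nat_lit 2552911835553) (nat_lit 152) (nat_lit 882614474220) (nat_lit 0) (nat_lit 2552434543746) (nat_lit 1) (nat_lit 5) (nat_lit 3) (nat_lit 4) (nat_lit 1) (nat_lit 4) (nat_lit 259) (nat_lit 176) (nat_lit 165)) (XT.nd (nat_lit 78) (nat_lit 0) (nat_lit 0) (XT.lf (nat_lit 0) (nat_lit 2936123090411) (nat_lit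 152) (nat_lit 1014372179069) (nat_lit 0) (nat_lit 2935628753484) (nat_lit 1) (nat_lit 5) (nat_lit 3) (nat_lit 4) (nat_lit 1) (nat_lit 4) (nat_lit 260) (nat_lit 176) (nat_lit 164)) (XT.lf (nat_lit 0) (nat_lit 3376802360882) (nat_lit 152) (nat_lit 1165917262376) (nat_lit 0) (nat_lit 3376293202110) (nat_lit 1) (nat_lit 5) (nat_lit 3) (nat_lit 4) (nat_lit 1) (nat_lit 4) (nat_lit 261) (nat_lit 176) (nat_lit 163))))) (XT.nd (nat_lit 30108) (nat_lit 0) (nat_lit 0) (XT.nd (nat_lit 30030) (nat_lit 0) (nat_lit 0) (XT.lf (nat_lit 0) (nat_lit 3883571632692) (nat_lit 152) (nat_lit 1340214736641) (nat_lit 0) (nat_lit 3883049585360) (nat_lit 1) (nat_lit 5) (nat_lit 3) (nat_lit 4) (nat_lit 1) (nat_lit 4) (nat_lit 262) (nat_lit 176) (nat_lit 162)) (XT.lf (nat_lit 0) (nat_lit 205931780170) (nat_lit 152) (nat_lit 74896736186) (nat_lit 0) (nat_lit 205931780170) (nat_lit 1) (nat_lit 5) (nat_lit 3) (nat_lit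 4) (nat_lit 1) (nat_lit 4) (nat_lit 246) (nat_lit 177) (nat_lit 177))) (XT.nd (nat_lit 78) (nat_lit 0) (nat_lit 0) (XT.lf (nat_lit 0) (nat_lit 474399030304) (nat_lit 152) (nat_lit 170768939580) (nat_lit 0) (nat_lit 474307834644) (nat_lit 1) (nat_lit 5) (nat_lit 3) (nat_lit 4) (nat_lit 1) (nat_lit 4) (nat_lit 247) (nat_lit 177) (nat_lit 176)) (XT.nd (nat_lit 78) (nat_lit 0) (nat_lit 0) (XT.lf (nat_lit 0) (nat_lit 546241668846) (nat_lit 152) (nat_lit 195017649412) (nat_lit 0) (nat_lit 546071172612) (nat_lit 1) (nat_lit 5) (nat_lit 3) (nat_lit 4) (nat_lit 1) (nat_lit 4) (nat_lit 248) (nat_lit 177) (nat_lit 175)) (XT.lf (nat_lit 0) (nat_lit 628797092807) (nat_lit 152) (nat_lit 223014033149) (nat_lit 0) (nat_lit 628557639552) (nat_lit 1) (nat_lit 5) (nat_lit 3) (nat_lit 4) (nat_lit 1) (nat_lit 4) (nat_lit 249) (nat_lit 177) (nat_lit 174)))))) (XT.nd (nat_lit 390) (nat_lit 0) (nat_lit 0)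 (XT.nd (nat_lit 156) (nat_lit 0) (nat_lit 0) (XT.nd (nat_lit 78) (nat_lit 0) (nat_lit 0) (XT.lf (nat_lit 0) (nat_lit 723680517005) (nat_lit 152) (nat_lit 255305846122) (nat_lit 0) (nat_lit 723381101123) (nat_lit 1) (nat_lit 5) (nat_lit 3) (nat_lit 4) (nat_lit 1) (nat_lit 4) (nat_lit 250) (nat_lit 177) (nat_lit 173)) (XT.lf (nat_lit 0) (nat_lit 832748356259) (nat_lit 152) (nat_lit 292524884675) (nat_lit 0) (nat_lit 832396798963) (nat_lit 1) (nat_lit 5) (nat_lit 3) (nat_lit 4) (nat_lit 1) (nat_lit 4) (nat_lit 251) (nat_lit 177) (nat_lit 172))) (XT.nd (nat_lit 78) (nat_lit 0) (nat_lit 0) (XT.lf (nat_lit 0) (nat_lit 958134546556) (nat_lit 152) (nat_lit 335399347386) (nat_lit 0) (nat_lit 957737648899) (nat_lit 1) (nat_lit 5) (nat_lit 3) (nat_lit 4) (nat_lit 1) (nat_lit 4) (nat_lit 252) (nat_lit 177) (nat_lit 171)) (XT.nd (nat_lit 78) (nat_lit 0) (nat_lit 0) (XT.lf (nat_lit 0) (nat_lit 1102292295967)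 (nat_lit 152) (nat_lit 384768082439) (nat_lit 0) (nat_lit 1101855971910) (nat_lit 1) (nat_lit 5) (nat_lit 3) (nat_lit 4) (nat_lit 1) (nat_lit 4) (nat_lit 253) (nat_lit 177) (nat_lit 170)) (XT.lf (nat_lit 0) (nat_lit 1268042082198) (nat_lit 152) (nat_lit 441596999868) (nat_lit 0) (nat_lit 1267571474313) (nat_lit 1) (nat_lit 5) (nat_lit 3) (nat_lit 4) (nat_lit 1) (nat_lit 4) (nat_lit 254) (nat_lit 177) (nat_lit 169))))) (XT.nd (nat_lit 156) (nat_lit 0) (nat_lit 0) (XT.nd (nat_lit 78) (nat_lit 0) (nat_lit 0) (XT.lf (nat_lit 0) (nat_lit 1458626835848) (nat_lit 152) (nat_lit 506997969797) (nat_lit 0) (nat_lit 1458126415940) (nat_lit 1) (nat_lit 5) (nat_lit 3) (nat_lit 4) (nat_lit 1) (nat_lit 4) (nat_lit 255) (nat_lit 177) (nat_lit 168)) (XT.lf (nat_lit 0) (nat_lit 1677775389054) (nat_lit 152) (nat_lit 582250576420) (nat_lit 0) (nat_lit 1677249045648) (nat_lit 1) (nat_lit 5) (nat_lit 3) (nat_lit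 4) (nat_lit 1) (nat_lit 4) (nat_lit 256) (nat_lit 177) (nat_lit 167))) (XT.nd (nat_lit 78) (nat_lit 0) (nat_lit 0) (XT.lf (nat_lit 0) (nat_lit 1929775430901) (nat_lit 152) (nat_lit 668827153345) (nat_lit 0) (nat_lit 1929226545323) (nat_lit 1) (nat_lit 5) (nat_lit 3) (nat_lit 4) (nat_lit 1) (nat_lit 4) (nat_lit 257) (nat_lit 177) (nat_lit 166)) (XT.nd (nat_lit 78) (nat_lit 0) (nat_lit 0) (XT.lf (nat_lit 0) (nat_lit 2219557396990) (nat_lit 152) (nat_lit 768421590120) (nat_lit 0) (nat_lit 2218988909523) (nat_lit 1) (nat_lit 5) (nat_lit 3) (nat_lit 4) (nat_lit 1) (nat_lit 4) (nat_lit 258) (nat_lit 177) (nat_lit 165)) (XT.lf (nat_lit 0) (nat_lit 2552790934484) (nat_lit 152) (nat_lit 882982473551) (nat_lit 0) (nat_lit 2552205401896) (nat_lit 1) (nat_lit 5) (nat_lit 3) (nat_lit 4) (nat_lit 1) (nat_lit 4) (nat_lit 259) (nat_lit 177) (nat_lit 164))))))))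
noncomputable def xc2 : XT := (XT.nd (nat_lit 31278) (nat_lit 0) (nat_lit 0) (XT.nd (nat_lit 30498) (nat_lit 0) (nat_lit 0) (XT.nd (nat_lit 30108) (nat_lit 0) (nat_lit 0) (XT.nd (nat_lit 156) (nat_lit 0) (nat_lit 0) (XT.nd (nat_lit 78) (nat_lit 0) (nat_lit 0) (XT.lf (nat_lit 0) (nat_lit 2935995829986) (nat_lit 152) (nat_lit 1014751212228) (nat_lit 0) (nat_lit 2935395475554) (nat_lit 1) (nat_lit 5) (nat_lit 3) (nat_lit 4) (nat_lit 1) (nat_lit 4) (nat_lit 260) (nat_lit 177) (nat_lit 163)) (XT.lf (nat_lit 0) (nat_lit 3376669570582) (nat_lit 152) (nat_lit 1166305890169) (nat_lit 0) (nat_lit 3376056327589) (nat_lit 1) (nat_lit 5) (nat_lit 3) (nat_lit 4) (nat_lit 1) (nat_lit 4) (nat_lit 261) (nat_lit 177) (nat_lit 162))) (XT.nd (nat_lit 29874) (nat_lit 0) (nat_lit 0) (XT.lf (nat_lit 0) (nat_lit 3883434033805) (nat_lit 152) (nat_lit 1340611707593) (nat_lit 0) (nat_lit 3882809583369) (nat_lit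 1) (nat_lit 5) (nat_lit 3) (nat_lit 4) (nat_lit 1) (nat_lit 4) (nat_lit 262) (nat_lit 177) (nat_lit 161)) (XT.lf (nat_lit 0) (nat_lit 155064038087) (nat_lit 152) (nat_lit 57999323873) (nat_lit 0) (nat_lit 155064038087) (nat_lit 1) (nat_lit 5) (nat_lit 3) (nat_lit 4) (nat_lit 1) (nat_lit 4) (nat_lit 244) (nat_lit 178) (nat_lit 178)))) (XT.nd (nat_lit 156) (nat_lit 0) (nat_lit 0) (XT.nd (nat_lit 78) (nat_lit 0) (nat_lit 0) (XT.lf (nat_lit 0) (nat_lit 357516613899) (nat_lit 152) (nat_lit 131680858213) (nat_lit 0) (nat_lit 357411738890) (nat_lit 1) (nat_lit 5) (nat_lit 3) (nat_lit 4) (nat_lit 1) (nat_lit 4) (nat_lit 245) (nat_lit 178) (nat_lit 177)) (XT.lf (nat_lit 0) (nat_lit 411929307580) (nat_lit 152) (nat_lit 149861361174) (nat_lit 0) (nat_lit 411733236911) (nat_lit 1) (nat_lit 5) (nat_lit 3) (nat_lit 4) (nat_lit 1) (nat_lit 4) (nat_lit 246) (nat_lit 178) (nat_lit 176))) (XT.nd (nat_lit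 78) (nat_lit 0) (nat_lit 0) (XT.lf (nat_lit 0) (nat_lit 474430753397) (nat_lit 152) (nat_lit 170895862123) (nat_lit 0) (nat_lit 474155382154) (nat_lit 1) (nat_lit 5) (nat_lit 3) (nat_lit 4) (nat_lit 1) (nat_lit 4) (nat_lit 247) (nat_lit 178) (nat_lit 175)) (XT.nd (nat_lit 78) (nat_lit 0) (nat_lit 0) (XT.lf (nat_lit 0) (nat_lit 546243805724) (nat_lit 152) (nat_lit 195195905644) (nat_lit 0) (nat_lit 545899477460) (nat_lit 1) (nat_lit 5) (nat_lit 3) (nat_lit 4) (nat_lit 1) (nat_lit 4) (nat_lit 248) (nat_lit 178) (nat_lit 174)) (XT.lf (nat_lit 0) (nat_lit 628773502542) (nat_lit 152) (nat_lit 223236927369) (nat_lit 0) (nat_lit 628369211651) (nat_lit 1) (nat_lit 5) (nat_lit 3) (nat_lit 4) (nat_lit 1) (nat_lit 4) (nat_lit 249) (nat_lit 178) (nat_lit 173)))))) (XT.nd (nat_lit 390) (nat_lit 0) (nat_lit 0) (XT.nd (nat_lit 156) (nat_lit 0) (nat_lit 0) (XT.nd (nat_lit 78) (nat_lit 0) (nat_lit 0)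 (XT.lf (nat_lit 0) (nat_lit 723634555310) (nat_lit 152) (nat_lit 255567555986) (nat_lit 0) (nat_lit 723178123005) (nat_lit 1) (nat_lit 5) (nat_lit 3) (nat_lit 4) (nat_lit 1) (nat_lit 4) (nat_lit 250) (nat_lit 178) (nat_lit 172)) (XT.lf (nat_lit 0) (nat_lit 832682941148) (nat_lit 152) (nat_lit 292820347271) (nat_lit 0) (nat_lit 832181168482) (nat_lit 1) (nat_lit 5) (nat_lit 3) (nat_lit 4) (nat_lit 1) (nat_lit 4) (nat_lit 251) (nat_lit 178) (nat_lit 171))) (XT.nd (nat_lit 78) (nat_lit 0) (nat_lit 0) (XT.lf (nat_lit 0) (nat_lit 958052215431) (nat_lit 152) (nat_lit 335724160185) (nat_lit 0) (nat_lit 957511016364) (nat_lit 1) (nat_lit 5) (nat_lit 3) (nat_lit 4) (nat_lit 1) (nat_lit 4) (nat_lit 252) (nat_lit 178) (nat_lit 170)) (XT.nd (nat_lit 78) (nat_lit 0) (nat_lit 0) (XT.lf (nat_lit 0) (nat_lit 1102195255264) (nat_lit 152) (nat_lit 385118417154) (nat_lit 0) (nat_lit 1101619772371) (nat_lit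 1) (nat_lit 5) (nat_lit 3) (nat_lit 4) (nat_lit 1) (nat_lit 4) (nat_lit 253) (nat_lit 178) (nat_lit 169)) (XT.lf (nat_lit 0) (nat_lit 1267932250557) (nat_lit 152) (nat_lit 441969527553) (nat_lit 0) (nat_lit 1267326955641) (nat_lit 1) (nat_lit 5) (nat_lit 3) (nat_lit 4) (nat_lit 1) (nat_lit 4) (nat_lit 254) (nat_lit 178) (nat_lit 168))))) (XT.nd (nat_lit 156) (nat_lit 0) (nat_lit 0) (XT.nd (nat_lit 78) (nat_lit 0) (nat_lit 0) (XT.lf (nat_lit 0) (nat_lit 1458505881653) (nat_lit 152) (nat_lit 507389795716) (nat_lit 0) (nat_lit 1457874663239) (nat_lit 1) (nat_lit 5) (nat_lit 3) (nat_lit 4) (nat_lit 1) (nat_lit 4) (nat_lit 255) (nat_lit 178) (nat_lit 167)) (XT.lf (nat_lit 0) (nat_lit 1677644763074) (nat_lit 152) (nat_lit 582659183413) (nat_lit 0) (nat_lit 1676991002486) (nat_lit 1) (nat_lit 5) (nat_lit 3) (nat_lit 4) (nat_lit 1) (nat_lit 4) (nat_lit 256) (nat_lit 178) (nat_lit 166))) (XT.nd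 (nat_lit 78) (nat_lit 0) (nat_lit 0) (XT.lf (nat_lit 0) (nat_lit 1929636394672) (nat_lit 152) (nat_lit 669250352575) (nat_lit 0) (nat_lit 1928963032196) (nat_lit 1) (nat_lit 5) (nat_lit 3) (nat_lit 4) (nat_lit 1) (nat_lit 4) (nat_lit 257) (nat_lit 178) (nat_lit 165)) (XT.nd (nat_lit 78) (nat_lit 0) (nat_lit 0) (XT.lf (nat_lit 0) (nat_lit 2219411047501) (nat_lit 152) (nat_lit 768857478253) (nat_lit 0) (nat_lit 2218720639904) (nat_lit 1) (nat_lit 5) (nat_lit 3) (nat_lit 4) (nat_lit 1) (nat_lit 4) (nat_lit 258) (nat_lit 178) (nat_lit 164)) (XT.lf (nat_lit 0) (nat_lit 2552638225639) (nat_lit 152) (nat_lit 883429395513) (nat_lit 0) (nat_lit 2551932996198) (nat_lit 1) (nat_lit 5) (nat_lit 3) (nat_lit 4) (nat_lit 1) (nat_lit 4) (nat_lit 259) (nat_lit 178) (nat_lit 163))))))) (XT.nd (nat_lit 30420) (nat_lit 0) (nat_lit 0) (XT.nd (nat_lit 30030) (nat_lit 0) (nat_lit 0) (XT.nd (nat_lit 156) (nat_lit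 0) (nat_lit 0) (XT.nd (nat_lit 78) (nat_lit 0) (nat_lit 0) (XT.lf (nat_lit 0) (nat_lit 2935837591266) (nat_lit 152) (nat_lit 1015207728823) (nat_lit 0) (nat_lit 2935119473264) (nat_lit 1) (nat_lit 5) (nat_lit 3) (nat_lit 4) (nat_lit 1) (nat_lit 4) (nat_lit 260) (nat_lit 178) (nat_lit 162)) (XT.lf (nat_lit 0) (nat_lit 3376506523274) (nat_lit 152) (nat_lit 1166770749923) (nat_lit 0) (nat_lit 3375777197829) (nat_lit 1) (nat_lit 5) (nat_lit 3) (nat_lit 4) (nat_lit 1) (nat_lit 4) (nat_lit 261) (nat_lit 178) (nat_lit 161))) (XT.nd (nat_lit 29718) (nat_lit 0) (nat_lit 0) (XT.lf (nat_lit 0) (nat_lit 3883266805117) (nat_lit 152) (nat_lit 1341083822268) (nat_lit 0) (nat_lit 3882527734069) (nat_lit 1) (nat_lit 5) (nat_lit 3) (nat_lit 4) (nat_lit 1) (nat_lit 4) (nat_lit 262) (nat_lit 178) (nat_lit 160)) (XT.nd (nat_lit 78) (nat_lit 0) (nat_lit 0) (XT.lf (nat_lit 0) (nat_lit 116503221033) (nat_lit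 152) (nat_lit 45427447224) (nat_lit 0) (nat_lit 116503221033) (nat_lit 1) (nat_lit 5) (nat_lit 3) (nat_lit 4) (nat_lit 1) (nat_lit 4) (nat_lit 242) (nat_lit 179) (nat_lit 179)) (XT.lf (nat_lit 0) (nat_lit 268957133621) (nat_lit 152) (nat_lit 102507903917) (nat_lit 0) (nat_lit 268836527361) (nat_lit 1) (nat_lit 5) (nat_lit 3) (nat_lit 4) (nat_lit 1) (nat_lit 4) (nat_lit 243) (nat_lit 179) (nat_lit 178))))) (XT.nd (nat_lit 156) (nat_lit 0) (nat_lit 0) (XT.nd (nat_lit 78) (nat_lit 0) (nat_lit 0) (XT.lf (nat_lit 0) (nat_lit 310203685500) (nat_lit 152) (nat_lit 116076719869) (nat_lit 0) (nat_lit 309978204230) (nat_lit 1) (nat_lit 5) (nat_lit 3) (nat_lit 4) (nat_lit 1) (nat_lit 4) (nat_lit 244) (nat_lit 179) (nat_lit 177)) (XT.lf (nat_lit 0) (nat_lit 357553095456) (nat_lit 152) (nat_lit 131826819138) (nat_lit 0) (nat_lit 357236418526) (nat_lit 1) (nat_lit 5) (nat_lit 3) (nat_lit 4) (nat_lit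 1) (nat_lit 4) (nat_lit 245) (nat_lit 179) (nat_lit 176))) (XT.nd (nat_lit 78) (nat_lit 0) (nat_lit 0) (XT.lf (nat_lit 0) (nat_lit 411931764990) (nat_lit 152) (nat_lit 150066355840) (nat_lit 0) (nat_lit 411535787486) (nat_lit 1) (nat_lit 5) (nat_lit 3) (nat_lit 4) (nat_lit 1) (nat_lit 4) (nat_lit 246) (nat_lit 179) (nat_lit 175)) (XT.nd (nat_lit 78) (nat_lit 0) (nat_lit 0) (XT.lf (nat_lit 0) (nat_lit 474403624592) (nat_lit 152) (nat_lit 171152190477) (nat_lit 0) (nat_lit 473938690067) (nat_lit 1) (nat_lit 5) (nat_lit 3) (nat_lit 4) (nat_lit 1) (nat_lit 4) (nat_lit 247) (nat_lit 179) (nat_lit 174)) (XT.lf (nat_lit 0) (nat_lit 546190949775) (nat_lit 152) (nat_lit 195496871987) (nat_lit 0) (nat_lit 545666052624) (nat_lit 1) (nat_lit 5) (nat_lit 3) (nat_lit 4) (nat_lit 1) (nat_lit 4) (nat_lit 248) (nat_lit 179) (nat_lit 173)))))) (XT.nd (nat_lit 390) (nat_lit 0) (nat_lit 0) (XT.nd (nat_lit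 156) (nat_lit 0) (nat_lit 0) (XT.nd (nat_lit 78) (nat_lit 0) (nat_lit 0) (XT.lf (nat_lit 0) (nat_lit 628698275164) (nat_lit 152) (nat_lit 223576709355) (nat_lit 0) (nat_lit 628121236598) (nat_lit 1) (nat_lit 5) (nat_lit 3) (nat_lit 4) (nat_lit 1) (nat_lit 4) (nat_lit 249) (nat_lit 179) (nat_lit 172)) (XT.lf (nat_lit 0) (nat_lit 723539874516) (nat_lit 152) (nat_lit 255941090705) (nat_lit 0) (nat_lit 722917495589) (nat_lit 1) (nat_lit 5) (nat_lit 3) (nat_lit 4) (nat_lit 1) (nat_lit 4) (nat_lit 250) (nat_lit 179) (nat_lit 171))) (XT.nd (nat_lit 78) (nat_lit 0) (nat_lit 0) (XT.lf (nat_lit 0) (nat_lit 832571344340) (nat_lit 152) (nat_lit 293223232193) (nat_lit 0) (nat_lit 831909539013) (nat_lit 1) (nat_lit 5) (nat_lit 3) (nat_lit 4) (nat_lit 1) (nat_lit 4) (nat_lit 251) (nat_lit 179) (nat_lit 170)) (XT.nd (nat_lit 78) (nat_lit 0) (nat_lit 0) (XT.lf (nat_lit 0) (nat_lit 957925909045) (nat_lit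 152) (nat_lit 336152567022) (nat_lit 0) (nat_lit 957229819891) (nat_lit 1) (nat_lit 5) (nat_lit 3) (nat_lit 4) (nat_lit 1) (nat_lit 4) (nat_lit 252) (nat_lit 179) (nat_lit 169)) (XT.lf (nat_lit 0) (nat_lit 1102056157941) (nat_lit 152) (nat_lit 385569016960) (nat_lit 0) (nat_lit 1101330256764) (nat_lit 1) (nat_lit 5) (nat_lit 3) (nat_lit 4) (nat_lit 1) (nat_lit 4) (nat_lit 253) (nat_lit 179) (nat_lit 168))))) (XT.nd (nat_lit 156) (nat_lit 0) (nat_lit 0) (XT.nd (nat_lit 78) (nat_lit 0) (nat_lit 0) (XT.lf (nat_lit 0) (nat_lit 1267782030680) (nat_lit 152) (nat_lit 442439425594) (nat_lit 0) (nat_lit 1267030206005) (nat_lit 1) (nat_lit 5) (nat_lit 3) (nat_lit 4) (nat_lit 1) (nat_lit 4) (nat_lit 254) (nat_lit 179) (nat_lit 167)) (XT.lf (nat_lit 0) (nat_lit 1458345989990) (nat_lit 152) (nat_lit 507876474832) (nat_lit 0) (nat_lit 1457571623142) (nat_lit 1) (nat_lit 5) (nat_lit 3) (nat_lit 4)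 (nat_lit 1) (nat_lit 4) (nat_lit 255) (nat_lit 179) (nat_lit 166))) (XT.nd (nat_lit 78) (nat_lit 0) (nat_lit 0) (XT.lf (nat_lit 0) (nat_lit 1677476461161) (nat_lit 152) (nat_lit 583160454766) (nat_lit 0) (nat_lit 1676682492425) (nat_lit 1) (nat_lit 5) (nat_lit 3) (nat_lit 4) (nat_lit 1) (nat_lit 4) (nat_lit 256) (nat_lit 179) (nat_lit 165)) (XT.nd (nat_lit 78) (nat_lit 0) (nat_lit 0) (XT.lf (nat_lit 0) (nat_lit 1929460779500) (nat_lit 152) (nat_lit 669764312831) (nat_lit 0) (nat_lit 1928649765642) (nat_lit 1) (nat_lit 5) (nat_lit 3) (nat_lit 4) (nat_lit 1) (nat_lit 4) (nat_lit 257) (nat_lit 179) (nat_lit 164)) (XT.lf (nat_lit 0) (nat_lit 2219229072973) (nat_lit 152) (nat_lit 769382472337) (nat_lit 0) (nat_lit 2218403237271) (nat_lit 1) (nat_lit 5) (nat_lit 3) (nat_lit 4) (nat_lit 1) (nat_lit 4) (nat_lit 258) (nat_lit 179) (nat_lit 163))))))))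
noncomputable def xc3 : XT := (XT.nd (nat_lit 30966) (nat_lit 0) (nat_lit 0) (XT.nd (nat_lit 30186) (nat_lit 0) (nat_lit 0) (XT.nd (nat_lit 29796) (nat_lit 0) (nat_lit 0) (XT.nd (nat_lit 156) (nat_lit 0) (nat_lit 0) (XT.nd (nat_lit 78) (nat_lit 0) (nat_lit 0) (XT.lf (nat_lit 0) (nat_lit 2552450721235) (nat_lit 152) (nat_lit 883963984230) (nat_lit 0) (nat_lit 2551611996973) (nat_lit 1) (nat_lit 5) (nat_lit 3) (nat_lit 4) (nat_lit 1) (nat_lit 4) (nat_lit 259) (nat_lit 179) (nat_lit 162)) (XT.lf (nat_lit 0) (nat_lit 2935645278275) (nat_lit 152) (nat_lit 1015750660700) (nat_lit 0) (nat_lit 2934795346569) (nat_lit 1) (nat_lit 5) (nat_lit 3) (nat_lit 4) (nat_lit 1) (nat_lit 4) (nat_lit 260) (nat_lit 179) (nat_lit 161))) (XT.nd (nat_lit 78) (nat_lit 0) (nat_lit 0) (XT.lf (nat_lit 0) (nat_lit 3376310028904) (nat_lit 152) (nat_lit 1167320936720) (nat_lit 0) (nat_lit 3375450351595) (nat_lit 1)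 (nat_lit 5) (nat_lit 3) (nat_lit 4) (nat_lit 1) (nat_lit 4) (nat_lit 261) (nat_lit 179) (nat_lit 160)) (XT.lf (nat_lit 0) (nat_lit 3883066674764) (nat_lit 152) (nat_lit 1341640317693) (nat_lit 0) (nat_lit 3882198523017) (nat_lit 1) (nat_lit 5) (nat_lit 3) (nat_lit 4) (nat_lit 1) (nat_lit 4) (nat_lit 262) (nat_lit 179) (nat_lit 159)))) (XT.nd (nat_lit 156) (nat_lit 0) (nat_lit 0) (XT.nd (nat_lit 78) (nat_lit 0) (nat_lit 0) (XT.lf (nat_lit 0) (nat_lit 87233583004) (nat_lit 152) (nat_lit 36157046176) (nat_lit 0) (nat_lit 87233583004) (nat_lit 1) (nat_lit 5) (nat_lit 3) (nat_lit 4) (nat_lit 1) (nat_lit 4) (nat_lit 240) (nat_lit 180) (nat_lit 180)) (XT.lf (nat_lit 0) (nat_lit 201786924940) (nat_lit 152) (nat_lit 80889697801) (nat_lit 0) (nat_lit 201648227740) (nat_lit 1) (nat_lit 5) (nat_lit 3) (nat_lit 4) (nat_lit 1) (nat_lit 4) (nat_lit 241) (nat_lit 180) (nat_lit 179))) (XT.nd (nat_lit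 78) (nat_lit 0) (nat_lit 0) (XT.lf (nat_lit 0) (nat_lit 233093392792) (nat_lit 152) (nat_lit 90944677390) (nat_lit 0) (nat_lit 232834089331) (nat_lit 1) (nat_lit 5) (nat_lit 3) (nat_lit 4) (nat_lit 1) (nat_lit 4) (nat_lit 242) (nat_lit 180) (nat_lit 178)) (XT.nd (nat_lit 78) (nat_lit 0) (nat_lit 0) (XT.lf (nat_lit 0) (nat_lit 268999087412) (nat_lit 152) (nat_lit 102675758980) (nat_lit 0) (nat_lit 268634908942) (nat_lit 1) (nat_lit 5) (nat_lit 3) (nat_lit 4) (nat_lit 1) (nat_lit 4) (nat_lit 243) (nat_lit 180) (nat_lit 177)) (XT.lf (nat_lit 0) (nat_lit 310206511521) (nat_lit 152) (nat_lit 116312463734) (nat_lit 0) (nat_lit 309751137391) (nat_lit 1) (nat_lit 5) (nat_lit 3) (nat_lit 4) (nat_lit 1) (nat_lit 4) (nat_lit 244) (nat_lit 180) (nat_lit 176)))))) (XT.nd (nat_lit 390) (nat_lit 0) (nat_lit 0) (XT.nd (nat_lit 156) (nat_lit 0) (nat_lit 0) (XT.nd (nat_lit 78) (nat_lit 0) (nat_lit 0)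 (XT.lf (nat_lit 0) (nat_lit 357521897330) (nat_lit 152) (nat_lit 132121596744) (nat_lit 0) (nat_lit 356987222627) (nat_lit 1) (nat_lit 5) (nat_lit 3) (nat_lit 4) (nat_lit 1) (nat_lit 4) (nat_lit 245) (nat_lit 180) (nat_lit 175)) (XT.lf (nat_lit 0) (nat_lit 411870980649) (nat_lit 152) (nat_lit 150412467135) (nat_lit 0) (nat_lit 411267348925) (nat_lit 1) (nat_lit 5) (nat_lit 3) (nat_lit 4) (nat_lit 1) (nat_lit 4) (nat_lit 246) (nat_lit 180) (nat_lit 174))) (XT.nd (nat_lit 78) (nat_lit 0) (nat_lit 0) (XT.lf (nat_lit 0) (nat_lit 474317113107) (nat_lit 152) (nat_lit 171542939761) (nat_lit 0) (nat_lit 473653518756) (nat_lit 1) (nat_lit 5) (nat_lit 3) (nat_lit 4) (nat_lit 1) (nat_lit 4) (nat_lit 247) (nat_lit 180) (nat_lit 173)) (XT.nd (nat_lit 78) (nat_lit 0) (nat_lit 0) (XT.lf (nat_lit 0) (nat_lit 546082066862) (nat_lit 152) (nat_lit 195926436913) (nat_lit 0) (nat_lit 545366331096) (nat_lit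 1) (nat_lit 5) (nat_lit 3) (nat_lit 4) (nat_lit 1) (nat_lit 4) (nat_lit 248) (nat_lit 180) (nat_lit 172)) (XT.lf (nat_lit 0) (nat_lit 628569938835) (nat_lit 152) (nat_lit 224040027015) (nat_lit 0) (nat_lit 627808862708) (nat_lit 1) (nat_lit 5) (nat_lit 3) (nat_lit 4) (nat_lit 1) (nat_lit 4) (nat_lit 249) (nat_lit 180) (nat_lit 171))))) (XT.nd (nat_lit 156) (nat_lit 0) (nat_lit 0) (XT.nd (nat_lit 78) (nat_lit 0) (nat_lit 0) (XT.lf (nat_lit 0) (nat_lit 723394622172) (nat_lit 152) (nat_lit 256433758567) (nat_lit 0) (nat_lit 722594119645) (nat_lit 1) (nat_lit 5) (nat_lit 3) (nat_lit 4) (nat_lit 1) (nat_lit 4) (nat_lit 250) (nat_lit 180) (nat_lit 170)) (XT.lf (nat_lit 0) (nat_lit 832411382418) (nat_lit 152) (nat_lit 293741421971) (nat_lit 0) (nat_lit 831576596065) (nat_lit 1) (nat_lit 5) (nat_lit 3) (nat_lit 4) (nat_lit 1) (nat_lit 4) (nat_lit 251) (nat_lit 180) (nat_lit 169))) (XT.nd (nat_lit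 78) (nat_lit 0) (nat_lit 0) (XT.lf (nat_lit 0) (nat_lit 957753156186) (nat_lit 152) (nat_lit 336692949769) (nat_lit 0) (nat_lit 956888557809) (nat_lit 1) (nat_lit 5) (nat_lit 3) (nat_lit 4) (nat_lit 1) (nat_lit 4) (nat_lit 252) (nat_lit 180) (nat_lit 168)) (XT.nd (nat_lit 78) (nat_lit 0) (nat_lit 0) (XT.lf (nat_lit 0) (nat_lit 1101872282528) (nat_lit 152) (nat_lit 386128697943) (nat_lit 0) (nat_lit 1100981760653) (nat_lit 1) (nat_lit 5) (nat_lit 3) (nat_lit 4) (nat_lit 1) (nat_lit 4) (nat_lit 253) (nat_lit 180) (nat_lit 167)) (XT.lf (nat_lit 0) (nat_lit 1267588483481) (nat_lit 152) (nat_lit 443015887650) (nat_lit 0) (nat_lit 1266675419434) (nat_lit 1) (nat_lit 5) (nat_lit 3) (nat_lit 4) (nat_lit 1) (nat_lit 4) (nat_lit 254) (nat_lit 180) (nat_lit 166))))))) (XT.nd (nat_lit 30108) (nat_lit 0) (nat_lit 0) (XT.nd (nat_lit 390) (nat_lit 0) (nat_lit 0) (XT.nd (nat_lit 156) (nat_lit 0) (nat_lit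 0) (XT.nd (nat_lit 78) (nat_lit 0) (nat_lit 0) (XT.lf (nat_lit 0) (nat_lit 1458144032542) (nat_lit 152) (nat_lit 508467529126) (nat_lit 0) (nat_lit 1457211366606) (nat_lit 1) (nat_lit 5) (nat_lit 3) (nat_lit 4) (nat_lit 1) (nat_lit 4) (nat_lit 255) (nat_lit 180) (nat_lit 165)) (XT.lf (nat_lit 0) (nat_lit 1677267190453) (nat_lit 152) (nat_lit 583764197962) (nat_lit 0) (nat_lit 1676317479396) (nat_lit 1) (nat_lit 5) (nat_lit 3) (nat_lit 4) (nat_lit 1) (nat_lit 4) (nat_lit 256) (nat_lit 180) (nat_lit 164))) (XT.nd (nat_lit 78) (nat_lit 0) (nat_lit 0) (XT.lf (nat_lit 0) (nat_lit 1929245149436) (nat_lit 152) (nat_lit 670379089856) (nat_lit 0) (nat_lit 1928280616534) (nat_lit 1) (nat_lit 5) (nat_lit 3) (nat_lit 4) (nat_lit 1) (nat_lit 4) (nat_lit 257) (nat_lit 180) (nat_lit 163)) (XT.nd (nat_lit 78) (nat_lit 0) (nat_lit 0) (XT.lf (nat_lit 0) (nat_lit 2219007913033) (nat_lit 152) (nat_lit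 770006843995) (nat_lit 0) (nat_lit 2218030491572) (nat_lit 1) (nat_lit 5) (nat_lit 3) (nat_lit 4) (nat_lit 1) (nat_lit 4) (nat_lit 258) (nat_lit 180) (nat_lit 162)) (XT.lf (nat_lit 0) (nat_lit 2552224752709) (nat_lit 152) (nat_lit 884596699047) (nat_lit 0) (nat_lit 2551236123804) (nat_lit 1) (nat_lit 5) (nat_lit 3) (nat_lit 4) (nat_lit 1) (nat_lit 4) (nat_lit 259) (nat_lit 180) (nat_lit 161))))) (XT.nd (nat_lit 156) (nat_lit 0) (nat_lit 0) (XT.nd (nat_lit 78) (nat_lit 0) (nat_lit 0) (XT.lf (nat_lit 0) (nat_lit 2935415128369) (nat_lit 152) (nat_lit 1016390630438) (nat_lit 0) (nat_lit 2934416753860) (nat_lit 1) (nat_lit 5) (nat_lit 3) (nat_lit 4) (nat_lit 1) (nat_lit 4) (nat_lit 260) (nat_lit 180) (nat_lit 160)) (XT.lf (nat_lit 0) (nat_lit 3376076243015) (nat_lit 152) (nat_lit 1167967215086) (nat_lit 0) (nat_lit 3375069394068) (nat_lit 1) (nat_lit 5) (nat_lit 3) (nat_lit 4) (nat_lit 1)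 (nat_lit 4) (nat_lit 261) (nat_lit 180) (nat_lit 159))) (XT.nd (nat_lit 29406) (nat_lit 0) (nat_lit 0) (XT.lf (nat_lit 0) (nat_lit 3882829727151) (nat_lit 152) (nat_lit 1342292081821) (nat_lit 0) (nat_lit 3881815509128) (nat_lit 1) (nat_lit 5) (nat_lit 3) (nat_lit 4) (nat_lit 1) (nat_lit 4) (nat_lit 262) (nat_lit 180) (nat_lit 158)) (XT.nd (nat_lit 78) (nat_lit 0) (nat_lit 0) (XT.lf (nat_lit 0) (nat_lit 64972593093) (nat_lit 152) (nat_lit 29418396575) (nat_lit 0) (nat_lit 64972593093) (nat_lit 1) (nat_lit 5) (nat_lit 3) (nat_lit 4) (nat_lit 1) (nat_lit 4) (nat_lit 238) (nat_lit 181) (nat_lit 181)) (XT.lf (nat_lit 0) (nat_lit 150759100751) (nat_lit 152) (nat_lit 65050077459) (nat_lit 0) (nat_lit 150599598972) (nat_lit 1) (nat_lit 5) (nat_lit 3) (nat_lit 4) (nat_lit 1) (nat_lit 4) (nat_lit 239) (nat_lit 181) (nat_lit 180)))))) (XT.nd (nat_lit 390) (nat_lit 0) (nat_lit 0) (XT.nd (nat_lit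 156) (nat_lit 0) (nat_lit 0) (XT.nd (nat_lit 78) (nat_lit 0) (nat_lit 0) (XT.lf (nat_lit 0) (nat_lit 174567159341) (nat_lit 152) (nat_lit 72417342734) (nat_lit 0) (nat_lit 174268960362) (nat_lit 1) (nat_lit 5) (nat_lit 3) (nat_lit 4) (nat_lit 1) (nat_lit 4) (nat_lit 240) (nat_lit 181) (nat_lit 179)) (XT.lf (nat_lit 0) (nat_lit 201835171799) (nat_lit 152) (nat_lit 81082731124) (nat_lit 0) (nat_lit 201416366559) (nat_lit 1) (nat_lit 5) (nat_lit 3) (nat_lit 4) (nat_lit 1) (nat_lit 4) (nat_lit 241) (nat_lit 181) (nat_lit 178))) (XT.nd (nat_lit 78) (nat_lit 0) (nat_lit 0) (XT.lf (nat_lit 0) (nat_lit 233096642716) (nat_lit 152) (nat_lit 91215782835) (nat_lit 0) (nat_lit 232572962467) (nat_lit 1) (nat_lit 5) (nat_lit 3) (nat_lit 4) (nat_lit 1) (nat_lit 4) (nat_lit 242) (nat_lit 181) (nat_lit 177)) (XT.nd (nat_lit 78) (nat_lit 0) (nat_lit 0) (XT.lf (nat_lit 0) (nat_lit 268963209567) (nat_lit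 152) (nat_lit 103014753228) (nat_lit 0) (nat_lit 268348333658) (nat_lit 1) (nat_lit 5) (nat_lit 3) (nat_lit 4) (nat_lit 1) (nat_lit 4) (nat_lit 243) (nat_lit 181) (nat_lit 176)) (XT.lf (nat_lit 0) (nat_lit 310136609529) (nat_lit 152) (nat_lit 116710491723) (nat_lit 0) (nat_lit 309442433046) (nat_lit 1) (nat_lit 5) (nat_lit 3) (nat_lit 4) (nat_lit 1) (nat_lit 4) (nat_lit 244) (nat_lit 181) (nat_lit 175))))) (XT.nd (nat_lit 156) (nat_lit 0) (nat_lit 0) (XT.nd (nat_lit 78) (nat_lit 0) (nat_lit 0) (XT.lf (nat_lit 0) (nat_lit 357422409123) (nat_lit 152) (nat_lit 132570958421) (nat_lit 0) (nat_lit 356659275620) (nat_lit 1) (nat_lit 5) (nat_lit 3) (nat_lit 4) (nat_lit 1) (nat_lit 4) (nat_lit 245) (nat_lit 181) (nat_lit 174)) (XT.lf (nat_lit 0) (nat_lit 411745765299) (nat_lit 152) (nat_lit 150906466800) (nat_lit 0) (nat_lit 410922669168) (nat_lit 1) (nat_lit 5) (nat_lit 3) (nat_lit 4) (nat_lit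 1) (nat_lit 4) (nat_lit 246) (nat_lit 181) (nat_lit 173))) (XT.nd (nat_lit 78) (nat_lit 0) (nat_lit 0) (XT.lf (nat_lit 0) (nat_lit 474169526328) (nat_lit 152) (nat_lit 172075755070) (nat_lit 0) (nat_lit 473294288783) (nat_lit 1) (nat_lit 5) (nat_lit 3) (nat_lit 4) (nat_lit 1) (nat_lit 4) (nat_lit 247) (nat_lit 181) (nat_lit 172)) (XT.nd (nat_lit 78) (nat_lit 0) (nat_lit 0) (XT.lf (nat_lit 0) (nat_lit 545915026666) (nat_lit 152) (nat_lit 196493004955) (nat_lit 0) (nat_lit 544994448761) (nat_lit 1) (nat_lit 5) (nat_lit 3) (nat_lit 4) (nat_lit 1) (nat_lit 4) (nat_lit 248) (nat_lit 181) (nat_lit 171)) (XT.lf (nat_lit 0) (nat_lit 628385982624) (nat_lit 152) (nat_lit 224635945259) (nat_lit 0) (nat_lit 627425978318) (nat_lit 1) (nat_lit 5) (nat_lit 3) (nat_lit 4) (nat_lit 1) (nat_lit 4) (nat_lit 249) (nat_lit 181) (nat_lit 170))))))))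
noncomputable def xc4 : XT := (XT.nd (nat_lit 30654) (nat_lit 0) (nat_lit 0) (XT.nd (nat_lit 702) (nat_lit 0) (nat_lit 0) (XT.nd (nat_lit 312) (nat_lit 0) (nat_lit 0) (XT.nd (nat_lit 156) (nat_lit 0) (nat_lit 0) (XT.nd (nat_lit 78) (nat_lit 0) (nat_lit 0) (XT.lf (nat_lit 0) (nat_lit 723195956384) (nat_lit 152) (nat_lit 257055198727) (nat_lit 0) (nat_lit 722201668251) (nat_lit 1) (nat_lit 5) (nat_lit 3) (nat_lit 4) (nat_lit 1) (nat_lit 4) (nat_lit 250) (nat_lit 181) (nat_lit 169)) (XT.lf (nat_lit 0) (nat_lit 832199925693) (nat_lit 152) (nat_lit 294385055100) (nat_lit 0) (nat_lit 831175825537) (nat_lit 1) (nat_lit 5) (nat_lit 3) (nat_lit 4) (nat_lit 1) (nat_lit 4) (nat_lit 251) (nat_lit 181) (nat_lit 168))) (XT.nd (nat_lit 78) (nat_lit 0) (nat_lit 0) (XT.lf (nat_lit 0) (nat_lit 957530576907) (nat_lit 152) (nat_lit 337355881134) (nat_lit 0) (nat_lit 956480553253) (nat_lit 1) (nat_lit 5)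 (nat_lit 3) (nat_lit 4) (nat_lit 1) (nat_lit 4) (nat_lit 252) (nat_lit 181) (nat_lit 167)) (XT.lf (nat_lit 0) (nat_lit 1101640031463) (nat_lit 152) (nat_lit 386808410381) (nat_lit 0) (nat_lit 1100567465636) (nat_lit 1) (nat_lit 5) (nat_lit 3) (nat_lit 4) (nat_lit 1) (nat_lit 4) (nat_lit 253) (nat_lit 181) (nat_lit 166)))) (XT.nd (nat_lit 156) (nat_lit 0) (nat_lit 0) (XT.nd (nat_lit 78) (nat_lit 0) (nat_lit 0) (XT.lf (nat_lit 0) (nat_lit 1267347822167) (nat_lit 152) (nat_lit 443710192326) (nat_lit 0) (nat_lit 1266255654451) (nat_lit 1) (nat_lit 5) (nat_lit 3) (nat_lit 4) (nat_lit 1) (nat_lit 4) (nat_lit 254) (nat_lit 181) (nat_lit 165)) (XT.lf (nat_lit 0) (nat_lit 1457896057968) (nat_lit 152) (nat_lit 509174522704) (nat_lit 0) (nat_lit 1456786845131) (nat_lit 1) (nat_lit 5) (nat_lit 3) (nat_lit 4) (nat_lit 1) (nat_lit 4) (nat_lit 255) (nat_lit 181) (nat_lit 164))) (XT.nd (nat_lit 78)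 (nat_lit 0) (nat_lit 0) (XT.lf (nat_lit 0) (nat_lit 1677012856523) (nat_lit 152) (nat_lit 584482225369) (nat_lit 0) (nat_lit 1675888821842) (nat_lit 1) (nat_lit 5) (nat_lit 3) (nat_lit 4) (nat_lit 1) (nat_lit 4) (nat_lit 256) (nat_lit 181) (nat_lit 163)) (XT.nd (nat_lit 78) (nat_lit 0) (nat_lit 0) (XT.lf (nat_lit 0) (nat_lit 1928985285630) (nat_lit 152) (nat_lit 671106711896) (nat_lit 0) (nat_lit 1927848362389) (nat_lit 1) (nat_lit 5) (nat_lit 3) (nat_lit 4) (nat_lit 1) (nat_lit 4) (nat_lit 257) (nat_lit 181) (nat_lit 162)) (XT.lf (nat_lit 0) (nat_lit 2218743240641) (nat_lit 152) (nat_lit 770742809194) (nat_lit 0) (nat_lit 2217595109956) (nat_lit 1) (nat_lit 5) (nat_lit 3) (nat_lit 4) (nat_lit 1) (nat_lit 4) (nat_lit 258) (nat_lit 181) (nat_lit 161)))))) (XT.nd (nat_lit 29562) (nat_lit 0) (nat_lit 0) (XT.nd (nat_lit 156) (nat_lit 0) (nat_lit 0) (XT.nd (nat_lit 78) (nat_lit 0) (nat_lit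 0) (XT.lf (nat_lit 0) (nat_lit 2551955898937) (nat_lit 152) (nat_lit 885339919168) (nat_lit 0) (nat_lit 2550798022648) (nat_lit 1) (nat_lit 5) (nat_lit 3) (nat_lit 4) (nat_lit 1) (nat_lit 4) (nat_lit 259) (nat_lit 181) (nat_lit 160)) (XT.lf (nat_lit 0) (nat_lit 2935142638614) (nat_lit 152) (nat_lit 1017140159186) (nat_lit 0) (nat_lit 2933976287888) (nat_lit 1) (nat_lit 5) (nat_lit 3) (nat_lit 4) (nat_lit 1) (nat_lit 4) (nat_lit 260) (nat_lit 181) (nat_lit 159))) (XT.nd (nat_lit 78) (nat_lit 0) (nat_lit 0) (XT.lf (nat_lit 0) (nat_lit 3375800591536) (nat_lit 152) (nat_lit 1168722229597) (nat_lit 0) (nat_lit 3374626871734) (nat_lit 1) (nat_lit 5) (nat_lit 3) (nat_lit 4) (nat_lit 1) (nat_lit 4) (nat_lit 261) (nat_lit 181) (nat_lit 158)) (XT.nd (nat_lit 29250) (nat_lit 0) (nat_lit 0) (XT.lf (nat_lit 0) (nat_lit 3882551326347) (nat_lit 152) (nat_lit 1343051866560) (nat_lit 0) (nat_lit 3881371198652)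 (nat_lit 1) (nat_lit 5) (nat_lit 3) (nat_lit 4) (nat_lit 1) (nat_lit 4) (nat_lit 262) (nat_lit 181) (nat_lit 157)) (XT.lf (nat_lit 0) (nat_lit 47991807305) (nat_lit 152) (nat_lit 24634780616) (nat_lit 0) (nat_lit 47991807305) (nat_lit 1) (nat_lit 5) (nat_lit 3) (nat_lit 4) (nat_lit 1) (nat_lit 4) (nat_lit 236) (nat_lit 182) (nat_lit 182))))) (XT.nd (nat_lit 156) (nat_lit 0) (nat_lit 0) (XT.nd (nat_lit 78) (nat_lit 0) (nat_lit 0) (XT.lf (nat_lit 0) (nat_lit 111901613932) (nat_lit 152) (nat_lit 53655925553) (nat_lit 0) (nat_lit 111718186886) (nat_lit 1) (nat_lit 5) (nat_lit 3) (nat_lit 4) (nat_lit 1) (nat_lit 4) (nat_lit 237) (nat_lit 182) (nat_lit 181)) (XT.lf (nat_lit 0) (nat_lit 130060178521) (nat_lit 152) (nat_lit 58955531091) (nat_lit 0) (nat_lit 129717249695) (nat_lit 1) (nat_lit 5) (nat_lit 3) (nat_lit 4) (nat_lit 1) (nat_lit 4) (nat_lit 238) (nat_lit 182) (nat_lit 180))) (XT.nd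 (nat_lit 78) (nat_lit 0) (nat_lit 0) (XT.lf (nat_lit 0) (nat_lit 150814584639) (nat_lit 152) (nat_lit 65272065780) (nat_lit 0) (nat_lit 150332958614) (nat_lit 1) (nat_lit 5) (nat_lit 3) (nat_lit 4) (nat_lit 1) (nat_lit 4) (nat_lit 239) (nat_lit 182) (nat_lit 179)) (XT.nd (nat_lit 78) (nat_lit 0) (nat_lit 0) (XT.lf (nat_lit 0) (nat_lit 174570896754) (nat_lit 152) (nat_lit 72729113997) (nat_lit 0) (nat_lit 173968664468) (nat_lit 1) (nat_lit 5) (nat_lit 3) (nat_lit 4) (nat_lit 1) (nat_lit 4) (nat_lit 240) (nat_lit 182) (nat_lit 178)) (XT.lf (nat_lit 0) (nat_lit 201793912277) (nat_lit 152) (nat_lit 81472574509) (nat_lit 0) (nat_lit 201086804982) (nat_lit 1) (nat_lit 5) (nat_lit 3) (nat_lit 4) (nat_lit 1) (nat_lit 4) (nat_lit 241) (nat_lit 182) (nat_lit 177))))))) (XT.nd (nat_lit 780) (nat_lit 0) (nat_lit 0) (XT.nd (nat_lit 390) (nat_lit 0) (nat_lit 0) (XT.nd (nat_lit 156) (nat_lit 0) (nat_lit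 0) (XT.nd (nat_lit 78) (nat_lit 0) (nat_lit 0) (XT.lf (nat_lit 0) (nat_lit 233016255425) (nat_lit 152) (nat_lit 91673515022) (nat_lit 0) (nat_lit 232217952470) (nat_lit 1) (nat_lit 5) (nat_lit 3) (nat_lit 4) (nat_lit 1) (nat_lit 4) (nat_lit 242) (nat_lit 182) (nat_lit 176)) (XT.lf (nat_lit 0) (nat_lit 268848798129) (nat_lit 152) (nat_lit 103531519156) (nat_lit 0) (nat_lit 267971194599) (nat_lit 1) (nat_lit 5) (nat_lit 3) (nat_lit 4) (nat_lit 1) (nat_lit 4) (nat_lit 243) (nat_lit 182) (nat_lit 175))) (XT.nd (nat_lit 78) (nat_lit 0) (nat_lit 0) (XT.lf (nat_lit 0) (nat_lit 309992611876) (nat_lit 152) (nat_lit 117278591338) (nat_lit 0) (nat_lit 309046051326) (nat_lit 1) (nat_lit 5) (nat_lit 3) (nat_lit 4) (nat_lit 1) (nat_lit 4) (nat_lit 244) (nat_lit 182) (nat_lit 174)) (XT.nd (nat_lit 78) (nat_lit 0) (nat_lit 0) (XT.lf (nat_lit 0) (nat_lit 357252684327) (nat_lit 152) (nat_lit 133183696026)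 (nat_lit 0) (nat_lit 356246161150) (nat_lit 1) (nat_lit 5) (nat_lit 3) (nat_lit 4) (nat_lit 1) (nat_lit 4) (nat_lit 245) (nat_lit 182) (nat_lit 173)) (XT.lf (nat_lit 0) (nat_lit 411553669074) (nat_lit 152) (nat_lit 151558020049) (nat_lit 0) (nat_lit 410495004482) (nat_lit 1) (nat_lit 5) (nat_lit 3) (nat_lit 4) (nat_lit 1) (nat_lit 4) (nat_lit 246) (nat_lit 182) (nat_lit 172))))) (XT.nd (nat_lit 156) (nat_lit 0) (nat_lit 0) (XT.nd (nat_lit 78) (nat_lit 0) (nat_lit 0) (XT.lf (nat_lit 0) (nat_lit 473957976686) (nat_lit 152) (nat_lit 172761061051) (nat_lit 0) (nat_lit 472853971734) (nat_lit 1) (nat_lit 5) (nat_lit 3) (nat_lit 4) (nat_lit 1) (nat_lit 4) (nat_lit 247) (nat_lit 182) (nat_lit 171)) (XT.lf (nat_lit 0) (nat_lit 545686561010) (nat_lit 152) (nat_lit 197207661139) (nat_lit 0) (nat_lit 544543129658) (nat_lit 1) (nat_lit 5) (nat_lit 3) (nat_lit 4) (nat_lit 1) (nat_lit 4) (nat_lit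 248) (nat_lit 182) (nat_lit 170))) (XT.nd (nat_lit 78) (nat_lit 0) (nat_lit 0) (XT.lf (nat_lit 0) (nat_lit 628142807391) (nat_lit 152) (nat_lit 225376123359) (nat_lit 0) (nat_lit 626965092211) (nat_lit 1) (nat_lit 5) (nat_lit 3) (nat_lit 4) (nat_lit 1) (nat_lit 4) (nat_lit 249) (nat_lit 182) (nat_lit 169)) (XT.nd (nat_lit 78) (nat_lit 0) (nat_lit 0) (XT.lf (nat_lit 0) (nat_lit 722939990213) (nat_lit 152) (nat_lit 257817569796) (nat_lit 0) (nat_lit 721732463011) (nat_lit 1) (nat_lit 5) (nat_lit 3) (nat_lit 4) (nat_lit 1) (nat_lit 4) (nat_lit 250) (nat_lit 182) (nat_lit 168)) (XT.lf (nat_lit 0) (nat_lit 831932836968) (nat_lit 152) (nat_lit 295166724404) (nat_lit 0) (nat_lit 830699386267) (nat_lit 1) (nat_lit 5) (nat_lit 3) (nat_lit 4) (nat_lit 1) (nat_lit 4) (nat_lit 251) (nat_lit 182) (nat_lit 167)))))) (XT.nd (nat_lit 390) (nat_lit 0) (nat_lit 0) (XT.nd (nat_lit 156) (nat_lit 0) (nat_lit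 0) (XT.nd (nat_lit 78) (nat_lit 0) (nat_lit 0) (XT.lf (nat_lit 0) (nat_lit 957253816396) (nat_lit 152) (nat_lit 338154331511) (nat_lit 0) (nat_lit 955997823523) (nat_lit 1) (nat_lit 5) (nat_lit 3) (nat_lit 4) (nat_lit 1) (nat_lit 4) (nat_lit 252) (nat_lit 182) (nat_lit 166)) (XT.lf (nat_lit 0) (nat_lit 1101354860703) (nat_lit 152) (nat_lit 387621452996) (nat_lit 0) (nat_lit 1100079265940) (nat_lit 1) (nat_lit 5) (nat_lit 3) (nat_lit 4) (nat_lit 1) (nat_lit 4) (nat_lit 253) (nat_lit 182) (nat_lit 165))) (XT.nd (nat_lit 78) (nat_lit 0) (nat_lit 0) (XT.lf (nat_lit 0) (nat_lit 1267055338147) (nat_lit 152) (nat_lit 444535923844) (nat_lit 0) (nat_lit 1265762698264) (nat_lit 1) (nat_lit 5) (nat_lit 3) (nat_lit 4) (nat_lit 1) (nat_lit 4) (nat_lit 254) (nat_lit 182) (nat_lit 164)) (XT.nd (nat_lit 78) (nat_lit 0) (nat_lit 0) (XT.lf (nat_lit 0) (nat_lit 1457597214592) (nat_lit 152) (nat_lit 510011288050)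 (nat_lit 0) (nat_lit 1456289752864) (nat_lit 1) (nat_lit 5) (nat_lit 3) (nat_lit 4) (nat_lit 1) (nat_lit 4) (nat_lit 255) (nat_lit 182) (nat_lit 163)) (XT.lf (nat_lit 0) (nat_lit 1676708483272) (nat_lit 152) (nat_lit 585328585349) (nat_lit 0) (nat_lit 1675388132984) (nat_lit 1) (nat_lit 5) (nat_lit 3) (nat_lit 4) (nat_lit 1) (nat_lit 4) (nat_lit 256) (nat_lit 182) (nat_lit 162))))) (XT.nd (nat_lit 156) (nat_lit 0) (nat_lit 0) (XT.nd (nat_lit 78) (nat_lit 0) (nat_lit 0) (XT.lf (nat_lit 0) (nat_lit 1928676103792) (nat_lit 152) (nat_lit 671961415035) (nat_lit 0) (nat_lit 1927344546061) (nat_lit 1) (nat_lit 5) (nat_lit 3) (nat_lit 4) (nat_lit 1) (nat_lit 4) (nat_lit 257) (nat_lit 182) (nat_lit 161)) (XT.lf (nat_lit 0) (nat_lit 2218429877423) (nat_lit 152) (nat_lit 771604767254) (nat_lit 0) (nat_lit 2217088574088) (nat_lit 1) (nat_lit 5) (nat_lit 3) (nat_lit 4) (nat_lit 1) (nat_lit 4) (nat_lit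 258) (nat_lit 182) (nat_lit 160))) (XT.nd (nat_lit 78) (nat_lit 0) (nat_lit 0) (XT.lf (nat_lit 0) (nat_lit 2551638899736) (nat_lit 152) (nat_lit 886208185855) (nat_lit 0) (nat_lit 2550289121963) (nat_lit 1) (nat_lit 5) (nat_lit 3) (nat_lit 4) (nat_lit 1) (nat_lit 4) (nat_lit 259) (nat_lit 182) (nat_lit 159)) (XT.nd (nat_lit 78) (nat_lit 0) (nat_lit 0) (XT.lf (nat_lit 0) (nat_lit 2934822477689) (nat_lit 152) (nat_lit 1018013911636) (nat_lit 0) (nat_lit 2933465330840) (nat_lit 1) (nat_lit 5) (nat_lit 3) (nat_lit 4) (nat_lit 1) (nat_lit 4) (nat_lit 260) (nat_lit 182) (nat_lit 158)) (XT.lf (nat_lit 0) (nat_lit 3375477681285) (nat_lit 152) (nat_lit 1169600752275) (nat_lit 0) (nat_lit 3374114126545) (nat_lit 1) (nat_lit 5) (nat_lit 3) (nat_lit 4) (nat_lit 1) (nat_lit 4) (nat_lit 261) (nat_lit 182) (nat_lit 157))))))))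
noncomputable def xc5 : XT := (XT.nd (nat_lit 30498) (nat_lit 0) (nat_lit 0) (XT.nd (nat_lit 29718) (nat_lit 0) (nat_lit 0) (XT.nd (nat_lit 29328) (nat_lit 0) (nat_lit 0) (XT.nd (nat_lit 29172) (nat_lit 0) (nat_lit 0) (XT.nd (nat_lit 29094) (nat_lit 0) (nat_lit 0) (XT.lf (nat_lit 0) (nat_lit 3882226025379) (nat_lit 152) (nat_lit 1343934537264) (nat_lit 0) (nat_lit 3880856898558) (nat_lit 1) (nat_lit 5) (nat_lit 3) (nat_lit 4) (nat_lit 1) (nat_lit 4) (nat_lit 262) (nat_lit 182) (nat_lit 156)) (XT.lf (nat_lit 0) (nat_lit 34981372538) (nat_lit 152) (nat_lit 21376216653) (nat_lit 0) (nat_lit 34981372538) (nat_lit 1) (nat_lit 5) (nat_lit 3) (nat_lit 4) (nat_lit 1) (nat_lit 4) (nat_lit 234) (nat_lit 183) (nat_lit 183))) (XT.nd (nat_lit 78) (nat_lit 0) (nat_lit 0) (XT.lf (nat_lit 0) (nat_lit 82205682539) (nat_lit 152) (nat_lit 45710617958) (nat_lit 0) (nat_lit 81994741436) (nat_lit 1) (nat_lit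 5) (nat_lit 3) (nat_lit 4) (nat_lit 1) (nat_lit 4) (nat_lit 235) (nat_lit 183) (nat_lit 182)) (XT.lf (nat_lit 0) (nat_lit 96115855793) (nat_lit 152) (nat_lit 49406109863) (nat_lit 0) (nat_lit 95721487644) (nat_lit 1) (nat_lit 5) (nat_lit 3) (nat_lit 4) (nat_lit 1) (nat_lit 4) (nat_lit 236) (nat_lit 183) (nat_lit 181)))) (XT.nd (nat_lit 156) (nat_lit 0) (nat_lit 0) (XT.nd (nat_lit 78) (nat_lit 0) (nat_lit 0) (XT.lf (nat_lit 0) (nat_lit 111965420403) (nat_lit 152) (nat_lit 53911212122) (nat_lit 0) (nat_lit 111411550474) (nat_lit 1) (nat_lit 5) (nat_lit 3) (nat_lit 4) (nat_lit 1) (nat_lit 4) (nat_lit 237) (nat_lit 183) (nat_lit 180)) (XT.lf (nat_lit 0) (nat_lit 130064476546) (nat_lit 152) (nat_lit 59314068042) (nat_lit 0) (nat_lit 129371909417) (nat_lit 1) (nat_lit 5) (nat_lit 3) (nat_lit 4) (nat_lit 1) (nat_lit 4) (nat_lit 238) (nat_lit 183) (nat_lit 179))) (XT.nd (nat_lit 78) (nat_lit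 0) (nat_lit 0) (XT.lf (nat_lit 0) (nat_lit 150767136189) (nat_lit 152) (nat_lit 65720385673) (nat_lit 0) (nat_lit 149953962800) (nat_lit 1) (nat_lit 5) (nat_lit 3) (nat_lit 4) (nat_lit 1) (nat_lit 4) (nat_lit 239) (nat_lit 183) (nat_lit 178)) (XT.nd (nat_lit 78) (nat_lit 0) (nat_lit 0) (XT.lf (nat_lit 0) (nat_lit 174478451370) (nat_lit 152) (nat_lit 73255506012) (nat_lit 0) (nat_lit 173560402971) (nat_lit 1) (nat_lit 5) (nat_lit 3) (nat_lit 4) (nat_lit 1) (nat_lit 4) (nat_lit 240) (nat_lit 183) (nat_lit 177)) (XT.lf (nat_lit 0) (nat_lit 201662339124) (nat_lit 152) (nat_lit 82066855326) (nat_lit 0) (nat_lit 200653095065) (nat_lit 1) (nat_lit 5) (nat_lit 3) (nat_lit 4) (nat_lit 1) (nat_lit 4) (nat_lit 241) (nat_lit 183) (nat_lit 176)))))) (XT.nd (nat_lit 390) (nat_lit 0) (nat_lit 0) (XT.nd (nat_lit 156) (nat_lit 0) (nat_lit 0) (XT.nd (nat_lit 78) (nat_lit 0) (nat_lit 0) (XT.lf (nat_lit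 0) (nat_lit 232850658124) (nat_lit 152) (nat_lit 92326829580) (nat_lit 0) (nat_lit 231762113492) (nat_lit 1) (nat_lit 5) (nat_lit 3) (nat_lit 4) (nat_lit 1) (nat_lit 4) (nat_lit 242) (nat_lit 183) (nat_lit 175)) (XT.lf (nat_lit 0) (nat_lit 268653614613) (nat_lit 152) (nat_lit 104236167402) (nat_lit 0) (nat_lit 267496112960) (nat_lit 1) (nat_lit 5) (nat_lit 3) (nat_lit 4) (nat_lit 1) (nat_lit 4) (nat_lit 243) (nat_lit 183) (nat_lit 174))) (XT.nd (nat_lit 78) (nat_lit 0) (nat_lit 0) (XT.lf (nat_lit 0) (nat_lit 309771701217) (nat_lit 152) (nat_lit 118027877574) (nat_lit 0) (nat_lit 308554236937) (nat_lit 1) (nat_lit 5) (nat_lit 3) (nat_lit 4) (nat_lit 1) (nat_lit 4) (nat_lit 244) (nat_lit 183) (nat_lit 173)) (XT.nd (nat_lit 78) (nat_lit 0) (nat_lit 0) (XT.lf (nat_lit 0) (nat_lit 357009402239) (nat_lit 152) (nat_lit 133971797904) (nat_lit 0) (nat_lit 355739796544) (nat_lit 1) (nat_lit 5)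 (nat_lit 3) (nat_lit 4) (nat_lit 1) (nat_lit 4) (nat_lit 245) (nat_lit 183) (nat_lit 172)) (XT.lf (nat_lit 0) (nat_lit 411290933569) (nat_lit 152) (nat_lit 152379874660) (nat_lit 0) (nat_lit 409975987514) (nat_lit 1) (nat_lit 5) (nat_lit 3) (nat_lit 4) (nat_lit 1) (nat_lit 4) (nat_lit 246) (nat_lit 183) (nat_lit 171))))) (XT.nd (nat_lit 156) (nat_lit 0) (nat_lit 0) (XT.nd (nat_lit 78) (nat_lit 0) (nat_lit 0) (XT.lf (nat_lit 0) (nat_lit 473678325168) (nat_lit 152) (nat_lit 173612265865) (nat_lit 0) (nat_lit 472323952711) (nat_lit 1) (nat_lit 5) (nat_lit 3) (nat_lit 4) (nat_lit 1) (nat_lit 4) (nat_lit 247) (nat_lit 183) (nat_lit 170)) (XT.lf (nat_lit 0) (nat_lit 545392199914) (nat_lit 152) (nat_lit 198084387869) (nat_lit 0) (nat_lit 544003543631) (nat_lit 1) (nat_lit 5) (nat_lit 3) (nat_lit 4) (nat_lit 1) (nat_lit 4) (nat_lit 248) (nat_lit 183) (nat_lit 169))) (XT.nd (nat_lit 78) (nat_lit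 0) (nat_lit 0) (XT.lf (nat_lit 0) (nat_lit 627835655357) (nat_lit 152) (nat_lit 226275043058) (nat_lit 0) (nat_lit 626417187051) (nat_lit 1) (nat_lit 5) (nat_lit 3) (nat_lit 4) (nat_lit 1) (nat_lit 4) (nat_lit 249) (nat_lit 183) (nat_lit 168)) (XT.nd (nat_lit 78) (nat_lit 0) (nat_lit 0) (XT.lf (nat_lit 0) (nat_lit 722621715625) (nat_lit 152) (nat_lit 258735787730) (nat_lit 0) (nat_lit 721177323821) (nat_lit 1) (nat_lit 5) (nat_lit 3) (nat_lit 4) (nat_lit 1) (nat_lit 4) (nat_lit 250) (nat_lit 183) (nat_lit 167)) (XT.lf (nat_lit 0) (nat_lit 831604890594) (nat_lit 152) (nat_lit 296101723412) (nat_lit 0) (nat_lit 830137956618) (nat_lit 1) (nat_lit 5) (nat_lit 3) (nat_lit 4) (nat_lit 1) (nat_lit 4) (nat_lit 251) (nat_lit 183) (nat_lit 166))))))) (XT.nd (nat_lit 780) (nat_lit 0) (nat_lit 0) (XT.nd (nat_lit 390) (nat_lit 0) (nat_lit 0) (XT.nd (nat_lit 156) (nat_lit 0) (nat_lit 0) (XT.nd (nat_lit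 78) (nat_lit 0) (nat_lit 0) (XT.lf (nat_lit 0) (nat_lit 956917459773) (nat_lit 152) (nat_lit 339103922757) (nat_lit 0) (nat_lit 955430923907) (nat_lit 1) (nat_lit 5) (nat_lit 3) (nat_lit 4) (nat_lit 1) (nat_lit 4) (nat_lit 252) (nat_lit 183) (nat_lit 165)) (XT.lf (nat_lit 0) (nat_lit 1101011190820) (nat_lit 152) (nat_lit 388583733144) (nat_lit 0) (nat_lit 1099507609834) (nat_lit 1) (nat_lit 5) (nat_lit 3) (nat_lit 4) (nat_lit 1) (nat_lit 4) (nat_lit 253) (nat_lit 183) (nat_lit 164))) (XT.nd (nat_lit 78) (nat_lit 0) (nat_lit 0) (XT.lf (nat_lit 0) (nat_lit 1266705308908) (nat_lit 152) (nat_lit 445509237820) (nat_lit 0) (nat_lit 1265186906077) (nat_lit 1) (nat_lit 5) (nat_lit 3) (nat_lit 4) (nat_lit 1) (nat_lit 4) (nat_lit 254) (nat_lit 183) (nat_lit 163)) (XT.nd (nat_lit 78) (nat_lit 0) (nat_lit 0) (XT.lf (nat_lit 0) (nat_lit 1457241655478) (nat_lit 152) (nat_lit 510994196660) (nat_lit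 0) (nat_lit 1455710364087) (nat_lit 1) (nat_lit 5) (nat_lit 3) (nat_lit 4) (nat_lit 1) (nat_lit 4) (nat_lit 255) (nat_lit 183) (nat_lit 162)) (XT.lf (nat_lit 0) (nat_lit 1676348115571) (nat_lit 152) (nat_lit 586319837118) (nat_lit 0) (nat_lit 1674805616736) (nat_lit 1) (nat_lit 5) (nat_lit 3) (nat_lit 4) (nat_lit 1) (nat_lit 4) (nat_lit 256) (nat_lit 183) (nat_lit 161))))) (XT.nd (nat_lit 156) (nat_lit 0) (nat_lit 0) (XT.nd (nat_lit 78) (nat_lit 0) (nat_lit 0) (XT.lf (nat_lit 0) (nat_lit 1928311554711) (nat_lit 152) (nat_lit 672959921725) (nat_lit 0) (nat_lit 1926759310273) (nat_lit 1) (nat_lit 5) (nat_lit 3) (nat_lit 4) (nat_lit 1) (nat_lit 4) (nat_lit 257) (nat_lit 183) (nat_lit 160)) (XT.lf (nat_lit 0) (nat_lit 2218061692359) (nat_lit 152) (nat_lit 772609582572) (nat_lit 0) (nat_lit 2216500973483) (nat_lit 1) (nat_lit 5) (nat_lit 3) (nat_lit 4) (nat_lit 1) (nat_lit 4) (nat_lit 258)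 (nat_lit 183) (nat_lit 159))) (XT.nd (nat_lit 78) (nat_lit 0) (nat_lit 0) (XT.lf (nat_lit 0) (nat_lit 2551267552948) (nat_lit 152) (nat_lit 887218486935) (nat_lit 0) (nat_lit 2549699464996) (nat_lit 1) (nat_lit 5) (nat_lit 3) (nat_lit 4) (nat_lit 1) (nat_lit 4) (nat_lit 259) (nat_lit 183) (nat_lit 158)) (XT.nd (nat_lit 78) (nat_lit 0) (nat_lit 0) (XT.lf (nat_lit 0) (nat_lit 2934448381576) (nat_lit 152) (nat_lit 1019028982945) (nat_lit 0) (nat_lit 2932873885732) (nat_lit 1) (nat_lit 5) (nat_lit 3) (nat_lit 4) (nat_lit 1) (nat_lit 4) (nat_lit 260) (nat_lit 183) (nat_lit 157)) (XT.lf (nat_lit 0) (nat_lit 3375101194455) (nat_lit 152) (nat_lit 1170619971609) (nat_lit 0) (nat_lit 3373521126530) (nat_lit 1) (nat_lit 5) (nat_lit 3) (nat_lit 4) (nat_lit 1) (nat_lit 4) (nat_lit 261) (nat_lit 183) (nat_lit 156)))))) (XT.nd (nat_lit 29250) (nat_lit 0) (nat_lit 0) (XT.nd (nat_lit 29016) (nat_lit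 0) (nat_lit 0) (XT.nd (nat_lit 28938) (nat_lit 0) (nat_lit 0) (XT.lf (nat_lit 0) (nat_lit 3881847459663) (nat_lit 152) (nat_lit 1344957363575) (nat_lit 0) (nat_lit 3880262546452) (nat_lit 1) (nat_lit 5) (nat_lit 3) (nat_lit 4) (nat_lit 1) (nat_lit 4) (nat_lit 262) (nat_lit 183) (nat_lit 155)) (XT.lf (nat_lit 0) (nat_lit 24947515385) (nat_lit 152) (nat_lit 19324591642) (nat_lit 0) (nat_lit 24947515385) (nat_lit 1) (nat_lit 5) (nat_lit 3) (nat_lit 4) (nat_lit 1) (nat_lit 4) (nat_lit 232) (nat_lit 184) (nat_lit 184))) (XT.nd (nat_lit 78) (nat_lit 0) (nat_lit 0) (XT.lf (nat_lit 0) (nat_lit 59390089942) (nat_lit 152) (nat_lit 40473678382) (nat_lit 0) (nat_lit 59147507673) (nat_lit 1) (nat_lit 5) (nat_lit 3) (nat_lit 4) (nat_lit 1) (nat_lit 4) (nat_lit 233) (nat_lit 184) (nat_lit 183)) (XT.nd (nat_lit 78) (nat_lit 0) (nat_lit 0) (XT.lf (nat_lit 0) (nat_lit 70114822438) (nat_lit 152) (nat_lit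 42909464232) (nat_lit 0) (nat_lit 69661299065) (nat_lit 1) (nat_lit 5) (nat_lit 3) (nat_lit 4) (nat_lit 1) (nat_lit 4) (nat_lit 234) (nat_lit 184) (nat_lit 182)) (XT.lf (nat_lit 0) (nat_lit 82279059981) (nat_lit 152) (nat_lit 46004197513) (nat_lit 0) (nat_lit 81642109562) (nat_lit 1) (nat_lit 5) (nat_lit 3) (nat_lit 4) (nat_lit 1) (nat_lit 4) (nat_lit 235) (nat_lit 184) (nat_lit 181))))) (XT.nd (nat_lit 156) (nat_lit 0) (nat_lit 0) (XT.nd (nat_lit 78) (nat_lit 0) (nat_lit 0) (XT.lf (nat_lit 0) (nat_lit 96120798522) (nat_lit 152) (nat_lit 49818427357) (nat_lit 0) (nat_lit 95324346324) (nat_lit 1) (nat_lit 5) (nat_lit 3) (nat_lit 4) (nat_lit 1) (nat_lit 4) (nat_lit 236) (nat_lit 184) (nat_lit 180)) (XT.lf (nat_lit 0) (nat_lit 111910854686) (nat_lit 152) (nat_lit 54426779999) (nat_lit 0) (nat_lit 110975705288) (nat_lit 1) (nat_lit 5) (nat_lit 3) (nat_lit 4) (nat_lit 1) (nat_lit 4) (nat_lit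 237) (nat_lit 184) (nat_lit 179))) (XT.nd (nat_lit 78) (nat_lit 0) (nat_lit 0) (XT.lf (nat_lit 0) (nat_lit 129958164354) (nat_lit 152) (nat_lit 59919418859) (nat_lit 0) (nat_lit 128902408695) (nat_lit 1) (nat_lit 5) (nat_lit 3) (nat_lit 4) (nat_lit 1) (nat_lit 4) (nat_lit 238) (nat_lit 184) (nat_lit 178)) (XT.nd (nat_lit 78) (nat_lit 0) (nat_lit 0) (XT.lf (nat_lit 0) (nat_lit 150615827063) (nat_lit 152) (nat_lit 66403808613) (nat_lit 0) (nat_lit 149455196395) (nat_lit 1) (nat_lit 5) (nat_lit 3) (nat_lit 4) (nat_lit 1) (nat_lit 4) (nat_lit 239) (nat_lit 184) (nat_lit 177)) (XT.lf (nat_lit 0) (nat_lit 174288014474) (nat_lit 152) (nat_lit 74006817753) (nat_lit 0) (nat_lit 173036188146) (nat_lit 1) (nat_lit 5) (nat_lit 3) (nat_lit 4) (nat_lit 1) (nat_lit 4) (nat_lit 240) (nat_lit 184) (nat_lit 176))))))))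
noncomputable def xc6 : XT := (XT.nd (nat_lit 1482) (nat_lit 0) (nat_lit 0) (XT.nd (nat_lit 702) (nat_lit 0) (nat_lit 0) (XT.nd (nat_lit 312) (nat_lit 0) (nat_lit 0) (XT.nd (nat_lit 156) (nat_lit 0) (nat_lit 0) (XT.nd (nat_lit 78) (nat_lit 0) (nat_lit 0) (XT.lf (nat_lit 0) (nat_lit 201437878081) (nat_lit 152) (nat_lit 82877200809) (nat_lit 0) (nat_lit 200106751179) (nat_lit 1) (nat_lit 5) (nat_lit 3) (nat_lit 4) (nat_lit 1) (nat_lit 4) (nat_lit 241) (nat_lit 184) (nat_lit 175)) (XT.lf (nat_lit 0) (nat_lit 232596610867) (nat_lit 152) (nat_lit 93188508751) (nat_lit 0) (nat_lit 231196526944) (nat_lit 1) (nat_lit 5) (nat_lit 3) (nat_lit 4) (nat_lit 1) (nat_lit 4) (nat_lit 242) (nat_lit 184) (nat_lit 174))) (XT.nd (nat_lit 78) (nat_lit 0) (nat_lit 0) (XT.lf (nat_lit 0) (nat_lit 268373840212) (nat_lit 152) (nat_lit 105142484562) (nat_lit 0) (nat_lit 266913793663) (nat_lit 1) (nat_lit 5) (nat_lit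 3) (nat_lit 4) (nat_lit 1) (nat_lit 4) (nat_lit 243) (nat_lit 184) (nat_lit 173)) (XT.lf (nat_lit 0) (nat_lit 309469555387) (nat_lit 152) (nat_lit 118973010377) (nat_lit 0) (nat_lit 307957367423) (nat_lit 1) (nat_lit 5) (nat_lit 3) (nat_lit 4) (nat_lit 1) (nat_lit 4) (nat_lit 244) (nat_lit 184) (nat_lit 172)))) (XT.nd (nat_lit 156) (nat_lit 0) (nat_lit 0) (XT.nd (nat_lit 78) (nat_lit 0) (nat_lit 0) (XT.lf (nat_lit 0) (nat_lit 356687802993) (nat_lit 152) (nat_lit 134950683440) (nat_lit 0) (nat_lit 355130274668) (nat_lit 1) (nat_lit 5) (nat_lit 3) (nat_lit 4) (nat_lit 1) (nat_lit 4) (nat_lit 245) (nat_lit 184) (nat_lit 171)) (XT.lf (nat_lit 0) (nat_lit 410952418308) (nat_lit 152) (nat_lit 153388110399) (nat_lit 0) (nat_lit 409355463583) (nat_lit 1) (nat_lit 5) (nat_lit 3) (nat_lit 4) (nat_lit 1) (nat_lit 4) (nat_lit 246) (nat_lit 184) (nat_lit 170))) (XT.nd (nat_lit 78) (nat_lit 0) (nat_lit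 0) (XT.lf (nat_lit 0) (nat_lit 473325100329) (nat_lit 152) (nat_lit 174646023519) (nat_lit 0) (nat_lit 471693861777) (nat_lit 1) (nat_lit 5) (nat_lit 3) (nat_lit 4) (nat_lit 1) (nat_lit 4) (nat_lit 247) (nat_lit 184) (nat_lit 169)) (XT.nd (nat_lit 78) (nat_lit 0) (nat_lit 0) (XT.lf (nat_lit 0) (nat_lit 545026184138) (nat_lit 152) (nat_lit 199140338493) (nat_lit 0) (nat_lit 543365133563) (nat_lit 1) (nat_lit 5) (nat_lit 3) (nat_lit 4) (nat_lit 1) (nat_lit 4) (nat_lit 248) (nat_lit 184) (nat_lit 168)) (XT.lf (nat_lit 0) (nat_lit 627458517027) (nat_lit 152) (nat_lit 227350291917) (nat_lit 0) (nat_lit 625771542954) (nat_lit 1) (nat_lit 5) (nat_lit 3) (nat_lit 4) (nat_lit 1) (nat_lit 4) (nat_lit 249) (nat_lit 184) (nat_lit 167)))))) (XT.nd (nat_lit 390) (nat_lit 0) (nat_lit 0) (XT.nd (nat_lit 156) (nat_lit 0) (nat_lit 0) (XT.nd (nat_lit 78) (nat_lit 0) (nat_lit 0) (XT.lf (nat_lit 0) (nat_lit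 722234905509) (nat_lit 152) (nat_lit 259827817662) (nat_lit 0) (nat_lit 720525389264) (nat_lit 1) (nat_lit 5) (nat_lit 3) (nat_lit 4) (nat_lit 1) (nat_lit 4) (nat_lit 250) (nat_lit 184) (nat_lit 166)) (XT.lf (nat_lit 0) (nat_lit 831209670229) (nat_lit 152) (nat_lit 297208345582) (nat_lit 0) (nat_lit 829480552095) (nat_lit 1) (nat_lit 5) (nat_lit 3) (nat_lit 4) (nat_lit 1) (nat_lit 4) (nat_lit 251) (nat_lit 184) (nat_lit 165))) (XT.nd (nat_lit 78) (nat_lit 0) (nat_lit 0) (XT.lf (nat_lit 0) (nat_lit 956514926148) (nat_lit 152) (nat_lit 340223233829) (nat_lit 0) (nat_lit 954768762893) (nat_lit 1) (nat_lit 5) (nat_lit 3) (nat_lit 4) (nat_lit 1) (nat_lit 4) (nat_lit 252) (nat_lit 184) (nat_lit 164)) (XT.nd (nat_lit 78) (nat_lit 0) (nat_lit 0) (XT.lf (nat_lit 0) (nat_lit 1100602297839) (nat_lit 152) (nat_lit 389714078045) (nat_lit 0) (nat_lit 1098841312739) (nat_lit 1) (nat_lit 5) (nat_lit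 3) (nat_lit 4) (nat_lit 1) (nat_lit 4) (nat_lit 253) (nat_lit 184) (nat_lit 163)) (XT.lf (nat_lit 0) (nat_lit 1266290886052) (nat_lit 152) (nat_lit 446649177355) (nat_lit 0) (nat_lit 1264517012392) (nat_lit 1) (nat_lit 5) (nat_lit 3) (nat_lit 4) (nat_lit 1) (nat_lit 4) (nat_lit 254) (nat_lit 184) (nat_lit 162))))) (XT.nd (nat_lit 156) (nat_lit 0) (nat_lit 0) (XT.nd (nat_lit 78) (nat_lit 0) (nat_lit 0) (XT.lf (nat_lit 0) (nat_lit 1456822424035) (nat_lit 152) (nat_lit 512142479353) (nat_lit 0) (nat_lit 1455037342931) (nat_lit 1) (nat_lit 5) (nat_lit 3) (nat_lit 4) (nat_lit 1) (nat_lit 4) (nat_lit 255) (nat_lit 184) (nat_lit 161)) (XT.lf (nat_lit 0) (nat_lit 1675924702748) (nat_lit 152) (nat_lit 587475374733) (nat_lit 0) (nat_lit 1674129876041) (nat_lit 1) (nat_lit 5) (nat_lit 3) (nat_lit 4) (nat_lit 1) (nat_lit 4) (nat_lit 256) (nat_lit 184) (nat_lit 160))) (XT.nd (nat_lit 78) (nat_lit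 0) (nat_lit 0) (XT.lf (nat_lit 0) (nat_lit 1927884505905) (nat_lit 152) (nat_lit 674121767967) (nat_lit 0) (nat_lit 1926081204760) (nat_lit 1) (nat_lit 5) (nat_lit 3) (nat_lit 4) (nat_lit 1) (nat_lit 4) (nat_lit 257) (nat_lit 184) (nat_lit 159)) (XT.nd (nat_lit 78) (nat_lit 0) (nat_lit 0) (XT.lf (nat_lit 0) (nat_lit 2217631481829) (nat_lit 152) (nat_lit 773776914577) (nat_lit 0) (nat_lit 2215820811608) (nat_lit 1) (nat_lit 5) (nat_lit 3) (nat_lit 4) (nat_lit 1) (nat_lit 4) (nat_lit 258) (nat_lit 184) (nat_lit 158)) (XT.lf (nat_lit 0) (nat_lit 2550834593093) (nat_lit 152) (nat_lit 888390589169) (nat_lit 0) (nat_lit 2549017514980) (nat_lit 1) (nat_lit 5) (nat_lit 3) (nat_lit 4) (nat_lit 1) (nat_lit 4) (nat_lit 259) (nat_lit 184) (nat_lit 157))))))) (XT.nd (nat_lit 29484) (nat_lit 0) (nat_lit 0) (XT.nd (nat_lit 29094) (nat_lit 0) (nat_lit 0) (XT.nd (nat_lit 156) (nat_lit 0) (nat_lit 0)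 (XT.nd (nat_lit 78) (nat_lit 0) (nat_lit 0) (XT.lf (nat_lit 0) (nat_lit 2934013031003) (nat_lit 152) (nat_lit 1020205233203) (nat_lit 0) (nat_lit 2932190380810) (nat_lit 1) (nat_lit 5) (nat_lit 3) (nat_lit 4) (nat_lit 1) (nat_lit 4) (nat_lit 260) (nat_lit 184) (nat_lit 156)) (XT.lf (nat_lit 0) (nat_lit 3374663764997) (nat_lit 152) (nat_lit 1171799828845) (nat_lit 0) (nat_lit 3372836269517) (nat_lit 1) (nat_lit 5) (nat_lit 3) (nat_lit 4) (nat_lit 1) (nat_lit 4) (nat_lit 261) (nat_lit 184) (nat_lit 155))) (XT.nd (nat_lit 28782) (nat_lit 0) (nat_lit 0) (XT.lf (nat_lit 0) (nat_lit 3881408222479) (nat_lit 152) (nat_lit 1346140357314) (nat_lit 0) (nat_lit 3879576513706) (nat_lit 1) (nat_lit 5) (nat_lit 3) (nat_lit 4) (nat_lit 1) (nat_lit 4) (nat_lit 262) (nat_lit 184) (nat_lit 154)) (XT.nd (nat_lit 78) (nat_lit 0) (nat_lit 0) (XT.lf (nat_lit 0) (nat_lit 17134963650) (nat_lit 152) (nat_lit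 18247433501) (nat_lit 0) (nat_lit 17134963650) (nat_lit 1) (nat_lit 5) (nat_lit 3) (nat_lit 4) (nat_lit 1) (nat_lit 4) (nat_lit 230) (nat_lit 185) (nat_lit 185)) (XT.lf (nat_lit 0) (nat_lit 41722841635) (nat_lit 152) (nat_lit 37400282298) (nat_lit 0) (nat_lit 41443872026) (nat_lit 1) (nat_lit 5) (nat_lit 3) (nat_lit 4) (nat_lit 1) (nat_lit 4) (nat_lit 231) (nat_lit 185) (nat_lit 184))))) (XT.nd (nat_lit 156) (nat_lit 0) (nat_lit 0) (XT.nd (nat_lit 78) (nat_lit 0) (nat_lit 0) (XT.lf (nat_lit 0) (nat_lit 50069919736) (nat_lit 152) (nat_lit 38829768849) (nat_lit 0) (nat_lit 49548367858) (nat_lit 1) (nat_lit 5) (nat_lit 3) (nat_lit 4) (nat_lit 1) (nat_lit 4) (nat_lit 232) (nat_lit 185) (nat_lit 183)) (XT.lf (nat_lit 0) (nat_lit 59474474000) (nat_lit 152) (nat_lit 40811294870) (nat_lit 0) (nat_lit 58741981018) (nat_lit 1) (nat_lit 5) (nat_lit 3) (nat_lit 4) (nat_lit 1) (nat_lit 4) (nat_lit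 233) (nat_lit 185) (nat_lit 182))) (XT.nd (nat_lit 78) (nat_lit 0) (nat_lit 0) (XT.lf (nat_lit 0) (nat_lit 70120506576) (nat_lit 152) (nat_lit 43383629350) (nat_lit 0) (nat_lit 69204586548) (nat_lit 1) (nat_lit 5) (nat_lit 3) (nat_lit 4) (nat_lit 1) (nat_lit 4) (nat_lit 234) (nat_lit 185) (nat_lit 181)) (XT.nd (nat_lit 78) (nat_lit 0) (nat_lit 0) (XT.lf (nat_lit 0) (nat_lit 82216309406) (nat_lit 152) (nat_lit 46597100571) (nat_lit 0) (nat_lit 81140887598) (nat_lit 1) (nat_lit 5) (nat_lit 3) (nat_lit 4) (nat_lit 1) (nat_lit 4) (nat_lit 235) (nat_lit 185) (nat_lit 180)) (XT.lf (nat_lit 0) (nat_lit 95998539501) (nat_lit 152) (nat_lit 50514580797) (nat_lit 0) (nat_lit 94784420494) (nat_lit 1) (nat_lit 5) (nat_lit 3) (nat_lit 4) (nat_lit 1) (nat_lit 4) (nat_lit 236) (nat_lit 185) (nat_lit 179)))))) (XT.nd (nat_lit 390) (nat_lit 0) (nat_lit 0) (XT.nd (nat_lit 156) (nat_lit 0) (nat_lit 0)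 (XT.nd (nat_lit 78) (nat_lit 0) (nat_lit 0) (XT.lf (nat_lit 0) (nat_lit 111736849190) (nat_lit 152) (nat_lit 55212716379) (nat_lit 0) (nat_lit 110402123923) (nat_lit 1) (nat_lit 5) (nat_lit 3) (nat_lit 4) (nat_lit 1) (nat_lit 4) (nat_lit 237) (nat_lit 185) (nat_lit 178)) (XT.lf (nat_lit 0) (nat_lit 129739161924) (nat_lit 152) (nat_lit 60783427363) (nat_lit 0) (nat_lit 128299561647) (nat_lit 1) (nat_lit 5) (nat_lit 3) (nat_lit 4) (nat_lit 1) (nat_lit 4) (nat_lit 238) (nat_lit 185) (nat_lit 177))) (XT.nd (nat_lit 78) (nat_lit 0) (nat_lit 0) (XT.lf (nat_lit 0) (nat_lit 150357696863) (nat_lit 152) (nat_lit 67335705918) (nat_lit 0) (nat_lit 148826900926) (nat_lit 1) (nat_lit 5) (nat_lit 3) (nat_lit 4) (nat_lit 1) (nat_lit 4) (nat_lit 239) (nat_lit 185) (nat_lit 176)) (XT.nd (nat_lit 78) (nat_lit 0) (nat_lit 0) (XT.lf (nat_lit 0) (nat_lit 173995860128) (nat_lit 152) (nat_lit 74997748800)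 (nat_lit 0) (nat_lit 172385763617) (nat_lit 1) (nat_lit 5) (nat_lit 3) (nat_lit 4) (nat_lit 1) (nat_lit 4) (nat_lit 240) (nat_lit 185) (nat_lit 175)) (XT.lf (nat_lit 0) (nat_lit 201116137520) (nat_lit 152) (nat_lit 83919465543) (nat_lit 0) (nat_lit 199437083988) (nat_lit 1) (nat_lit 5) (nat_lit 3) (nat_lit 4) (nat_lit 1) (nat_lit 4) (nat_lit 241) (nat_lit 185) (nat_lit 174))))) (XT.nd (nat_lit 156) (nat_lit 0) (nat_lit 0) (XT.nd (nat_lit 78) (nat_lit 0) (nat_lit 0) (XT.lf (nat_lit 0) (nat_lit 232249143162) (nat_lit 152) (nat_lit 94275411475) (nat_lit 0) (nat_lit 230510127003) (nat_lit 1) (nat_lit 5) (nat_lit 3) (nat_lit 4) (nat_lit 1) (nat_lit 4) (nat_lit 242) (nat_lit 185) (nat_lit 173)) (XT.lf (nat_lit 0) (nat_lit 268004001078) (nat_lit 152) (nat_lit 106268202929) (nat_lit 0) (nat_lit 266212843505) (nat_lit 1) (nat_lit 5) (nat_lit 3) (nat_lit 4) (nat_lit 1) (nat_lit 4) (nat_lit 243)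 (nat_lit 185) (nat_lit 172))) (XT.nd (nat_lit 78) (nat_lit 0) (nat_lit 0) (XT.lf (nat_lit 0) (nat_lit 309080262837) (nat_lit 152) (nat_lit 120132481477) (nat_lit 0) (nat_lit 307243764903) (nat_lit 1) (nat_lit 5) (nat_lit 3) (nat_lit 4) (nat_lit 1) (nat_lit 4) (nat_lit 244) (nat_lit 185) (nat_lit 171)) (XT.nd (nat_lit 78) (nat_lit 0) (nat_lit 0) (XT.lf (nat_lit 0) (nat_lit 356281594428) (nat_lit 152) (nat_lit 136139504743) (nat_lit 0) (nat_lit 354405670094) (nat_lit 1) (nat_lit 5) (nat_lit 3) (nat_lit 4) (nat_lit 1) (nat_lit 4) (nat_lit 245) (nat_lit 185) (nat_lit 170)) (XT.lf (nat_lit 0) (nat_lit 410531500166) (nat_lit 152) (nat_lit 154602453616) (nat_lit 0) (nat_lit 408621292005) (nat_lit 1) (nat_lit 5) (nat_lit 3) (nat_lit 4) (nat_lit 1) (nat_lit 4) (nat_lit 246) (nat_lit 185) (nat_lit 169))))))))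
noncomputable def xc7 : XT := (XT.nd (nat_lit 30108) (nat_lit 0) (nat_lit 0) (XT.nd (nat_lit 780) (nat_lit 0) (nat_lit 0) (XT.nd (nat_lit 390) (nat_lit 0) (nat_lit 0) (XT.nd (nat_lit 156) (nat_lit 0) (nat_lit 0) (XT.nd (nat_lit 78) (nat_lit 0) (nat_lit 0) (XT.lf (nat_lit 0) (nat_lit 472891391249) (nat_lit 152) (nat_lit 175882559707) (nat_lit 0) (nat_lit 470951371065) (nat_lit 1) (nat_lit 5) (nat_lit 3) (nat_lit 4) (nat_lit 1) (nat_lit 4) (nat_lit 247) (nat_lit 185) (nat_lit 168)) (XT.lf (nat_lit 0) (nat_lit 544581352504) (nat_lit 152) (nat_lit 200396172915) (nat_lit 0) (nat_lit 542615408822) (nat_lit 1) (nat_lit 5) (nat_lit 3) (nat_lit 4) (nat_lit 1) (nat_lit 4) (nat_lit 248) (nat_lit 185) (nat_lit 167))) (XT.nd (nat_lit 78) (nat_lit 0) (nat_lit 0) (XT.lf (nat_lit 0) (nat_lit 627004013607) (nat_lit 152) (nat_lit 228622907412) (nat_lit 0) (nat_lit 625015527753) (nat_lit 1) (nat_lit 5)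 (nat_lit 3) (nat_lit 4) (nat_lit 1) (nat_lit 4) (nat_lit 249) (nat_lit 185) (nat_lit 166)) (XT.nd (nat_lit 78) (nat_lit 0) (nat_lit 0) (XT.lf (nat_lit 0) (nat_lit 721771991841) (nat_lit 152) (nat_lit 261115025396) (nat_lit 0) (nat_lit 719763904097) (nat_lit 1) (nat_lit 5) (nat_lit 3) (nat_lit 4) (nat_lit 1) (nat_lit 4) (nat_lit 250) (nat_lit 185) (nat_lit 165)) (XT.lf (nat_lit 0) (nat_lit 830739443301) (nat_lit 152) (nat_lit 298508242218) (nat_lit 0) (nat_lit 828714310436) (nat_lit 1) (nat_lit 5) (nat_lit 3) (nat_lit 4) (nat_lit 1) (nat_lit 4) (nat_lit 251) (nat_lit 185) (nat_lit 164))))) (XT.nd (nat_lit 156) (nat_lit 0) (nat_lit 0) (XT.nd (nat_lit 78) (nat_lit 0) (nat_lit 0) (XT.lf (nat_lit 0) (nat_lit 956038339864) (nat_lit 152) (nat_lit 341534164294) (nat_lit 0) (nat_lit 953998385155) (nat_lit 1) (nat_lit 5) (nat_lit 3) (nat_lit 4) (nat_lit 1) (nat_lit 4) (nat_lit 252) (nat_lit 185)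 (nat_lit 163)) (XT.lf (nat_lit 0) (nat_lit 1100120181679) (nat_lit 152) (nat_lit 391034603143) (nat_lit 0) (nat_lit 1098067338410) (nat_lit 1) (nat_lit 5) (nat_lit 3) (nat_lit 4) (nat_lit 1) (nat_lit 4) (nat_lit 253) (nat_lit 185) (nat_lit 162))) (XT.nd (nat_lit 78) (nat_lit 0) (nat_lit 0) (XT.lf (nat_lit 0) (nat_lit 1265803961305) (nat_lit 152) (nat_lit 447978045612) (nat_lit 0) (nat_lit 1263739910592) (nat_lit 1) (nat_lit 5) (nat_lit 3) (nat_lit 4) (nat_lit 1) (nat_lit 4) (nat_lit 254) (nat_lit 185) (nat_lit 161)) (XT.nd (nat_lit 78) (nat_lit 0) (nat_lit 0) (XT.lf (nat_lit 0) (nat_lit 1456331317908) (nat_lit 152) (nat_lit 513478602532) (nat_lit 0) (nat_lit 1454257521592) (nat_lit 1) (nat_lit 5) (nat_lit 3) (nat_lit 4) (nat_lit 1) (nat_lit 4) (nat_lit 255) (nat_lit 185) (nat_lit 160)) (XT.lf (nat_lit 0) (nat_lit 1675429960638) (nat_lit 152) (nat_lit 588817806538) (nat_lit 0) (nat_lit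 1673347689884) (nat_lit 1) (nat_lit 5) (nat_lit 3) (nat_lit 4) (nat_lit 1) (nat_lit 4) (nat_lit 256) (nat_lit 185) (nat_lit 159)))))) (XT.nd (nat_lit 390) (nat_lit 0) (nat_lit 0) (XT.nd (nat_lit 156) (nat_lit 0) (nat_lit 0) (XT.nd (nat_lit 78) (nat_lit 0) (nat_lit 0) (XT.lf (nat_lit 0) (nat_lit 1927386602071) (nat_lit 152) (nat_lit 675469685535) (nat_lit 0) (nat_lit 1925296962241) (nat_lit 1) (nat_lit 5) (nat_lit 3) (nat_lit 4) (nat_lit 1) (nat_lit 4) (nat_lit 257) (nat_lit 185) (nat_lit 158)) (XT.lf (nat_lit 0) (nat_lit 2217130828670) (nat_lit 152) (nat_lit 775129602373) (nat_lit 0) (nat_lit 2215034780948) (nat_lit 1) (nat_lit 5) (nat_lit 3) (nat_lit 4) (nat_lit 1) (nat_lit 4) (nat_lit 258) (nat_lit 185) (nat_lit 157))) (XT.nd (nat_lit 78) (nat_lit 0) (nat_lit 0) (XT.lf (nat_lit 0) (nat_lit 2550331549216) (nat_lit 152) (nat_lit 889747424990) (nat_lit 0) (nat_lit 2548229929414) (nat_lit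 1) (nat_lit 5) (nat_lit 3) (nat_lit 4) (nat_lit 1) (nat_lit 4) (nat_lit 259) (nat_lit 185) (nat_lit 156)) (XT.nd (nat_lit 78) (nat_lit 0) (nat_lit 0) (XT.lf (nat_lit 0) (nat_lit 2933507908242) (nat_lit 152) (nat_lit 1021565676002) (nat_lit 0) (nat_lit 2931401443152) (nat_lit 1) (nat_lit 5) (nat_lit 3) (nat_lit 4) (nat_lit 1) (nat_lit 4) (nat_lit 260) (nat_lit 185) (nat_lit 155)) (XT.lf (nat_lit 0) (nat_lit 3374156834510) (nat_lit 152) (nat_lit 1173163408147) (nat_lit 0) (nat_lit 3372046156127) (nat_lit 1) (nat_lit 5) (nat_lit 3) (nat_lit 4) (nat_lit 1) (nat_lit 4) (nat_lit 261) (nat_lit 185) (nat_lit 154))))) (XT.nd (nat_lit 28704) (nat_lit 0) (nat_lit 0) (XT.nd (nat_lit 28626) (nat_lit 0) (nat_lit 0) (XT.lf (nat_lit 0) (nat_lit 3880899720057) (nat_lit 152) (nat_lit 1347506664009) (nat_lit 0) (nat_lit 3878785377940) (nat_lit 1) (nat_lit 5) (nat_lit 3) (nat_lit 4) (nat_lit 1) (nat_lit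 4) (nat_lit 262) (nat_lit 185) (nat_lit 153)) (XT.lf (nat_lit 0) (nat_lit 10968210812) (nat_lit 152) (nat_lit 17978237080) (nat_lit 0) (nat_lit 10968210812) (nat_lit 1) (nat_lit 5) (nat_lit 3) (nat_lit 4) (nat_lit 1) (nat_lit 4) (nat_lit 228) (nat_lit 186) (nat_lit 186))) (XT.nd (nat_lit 78) (nat_lit 0) (nat_lit 0) (XT.lf (nat_lit 0) (nat_lit 27886173894) (nat_lit 152) (nat_lit 36095808317) (nat_lit 0) (nat_lit 27565358843) (nat_lit 1) (nat_lit 5) (nat_lit 3) (nat_lit 4) (nat_lit 1) (nat_lit 4) (nat_lit 229) (nat_lit 186) (nat_lit 185)) (XT.nd (nat_lit 78) (nat_lit 0) (nat_lit 0) (XT.lf (nat_lit 0) (nat_lit 34471049611) (nat_lit 152) (nat_lit 36702540401) (nat_lit 0) (nat_lit 33871264951) (nat_lit 1) (nat_lit 5) (nat_lit 3) (nat_lit 4) (nat_lit 1) (nat_lit 4) (nat_lit 230) (nat_lit 186) (nat_lit 184)) (XT.lf (nat_lit 0) (nat_lit 41819883302) (nat_lit 152) (nat_lit 37788541260) (nat_lit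 0) (nat_lit 40977516373) (nat_lit 1) (nat_lit 5) (nat_lit 3) (nat_lit 4) (nat_lit 1) (nat_lit 4) (nat_lit 231) (nat_lit 186) (nat_lit 183))))))) (XT.nd (nat_lit 780) (nat_lit 0) (nat_lit 0) (XT.nd (nat_lit 390) (nat_lit 0) (nat_lit 0) (XT.nd (nat_lit 156) (nat_lit 0) (nat_lit 0) (XT.nd (nat_lit 78) (nat_lit 0) (nat_lit 0) (XT.lf (nat_lit 0) (nat_lit 50076456494) (nat_lit 152) (nat_lit 39375058735) (nat_lit 0) (nat_lit 49023148462) (nat_lit 1) (nat_lit 5) (nat_lit 3) (nat_lit 4) (nat_lit 1) (nat_lit 4) (nat_lit 232) (nat_lit 186) (nat_lit 182)) (XT.lf (nat_lit 0) (nat_lit 59402310839) (nat_lit 152) (nat_lit 41493133387) (nat_lit 0) (nat_lit 58165575760) (nat_lit 1) (nat_lit 5) (nat_lit 3) (nat_lit 4) (nat_lit 1) (nat_lit 4) (nat_lit 233) (nat_lit 186) (nat_lit 181))) (XT.nd (nat_lit 78) (nat_lit 0) (nat_lit 0) (XT.lf (nat_lit 0) (nat_lit 69979908702) (nat_lit 152) (nat_lit 44184205806)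 (nat_lit 0) (nat_lit 68583671844) (nat_lit 1) (nat_lit 5) (nat_lit 3) (nat_lit 4) (nat_lit 1) (nat_lit 4) (nat_lit 234) (nat_lit 186) (nat_lit 180)) (XT.nd (nat_lit 78) (nat_lit 0) (nat_lit 0) (XT.lf (nat_lit 0) (nat_lit 82016203086) (nat_lit 152) (nat_lit 47500927409) (nat_lit 0) (nat_lit 80481269028) (nat_lit 1) (nat_lit 5) (nat_lit 3) (nat_lit 4) (nat_lit 1) (nat_lit 4) (nat_lit 235) (nat_lit 186) (nat_lit 179)) (XT.lf (nat_lit 0) (nat_lit 95746686706) (nat_lit 152) (nat_lit 51508190576) (nat_lit 0) (nat_lit 94091146388) (nat_lit 1) (nat_lit 5) (nat_lit 3) (nat_lit 4) (nat_lit 1) (nat_lit 4) (nat_lit 236) (nat_lit 186) (nat_lit 178))))) (XT.nd (nat_lit 156) (nat_lit 0) (nat_lit 0) (XT.nd (nat_lit 78) (nat_lit 0) (nat_lit 0) (XT.lf (nat_lit 0) (nat_lit 111439999461) (nat_lit 152) (nat_lit 56284398280) (nat_lit 0) (nat_lit 109679584134) (nat_lit 1) (nat_lit 5) (nat_lit 3) (nat_lit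 4) (nat_lit 1) (nat_lit 4) (nat_lit 237) (nat_lit 186) (nat_lit 177)) (XT.lf (nat_lit 0) (nat_lit 129403184425) (nat_lit 152) (nat_lit 61922998066) (nat_lit 0) (nat_lit 127551573438) (nat_lit 1) (nat_lit 5) (nat_lit 3) (nat_lit 4) (nat_lit 1) (nat_lit 4) (nat_lit 238) (nat_lit 186) (nat_lit 176))) (XT.nd (nat_lit 78) (nat_lit 0) (nat_lit 0) (XT.lf (nat_lit 0) (nat_lit 149987695218) (nat_lit 152) (nat_lit 68534310362) (nat_lit 0) (nat_lit 148056783656) (nat_lit 1) (nat_lit 5) (nat_lit 3) (nat_lit 4) (nat_lit 1) (nat_lit 4) (nat_lit 239) (nat_lit 186) (nat_lit 175)) (XT.nd (nat_lit 78) (nat_lit 0) (nat_lit 0) (XT.lf (nat_lit 0) (nat_lit 173596272267) (nat_lit 152) (nat_lit 76247686932) (nat_lit 0) (nat_lit 171596403685) (nat_lit 1) (nat_lit 5) (nat_lit 3) (nat_lit 4) (nat_lit 1) (nat_lit 4) (nat_lit 240) (nat_lit 186) (nat_lit 174)) (XT.lf (nat_lit 0) (nat_lit 200690822516) (nat_lit 152)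 (nat_lit 85214041664) (nat_lit 0) (nat_lit 198630991306) (nat_lit 1) (nat_lit 5) (nat_lit 3) (nat_lit 4) (nat_lit 1) (nat_lit 4) (nat_lit 241) (nat_lit 186) (nat_lit 173)))))) (XT.nd (nat_lit 390) (nat_lit 0) (nat_lit 0) (XT.nd (nat_lit 156) (nat_lit 0) (nat_lit 0) (XT.nd (nat_lit 78) (nat_lit 0) (nat_lit 0) (XT.lf (nat_lit 0) (nat_lit 231801456729) (nat_lit 152) (nat_lit 95608803239) (nat_lit 0) (nat_lit 229689484105) (nat_lit 1) (nat_lit 5) (nat_lit 3) (nat_lit 4) (nat_lit 1) (nat_lit 4) (nat_lit 242) (nat_lit 186) (nat_lit 172)) (XT.lf (nat_lit 0) (nat_lit 267536861229) (nat_lit 152) (nat_lit 107635347426) (nat_lit 0) (nat_lit 265379548245) (nat_lit 1) (nat_lit 5) (nat_lit 3) (nat_lit 4) (nat_lit 1) (nat_lit 4) (nat_lit 243) (nat_lit 186) (nat_lit 171))) (XT.nd (nat_lit 78) (nat_lit 0) (nat_lit 0) (XT.lf (nat_lit 0) (nat_lit 308596206973) (nat_lit 152) (nat_lit 121528976177) (nat_lit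 0) (nat_lit 306399467588) (nat_lit 1) (nat_lit 5) (nat_lit 3) (nat_lit 4) (nat_lit 1) (nat_lit 4) (nat_lit 244) (nat_lit 186) (nat_lit 170)) (XT.nd (nat_lit 78) (nat_lit 0) (nat_lit 0) (XT.lf (nat_lit 0) (nat_lit 355782828987) (nat_lit 152) (nat_lit 137561521358) (nat_lit 0) (nat_lit 353551805775) (nat_lit 1) (nat_lit 5) (nat_lit 3) (nat_lit 4) (nat_lit 1) (nat_lit 4) (nat_lit 245) (nat_lit 186) (nat_lit 169)) (XT.lf (nat_lit 0) (nat_lit 410019943787) (nat_lit 152) (nat_lit 156046663202) (nat_lit 0) (nat_lit 407759108553) (nat_lit 1) (nat_lit 5) (nat_lit 3) (nat_lit 4) (nat_lit 1) (nat_lit 4) (nat_lit 246) (nat_lit 186) (nat_lit 168))))) (XT.nd (nat_lit 156) (nat_lit 0) (nat_lit 0) (XT.nd (nat_lit 78) (nat_lit 0) (nat_lit 0) (XT.lf (nat_lit 0) (nat_lit 472368712317) (nat_lit 152) (nat_lit 177346067527) (nat_lit 0) (nat_lit 470081953584) (nat_lit 1) (nat_lit 5) (nat_lit 3) (nat_lit 4)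 (nat_lit 1) (nat_lit 4) (nat_lit 247) (nat_lit 186) (nat_lit 167)) (XT.lf (nat_lit 0) (nat_lit 544049001786) (nat_lit 152) (nat_lit 201876461808) (nat_lit 0) (nat_lit 541739700880) (nat_lit 1) (nat_lit 5) (nat_lit 3) (nat_lit 4) (nat_lit 1) (nat_lit 4) (nat_lit 248) (nat_lit 186) (nat_lit 166))) (XT.nd (nat_lit 78) (nat_lit 0) (nat_lit 0) (XT.lf (nat_lit 0) (nat_lit 626463252640) (nat_lit 152) (nat_lit 230117788544) (nat_lit 0) (nat_lit 624134349845) (nat_lit 1) (nat_lit 5) (nat_lit 3) (nat_lit 4) (nat_lit 1) (nat_lit 4) (nat_lit 249) (nat_lit 186) (nat_lit 165)) (XT.nd (nat_lit 78) (nat_lit 0) (nat_lit 0) (XT.lf (nat_lit 0) (nat_lit 721223917614) (nat_lit 152) (nat_lit 262622595430) (nat_lit 0) (nat_lit 718877969698) (nat_lit 1) (nat_lit 5) (nat_lit 3) (nat_lit 4) (nat_lit 1) (nat_lit 4) (nat_lit 250) (nat_lit 186) (nat_lit 164)) (XT.lf (nat_lit 0) (nat_lit 830185009717) (nat_lit 152)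 (nat_lit 300026846080) (nat_lit 0) (nat_lit 827824239958) (nat_lit 1) (nat_lit 5) (nat_lit 3) (nat_lit 4) (nat_lit 1) (nat_lit 4) (nat_lit 251) (nat_lit 186) (nat_lit 163))))))))
noncomputable def xc8 : XT := (XT.nd (nat_lit 29874) (nat_lit 0) (nat_lit 0) (XT.nd (nat_lit 702) (nat_lit 0) (nat_lit 0) (XT.nd (nat_lit 312) (nat_lit 0) (nat_lit 0) (XT.nd (nat_lit 156) (nat_lit 0) (nat_lit 0) (XT.nd (nat_lit 78) (nat_lit 0) (nat_lit 0) (XT.lf (nat_lit 0) (nat_lit 955478376405) (nat_lit 152) (nat_lit 343062362790) (nat_lit 0) (nat_lit 953104718085) (nat_lit 1) (nat_lit 5) (nat_lit 3) (nat_lit 4) (nat_lit 1) (nat_lit 4) (nat_lit 252) (nat_lit 186) (nat_lit 162)) (XT.lf (nat_lit 0) (nat_lit 1099555409633) (nat_lit 152) (nat_lit 392571144798) (nat_lit 0) (nat_lit 1097170543870) (nat_lit 1) (nat_lit 5) (nat_lit 3) (nat_lit 4) (nat_lit 1) (nat_lit 4) (nat_lit 253) (nat_lit 186) (nat_lit 161)))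 (XT.nd (nat_lit 78) (nat_lit 0) (nat_lit 0) (XT.lf (nat_lit 0) (nat_lit 1265235007879) (nat_lit 152) (nat_lit 449521842188) (nat_lit 0) (nat_lit 1262840396512) (nat_lit 1) (nat_lit 5) (nat_lit 3) (nat_lit 4) (nat_lit 1) (nat_lit 4) (nat_lit 254) (nat_lit 186) (nat_lit 160)) (XT.lf (nat_lit 0) (nat_lit 1455758728499) (nat_lit 152) (nat_lit 515028707735) (nat_lit 0) (nat_lit 1453355642695) (nat_lit 1) (nat_lit 5) (nat_lit 3) (nat_lit 4) (nat_lit 1) (nat_lit 4) (nat_lit 255) (nat_lit 186) (nat_lit 159)))) (XT.nd (nat_lit 156) (nat_lit 0) (nat_lit 0) (XT.nd (nat_lit 78) (nat_lit 0) (nat_lit 0) (XT.lf (nat_lit 0) (nat_lit 1674854209506) (nat_lit 152) (nat_lit 590373397505) (nat_lit 0) (nat_lit 1672443754625) (nat_lit 1) (nat_lit 5) (nat_lit 3) (nat_lit 4) (nat_lit 1) (nat_lit 4) (nat_lit 256) (nat_lit 186) (nat_lit 158)) (XT.lf (nat_lit 0) (nat_lit 1926808101614) (nat_lit 152) (nat_lit 677030046730)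 (nat_lit 0) (nat_lit 1924391238841) (nat_lit 1) (nat_lit 5) (nat_lit 3) (nat_lit 4) (nat_lit 1) (nat_lit 4) (nat_lit 257) (nat_lit 186) (nat_lit 157))) (XT.nd (nat_lit 78) (nat_lit 0) (nat_lit 0) (XT.lf (nat_lit 0) (nat_lit 2216549937495) (nat_lit 152) (nat_lit 776694111593) (nat_lit 0) (nat_lit 2214127502642) (nat_lit 1) (nat_lit 5) (nat_lit 3) (nat_lit 4) (nat_lit 1) (nat_lit 4) (nat_lit 258) (nat_lit 186) (nat_lit 156)) (XT.nd (nat_lit 78) (nat_lit 0) (nat_lit 0) (XT.lf (nat_lit 0) (nat_lit 2549748579156) (nat_lit 152) (nat_lit 891315541188) (nat_lit 0) (nat_lit 2547321299016) (nat_lit 1) (nat_lit 5) (nat_lit 3) (nat_lit 4) (nat_lit 1) (nat_lit 4) (nat_lit 259) (nat_lit 186) (nat_lit 155)) (XT.lf (nat_lit 0) (nat_lit 2932923130455) (nat_lit 152) (nat_lit 1023136928702) (nat_lit 0) (nat_lit 2930491637022) (nat_lit 1) (nat_lit 5) (nat_lit 3) (nat_lit 4) (nat_lit 1) (nat_lit 4) (nat_lit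 260) (nat_lit 186) (nat_lit 154)))))) (XT.nd (nat_lit 28782) (nat_lit 0) (nat_lit 0) (XT.nd (nat_lit 28548) (nat_lit 0) (nat_lit 0) (XT.nd (nat_lit 78) (nat_lit 0) (nat_lit 0) (XT.lf (nat_lit 0) (nat_lit 3373570484788) (nat_lit 152) (nat_lit 1174737388241) (nat_lit 0) (nat_lit 3371135327621) (nat_lit 1) (nat_lit 5) (nat_lit 3) (nat_lit 4) (nat_lit 1) (nat_lit 4) (nat_lit 261) (nat_lit 186) (nat_lit 153)) (XT.lf (nat_lit 0) (nat_lit 3880312003434) (nat_lit 152) (nat_lit 1349083015750) (nat_lit 0) (nat_lit 3877873660412) (nat_lit 1) (nat_lit 5) (nat_lit 3) (nat_lit 4) (nat_lit 1) (nat_lit 4) (nat_lit 262) (nat_lit 186) (nat_lit 152))) (XT.nd (nat_lit 78) (nat_lit 0) (nat_lit 0) (XT.lf (nat_lit 0) (nat_lit 6007017189) (nat_lit 152) (nat_lit 18401769281) (nat_lit 0) (nat_lit 6007017189) (nat_lit 1) (nat_lit 5) (nat_lit 3) (nat_lit 4) (nat_lit 1) (nat_lit 4) (nat_lit 226) (nat_lit 187) (nat_lit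 187)) (XT.nd (nat_lit 78) (nat_lit 0) (nat_lit 0) (XT.lf (nat_lit 0) (nat_lit 16874321916) (nat_lit 152) (nat_lit 36281811832) (nat_lit 0) (nat_lit 16505384607) (nat_lit 1) (nat_lit 5) (nat_lit 3) (nat_lit 4) (nat_lit 1) (nat_lit 4) (nat_lit 227) (nat_lit 187) (nat_lit 186)) (XT.lf (nat_lit 0) (nat_lit 22167712281) (nat_lit 152) (nat_lit 36195298569) (nat_lit 0) (nat_lit 21477959922) (nat_lit 1) (nat_lit 5) (nat_lit 3) (nat_lit 4) (nat_lit 1) (nat_lit 4) (nat_lit 228) (nat_lit 187) (nat_lit 185))))) (XT.nd (nat_lit 156) (nat_lit 0) (nat_lit 0) (XT.nd (nat_lit 78) (nat_lit 0) (nat_lit 0) (XT.lf (nat_lit 0) (nat_lit 27997771810) (nat_lit 152) (nat_lit 36542306122) (nat_lit 0) (nat_lit 27029049842) (nat_lit 1) (nat_lit 5) (nat_lit 3) (nat_lit 4) (nat_lit 1) (nat_lit 4) (nat_lit 229) (nat_lit 187) (nat_lit 184)) (XT.lf (nat_lit 0) (nat_lit 34478566883) (nat_lit 152) (nat_lit 37329623770)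 (nat_lit 0) (nat_lit 33267262646) (nat_lit 1) (nat_lit 5) (nat_lit 3) (nat_lit 4) (nat_lit 1) (nat_lit 4) (nat_lit 230) (nat_lit 187) (nat_lit 183))) (XT.nd (nat_lit 78) (nat_lit 0) (nat_lit 0) (XT.lf (nat_lit 0) (nat_lit 41736895666) (nat_lit 152) (nat_lit 38572655553) (nat_lit 0) (nat_lit 40314650326) (nat_lit 1) (nat_lit 5) (nat_lit 3) (nat_lit 4) (nat_lit 1) (nat_lit 4) (nat_lit 231) (nat_lit 187) (nat_lit 182)) (XT.nd (nat_lit 78) (nat_lit 0) (nat_lit 0) (XT.lf (nat_lit 0) (nat_lit 49914768939) (nat_lit 152) (nat_lit 40295721659) (nat_lit 0) (nat_lit 48309096552) (nat_lit 1) (nat_lit 5) (nat_lit 3) (nat_lit 4) (nat_lit 1) (nat_lit 4) (nat_lit 232) (nat_lit 187) (nat_lit 181)) (XT.lf (nat_lit 0) (nat_lit 59172188571) (nat_lit 152) (nat_lit 42532534250) (nat_lit 0) (nat_lit 57407014404) (nat_lit 1) (nat_lit 5) (nat_lit 3) (nat_lit 4) (nat_lit 1) (nat_lit 4) (nat_lit 233) (nat_lit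 187) (nat_lit 180))))))) (XT.nd (nat_lit 780) (nat_lit 0) (nat_lit 0) (XT.nd (nat_lit 390) (nat_lit 0) (nat_lit 0) (XT.nd (nat_lit 156) (nat_lit 0) (nat_lit 0) (XT.nd (nat_lit 78) (nat_lit 0) (nat_lit 0) (XT.lf (nat_lit 0) (nat_lit 69690277988) (nat_lit 152) (nat_lit 45326857051) (nat_lit 0) (nat_lit 67786406622) (nat_lit 1) (nat_lit 5) (nat_lit 3) (nat_lit 4) (nat_lit 1) (nat_lit 4) (nat_lit 234) (nat_lit 187) (nat_lit 179)) (XT.lf (nat_lit 0) (nat_lit 81674825897) (nat_lit 152) (nat_lit 48733361595) (nat_lit 0) (nat_lit 79650348271) (nat_lit 1) (nat_lit 5) (nat_lit 3) (nat_lit 4) (nat_lit 1) (nat_lit 4) (nat_lit 235) (nat_lit 187) (nat_lit 178))) (XT.nd (nat_lit 78) (nat_lit 0) (nat_lit 0) (XT.lf (nat_lit 0) (nat_lit 95360312583) (nat_lit 152) (nat_lit 52818696884) (nat_lit 0) (nat_lit 93230959948) (nat_lit 1) (nat_lit 5) (nat_lit 3) (nat_lit 4) (nat_lit 1) (nat_lit 4) (nat_lit 236)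 (nat_lit 187) (nat_lit 177)) (XT.nd (nat_lit 78) (nat_lit 0) (nat_lit 0) (XT.lf (nat_lit 0) (nat_lit 111014497569) (nat_lit 152) (nat_lit 57662793391) (nat_lit 0) (nat_lit 108793949273) (nat_lit 1) (nat_lit 5) (nat_lit 3) (nat_lit 4) (nat_lit 1) (nat_lit 4) (nat_lit 237) (nat_lit 187) (nat_lit 176)) (XT.lf (nat_lit 0) (nat_lit 128943658386) (nat_lit 152) (nat_lit 63360426918) (nat_lit 0) (nat_lit 126643809516) (nat_lit 1) (nat_lit 5) (nat_lit 3) (nat_lit 4) (nat_lit 1) (nat_lit 4) (nat_lit 238) (nat_lit 187) (nat_lit 175))))) (XT.nd (nat_lit 156) (nat_lit 0) (nat_lit 0) (XT.nd (nat_lit 78) (nat_lit 0) (nat_lit 0) (XT.lf (nat_lit 0) (nat_lit 149498582964) (nat_lit 152) (nat_lit 70023072902) (nat_lit 0) (nat_lit 147129777073) (nat_lit 1) (nat_lit 5) (nat_lit 3) (nat_lit 4) (nat_lit 1) (nat_lit 4) (nat_lit 239) (nat_lit 187) (nat_lit 174)) (XT.lf (nat_lit 0) (nat_lit 173081432870) (nat_lit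 152) (nat_lit 77781087461) (nat_lit 0) (nat_lit 170652664352) (nat_lit 1) (nat_lit 5) (nat_lit 3) (nat_lit 4) (nat_lit 1) (nat_lit 4) (nat_lit 240) (nat_lit 187) (nat_lit 173))) (XT.nd (nat_lit 78) (nat_lit 0) (nat_lit 0) (XT.lf (nat_lit 0) (nat_lit 200153611689) (nat_lit 152) (nat_lit 86786257837) (nat_lit 0) (nat_lit 197672701757) (nat_lit 1) (nat_lit 5) (nat_lit 3) (nat_lit 4) (nat_lit 1) (nat_lit 4) (nat_lit 241) (nat_lit 187) (nat_lit 172)) (XT.nd (nat_lit 78) (nat_lit 0) (nat_lit 0) (XT.lf (nat_lit 0) (nat_lit 231244792486) (nat_lit 152) (nat_lit 97214772145) (nat_lit 0) (nat_lit 228718542193) (nat_lit 1) (nat_lit 5) (nat_lit 3) (nat_lit 4) (nat_lit 1) (nat_lit 4) (nat_lit 242) (nat_lit 187) (nat_lit 171)) (XT.lf (nat_lit 0) (nat_lit 266963280972) (nat_lit 152) (nat_lit 109270666534) (nat_lit 0) (nat_lit 264397604278) (nat_lit 1) (nat_lit 5) (nat_lit 3) (nat_lit 4) (nat_lit 1)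 (nat_lit 4) (nat_lit 243) (nat_lit 187) (nat_lit 170)))))) (XT.nd (nat_lit 390) (nat_lit 0) (nat_lit 0) (XT.nd (nat_lit 156) (nat_lit 0) (nat_lit 0) (XT.nd (nat_lit 78) (nat_lit 0) (nat_lit 0) (XT.lf (nat_lit 0) (nat_lit 308007917138) (nat_lit 152) (nat_lit 123189817200) (nat_lit 0) (nat_lit 305407956618) (nat_lit 1) (nat_lit 5) (nat_lit 3) (nat_lit 4) (nat_lit 1) (nat_lit 4) (nat_lit 244) (nat_lit 187) (nat_lit 169)) (XT.lf (nat_lit 0) (nat_lit 355181748214) (nat_lit 152) (nat_lit 139244555351) (nat_lit 0) (nat_lit 352551975671) (nat_lit 1) (nat_lit 5) (nat_lit 3) (nat_lit 4) (nat_lit 1) (nat_lit 4) (nat_lit 245) (nat_lit 187) (nat_lit 168))) (XT.nd (nat_lit 78) (nat_lit 0) (nat_lit 0) (XT.lf (nat_lit 0) (nat_lit 409407740461) (nat_lit 152) (nat_lit 157748995430) (nat_lit 0) (nat_lit 406752044420) (nat_lit 1) (nat_lit 5) (nat_lit 3) (nat_lit 4) (nat_lit 1) (nat_lit 4) (nat_lit 246)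 (nat_lit 187) (nat_lit 167)) (XT.nd (nat_lit 78) (nat_lit 0) (nat_lit 0) (XT.lf (nat_lit 0) (nat_lit 471746837204) (nat_lit 152) (nat_lit 179065180828) (nat_lit 0) (nat_lit 469068598991) (nat_lit 1) (nat_lit 5) (nat_lit 3) (nat_lit 4) (nat_lit 1) (nat_lit 4) (nat_lit 247) (nat_lit 187) (nat_lit 166)) (XT.lf (nat_lit 0) (nat_lit 543418716424) (nat_lit 152) (nat_lit 203610167348) (nat_lit 0) (nat_lit 540720876322) (nat_lit 1) (nat_lit 5) (nat_lit 3) (nat_lit 4) (nat_lit 1) (nat_lit 4) (nat_lit 248) (nat_lit 187) (nat_lit 165))))) (XT.nd (nat_lit 156) (nat_lit 0) (nat_lit 0) (XT.nd (nat_lit 78) (nat_lit 0) (nat_lit 0) (XT.lf (nat_lit 0) (nat_lit 625825654019) (nat_lit 152) (nat_lit 231864182986) (nat_lit 0) (nat_lit 623110768795) (nat_lit 1) (nat_lit 5) (nat_lit 3) (nat_lit 4) (nat_lit 1) (nat_lit 4) (nat_lit 249) (nat_lit 187) (nat_lit 164)) (XT.lf (nat_lit 0) (nat_lit 720579959636) (nat_lit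 152) (nat_lit 264380023701) (nat_lit 0) (nat_lit 717850252568) (nat_lit 1) (nat_lit 5) (nat_lit 3) (nat_lit 4) (nat_lit 1) (nat_lit 4) (nat_lit 250) (nat_lit 187) (nat_lit 163))) (XT.nd (nat_lit 78) (nat_lit 0) (nat_lit 0) (XT.lf (nat_lit 0) (nat_lit 829535521864) (nat_lit 152) (nat_lit 301793868984) (nat_lit 0) (nat_lit 826792926236) (nat_lit 1) (nat_lit 5) (nat_lit 3) (nat_lit 4) (nat_lit 1) (nat_lit 4) (nat_lit 251) (nat_lit 187) (nat_lit 162)) (XT.nd (nat_lit 78) (nat_lit 0) (nat_lit 0) (XT.lf (nat_lit 0) (nat_lit 954824079965) (nat_lit 152) (nat_lit 344837728853) (nat_lit 0) (nat_lit 952070276893) (nat_lit 1) (nat_lit 5) (nat_lit 3) (nat_lit 4) (nat_lit 1) (nat_lit 4) (nat_lit 252) (nat_lit 187) (nat_lit 161)) (XT.lf (nat_lit 0) (nat_lit 1098896931814) (nat_lit 152) (nat_lit 394353765782) (nat_lit 0) (nat_lit 1096133383139) (nat_lit 1) (nat_lit 5) (nat_lit 3) (nat_lit 4) (nat_lit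 1) (nat_lit 4) (nat_lit 253) (nat_lit 187) (nat_lit 160))))))))
noncomputable def xc9 : XT := (XT.nd (nat_lit 29718) (nat_lit 0) (nat_lit 0) (XT.nd (nat_lit 28938) (nat_lit 0) (nat_lit 0) (XT.nd (nat_lit 312) (nat_lit 0) (nat_lit 0) (XT.nd (nat_lit 156) (nat_lit 0) (nat_lit 0) (XT.nd (nat_lit 78) (nat_lit 0) (nat_lit 0) (XT.lf (nat_lit 0) (nat_lit 1264572894077) (nat_lit 152) (nat_lit 451310771800) (nat_lit 0) (nat_lit 1261800870964) (nat_lit 1) (nat_lit 5) (nat_lit 3) (nat_lit 4) (nat_lit 1) (nat_lit 4) (nat_lit 254) (nat_lit 187) (nat_lit 159)) (XT.lf (nat_lit 0) (nat_lit 1455093452973) (nat_lit 152) (nat_lit 516823123109) (nat_lit 0) (nat_lit 1452314060784) (nat_lit 1) (nat_lit 5) (nat_lit 3) (nat_lit 4) (nat_lit 1) (nat_lit 4) (nat_lit 255) (nat_lit 187) (nat_lit 158))) (XT.nd (nat_lit 78) (nat_lit 0) (nat_lit 0) (XT.lf (nat_lit 0) (nat_lit 1674186184654) (nat_lit 152) (nat_lit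 592172583107) (nat_lit 0) (nat_lit 1671400384573) (nat_lit 1) (nat_lit 5) (nat_lit 3) (nat_lit 4) (nat_lit 1) (nat_lit 4) (nat_lit 256) (nat_lit 187) (nat_lit 157)) (XT.lf (nat_lit 0) (nat_lit 1926137686044) (nat_lit 152) (nat_lit 678833380357) (nat_lit 0) (nat_lit 1923346313883) (nat_lit 1) (nat_lit 5) (nat_lit 3) (nat_lit 4) (nat_lit 1) (nat_lit 4) (nat_lit 257) (nat_lit 187) (nat_lit 156)))) (XT.nd (nat_lit 156) (nat_lit 0) (nat_lit 0) (XT.nd (nat_lit 78) (nat_lit 0) (nat_lit 0) (XT.lf (nat_lit 0) (nat_lit 2215877443041) (nat_lit 152) (nat_lit 778501052198) (nat_lit 0) (nat_lit 2213081225592) (nat_lit 1) (nat_lit 5) (nat_lit 3) (nat_lit 4) (nat_lit 1) (nat_lit 4) (nat_lit 258) (nat_lit 187) (nat_lit 155)) (XT.lf (nat_lit 0) (nat_lit 2549074276976) (nat_lit 152) (nat_lit 893125618296) (nat_lit 0) (nat_lit 2546273846234) (nat_lit 1) (nat_lit 5) (nat_lit 3) (nat_lit 4) (nat_lit 1) (nat_lit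 4) (nat_lit 259) (nat_lit 187) (nat_lit 154))) (XT.nd (nat_lit 78) (nat_lit 0) (nat_lit 0) (XT.lf (nat_lit 0) (nat_lit 2932247256339) (nat_lit 152) (nat_lit 1024949733204) (nat_lit 0) (nat_lit 2929443161864) (nat_lit 1) (nat_lit 5) (nat_lit 3) (nat_lit 4) (nat_lit 1) (nat_lit 4) (nat_lit 260) (nat_lit 187) (nat_lit 153)) (XT.nd (nat_lit 78) (nat_lit 0) (nat_lit 0) (XT.lf (nat_lit 0) (nat_lit 3372893243771) (nat_lit 152) (nat_lit 1176552564389) (nat_lit 0) (nat_lit 3370085963441) (nat_lit 1) (nat_lit 5) (nat_lit 3) (nat_lit 4) (nat_lit 1) (nat_lit 4) (nat_lit 261) (nat_lit 187) (nat_lit 152)) (XT.lf (nat_lit 0) (nat_lit 3879633573808) (nat_lit 152) (nat_lit 1350900254199) (nat_lit 0) (nat_lit 3876823523170) (nat_lit 1) (nat_lit 5) (nat_lit 3) (nat_lit 4) (nat_lit 1) (nat_lit 4) (nat_lit 262) (nat_lit 187) (nat_lit 151)))))) (XT.nd (nat_lit 390) (nat_lit 0) (nat_lit 0) (XT.nd (nat_lit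 156) (nat_lit 0) (nat_lit 0) (XT.nd (nat_lit 78) (nat_lit 0) (nat_lit 0) (XT.lf (nat_lit 0) (nat_lit 1912663156) (nat_lit 152) (nat_lit 19443166346) (nat_lit 0) (nat_lit 1912663156) (nat_lit 1) (nat_lit 5) (nat_lit 3) (nat_lit 4) (nat_lit 1) (nat_lit 4) (nat_lit 224) (nat_lit 188) (nat_lit 188)) (XT.lf (nat_lit 0) (nat_lit 7916034995) (nat_lit 152) (nat_lit 37770686455) (nat_lit 0) (nat_lit 7491757091) (nat_lit 1) (nat_lit 5) (nat_lit 3) (nat_lit 4) (nat_lit 1) (nat_lit 4) (nat_lit 225) (nat_lit 188) (nat_lit 187))) (XT.nd (nat_lit 78) (nat_lit 0) (nat_lit 0) (XT.lf (nat_lit 0) (nat_lit 12280018635) (nat_lit 152) (nat_lit 37078186631) (nat_lit 0) (nat_lit 11486803422) (nat_lit 1) (nat_lit 5) (nat_lit 3) (nat_lit 4) (nat_lit 1) (nat_lit 4) (nat_lit 226) (nat_lit 188) (nat_lit 186)) (XT.nd (nat_lit 78) (nat_lit 0) (nat_lit 0) (XT.lf (nat_lit 0) (nat_lit 17002659519) (nat_lit 152) (nat_lit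 36795284308) (nat_lit 0) (nat_lit 15888629256) (nat_lit 1) (nat_lit 5) (nat_lit 3) (nat_lit 4) (nat_lit 1) (nat_lit 4) (nat_lit 227) (nat_lit 188) (nat_lit 185)) (XT.lf (nat_lit 0) (nat_lit 22176357144) (nat_lit 152) (nat_lit 36916444443) (nat_lit 0) (nat_lit 20783357272) (nat_lit 1) (nat_lit 5) (nat_lit 3) (nat_lit 4) (nat_lit 1) (nat_lit 4) (nat_lit 228) (nat_lit 188) (nat_lit 184))))) (XT.nd (nat_lit 156) (nat_lit 0) (nat_lit 0) (XT.nd (nat_lit 78) (nat_lit 0) (nat_lit 0) (XT.lf (nat_lit 0) (nat_lit 27902336029) (nat_lit 152) (nat_lit 37444037560) (nat_lit 0) (nat_lit 26266753888) (nat_lit 1) (nat_lit 5) (nat_lit 3) (nat_lit 4) (nat_lit 1) (nat_lit 4) (nat_lit 229) (nat_lit 188) (nat_lit 183)) (XT.lf (nat_lit 0) (nat_lit 34292626195) (nat_lit 152) (nat_lit 38388386133) (nat_lit 0) (nat_lit 32446102950) (nat_lit 1) (nat_lit 5) (nat_lit 3) (nat_lit 4) (nat_lit 1) (nat_lit 4) (nat_lit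 230) (nat_lit 188) (nat_lit 182))) (XT.nd (nat_lit 78) (nat_lit 0) (nat_lit 0) (XT.lf (nat_lit 0) (nat_lit 41472255058) (nat_lit 152) (nat_lit 39767966546) (nat_lit 0) (nat_lit 39442304767) (nat_lit 1) (nat_lit 5) (nat_lit 3) (nat_lit 4) (nat_lit 1) (nat_lit 4) (nat_lit 231) (nat_lit 188) (nat_lit 181)) (XT.nd (nat_lit 78) (nat_lit 0) (nat_lit 0) (XT.lf (nat_lit 0) (nat_lit 49581693618) (nat_lit 152) (nat_lit 41609770591) (nat_lit 0) (nat_lit 47392241547) (nat_lit 1) (nat_lit 5) (nat_lit 3) (nat_lit 4) (nat_lit 1) (nat_lit 4) (nat_lit 232) (nat_lit 188) (nat_lit 180)) (XT.lf (nat_lit 0) (nat_lit 58779604804) (nat_lit 152) (nat_lit 43949833564) (nat_lit 0) (nat_lit 56451455533) (nat_lit 1) (nat_lit 5) (nat_lit 3) (nat_lit 4) (nat_lit 1) (nat_lit 4) (nat_lit 233) (nat_lit 188) (nat_lit 179))))))) (XT.nd (nat_lit 780) (nat_lit 0) (nat_lit 0) (XT.nd (nat_lit 390) (nat_lit 0) (nat_lit 0)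 (XT.nd (nat_lit 156) (nat_lit 0) (nat_lit 0) (XT.nd (nat_lit 78) (nat_lit 0) (nat_lit 0) (XT.lf (nat_lit 0) (nat_lit 69245947746) (nat_lit 152) (nat_lit 46833939306) (nat_lit 0) (nat_lit 66797192215) (nat_lit 1) (nat_lit 5) (nat_lit 3) (nat_lit 4) (nat_lit 1) (nat_lit 4) (nat_lit 234) (nat_lit 188) (nat_lit 178)) (XT.lf (nat_lit 0) (nat_lit 81185498721) (nat_lit 152) (nat_lit 50318515973) (nat_lit 0) (nat_lit 78631868181) (nat_lit 1) (nat_lit 5) (nat_lit 3) (nat_lit 4) (nat_lit 1) (nat_lit 4) (nat_lit 235) (nat_lit 188) (nat_lit 177))) (XT.nd (nat_lit 78) (nat_lit 0) (nat_lit 0) (XT.lf (nat_lit 0) (nat_lit 94831857638) (nat_lit 152) (nat_lit 54471740064) (nat_lit 0) (nat_lit 92187031438) (nat_lit 1) (nat_lit 5) (nat_lit 3) (nat_lit 4) (nat_lit 1) (nat_lit 4) (nat_lit 236) (nat_lit 188) (nat_lit 176)) (XT.nd (nat_lit 78) (nat_lit 0) (nat_lit 0) (XT.lf (nat_lit 0) (nat_lit 110452018476)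 (nat_lit 152) (nat_lit 59374870312) (nat_lit 0) (nat_lit 107727891702) (nat_lit 1) (nat_lit 5) (nat_lit 3) (nat_lit 4) (nat_lit 1) (nat_lit 4) (nat_lit 237) (nat_lit 188) (nat_lit 175)) (XT.lf (nat_lit 0) (nat_lit 128351593079) (nat_lit 152) (nat_lit 65123837527) (nat_lit 0) (nat_lit 125558509283) (nat_lit 1) (nat_lit 5) (nat_lit 3) (nat_lit 4) (nat_lit 1) (nat_lit 4) (nat_lit 238) (nat_lit 188) (nat_lit 174))))) (XT.nd (nat_lit 156) (nat_lit 0) (nat_lit 0) (XT.nd (nat_lit 78) (nat_lit 0) (nat_lit 0) (XT.lf (nat_lit 0) (nat_lit 148880790513) (nat_lit 152) (nat_lit 71831121500) (nat_lit 0) (nat_lit 146027744091) (nat_lit 1) (nat_lit 5) (nat_lit 3) (nat_lit 4) (nat_lit 1) (nat_lit 4) (nat_lit 239) (nat_lit 188) (nat_lit 173)) (XT.lf (nat_lit 0) (nat_lit 172441268990) (nat_lit 152) (nat_lit 79627951702) (nat_lit 0) (nat_lit 169536081153) (nat_lit 1) (nat_lit 5) (nat_lit 3) (nat_lit 4)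 (nat_lit 1) (nat_lit 4) (nat_lit 240) (nat_lit 188) (nat_lit 172))) (XT.nd (nat_lit 78) (nat_lit 0) (nat_lit 0) (XT.lf (nat_lit 0) (nat_lit 199493994393) (nat_lit 152) (nat_lit 88666874811) (nat_lit 0) (nat_lit 196543466196) (nat_lit 1) (nat_lit 5) (nat_lit 3) (nat_lit 4) (nat_lit 1) (nat_lit 4) (nat_lit 241) (nat_lit 188) (nat_lit 171)) (XT.nd (nat_lit 78) (nat_lit 0) (nat_lit 0) (XT.lf (nat_lit 0) (nat_lit 230568259175) (nat_lit 152) (nat_lit 99124739321) (nat_lit 0) (nat_lit 227578304578) (nat_lit 1) (nat_lit 5) (nat_lit 3) (nat_lit 4) (nat_lit 1) (nat_lit 4) (nat_lit 242) (nat_lit 188) (nat_lit 170)) (XT.lf (nat_lit 0) (nat_lit 266272038083) (nat_lit 152) (nat_lit 111206155626) (nat_lit 0) (nat_lit 263247799659) (nat_lit 1) (nat_lit 5) (nat_lit 3) (nat_lit 4) (nat_lit 1) (nat_lit 4) (nat_lit 243) (nat_lit 188) (nat_lit 169)))))) (XT.nd (nat_lit 390) (nat_lit 0) (nat_lit 0) (XT.nd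 (nat_lit 156) (nat_lit 0) (nat_lit 0) (XT.nd (nat_lit 78) (nat_lit 0) (nat_lit 0) (XT.lf (nat_lit 0) (nat_lit 307303883312) (nat_lit 152) (nat_lit 125147499262) (nat_lit 0) (nat_lit 304249832865) (nat_lit 1) (nat_lit 5) (nat_lit 3) (nat_lit 4) (nat_lit 1) (nat_lit 4) (nat_lit 244) (nat_lit 188) (nat_lit 168)) (XT.lf (nat_lit 0) (nat_lit 354466591835) (nat_lit 152) (nat_lit 141221535648) (nat_lit 0) (nat_lit 351386617889) (nat_lit 1) (nat_lit 5) (nat_lit 3) (nat_lit 4) (nat_lit 1) (nat_lit 4) (nat_lit 245) (nat_lit 188) (nat_lit 167))) (XT.nd (nat_lit 78) (nat_lit 0) (nat_lit 0) (XT.lf (nat_lit 0) (nat_lit 408682912295) (nat_lit 152) (nat_lit 159742756800) (nat_lit 0) (nat_lit 405580396177) (nat_lit 1) (nat_lit 5) (nat_lit 3) (nat_lit 4) (nat_lit 1) (nat_lit 4) (nat_lit 246) (nat_lit 188) (nat_lit 166)) (XT.nd (nat_lit 78) (nat_lit 0) (nat_lit 0) (XT.lf (nat_lit 0) (nat_lit 471013598790)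 (nat_lit 152) (nat_lit 181073534436) (nat_lit 0) (nat_lit 467891480783) (nat_lit 1) (nat_lit 5) (nat_lit 3) (nat_lit 4) (nat_lit 1) (nat_lit 4) (nat_lit 247) (nat_lit 188) (nat_lit 165)) (XT.lf (nat_lit 0) (nat_lit 542678164750) (nat_lit 152) (nat_lit 205631209858) (nat_lit 0) (nat_lit 539539001622) (nat_lit 1) (nat_lit 5) (nat_lit 3) (nat_lit 4) (nat_lit 1) (nat_lit 4) (nat_lit 248) (nat_lit 188) (nat_lit 164))))) (XT.nd (nat_lit 156) (nat_lit 0) (nat_lit 0) (XT.nd (nat_lit 78) (nat_lit 0) (nat_lit 0) (XT.lf (nat_lit 0) (nat_lit 625078742988) (nat_lit 152) (nat_lit 233896259325) (nat_lit 0) (nat_lit 621924758016) (nat_lit 1) (nat_lit 5) (nat_lit 3) (nat_lit 4) (nat_lit 1) (nat_lit 4) (nat_lit 249) (nat_lit 188) (nat_lit 163)) (XT.lf (nat_lit 0) (nat_lit 719827518730) (nat_lit 152) (nat_lit 266421694673) (nat_lit 0) (nat_lit 716660645198) (nat_lit 1) (nat_lit 5) (nat_lit 3) (nat_lit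 4) (nat_lit 1) (nat_lit 4) (nat_lit 250) (nat_lit 188) (nat_lit 162))) (XT.nd (nat_lit 78) (nat_lit 0) (nat_lit 0) (XT.lf (nat_lit 0) (nat_lit 828778272372) (nat_lit 152) (nat_lit 303843883116) (nat_lit 0) (nat_lit 825600191395) (nat_lit 1) (nat_lit 5) (nat_lit 3) (nat_lit 4) (nat_lit 1) (nat_lit 4) (nat_lit 251) (nat_lit 188) (nat_lit 161)) (XT.nd (nat_lit 78) (nat_lit 0) (nat_lit 0) (XT.lf (nat_lit 0) (nat_lit 954062649092) (nat_lit 152) (nat_lit 346894997906) (nat_lit 0) (nat_lit 950874822513) (nat_lit 1) (nat_lit 5) (nat_lit 3) (nat_lit 4) (nat_lit 1) (nat_lit 4) (nat_lit 252) (nat_lit 188) (nat_lit 160)) (XT.lf (nat_lit 0) (nat_lit 1098131864958) (nat_lit 152) (nat_lit 396417343462) (nat_lit 0) (nat_lit 1094935563941) (nat_lit 1) (nat_lit 5) (nat_lit 3) (nat_lit 4) (nat_lit 1) (nat_lit 4) (nat_lit 253) (nat_lit 188) (nat_lit 159))))))))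
noncomputable def xc10 : XT := (XT.nd (nat_lit 29562) (nat_lit 0) (nat_lit 0) (XT.nd (nat_lit 28782) (nat_lit 0) (nat_lit 0) (XT.nd (nat_lit 312) (nat_lit 0) (nat_lit 0) (XT.nd (nat_lit 156) (nat_lit 0) (nat_lit 0) (XT.nd (nat_lit 78) (nat_lit 0) (nat_lit 0) (XT.lf (nat_lit 0) (nat_lit 1263804665497) (nat_lit 152) (nat_lit 453379835242) (nat_lit 0) (nat_lit 1260600995404) (nat_lit 1) (nat_lit 5) (nat_lit 3) (nat_lit 4) (nat_lit 1) (nat_lit 4) (nat_lit 254) (nat_lit 188) (nat_lit 158)) (XT.lf (nat_lit 0) (nat_lit 1454322475068) (nat_lit 152) (nat_lit 518896956781) (nat_lit 0) (nat_lit 1451112397082) (nat_lit 1) (nat_lit 5) (nat_lit 3) (nat_lit 4) (nat_lit 1) (nat_lit 4) (nat_lit 255) (nat_lit 188) (nat_lit 157))) (XT.nd (nat_lit 78) (nat_lit 0) (nat_lit 0) (XT.lf (nat_lit 0) (nat_lit 1673412816031) (nat_lit 152) (nat_lit 594250564803) (nat_lit 0) (nat_lit 1670197165966) (nat_lit 1) (nat_lit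 5) (nat_lit 3) (nat_lit 4) (nat_lit 1) (nat_lit 4) (nat_lit 256) (nat_lit 188) (nat_lit 156)) (XT.lf (nat_lit 0) (nat_lit 1925362238537) (nat_lit 152) (nat_lit 680914969031) (nat_lit 0) (nat_lit 1922141743184) (nat_lit 1) (nat_lit 5) (nat_lit 3) (nat_lit 4) (nat_lit 1) (nat_lit 4) (nat_lit 257) (nat_lit 188) (nat_lit 155)))) (XT.nd (nat_lit 156) (nat_lit 0) (nat_lit 0) (XT.nd (nat_lit 78) (nat_lit 0) (nat_lit 0) (XT.lf (nat_lit 0) (nat_lit 2215100187807) (nat_lit 152) (nat_lit 780585777375) (nat_lit 0) (nat_lit 2211875479161) (nat_lit 1) (nat_lit 5) (nat_lit 3) (nat_lit 4) (nat_lit 1) (nat_lit 4) (nat_lit 258) (nat_lit 188) (nat_lit 154)) (XT.lf (nat_lit 0) (nat_lit 2548295449807) (nat_lit 152) (nat_lit 895213070866) (nat_lit 0) (nat_lit 2545067077427) (nat_lit 1) (nat_lit 5) (nat_lit 3) (nat_lit 4) (nat_lit 1) (nat_lit 4) (nat_lit 259) (nat_lit 188) (nat_lit 153))) (XT.nd (nat_lit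 78) (nat_lit 0) (nat_lit 0) (XT.lf (nat_lit 0) (nat_lit 2931467062270) (nat_lit 152) (nat_lit 1027039557421) (nat_lit 0) (nat_lit 2928235504035) (nat_lit 1) (nat_lit 5) (nat_lit 3) (nat_lit 4) (nat_lit 1) (nat_lit 4) (nat_lit 260) (nat_lit 188) (nat_lit 152)) (XT.nd (nat_lit 78) (nat_lit 0) (nat_lit 0) (XT.lf (nat_lit 0) (nat_lit 3372111861093) (nat_lit 152) (nat_lit 1178644450907) (nat_lit 0) (nat_lit 3368877532550) (nat_lit 1) (nat_lit 5) (nat_lit 3) (nat_lit 4) (nat_lit 1) (nat_lit 4) (nat_lit 261) (nat_lit 188) (nat_lit 151)) (XT.lf (nat_lit 0) (nat_lit 3878851157557) (nat_lit 152) (nat_lit 1352993934023) (nat_lit 0) (nat_lit 3875614420049) (nat_lit 1) (nat_lit 5) (nat_lit 3) (nat_lit 4) (nat_lit 1) (nat_lit 4) (nat_lit 262) (nat_lit 188) (nat_lit 150)))))) (XT.nd (nat_lit 390) (nat_lit 0) (nat_lit 0) (XT.nd (nat_lit 156) (nat_lit 0) (nat_lit 0) (XT.nd (nat_lit 78) (nat_lit 152)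 (nat_lit 0) (XT.lf (nat_lit 0) (nat_lit 14816774926) (nat_lit 76) (nat_lit 1537741117) (nat_lit 76) (nat_lit 1537741117) (nat_lit 3) (nat_lit 4) (nat_lit 4) (nat_lit 5) (nat_lit 4) (nat_lit 4) (nat_lit 222) (nat_lit 189) (nat_lit 189)) (XT.lf (nat_lit 0) (nat_lit 341661035) (nat_lit 76) (nat_lit 75941941) (nat_lit 152) (nat_lit 40372837668) (nat_lit 1) (nat_lit 5) (nat_lit 2) (nat_lit 5) (nat_lit 3) (nat_lit 4) (nat_lit 223) (nat_lit 189) (nat_lit 188))) (XT.nd (nat_lit 78) (nat_lit 0) (nat_lit 0) (XT.lf (nat_lit 0) (nat_lit 4131208206) (nat_lit 152) (nat_lit 39202177972) (nat_lit 0) (nat_lit 3219010711) (nat_lit 1) (nat_lit 5) (nat_lit 3) (nat_lit 4) (nat_lit 1) (nat_lit 4) (nat_lit 224) (nat_lit 189) (nat_lit 187)) (XT.nd (nat_lit 78) (nat_lit 0) (nat_lit 0) (XT.lf (nat_lit 0) (nat_lit 8063623239) (nat_lit 152) (nat_lit 38361179803) (nat_lit 0) (nat_lit 6782488437) (nat_lit 1) (nat_lit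 5) (nat_lit 3) (nat_lit 4) (nat_lit 1) (nat_lit 4) (nat_lit 225) (nat_lit 189) (nat_lit 186)) (XT.lf (nat_lit 0) (nat_lit 12289960227) (nat_lit 152) (nat_lit 37907504386) (nat_lit 0) (nat_lit 10688010374) (nat_lit 1) (nat_lit 5) (nat_lit 3) (nat_lit 4) (nat_lit 1) (nat_lit 4) (nat_lit 226) (nat_lit 189) (nat_lit 185))))) (XT.nd (nat_lit 156) (nat_lit 0) (nat_lit 0) (XT.nd (nat_lit 78) (nat_lit 0) (nat_lit 0) (XT.lf (nat_lit 0) (nat_lit 16892908371) (nat_lit 152) (nat_lit 37832275462) (nat_lit 0) (nat_lit 15011988909) (nat_lit 1) (nat_lit 5) (nat_lit 3) (nat_lit 4) (nat_lit 1) (nat_lit 4) (nat_lit 227) (nat_lit 189) (nat_lit 184)) (XT.lf (nat_lit 0) (nat_lit 21962525353) (nat_lit 152) (nat_lit 38134021161) (nat_lit 0) (nat_lit 19839023621) (nat_lit 1) (nat_lit 5) (nat_lit 3) (nat_lit 4) (nat_lit 1) (nat_lit 4) (nat_lit 228) (nat_lit 189) (nat_lit 183))) (XT.nd (nat_lit 78) (nat_lit 0)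 (nat_lit 0) (XT.lf (nat_lit 0) (nat_lit 27597999330) (nat_lit 152) (nat_lit 38818645202) (nat_lit 0) (nat_lit 25263556495) (nat_lit 1) (nat_lit 5) (nat_lit 3) (nat_lit 4) (nat_lit 1) (nat_lit 4) (nat_lit 229) (nat_lit 189) (nat_lit 182)) (XT.nd (nat_lit 78) (nat_lit 0) (nat_lit 0) (XT.lf (nat_lit 0) (nat_lit 33909589576) (nat_lit 152) (nat_lit 39899542405) (nat_lit 0) (nat_lit 31391719694) (nat_lit 1) (nat_lit 5) (nat_lit 3) (nat_lit 4) (nat_lit 1) (nat_lit 4) (nat_lit 230) (nat_lit 189) (nat_lit 181)) (XT.lf (nat_lit 0) (nat_lit 41020783726) (nat_lit 152) (nat_lit 41397860758) (nat_lit 0) (nat_lit 38343412065) (nat_lit 1) (nat_lit 5) (nat_lit 3) (nat_lit 4) (nat_lit 1) (nat_lit 4) (nat_lit 231) (nat_lit 189) (nat_lit 180))))))) (XT.nd (nat_lit 780) (nat_lit 0) (nat_lit 0) (XT.nd (nat_lit 390) (nat_lit 0) (nat_lit 0) (XT.nd (nat_lit 156) (nat_lit 0) (nat_lit 0) (XT.nd (nat_lit 78) (nat_lit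 0) (nat_lit 0) (XT.lf (nat_lit 0) (nat_lit 49070713841) (nat_lit 152) (nat_lit 43342915185) (nat_lit 0) (nat_lit 46254644980) (nat_lit 1) (nat_lit 5) (nat_lit 3) (nat_lit 4) (nat_lit 1) (nat_lit 4) (nat_lit 232) (nat_lit 189) (nat_lit 179)) (XT.lf (nat_lit 0) (nat_lit 58216878551) (nat_lit 152) (nat_lit 45772761099) (nat_lit 0) (nat_lit 55280203430) (nat_lit 1) (nat_lit 5) (nat_lit 3) (nat_lit 4) (nat_lit 1) (nat_lit 4) (nat_lit 233) (nat_lit 189) (nat_lit 178))) (XT.nd (nat_lit 78) (nat_lit 0) (nat_lit 0) (XT.lf (nat_lit 0) (nat_lit 68638224559) (nat_lit 152) (nat_lit 48734938963) (nat_lit 0) (nat_lit 65596674429) (nat_lit 1) (nat_lit 5) (nat_lit 3) (nat_lit 4) (nat_lit 1) (nat_lit 4) (nat_lit 234) (nat_lit 189) (nat_lit 177)) (XT.nd (nat_lit 78) (nat_lit 0) (nat_lit 0) (XT.lf (nat_lit 0) (nat_lit 80538647765) (nat_lit 152) (nat_lit 52287404432) (nat_lit 0) (nat_lit 77405901974) (nat_lit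 1) (nat_lit 5) (nat_lit 3) (nat_lit 4) (nat_lit 1) (nat_lit 4) (nat_lit 235) (nat_lit 189) (nat_lit 176)) (XT.lf (nat_lit 0) (nat_lit 94150982535) (nat_lit 152) (nat_lit 56499662264) (nat_lit 0) (nat_lit 90938936170) (nat_lit 1) (nat_lit 5) (nat_lit 3) (nat_lit 4) (nat_lit 1) (nat_lit 4) (nat_lit 236) (nat_lit 189) (nat_lit 175))))) (XT.nd (nat_lit 156) (nat_lit 0) (nat_lit 0) (XT.nd (nat_lit 78) (nat_lit 0) (nat_lit 0) (XT.lf (nat_lit 0) (nat_lit 109741557158) (nat_lit 152) (nat_lit 61454126200) (nat_lit 0) (nat_lit 106460553773) (nat_lit 1) (nat_lit 5) (nat_lit 3) (nat_lit 4) (nat_lit 1) (nat_lit 4) (nat_lit 237) (nat_lit 189) (nat_lit 174)) (XT.lf (nat_lit 0) (nat_lit 127615404617) (nat_lit 152) (nat_lit 67247731404) (nat_lit 0) (nat_lit 124274438605) (nat_lit 1) (nat_lit 5) (nat_lit 3) (nat_lit 4) (nat_lit 1) (nat_lit 4) (nat_lit 238) (nat_lit 189) (nat_lit 173))) (XT.nd (nat_lit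 78) (nat_lit 0) (nat_lit 0) (XT.lf (nat_lit 0) (nat_lit 148122230622) (nat_lit 152) (nat_lit 73993831020) (nat_lit 0) (nat_lit 144729123195) (nat_lit 1) (nat_lit 5) (nat_lit 3) (nat_lit 4) (nat_lit 1) (nat_lit 4) (nat_lit 239) (nat_lit 189) (nat_lit 172)) (XT.nd (nat_lit 78) (nat_lit 0) (nat_lit 0) (XT.lf (nat_lit 0) (nat_lit 171663255683) (nat_lit 152) (nat_lit 81824413956) (nat_lit 0) (nat_lit 168224807895) (nat_lit 1) (nat_lit 5) (nat_lit 3) (nat_lit 4) (nat_lit 1) (nat_lit 4) (nat_lit 240) (nat_lit 189) (nat_lit 171)) (XT.lf (nat_lit 0) (nat_lit 198699065071) (nat_lit 152) (nat_lit 90892687267) (nat_lit 0) (nat_lit 195221190883) (nat_lit 1) (nat_lit 5) (nat_lit 3) (nat_lit 4) (nat_lit 1) (nat_lit 4) (nat_lit 241) (nat_lit 189) (nat_lit 170)))))) (XT.nd (nat_lit 390) (nat_lit 0) (nat_lit 0) (XT.nd (nat_lit 156) (nat_lit 0) (nat_lit 0) (XT.nd (nat_lit 78) (nat_lit 0) (nat_lit 0) (XT.lf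 (nat_lit 0) (nat_lit 229758620276) (nat_lit 152) (nat_lit 101376073693) (nat_lit 0) (nat_lit 226246462262) (nat_lit 1) (nat_lit 5) (nat_lit 3) (nat_lit 4) (nat_lit 1) (nat_lit 4) (nat_lit 242) (nat_lit 189) (nat_lit 169)) (XT.lf (nat_lit 0) (nat_lit 265449608247) (nat_lit 152) (nat_lit 113479682967) (nat_lit 0) (nat_lit 261907638209) (nat_lit 1) (nat_lit 5) (nat_lit 3) (nat_lit 4) (nat_lit 1) (nat_lit 4) (nat_lit 243) (nat_lit 189) (nat_lit 168))) (XT.nd (nat_lit 78) (nat_lit 0) (nat_lit 0) (XT.lf (nat_lit 0) (nat_lit 306470330922) (nat_lit 152) (nat_lit 127440324838) (nat_lit 0) (nat_lit 302902437386) (nat_lit 1) (nat_lit 5) (nat_lit 3) (nat_lit 4) (nat_lit 1) (nat_lit 4) (nat_lit 244) (nat_lit 189) (nat_lit 167)) (XT.nd (nat_lit 78) (nat_lit 0) (nat_lit 0) (XT.lf (nat_lit 0) (nat_lit 353623367658) (nat_lit 152) (nat_lit 143531142297) (nat_lit 0) (nat_lit 350032931950) (nat_lit 1)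 (nat_lit 5) (nat_lit 3) (nat_lit 4) (nat_lit 1) (nat_lit 4) (nat_lit 245) (nat_lit 189) (nat_lit 166)) (XT.lf (nat_lit 0) (nat_lit 407831277870) (nat_lit 152) (nat_lit 162066955687) (nat_lit 0) (nat_lit 404221240272) (nat_lit 1) (nat_lit 5) (nat_lit 3) (nat_lit 4) (nat_lit 1) (nat_lit 4) (nat_lit 246) (nat_lit 189) (nat_lit 165))))) (XT.nd (nat_lit 156) (nat_lit 0) (nat_lit 0) (XT.nd (nat_lit 78) (nat_lit 0) (nat_lit 0) (XT.lf (nat_lit 0) (nat_lit 470154651105) (nat_lit 152) (nat_lit 183410422226) (nat_lit 0) (nat_lit 466527568386) (nat_lit 1) (nat_lit 5) (nat_lit 3) (nat_lit 4) (nat_lit 1) (nat_lit 4) (nat_lit 247) (nat_lit 189) (nat_lit 164)) (XT.lf (nat_lit 0) (nat_lit 541812857708) (nat_lit 152) (nat_lit 207979131477) (nat_lit 0) (nat_lit 538170953146) (nat_lit 1) (nat_lit 5) (nat_lit 3) (nat_lit 4) (nat_lit 1) (nat_lit 4) (nat_lit 248) (nat_lit 189) (nat_lit 163))) (XT.nd (nat_lit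 78) (nat_lit 0) (nat_lit 0) (XT.lf (nat_lit 0) (nat_lit 624207906071) (nat_lit 152) (nat_lit 236253775576) (nat_lit 0) (nat_lit 620553112948) (nat_lit 1) (nat_lit 5) (nat_lit 3) (nat_lit 4) (nat_lit 1) (nat_lit 4) (nat_lit 249) (nat_lit 189) (nat_lit 162)) (XT.nd (nat_lit 78) (nat_lit 0) (nat_lit 0) (XT.lf (nat_lit 0) (nat_lit 718951873226) (nat_lit 152) (nat_lit 268787554084) (nat_lit 0) (nat_lit 715285872660) (nat_lit 1) (nat_lit 5) (nat_lit 3) (nat_lit 4) (nat_lit 1) (nat_lit 4) (nat_lit 250) (nat_lit 189) (nat_lit 161)) (XT.lf (nat_lit 0) (nat_lit 827898445488) (nat_lit 152) (nat_lit 306216997448) (nat_lit 0) (nat_lit 824222699318) (nat_lit 1) (nat_lit 5) (nat_lit 3) (nat_lit 4) (nat_lit 1) (nat_lit 4) (nat_lit 251) (nat_lit 189) (nat_lit 160))))))))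
noncomputable def xc11 : XT := (XT.nd (nat_lit 29484) (nat_lit 0) (nat_lit 0) (XT.nd (nat_lit 780) (nat_lit 0) (nat_lit 0) (XT.nd (nat_lit 390) (nat_lit 0) (nat_lit 0) (XT.nd (nat_lit 156) (nat_lit 0) (nat_lit 0) (XT.nd (nat_lit 78) (nat_lit 0) (nat_lit 0) (XT.lf (nat_lit 0) (nat_lit 953179186226) (nat_lit 152) (nat_lit 349274420865) (nat_lit 0) (nat_lit 949494965618) (nat_lit 1) (nat_lit 5) (nat_lit 3) (nat_lit 4) (nat_lit 1) (nat_lit 4) (nat_lit 252) (nat_lit 189) (nat_lit 159)) (XT.lf (nat_lit 0) (nat_lit 1097245240368) (nat_lit 152) (nat_lit 398802252184) (nat_lit 0) (nat_lit 1093553650684) (nat_lit 1) (nat_lit 5) (nat_lit 3) (nat_lit 4) (nat_lit 1) (nat_lit 4) (nat_lit 253) (nat_lit 189) (nat_lit 158))) (XT.nd (nat_lit 78) (nat_lit 0) (nat_lit 0) (XT.lf (nat_lit 0) (nat_lit 1262915291582) (nat_lit 152) (nat_lit 455769514193) (nat_lit 0) (nat_lit 1259217294006) (nat_lit 1) (nat_lit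 5) (nat_lit 3) (nat_lit 4) (nat_lit 1) (nat_lit 4) (nat_lit 254) (nat_lit 189) (nat_lit 157)) (XT.nd (nat_lit 78) (nat_lit 0) (nat_lit 0) (XT.lf (nat_lit 0) (nat_lit 1453430710435) (nat_lit 152) (nat_lit 521290783756) (nat_lit 0) (nat_lit 1449727140779) (nat_lit 1) (nat_lit 5) (nat_lit 3) (nat_lit 4) (nat_lit 1) (nat_lit 4) (nat_lit 255) (nat_lit 189) (nat_lit 156)) (XT.lf (nat_lit 0) (nat_lit 1672518972513) (nat_lit 152) (nat_lit 596647998756) (nat_lit 0) (nat_lit 1668810557570) (nat_lit 1) (nat_lit 5) (nat_lit 3) (nat_lit 4) (nat_lit 1) (nat_lit 4) (nat_lit 256) (nat_lit 189) (nat_lit 155))))) (XT.nd (nat_lit 156) (nat_lit 0) (nat_lit 0) (XT.nd (nat_lit 78) (nat_lit 0) (nat_lit 0) (XT.lf (nat_lit 0) (nat_lit 1924466587293) (nat_lit 152) (nat_lit 683315539487) (nat_lit 0) (nat_lit 1920753959056) (nat_lit 1) (nat_lit 5) (nat_lit 3) (nat_lit 4) (nat_lit 1) (nat_lit 4) (nat_lit 257) (nat_lit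 189) (nat_lit 154)) (XT.lf (nat_lit 0) (nat_lit 2214202964628) (nat_lit 152) (nat_lit 782989075224) (nat_lit 0) (nat_lit 2210486672658) (nat_lit 1) (nat_lit 5) (nat_lit 3) (nat_lit 4) (nat_lit 1) (nat_lit 4) (nat_lit 258) (nat_lit 189) (nat_lit 153))) (XT.nd (nat_lit 78) (nat_lit 0) (nat_lit 0) (XT.lf (nat_lit 0) (nat_lit 2547396859726) (nat_lit 152) (nat_lit 897618740362) (nat_lit 0) (nat_lit 2543677381902) (nat_lit 1) (nat_lit 5) (nat_lit 3) (nat_lit 4) (nat_lit 1) (nat_lit 4) (nat_lit 259) (nat_lit 189) (nat_lit 152)) (XT.nd (nat_lit 78) (nat_lit 0) (nat_lit 0) (XT.lf (nat_lit 0) (nat_lit 2930567283580) (nat_lit 152) (nat_lit 1029447289218) (nat_lit 0) (nat_lit 2926845035447) (nat_lit 1) (nat_lit 5) (nat_lit 3) (nat_lit 4) (nat_lit 1) (nat_lit 4) (nat_lit 260) (nat_lit 189) (nat_lit 151)) (XT.lf (nat_lit 0) (nat_lit 3371211048830) (nat_lit 152) (nat_lit 1181053976010) (nat_lit 0)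 (nat_lit 3367486391733) (nat_lit 1) (nat_lit 5) (nat_lit 3) (nat_lit 4) (nat_lit 1) (nat_lit 4) (nat_lit 261) (nat_lit 189) (nat_lit 150)))))) (XT.nd (nat_lit 28314) (nat_lit 0) (nat_lit 0) (XT.nd (nat_lit 28080) (nat_lit 0) (nat_lit 76) (XT.nd (nat_lit 28002) (nat_lit 0) (nat_lit 152) (XT.lf (nat_lit 0) (nat_lit 3877949446535) (nat_lit 152) (nat_lit 1355405018522) (nat_lit 0) (nat_lit 3874222694686) (nat_lit 1) (nat_lit 5) (nat_lit 3) (nat_lit 4) (nat_lit 1) (nat_lit 4) (nat_lit 262) (nat_lit 189) (nat_lit 149)) (XT.lf (nat_lit 0) (nat_lit 4754296154) (nat_lit 76) (nat_lit 4552234888) (nat_lit 76) (nat_lit 4552234888) (nat_lit 3) (nat_lit 4) (nat_lit 4) (nat_lit 5) (nat_lit 4) (nat_lit 4) (nat_lit 220) (nat_lit 190) (nat_lit 190))) (XT.nd (nat_lit 78) (nat_lit 76) (nat_lit 0) (XT.lf (nat_lit 0) (nat_lit 19040401749) (nat_lit 76) (nat_lit 6513226019) (nat_lit 76) (nat_lit 5907229888)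 (nat_lit 3) (nat_lit 4) (nat_lit 4) (nat_lit 5) (nat_lit 4) (nat_lit 4) (nat_lit 221) (nat_lit 190) (nat_lit 189)) (XT.nd (nat_lit 78) (nat_lit 76) (nat_lit 0) (XT.lf (nat_lit 0) (nat_lit 29313173544) (nat_lit 76) (nat_lit 3810332859) (nat_lit 76) (nat_lit 2677383570) (nat_lit 3) (nat_lit 4) (nat_lit 4) (nat_lit 5) (nat_lit 4) (nat_lit 4) (nat_lit 222) (nat_lit 190) (nat_lit 188)) (XT.lf (nat_lit 0) (nat_lit 615833140) (nat_lit 152) (nat_lit 310236492) (nat_lit 76) (nat_lit 39895225596) (nat_lit 2) (nat_lit 5) (nat_lit 4) (nat_lit 5) (nat_lit 3) (nat_lit 4) (nat_lit 223) (nat_lit 190) (nat_lit 187))))) (XT.nd (nat_lit 156) (nat_lit 0) (nat_lit 0) (XT.nd (nat_lit 78) (nat_lit 0) (nat_lit 0) (XT.lf (nat_lit 0) (nat_lit 4142641038) (nat_lit 152) (nat_lit 40155893391) (nat_lit 0) (nat_lit 2300398706) (nat_lit 1) (nat_lit 5) (nat_lit 3) (nat_lit 4) (nat_lit 1) (nat_lit 4) (nat_lit 224) (nat_lit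 190) (nat_lit 186)) (XT.lf (nat_lit 0) (nat_lit 7937409420) (nat_lit 152) (nat_lit 39553719630) (nat_lit 0) (nat_lit 5774352037) (nat_lit 1) (nat_lit 5) (nat_lit 3) (nat_lit 4) (nat_lit 1) (nat_lit 4) (nat_lit 225) (nat_lit 190) (nat_lit 185))) (XT.nd (nat_lit 78) (nat_lit 0) (nat_lit 0) (XT.lf (nat_lit 0) (nat_lit 12044053667) (nat_lit 152) (nat_lit 39307717611) (nat_lit 0) (nat_lit 9602026676) (nat_lit 1) (nat_lit 5) (nat_lit 3) (nat_lit 4) (nat_lit 1) (nat_lit 4) (nat_lit 226) (nat_lit 190) (nat_lit 184)) (XT.nd (nat_lit 78) (nat_lit 0) (nat_lit 0) (XT.lf (nat_lit 0) (nat_lit 16542921167) (nat_lit 152) (nat_lit 39413074250) (nat_lit 0) (nat_lit 13858311907) (nat_lit 1) (nat_lit 5) (nat_lit 3) (nat_lit 4) (nat_lit 1) (nat_lit 4) (nat_lit 227) (nat_lit 190) (nat_lit 183)) (XT.lf (nat_lit 0) (nat_lit 21522033241) (nat_lit 152) (nat_lit 39871850873) (nat_lit 0) (nat_lit 18626482877)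 (nat_lit 1) (nat_lit 5) (nat_lit 3) (nat_lit 4) (nat_lit 1) (nat_lit 4) (nat_lit 228) (nat_lit 190) (nat_lit 182))))))) (XT.nd (nat_lit 780) (nat_lit 0) (nat_lit 0) (XT.nd (nat_lit 390) (nat_lit 0) (nat_lit 0) (XT.nd (nat_lit 156) (nat_lit 0) (nat_lit 0) (XT.nd (nat_lit 78) (nat_lit 0) (nat_lit 0) (XT.lf (nat_lit 0) (nat_lit 27078807298) (nat_lit 152) (nat_lit 40693023545) (nat_lit 0) (nat_lit 23999829888) (nat_lit 1) (nat_lit 5) (nat_lit 3) (nat_lit 4) (nat_lit 1) (nat_lit 4) (nat_lit 229) (nat_lit 190) (nat_lit 181)) (XT.lf (nat_lit 0) (nat_lit 33321962831) (nat_lit 152) (nat_lit 41892658687) (nat_lit 0) (nat_lit 30083483642) (nat_lit 1) (nat_lit 5) (nat_lit 3) (nat_lit 4) (nat_lit 1) (nat_lit 4) (nat_lit 230) (nat_lit 190) (nat_lit 180))) (XT.nd (nat_lit 78) (nat_lit 0) (nat_lit 0) (XT.lf (nat_lit 0) (nat_lit 40373648536) (nat_lit 152) (nat_lit 43494227422) (nat_lit 0) (nat_lit 36996472147)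 (nat_lit 1) (nat_lit 5) (nat_lit 3) (nat_lit 4) (nat_lit 1) (nat_lit 4) (nat_lit 231) (nat_lit 190) (nat_lit 179)) (XT.nd (nat_lit 78) (nat_lit 0) (nat_lit 0) (XT.lf (nat_lit 0) (nat_lit 48371832175) (nat_lit 152) (nat_lit 45529064790) (nat_lit 0) (nat_lit 44874049526) (nat_lit 1) (nat_lit 5) (nat_lit 3) (nat_lit 4) (nat_lit 1) (nat_lit 4) (nat_lit 232) (nat_lit 190) (nat_lit 178)) (XT.lf (nat_lit 0) (nat_lit 57472999951) (nat_lit 152) (nat_lit 48036982826) (nat_lit 0) (nat_lit 53870342293) (nat_lit 1) (nat_lit 5) (nat_lit 3) (nat_lit 4) (nat_lit 1) (nat_lit 4) (nat_lit 233) (nat_lit 190) (nat_lit 177))))) (XT.nd (nat_lit 156) (nat_lit 0) (nat_lit 0) (XT.nd (nat_lit 78) (nat_lit 0) (nat_lit 0) (XT.lf (nat_lit 0) (nat_lit 67855218190) (nat_lit 152) (nat_lit 51067049493) (nat_lit 0) (nat_lit 64161364871) (nat_lit 1) (nat_lit 5) (nat_lit 3) (nat_lit 4) (nat_lit 1) (nat_lit 4) (nat_lit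 234) (nat_lit 190) (nat_lit 176)) (XT.lf (nat_lit 0) (nat_lit 79721617249) (nat_lit 152) (nat_lit 54678548703) (nat_lit 0) (nat_lit 75948463356) (nat_lit 1) (nat_lit 5) (nat_lit 3) (nat_lit 4) (nat_lit 1) (nat_lit 4) (nat_lit 235) (nat_lit 190) (nat_lit 175))) (XT.nd (nat_lit 78) (nat_lit 0) (nat_lit 0) (XT.lf (nat_lit 0) (nat_lit 93304365804) (nat_lit 152) (nat_lit 58942140223) (nat_lit 0) (nat_lit 89462254890) (nat_lit 1) (nat_lit 5) (nat_lit 3) (nat_lit 4) (nat_lit 1) (nat_lit 4) (nat_lit 236) (nat_lit 190) (nat_lit 174)) (XT.nd (nat_lit 78) (nat_lit 0) (nat_lit 0) (XT.lf (nat_lit 0) (nat_lit 108869213284) (nat_lit 152) (nat_lit 63941242148) (nat_lit 0) (nat_lit 104967139743) (nat_lit 1) (nat_lit 5) (nat_lit 3) (nat_lit 4) (nat_lit 1) (nat_lit 4) (nat_lit 237) (nat_lit 190) (nat_lit 173)) (XT.lf (nat_lit 0) (nat_lit 126720689314) (nat_lit 152) (nat_lit 69773662995) (nat_lit 0) (nat_lit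 122766474358) (nat_lit 1) (nat_lit 5) (nat_lit 3) (nat_lit 4) (nat_lit 1) (nat_lit 4) (nat_lit 238) (nat_lit 190) (nat_lit 172)))))) (XT.nd (nat_lit 390) (nat_lit 0) (nat_lit 0) (XT.nd (nat_lit 156) (nat_lit 0) (nat_lit 0) (XT.nd (nat_lit 78) (nat_lit 0) (nat_lit 0) (XT.lf (nat_lit 0) (nat_lit 147208061902) (nat_lit 152) (nat_lit 76553515345) (nat_lit 0) (nat_lit 143208506586) (nat_lit 1) (nat_lit 5) (nat_lit 3) (nat_lit 4) (nat_lit 1) (nat_lit 4) (nat_lit 239) (nat_lit 190) (nat_lit 171)) (XT.lf (nat_lit 0) (nat_lit 170732170949) (nat_lit 152) (nat_lit 84413448483) (nat_lit 0) (nat_lit 166693189232) (nat_lit 1) (nat_lit 5) (nat_lit 3) (nat_lit 4) (nat_lit 1) (nat_lit 4) (nat_lit 240) (nat_lit 190) (nat_lit 170))) (XT.nd (nat_lit 78) (nat_lit 0) (nat_lit 0) (XT.lf (nat_lit 0) (nat_lit 197753270759) (nat_lit 152) (nat_lit 93507243709) (nat_lit 0) (nat_lit 193680005216) (nat_lit 1) (nat_lit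 5) (nat_lit 3) (nat_lit 4) (nat_lit 1) (nat_lit 4) (nat_lit 241) (nat_lit 190) (nat_lit 169)) (XT.nd (nat_lit 78) (nat_lit 0) (nat_lit 0) (XT.lf (nat_lit 0) (nat_lit 228800035027) (nat_lit 152) (nat_lit 104012823105) (nat_lit 0) (nat_lit 224696957461) (nat_lit 1) (nat_lit 5) (nat_lit 3) (nat_lit 4) (nat_lit 1) (nat_lit 4) (nat_lit 242) (nat_lit 190) (nat_lit 168)) (XT.lf (nat_lit 0) (nat_lit 264479900444) (nat_lit 152) (nat_lit 116135730614) (nat_lit 0) (nat_lit 260350899379) (nat_lit 1) (nat_lit 5) (nat_lit 3) (nat_lit 4) (nat_lit 1) (nat_lit 4) (nat_lit 243) (nat_lit 190) (nat_lit 167))))) (XT.nd (nat_lit 156) (nat_lit 0) (nat_lit 0) (XT.nd (nat_lit 78) (nat_lit 0) (nat_lit 0) (XT.lf (nat_lit 0) (nat_lit 305490951333) (nat_lit 152) (nat_lit 130113153558) (nat_lit 0) (nat_lit 301339408096) (nat_lit 1) (nat_lit 5) (nat_lit 3) (nat_lit 4) (nat_lit 1) (nat_lit 4) (nat_lit 244) (nat_lit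 190) (nat_lit 166)) (XT.lf (nat_lit 0) (nat_lit 352635577820) (nat_lit 152) (nat_lit 146218563256) (nat_lit 0) (nat_lit 348464432694) (nat_lit 1) (nat_lit 5) (nat_lit 3) (nat_lit 4) (nat_lit 1) (nat_lit 4) (nat_lit 245) (nat_lit 190) (nat_lit 165))) (XT.nd (nat_lit 78) (nat_lit 0) (nat_lit 0) (XT.lf (nat_lit 0) (nat_lit 406836174772) (nat_lit 152) (nat_lit 164767065548) (nat_lit 0) (nat_lit 402647984525) (nat_lit 1) (nat_lit 5) (nat_lit 3) (nat_lit 4) (nat_lit 1) (nat_lit 4) (nat_lit 246) (nat_lit 190) (nat_lit 164)) (XT.nd (nat_lit 78) (nat_lit 0) (nat_lit 0) (XT.lf (nat_lit 0) (nat_lit 469153188650) (nat_lit 152) (nat_lit 186121565915) (nat_lit 0) (nat_lit 464950176559) (nat_lit 1) (nat_lit 5) (nat_lit 3) (nat_lit 4) (nat_lit 1) (nat_lit 4) (nat_lit 247) (nat_lit 190) (nat_lit 163)) (XT.lf (nat_lit 0) (nat_lit 540805865379) (nat_lit 152) (nat_lit 210699869799) (nat_lit 0) (nat_lit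 536589964728) (nat_lit 1) (nat_lit 5) (nat_lit 3) (nat_lit 4) (nat_lit 1) (nat_lit 4) (nat_lit 248) (nat_lit 190) (nat_lit 162))))))))
noncomputable def xc12 : XT := (XT.nd (nat_lit 29250) (nat_lit 0) (nat_lit 0) (XT.nd (nat_lit 702) (nat_lit 0) (nat_lit 0) (XT.nd (nat_lit 312) (nat_lit 0) (nat_lit 0) (XT.nd (nat_lit 156) (nat_lit 0) (nat_lit 0) (XT.nd (nat_lit 78) (nat_lit 0) (nat_lit 0) (XT.lf (nat_lit 0) (nat_lit 623196105155) (nat_lit 152) (nat_lit 238982857058) (nat_lit 0) (nat_lit 618968997060) (nat_lit 1) (nat_lit 5) (nat_lit 3) (nat_lit 4) (nat_lit 1) (nat_lit 4) (nat_lit 249) (nat_lit 190) (nat_lit 161)) (XT.lf (nat_lit 0) (nat_lit 717935890930) (nat_lit 152) (nat_lit 271523890487) (nat_lit 0) (nat_lit 713699037232) (nat_lit 1) (nat_lit 5) (nat_lit 3) (nat_lit 4) (nat_lit 1) (nat_lit 4) (nat_lit 250) (nat_lit 190) (nat_lit 160))) (XT.nd (nat_lit 78) (nat_lit 0) (nat_lit 0)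 (XT.lf (nat_lit 0) (nat_lit 826878827209) (nat_lit 152) (nat_lit 308959642478) (nat_lit 0) (nat_lit 822633499073) (nat_lit 1) (nat_lit 5) (nat_lit 3) (nat_lit 4) (nat_lit 1) (nat_lit 4) (nat_lit 251) (nat_lit 190) (nat_lit 159)) (XT.lf (nat_lit 0) (nat_lit 952156406223) (nat_lit 152) (nat_lit 352022551658) (nat_lit 0) (nat_lit 947903709010) (nat_lit 1) (nat_lit 5) (nat_lit 3) (nat_lit 4) (nat_lit 1) (nat_lit 4) (nat_lit 252) (nat_lit 190) (nat_lit 158)))) (XT.nd (nat_lit 156) (nat_lit 0) (nat_lit 0) (XT.nd (nat_lit 78) (nat_lit 0) (nat_lit 0) (XT.lf (nat_lit 0) (nat_lit 1096219711039) (nat_lit 152) (nat_lit 401555153206) (nat_lit 0) (nat_lit 1091960605935) (nat_lit 1) (nat_lit 5) (nat_lit 3) (nat_lit 4) (nat_lit 1) (nat_lit 4) (nat_lit 253) (nat_lit 190) (nat_lit 157)) (XT.lf (nat_lit 0) (nat_lit 1261887371536) (nat_lit 152) (nat_lit 458526563239) (nat_lit 0) (nat_lit 1257622694351)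 (nat_lit 1) (nat_lit 5) (nat_lit 3) (nat_lit 4) (nat_lit 1) (nat_lit 4) (nat_lit 254) (nat_lit 190) (nat_lit 156))) (XT.nd (nat_lit 78) (nat_lit 0) (nat_lit 0) (XT.lf (nat_lit 0) (nat_lit 1452400711504) (nat_lit 152) (nat_lit 524051439780) (nat_lit 0) (nat_lit 1448131189032) (nat_lit 1) (nat_lit 5) (nat_lit 3) (nat_lit 4) (nat_lit 1) (nat_lit 4) (nat_lit 255) (nat_lit 190) (nat_lit 155)) (XT.nd (nat_lit 78) (nat_lit 0) (nat_lit 0) (XT.lf (nat_lit 0) (nat_lit 1671487165856) (nat_lit 152) (nat_lit 599411791283) (nat_lit 0) (nat_lit 1667213430091) (nat_lit 1) (nat_lit 5) (nat_lit 3) (nat_lit 4) (nat_lit 1) (nat_lit 4) (nat_lit 256) (nat_lit 190) (nat_lit 154)) (XT.lf (nat_lit 0) (nat_lit 1923433208700) (nat_lit 152) (nat_lit 686082059408) (nat_lit 0) (nat_lit 1919155809202) (nat_lit 1) (nat_lit 5) (nat_lit 3) (nat_lit 4) (nat_lit 1) (nat_lit 4) (nat_lit 257) (nat_lit 190) (nat_lit 153))))))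 (XT.nd (nat_lit 28158) (nat_lit 0) (nat_lit 152) (XT.nd (nat_lit 156) (nat_lit 0) (nat_lit 0) (XT.nd (nat_lit 78) (nat_lit 0) (nat_lit 0) (XT.lf (nat_lit 0) (nat_lit 2213168219135) (nat_lit 152) (nat_lit 785757966791) (nat_lit 0) (nat_lit 2208887633781) (nat_lit 1) (nat_lit 5) (nat_lit 3) (nat_lit 4) (nat_lit 1) (nat_lit 4) (nat_lit 258) (nat_lit 190) (nat_lit 152)) (XT.lf (nat_lit 0) (nat_lit 2546360925624) (nat_lit 152) (nat_lit 900389694230) (nat_lit 0) (nat_lit 2542077569962) (nat_lit 1) (nat_lit 5) (nat_lit 3) (nat_lit 4) (nat_lit 1) (nat_lit 4) (nat_lit 259) (nat_lit 190) (nat_lit 151))) (XT.nd (nat_lit 78) (nat_lit 0) (nat_lit 0) (XT.lf (nat_lit 0) (nat_lit 2929530315905) (nat_lit 152) (nat_lit 1032220036392) (nat_lit 0) (nat_lit 2925244551279) (nat_lit 1) (nat_lit 5) (nat_lit 3) (nat_lit 4) (nat_lit 1) (nat_lit 4) (nat_lit 260) (nat_lit 190) (nat_lit 150)) (XT.nd (nat_lit 78)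 (nat_lit 0) (nat_lit 0) (XT.lf (nat_lit 0) (nat_lit 3370173182395) (nat_lit 152) (nat_lit 1183828282580) (nat_lit 0) (nat_lit 3365885323018) (nat_lit 1) (nat_lit 5) (nat_lit 3) (nat_lit 4) (nat_lit 1) (nat_lit 4) (nat_lit 261) (nat_lit 190) (nat_lit 149)) (XT.lf (nat_lit 0) (nat_lit 3876910798570) (nat_lit 152) (nat_lit 1358180681089) (nat_lit 0) (nat_lit 3872621117670) (nat_lit 1) (nat_lit 5) (nat_lit 3) (nat_lit 4) (nat_lit 1) (nat_lit 4) (nat_lit 262) (nat_lit 190) (nat_lit 148))))) (XT.nd (nat_lit 156) (nat_lit 0) (nat_lit 0) (XT.nd (nat_lit 78) (nat_lit 76) (nat_lit 0) (XT.lf (nat_lit 0) (nat_lit 3610180828) (nat_lit 152) (nat_lit 3630599658) (nat_lit 0) (nat_lit 3610180828) (nat_lit 4) (nat_lit 5) (nat_lit 6) (nat_lit 4) (nat_lit 4) (nat_lit 4) (nat_lit 218) (nat_lit 191) (nat_lit 191)) (XT.lf (nat_lit 0) (nat_lit 531253298) (nat_lit 76) (nat_lit 12331657928) (nat_lit 76) (nat_lit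 11634762377) (nat_lit 3) (nat_lit 4) (nat_lit 4) (nat_lit 5) (nat_lit 4) (nat_lit 4) (nat_lit 219) (nat_lit 191) (nat_lit 190))) (XT.nd (nat_lit 78) (nat_lit 0) (nat_lit 0) (XT.lf (nat_lit 0) (nat_lit 9140159554) (nat_lit 76) (nat_lit 9949547994) (nat_lit 76) (nat_lit 8646656312) (nat_lit 3) (nat_lit 4) (nat_lit 4) (nat_lit 5) (nat_lit 4) (nat_lit 4) (nat_lit 220) (nat_lit 191) (nat_lit 189)) (XT.nd (nat_lit 78) (nat_lit 0) (nat_lit 0) (XT.lf (nat_lit 0) (nat_lit 18351592687) (nat_lit 76) (nat_lit 7487158730) (nat_lit 76) (nat_lit 5657313891) (nat_lit 3) (nat_lit 4) (nat_lit 4) (nat_lit 5) (nat_lit 4) (nat_lit 4) (nat_lit 221) (nat_lit 191) (nat_lit 188)) (XT.lf (nat_lit 0) (nat_lit 28345776388) (nat_lit 76) (nat_lit 4896312955) (nat_lit 76) (nat_lit 2608247979) (nat_lit 3) (nat_lit 4) (nat_lit 4) (nat_lit 5) (nat_lit 4) (nat_lit 4) (nat_lit 222) (nat_lit 191) (nat_lit 187))))))) (XT.nd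 (nat_lit 780) (nat_lit 0) (nat_lit 0) (XT.nd (nat_lit 390) (nat_lit 0) (nat_lit 0) (XT.nd (nat_lit 156) (nat_lit 0) (nat_lit 0) (XT.nd (nat_lit 78) (nat_lit 76) (nat_lit 0) (XT.lf (nat_lit 0) (nat_lit 532173735) (nat_lit 152) (nat_lit 1579595899) (nat_lit 76) (nat_lit 38771524725) (nat_lit 2) (nat_lit 5) (nat_lit 4) (nat_lit 5) (nat_lit 3) (nat_lit 4) (nat_lit 223) (nat_lit 191) (nat_lit 186)) (XT.lf (nat_lit 0) (nat_lit 3859848493) (nat_lit 152) (nat_lit 41766138599) (nat_lit 0) (nat_lit 1051517453) (nat_lit 1) (nat_lit 5) (nat_lit 3) (nat_lit 4) (nat_lit 1) (nat_lit 4) (nat_lit 224) (nat_lit 191) (nat_lit 185))) (XT.nd (nat_lit 78) (nat_lit 0) (nat_lit 0) (XT.lf (nat_lit 0) (nat_lit 7534924135) (nat_lit 152) (nat_lit 41371638236) (nat_lit 0) (nat_lit 4447623485) (nat_lit 1) (nat_lit 5) (nat_lit 3) (nat_lit 4) (nat_lit 1) (nat_lit 4) (nat_lit 225) (nat_lit 191) (nat_lit 184)) (XT.nd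 (nat_lit 78) (nat_lit 0) (nat_lit 0) (XT.lf (nat_lit 0) (nat_lit 11537487738) (nat_lit 152) (nat_lit 41306221781) (nat_lit 0) (nat_lit 8207604820) (nat_lit 1) (nat_lit 5) (nat_lit 3) (nat_lit 4) (nat_lit 1) (nat_lit 4) (nat_lit 226) (nat_lit 191) (nat_lit 183)) (XT.lf (nat_lit 0) (nat_lit 15945850331) (nat_lit 152) (nat_lit 41568609345) (nat_lit 0) (nat_lit 12405026309) (nat_lit 1) (nat_lit 5) (nat_lit 3) (nat_lit 4) (nat_lit 1) (nat_lit 4) (nat_lit 227) (nat_lit 191) (nat_lit 182))))) (XT.nd (nat_lit 156) (nat_lit 0) (nat_lit 0) (XT.nd (nat_lit 78) (nat_lit 0) (nat_lit 0) (XT.lf (nat_lit 0) (nat_lit 20846262485) (nat_lit 152) (nat_lit 42163934598) (nat_lit 0) (nat_lit 17122011417) (nat_lit 1) (nat_lit 5) (nat_lit 3) (nat_lit 4) (nat_lit 1) (nat_lit 4) (nat_lit 228) (nat_lit 191) (nat_lit 181)) (XT.lf (nat_lit 0) (nat_lit 26334601829) (nat_lit 152) (nat_lit 43103845209) (nat_lit 0)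 (nat_lit 22450848981) (nat_lit 1) (nat_lit 5) (nat_lit 3) (nat_lit 4) (nat_lit 1) (nat_lit 4) (nat_lit 229) (nat_lit 191) (nat_lit 180))) (XT.nd (nat_lit 78) (nat_lit 0) (nat_lit 0) (XT.lf (nat_lit 0) (nat_lit 32518248916) (nat_lit 152) (nat_lit 44406730733) (nat_lit 0) (nat_lit 28495798869) (nat_lit 1) (nat_lit 5) (nat_lit 3) (nat_lit 4) (nat_lit 1) (nat_lit 4) (nat_lit 230) (nat_lit 191) (nat_lit 179)) (XT.nd (nat_lit 78) (nat_lit 0) (nat_lit 0) (XT.lf (nat_lit 0) (nat_lit 39518188146) (nat_lit 152) (nat_lit 46098082409) (nat_lit 0) (nat_lit 35375131838) (nat_lit 1) (nat_lit 5) (nat_lit 3) (nat_lit 4) (nat_lit 1) (nat_lit 4) (nat_lit 231) (nat_lit 191) (nat_lit 178)) (XT.lf (nat_lit 0) (nat_lit 47471374851) (nat_lit 152) (nat_lit 48210991899) (nat_lit 0) (nat_lit 43223443534) (nat_lit 1) (nat_lit 5) (nat_lit 3) (nat_lit 4) (nat_lit 1) (nat_lit 4) (nat_lit 232) (nat_lit 191) (nat_lit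 177)))))) (XT.nd (nat_lit 390) (nat_lit 0) (nat_lit 0) (XT.nd (nat_lit 156) (nat_lit 0) (nat_lit 0) (XT.nd (nat_lit 78) (nat_lit 0) (nat_lit 0) (XT.lf (nat_lit 0) (nat_lit 56533414858) (nat_lit 152) (nat_lit 50786798738) (nat_lit 0) (nat_lit 52194287881) (nat_lit 1) (nat_lit 5) (nat_lit 3) (nat_lit 4) (nat_lit 1) (nat_lit 4) (nat_lit 233) (nat_lit 191) (nat_lit 176)) (XT.lf (nat_lit 0) (nat_lit 66881608950) (nat_lit 152) (nat_lit 53875899146) (nat_lit 0) (nat_lit 62463181399) (nat_lit 1) (nat_lit 5) (nat_lit 3) (nat_lit 4) (nat_lit 1) (nat_lit 4) (nat_lit 234) (nat_lit 191) (nat_lit 175))) (XT.nd (nat_lit 78) (nat_lit 0) (nat_lit 0) (XT.lf (nat_lit 0) (nat_lit 78718421793) (nat_lit 152) (nat_lit 57538732043) (nat_lit 0) (nat_lit 74231037221) (nat_lit 1) (nat_lit 5) (nat_lit 3) (nat_lit 4) (nat_lit 1) (nat_lit 4) (nat_lit 235) (nat_lit 191) (nat_lit 174)) (XT.nd (nat_lit 78) (nat_lit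 0) (nat_lit 0) (XT.lf (nat_lit 0) (nat_lit 92275443205) (nat_lit 152) (nat_lit 61846961553) (nat_lit 0) (nat_lit 87728096006) (nat_lit 1) (nat_lit 5) (nat_lit 3) (nat_lit 4) (nat_lit 1) (nat_lit 4) (nat_lit 236) (nat_lit 191) (nat_lit 173)) (XT.lf (nat_lit 0) (nat_lit 107817919256) (nat_lit 152) (nat_lit 66884879121) (nat_lit 0) (nat_lit 103218430643) (nat_lit 1) (nat_lit 5) (nat_lit 3) (nat_lit 4) (nat_lit 1) (nat_lit 4) (nat_lit 237) (nat_lit 191) (nat_lit 172))))) (XT.nd (nat_lit 156) (nat_lit 0) (nat_lit 0) (XT.nd (nat_lit 78) (nat_lit 0) (nat_lit 0) (XT.lf (nat_lit 0) (nat_lit 125649941869) (nat_lit 152) (nat_lit 72751052701) (nat_lit 0) (nat_lit 121005112895) (nat_lit 1) (nat_lit 5) (nat_lit 3) (nat_lit 4) (nat_lit 1) (nat_lit 4) (nat_lit 238) (nat_lit 191) (nat_lit 171)) (XT.lf (nat_lit 0) (nat_lit 146120398444) (nat_lit 152) (nat_lit 79560255253) (nat_lit 0) (nat_lit 141436143069)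 (nat_lit 1) (nat_lit 5) (nat_lit 3) (nat_lit 4) (nat_lit 1) (nat_lit 4) (nat_lit 239) (nat_lit 191) (nat_lit 170))) (XT.nd (nat_lit 78) (nat_lit 0) (nat_lit 0) (XT.lf (nat_lit 0) (nat_lit 169629797912) (nat_lit 152) (nat_lit 87445710307) (nat_lit 0) (nat_lit 164911258711) (nat_lit 1) (nat_lit 5) (nat_lit 3) (nat_lit 4) (nat_lit 1) (nat_lit 4) (nat_lit 240) (nat_lit 191) (nat_lit 169)) (XT.nd (nat_lit 78) (nat_lit 0) (nat_lit 0) (XT.lf (nat_lit 0) (nat_lit 196638106786) (nat_lit 152) (nat_lit 96561698503) (nat_lit 0) (nat_lit 191889755562) (nat_lit 1) (nat_lit 5) (nat_lit 3) (nat_lit 4) (nat_lit 1) (nat_lit 4) (nat_lit 241) (nat_lit 191) (nat_lit 168)) (XT.lf (nat_lit 0) (nat_lit 227673748500) (nat_lit 152) (nat_lit 107086576133) (nat_lit 0) (nat_lit 222899473777) (nat_lit 1) (nat_lit 5) (nat_lit 3) (nat_lit 4) (nat_lit 1) (nat_lit 4) (nat_lit 242) (nat_lit 191) (nat_lit 167))))))))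
noncomputable def xc13 : XT := (XT.nd (nat_lit 1482) (nat_lit 0) (nat_lit 0) (XT.nd (nat_lit 702) (nat_lit 0) (nat_lit 0) (XT.nd (nat_lit 312) (nat_lit 0) (nat_lit 0) (XT.nd (nat_lit 156) (nat_lit 0) (nat_lit 0) (XT.nd (nat_lit 78) (nat_lit 0) (nat_lit 0) (XT.lf (nat_lit 0) (nat_lit 263343942130) (nat_lit 152) (nat_lit 119226264716) (nat_lit 0) (nat_lit 258547125235) (nat_lit 1) (nat_lit 5) (nat_lit 3) (nat_lit 4) (nat_lit 1) (nat_lit 4) (nat_lit 243) (nat_lit 191) (nat_lit 166)) (XT.lf (nat_lit 0) (nat_lit 304346582770) (nat_lit 152) (nat_lit 133218279898) (nat_lit 0) (nat_lit 299530163986) (nat_lit 1) (nat_lit 5) (nat_lit 3) (nat_lit 4) (nat_lit 1) (nat_lit 4) (nat_lit 244) (nat_lit 191) (nat_lit 165))) (XT.nd (nat_lit 78) (nat_lit 0) (nat_lit 0) (XT.lf (nat_lit 0) (nat_lit 351483895998) (nat_lit 152) (nat_lit 149336378498) (nat_lit 0) (nat_lit 346650432093) (nat_lit 1) (nat_lit 5)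 (nat_lit 3) (nat_lit 4) (nat_lit 1) (nat_lit 4) (nat_lit 245) (nat_lit 191) (nat_lit 164)) (XT.lf (nat_lit 0) (nat_lit 405678133593) (nat_lit 152) (nat_lit 167895914619) (nat_lit 0) (nat_lit 400829847844) (nat_lit 1) (nat_lit 5) (nat_lit 3) (nat_lit 4) (nat_lit 1) (nat_lit 4) (nat_lit 246) (nat_lit 191) (nat_lit 163)))) (XT.nd (nat_lit 156) (nat_lit 0) (nat_lit 0) (XT.nd (nat_lit 78) (nat_lit 0) (nat_lit 0) (XT.lf (nat_lit 0) (nat_lit 467989617597) (nat_lit 152) (nat_lit 189260009619) (nat_lit 0) (nat_lit 463128443287) (nat_lit 1) (nat_lit 5) (nat_lit 3) (nat_lit 4) (nat_lit 1) (nat_lit 4) (nat_lit 247) (nat_lit 191) (nat_lit 162)) (XT.lf (nat_lit 0) (nat_lit 539637485738) (nat_lit 152) (nat_lit 213846656663) (nat_lit 0) (nat_lit 534765103985) (nat_lit 1) (nat_lit 5) (nat_lit 3) (nat_lit 4) (nat_lit 1) (nat_lit 4) (nat_lit 248) (nat_lit 191) (nat_lit 161))) (XT.nd (nat_lit 78) (nat_lit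 0) (nat_lit 0) (XT.lf (nat_lit 0) (nat_lit 622023544134) (nat_lit 152) (nat_lit 242136898843) (nat_lit 0) (nat_lit 617141416778) (nat_lit 1) (nat_lit 5) (nat_lit 3) (nat_lit 4) (nat_lit 1) (nat_lit 4) (nat_lit 249) (nat_lit 191) (nat_lit 160)) (XT.nd (nat_lit 78) (nat_lit 0) (nat_lit 0) (XT.lf (nat_lit 0) (nat_lit 716759693927) (nat_lit 152) (nat_lit 274684240899) (nat_lit 0) (nat_lit 711869092133) (nat_lit 1) (nat_lit 5) (nat_lit 3) (nat_lit 4) (nat_lit 1) (nat_lit 4) (nat_lit 250) (nat_lit 191) (nat_lit 159)) (XT.lf (nat_lit 0) (nat_lit 825699468481) (nat_lit 152) (nat_lit 312125478653) (nat_lit 0) (nat_lit 820801497611) (nat_lit 1) (nat_lit 5) (nat_lit 3) (nat_lit 4) (nat_lit 1) (nat_lit 4) (nat_lit 251) (nat_lit 191) (nat_lit 158)))))) (XT.nd (nat_lit 390) (nat_lit 0) (nat_lit 0) (XT.nd (nat_lit 156) (nat_lit 0) (nat_lit 0) (XT.nd (nat_lit 78) (nat_lit 0) (nat_lit 0) (XT.lf (nat_lit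 0) (nat_lit 950974298170) (nat_lit 152) (nat_lit 355193158061) (nat_lit 0) (nat_lit 946069919407) (nat_lit 1) (nat_lit 5) (nat_lit 3) (nat_lit 4) (nat_lit 1) (nat_lit 4) (nat_lit 252) (nat_lit 191) (nat_lit 157)) (XT.lf (nat_lit 0) (nat_lit 1095035212269) (nat_lit 152) (nat_lit 404729907634) (nat_lit 0) (nat_lit 1090125261426) (nat_lit 1) (nat_lit 5) (nat_lit 3) (nat_lit 4) (nat_lit 1) (nat_lit 4) (nat_lit 253) (nat_lit 191) (nat_lit 156))) (XT.nd (nat_lit 78) (nat_lit 0) (nat_lit 0) (XT.lf (nat_lit 0) (nat_lit 1260700793880) (nat_lit 152) (nat_lit 461704924645) (nat_lit 0) (nat_lit 1255785997750) (nat_lit 1) (nat_lit 5) (nat_lit 3) (nat_lit 4) (nat_lit 1) (nat_lit 4) (nat_lit 254) (nat_lit 191) (nat_lit 155)) (XT.nd (nat_lit 78) (nat_lit 0) (nat_lit 0) (XT.lf (nat_lit 0) (nat_lit 1451212326122) (nat_lit 152) (nat_lit 527232937689) (nat_lit 0) (nat_lit 1446293316699) (nat_lit 1) (nat_lit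 5) (nat_lit 3) (nat_lit 4) (nat_lit 1) (nat_lit 4) (nat_lit 255) (nat_lit 191) (nat_lit 154)) (XT.lf (nat_lit 0) (nat_lit 1670297208539) (nat_lit 152) (nat_lit 602596016585) (nat_lit 0) (nat_lit 1665374535383) (nat_lit 1) (nat_lit 5) (nat_lit 3) (nat_lit 4) (nat_lit 1) (nat_lit 4) (nat_lit 256) (nat_lit 191) (nat_lit 153))))) (XT.nd (nat_lit 156) (nat_lit 0) (nat_lit 0) (XT.nd (nat_lit 78) (nat_lit 0) (nat_lit 0) (XT.lf (nat_lit 0) (nat_lit 1922241884483) (nat_lit 152) (nat_lit 689268656356) (nat_lit 0) (nat_lit 1917316025471) (nat_lit 1) (nat_lit 5) (nat_lit 3) (nat_lit 4) (nat_lit 1) (nat_lit 4) (nat_lit 257) (nat_lit 191) (nat_lit 152)) (XT.lf (nat_lit 0) (nat_lit 2211975706308) (nat_lit 152) (nat_lit 788946626041) (nat_lit 0) (nat_lit 2207047076988) (nat_lit 1) (nat_lit 5) (nat_lit 3) (nat_lit 4) (nat_lit 1) (nat_lit 4) (nat_lit 258) (nat_lit 191) (nat_lit 151))) (XT.nd (nat_lit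 78) (nat_lit 0) (nat_lit 0) (XT.lf (nat_lit 0) (nat_lit 2545167379224) (nat_lit 152) (nat_lit 903580146786) (nat_lit 0) (nat_lit 2540236340940) (nat_lit 1) (nat_lit 5) (nat_lit 3) (nat_lit 4) (nat_lit 1) (nat_lit 4) (nat_lit 259) (nat_lit 191) (nat_lit 150)) (XT.nd (nat_lit 78) (nat_lit 0) (nat_lit 0) (XT.lf (nat_lit 0) (nat_lit 2928335870746) (nat_lit 152) (nat_lit 1035412048344) (nat_lit 0) (nat_lit 2923402737710) (nat_lit 1) (nat_lit 5) (nat_lit 3) (nat_lit 4) (nat_lit 1) (nat_lit 4) (nat_lit 260) (nat_lit 191) (nat_lit 149)) (XT.lf (nat_lit 0) (nat_lit 3368977955706) (nat_lit 152) (nat_lit 1187021650529) (nat_lit 0) (nat_lit 3364043001148) (nat_lit 1) (nat_lit 5) (nat_lit 3) (nat_lit 4) (nat_lit 1) (nat_lit 4) (nat_lit 261) (nat_lit 191) (nat_lit 148))))))) (XT.nd (nat_lit 28392) (nat_lit 0) (nat_lit 0) (XT.nd (nat_lit 28002) (nat_lit 0) (nat_lit 0) (XT.nd (nat_lit 27768) (nat_lit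 0) (nat_lit 228) (XT.nd (nat_lit 27690) (nat_lit 0) (nat_lit 380) (XT.lf (nat_lit 0) (nat_lit 3875714892290) (nat_lit 152) (nat_lit 1361375228165) (nat_lit 0) (nat_lit 3870778353799) (nat_lit 1) (nat_lit 5) (nat_lit 3) (nat_lit 4) (nat_lit 1) (nat_lit 4) (nat_lit 262) (nat_lit 191) (nat_lit 147)) (XT.lf (nat_lit 0) (nat_lit 6448680674) (nat_lit 76) (nat_lit 1083541528) (nat_lit 76) (nat_lit 1083541528) (nat_lit 6) (nat_lit 4) (nat_lit 7) (nat_lit 5) (nat_lit 7) (nat_lit 4) (nat_lit 216) (nat_lit 192) (nat_lit 192))) (XT.nd (nat_lit 78) (nat_lit 0) (nat_lit 0) (XT.lf (nat_lit 0) (nat_lit 2671849898) (nat_lit 152) (nat_lit 14766640839) (nat_lit 0) (nat_lit 1870420015) (nat_lit 4) (nat_lit 5) (nat_lit 6) (nat_lit 4) (nat_lit 4) (nat_lit 4) (nat_lit 217) (nat_lit 192) (nat_lit 191)) (XT.nd (nat_lit 78) (nat_lit 0) (nat_lit 0) (XT.lf (nat_lit 0) (nat_lit 7778693878) (nat_lit 152) (nat_lit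 7663701911) (nat_lit 0) (nat_lit 6280368444) (nat_lit 4) (nat_lit 5) (nat_lit 6) (nat_lit 4) (nat_lit 4) (nat_lit 4) (nat_lit 218) (nat_lit 192) (nat_lit 190)) (XT.lf (nat_lit 0) (nat_lit 13197077522) (nat_lit 152) (nat_lit 247826993) (nat_lit 0) (nat_lit 11092755958) (nat_lit 4) (nat_lit 5) (nat_lit 6) (nat_lit 4) (nat_lit 4) (nat_lit 4) (nat_lit 219) (nat_lit 192) (nat_lit 189))))) (XT.nd (nat_lit 156) (nat_lit 152) (nat_lit 0) (XT.nd (nat_lit 78) (nat_lit 0) (nat_lit 0) (XT.lf (nat_lit 0) (nat_lit 8027652824) (nat_lit 76) (nat_lit 11198425104) (nat_lit 76) (nat_lit 8567150382) (nat_lit 3) (nat_lit 4) (nat_lit 4) (nat_lit 5) (nat_lit 4) (nat_lit 4) (nat_lit 220) (nat_lit 192) (nat_lit 188)) (XT.lf (nat_lit 0) (nat_lit 16960497863) (nat_lit 76) (nat_lit 8848083225) (nat_lit 76) (nat_lit 5758588366) (nat_lit 3) (nat_lit 4) (nat_lit 4) (nat_lit 5) (nat_lit 4) (nat_lit 4) (nat_lit 221)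 (nat_lit 192) (nat_lit 187))) (XT.nd (nat_lit 78) (nat_lit 152) (nat_lit 0) (XT.lf (nat_lit 0) (nat_lit 26712431047) (nat_lit 76) (nat_lit 6354669959) (nat_lit 76) (nat_lit 2866722807) (nat_lit 3) (nat_lit 4) (nat_lit 4) (nat_lit 5) (nat_lit 4) (nat_lit 4) (nat_lit 222) (nat_lit 192) (nat_lit 186)) (XT.nd (nat_lit 78) (nat_lit 76) (nat_lit 0) (XT.lf (nat_lit 0) (nat_lit 156770991) (nat_lit 152) (nat_lit 3508343744) (nat_lit 76) (nat_lit 37313193681) (nat_lit 2) (nat_lit 5) (nat_lit 4) (nat_lit 5) (nat_lit 3) (nat_lit 4) (nat_lit 223) (nat_lit 192) (nat_lit 185)) (XT.lf (nat_lit 0) (nat_lit 2710135486) (nat_lit 76) (nat_lit 581138586) (nat_lit 152) (nat_lit 43497256205) (nat_lit 1) (nat_lit 5) (nat_lit 2) (nat_lit 5) (nat_lit 3) (nat_lit 4) (nat_lit 224) (nat_lit 192) (nat_lit 184)))))) (XT.nd (nat_lit 390) (nat_lit 0) (nat_lit 0) (XT.nd (nat_lit 156) (nat_lit 0) (nat_lit 0) (XT.nd (nat_lit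 78) (nat_lit 0) (nat_lit 0) (XT.lf (nat_lit 0) (nat_lit 6848292673) (nat_lit 152) (nat_lit 43850503595) (nat_lit 0) (nat_lit 2776345048) (nat_lit 1) (nat_lit 5) (nat_lit 3) (nat_lit 4) (nat_lit 1) (nat_lit 4) (nat_lit 225) (nat_lit 192) (nat_lit 183)) (XT.lf (nat_lit 0) (nat_lit 10760351369) (nat_lit 152) (nat_lit 43942118064) (nat_lit 0) (nat_lit 6477462640) (nat_lit 1) (nat_lit 5) (nat_lit 3) (nat_lit 4) (nat_lit 1) (nat_lit 4) (nat_lit 226) (nat_lit 192) (nat_lit 182))) (XT.nd (nat_lit 78) (nat_lit 0) (nat_lit 0) (XT.lf (nat_lit 0) (nat_lit 15090014041) (nat_lit 152) (nat_lit 44341054258) (nat_lit 0) (nat_lit 10623698267) (nat_lit 1) (nat_lit 5) (nat_lit 3) (nat_lit 4) (nat_lit 1) (nat_lit 4) (nat_lit 227) (nat_lit 192) (nat_lit 181)) (XT.nd (nat_lit 78) (nat_lit 0) (nat_lit 0) (XT.lf (nat_lit 0) (nat_lit 19921991483) (nat_lit 152) (nat_lit 45055117451) (nat_lit 0) (nat_lit 15296173928)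 (nat_lit 1) (nat_lit 5) (nat_lit 3) (nat_lit 4) (nat_lit 1) (nat_lit 4) (nat_lit 228) (nat_lit 192) (nat_lit 180)) (XT.lf (nat_lit 0) (nat_lit 25350822381) (nat_lit 152) (nat_lit 46098278444) (nat_lit 0) (nat_lit 20586307627) (nat_lit 1) (nat_lit 5) (nat_lit 3) (nat_lit 4) (nat_lit 1) (nat_lit 4) (nat_lit 229) (nat_lit 192) (nat_lit 179))))) (XT.nd (nat_lit 156) (nat_lit 0) (nat_lit 0) (XT.nd (nat_lit 78) (nat_lit 0) (nat_lit 0) (XT.lf (nat_lit 0) (nat_lit 31482722994) (nat_lit 152) (nat_lit 47490946909) (nat_lit 0) (nat_lit 26597601979) (nat_lit 1) (nat_lit 5) (nat_lit 3) (nat_lit 4) (nat_lit 1) (nat_lit 4) (nat_lit 230) (nat_lit 192) (nat_lit 178)) (XT.lf (nat_lit 0) (nat_lit 38437665289) (nat_lit 152) (nat_lit 49260370707) (nat_lit 0) (nat_lit 33447669265) (nat_lit 1) (nat_lit 5) (nat_lit 3) (nat_lit 4) (nat_lit 1) (nat_lit 4) (nat_lit 231) (nat_lit 192) (nat_lit 177))) (XT.nd (nat_lit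 78) (nat_lit 0) (nat_lit 0) (XT.lf (nat_lit 0) (nat_lit 46351724225) (nat_lit 152) (nat_lit 51441169000) (nat_lit 0) (nat_lit 41270532541) (nat_lit 1) (nat_lit 5) (nat_lit 3) (nat_lit 4) (nat_lit 1) (nat_lit 4) (nat_lit 232) (nat_lit 192) (nat_lit 176)) (XT.nd (nat_lit 78) (nat_lit 0) (nat_lit 0) (XT.lf (nat_lit 0) (nat_lit 55379740084) (nat_lit 152) (nat_lit 54076009580) (nat_lit 0) (nat_lit 50219247827) (nat_lit 1) (nat_lit 5) (nat_lit 3) (nat_lit 4) (nat_lit 1) (nat_lit 4) (nat_lit 233) (nat_lit 192) (nat_lit 175)) (XT.lf (nat_lit 0) (nat_lit 65698347961) (nat_lit 152) (nat_lit 57216443675) (nat_lit 0) (nat_lit 60468898683) (nat_lit 1) (nat_lit 5) (nat_lit 3) (nat_lit 4) (nat_lit 1) (nat_lit 4) (nat_lit 234) (nat_lit 192) (nat_lit 174))))))))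
noncomputable def xc14 : XT := (XT.nd (nat_lit 1482) (nat_lit 0) (nat_lit 0) (XT.nd (nat_lit 702) (nat_lit 0) (nat_lit 0) (XT.nd (nat_lit 312) (nat_lit 0) (nat_lit 0) (XT.nd (nat_lit 156) (nat_lit 0) (nat_lit 0) (XT.nd (nat_lit 78) (nat_lit 0) (nat_lit 0) (XT.lf (nat_lit 0) (nat_lit 77509433661) (nat_lit 152) (nat_lit 60923914562) (nat_lit 0) (nat_lit 72220021756) (nat_lit 1) (nat_lit 5) (nat_lit 3) (nat_lit 4) (nat_lit 1) (nat_lit 4) (nat_lit 235) (nat_lit 192) (nat_lit 173)) (XT.lf (nat_lit 0) (nat_lit 91044083644) (nat_lit 152) (nat_lit 65270959715) (nat_lit 0) (nat_lit 85702530324) (nat_lit 1) (nat_lit 5) (nat_lit 3) (nat_lit 4) (nat_lit 1) (nat_lit 4) (nat_lit 236) (nat_lit 192) (nat_lit 172))) (XT.nd (nat_lit 78) (nat_lit 0) (nat_lit 0) (XT.lf (nat_lit 0) (nat_lit 106567106279) (nat_lit 152) (nat_lit 70342630016) (nat_lit 0) (nat_lit 101180212598) (nat_lit 1) (nat_lit 5) (nat_lit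 3) (nat_lit 4) (nat_lit 1) (nat_lit 4) (nat_lit 237) (nat_lit 192) (nat_lit 171)) (XT.lf (nat_lit 0) (nat_lit 124382212878) (nat_lit 152) (nat_lit 76238153799) (nat_lit 0) (nat_lit 118955892796) (nat_lit 1) (nat_lit 5) (nat_lit 3) (nat_lit 4) (nat_lit 1) (nat_lit 4) (nat_lit 238) (nat_lit 192) (nat_lit 170)))) (XT.nd (nat_lit 156) (nat_lit 0) (nat_lit 0) (XT.nd (nat_lit 78) (nat_lit 0) (nat_lit 0) (XT.lf (nat_lit 0) (nat_lit 144837959874) (nat_lit 152) (nat_lit 83072878266) (nat_lit 0) (nat_lit 139377355966) (nat_lit 1) (nat_lit 5) (nat_lit 3) (nat_lit 4) (nat_lit 1) (nat_lit 4) (nat_lit 239) (nat_lit 192) (nat_lit 169)) (XT.lf (nat_lit 0) (nat_lit 168334568405) (nat_lit 152) (nat_lit 90980526289) (nat_lit 0) (nat_lit 162844152475) (nat_lit 1) (nat_lit 5) (nat_lit 3) (nat_lit 4) (nat_lit 1) (nat_lit 4) (nat_lit 240) (nat_lit 192) (nat_lit 168))) (XT.nd (nat_lit 78) (nat_lit 0) (nat_lit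 0) (XT.lf (nat_lit 0) (nat_lit 195331754725) (nat_lit 152) (nat_lit 100115812720) (nat_lit 0) (nat_lit 189815415296) (nat_lit 1) (nat_lit 5) (nat_lit 3) (nat_lit 4) (nat_lit 1) (nat_lit 4) (nat_lit 241) (nat_lit 192) (nat_lit 167)) (XT.nd (nat_lit 78) (nat_lit 0) (nat_lit 0) (XT.lf (nat_lit 0) (nat_lit 226357724653) (nat_lit 152) (nat_lit 110657471424) (nat_lit 0) (nat_lit 220818843051) (nat_lit 1) (nat_lit 5) (nat_lit 3) (nat_lit 4) (nat_lit 1) (nat_lit 4) (nat_lit 242) (nat_lit 192) (nat_lit 166)) (XT.lf (nat_lit 0) (nat_lit 262019508034) (nat_lit 152) (nat_lit 122811752245) (nat_lit 0) (nat_lit 256461024544) (nat_lit 1) (nat_lit 5) (nat_lit 3) (nat_lit 4) (nat_lit 1) (nat_lit 4) (nat_lit 243) (nat_lit 192) (nat_lit 165)))))) (XT.nd (nat_lit 390) (nat_lit 0) (nat_lit 0) (XT.nd (nat_lit 156) (nat_lit 0) (nat_lit 0) (XT.nd (nat_lit 78) (nat_lit 0) (nat_lit 0) (XT.lf (nat_lit 0) (nat_lit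 303014835415) (nat_lit 152) (nat_lit 136816456330) (nat_lit 0) (nat_lit 297439306803) (nat_lit 1) (nat_lit 5) (nat_lit 3) (nat_lit 4) (nat_lit 1) (nat_lit 4) (nat_lit 244) (nat_lit 192) (nat_lit 164)) (XT.lf (nat_lit 0) (nat_lit 350145789286) (nat_lit 152) (nat_lit 152945588758) (nat_lit 0) (nat_lit 344555438830) (nat_lit 1) (nat_lit 5) (nat_lit 3) (nat_lit 4) (nat_lit 1) (nat_lit 4) (nat_lit 245) (nat_lit 192) (nat_lit 163))) (XT.nd (nat_lit 78) (nat_lit 0) (nat_lit 0) (XT.lf (nat_lit 0) (nat_lit 404334497006) (nat_lit 152) (nat_lit 171514719512) (nat_lit 0) (nat_lit 398731257990) (nat_lit 1) (nat_lit 5) (nat_lit 3) (nat_lit 4) (nat_lit 1) (nat_lit 4) (nat_lit 246) (nat_lit 192) (nat_lit 162)) (XT.nd (nat_lit 78) (nat_lit 0) (nat_lit 0) (XT.lf (nat_lit 0) (nat_lit 466641172422) (nat_lit 152) (nat_lit 192887157672) (nat_lit 0) (nat_lit 461026725963) (nat_lit 1) (nat_lit 5) (nat_lit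 3) (nat_lit 4) (nat_lit 1) (nat_lit 4) (nat_lit 247) (nat_lit 192) (nat_lit 161)) (XT.lf (nat_lit 0) (nat_lit 538284859184) (nat_lit 152) (nat_lit 217481059636) (nat_lit 0) (nat_lit 532660667121) (nat_lit 1) (nat_lit 5) (nat_lit 3) (nat_lit 4) (nat_lit 1) (nat_lit 4) (nat_lit 248) (nat_lit 192) (nat_lit 160))))) (XT.nd (nat_lit 156) (nat_lit 0) (nat_lit 0) (XT.nd (nat_lit 78) (nat_lit 0) (nat_lit 0) (XT.lf (nat_lit 0) (nat_lit 620667281597) (nat_lit 152) (nat_lit 245777610444) (nat_lit 0) (nat_lit 615034615097) (nat_lit 1) (nat_lit 5) (nat_lit 3) (nat_lit 4) (nat_lit 1) (nat_lit 4) (nat_lit 249) (nat_lit 192) (nat_lit 159)) (XT.lf (nat_lit 0) (nat_lit 715400269666) (nat_lit 152) (nat_lit 278330438262) (nat_lit 0) (nat_lit 709760234089) (nat_lit 1) (nat_lit 5) (nat_lit 3) (nat_lit 4) (nat_lit 1) (nat_lit 4) (nat_lit 250) (nat_lit 192) (nat_lit 158))) (XT.nd (nat_lit 78) (nat_lit 0) (nat_lit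 0) (XT.lf (nat_lit 0) (nat_lit 824337294895) (nat_lit 152) (nat_lit 315776446245) (nat_lit 0) (nat_lit 818690851426) (nat_lit 1) (nat_lit 5) (nat_lit 3) (nat_lit 4) (nat_lit 1) (nat_lit 4) (nat_lit 251) (nat_lit 192) (nat_lit 157)) (XT.nd (nat_lit 78) (nat_lit 0) (nat_lit 0) (XT.lf (nat_lit 0) (nat_lit 949609733866) (nat_lit 152) (nat_lit 358848273678) (nat_lit 0) (nat_lit 943957718317) (nat_lit 1) (nat_lit 5) (nat_lit 3) (nat_lit 4) (nat_lit 1) (nat_lit 4) (nat_lit 252) (nat_lit 192) (nat_lit 156)) (XT.lf (nat_lit 0) (nat_lit 1093668569080) (nat_lit 152) (nat_lit 408388630228) (nat_lit 0) (nat_lit 1088011708244) (nat_lit 1) (nat_lit 5) (nat_lit 3) (nat_lit 4) (nat_lit 1) (nat_lit 4) (nat_lit 253) (nat_lit 192) (nat_lit 155))))))) (XT.nd (nat_lit 28314) (nat_lit 0) (nat_lit 0) (XT.nd (nat_lit 390) (nat_lit 0) (nat_lit 0) (XT.nd (nat_lit 156) (nat_lit 0) (nat_lit 0) (XT.nd (nat_lit 78)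 (nat_lit 0) (nat_lit 0) (XT.lf (nat_lit 0) (nat_lit 1259332342966) (nat_lit 152) (nat_lit 465366783742) (nat_lit 0) (nat_lit 1253671268836) (nat_lit 1) (nat_lit 5) (nat_lit 3) (nat_lit 4) (nat_lit 1) (nat_lit 4) (nat_lit 254) (nat_lit 192) (nat_lit 154)) (XT.lf (nat_lit 0) (nat_lit 1449842303272) (nat_lit 152) (nat_lit 530897524180) (nat_lit 0) (nat_lit 1444177565409) (nat_lit 1) (nat_lit 5) (nat_lit 3) (nat_lit 4) (nat_lit 1) (nat_lit 4) (nat_lit 255) (nat_lit 192) (nat_lit 153))) (XT.nd (nat_lit 78) (nat_lit 0) (nat_lit 0) (XT.lf (nat_lit 0) (nat_lit 1668925818789) (nat_lit 152) (nat_lit 606262974723) (nat_lit 0) (nat_lit 1663257895071) (nat_lit 1) (nat_lit 5) (nat_lit 3) (nat_lit 4) (nat_lit 1) (nat_lit 4) (nat_lit 256) (nat_lit 192) (nat_lit 152)) (XT.nd (nat_lit 78) (nat_lit 0) (nat_lit 0) (XT.lf (nat_lit 0) (nat_lit 1920869306123) (nat_lit 152) (nat_lit 692937676796) (nat_lit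 0) (nat_lit 1915198612096) (nat_lit 1) (nat_lit 5) (nat_lit 3) (nat_lit 4) (nat_lit 1) (nat_lit 4) (nat_lit 257) (nat_lit 192) (nat_lit 151)) (XT.lf (nat_lit 0) (nat_lit 2210602094375) (nat_lit 152) (nat_lit 792617439786) (nat_lit 0) (nat_lit 2204928991384) (nat_lit 1) (nat_lit 5) (nat_lit 3) (nat_lit 4) (nat_lit 1) (nat_lit 4) (nat_lit 258) (nat_lit 192) (nat_lit 150))))) (XT.nd (nat_lit 156) (nat_lit 0) (nat_lit 0) (XT.nd (nat_lit 78) (nat_lit 0) (nat_lit 0) (XT.lf (nat_lit 0) (nat_lit 2543792868532) (nat_lit 152) (nat_lit 907252519927) (nat_lit 0) (nat_lit 2538117670790) (nat_lit 1) (nat_lit 5) (nat_lit 3) (nat_lit 4) (nat_lit 1) (nat_lit 4) (nat_lit 259) (nat_lit 192) (nat_lit 149)) (XT.lf (nat_lit 0) (nat_lit 2926960578524) (nat_lit 152) (nat_lit 1039085777482) (nat_lit 0) (nat_lit 2921283559258) (nat_lit 1) (nat_lit 5) (nat_lit 3) (nat_lit 4) (nat_lit 1) (nat_lit 4) (nat_lit 260)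 (nat_lit 192) (nat_lit 148))) (XT.nd (nat_lit 27612) (nat_lit 0) (nat_lit 380) (XT.lf (nat_lit 0) (nat_lit 3367601983893) (nat_lit 152) (nat_lit 1190696558794) (nat_lit 0) (nat_lit 3361923380695) (nat_lit 1) (nat_lit 5) (nat_lit 3) (nat_lit 4) (nat_lit 1) (nat_lit 4) (nat_lit 261) (nat_lit 192) (nat_lit 147)) (XT.nd (nat_lit 78) (nat_lit 76) (nat_lit 0) (XT.lf (nat_lit 0) (nat_lit 1916644172) (nat_lit 152) (nat_lit 3123160934) (nat_lit 0) (nat_lit 1916644172) (nat_lit 7) (nat_lit 5) (nat_lit 9) (nat_lit 4) (nat_lit 7) (nat_lit 4) (nat_lit 214) (nat_lit 193) (nat_lit 193)) (XT.lf (nat_lit 0) (nat_lit 2698700922) (nat_lit 76) (nat_lit 6873992147) (nat_lit 76) (nat_lit 5878616232) (nat_lit 6) (nat_lit 4) (nat_lit 7) (nat_lit 5) (nat_lit 7) (nat_lit 4) (nat_lit 215) (nat_lit 193) (nat_lit 192)))))) (XT.nd (nat_lit 390) (nat_lit 152) (nat_lit 0) (XT.nd (nat_lit 156) (nat_lit 76) (nat_lit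 0) (XT.nd (nat_lit 78) (nat_lit 152) (nat_lit 0) (XT.lf (nat_lit 0) (nat_lit 12491818686) (nat_lit 76) (nat_lit 3311442396) (nat_lit 76) (nat_lit 1450522207) (nat_lit 6) (nat_lit 4) (nat_lit 7) (nat_lit 5) (nat_lit 7) (nat_lit 4) (nat_lit 216) (nat_lit 193) (nat_lit 191)) (XT.lf (nat_lit 0) (nat_lit 3070834292) (nat_lit 152) (nat_lit 15632021416) (nat_lit 0) (nat_lit 650864493) (nat_lit 4) (nat_lit 5) (nat_lit 6) (nat_lit 4) (nat_lit 4) (nat_lit 4) (nat_lit 217) (nat_lit 193) (nat_lit 190))) (XT.nd (nat_lit 78) (nat_lit 76) (nat_lit 0) (XT.lf (nat_lit 0) (nat_lit 7966289001) (nat_lit 152) (nat_lit 8879084744) (nat_lit 0) (nat_lit 4940323070) (nat_lit 4) (nat_lit 5) (nat_lit 6) (nat_lit 4) (nat_lit 4) (nat_lit 4) (nat_lit 218) (nat_lit 193) (nat_lit 189)) (XT.nd (nat_lit 78) (nat_lit 76) (nat_lit 0) (XT.lf (nat_lit 0) (nat_lit 13200855888) (nat_lit 152) (nat_lit 1767559614) (nat_lit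 0) (nat_lit 9647936800) (nat_lit 4) (nat_lit 5) (nat_lit 6) (nat_lit 4) (nat_lit 4) (nat_lit 4) (nat_lit 219) (nat_lit 193) (nat_lit 188)) (XT.lf (nat_lit 0) (nat_lit 6149305683) (nat_lit 76) (nat_lit 12875535659) (nat_lit 76) (nat_lit 8864396434) (nat_lit 3) (nat_lit 4) (nat_lit 4) (nat_lit 5) (nat_lit 4) (nat_lit 4) (nat_lit 220) (nat_lit 193) (nat_lit 187))))) (XT.nd (nat_lit 156) (nat_lit 152) (nat_lit 0) (XT.nd (nat_lit 78) (nat_lit 0) (nat_lit 0) (XT.lf (nat_lit 0) (nat_lit 14839900205) (nat_lit 76) (nat_lit 10622626289) (nat_lit 76) (nat_lit 6213034771) (nat_lit 3) (nat_lit 4) (nat_lit 4) (nat_lit 5) (nat_lit 4) (nat_lit 4) (nat_lit 221) (nat_lit 193) (nat_lit 186)) (XT.lf (nat_lit 0) (nat_lit 24381180766) (nat_lit 76) (nat_lit 8213936943) (nat_lit 76) (nat_lit 3457865171) (nat_lit 3) (nat_lit 4) (nat_lit 4) (nat_lit 5) (nat_lit 4) (nat_lit 4) (nat_lit 222) (nat_lit 193) (nat_lit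 185))) (XT.nd (nat_lit 78) (nat_lit 152) (nat_lit 0) (XT.lf (nat_lit 0) (nat_lit 34959824595) (nat_lit 76) (nat_lit 5602341091) (nat_lit 76) (nat_lit 544982141) (nat_lit 3) (nat_lit 4) (nat_lit 4) (nat_lit 5) (nat_lit 4) (nat_lit 4) (nat_lit 223) (nat_lit 193) (nat_lit 184)) (XT.nd (nat_lit 78) (nat_lit 76) (nat_lit 0) (XT.lf (nat_lit 0) (nat_lit 2453413121) (nat_lit 152) (nat_lit 216248508) (nat_lit 76) (nat_lit 44262311372) (nat_lit 2) (nat_lit 5) (nat_lit 4) (nat_lit 5) (nat_lit 3) (nat_lit 4) (nat_lit 224) (nat_lit 193) (nat_lit 183)) (XT.lf (nat_lit 0) (nat_lit 5864080940) (nat_lit 152) (nat_lit 47038815246) (nat_lit 0) (nat_lit 727817799) (nat_lit 1) (nat_lit 5) (nat_lit 3) (nat_lit 4) (nat_lit 1) (nat_lit 4) (nat_lit 225) (nat_lit 193) (nat_lit 182))))))))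
noncomputable def xc15 : XT := (XT.nd (nat_lit 1560) (nat_lit 0) (nat_lit 0) (XT.nd (nat_lit 780) (nat_lit 0) (nat_lit 0) (XT.nd (nat_lit 390) (nat_lit 0) (nat_lit 0) (XT.nd (nat_lit 156) (nat_lit 0) (nat_lit 0) (XT.nd (nat_lit 78) (nat_lit 0) (nat_lit 0) (XT.lf (nat_lit 0) (nat_lit 9697439716) (nat_lit 152) (nat_lit 47266978345) (nat_lit 0) (nat_lit 4377749529) (nat_lit 1) (nat_lit 5) (nat_lit 3) (nat_lit 4) (nat_lit 1) (nat_lit 4) (nat_lit 226) (nat_lit 193) (nat_lit 181)) (XT.lf (nat_lit 0) (nat_lit 13958667676) (nat_lit 152) (nat_lit 47784652479) (nat_lit 0) (nat_lit 8479475709) (nat_lit 1) (nat_lit 5) (nat_lit 3) (nat_lit 4) (nat_lit 1) (nat_lit 4) (nat_lit 227) (nat_lit 193) (nat_lit 180))) (XT.nd (nat_lit 78) (nat_lit 0) (nat_lit 0) (XT.lf (nat_lit 0) (nat_lit 18731136671) (nat_lit 152) (nat_lit 48601966053) (nat_lit 0) (nat_lit 13113247505) (nat_lit 1) (nat_lit 5) (nat_lit 3)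 (nat_lit 4) (nat_lit 1) (nat_lit 4) (nat_lit 228) (nat_lit 193) (nat_lit 179)) (XT.nd (nat_lit 78) (nat_lit 0) (nat_lit 0) (XT.lf (nat_lit 0) (nat_lit 24108221095) (nat_lit 152) (nat_lit 49734909987) (nat_lit 0) (nat_lit 18369725668) (nat_lit 1) (nat_lit 5) (nat_lit 3) (nat_lit 4) (nat_lit 1) (nat_lit 4) (nat_lit 229) (nat_lit 193) (nat_lit 178)) (XT.lf (nat_lit 0) (nat_lit 30195124773) (nat_lit 152) (nat_lit 51205650575) (nat_lit 0) (nat_lit 24351754337) (nat_lit 1) (nat_lit 5) (nat_lit 3) (nat_lit 4) (nat_lit 1) (nat_lit 4) (nat_lit 230) (nat_lit 193) (nat_lit 177))))) (XT.nd (nat_lit 156) (nat_lit 0) (nat_lit 0) (XT.nd (nat_lit 78) (nat_lit 0) (nat_lit 0) (XT.lf (nat_lit 0) (nat_lit 37110939299) (nat_lit 152) (nat_lit 53042963175) (nat_lit 0) (nat_lit 31176373203) (nat_lit 1) (nat_lit 5) (nat_lit 3) (nat_lit 4) (nat_lit 1) (nat_lit 4) (nat_lit 231) (nat_lit 193) (nat_lit 176)) (XT.lf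 (nat_lit 0) (nat_lit 44990974088) (nat_lit 152) (nat_lit 55282795209) (nat_lit 0) (nat_lit 38977107417) (nat_lit 1) (nat_lit 5) (nat_lit 3) (nat_lit 4) (nat_lit 1) (nat_lit 4) (nat_lit 232) (nat_lit 193) (nat_lit 175))) (XT.nd (nat_lit 78) (nat_lit 0) (nat_lit 0) (XT.lf (nat_lit 0) (nat_lit 53989403733) (nat_lit 152) (nat_lit 57968969476) (nat_lit 0) (nat_lit 47906580041) (nat_lit 1) (nat_lit 5) (nat_lit 3) (nat_lit 4) (nat_lit 1) (nat_lit 4) (nat_lit 233) (nat_lit 193) (nat_lit 174)) (XT.nd (nat_lit 78) (nat_lit 0) (nat_lit 0) (XT.lf (nat_lit 0) (nat_lit 64282284466) (nat_lit 152) (nat_lit 61154041561) (nat_lit 0) (nat_lit 58139498148) (nat_lit 1) (nat_lit 5) (nat_lit 3) (nat_lit 4) (nat_lit 1) (nat_lit 4) (nat_lit 234) (nat_lit 193) (nat_lit 173)) (XT.lf (nat_lit 0) (nat_lit 76070998737) (nat_lit 152) (nat_lit 64900328091) (nat_lit 0) (nat_lit 69876071004) (nat_lit 1) (nat_lit 5)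 (nat_lit 3) (nat_lit 4) (nat_lit 1) (nat_lit 4) (nat_lit 235) (nat_lit 193) (nat_lit 172)))))) (XT.nd (nat_lit 390) (nat_lit 0) (nat_lit 0) (XT.nd (nat_lit 156) (nat_lit 0) (nat_lit 0) (XT.nd (nat_lit 78) (nat_lit 0) (nat_lit 0) (XT.lf (nat_lit 0) (nat_lit 89586195303) (nat_lit 152) (nat_lit 69281125977) (nat_lit 0) (nat_lit 83345927210) (nat_lit 1) (nat_lit 5) (nat_lit 3) (nat_lit 4) (nat_lit 1) (nat_lit 4) (nat_lit 236) (nat_lit 193) (nat_lit 171)) (XT.lf (nat_lit 0) (nat_lit 105092301924) (nat_lit 152) (nat_lit 74382146481) (nat_lit 0) (nat_lit 98812607430) (nat_lit 1) (nat_lit 5) (nat_lit 3) (nat_lit 4) (nat_lit 1) (nat_lit 4) (nat_lit 237) (nat_lit 193) (nat_lit 170))) (XT.nd (nat_lit 78) (nat_lit 0) (nat_lit 0) (XT.lf (nat_lit 0) (nat_lit 122892698945) (nat_lit 152) (nat_lit 80303192179) (nat_lit 0) (nat_lit 116578720624) (nat_lit 1) (nat_lit 5) (nat_lit 3) (nat_lit 4) (nat_lit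 1) (nat_lit 4) (nat_lit 238) (nat_lit 193) (nat_lit 169)) (XT.nd (nat_lit 78) (nat_lit 0) (nat_lit 0) (XT.lf (nat_lit 0) (nat_lit 143335655004) (nat_lit 152) (nat_lit 87160109616) (nat_lit 0) (nat_lit 136991864661) (nat_lit 1) (nat_lit 5) (nat_lit 3) (nat_lit 4) (nat_lit 1) (nat_lit 4) (nat_lit 239) (nat_lit 193) (nat_lit 168)) (XT.lf (nat_lit 0) (nat_lit 166821140981) (nat_lit 152) (nat_lit 95087055874) (nat_lit 0) (nat_lit 160451427140) (nat_lit 1) (nat_lit 5) (nat_lit 3) (nat_lit 4) (nat_lit 1) (nat_lit 4) (nat_lit 240) (nat_lit 193) (nat_lit 167))))) (XT.nd (nat_lit 156) (nat_lit 0) (nat_lit 0) (XT.nd (nat_lit 78) (nat_lit 0) (nat_lit 0) (XT.lf (nat_lit 0) (nat_lit 193808655515) (nat_lit 152) (nat_lit 104239123379) (nat_lit 0) (nat_lit 187416399501) (nat_lit 1) (nat_lit 5) (nat_lit 3) (nat_lit 4) (nat_lit 1) (nat_lit 4) (nat_lit 241) (nat_lit 193) (nat_lit 166)) (XT.lf (nat_lit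 0) (nat_lit 224826215194) (nat_lit 152) (nat_lit 114795374320) (nat_lit 0) (nat_lit 218414357290) (nat_lit 1) (nat_lit 5) (nat_lit 3) (nat_lit 4) (nat_lit 1) (nat_lit 4) (nat_lit 242) (nat_lit 193) (nat_lit 165))) (XT.nd (nat_lit 78) (nat_lit 0) (nat_lit 0) (XT.lf (nat_lit 0) (nat_lit 260480685316) (nat_lit 152) (nat_lit 126962344044) (nat_lit 0) (nat_lit 254051782291) (nat_lit 1) (nat_lit 5) (nat_lit 3) (nat_lit 4) (nat_lit 1) (nat_lit 4) (nat_lit 243) (nat_lit 193) (nat_lit 164)) (XT.nd (nat_lit 78) (nat_lit 0) (nat_lit 0) (XT.lf (nat_lit 0) (nat_lit 301469653340) (nat_lit 152) (nat_lit 140978081957) (nat_lit 0) (nat_lit 295025928471) (nat_lit 1) (nat_lit 5) (nat_lit 3) (nat_lit 4) (nat_lit 1) (nat_lit 4) (nat_lit 244) (nat_lit 193) (nat_lit 163)) (XT.lf (nat_lit 0) (nat_lit 348595077336) (nat_lit 152) (nat_lit 157116809018) (nat_lit 0) (nat_lit 342138463907) (nat_lit 1) (nat_lit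 5) (nat_lit 3) (nat_lit 4) (nat_lit 1) (nat_lit 4) (nat_lit 245) (nat_lit 193) (nat_lit 162))))))) (XT.nd (nat_lit 780) (nat_lit 0) (nat_lit 0) (XT.nd (nat_lit 390) (nat_lit 0) (nat_lit 0) (XT.nd (nat_lit 156) (nat_lit 0) (nat_lit 0) (XT.nd (nat_lit 78) (nat_lit 0) (nat_lit 0) (XT.lf (nat_lit 0) (nat_lit 402778976469) (nat_lit 152) (nat_lit 175694282932) (nat_lit 0) (nat_lit 396311155596) (nat_lit 1) (nat_lit 5) (nat_lit 3) (nat_lit 4) (nat_lit 1) (nat_lit 4) (nat_lit 246) (nat_lit 193) (nat_lit 161)) (XT.lf (nat_lit 0) (nat_lit 465081470505) (nat_lit 152) (nat_lit 197073976013) (nat_lit 0) (nat_lit 458603904029) (nat_lit 1) (nat_lit 5) (nat_lit 3) (nat_lit 4) (nat_lit 1) (nat_lit 4) (nat_lit 247) (nat_lit 193) (nat_lit 160))) (XT.nd (nat_lit 78) (nat_lit 0) (nat_lit 0) (XT.lf (nat_lit 0) (nat_lit 536721521284) (nat_lit 152) (nat_lit 221674186604) (nat_lit 0) (nat_lit 530235480371)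 (nat_lit 1) (nat_lit 5) (nat_lit 3) (nat_lit 4) (nat_lit 1) (nat_lit 4) (nat_lit 248) (nat_lit 193) (nat_lit 159)) (XT.nd (nat_lit 78) (nat_lit 0) (nat_lit 0) (XT.lf (nat_lit 0) (nat_lit 619100781973) (nat_lit 152) (nat_lit 249976223175) (nat_lit 0) (nat_lit 612607371984) (nat_lit 1) (nat_lit 5) (nat_lit 3) (nat_lit 4) (nat_lit 1) (nat_lit 4) (nat_lit 249) (nat_lit 193) (nat_lit 158)) (XT.lf (nat_lit 0) (nat_lit 713831020716) (nat_lit 152) (nat_lit 282533821222) (nat_lit 0) (nat_lit 707331202835) (nat_lit 1) (nat_lit 5) (nat_lit 3) (nat_lit 4) (nat_lit 1) (nat_lit 4) (nat_lit 250) (nat_lit 193) (nat_lit 157))))) (XT.nd (nat_lit 156) (nat_lit 0) (nat_lit 0) (XT.nd (nat_lit 78) (nat_lit 0) (nat_lit 0) (XT.lf (nat_lit 0) (nat_lit 822765655228) (nat_lit 152) (nat_lit 319983977229) (nat_lit 0) (nat_lit 816260265266) (nat_lit 1) (nat_lit 5) (nat_lit 3) (nat_lit 4) (nat_lit 1) (nat_lit 4)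 (nat_lit 251) (nat_lit 193) (nat_lit 156)) (XT.lf (nat_lit 0) (nat_lit 948036015314) (nat_lit 152) (nat_lit 363059411640) (nat_lit 0) (nat_lit 941525780065) (nat_lit 1) (nat_lit 5) (nat_lit 3) (nat_lit 4) (nat_lit 1) (nat_lit 4) (nat_lit 252) (nat_lit 193) (nat_lit 155))) (XT.nd (nat_lit 78) (nat_lit 0) (nat_lit 0) (XT.lf (nat_lit 0) (nat_lit 1092093042803) (nat_lit 152) (nat_lit 412602904693) (nat_lit 0) (nat_lit 1085578594260) (nat_lit 1) (nat_lit 5) (nat_lit 3) (nat_lit 4) (nat_lit 1) (nat_lit 4) (nat_lit 253) (nat_lit 193) (nat_lit 154)) (XT.nd (nat_lit 78) (nat_lit 0) (nat_lit 0) (XT.lf (nat_lit 0) (nat_lit 1257755244752) (nat_lit 152) (nat_lit 469583785601) (nat_lit 0) (nat_lit 1251237132477) (nat_lit 1) (nat_lit 5) (nat_lit 3) (nat_lit 4) (nat_lit 1) (nat_lit 4) (nat_lit 254) (nat_lit 193) (nat_lit 153)) (XT.lf (nat_lit 0) (nat_lit 1448263838158) (nat_lit 152) (nat_lit 535116897685)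 (nat_lit 0) (nat_lit 1441742540028) (nat_lit 1) (nat_lit 5) (nat_lit 3) (nat_lit 4) (nat_lit 1) (nat_lit 4) (nat_lit 255) (nat_lit 193) (nat_lit 152)))))) (XT.nd (nat_lit 390) (nat_lit 0) (nat_lit 0) (XT.nd (nat_lit 156) (nat_lit 0) (nat_lit 0) (XT.nd (nat_lit 78) (nat_lit 0) (nat_lit 0) (XT.lf (nat_lit 0) (nat_lit 1667346165066) (nat_lit 152) (nat_lit 610484410529) (nat_lit 0) (nat_lit 1660822096626) (nat_lit 1) (nat_lit 5) (nat_lit 3) (nat_lit 4) (nat_lit 1) (nat_lit 4) (nat_lit 256) (nat_lit 193) (nat_lit 151)) (XT.lf (nat_lit 0) (nat_lit 1919288618827) (nat_lit 152) (nat_lit 697160905907) (nat_lit 0) (nat_lit 1912762141423) (nat_lit 1) (nat_lit 5) (nat_lit 3) (nat_lit 4) (nat_lit 1) (nat_lit 4) (nat_lit 257) (nat_lit 193) (nat_lit 150))) (XT.nd (nat_lit 78) (nat_lit 0) (nat_lit 0) (XT.lf (nat_lit 0) (nat_lit 2209020508319) (nat_lit 152) (nat_lit 796842228294) (nat_lit 0) (nat_lit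 2202491936164) (nat_lit 1) (nat_lit 5) (nat_lit 3) (nat_lit 4) (nat_lit 1) (nat_lit 4) (nat_lit 258) (nat_lit 193) (nat_lit 149)) (XT.nd (nat_lit 78) (nat_lit 0) (nat_lit 0) (XT.lf (nat_lit 0) (nat_lit 2542210500947) (nat_lit 152) (nat_lit 911478664432) (nat_lit 0) (nat_lit 2535680107269) (nat_lit 1) (nat_lit 5) (nat_lit 3) (nat_lit 4) (nat_lit 1) (nat_lit 4) (nat_lit 259) (nat_lit 193) (nat_lit 148)) (XT.lf (nat_lit 0) (nat_lit 2925377531347) (nat_lit 152) (nat_lit 1043313101114) (nat_lit 0) (nat_lit 2918845553736) (nat_lit 1) (nat_lit 5) (nat_lit 3) (nat_lit 4) (nat_lit 1) (nat_lit 4) (nat_lit 260) (nat_lit 193) (nat_lit 147))))) (XT.nd (nat_lit 27534) (nat_lit 0) (nat_lit 380) (XT.nd (nat_lit 27456) (nat_lit 0) (nat_lit 608) (XT.lf (nat_lit 0) (nat_lit 3366018345768) (nat_lit 152) (nat_lit 1194924907754) (nat_lit 0) (nat_lit 3359484990824) (nat_lit 1) (nat_lit 5) (nat_lit 3) (nat_lit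 4) (nat_lit 1) (nat_lit 4) (nat_lit 261) (nat_lit 193) (nat_lit 146)) (XT.lf (nat_lit 0) (nat_lit 352518742) (nat_lit 152) (nat_lit 2691586278) (nat_lit 152) (nat_lit 2691586278) (nat_lit 9) (nat_lit 4) (nat_lit 11) (nat_lit 5) (nat_lit 11) (nat_lit 4) (nat_lit 212) (nat_lit 194) (nat_lit 194))) (XT.nd (nat_lit 78) (nat_lit 228) (nat_lit 0) (XT.lf (nat_lit 0) (nat_lit 10543477620) (nat_lit 152) (nat_lit 1650661265) (nat_lit 152) (nat_lit 414404379) (nat_lit 9) (nat_lit 4) (nat_lit 11) (nat_lit 5) (nat_lit 11) (nat_lit 4) (nat_lit 213) (nat_lit 194) (nat_lit 193)) (XT.nd (nat_lit 78) (nat_lit 76) (nat_lit 0) (XT.lf (nat_lit 0) (nat_lit 4694143831) (nat_lit 152) (nat_lit 6689366010) (nat_lit 0) (nat_lit 2554085614) (nat_lit 7) (nat_lit 5) (nat_lit 9) (nat_lit 4) (nat_lit 7) (nat_lit 4) (nat_lit 214) (nat_lit 194) (nat_lit 192)) (XT.lf (nat_lit 0) (nat_lit 1826784199) (nat_lit 76) (nat_lit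 8338988811) (nat_lit 76) (nat_lit 5333386320) (nat_lit 6) (nat_lit 4) (nat_lit 7) (nat_lit 5) (nat_lit 7) (nat_lit 4) (nat_lit 215) (nat_lit 194) (nat_lit 191))))))))
noncomputable def xc16 : XT := (XT.nd (nat_lit 1482) (nat_lit 0) (nat_lit 0) (XT.nd (nat_lit 702) (nat_lit 76) (nat_lit 0) (XT.nd (nat_lit 312) (nat_lit 152) (nat_lit 0) (XT.nd (nat_lit 156) (nat_lit 0) (nat_lit 0) (XT.nd (nat_lit 78) (nat_lit 152) (nat_lit 0) (XT.lf (nat_lit 0) (nat_lit 11267256170) (nat_lit 76) (nat_lit 4905989864) (nat_lit 76) (nat_lit 1147740178) (nat_lit 6) (nat_lit 4) (nat_lit 7) (nat_lit 5) (nat_lit 7) (nat_lit 4) (nat_lit 216) (nat_lit 194) (nat_lit 190)) (XT.lf (nat_lit 0) (nat_lit 2036868160) (nat_lit 76) (nat_lit 1063898025) (nat_lit 152) (nat_lit 16341402677) (nat_lit 4) (nat_lit 5) (nat_lit 5) (nat_lit 5) (nat_lit 6) (nat_lit 4) (nat_lit 217) (nat_lit 194) (nat_lit 189))) (XT.nd (nat_lit 78)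 (nat_lit 0) (nat_lit 0) (XT.lf (nat_lit 0) (nat_lit 7786817365) (nat_lit 152) (nat_lit 10931127045) (nat_lit 0) (nat_lit 3174007256) (nat_lit 4) (nat_lit 5) (nat_lit 6) (nat_lit 4) (nat_lit 4) (nat_lit 4) (nat_lit 218) (nat_lit 194) (nat_lit 188)) (XT.lf (nat_lit 0) (nat_lit 12861543593) (nat_lit 152) (nat_lit 4084253904) (nat_lit 0) (nat_lit 7790513348) (nat_lit 4) (nat_lit 5) (nat_lit 6) (nat_lit 4) (nat_lit 4) (nat_lit 4) (nat_lit 219) (nat_lit 194) (nat_lit 187)))) (XT.nd (nat_lit 156) (nat_lit 76) (nat_lit 0) (XT.nd (nat_lit 78) (nat_lit 0) (nat_lit 0) (XT.lf (nat_lit 0) (nat_lit 3468367860) (nat_lit 76) (nat_lit 15013692691) (nat_lit 76) (nat_lit 9544210153) (nat_lit 3) (nat_lit 4) (nat_lit 4) (nat_lit 5) (nat_lit 4) (nat_lit 4) (nat_lit 220) (nat_lit 194) (nat_lit 186)) (XT.lf (nat_lit 0) (nat_lit 11948309759) (nat_lit 76) (nat_lit 12845507242) (nat_lit 76) (nat_lit 7029544449)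 (nat_lit 3) (nat_lit 4) (nat_lit 4) (nat_lit 5) (nat_lit 4) (nat_lit 4) (nat_lit 221) (nat_lit 194) (nat_lit 185))) (XT.nd (nat_lit 78) (nat_lit 76) (nat_lit 0) (XT.lf (nat_lit 0) (nat_lit 21306414126) (nat_lit 76) (nat_lit 10510490871) (nat_lit 76) (nat_lit 4393240900) (nat_lit 3) (nat_lit 4) (nat_lit 4) (nat_lit 5) (nat_lit 4) (nat_lit 4) (nat_lit 222) (nat_lit 194) (nat_lit 184)) (XT.nd (nat_lit 78) (nat_lit 76) (nat_lit 0) (XT.lf (nat_lit 0) (nat_lit 31725774308) (nat_lit 76) (nat_lit 7962958475) (nat_lit 76) (nat_lit 1583719654) (nat_lit 3) (nat_lit 4) (nat_lit 4) (nat_lit 5) (nat_lit 4) (nat_lit 4) (nat_lit 223) (nat_lit 194) (nat_lit 183)) (XT.lf (nat_lit 0) (nat_lit 1381253806) (nat_lit 152) (nat_lit 3734047296) (nat_lit 76) (nat_lit 41991227617) (nat_lit 2) (nat_lit 5) (nat_lit 4) (nat_lit 5) (nat_lit 3) (nat_lit 4) (nat_lit 224) (nat_lit 194) (nat_lit 182)))))) (XT.nd (nat_lit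 390) (nat_lit 0) (nat_lit 0) (XT.nd (nat_lit 156) (nat_lit 0) (nat_lit 0) (XT.nd (nat_lit 78) (nat_lit 0) (nat_lit 0) (XT.lf (nat_lit 0) (nat_lit 2777473435) (nat_lit 76) (nat_lit 1829560150) (nat_lit 152) (nat_lit 49213394015) (nat_lit 1) (nat_lit 5) (nat_lit 2) (nat_lit 5) (nat_lit 3) (nat_lit 4) (nat_lit 225) (nat_lit 194) (nat_lit 181)) (XT.lf (nat_lit 0) (nat_lit 8327956683) (nat_lit 152) (nat_lit 51345854238) (nat_lit 0) (nat_lit 1867384141) (nat_lit 1) (nat_lit 5) (nat_lit 3) (nat_lit 4) (nat_lit 1) (nat_lit 4) (nat_lit 226) (nat_lit 194) (nat_lit 180))) (XT.nd (nat_lit 78) (nat_lit 0) (nat_lit 0) (XT.lf (nat_lit 0) (nat_lit 12529676197) (nat_lit 152) (nat_lit 51966778753) (nat_lit 0) (nat_lit 5930406456) (nat_lit 1) (nat_lit 5) (nat_lit 3) (nat_lit 4) (nat_lit 1) (nat_lit 4) (nat_lit 227) (nat_lit 194) (nat_lit 179)) (XT.nd (nat_lit 78) (nat_lit 0) (nat_lit 0) (XT.lf (nat_lit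 0) (nat_lit 17250398718) (nat_lit 152) (nat_lit 52873875269) (nat_lit 0) (nat_lit 10530522716) (nat_lit 1) (nat_lit 5) (nat_lit 3) (nat_lit 4) (nat_lit 1) (nat_lit 4) (nat_lit 228) (nat_lit 194) (nat_lit 178)) (XT.lf (nat_lit 0) (nat_lit 22582486207) (nat_lit 152) (nat_lit 54084891326) (nat_lit 0) (nat_lit 15757735196) (nat_lit 1) (nat_lit 5) (nat_lit 3) (nat_lit 4) (nat_lit 1) (nat_lit 4) (nat_lit 229) (nat_lit 194) (nat_lit 177))))) (XT.nd (nat_lit 156) (nat_lit 0) (nat_lit 0) (XT.nd (nat_lit 78) (nat_lit 0) (nat_lit 0) (XT.lf (nat_lit 0) (nat_lit 28630262116) (nat_lit 152) (nat_lit 55623520715) (nat_lit 0) (nat_lit 21714315445) (nat_lit 1) (nat_lit 5) (nat_lit 3) (nat_lit 4) (nat_lit 1) (nat_lit 4) (nat_lit 230) (nat_lit 194) (nat_lit 176)) (XT.lf (nat_lit 0) (nat_lit 35512052495) (nat_lit 152) (nat_lit 57519867057) (nat_lit 0) (nat_lit 28516805250) (nat_lit 1) (nat_lit 5) (nat_lit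 3) (nat_lit 4) (nat_lit 1) (nat_lit 4) (nat_lit 231) (nat_lit 194) (nat_lit 175))) (XT.nd (nat_lit 78) (nat_lit 0) (nat_lit 0) (XT.lf (nat_lit 0) (nat_lit 43362501068) (nat_lit 152) (nat_lit 59811032778) (nat_lit 0) (nat_lit 36298296802) (nat_lit 1) (nat_lit 5) (nat_lit 3) (nat_lit 4) (nat_lit 1) (nat_lit 4) (nat_lit 232) (nat_lit 194) (nat_lit 174)) (XT.nd (nat_lit 78) (nat_lit 0) (nat_lit 0) (XT.lf (nat_lit 0) (nat_lit 52335203570) (nat_lit 152) (nat_lit 62541845035) (nat_lit 0) (nat_lit 45211036677) (nat_lit 1) (nat_lit 5) (nat_lit 3) (nat_lit 4) (nat_lit 1) (nat_lit 4) (nat_lit 233) (nat_lit 194) (nat_lit 173)) (XT.lf (nat_lit 0) (nat_lit 62605712874) (nat_lit 152) (nat_lit 65765732763) (nat_lit 0) (nat_lit 55429404567) (nat_lit 1) (nat_lit 5) (nat_lit 3) (nat_lit 4) (nat_lit 1) (nat_lit 4) (nat_lit 234) (nat_lit 194) (nat_lit 172))))))) (XT.nd (nat_lit 780) (nat_lit 0) (nat_lit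 0) (XT.nd (nat_lit 390) (nat_lit 0) (nat_lit 0) (XT.nd (nat_lit 156) (nat_lit 0) (nat_lit 0) (XT.nd (nat_lit 78) (nat_lit 0) (nat_lit 0) (XT.lf (nat_lit 0) (nat_lit 74374973729) (nat_lit 152) (nat_lit 69545772026) (nat_lit 0) (nat_lit 67153325061) (nat_lit 1) (nat_lit 5) (nat_lit 3) (nat_lit 4) (nat_lit 1) (nat_lit 4) (nat_lit 235) (nat_lit 194) (nat_lit 171)) (XT.lf (nat_lit 0) (nat_lit 87873254281) (nat_lit 152) (nat_lit 73955920114) (nat_lit 0) (nat_lit 80612179212) (nat_lit 1) (nat_lit 5) (nat_lit 3) (nat_lit 4) (nat_lit 1) (nat_lit 4) (nat_lit 236) (nat_lit 194) (nat_lit 170))) (XT.nd (nat_lit 78) (nat_lit 0) (nat_lit 0) (XT.lf (nat_lit 0) (nat_lit 103364651323) (nat_lit 152) (nat_lit 79082462534) (nat_lit 0) (nat_lit 96069292428) (nat_lit 1) (nat_lit 5) (nat_lit 3) (nat_lit 4) (nat_lit 1) (nat_lit 4) (nat_lit 237) (nat_lit 194) (nat_lit 169)) (XT.nd (nat_lit 78) (nat_lit 0) (nat_lit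 0) (XT.lf (nat_lit 0) (nat_lit 121152257407) (nat_lit 152) (nat_lit 85025701201) (nat_lit 0) (nat_lit 113827086489) (nat_lit 1) (nat_lit 5) (nat_lit 3) (nat_lit 4) (nat_lit 1) (nat_lit 4) (nat_lit 238) (nat_lit 194) (nat_lit 168)) (XT.lf (nat_lit 0) (nat_lit 141584090913) (nat_lit 152) (nat_lit 91901916873) (nat_lit 0) (nat_lit 134232996496) (nat_lit 1) (nat_lit 5) (nat_lit 3) (nat_lit 4) (nat_lit 1) (nat_lit 4) (nat_lit 239) (nat_lit 194) (nat_lit 167))))) (XT.nd (nat_lit 156) (nat_lit 0) (nat_lit 0) (XT.nd (nat_lit 78) (nat_lit 0) (nat_lit 0) (XT.lf (nat_lit 0) (nat_lit 165059905104) (nat_lit 152) (nat_lit 99845644205) (nat_lit 0) (nat_lit 157686268515) (nat_lit 1) (nat_lit 5) (nat_lit 3) (nat_lit 4) (nat_lit 1) (nat_lit 4) (nat_lit 240) (nat_lit 194) (nat_lit 166)) (XT.lf (nat_lit 0) (nat_lit 192039009389) (nat_lit 152) (nat_lit 109012303947) (nat_lit 0) (nat_lit 184645770911) (nat_lit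 1) (nat_lit 5) (nat_lit 3) (nat_lit 4) (nat_lit 1) (nat_lit 4) (nat_lit 241) (nat_lit 194) (nat_lit 165))) (XT.nd (nat_lit 78) (nat_lit 0) (nat_lit 0) (XT.lf (nat_lit 0) (nat_lit 223049255807) (nat_lit 152) (nat_lit 119581243792) (nat_lit 0) (nat_lit 215638972209) (nat_lit 1) (nat_lit 5) (nat_lit 3) (nat_lit 4) (nat_lit 1) (nat_lit 4) (nat_lit 242) (nat_lit 194) (nat_lit 164)) (XT.nd (nat_lit 78) (nat_lit 0) (nat_lit 0) (XT.lf (nat_lit 0) (nat_lit 258697366573) (nat_lit 152) (nat_lit 131759247343) (nat_lit 0) (nat_lit 251272261130) (nat_lit 1) (nat_lit 5) (nat_lit 3) (nat_lit 4) (nat_lit 1) (nat_lit 4) (nat_lit 243) (nat_lit 194) (nat_lit 163)) (XT.lf (nat_lit 0) (nat_lit 299680804722) (nat_lit 152) (nat_lit 145784579890) (nat_lit 0) (nat_lit 292242810718) (nat_lit 1) (nat_lit 5) (nat_lit 3) (nat_lit 4) (nat_lit 1) (nat_lit 4) (nat_lit 244) (nat_lit 194) (nat_lit 162)))))) (XT.nd (nat_lit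 390) (nat_lit 0) (nat_lit 0) (XT.nd (nat_lit 156) (nat_lit 0) (nat_lit 0) (XT.nd (nat_lit 78) (nat_lit 0) (nat_lit 0) (XT.lf (nat_lit 0) (nat_lit 346801420131) (nat_lit 152) (nat_lit 161931650111) (nat_lit 0) (nat_lit 339352218684) (nat_lit 1) (nat_lit 5) (nat_lit 3) (nat_lit 4) (nat_lit 1) (nat_lit 4) (nat_lit 245) (nat_lit 194) (nat_lit 161)) (XT.lf (nat_lit 0) (nat_lit 400981137884) (nat_lit 152) (nat_lit 180516378945) (nat_lit 0) (nat_lit 393522190834) (nat_lit 1) (nat_lit 5) (nat_lit 3) (nat_lit 4) (nat_lit 1) (nat_lit 4) (nat_lit 246) (nat_lit 194) (nat_lit 160))) (XT.nd (nat_lit 78) (nat_lit 0) (nat_lit 0) (XT.lf (nat_lit 0) (nat_lit 463279995938) (nat_lit 152) (nat_lit 201902380653) (nat_lit 0) (nat_lit 455812574450) (nat_lit 1) (nat_lit 5) (nat_lit 3) (nat_lit 4) (nat_lit 1) (nat_lit 4) (nat_lit 247) (nat_lit 194) (nat_lit 159)) (XT.nd (nat_lit 78) (nat_lit 0) (nat_lit 0) (XT.lf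 (nat_lit 0) (nat_lit 534916884993) (nat_lit 152) (nat_lit 226508077008) (nat_lit 0) (nat_lit 527442094428) (nat_lit 1) (nat_lit 5) (nat_lit 3) (nat_lit 4) (nat_lit 1) (nat_lit 4) (nat_lit 248) (nat_lit 194) (nat_lit 158)) (XT.lf (nat_lit 0) (nat_lit 617293396356) (nat_lit 152) (nat_lit 254814883806) (nat_lit 0) (nat_lit 609812197900) (nat_lit 1) (nat_lit 5) (nat_lit 3) (nat_lit 4) (nat_lit 1) (nat_lit 4) (nat_lit 249) (nat_lit 194) (nat_lit 157))))) (XT.nd (nat_lit 156) (nat_lit 0) (nat_lit 0) (XT.nd (nat_lit 78) (nat_lit 0) (nat_lit 0) (XT.lf (nat_lit 0) (nat_lit 712021244382) (nat_lit 152) (nat_lit 287376629878) (nat_lit 0) (nat_lit 704534473845) (nat_lit 1) (nat_lit 5) (nat_lit 3) (nat_lit 4) (nat_lit 1) (nat_lit 4) (nat_lit 250) (nat_lit 194) (nat_lit 156)) (XT.lf (nat_lit 0) (nat_lit 820953800009) (nat_lit 152) (nat_lit 324830392863) (nat_lit 0) (nat_lit 813462184185) (nat_lit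 1) (nat_lit 5) (nat_lit 3) (nat_lit 4) (nat_lit 1) (nat_lit 4) (nat_lit 251) (nat_lit 194) (nat_lit 155))) (XT.nd (nat_lit 78) (nat_lit 0) (nat_lit 0) (XT.lf (nat_lit 0) (nat_lit 946222352369) (nat_lit 152) (nat_lit 367908963777) (nat_lit 0) (nat_lit 938726523252) (nat_lit 1) (nat_lit 5) (nat_lit 3) (nat_lit 4) (nat_lit 1) (nat_lit 4) (nat_lit 252) (nat_lit 194) (nat_lit 154)) (XT.nd (nat_lit 78) (nat_lit 0) (nat_lit 0) (XT.lf (nat_lit 0) (nat_lit 1090277807922) (nat_lit 152) (nat_lit 417455184224) (nat_lit 0) (nat_lit 1082778315071) (nat_lit 1) (nat_lit 5) (nat_lit 3) (nat_lit 4) (nat_lit 1) (nat_lit 4) (nat_lit 253) (nat_lit 194) (nat_lit 153)) (XT.lf (nat_lit 0) (nat_lit 1255938642971) (nat_lit 152) (nat_lit 474438436778) (nat_lit 0) (nat_lit 1248435964266) (nat_lit 1) (nat_lit 5) (nat_lit 3) (nat_lit 4) (nat_lit 1) (nat_lit 4) (nat_lit 254) (nat_lit 194) (nat_lit 152))))))))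
noncomputable def xc17 : XT := (XT.nd (nat_lit 28704) (nat_lit 0) (nat_lit 0) (XT.nd (nat_lit 27924) (nat_lit 0) (nat_lit 152) (XT.nd (nat_lit 312) (nat_lit 0) (nat_lit 0) (XT.nd (nat_lit 156) (nat_lit 0) (nat_lit 0) (XT.nd (nat_lit 78) (nat_lit 0) (nat_lit 0) (XT.lf (nat_lit 0) (nat_lit 1446446047768) (nat_lit 152) (nat_lit 539973611163) (nat_lit 0) (nat_lit 1438940598754) (nat_lit 1) (nat_lit 5) (nat_lit 3) (nat_lit 4) (nat_lit 1) (nat_lit 4) (nat_lit 255) (nat_lit 194) (nat_lit 151)) (XT.lf (nat_lit 0) (nat_lit 1665527341102) (nat_lit 152) (nat_lit 615342917314) (nat_lit 0) (nat_lit 1658019483124) (nat_lit 1) (nat_lit 5) (nat_lit 3) (nat_lit 4) (nat_lit 1) (nat_lit 4) (nat_lit 256) (nat_lit 194) (nat_lit 150))) (XT.nd (nat_lit 78) (nat_lit 0) (nat_lit 0) (XT.lf (nat_lit 0) (nat_lit 1917468896103) (nat_lit 152) (nat_lit 702020972088) (nat_lit 0) (nat_lit 1909958943374) (nat_lit 1)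 (nat_lit 5) (nat_lit 3) (nat_lit 4) (nat_lit 1) (nat_lit 4) (nat_lit 257) (nat_lit 194) (nat_lit 149)) (XT.lf (nat_lit 0) (nat_lit 2207200004066) (nat_lit 152) (nat_lit 801703650471) (nat_lit 0) (nat_lit 2199688229814) (nat_lit 1) (nat_lit 5) (nat_lit 3) (nat_lit 4) (nat_lit 1) (nat_lit 4) (nat_lit 258) (nat_lit 194) (nat_lit 148)))) (XT.nd (nat_lit 156) (nat_lit 0) (nat_lit 0) (XT.nd (nat_lit 78) (nat_lit 0) (nat_lit 0) (XT.lf (nat_lit 0) (nat_lit 2540389317102) (nat_lit 152) (nat_lit 916341265736) (nat_lit 0) (nat_lit 2532875958917) (nat_lit 1) (nat_lit 5) (nat_lit 3) (nat_lit 4) (nat_lit 1) (nat_lit 4) (nat_lit 259) (nat_lit 194) (nat_lit 147)) (XT.lf (nat_lit 0) (nat_lit 2923555756554) (nat_lit 152) (nat_lit 1048176727747) (nat_lit 0) (nat_lit 2916041021036) (nat_lit 1) (nat_lit 5) (nat_lit 3) (nat_lit 4) (nat_lit 1) (nat_lit 4) (nat_lit 260) (nat_lit 194) (nat_lit 146))) (XT.nd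 (nat_lit 27300) (nat_lit 0) (nat_lit 760) (XT.lf (nat_lit 0) (nat_lit 3364196057106) (nat_lit 152) (nat_lit 1199789425977) (nat_lit 0) (nat_lit 3356680123907) (nat_lit 1) (nat_lit 5) (nat_lit 3) (nat_lit 4) (nat_lit 1) (nat_lit 4) (nat_lit 261) (nat_lit 194) (nat_lit 145)) (XT.nd (nat_lit 78) (nat_lit 228) (nat_lit 0) (XT.lf (nat_lit 0) (nat_lit 1573597429) (nat_lit 152) (nat_lit 1633833757) (nat_lit 152) (nat_lit 1633833757) (nat_lit 14) (nat_lit 4) (nat_lit 16) (nat_lit 5) (nat_lit 16) (nat_lit 4) (nat_lit 210) (nat_lit 195) (nat_lit 195)) (XT.lf (nat_lit 0) (nat_lit 1846996651) (nat_lit 228) (nat_lit 8243144315) (nat_lit 0) (nat_lit 425301232) (nat_lit 11) (nat_lit 5) (nat_lit 14) (nat_lit 4) (nat_lit 11) (nat_lit 4) (nat_lit 211) (nat_lit 195) (nat_lit 194)))))) (XT.nd (nat_lit 390) (nat_lit 228) (nat_lit 0) (XT.nd (nat_lit 156) (nat_lit 152) (nat_lit 0) (XT.nd (nat_lit 78) (nat_lit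 76) (nat_lit 0) (XT.lf (nat_lit 0) (nat_lit 262642734) (nat_lit 152) (nat_lit 6946608510) (nat_lit 152) (nat_lit 4288656204) (nat_lit 9) (nat_lit 4) (nat_lit 11) (nat_lit 5) (nat_lit 11) (nat_lit 4) (nat_lit 212) (nat_lit 195) (nat_lit 193)) (XT.lf (nat_lit 0) (nat_lit 375818499) (nat_lit 228) (nat_lit 2951255814) (nat_lit 76) (nat_lit 9330297738) (nat_lit 8) (nat_lit 5) (nat_lit 11) (nat_lit 5) (nat_lit 9) (nat_lit 4) (nat_lit 213) (nat_lit 195) (nat_lit 192))) (XT.nd (nat_lit 78) (nat_lit 76) (nat_lit 0) (XT.lf (nat_lit 0) (nat_lit 5153494898) (nat_lit 152) (nat_lit 8027166691) (nat_lit 0) (nat_lit 831507759) (nat_lit 7) (nat_lit 5) (nat_lit 9) (nat_lit 4) (nat_lit 7) (nat_lit 4) (nat_lit 214) (nat_lit 195) (nat_lit 191)) (XT.nd (nat_lit 78) (nat_lit 0) (nat_lit 0) (XT.lf (nat_lit 0) (nat_lit 65891512) (nat_lit 76) (nat_lit 10302269203) (nat_lit 76) (nat_lit 5227634870) (nat_lit 6)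 (nat_lit 4) (nat_lit 7) (nat_lit 5) (nat_lit 7) (nat_lit 4) (nat_lit 215) (nat_lit 195) (nat_lit 190)) (XT.lf (nat_lit 0) (nat_lit 9199714967) (nat_lit 76) (nat_lit 6981923128) (nat_lit 76) (nat_lit 1252812974) (nat_lit 6) (nat_lit 4) (nat_lit 7) (nat_lit 5) (nat_lit 7) (nat_lit 4) (nat_lit 216) (nat_lit 195) (nat_lit 189))))) (XT.nd (nat_lit 156) (nat_lit 76) (nat_lit 0) (XT.nd (nat_lit 78) (nat_lit 76) (nat_lit 0) (XT.lf (nat_lit 0) (nat_lit 2777808078) (nat_lit 152) (nat_lit 520378761) (nat_lit 76) (nat_lit 16276554267) (nat_lit 5) (nat_lit 5) (nat_lit 7) (nat_lit 5) (nat_lit 6) (nat_lit 4) (nat_lit 217) (nat_lit 195) (nat_lit 188)) (XT.lf (nat_lit 0) (nat_lit 7236767567) (nat_lit 152) (nat_lit 13859977469) (nat_lit 0) (nat_lit 946862648) (nat_lit 4) (nat_lit 5) (nat_lit 6) (nat_lit 4) (nat_lit 4) (nat_lit 4) (nat_lit 218) (nat_lit 195) (nat_lit 187))) (XT.nd (nat_lit 78) (nat_lit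 76) (nat_lit 0) (XT.lf (nat_lit 0) (nat_lit 12172501919) (nat_lit 152) (nat_lit 7243236493) (nat_lit 0) (nat_lit 5484144707) (nat_lit 4) (nat_lit 5) (nat_lit 6) (nat_lit 4) (nat_lit 4) (nat_lit 4) (nat_lit 219) (nat_lit 195) (nat_lit 186)) (XT.nd (nat_lit 78) (nat_lit 76) (nat_lit 0) (XT.lf (nat_lit 0) (nat_lit 17588742045) (nat_lit 152) (nat_lit 64231460) (nat_lit 0) (nat_lit 10553904579) (nat_lit 4) (nat_lit 5) (nat_lit 6) (nat_lit 4) (nat_lit 4) (nat_lit 4) (nat_lit 220) (nat_lit 195) (nat_lit 185)) (XT.lf (nat_lit 0) (nat_lit 8229151929) (nat_lit 76) (nat_lit 15560217233) (nat_lit 76) (nat_lit 8224092589) (nat_lit 3) (nat_lit 4) (nat_lit 4) (nat_lit 5) (nat_lit 4) (nat_lit 4) (nat_lit 221) (nat_lit 195) (nat_lit 184))))))) (XT.nd (nat_lit 780) (nat_lit 0) (nat_lit 0) (XT.nd (nat_lit 390) (nat_lit 0) (nat_lit 0) (XT.nd (nat_lit 156) (nat_lit 152) (nat_lit 0) (XT.nd (nat_lit 78) (nat_lit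 0) (nat_lit 0) (XT.lf (nat_lit 0) (nat_lit 17427972649) (nat_lit 76) (nat_lit 13289264318) (nat_lit 76) (nat_lit 5691150823) (nat_lit 3) (nat_lit 4) (nat_lit 4) (nat_lit 5) (nat_lit 4) (nat_lit 4) (nat_lit 222) (nat_lit 195) (nat_lit 183)) (XT.lf (nat_lit 0) (nat_lit 27708825312) (nat_lit 76) (nat_lit 10797439276) (nat_lit 76) (nat_lit 2971509389) (nat_lit 3) (nat_lit 4) (nat_lit 4) (nat_lit 5) (nat_lit 4) (nat_lit 4) (nat_lit 223) (nat_lit 195) (nat_lit 182))) (XT.nd (nat_lit 78) (nat_lit 152) (nat_lit 0) (XT.lf (nat_lit 0) (nat_lit 39272857033) (nat_lit 76) (nat_lit 8035989006) (nat_lit 76) (nat_lit 11957909) (nat_lit 3) (nat_lit 4) (nat_lit 4) (nat_lit 5) (nat_lit 4) (nat_lit 4) (nat_lit 224) (nat_lit 195) (nat_lit 181)) (XT.nd (nat_lit 78) (nat_lit 76) (nat_lit 0) (XT.lf (nat_lit 0) (nat_lit 3083059436) (nat_lit 152) (nat_lit 1783529390) (nat_lit 76) (nat_lit 49178964864) (nat_lit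 2) (nat_lit 5) (nat_lit 4) (nat_lit 5) (nat_lit 3) (nat_lit 4) (nat_lit 225) (nat_lit 195) (nat_lit 180)) (XT.lf (nat_lit 0) (nat_lit 5492207550) (nat_lit 76) (nat_lit 1160818192) (nat_lit 152) (nat_lit 55125649349) (nat_lit 1) (nat_lit 5) (nat_lit 2) (nat_lit 5) (nat_lit 3) (nat_lit 4) (nat_lit 226) (nat_lit 195) (nat_lit 179))))) (XT.nd (nat_lit 156) (nat_lit 0) (nat_lit 0) (XT.nd (nat_lit 78) (nat_lit 0) (nat_lit 0) (XT.lf (nat_lit 0) (nat_lit 10775081076) (nat_lit 152) (nat_lit 56969257292) (nat_lit 0) (nat_lit 2926617413) (nat_lit 1) (nat_lit 5) (nat_lit 3) (nat_lit 4) (nat_lit 1) (nat_lit 4) (nat_lit 227) (nat_lit 195) (nat_lit 178)) (XT.lf (nat_lit 0) (nat_lit 15450806662) (nat_lit 152) (nat_lit 57954425930) (nat_lit 0) (nat_lit 7497467990) (nat_lit 1) (nat_lit 5) (nat_lit 3) (nat_lit 4) (nat_lit 1) (nat_lit 4) (nat_lit 228) (nat_lit 195) (nat_lit 177))) (XT.nd (nat_lit 78) (nat_lit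 0) (nat_lit 0) (XT.lf (nat_lit 0) (nat_lit 20743766382) (nat_lit 152) (nat_lit 59233330789) (nat_lit 0) (nat_lit 12699232050) (nat_lit 1) (nat_lit 5) (nat_lit 3) (nat_lit 4) (nat_lit 1) (nat_lit 4) (nat_lit 229) (nat_lit 195) (nat_lit 176)) (XT.nd (nat_lit 78) (nat_lit 0) (nat_lit 0) (XT.lf (nat_lit 0) (nat_lit 26757518143) (nat_lit 152) (nat_lit 60830993920) (nat_lit 0) (nat_lit 18633683238) (nat_lit 1) (nat_lit 5) (nat_lit 3) (nat_lit 4) (nat_lit 1) (nat_lit 4) (nat_lit 230) (nat_lit 195) (nat_lit 175)) (XT.lf (nat_lit 0) (nat_lit 33609722307) (nat_lit 152) (nat_lit 62778673949) (nat_lit 0) (nat_lit 25416930381) (nat_lit 1) (nat_lit 5) (nat_lit 3) (nat_lit 4) (nat_lit 1) (nat_lit 4) (nat_lit 231) (nat_lit 195) (nat_lit 174)))))) (XT.nd (nat_lit 390) (nat_lit 0) (nat_lit 0) (XT.nd (nat_lit 156) (nat_lit 0) (nat_lit 0) (XT.nd (nat_lit 78) (nat_lit 0) (nat_lit 0) (XT.lf (nat_lit 0) (nat_lit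 41434443738) (nat_lit 152) (nat_lit 65114477660) (nat_lit 0) (nat_lit 33181689184) (nat_lit 1) (nat_lit 5) (nat_lit 3) (nat_lit 4) (nat_lit 1) (nat_lit 4) (nat_lit 232) (nat_lit 195) (nat_lit 173)) (XT.lf (nat_lit 0) (nat_lit 50384774810) (nat_lit 152) (nat_lit 67884105560) (nat_lit 0) (nat_lit 42079878842) (nat_lit 1) (nat_lit 5) (nat_lit 3) (nat_lit 4) (nat_lit 1) (nat_lit 4) (nat_lit 233) (nat_lit 195) (nat_lit 172))) (XT.nd (nat_lit 78) (nat_lit 0) (nat_lit 0) (XT.lf (nat_lit 0) (nat_lit 60635830698) (nat_lit 152) (nat_lit 71141746021) (nat_lit 0) (nat_lit 52285594370) (nat_lit 1) (nat_lit 5) (nat_lit 3) (nat_lit 4) (nat_lit 1) (nat_lit 4) (nat_lit 234) (nat_lit 195) (nat_lit 171)) (XT.nd (nat_lit 78) (nat_lit 0) (nat_lit 0) (XT.lf (nat_lit 0) (nat_lit 72388175539) (nat_lit 152) (nat_lit 74951135486) (nat_lit 0) (nat_lit 63998512809) (nat_lit 1) (nat_lit 5) (nat_lit 3) (nat_lit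 4) (nat_lit 1) (nat_lit 4) (nat_lit 235) (nat_lit 195) (nat_lit 170)) (XT.lf (nat_lit 0) (nat_lit 85871746513) (nat_lit 152) (nat_lit 79386805490) (nat_lit 0) (nat_lit 77447799957) (nat_lit 1) (nat_lit 5) (nat_lit 3) (nat_lit 4) (nat_lit 1) (nat_lit 4) (nat_lit 236) (nat_lit 195) (nat_lit 169))))) (XT.nd (nat_lit 156) (nat_lit 0) (nat_lit 0) (XT.nd (nat_lit 78) (nat_lit 0) (nat_lit 0) (XT.lf (nat_lit 0) (nat_lit 101350352618) (nat_lit 152) (nat_lit 84535540879) (nat_lit 0) (nat_lit 92896594039) (nat_lit 1) (nat_lit 5) (nat_lit 3) (nat_lit 4) (nat_lit 1) (nat_lit 4) (nat_lit 237) (nat_lit 195) (nat_lit 168)) (XT.lf (nat_lit 0) (nat_lit 119126836148) (nat_lit 152) (nat_lit 90498077781) (nat_lit 0) (nat_lit 110647154071) (nat_lit 1) (nat_lit 5) (nat_lit 3) (nat_lit 4) (nat_lit 1) (nat_lit 4) (nat_lit 238) (nat_lit 195) (nat_lit 167))) (XT.nd (nat_lit 78) (nat_lit 0) (nat_lit 0) (XT.lf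 (nat_lit 0) (nat_lit 139548997867) (nat_lit 152) (nat_lit 97391074527) (nat_lit 0) (nat_lit 131046773618) (nat_lit 1) (nat_lit 5) (nat_lit 3) (nat_lit 4) (nat_lit 1) (nat_lit 4) (nat_lit 239) (nat_lit 195) (nat_lit 166)) (XT.nd (nat_lit 78) (nat_lit 0) (nat_lit 0) (XT.lf (nat_lit 0) (nat_lit 163016401809) (nat_lit 152) (nat_lit 105349394096) (nat_lit 0) (nat_lit 154494575671) (nat_lit 1) (nat_lit 5) (nat_lit 3) (nat_lit 4) (nat_lit 1) (nat_lit 4) (nat_lit 240) (nat_lit 195) (nat_lit 165)) (XT.lf (nat_lit 0) (nat_lit 189988192834) (nat_lit 152) (nat_lit 114528742741) (nat_lit 0) (nat_lit 181449321575) (nat_lit 1) (nat_lit 5) (nat_lit 3) (nat_lit 4) (nat_lit 1) (nat_lit 4) (nat_lit 241) (nat_lit 195) (nat_lit 164))))))))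
noncomputable def xc18 : XT := (XT.nd (nat_lit 1482) (nat_lit 0) (nat_lit 0) (XT.nd (nat_lit 702) (nat_lit 0) (nat_lit 0) (XT.nd (nat_lit 312) (nat_lit 0) (nat_lit 0) (XT.nd (nat_lit 156) (nat_lit 0) (nat_lit 0) (XT.nd (nat_lit 78) (nat_lit 0) (nat_lit 0) (XT.lf (nat_lit 0) (nat_lit 220992079897) (nat_lit 152) (nat_lit 125108716414) (nat_lit 0) (nat_lit 212438386793) (nat_lit 1) (nat_lit 5) (nat_lit 3) (nat_lit 4) (nat_lit 1) (nat_lit 4) (nat_lit 242) (nat_lit 195) (nat_lit 163)) (XT.lf (nat_lit 0) (nat_lit 256634660787) (nat_lit 152) (nat_lit 137296314599) (nat_lit 0) (nat_lit 248068079123) (nat_lit 1) (nat_lit 5) (nat_lit 3) (nat_lit 4) (nat_lit 1) (nat_lit 4) (nat_lit 243) (nat_lit 195) (nat_lit 162))) (XT.nd (nat_lit 78) (nat_lit 0) (nat_lit 0) (XT.lf (nat_lit 0) (nat_lit 297613290349) (nat_lit 152) (nat_lit 151329990305) (nat_lit 0) (nat_lit 289035501241) (nat_lit 1) (nat_lit 5)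 (nat_lit 3) (nat_lit 4) (nat_lit 1) (nat_lit 4) (nat_lit 244) (nat_lit 195) (nat_lit 161)) (XT.lf (nat_lit 0) (nat_lit 344729724378) (nat_lit 152) (nat_lit 167484315447) (nat_lit 0) (nat_lit 336142189667) (nat_lit 1) (nat_lit 5) (nat_lit 3) (nat_lit 4) (nat_lit 1) (nat_lit 4) (nat_lit 245) (nat_lit 195) (nat_lit 160)))) (XT.nd (nat_lit 156) (nat_lit 0) (nat_lit 0) (XT.nd (nat_lit 78) (nat_lit 0) (nat_lit 0) (XT.lf (nat_lit 0) (nat_lit 398905806149) (nat_lit 152) (nat_lit 186075352909) (nat_lit 0) (nat_lit 390309797000) (nat_lit 1) (nat_lit 5) (nat_lit 3) (nat_lit 4) (nat_lit 1) (nat_lit 4) (nat_lit 246) (nat_lit 195) (nat_lit 159)) (XT.lf (nat_lit 0) (nat_lit 461201502478) (nat_lit 152) (nat_lit 207466840380) (nat_lit 0) (nat_lit 452598124253) (nat_lit 1) (nat_lit 5) (nat_lit 3) (nat_lit 4) (nat_lit 1) (nat_lit 4) (nat_lit 247) (nat_lit 195) (nat_lit 158))) (XT.nd (nat_lit 78) (nat_lit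 0) (nat_lit 0) (XT.lf (nat_lit 0) (nat_lit 532835642208) (nat_lit 152) (nat_lit 232077306963) (nat_lit 0) (nat_lit 524225856091) (nat_lit 1) (nat_lit 5) (nat_lit 3) (nat_lit 4) (nat_lit 1) (nat_lit 4) (nat_lit 248) (nat_lit 195) (nat_lit 157)) (XT.nd (nat_lit 78) (nat_lit 0) (nat_lit 0) (XT.lf (nat_lit 0) (nat_lit 615209762854) (nat_lit 152) (nat_lit 260388261786) (nat_lit 0) (nat_lit 606594404657) (nat_lit 1) (nat_lit 5) (nat_lit 3) (nat_lit 4) (nat_lit 1) (nat_lit 4) (nat_lit 249) (nat_lit 195) (nat_lit 156)) (XT.lf (nat_lit 0) (nat_lit 709935531995) (nat_lit 152) (nat_lit 292953614836) (nat_lit 0) (nat_lit 701315328510) (nat_lit 1) (nat_lit 5) (nat_lit 3) (nat_lit 4) (nat_lit 1) (nat_lit 4) (nat_lit 250) (nat_lit 195) (nat_lit 155)))))) (XT.nd (nat_lit 390) (nat_lit 0) (nat_lit 0) (XT.nd (nat_lit 156) (nat_lit 0) (nat_lit 0) (XT.nd (nat_lit 78) (nat_lit 0) (nat_lit 0) (XT.lf (nat_lit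 0) (nat_lit 818866279896) (nat_lit 152) (nat_lit 330410514323) (nat_lit 0) (nat_lit 810241863118) (nat_lit 1) (nat_lit 5) (nat_lit 3) (nat_lit 4) (nat_lit 1) (nat_lit 4) (nat_lit 251) (nat_lit 195) (nat_lit 154)) (XT.lf (nat_lit 0) (nat_lit 944133260320) (nat_lit 152) (nat_lit 373491812631) (nat_lit 0) (nat_lit 935505179809) (nat_lit 1) (nat_lit 5) (nat_lit 3) (nat_lit 4) (nat_lit 1) (nat_lit 4) (nat_lit 252) (nat_lit 195) (nat_lit 153))) (XT.nd (nat_lit 78) (nat_lit 0) (nat_lit 0) (XT.lf (nat_lit 0) (nat_lit 1088187348972) (nat_lit 152) (nat_lit 423040404724) (nat_lit 0) (nat_lit 1079556082606) (nat_lit 1) (nat_lit 5) (nat_lit 3) (nat_lit 4) (nat_lit 1) (nat_lit 4) (nat_lit 253) (nat_lit 195) (nat_lit 152)) (XT.nd (nat_lit 78) (nat_lit 0) (nat_lit 0) (XT.lf (nat_lit 0) (nat_lit 1253846995412) (nat_lit 152) (nat_lit 480025719580) (nat_lit 0) (nat_lit 1245212958738) (nat_lit 1) (nat_lit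 5) (nat_lit 3) (nat_lit 4) (nat_lit 1) (nat_lit 4) (nat_lit 254) (nat_lit 195) (nat_lit 151)) (XT.lf (nat_lit 0) (nat_lit 1444353366636) (nat_lit 152) (nat_lit 545562687271) (nat_lit 0) (nat_lit 1435716920997) (nat_lit 1) (nat_lit 5) (nat_lit 3) (nat_lit 4) (nat_lit 1) (nat_lit 4) (nat_lit 255) (nat_lit 195) (nat_lit 150))))) (XT.nd (nat_lit 156) (nat_lit 0) (nat_lit 0) (XT.nd (nat_lit 78) (nat_lit 0) (nat_lit 0) (XT.lf (nat_lit 0) (nat_lit 1663433761211) (nat_lit 152) (nat_lit 620933552817) (nat_lit 0) (nat_lit 1654795220821) (nat_lit 1) (nat_lit 5) (nat_lit 3) (nat_lit 4) (nat_lit 1) (nat_lit 4) (nat_lit 256) (nat_lit 195) (nat_lit 149)) (XT.lf (nat_lit 0) (nat_lit 1915374534683) (nat_lit 152) (nat_lit 707612963588) (nat_lit 0) (nat_lit 1906734172770) (nat_lit 1) (nat_lit 5) (nat_lit 3) (nat_lit 4) (nat_lit 1) (nat_lit 4) (nat_lit 257) (nat_lit 195) (nat_lit 148))) (XT.nd (nat_lit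 78) (nat_lit 0) (nat_lit 0) (XT.lf (nat_lit 0) (nat_lit 2205104963054) (nat_lit 152) (nat_lit 807296821099) (nat_lit 0) (nat_lit 2196463017208) (nat_lit 1) (nat_lit 5) (nat_lit 3) (nat_lit 4) (nat_lit 1) (nat_lit 4) (nat_lit 258) (nat_lit 195) (nat_lit 147)) (XT.nd (nat_lit 78) (nat_lit 0) (nat_lit 0) (XT.lf (nat_lit 0) (nat_lit 2538293685142) (nat_lit 152) (nat_lit 921935461692) (nat_lit 0) (nat_lit 2529650361962) (nat_lit 1) (nat_lit 5) (nat_lit 3) (nat_lit 4) (nat_lit 1) (nat_lit 4) (nat_lit 259) (nat_lit 195) (nat_lit 146)) (XT.lf (nat_lit 0) (nat_lit 2921459610725) (nat_lit 152) (nat_lit 1053771815293) (nat_lit 0) (nat_lit 2912815089865) (nat_lit 1) (nat_lit 5) (nat_lit 3) (nat_lit 4) (nat_lit 1) (nat_lit 4) (nat_lit 260) (nat_lit 195) (nat_lit 145))))))) (XT.nd (nat_lit 27846) (nat_lit 0) (nat_lit 76) (XT.nd (nat_lit 27456) (nat_lit 0) (nat_lit 380) (XT.nd (nat_lit 27222) (nat_lit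 0) (nat_lit 760) (XT.nd (nat_lit 27144) (nat_lit 0) (nat_lit 1368) (XT.lf (nat_lit 0) (nat_lit 3362099464434) (nat_lit 152) (nat_lit 1205385288818) (nat_lit 0) (nat_lit 3353453902113) (nat_lit 1) (nat_lit 5) (nat_lit 3) (nat_lit 4) (nat_lit 1) (nat_lit 4) (nat_lit 261) (nat_lit 195) (nat_lit 144)) (XT.lf (nat_lit 0) (nat_lit 1669761769) (nat_lit 228) (nat_lit 1262885288) (nat_lit 228) (nat_lit 1262885288) (nat_lit 19) (nat_lit 4) (nat_lit 22) (nat_lit 5) (nat_lit 22) (nat_lit 4) (nat_lit 208) (nat_lit 196) (nat_lit 196))) (XT.nd (nat_lit 78) (nat_lit 380) (nat_lit 0) (XT.lf (nat_lit 0) (nat_lit 2543349816) (nat_lit 228) (nat_lit 5670002840) (nat_lit 0) (nat_lit 777604105) (nat_lit 16) (nat_lit 5) (nat_lit 19) (nat_lit 4) (nat_lit 16) (nat_lit 4) (nat_lit 209) (nat_lit 196) (nat_lit 195)) (XT.nd (nat_lit 78) (nat_lit 228) (nat_lit 0) (XT.lf (nat_lit 0) (nat_lit 2732658366) (nat_lit 152)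 (nat_lit 5139401502) (nat_lit 152) (nat_lit 1838224738) (nat_lit 14) (nat_lit 4) (nat_lit 16) (nat_lit 5) (nat_lit 16) (nat_lit 4) (nat_lit 210) (nat_lit 196) (nat_lit 194)) (XT.lf (nat_lit 0) (nat_lit 1384706480) (nat_lit 152) (nat_lit 1510024616) (nat_lit 228) (nat_lit 7673004230) (nat_lit 11) (nat_lit 5) (nat_lit 13) (nat_lit 5) (nat_lit 14) (nat_lit 4) (nat_lit 211) (nat_lit 196) (nat_lit 193))))) (XT.nd (nat_lit 156) (nat_lit 152) (nat_lit 0) (XT.nd (nat_lit 78) (nat_lit 228) (nat_lit 0) (XT.lf (nat_lit 0) (nat_lit 7962166378) (nat_lit 228) (nat_lit 1019511402) (nat_lit 0) (nat_lit 2594258352) (nat_lit 11) (nat_lit 5) (nat_lit 14) (nat_lit 4) (nat_lit 11) (nat_lit 4) (nat_lit 212) (nat_lit 196) (nat_lit 192)) (XT.lf (nat_lit 0) (nat_lit 755444869) (nat_lit 228) (nat_lit 4731370514) (nat_lit 76) (nat_lit 7269937921) (nat_lit 8) (nat_lit 5) (nat_lit 11) (nat_lit 5) (nat_lit 9) (nat_lit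 4) (nat_lit 213) (nat_lit 196) (nat_lit 191))) (XT.nd (nat_lit 78) (nat_lit 76) (nat_lit 0) (XT.lf (nat_lit 0) (nat_lit 3814773431) (nat_lit 76) (nat_lit 1440192070) (nat_lit 152) (nat_lit 8880342855) (nat_lit 7) (nat_lit 5) (nat_lit 8) (nat_lit 5) (nat_lit 9) (nat_lit 4) (nat_lit 214) (nat_lit 196) (nat_lit 190)) (XT.nd (nat_lit 78) (nat_lit 76) (nat_lit 0) (XT.lf (nat_lit 0) (nat_lit 10246789234) (nat_lit 152) (nat_lit 2487444943) (nat_lit 0) (nat_lit 3003836735) (nat_lit 7) (nat_lit 5) (nat_lit 9) (nat_lit 4) (nat_lit 7) (nat_lit 4) (nat_lit 215) (nat_lit 196) (nat_lit 189)) (XT.lf (nat_lit 0) (nat_lit 6248743185) (nat_lit 76) (nat_lit 9579858275) (nat_lit 76) (nat_lit 1767796366) (nat_lit 6) (nat_lit 4) (nat_lit 7) (nat_lit 5) (nat_lit 7) (nat_lit 4) (nat_lit 216) (nat_lit 196) (nat_lit 188)))))) (XT.nd (nat_lit 390) (nat_lit 76) (nat_lit 0) (XT.nd (nat_lit 156) (nat_lit 76) (nat_lit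 0) (XT.nd (nat_lit 78) (nat_lit 76) (nat_lit 0) (XT.lf (nat_lit 0) (nat_lit 2137147327) (nat_lit 152) (nat_lit 3861673215) (nat_lit 76) (nat_lit 13751889703) (nat_lit 5) (nat_lit 5) (nat_lit 7) (nat_lit 5) (nat_lit 6) (nat_lit 4) (nat_lit 217) (nat_lit 196) (nat_lit 187)) (XT.lf (nat_lit 0) (nat_lit 4471895984) (nat_lit 76) (nat_lit 1878663687) (nat_lit 152) (nat_lit 15889457829) (nat_lit 4) (nat_lit 5) (nat_lit 5) (nat_lit 5) (nat_lit 6) (nat_lit 4) (nat_lit 218) (nat_lit 196) (nat_lit 186))) (XT.nd (nat_lit 78) (nat_lit 76) (nat_lit 0) (XT.lf (nat_lit 0) (nat_lit 11120249615) (nat_lit 152) (nat_lit 11306313559) (nat_lit 0) (nat_lit 2683706274) (nat_lit 4) (nat_lit 5) (nat_lit 6) (nat_lit 4) (nat_lit 4) (nat_lit 4) (nat_lit 219) (nat_lit 196) (nat_lit 185)) (XT.nd (nat_lit 78) (nat_lit 76) (nat_lit 0) (XT.lf (nat_lit 0) (nat_lit 16431391914) (nat_lit 152) (nat_lit 4301321506) (nat_lit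 0) (nat_lit 7693561395) (nat_lit 4) (nat_lit 5) (nat_lit 6) (nat_lit 4) (nat_lit 4) (nat_lit 4) (nat_lit 220) (nat_lit 196) (nat_lit 184)) (XT.lf (nat_lit 0) (nat_lit 3609660584) (nat_lit 76) (nat_lit 18819870154) (nat_lit 76) (nat_lit 9820050785) (nat_lit 3) (nat_lit 4) (nat_lit 4) (nat_lit 5) (nat_lit 4) (nat_lit 4) (nat_lit 221) (nat_lit 196) (nat_lit 183))))) (XT.nd (nat_lit 156) (nat_lit 76) (nat_lit 0) (XT.nd (nat_lit 78) (nat_lit 0) (nat_lit 0) (XT.lf (nat_lit 0) (nat_lit 12669973785) (nat_lit 76) (nat_lit 16604624592) (nat_lit 76) (nat_lit 7376988831) (nat_lit 3) (nat_lit 4) (nat_lit 4) (nat_lit 5) (nat_lit 4) (nat_lit 4) (nat_lit 222) (nat_lit 196) (nat_lit 182)) (XT.lf (nat_lit 0) (nat_lit 22830385126) (nat_lit 76) (nat_lit 14161240726) (nat_lit 76) (nat_lit 4735503755) (nat_lit 3) (nat_lit 4) (nat_lit 4) (nat_lit 5) (nat_lit 4) (nat_lit 4) (nat_lit 223) (nat_lit 196) (nat_lit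 181))) (XT.nd (nat_lit 78) (nat_lit 76) (nat_lit 0) (XT.lf (nat_lit 0) (nat_lit 34289685264) (nat_lit 76) (nat_lit 11441913219) (nat_lit 76) (nat_lit 1843914326) (nat_lit 3) (nat_lit 4) (nat_lit 4) (nat_lit 5) (nat_lit 4) (nat_lit 4) (nat_lit 224) (nat_lit 196) (nat_lit 180)) (XT.nd (nat_lit 78) (nat_lit 0) (nat_lit 0) (XT.lf (nat_lit 0) (nat_lit 1286603757) (nat_lit 152) (nat_lit 7071656053) (nat_lit 76) (nat_lit 45950296114) (nat_lit 2) (nat_lit 5) (nat_lit 4) (nat_lit 5) (nat_lit 3) (nat_lit 4) (nat_lit 225) (nat_lit 196) (nat_lit 179)) (XT.lf (nat_lit 0) (nat_lit 4675663954) (nat_lit 152) (nat_lit 152665603) (nat_lit 76) (nat_lit 57228061467) (nat_lit 2) (nat_lit 5) (nat_lit 4) (nat_lit 5) (nat_lit 3) (nat_lit 4) (nat_lit 226) (nat_lit 196) (nat_lit 178))))))))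
noncomputable def xc19 : XT := (XT.nd (nat_lit 1560) (nat_lit 0) (nat_lit 0) (XT.nd (nat_lit 780) (nat_lit 0) (nat_lit 0) (XT.nd (nat_lit 390) (nat_lit 0) (nat_lit 0) (XT.nd (nat_lit 156) (nat_lit 0) (nat_lit 0) (XT.nd (nat_lit 78) (nat_lit 0) (nat_lit 0) (XT.lf (nat_lit 0) (nat_lit 8053742348) (nat_lit 76) (nat_lit 621764376) (nat_lit 152) (nat_lit 62283151747) (nat_lit 1) (nat_lit 5) (nat_lit 2) (nat_lit 5) (nat_lit 3) (nat_lit 4) (nat_lit 227) (nat_lit 196) (nat_lit 177)) (XT.lf (nat_lit 0) (nat_lit 13297151094) (nat_lit 152) (nat_lit 63943020115) (nat_lit 0) (nat_lit 3954740952) (nat_lit 1) (nat_lit 5) (nat_lit 3) (nat_lit 4) (nat_lit 1) (nat_lit 4) (nat_lit 228) (nat_lit 196) (nat_lit 176))) (XT.nd (nat_lit 78) (nat_lit 0) (nat_lit 0) (XT.lf (nat_lit 0) (nat_lit 18556086666) (nat_lit 152) (nat_lit 65280958715) (nat_lit 0) (nat_lit 9134375951) (nat_lit 1) (nat_lit 5) (nat_lit 3)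 (nat_lit 4) (nat_lit 1) (nat_lit 4) (nat_lit 229) (nat_lit 196) (nat_lit 175)) (XT.nd (nat_lit 78) (nat_lit 0) (nat_lit 0) (XT.lf (nat_lit 0) (nat_lit 24540252213) (nat_lit 152) (nat_lit 66929955534) (nat_lit 0) (nat_lit 15049584477) (nat_lit 1) (nat_lit 5) (nat_lit 3) (nat_lit 4) (nat_lit 1) (nat_lit 4) (nat_lit 230) (nat_lit 196) (nat_lit 174)) (XT.lf (nat_lit 0) (nat_lit 31366729234) (nat_lit 152) (nat_lit 68922273552) (nat_lit 0) (nat_lit 21816098871) (nat_lit 1) (nat_lit 5) (nat_lit 3) (nat_lit 4) (nat_lit 1) (nat_lit 4) (nat_lit 231) (nat_lit 196) (nat_lit 173))))) (XT.nd (nat_lit 156) (nat_lit 0) (nat_lit 0) (XT.nd (nat_lit 78) (nat_lit 0) (nat_lit 0) (XT.lf (nat_lit 0) (nat_lit 39169079235) (nat_lit 152) (nat_lit 71296892906) (nat_lit 0) (nat_lit 29566307457) (nat_lit 1) (nat_lit 5) (nat_lit 3) (nat_lit 4) (nat_lit 1) (nat_lit 4) (nat_lit 232) (nat_lit 196) (nat_lit 172)) (XT.lf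 (nat_lit 0) (nat_lit 48099956891) (nat_lit 152) (nat_lit 74100273539) (nat_lit 0) (nat_lit 38451844753) (nat_lit 1) (nat_lit 5) (nat_lit 3) (nat_lit 4) (nat_lit 1) (nat_lit 4) (nat_lit 233) (nat_lit 196) (nat_lit 171))) (XT.nd (nat_lit 78) (nat_lit 0) (nat_lit 0) (XT.lf (nat_lit 0) (nat_lit 58334096765) (nat_lit 152) (nat_lit 77387264203) (nat_lit 0) (nat_lit 48646558226) (nat_lit 1) (nat_lit 5) (nat_lit 3) (nat_lit 4) (nat_lit 1) (nat_lit 4) (nat_lit 234) (nat_lit 196) (nat_lit 170)) (XT.nd (nat_lit 78) (nat_lit 0) (nat_lit 0) (XT.lf (nat_lit 0) (nat_lit 70071732027) (nat_lit 152) (nat_lit 81222175584) (nat_lit 0) (nat_lit 60349909662) (nat_lit 1) (nat_lit 5) (nat_lit 3) (nat_lit 4) (nat_lit 1) (nat_lit 4) (nat_lit 235) (nat_lit 196) (nat_lit 169)) (XT.lf (nat_lit 0) (nat_lit 83542512064) (nat_lit 152) (nat_lit 85680038557) (nat_lit 0) (nat_lit 73790877676) (nat_lit 1) (nat_lit 5)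 (nat_lit 3) (nat_lit 4) (nat_lit 1) (nat_lit 4) (nat_lit 236) (nat_lit 196) (nat_lit 168)))))) (XT.nd (nat_lit 390) (nat_lit 0) (nat_lit 0) (XT.nd (nat_lit 156) (nat_lit 0) (nat_lit 0) (XT.nd (nat_lit 78) (nat_lit 0) (nat_lit 0) (XT.lf (nat_lit 0) (nat_lit 99009995616) (nat_lit 152) (nat_lit 90848072181) (nat_lit 0) (nat_lit 89232437729) (nat_lit 1) (nat_lit 5) (nat_lit 3) (nat_lit 4) (nat_lit 1) (nat_lit 4) (nat_lit 237) (nat_lit 196) (nat_lit 167)) (XT.lf (nat_lit 0) (nat_lit 116776807359) (nat_lit 152) (nat_lit 96827390157) (nat_lit 0) (nat_lit 106976707300) (nat_lit 1) (nat_lit 5) (nat_lit 3) (nat_lit 4) (nat_lit 1) (nat_lit 4) (nat_lit 238) (nat_lit 196) (nat_lit 166))) (XT.nd (nat_lit 78) (nat_lit 0) (nat_lit 0) (XT.lf (nat_lit 0) (nat_lit 137190558830) (nat_lit 152) (nat_lit 103734979141) (nat_lit 0) (nat_lit 127370856881) (nat_lit 1) (nat_lit 5) (nat_lit 3) (nat_lit 4) (nat_lit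 1) (nat_lit 4) (nat_lit 239) (nat_lit 196) (nat_lit 165)) (XT.nd (nat_lit 78) (nat_lit 0) (nat_lit 0) (XT.lf (nat_lit 0) (nat_lit 160650649512) (nat_lit 152) (nat_lit 111705987612) (nat_lit 0) (nat_lit 150813902443) (nat_lit 1) (nat_lit 5) (nat_lit 3) (nat_lit 4) (nat_lit 1) (nat_lit 4) (nat_lit 240) (nat_lit 196) (nat_lit 164)) (XT.lf (nat_lit 0) (nat_lit 187616081181) (nat_lit 152) (nat_lit 120896370086) (nat_lit 0) (nat_lit 177764512267) (nat_lit 1) (nat_lit 5) (nat_lit 3) (nat_lit 4) (nat_lit 1) (nat_lit 4) (nat_lit 241) (nat_lit 196) (nat_lit 163))))) (XT.nd (nat_lit 156) (nat_lit 0) (nat_lit 0) (XT.nd (nat_lit 78) (nat_lit 0) (nat_lit 0) (XT.lf (nat_lit 0) (nat_lit 218614438368) (nat_lit 152) (nat_lit 131485938392) (nat_lit 0) (nat_lit 208749980894) (nat_lit 1) (nat_lit 5) (nat_lit 3) (nat_lit 4) (nat_lit 1) (nat_lit 4) (nat_lit 242) (nat_lit 196) (nat_lit 162)) (XT.lf (nat_lit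 0) (nat_lit 254252210672) (nat_lit 152) (nat_lit 143681879736) (nat_lit 0) (nat_lit 244376545754) (nat_lit 1) (nat_lit 5) (nat_lit 3) (nat_lit 4) (nat_lit 1) (nat_lit 4) (nat_lit 243) (nat_lit 196) (nat_lit 161))) (XT.nd (nat_lit 78) (nat_lit 0) (nat_lit 0) (XT.lf (nat_lit 0) (nat_lit 295226658853) (nat_lit 152) (nat_lit 157722810363) (nat_lit 0) (nat_lit 285341248332) (nat_lit 1) (nat_lit 5) (nat_lit 3) (nat_lit 4) (nat_lit 1) (nat_lit 4) (nat_lit 244) (nat_lit 196) (nat_lit 160)) (XT.nd (nat_lit 78) (nat_lit 0) (nat_lit 0) (XT.lf (nat_lit 0) (nat_lit 342339456900) (nat_lit 152) (nat_lit 173883444132) (nat_lit 0) (nat_lit 332445571941) (nat_lit 1) (nat_lit 5) (nat_lit 3) (nat_lit 4) (nat_lit 1) (nat_lit 4) (nat_lit 245) (nat_lit 196) (nat_lit 159)) (XT.lf (nat_lit 0) (nat_lit 396512376946) (nat_lit 152) (nat_lit 192479967357) (nat_lit 0) (nat_lit 386611122912) (nat_lit 1) (nat_lit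 5) (nat_lit 3) (nat_lit 4) (nat_lit 1) (nat_lit 4) (nat_lit 246) (nat_lit 196) (nat_lit 158))))))) (XT.nd (nat_lit 780) (nat_lit 0) (nat_lit 0) (XT.nd (nat_lit 390) (nat_lit 0) (nat_lit 0) (XT.nd (nat_lit 156) (nat_lit 0) (nat_lit 0) (XT.nd (nat_lit 78) (nat_lit 0) (nat_lit 0) (XT.lf (nat_lit 0) (nat_lit 458805323951) (nat_lit 152) (nat_lit 213876225056) (nat_lit 0) (nat_lit 448897662024) (nat_lit 1) (nat_lit 5) (nat_lit 3) (nat_lit 4) (nat_lit 1) (nat_lit 4) (nat_lit 247) (nat_lit 196) (nat_lit 157)) (XT.lf (nat_lit 0) (nat_lit 530437072963) (nat_lit 152) (nat_lit 238490839664) (nat_lit 0) (nat_lit 520523838955) (nat_lit 1) (nat_lit 5) (nat_lit 3) (nat_lit 4) (nat_lit 1) (nat_lit 4) (nat_lit 248) (nat_lit 196) (nat_lit 156))) (XT.nd (nat_lit 78) (nat_lit 0) (nat_lit 0) (XT.lf (nat_lit 0) (nat_lit 612809114724) (nat_lit 152) (nat_lit 266805401465) (nat_lit 0) (nat_lit 602891035430)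 (nat_lit 1) (nat_lit 5) (nat_lit 3) (nat_lit 4) (nat_lit 1) (nat_lit 4) (nat_lit 249) (nat_lit 196) (nat_lit 155)) (XT.nd (nat_lit 78) (nat_lit 0) (nat_lit 0) (XT.lf (nat_lit 0) (nat_lit 707533076139) (nat_lit 152) (nat_lit 299373891018) (nat_lit 0) (nat_lit 697610783551) (nat_lit 1) (nat_lit 5) (nat_lit 3) (nat_lit 4) (nat_lit 1) (nat_lit 4) (nat_lit 250) (nat_lit 196) (nat_lit 154)) (XT.lf (nat_lit 0) (nat_lit 816462252104) (nat_lit 152) (nat_lit 336833517899) (nat_lit 0) (nat_lit 806536295783) (nat_lit 1) (nat_lit 5) (nat_lit 3) (nat_lit 4) (nat_lit 1) (nat_lit 4) (nat_lit 251) (nat_lit 196) (nat_lit 153))))) (XT.nd (nat_lit 156) (nat_lit 0) (nat_lit 0) (XT.nd (nat_lit 78) (nat_lit 0) (nat_lit 0) (XT.lf (nat_lit 0) (nat_lit 941727865628) (nat_lit 152) (nat_lit 379917187853) (nat_lit 0) (nat_lit 931798723452) (nat_lit 1) (nat_lit 5) (nat_lit 3) (nat_lit 4) (nat_lit 1) (nat_lit 4)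 (nat_lit 252) (nat_lit 196) (nat_lit 152)) (XT.lf (nat_lit 0) (nat_lit 1085780765671) (nat_lit 152) (nat_lit 429467842248) (nat_lit 0) (nat_lit 1075848853186) (nat_lit 1) (nat_lit 5) (nat_lit 3) (nat_lit 4) (nat_lit 1) (nat_lit 4) (nat_lit 253) (nat_lit 196) (nat_lit 151))) (XT.nd (nat_lit 78) (nat_lit 0) (nat_lit 0) (XT.lf (nat_lit 0) (nat_lit 1251439378538) (nat_lit 152) (nat_lit 486454950409) (nat_lit 0) (nat_lit 1241505057089) (nat_lit 1) (nat_lit 5) (nat_lit 3) (nat_lit 4) (nat_lit 1) (nat_lit 4) (nat_lit 254) (nat_lit 196) (nat_lit 150)) (XT.nd (nat_lit 78) (nat_lit 0) (nat_lit 0) (XT.lf (nat_lit 0) (nat_lit 1441944851002) (nat_lit 152) (nat_lit 551993477496) (nat_lit 0) (nat_lit 1432008434802) (nat_lit 1) (nat_lit 5) (nat_lit 3) (nat_lit 4) (nat_lit 1) (nat_lit 4) (nat_lit 255) (nat_lit 196) (nat_lit 149)) (XT.lf (nat_lit 0) (nat_lit 1661024464047) (nat_lit 152) (nat_lit 627365699039)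 (nat_lit 0) (nat_lit 1651086226324) (nat_lit 1) (nat_lit 5) (nat_lit 3) (nat_lit 4) (nat_lit 1) (nat_lit 4) (nat_lit 256) (nat_lit 196) (nat_lit 148)))))) (XT.nd (nat_lit 27300) (nat_lit 0) (nat_lit 988) (XT.nd (nat_lit 156) (nat_lit 0) (nat_lit 0) (XT.nd (nat_lit 78) (nat_lit 0) (nat_lit 0) (XT.lf (nat_lit 0) (nat_lit 1912964557928) (nat_lit 152) (nat_lit 714046288938) (nat_lit 0) (nat_lit 1903024736272) (nat_lit 1) (nat_lit 5) (nat_lit 3) (nat_lit 4) (nat_lit 1) (nat_lit 4) (nat_lit 257) (nat_lit 196) (nat_lit 147)) (XT.lf (nat_lit 0) (nat_lit 2202694395351) (nat_lit 152) (nat_lit 813731171777) (nat_lit 0) (nat_lit 2192753196362) (nat_lit 1) (nat_lit 5) (nat_lit 3) (nat_lit 4) (nat_lit 1) (nat_lit 4) (nat_lit 258) (nat_lit 196) (nat_lit 146))) (XT.nd (nat_lit 78) (nat_lit 0) (nat_lit 0) (XT.lf (nat_lit 0) (nat_lit 2535882603569) (nat_lit 152) (nat_lit 928370703960) (nat_lit 0) (nat_lit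 2525940206899) (nat_lit 1) (nat_lit 5) (nat_lit 3) (nat_lit 4) (nat_lit 1) (nat_lit 4) (nat_lit 259) (nat_lit 196) (nat_lit 145)) (XT.nd (nat_lit 78) (nat_lit 0) (nat_lit 0) (XT.lf (nat_lit 0) (nat_lit 2919048082310) (nat_lit 152) (nat_lit 1060207832856) (nat_lit 0) (nat_lit 2909104644179) (nat_lit 1) (nat_lit 5) (nat_lit 3) (nat_lit 4) (nat_lit 1) (nat_lit 4) (nat_lit 260) (nat_lit 196) (nat_lit 144)) (XT.lf (nat_lit 0) (nat_lit 3359687547462) (nat_lit 152) (nat_lit 1211821980552) (nat_lit 0) (nat_lit 3349743203711) (nat_lit 1) (nat_lit 5) (nat_lit 3) (nat_lit 4) (nat_lit 1) (nat_lit 4) (nat_lit 261) (nat_lit 196) (nat_lit 143))))) (XT.nd (nat_lit 156) (nat_lit 608) (nat_lit 0) (XT.nd (nat_lit 78) (nat_lit 304) (nat_lit 0) (XT.lf (nat_lit 0) (nat_lit 1449810733) (nat_lit 380) (nat_lit 1146007450) (nat_lit 380) (nat_lit 1146007450) (nat_lit 26) (nat_lit 4) (nat_lit 31) (nat_lit 5) (nat_lit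 31) (nat_lit 4) (nat_lit 206) (nat_lit 197) (nat_lit 197)) (XT.lf (nat_lit 0) (nat_lit 2618766717) (nat_lit 304) (nat_lit 4858719005) (nat_lit 0) (nat_lit 425710544) (nat_lit 22) (nat_lit 5) (nat_lit 26) (nat_lit 4) (nat_lit 22) (nat_lit 4) (nat_lit 207) (nat_lit 197) (nat_lit 196))) (XT.nd (nat_lit 78) (nat_lit 380) (nat_lit 0) (XT.lf (nat_lit 0) (nat_lit 2957690013) (nat_lit 228) (nat_lit 4781395699) (nat_lit 228) (nat_lit 681334159) (nat_lit 19) (nat_lit 4) (nat_lit 22) (nat_lit 5) (nat_lit 22) (nat_lit 4) (nat_lit 208) (nat_lit 197) (nat_lit 195)) (XT.nd (nat_lit 78) (nat_lit 152) (nat_lit 0) (XT.lf (nat_lit 0) (nat_lit 2493970227) (nat_lit 152) (nat_lit 1473480399) (nat_lit 228) (nat_lit 5078629029) (nat_lit 16) (nat_lit 5) (nat_lit 18) (nat_lit 5) (nat_lit 19) (nat_lit 4) (nat_lit 209) (nat_lit 197) (nat_lit 194)) (XT.lf (nat_lit 0) (nat_lit 1480938395) (nat_lit 152) (nat_lit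 7490047582) (nat_lit 152) (nat_lit 823105814) (nat_lit 14) (nat_lit 4) (nat_lit 16) (nat_lit 5) (nat_lit 16) (nat_lit 4) (nat_lit 210) (nat_lit 197) (nat_lit 193))))))))
noncomputable def xc20 : XT := (XT.nd (nat_lit 1482) (nat_lit 0) (nat_lit 0) (XT.nd (nat_lit 702) (nat_lit 228) (nat_lit 0) (XT.nd (nat_lit 312) (nat_lit 228) (nat_lit 0) (XT.nd (nat_lit 156) (nat_lit 304) (nat_lit 0) (XT.nd (nat_lit 78) (nat_lit 152) (nat_lit 0) (XT.lf (nat_lit 0) (nat_lit 3584194885) (nat_lit 228) (nat_lit 372822873) (nat_lit 76) (nat_lit 6716711656) (nat_lit 13) (nat_lit 5) (nat_lit 16) (nat_lit 5) (nat_lit 14) (nat_lit 4) (nat_lit 211) (nat_lit 197) (nat_lit 192)) (XT.lf (nat_lit 0) (nat_lit 8363803500) (nat_lit 228) (nat_lit 3162106964) (nat_lit 0) (nat_lit 180915466) (nat_lit 11) (nat_lit 5) (nat_lit 14) (nat_lit 4) (nat_lit 11) (nat_lit 4) (nat_lit 212) (nat_lit 197) (nat_lit 191))) (XT.nd (nat_lit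 78) (nat_lit 76) (nat_lit 0) (XT.lf (nat_lit 0) (nat_lit 752632386) (nat_lit 228) (nat_lit 7430271641) (nat_lit 76) (nat_lit 4726524725) (nat_lit 8) (nat_lit 5) (nat_lit 11) (nat_lit 5) (nat_lit 9) (nat_lit 4) (nat_lit 213) (nat_lit 197) (nat_lit 190)) (XT.lf (nat_lit 0) (nat_lit 696264487) (nat_lit 76) (nat_lit 4303180406) (nat_lit 152) (nat_lit 9310064513) (nat_lit 7) (nat_lit 5) (nat_lit 8) (nat_lit 5) (nat_lit 9) (nat_lit 4) (nat_lit 214) (nat_lit 197) (nat_lit 189)))) (XT.nd (nat_lit 156) (nat_lit 152) (nat_lit 0) (XT.nd (nat_lit 78) (nat_lit 76) (nat_lit 0) (XT.lf (nat_lit 0) (nat_lit 9760134784) (nat_lit 152) (nat_lit 5964611924) (nat_lit 0) (nat_lit 207154179) (nat_lit 7) (nat_lit 5) (nat_lit 9) (nat_lit 4) (nat_lit 7) (nat_lit 4) (nat_lit 215) (nat_lit 197) (nat_lit 188)) (XT.lf (nat_lit 0) (nat_lit 2356604420) (nat_lit 76) (nat_lit 12750624470) (nat_lit 76) (nat_lit 2702766117)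 (nat_lit 6) (nat_lit 4) (nat_lit 7) (nat_lit 5) (nat_lit 7) (nat_lit 4) (nat_lit 216) (nat_lit 197) (nat_lit 187))) (XT.nd (nat_lit 78) (nat_lit 76) (nat_lit 0) (XT.lf (nat_lit 0) (nat_lit 1117262538) (nat_lit 152) (nat_lit 8154280750) (nat_lit 76) (nat_lit 10705894808) (nat_lit 5) (nat_lit 5) (nat_lit 7) (nat_lit 5) (nat_lit 6) (nat_lit 4) (nat_lit 217) (nat_lit 197) (nat_lit 186)) (XT.nd (nat_lit 78) (nat_lit 76) (nat_lit 0) (XT.lf (nat_lit 0) (nat_lit 5108616101) (nat_lit 152) (nat_lit 226464014) (nat_lit 76) (nat_lit 17150122898) (nat_lit 5) (nat_lit 5) (nat_lit 7) (nat_lit 5) (nat_lit 6) (nat_lit 4) (nat_lit 218) (nat_lit 197) (nat_lit 185)) (XT.lf (nat_lit 0) (nat_lit 9000407502) (nat_lit 76) (nat_lit 700642093) (nat_lit 152) (nat_lit 15669188456) (nat_lit 4) (nat_lit 5) (nat_lit 5) (nat_lit 5) (nat_lit 6) (nat_lit 4) (nat_lit 219) (nat_lit 197) (nat_lit 184)))))) (XT.nd (nat_lit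 390) (nat_lit 152) (nat_lit 0) (XT.nd (nat_lit 156) (nat_lit 76) (nat_lit 0) (XT.nd (nat_lit 78) (nat_lit 0) (nat_lit 0) (XT.lf (nat_lit 0) (nat_lit 14903952020) (nat_lit 152) (nat_lit 9499303671) (nat_lit 0) (nat_lit 4292170894) (nat_lit 4) (nat_lit 5) (nat_lit 6) (nat_lit 4) (nat_lit 4) (nat_lit 4) (nat_lit 220) (nat_lit 197) (nat_lit 183)) (XT.lf (nat_lit 0) (nat_lit 20735809364) (nat_lit 152) (nat_lit 1900470234) (nat_lit 0) (nat_lit 9896211847) (nat_lit 4) (nat_lit 5) (nat_lit 6) (nat_lit 4) (nat_lit 4) (nat_lit 4) (nat_lit 221) (nat_lit 197) (nat_lit 182))) (XT.nd (nat_lit 78) (nat_lit 0) (nat_lit 0) (XT.lf (nat_lit 0) (nat_lit 6939326251) (nat_lit 76) (nat_lit 20521437437) (nat_lit 76) (nat_lit 9483738710) (nat_lit 3) (nat_lit 4) (nat_lit 4) (nat_lit 5) (nat_lit 4) (nat_lit 4) (nat_lit 222) (nat_lit 197) (nat_lit 181)) (XT.nd (nat_lit 78) (nat_lit 0) (nat_lit 0) (XT.lf (nat_lit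 0) (nat_lit 16995006009) (nat_lit 76) (nat_lit 18120176333) (nat_lit 76) (nat_lit 6910215684) (nat_lit 3) (nat_lit 4) (nat_lit 4) (nat_lit 5) (nat_lit 4) (nat_lit 4) (nat_lit 223) (nat_lit 197) (nat_lit 180)) (XT.lf (nat_lit 0) (nat_lit 28363235205) (nat_lit 76) (nat_lit 15437477315) (nat_lit 76) (nat_lit 4077723690) (nat_lit 3) (nat_lit 4) (nat_lit 4) (nat_lit 5) (nat_lit 4) (nat_lit 4) (nat_lit 224) (nat_lit 197) (nat_lit 179))))) (XT.nd (nat_lit 156) (nat_lit 76) (nat_lit 0) (XT.nd (nat_lit 78) (nat_lit 76) (nat_lit 0) (XT.lf (nat_lit 0) (nat_lit 41266435715) (nat_lit 76) (nat_lit 12420852793) (nat_lit 76) (nat_lit 930844407) (nat_lit 3) (nat_lit 4) (nat_lit 4) (nat_lit 5) (nat_lit 4) (nat_lit 4) (nat_lit 225) (nat_lit 197) (nat_lit 178)) (XT.lf (nat_lit 0) (nat_lit 2462329627) (nat_lit 152) (nat_lit 6481627770) (nat_lit 76) (nat_lit 53427407378) (nat_lit 2) (nat_lit 5) (nat_lit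 4) (nat_lit 5) (nat_lit 3) (nat_lit 4) (nat_lit 226) (nat_lit 197) (nat_lit 177))) (XT.nd (nat_lit 78) (nat_lit 0) (nat_lit 0) (XT.lf (nat_lit 0) (nat_lit 1326236256) (nat_lit 76) (nat_lit 4937225745) (nat_lit 152) (nat_lit 65026249442) (nat_lit 1) (nat_lit 5) (nat_lit 2) (nat_lit 5) (nat_lit 3) (nat_lit 4) (nat_lit 227) (nat_lit 197) (nat_lit 176)) (XT.nd (nat_lit 78) (nat_lit 0) (nat_lit 0) (XT.lf (nat_lit 0) (nat_lit 10575757324) (nat_lit 76) (nat_lit 175765105) (nat_lit 152) (nat_lit 70785288021) (nat_lit 1) (nat_lit 5) (nat_lit 2) (nat_lit 5) (nat_lit 3) (nat_lit 4) (nat_lit 228) (nat_lit 197) (nat_lit 175)) (XT.lf (nat_lit 0) (nat_lit 15976644632) (nat_lit 152) (nat_lit 72346098259) (nat_lit 0) (nat_lit 4993419714) (nat_lit 1) (nat_lit 5) (nat_lit 3) (nat_lit 4) (nat_lit 1) (nat_lit 4) (nat_lit 229) (nat_lit 197) (nat_lit 174))))))) (XT.nd (nat_lit 780) (nat_lit 0) (nat_lit 0)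 (XT.nd (nat_lit 390) (nat_lit 0) (nat_lit 0) (XT.nd (nat_lit 156) (nat_lit 0) (nat_lit 0) (XT.nd (nat_lit 78) (nat_lit 0) (nat_lit 0) (XT.lf (nat_lit 0) (nat_lit 21935083035) (nat_lit 152) (nat_lit 74039733067) (nat_lit 0) (nat_lit 10891895491) (nat_lit 1) (nat_lit 5) (nat_lit 3) (nat_lit 4) (nat_lit 1) (nat_lit 4) (nat_lit 230) (nat_lit 197) (nat_lit 173)) (XT.lf (nat_lit 0) (nat_lit 28739188627) (nat_lit 152) (nat_lit 76070866729) (nat_lit 0) (nat_lit 17643859668) (nat_lit 1) (nat_lit 5) (nat_lit 3) (nat_lit 4) (nat_lit 1) (nat_lit 4) (nat_lit 231) (nat_lit 197) (nat_lit 172))) (XT.nd (nat_lit 78) (nat_lit 0) (nat_lit 0) (XT.lf (nat_lit 0) (nat_lit 36522085212) (nat_lit 152) (nat_lit 78479238816) (nat_lit 0) (nat_lit 25381415892) (nat_lit 1) (nat_lit 5) (nat_lit 3) (nat_lit 4) (nat_lit 1) (nat_lit 4) (nat_lit 232) (nat_lit 197) (nat_lit 171)) (XT.nd (nat_lit 78) (nat_lit 0) (nat_lit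 0) (XT.lf (nat_lit 0) (nat_lit 45436046854) (nat_lit 152) (nat_lit 81311969651) (nat_lit 0) (nat_lit 34255951133) (nat_lit 1) (nat_lit 5) (nat_lit 3) (nat_lit 4) (nat_lit 1) (nat_lit 4) (nat_lit 233) (nat_lit 197) (nat_lit 170)) (XT.lf (nat_lit 0) (nat_lit 55655477149) (nat_lit 152) (nat_lit 84624482230) (nat_lit 0) (nat_lit 44441097602) (nat_lit 1) (nat_lit 5) (nat_lit 3) (nat_lit 4) (nat_lit 1) (nat_lit 4) (nat_lit 234) (nat_lit 197) (nat_lit 169))))) (XT.nd (nat_lit 156) (nat_lit 0) (nat_lit 0) (XT.nd (nat_lit 78) (nat_lit 0) (nat_lit 0) (XT.lf (nat_lit 0) (nat_lit 67380321475) (nat_lit 152) (nat_lit 88481586581) (nat_lit 0) (nat_lit 56136129905) (nat_lit 1) (nat_lit 5) (nat_lit 3) (nat_lit 4) (nat_lit 1) (nat_lit 4) (nat_lit 235) (nat_lit 197) (nat_lit 168)) (XT.lf (nat_lit 0) (nat_lit 80839978958) (nat_lit 152) (nat_lit 92958747789) (nat_lit 0) (nat_lit 69569863889) (nat_lit 1)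 (nat_lit 5) (nat_lit 3) (nat_lit 4) (nat_lit 1) (nat_lit 4) (nat_lit 236) (nat_lit 197) (nat_lit 167))) (XT.nd (nat_lit 78) (nat_lit 0) (nat_lit 0) (XT.lf (nat_lit 0) (nat_lit 96297790723) (nat_lit 152) (nat_lit 98143562487) (nat_lit 0) (nat_lit 85005133482) (nat_lit 1) (nat_lit 5) (nat_lit 3) (nat_lit 4) (nat_lit 1) (nat_lit 4) (nat_lit 237) (nat_lit 197) (nat_lit 166)) (XT.nd (nat_lit 78) (nat_lit 0) (nat_lit 0) (XT.lf (nat_lit 0) (nat_lit 114056192218) (nat_lit 152) (nat_lit 104137472700) (nat_lit 0) (nat_lit 102743933088) (nat_lit 1) (nat_lit 5) (nat_lit 3) (nat_lit 4) (nat_lit 1) (nat_lit 4) (nat_lit 238) (nat_lit 197) (nat_lit 165)) (XT.lf (nat_lit 0) (nat_lit 134462630429) (nat_lit 152) (nat_lit 111057750587) (nat_lit 0) (nat_lit 123133326178) (nat_lit 1) (nat_lit 5) (nat_lit 3) (nat_lit 4) (nat_lit 1) (nat_lit 4) (nat_lit 239) (nat_lit 197) (nat_lit 164)))))) (XT.nd (nat_lit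 390) (nat_lit 0) (nat_lit 0) (XT.nd (nat_lit 156) (nat_lit 0) (nat_lit 0) (XT.nd (nat_lit 78) (nat_lit 0) (nat_lit 0) (XT.lf (nat_lit 0) (nat_lit 157916361755) (nat_lit 152) (nat_lit 119039792887) (nat_lit 0) (nat_lit 146572235659) (nat_lit 1) (nat_lit 5) (nat_lit 3) (nat_lit 4) (nat_lit 1) (nat_lit 4) (nat_lit 240) (nat_lit 197) (nat_lit 163)) (XT.lf (nat_lit 0) (nat_lit 184876263548) (nat_lit 152) (nat_lit 128239769993) (nat_lit 0) (nat_lit 173519248893) (nat_lit 1) (nat_lit 5) (nat_lit 3) (nat_lit 4) (nat_lit 1) (nat_lit 4) (nat_lit 241) (nat_lit 197) (nat_lit 162))) (XT.nd (nat_lit 78) (nat_lit 0) (nat_lit 0) (XT.lf (nat_lit 0) (nat_lit 215869812148) (nat_lit 152) (nat_lit 138837681459) (nat_lit 0) (nat_lit 204501590049) (nat_lit 1) (nat_lit 5) (nat_lit 3) (nat_lit 4) (nat_lit 1) (nat_lit 4) (nat_lit 242) (nat_lit 197) (nat_lit 161)) (XT.nd (nat_lit 78) (nat_lit 0) (nat_lit 0) (XT.lf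 (nat_lit 0) (nat_lit 251503403072) (nat_lit 152) (nat_lit 151040877724) (nat_lit 0) (nat_lit 240125435369) (nat_lit 1) (nat_lit 5) (nat_lit 3) (nat_lit 4) (nat_lit 1) (nat_lit 4) (nat_lit 243) (nat_lit 197) (nat_lit 160)) (XT.lf (nat_lit 0) (nat_lit 292474215271) (nat_lit 152) (nat_lit 165088116979) (nat_lit 0) (nat_lit 281087773131) (nat_lit 1) (nat_lit 5) (nat_lit 3) (nat_lit 4) (nat_lit 1) (nat_lit 4) (nat_lit 244) (nat_lit 197) (nat_lit 159))))) (XT.nd (nat_lit 156) (nat_lit 0) (nat_lit 0) (XT.nd (nat_lit 78) (nat_lit 0) (nat_lit 0) (XT.lf (nat_lit 0) (nat_lit 339583851593) (nat_lit 152) (nat_lit 181254236511) (nat_lit 0) (nat_lit 328190040377) (nat_lit 1) (nat_lit 5) (nat_lit 3) (nat_lit 4) (nat_lit 1) (nat_lit 4) (nat_lit 245) (nat_lit 197) (nat_lit 158)) (XT.lf (nat_lit 0) (nat_lit 393754022314) (nat_lit 152) (nat_lit 199855529963) (nat_lit 0) (nat_lit 382353803206) (nat_lit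 1) (nat_lit 5) (nat_lit 3) (nat_lit 4) (nat_lit 1) (nat_lit 4) (nat_lit 246) (nat_lit 197) (nat_lit 157))) (XT.nd (nat_lit 78) (nat_lit 0) (nat_lit 0) (XT.lf (nat_lit 0) (nat_lit 456044578601) (nat_lit 152) (nat_lit 221255935688) (nat_lit 0) (nat_lit 444638787412) (nat_lit 1) (nat_lit 5) (nat_lit 3) (nat_lit 4) (nat_lit 1) (nat_lit 4) (nat_lit 247) (nat_lit 197) (nat_lit 156)) (XT.nd (nat_lit 78) (nat_lit 0) (nat_lit 0) (XT.lf (nat_lit 0) (nat_lit 527674248728) (nat_lit 152) (nat_lit 245874157273) (nat_lit 0) (nat_lit 516263612252) (nat_lit 1) (nat_lit 5) (nat_lit 3) (nat_lit 4) (nat_lit 1) (nat_lit 4) (nat_lit 248) (nat_lit 197) (nat_lit 155)) (XT.lf (nat_lit 0) (nat_lit 610044482764) (nat_lit 152) (nat_lit 274191855577) (nat_lit 0) (nat_lit 598629632995) (nat_lit 1) (nat_lit 5) (nat_lit 3) (nat_lit 4) (nat_lit 1) (nat_lit 4) (nat_lit 249) (nat_lit 197) (nat_lit 154))))))))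
noncomputable def xc21 : XT := (XT.nd (nat_lit 28236) (nat_lit 0) (nat_lit 0) (XT.nd (nat_lit 702) (nat_lit 0) (nat_lit 0) (XT.nd (nat_lit 312) (nat_lit 0) (nat_lit 0) (XT.nd (nat_lit 156) (nat_lit 0) (nat_lit 0) (XT.nd (nat_lit 78) (nat_lit 0) (nat_lit 0) (XT.lf (nat_lit 0) (nat_lit 704766872243) (nat_lit 152) (nat_lit 306763072523) (nat_lit 0) (nat_lit 693348358740) (nat_lit 1) (nat_lit 5) (nat_lit 3) (nat_lit 4) (nat_lit 1) (nat_lit 4) (nat_lit 250) (nat_lit 197) (nat_lit 153)) (XT.lf (nat_lit 0) (nat_lit 813694681308) (nat_lit 152) (nat_lit 344225071051) (nat_lit 0) (nat_lit 802272981950) (nat_lit 1) (nat_lit 5) (nat_lit 3) (nat_lit 4) (nat_lit 1) (nat_lit 4) (nat_lit 251) (nat_lit 197) (nat_lit 152))) (XT.nd (nat_lit 78) (nat_lit 0) (nat_lit 0) (XT.lf (nat_lit 0) (nat_lit 938959106222) (nat_lit 152) (nat_lit 387310803307) (nat_lit 0) (nat_lit 927534636556) (nat_lit 1) (nat_lit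 5) (nat_lit 3) (nat_lit 4) (nat_lit 1) (nat_lit 4) (nat_lit 252) (nat_lit 197) (nat_lit 151)) (XT.lf (nat_lit 0) (nat_lit 1083010972692) (nat_lit 152) (nat_lit 436863251007) (nat_lit 0) (nat_lit 1071584094062) (nat_lit 1) (nat_lit 5) (nat_lit 3) (nat_lit 4) (nat_lit 1) (nat_lit 4) (nat_lit 253) (nat_lit 197) (nat_lit 150)))) (XT.nd (nat_lit 156) (nat_lit 0) (nat_lit 0) (XT.nd (nat_lit 78) (nat_lit 0) (nat_lit 0) (XT.lf (nat_lit 0) (nat_lit 1248668686800) (nat_lit 152) (nat_lit 493851918564) (nat_lit 0) (nat_lit 1237239713418) (nat_lit 1) (nat_lit 5) (nat_lit 3) (nat_lit 4) (nat_lit 1) (nat_lit 4) (nat_lit 254) (nat_lit 197) (nat_lit 149)) (XT.lf (nat_lit 0) (nat_lit 1439173377734) (nat_lit 152) (nat_lit 559391801648) (nat_lit 0) (nat_lit 1427742582830) (nat_lit 1) (nat_lit 5) (nat_lit 3) (nat_lit 4) (nat_lit 1) (nat_lit 4) (nat_lit 255) (nat_lit 197) (nat_lit 148))) (XT.nd (nat_lit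 78) (nat_lit 0) (nat_lit 0) (XT.lf (nat_lit 0) (nat_lit 1658252311188) (nat_lit 152) (nat_lit 634765202319) (nat_lit 0) (nat_lit 1646819932350) (nat_lit 1) (nat_lit 5) (nat_lit 3) (nat_lit 4) (nat_lit 1) (nat_lit 4) (nat_lit 256) (nat_lit 197) (nat_lit 147)) (XT.nd (nat_lit 78) (nat_lit 0) (nat_lit 0) (XT.lf (nat_lit 0) (nat_lit 1910191814120) (nat_lit 152) (nat_lit 721446817545) (nat_lit 0) (nat_lit 1898758057949) (nat_lit 1) (nat_lit 5) (nat_lit 3) (nat_lit 4) (nat_lit 1) (nat_lit 4) (nat_lit 257) (nat_lit 197) (nat_lit 146)) (XT.lf (nat_lit 0) (nat_lit 2199921137674) (nat_lit 152) (nat_lit 821132591974) (nat_lit 0) (nat_lit 2188486183823) (nat_lit 1) (nat_lit 5) (nat_lit 3) (nat_lit 4) (nat_lit 1) (nat_lit 4) (nat_lit 258) (nat_lit 197) (nat_lit 145)))))) (XT.nd (nat_lit 27144) (nat_lit 0) (nat_lit 1140) (XT.nd (nat_lit 156) (nat_lit 0) (nat_lit 0) (XT.nd (nat_lit 78) (nat_lit 0)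 (nat_lit 0) (XT.lf (nat_lit 0) (nat_lit 2533108899050) (nat_lit 152) (nat_lit 935772899453) (nat_lit 0) (nat_lit 2521672903738) (nat_lit 1) (nat_lit 5) (nat_lit 3) (nat_lit 4) (nat_lit 1) (nat_lit 4) (nat_lit 259) (nat_lit 197) (nat_lit 144)) (XT.lf (nat_lit 0) (nat_lit 2916273989233) (nat_lit 152) (nat_lit 1067610702519) (nat_lit 0) (nat_lit 2904837088301) (nat_lit 1) (nat_lit 5) (nat_lit 3) (nat_lit 4) (nat_lit 1) (nat_lit 4) (nat_lit 260) (nat_lit 197) (nat_lit 143))) (XT.nd (nat_lit 26832) (nat_lit 0) (nat_lit 2280) (XT.lf (nat_lit 0) (nat_lit 3356913116507) (nat_lit 152) (nat_lit 1219225436449) (nat_lit 0) (nat_lit 3345475428081) (nat_lit 1) (nat_lit 5) (nat_lit 3) (nat_lit 4) (nat_lit 1) (nat_lit 4) (nat_lit 261) (nat_lit 197) (nat_lit 142)) (XT.nd (nat_lit 78) (nat_lit 380) (nat_lit 0) (XT.lf (nat_lit 0) (nat_lit 1425887726) (nat_lit 228) (nat_lit 1008308008) (nat_lit 228) (nat_lit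 1008308008) (nat_lit 36) (nat_lit 4) (nat_lit 39) (nat_lit 5) (nat_lit 39) (nat_lit 4) (nat_lit 204) (nat_lit 198) (nat_lit 198)) (XT.lf (nat_lit 0) (nat_lit 2708894937) (nat_lit 304) (nat_lit 7726584) (nat_lit 380) (nat_lit 4441588053) (nat_lit 31) (nat_lit 5) (nat_lit 35) (nat_lit 5) (nat_lit 36) (nat_lit 4) (nat_lit 205) (nat_lit 198) (nat_lit 197))))) (XT.nd (nat_lit 156) (nat_lit 456) (nat_lit 0) (XT.nd (nat_lit 78) (nat_lit 228) (nat_lit 0) (XT.lf (nat_lit 0) (nat_lit 63527261) (nat_lit 456) (nat_lit 4960139729) (nat_lit 76) (nat_lit 2491270494) (nat_lit 25) (nat_lit 5) (nat_lit 31) (nat_lit 5) (nat_lit 26) (nat_lit 4) (nat_lit 206) (nat_lit 198) (nat_lit 196)) (XT.lf (nat_lit 0) (nat_lit 2267406858) (nat_lit 228) (nat_lit 2261078280) (nat_lit 304) (nat_lit 3431894945) (nat_lit 22) (nat_lit 5) (nat_lit 25) (nat_lit 5) (nat_lit 26) (nat_lit 4) (nat_lit 207) (nat_lit 198) (nat_lit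 195))) (XT.nd (nat_lit 78) (nat_lit 152) (nat_lit 0) (XT.lf (nat_lit 0) (nat_lit 748581386) (nat_lit 304) (nat_lit 6723292391) (nat_lit 76) (nat_lit 1035669850) (nat_lit 18) (nat_lit 5) (nat_lit 22) (nat_lit 5) (nat_lit 19) (nat_lit 4) (nat_lit 208) (nat_lit 198) (nat_lit 194)) (XT.nd (nat_lit 78) (nat_lit 0) (nat_lit 0) (XT.lf (nat_lit 0) (nat_lit 829163213) (nat_lit 152) (nat_lit 4243661268) (nat_lit 228) (nat_lit 4084975046) (nat_lit 16) (nat_lit 5) (nat_lit 18) (nat_lit 5) (nat_lit 19) (nat_lit 4) (nat_lit 209) (nat_lit 198) (nat_lit 193)) (XT.lf (nat_lit 0) (nat_lit 9322215818) (nat_lit 152) (nat_lit 436637312) (nat_lit 228) (nat_lit 174681082) (nat_lit 16) (nat_lit 5) (nat_lit 18) (nat_lit 5) (nat_lit 19) (nat_lit 4) (nat_lit 210) (nat_lit 198) (nat_lit 192))))))) (XT.nd (nat_lit 780) (nat_lit 228) (nat_lit 0) (XT.nd (nat_lit 390) (nat_lit 228) (nat_lit 0) (XT.nd (nat_lit 156)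 (nat_lit 304) (nat_lit 0) (XT.nd (nat_lit 78) (nat_lit 152) (nat_lit 0) (XT.lf (nat_lit 0) (nat_lit 3963740159) (nat_lit 228) (nat_lit 2928138246) (nat_lit 76) (nat_lit 3940830845) (nat_lit 13) (nat_lit 5) (nat_lit 16) (nat_lit 5) (nat_lit 14) (nat_lit 4) (nat_lit 211) (nat_lit 198) (nat_lit 191)) (XT.lf (nat_lit 0) (nat_lit 5598461946) (nat_lit 152) (nat_lit 2886666617) (nat_lit 228) (nat_lit 3402960537) (nat_lit 11) (nat_lit 5) (nat_lit 13) (nat_lit 5) (nat_lit 14) (nat_lit 4) (nat_lit 212) (nat_lit 198) (nat_lit 190))) (XT.nd (nat_lit 78) (nat_lit 76) (nat_lit 0) (XT.lf (nat_lit 0) (nat_lit 367326024) (nat_lit 228) (nat_lit 11100763781) (nat_lit 76) (nat_lit 1650295717) (nat_lit 8) (nat_lit 5) (nat_lit 11) (nat_lit 5) (nat_lit 9) (nat_lit 4) (nat_lit 213) (nat_lit 198) (nat_lit 189)) (XT.nd (nat_lit 78) (nat_lit 76) (nat_lit 0) (XT.lf (nat_lit 0) (nat_lit 4442864736) (nat_lit 228)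 (nat_lit 3238281422) (nat_lit 76) (nat_lit 6852160140) (nat_lit 8) (nat_lit 5) (nat_lit 11) (nat_lit 5) (nat_lit 9) (nat_lit 4) (nat_lit 214) (nat_lit 198) (nat_lit 188)) (XT.lf (nat_lit 0) (nat_lit 5658063708) (nat_lit 76) (nat_lit 3318845787) (nat_lit 152) (nat_lit 7197909652) (nat_lit 7) (nat_lit 5) (nat_lit 8) (nat_lit 5) (nat_lit 9) (nat_lit 4) (nat_lit 215) (nat_lit 198) (nat_lit 187))))) (XT.nd (nat_lit 156) (nat_lit 152) (nat_lit 0) (XT.nd (nat_lit 78) (nat_lit 76) (nat_lit 0) (XT.lf (nat_lit 0) (nat_lit 14064802723) (nat_lit 152) (nat_lit 2425147880) (nat_lit 0) (nat_lit 1584559392) (nat_lit 7) (nat_lit 5) (nat_lit 9) (nat_lit 4) (nat_lit 7) (nat_lit 4) (nat_lit 216) (nat_lit 198) (nat_lit 186)) (XT.lf (nat_lit 0) (nat_lit 6768921710) (nat_lit 76) (nat_lit 13172134844) (nat_lit 76) (nat_lit 317692839) (nat_lit 6) (nat_lit 4) (nat_lit 7) (nat_lit 5) (nat_lit 7) (nat_lit 4) (nat_lit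 217) (nat_lit 198) (nat_lit 185))) (XT.nd (nat_lit 78) (nat_lit 76) (nat_lit 0) (XT.lf (nat_lit 0) (nat_lit 3589979462) (nat_lit 152) (nat_lit 5712674876) (nat_lit 76) (nat_lit 13473039672) (nat_lit 5) (nat_lit 5) (nat_lit 7) (nat_lit 5) (nat_lit 6) (nat_lit 4) (nat_lit 218) (nat_lit 198) (nat_lit 184)) (XT.nd (nat_lit 78) (nat_lit 0) (nat_lit 0) (XT.lf (nat_lit 0) (nat_lit 3080397732) (nat_lit 76) (nat_lit 4873053156) (nat_lit 152) (nat_lit 17726119103) (nat_lit 4) (nat_lit 5) (nat_lit 5) (nat_lit 5) (nat_lit 6) (nat_lit 4) (nat_lit 219) (nat_lit 198) (nat_lit 183)) (XT.lf (nat_lit 0) (nat_lit 12976537670) (nat_lit 152) (nat_lit 15759877606) (nat_lit 0) (nat_lit 283184133) (nat_lit 4) (nat_lit 5) (nat_lit 6) (nat_lit 4) (nat_lit 4) (nat_lit 4) (nat_lit 220) (nat_lit 198) (nat_lit 182)))))) (XT.nd (nat_lit 390) (nat_lit 152) (nat_lit 0) (XT.nd (nat_lit 156) (nat_lit 0) (nat_lit 0) (XT.nd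 (nat_lit 78) (nat_lit 76) (nat_lit 0) (XT.lf (nat_lit 0) (nat_lit 18739291486) (nat_lit 152) (nat_lit 8275460528) (nat_lit 0) (nat_lit 5847836740) (nat_lit 4) (nat_lit 5) (nat_lit 6) (nat_lit 4) (nat_lit 4) (nat_lit 4) (nat_lit 221) (nat_lit 198) (nat_lit 181)) (XT.lf (nat_lit 0) (nat_lit 123908682) (nat_lit 76) (nat_lit 25116336148) (nat_lit 76) (nat_lit 12052619479) (nat_lit 3) (nat_lit 4) (nat_lit 4) (nat_lit 5) (nat_lit 4) (nat_lit 4) (nat_lit 222) (nat_lit 198) (nat_lit 180))) (XT.nd (nat_lit 78) (nat_lit 0) (nat_lit 0) (XT.lf (nat_lit 0) (nat_lit 10088517498) (nat_lit 76) (nat_lit 22751703533) (nat_lit 76) (nat_lit 9538193889) (nat_lit 3) (nat_lit 4) (nat_lit 4) (nat_lit 5) (nat_lit 4) (nat_lit 4) (nat_lit 223) (nat_lit 198) (nat_lit 179)) (XT.nd (nat_lit 78) (nat_lit 0) (nat_lit 0) (XT.lf (nat_lit 0) (nat_lit 21377554571) (nat_lit 76) (nat_lit 20100855375) (nat_lit 76) (nat_lit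 6757090969) (nat_lit 3) (nat_lit 4) (nat_lit 4) (nat_lit 5) (nat_lit 4) (nat_lit 4) (nat_lit 224) (nat_lit 198) (nat_lit 178)) (XT.lf (nat_lit 0) (nat_lit 34211892364) (nat_lit 76) (nat_lit 17111927253) (nat_lit 76) (nat_lit 3654897838) (nat_lit 3) (nat_lit 4) (nat_lit 4) (nat_lit 5) (nat_lit 4) (nat_lit 4) (nat_lit 225) (nat_lit 198) (nat_lit 177))))) (XT.nd (nat_lit 156) (nat_lit 76) (nat_lit 0) (XT.nd (nat_lit 78) (nat_lit 76) (nat_lit 0) (XT.lf (nat_lit 0) (nat_lit 48842637488) (nat_lit 76) (nat_lit 13726440139) (nat_lit 76) (nat_lit 170919411) (nat_lit 3) (nat_lit 4) (nat_lit 4) (nat_lit 5) (nat_lit 4) (nat_lit 4) (nat_lit 226) (nat_lit 198) (nat_lit 176)) (XT.lf (nat_lit 0) (nat_lit 3574768150) (nat_lit 152) (nat_lit 6205647594) (nat_lit 76) (nat_lit 61883535004) (nat_lit 2) (nat_lit 5) (nat_lit 4) (nat_lit 5) (nat_lit 3) (nat_lit 4) (nat_lit 227) (nat_lit 198) (nat_lit 175)))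 (XT.nd (nat_lit 78) (nat_lit 0) (nat_lit 0) (XT.lf (nat_lit 0) (nat_lit 2667740063) (nat_lit 76) (nat_lit 5208884453) (nat_lit 152) (nat_lit 74049459478) (nat_lit 1) (nat_lit 5) (nat_lit 2) (nat_lit 5) (nat_lit 3) (nat_lit 4) (nat_lit 228) (nat_lit 198) (nat_lit 174)) (XT.nd (nat_lit 78) (nat_lit 0) (nat_lit 0) (XT.lf (nat_lit 0) (nat_lit 12954972934) (nat_lit 152) (nat_lit 80566980412) (nat_lit 0) (nat_lit 195344631) (nat_lit 1) (nat_lit 5) (nat_lit 3) (nat_lit 4) (nat_lit 1) (nat_lit 4) (nat_lit 229) (nat_lit 198) (nat_lit 173)) (XT.lf (nat_lit 0) (nat_lit 18891039909) (nat_lit 152) (nat_lit 82299430863) (nat_lit 0) (nat_lit 6079270191) (nat_lit 1) (nat_lit 5) (nat_lit 3) (nat_lit 4) (nat_lit 1) (nat_lit 4) (nat_lit 230) (nat_lit 198) (nat_lit 172))))))))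
noncomputable def xc22 : XT := (XT.nd (nat_lit 1482) (nat_lit 0) (nat_lit 0) (XT.nd (nat_lit 702) (nat_lit 0) (nat_lit 0) (XT.nd (nat_lit 312) (nat_lit 0) (nat_lit 0) (XT.nd (nat_lit 156) (nat_lit 0) (nat_lit 0) (XT.nd (nat_lit 78) (nat_lit 0) (nat_lit 0) (XT.lf (nat_lit 0) (nat_lit 25675692084) (nat_lit 152) (nat_lit 84364317257) (nat_lit 0) (nat_lit 12818582005) (nat_lit 1) (nat_lit 5) (nat_lit 3) (nat_lit 4) (nat_lit 1) (nat_lit 4) (nat_lit 231) (nat_lit 198) (nat_lit 171)) (XT.lf (nat_lit 0) (nat_lit 33441672654) (nat_lit 152) (nat_lit 86802039547) (nat_lit 0) (nat_lit 20545136175) (nat_lit 1) (nat_lit 5) (nat_lit 3) (nat_lit 4) (nat_lit 1) (nat_lit 4) (nat_lit 232) (nat_lit 198) (nat_lit 170))) (XT.nd (nat_lit 78) (nat_lit 0) (nat_lit 0) (XT.lf (nat_lit 0) (nat_lit 42340924718) (nat_lit 152) (nat_lit 89660292298) (nat_lit 0) (nat_lit 29410104412) (nat_lit 1) (nat_lit 5) (nat_lit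 3) (nat_lit 4) (nat_lit 1) (nat_lit 4) (nat_lit 233) (nat_lit 198) (nat_lit 169)) (XT.lf (nat_lit 0) (nat_lit 52547564077) (nat_lit 152) (nat_lit 92994997847) (nat_lit 0) (nat_lit 39586931748) (nat_lit 1) (nat_lit 5) (nat_lit 3) (nat_lit 4) (nat_lit 1) (nat_lit 4) (nat_lit 234) (nat_lit 198) (nat_lit 168)))) (XT.nd (nat_lit 156) (nat_lit 0) (nat_lit 0) (XT.nd (nat_lit 78) (nat_lit 0) (nat_lit 0) (XT.lf (nat_lit 0) (nat_lit 64261285848) (nat_lit 152) (nat_lit 96871400432) (nat_lit 0) (nat_lit 51274730021) (nat_lit 1) (nat_lit 5) (nat_lit 3) (nat_lit 4) (nat_lit 1) (nat_lit 4) (nat_lit 235) (nat_lit 198) (nat_lit 167)) (XT.lf (nat_lit 0) (nat_lit 77711271545) (nat_lit 152) (nat_lit 101365342714) (nat_lit 0) (nat_lit 64702173545) (nat_lit 1) (nat_lit 5) (nat_lit 3) (nat_lit 4) (nat_lit 1) (nat_lit 4) (nat_lit 236) (nat_lit 198) (nat_lit 166))) (XT.nd (nat_lit 78) (nat_lit 0) (nat_lit 0)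 (XT.lf (nat_lit 0) (nat_lit 93160673061) (nat_lit 152) (nat_lit 106564749649) (nat_lit 0) (nat_lit 80131973173) (nat_lit 1) (nat_lit 5) (nat_lit 3) (nat_lit 4) (nat_lit 1) (nat_lit 4) (nat_lit 237) (nat_lit 198) (nat_lit 165)) (XT.nd (nat_lit 78) (nat_lit 0) (nat_lit 0) (XT.lf (nat_lit 0) (nat_lit 110911761296) (nat_lit 152) (nat_lit 112571348766) (nat_lit 0) (nat_lit 97866016287) (nat_lit 1) (nat_lit 5) (nat_lit 3) (nat_lit 4) (nat_lit 1) (nat_lit 4) (nat_lit 238) (nat_lit 198) (nat_lit 164)) (XT.lf (nat_lit 0) (nat_lit 131311840151) (nat_lit 152) (nat_lit 119502660480) (nat_lit 0) (nat_lit 118251273297) (nat_lit 1) (nat_lit 5) (nat_lit 3) (nat_lit 4) (nat_lit 1) (nat_lit 4) (nat_lit 239) (nat_lit 198) (nat_lit 163)))))) (XT.nd (nat_lit 390) (nat_lit 0) (nat_lit 0) (XT.nd (nat_lit 156) (nat_lit 0) (nat_lit 0) (XT.nd (nat_lit 78) (nat_lit 0) (nat_lit 0) (XT.lf (nat_lit 0) (nat_lit 154760041602)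 (nat_lit 152) (nat_lit 127494297414) (nat_lit 0) (nat_lit 141686586188) (nat_lit 1) (nat_lit 5) (nat_lit 3) (nat_lit 4) (nat_lit 1) (nat_lit 4) (nat_lit 240) (nat_lit 198) (nat_lit 162)) (XT.lf (nat_lit 0) (nat_lit 181715134808) (nat_lit 152) (nat_lit 136702617680) (nat_lit 0) (nat_lit 168630471950) (nat_lit 1) (nat_lit 5) (nat_lit 3) (nat_lit 4) (nat_lit 1) (nat_lit 4) (nat_lit 241) (nat_lit 198) (nat_lit 161))) (XT.nd (nat_lit 78) (nat_lit 0) (nat_lit 0) (XT.lf (nat_lit 0) (nat_lit 212704502028) (nat_lit 152) (nat_lit 147307784066) (nat_lit 0) (nat_lit 199610093567) (nat_lit 1) (nat_lit 5) (nat_lit 3) (nat_lit 4) (nat_lit 1) (nat_lit 4) (nat_lit 242) (nat_lit 198) (nat_lit 160)) (XT.nd (nat_lit 78) (nat_lit 0) (nat_lit 0) (XT.lf (nat_lit 0) (nat_lit 248334456969) (nat_lit 152) (nat_lit 159517288959) (nat_lit 0) (nat_lit 235231574070) (nat_lit 1) (nat_lit 5) (nat_lit 3) (nat_lit 4)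 (nat_lit 1) (nat_lit 4) (nat_lit 243) (nat_lit 198) (nat_lit 159)) (XT.lf (nat_lit 0) (nat_lit 289302107444) (nat_lit 152) (nat_lit 173570013976) (nat_lit 0) (nat_lit 276191855469) (nat_lit 1) (nat_lit 5) (nat_lit 3) (nat_lit 4) (nat_lit 1) (nat_lit 4) (nat_lit 244) (nat_lit 198) (nat_lit 158))))) (XT.nd (nat_lit 156) (nat_lit 0) (nat_lit 0) (XT.nd (nat_lit 78) (nat_lit 0) (nat_lit 0) (XT.lf (nat_lit 0) (nat_lit 336408994441) (nat_lit 152) (nat_lit 189740903736) (nat_lit 0) (nat_lit 323292334574) (nat_lit 1) (nat_lit 5) (nat_lit 3) (nat_lit 4) (nat_lit 1) (nat_lit 4) (nat_lit 245) (nat_lit 198) (nat_lit 157)) (XT.lf (nat_lit 0) (nat_lit 390576774445) (nat_lit 152) (nat_lit 208346345214) (nat_lit 0) (nat_lit 377454542498) (nat_lit 1) (nat_lit 5) (nat_lit 3) (nat_lit 4) (nat_lit 1) (nat_lit 4) (nat_lit 246) (nat_lit 198) (nat_lit 156))) (XT.nd (nat_lit 78) (nat_lit 0) (nat_lit 0) (XT.lf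 (nat_lit 0) (nat_lit 452865251847) (nat_lit 152) (nat_lit 229750357916) (nat_lit 0) (nat_lit 439738174612) (nat_lit 1) (nat_lit 5) (nat_lit 3) (nat_lit 4) (nat_lit 1) (nat_lit 4) (nat_lit 247) (nat_lit 198) (nat_lit 155)) (XT.nd (nat_lit 78) (nat_lit 0) (nat_lit 0) (XT.lf (nat_lit 0) (nat_lit 524493114248) (nat_lit 152) (nat_lit 254371716005) (nat_lit 0) (nat_lit 511361823720) (nat_lit 1) (nat_lit 5) (nat_lit 3) (nat_lit 4) (nat_lit 1) (nat_lit 4) (nat_lit 248) (nat_lit 198) (nat_lit 154)) (XT.lf (nat_lit 0) (nat_lit 606861776348) (nat_lit 152) (nat_lit 282692141702) (nat_lit 0) (nat_lit 593726822087) (nat_lit 1) (nat_lit 5) (nat_lit 3) (nat_lit 4) (nat_lit 1) (nat_lit 4) (nat_lit 249) (nat_lit 198) (nat_lit 153))))))) (XT.nd (nat_lit 780) (nat_lit 0) (nat_lit 0) (XT.nd (nat_lit 390) (nat_lit 0) (nat_lit 0) (XT.nd (nat_lit 156) (nat_lit 0) (nat_lit 0) (XT.nd (nat_lit 78) (nat_lit 0)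 (nat_lit 0) (XT.lf (nat_lit 0) (nat_lit 701582798926) (nat_lit 152) (nat_lit 315265730295) (nat_lit 0) (nat_lit 688444658810) (nat_lit 1) (nat_lit 5) (nat_lit 3) (nat_lit 4) (nat_lit 1) (nat_lit 4) (nat_lit 250) (nat_lit 198) (nat_lit 152)) (XT.lf (nat_lit 0) (nat_lit 810509419382) (nat_lit 152) (nat_lit 352729791124) (nat_lit 0) (nat_lit 797368508957) (nat_lit 1) (nat_lit 5) (nat_lit 3) (nat_lit 4) (nat_lit 1) (nat_lit 4) (nat_lit 251) (nat_lit 198) (nat_lit 151))) (XT.nd (nat_lit 78) (nat_lit 0) (nat_lit 0) (XT.lf (nat_lit 0) (nat_lit 935772810723) (nat_lit 152) (nat_lit 395817316685) (nat_lit 0) (nat_lit 922629491335) (nat_lit 1) (nat_lit 5) (nat_lit 3) (nat_lit 4) (nat_lit 1) (nat_lit 4) (nat_lit 252) (nat_lit 198) (nat_lit 150)) (XT.nd (nat_lit 78) (nat_lit 0) (nat_lit 0) (XT.lf (nat_lit 0) (nat_lit 1079823778434) (nat_lit 152) (nat_lit 445371323782) (nat_lit 0) (nat_lit 1066678364294)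 (nat_lit 1) (nat_lit 5) (nat_lit 3) (nat_lit 4) (nat_lit 1) (nat_lit 4) (nat_lit 253) (nat_lit 198) (nat_lit 149)) (XT.lf (nat_lit 0) (nat_lit 1245480711011) (nat_lit 152) (nat_lit 502361347336) (nat_lit 0) (nat_lit 1232333475348) (nat_lit 1) (nat_lit 5) (nat_lit 3) (nat_lit 4) (nat_lit 1) (nat_lit 4) (nat_lit 254) (nat_lit 198) (nat_lit 148))))) (XT.nd (nat_lit 156) (nat_lit 0) (nat_lit 0) (XT.nd (nat_lit 78) (nat_lit 0) (nat_lit 0) (XT.lf (nat_lit 0) (nat_lit 1435984722355) (nat_lit 152) (nat_lit 567902409547) (nat_lit 0) (nat_lit 1422835902759) (nat_lit 1) (nat_lit 5) (nat_lit 3) (nat_lit 4) (nat_lit 1) (nat_lit 4) (nat_lit 255) (nat_lit 198) (nat_lit 147)) (XT.lf (nat_lit 0) (nat_lit 1655063064860) (nat_lit 152) (nat_lit 643276835546) (nat_lit 0) (nat_lit 1641912867931) (nat_lit 1) (nat_lit 5) (nat_lit 3) (nat_lit 4) (nat_lit 1) (nat_lit 4) (nat_lit 256) (nat_lit 198) (nat_lit 146)))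 (XT.nd (nat_lit 78) (nat_lit 0) (nat_lit 0) (XT.lf (nat_lit 0) (nat_lit 1907002053923) (nat_lit 152) (nat_lit 729959342362) (nat_lit 0) (nat_lit 1893850659313) (nat_lit 1) (nat_lit 5) (nat_lit 3) (nat_lit 4) (nat_lit 1) (nat_lit 4) (nat_lit 257) (nat_lit 198) (nat_lit 145)) (XT.nd (nat_lit 78) (nat_lit 0) (nat_lit 0) (XT.lf (nat_lit 0) (nat_lit 2196730930635) (nat_lit 152) (nat_lit 829645892087) (nat_lit 0) (nat_lit 2183578494563) (nat_lit 1) (nat_lit 5) (nat_lit 3) (nat_lit 4) (nat_lit 1) (nat_lit 4) (nat_lit 258) (nat_lit 198) (nat_lit 144)) (XT.lf (nat_lit 0) (nat_lit 2529918303453) (nat_lit 152) (nat_lit 944286873735) (nat_lit 0) (nat_lit 2516764961763) (nat_lit 1) (nat_lit 5) (nat_lit 3) (nat_lit 4) (nat_lit 1) (nat_lit 4) (nat_lit 259) (nat_lit 198) (nat_lit 143)))))) (XT.nd (nat_lit 26988) (nat_lit 0) (nat_lit 1292) (XT.nd (nat_lit 26754) (nat_lit 0) (nat_lit 2584) (XT.nd (nat_lit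 78) (nat_lit 0) (nat_lit 0) (XT.lf (nat_lit 0) (nat_lit 2913083055759) (nat_lit 152) (nat_lit 1076125263036) (nat_lit 0) (nat_lit 2899928926574) (nat_lit 1) (nat_lit 5) (nat_lit 3) (nat_lit 4) (nat_lit 1) (nat_lit 4) (nat_lit 260) (nat_lit 198) (nat_lit 142)) (XT.lf (nat_lit 0) (nat_lit 3353721889227) (nat_lit 152) (nat_lit 1227740506736) (nat_lit 0) (nat_lit 3340567075264) (nat_lit 1) (nat_lit 5) (nat_lit 3) (nat_lit 4) (nat_lit 1) (nat_lit 4) (nat_lit 261) (nat_lit 198) (nat_lit 141))) (XT.nd (nat_lit 78) (nat_lit 532) (nat_lit 0) (XT.lf (nat_lit 0) (nat_lit 1935519294) (nat_lit 76) (nat_lit 669025873) (nat_lit 76) (nat_lit 669025873) (nat_lit 42) (nat_lit 4) (nat_lit 43) (nat_lit 5) (nat_lit 43) (nat_lit 4) (nat_lit 202) (nat_lit 199) (nat_lit 199)) (XT.nd (nat_lit 78) (nat_lit 304) (nat_lit 0) (XT.lf (nat_lit 0) (nat_lit 3125796244) (nat_lit 152) (nat_lit 133511499) (nat_lit 228)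 (nat_lit 3435100434) (nat_lit 39) (nat_lit 5) (nat_lit 41) (nat_lit 5) (nat_lit 42) (nat_lit 4) (nat_lit 203) (nat_lit 199) (nat_lit 198)) (XT.lf (nat_lit 0) (nat_lit 931225340) (nat_lit 304) (nat_lit 4387658621) (nat_lit 76) (nat_lit 1598281454) (nat_lit 35) (nat_lit 5) (nat_lit 39) (nat_lit 5) (nat_lit 36) (nat_lit 4) (nat_lit 204) (nat_lit 199) (nat_lit 197))))) (XT.nd (nat_lit 156) (nat_lit 532) (nat_lit 0) (XT.nd (nat_lit 78) (nat_lit 456) (nat_lit 0) (XT.lf (nat_lit 0) (nat_lit 1990403609) (nat_lit 304) (nat_lit 3236996226) (nat_lit 380) (nat_lit 1990719396) (nat_lit 31) (nat_lit 5) (nat_lit 35) (nat_lit 5) (nat_lit 36) (nat_lit 4) (nat_lit 205) (nat_lit 199) (nat_lit 196)) (XT.lf (nat_lit 0) (nat_lit 1451690788) (nat_lit 380) (nat_lit 554125367) (nat_lit 456) (nat_lit 5599007712) (nat_lit 25) (nat_lit 5) (nat_lit 30) (nat_lit 5) (nat_lit 31) (nat_lit 5) (nat_lit 206) (nat_lit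 199) (nat_lit 195))) (XT.nd (nat_lit 78) (nat_lit 304) (nat_lit 0) (XT.lf (nat_lit 0) (nat_lit 734517448) (nat_lit 228) (nat_lit 5423957835) (nat_lit 304) (nat_lit 1920091615) (nat_lit 22) (nat_lit 5) (nat_lit 25) (nat_lit 5) (nat_lit 26) (nat_lit 4) (nat_lit 207) (nat_lit 199) (nat_lit 194)) (XT.nd (nat_lit 78) (nat_lit 228) (nat_lit 0) (XT.lf (nat_lit 0) (nat_lit 1872122510) (nat_lit 304) (nat_lit 234129437) (nat_lit 76) (nat_lit 6544250952) (nat_lit 21) (nat_lit 5) (nat_lit 25) (nat_lit 5) (nat_lit 22) (nat_lit 5) (nat_lit 208) (nat_lit 199) (nat_lit 193)) (XT.lf (nat_lit 0) (nat_lit 5901931039) (nat_lit 304) (nat_lit 1600498919) (nat_lit 76) (nat_lit 1824205619) (nat_lit 18) (nat_lit 5) (nat_lit 22) (nat_lit 5) (nat_lit 19) (nat_lit 4) (nat_lit 209) (nat_lit 199) (nat_lit 192))))))))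
noncomputable def xc23 : XT := (XT.nd (nat_lit 1560) (nat_lit 0) (nat_lit 0) (XT.nd (nat_lit 780) (nat_lit 304) (nat_lit 0) (XT.nd (nat_lit 390) (nat_lit 228) (nat_lit 0) (XT.nd (nat_lit 156) (nat_lit 380) (nat_lit 0) (XT.nd (nat_lit 78) (nat_lit 152) (nat_lit 0) (XT.lf (nat_lit 0) (nat_lit 217555068) (nat_lit 228) (nat_lit 3562911268) (nat_lit 76) (nat_lit 6342338683) (nat_lit 15) (nat_lit 5) (nat_lit 18) (nat_lit 5) (nat_lit 16) (nat_lit 5) (nat_lit 210) (nat_lit 199) (nat_lit 191)) (XT.lf (nat_lit 0) (nat_lit 4007490581) (nat_lit 228) (nat_lit 6400503564) (nat_lit 76) (nat_lit 642455341) (nat_lit 13) (nat_lit 5) (nat_lit 16) (nat_lit 5) (nat_lit 14) (nat_lit 4) (nat_lit 211) (nat_lit 199) (nat_lit 190))) (XT.nd (nat_lit 78) (nat_lit 228) (nat_lit 0) (XT.lf (nat_lit 0) (nat_lit 1716004705) (nat_lit 152) (nat_lit 6560663217) (nat_lit 228) (nat_lit 3850751968) (nat_lit 11) (nat_lit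 5) (nat_lit 13) (nat_lit 5) (nat_lit 14) (nat_lit 4) (nat_lit 212) (nat_lit 199) (nat_lit 189)) (XT.nd (nat_lit 78) (nat_lit 228) (nat_lit 0) (XT.lf (nat_lit 0) (nat_lit 11012738061) (nat_lit 152) (nat_lit 2052652251) (nat_lit 228) (nat_lit 312855010) (nat_lit 11) (nat_lit 5) (nat_lit 13) (nat_lit 5) (nat_lit 14) (nat_lit 4) (nat_lit 213) (nat_lit 199) (nat_lit 188)) (XT.lf (nat_lit 0) (nat_lit 3533153182) (nat_lit 228) (nat_lit 8151503597) (nat_lit 76) (nat_lit 3129715472) (nat_lit 8) (nat_lit 5) (nat_lit 11) (nat_lit 5) (nat_lit 9) (nat_lit 4) (nat_lit 214) (nat_lit 199) (nat_lit 187))))) (XT.nd (nat_lit 156) (nat_lit 152) (nat_lit 0) (XT.nd (nat_lit 78) (nat_lit 0) (nat_lit 0) (XT.lf (nat_lit 0) (nat_lit 303666790) (nat_lit 76) (nat_lit 7517911941) (nat_lit 152) (nat_lit 8654816562) (nat_lit 7) (nat_lit 5) (nat_lit 8) (nat_lit 5) (nat_lit 9) (nat_lit 4) (nat_lit 215) (nat_lit 199)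 (nat_lit 186)) (XT.lf (nat_lit 0) (nat_lit 10179634927) (nat_lit 76) (nat_lit 2584300874) (nat_lit 152) (nat_lit 5624541629) (nat_lit 7) (nat_lit 5) (nat_lit 8) (nat_lit 5) (nat_lit 9) (nat_lit 4) (nat_lit 216) (nat_lit 199) (nat_lit 185))) (XT.nd (nat_lit 78) (nat_lit 76) (nat_lit 0) (XT.lf (nat_lit 0) (nat_lit 593634807) (nat_lit 76) (nat_lit 17743103039) (nat_lit 76) (nat_lit 2260905905) (nat_lit 6) (nat_lit 4) (nat_lit 7) (nat_lit 5) (nat_lit 7) (nat_lit 4) (nat_lit 217) (nat_lit 199) (nat_lit 184)) (XT.nd (nat_lit 78) (nat_lit 0) (nat_lit 0) (XT.lf (nat_lit 0) (nat_lit 1657388092) (nat_lit 152) (nat_lit 12317777859) (nat_lit 76) (nat_lit 9150611997) (nat_lit 5) (nat_lit 5) (nat_lit 7) (nat_lit 5) (nat_lit 6) (nat_lit 4) (nat_lit 218) (nat_lit 199) (nat_lit 183)) (XT.lf (nat_lit 0) (nat_lit 5871483975) (nat_lit 152) (nat_lit 3798500126) (nat_lit 76) (nat_lit 16372075505) (nat_lit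 5) (nat_lit 5) (nat_lit 7) (nat_lit 5) (nat_lit 6) (nat_lit 4) (nat_lit 219) (nat_lit 199) (nat_lit 182)))))) (XT.nd (nat_lit 390) (nat_lit 152) (nat_lit 0) (XT.nd (nat_lit 156) (nat_lit 76) (nat_lit 0) (XT.nd (nat_lit 78) (nat_lit 0) (nat_lit 0) (XT.lf (nat_lit 0) (nat_lit 6078975594) (nat_lit 76) (nat_lit 4644155028) (nat_lit 152) (nat_lit 18673069814) (nat_lit 4) (nat_lit 5) (nat_lit 5) (nat_lit 5) (nat_lit 6) (nat_lit 4) (nat_lit 220) (nat_lit 199) (nat_lit 181)) (XT.lf (nat_lit 0) (nat_lit 16314102375) (nat_lit 152) (nat_lit 15820608209) (nat_lit 0) (nat_lit 1118566285) (nat_lit 4) (nat_lit 5) (nat_lit 6) (nat_lit 4) (nat_lit 4) (nat_lit 4) (nat_lit 221) (nat_lit 199) (nat_lit 180))) (XT.nd (nat_lit 78) (nat_lit 76) (nat_lit 0) (XT.lf (nat_lit 0) (nat_lit 22759823518) (nat_lit 152) (nat_lit 7513952617) (nat_lit 0) (nat_lit 7414494452) (nat_lit 4) (nat_lit 5) (nat_lit 6) (nat_lit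 4) (nat_lit 4) (nat_lit 4) (nat_lit 222) (nat_lit 199) (nat_lit 179)) (XT.nd (nat_lit 78) (nat_lit 0) (nat_lit 0) (XT.lf (nat_lit 0) (nat_lit 1975792645) (nat_lit 76) (nat_lit 28146439161) (nat_lit 76) (nat_lit 12670855334) (nat_lit 3) (nat_lit 4) (nat_lit 4) (nat_lit 5) (nat_lit 4) (nat_lit 4) (nat_lit 223) (nat_lit 199) (nat_lit 178)) (XT.lf (nat_lit 0) (nat_lit 13195967001) (nat_lit 76) (nat_lit 25523287403) (nat_lit 76) (nat_lit 9934438566) (nat_lit 3) (nat_lit 4) (nat_lit 4) (nat_lit 5) (nat_lit 4) (nat_lit 4) (nat_lit 224) (nat_lit 199) (nat_lit 177))))) (XT.nd (nat_lit 156) (nat_lit 152) (nat_lit 0) (XT.nd (nat_lit 78) (nat_lit 0) (nat_lit 0) (XT.lf (nat_lit 0) (nat_lit 25970424172) (nat_lit 76) (nat_lit 22558443107) (nat_lit 76) (nat_lit 6871102957) (nat_lit 3) (nat_lit 4) (nat_lit 4) (nat_lit 5) (nat_lit 4) (nat_lit 4) (nat_lit 225) (nat_lit 199) (nat_lit 176)) (XT.lf (nat_lit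 0) (nat_lit 40549099190) (nat_lit 76) (nat_lit 19193898451) (nat_lit 76) (nat_lit 3420913680) (nat_lit 3) (nat_lit 4) (nat_lit 4) (nat_lit 5) (nat_lit 4) (nat_lit 4) (nat_lit 226) (nat_lit 199) (nat_lit 175))) (XT.nd (nat_lit 78) (nat_lit 76) (nat_lit 0) (XT.lf (nat_lit 0) (nat_lit 459439687) (nat_lit 152) (nat_lit 14891823803) (nat_lit 76) (nat_lit 56745225417) (nat_lit 2) (nat_lit 5) (nat_lit 4) (nat_lit 5) (nat_lit 3) (nat_lit 4) (nat_lit 227) (nat_lit 199) (nat_lit 174)) (XT.nd (nat_lit 78) (nat_lit 76) (nat_lit 0) (XT.lf (nat_lit 0) (nat_lit 4672865474) (nat_lit 152) (nat_lit 6192657802) (nat_lit 76) (nat_lit 71500293247) (nat_lit 2) (nat_lit 5) (nat_lit 4) (nat_lit 5) (nat_lit 3) (nat_lit 4) (nat_lit 228) (nat_lit 199) (nat_lit 173)) (XT.lf (nat_lit 0) (nat_lit 3931846908) (nat_lit 76) (nat_lit 5635642334) (nat_lit 152) (nat_lit 84604343519) (nat_lit 1) (nat_lit 5) (nat_lit 2)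 (nat_lit 5) (nat_lit 3) (nat_lit 4) (nat_lit 229) (nat_lit 199) (nat_lit 172))))))) (XT.nd (nat_lit 780) (nat_lit 0) (nat_lit 0) (XT.nd (nat_lit 390) (nat_lit 0) (nat_lit 0) (XT.nd (nat_lit 156) (nat_lit 0) (nat_lit 0) (XT.nd (nat_lit 78) (nat_lit 0) (nat_lit 0) (XT.lf (nat_lit 0) (nat_lit 15348565467) (nat_lit 152) (nat_lit 91870651704) (nat_lit 0) (nat_lit 517548516) (nat_lit 1) (nat_lit 5) (nat_lit 3) (nat_lit 4) (nat_lit 1) (nat_lit 4) (nat_lit 230) (nat_lit 199) (nat_lit 171)) (XT.lf (nat_lit 0) (nat_lit 22116301628) (nat_lit 152) (nat_lit 93964888301) (nat_lit 0) (nat_lit 7245858276) (nat_lit 1) (nat_lit 5) (nat_lit 3) (nat_lit 4) (nat_lit 1) (nat_lit 4) (nat_lit 231) (nat_lit 199) (nat_lit 170))) (XT.nd (nat_lit 78) (nat_lit 0) (nat_lit 0) (XT.lf (nat_lit 0) (nat_lit 29867572621) (nat_lit 152) (nat_lit 96428132506) (nat_lit 0) (nat_lit 14962845443) (nat_lit 1) (nat_lit 5) (nat_lit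 3) (nat_lit 4) (nat_lit 1) (nat_lit 4) (nat_lit 232) (nat_lit 199) (nat_lit 169)) (XT.nd (nat_lit 78) (nat_lit 0) (nat_lit 0) (XT.lf (nat_lit 0) (nat_lit 38754033747) (nat_lit 152) (nat_lit 99308578227) (nat_lit 0) (nat_lit 23819494546) (nat_lit 1) (nat_lit 5) (nat_lit 3) (nat_lit 4) (nat_lit 1) (nat_lit 4) (nat_lit 233) (nat_lit 199) (nat_lit 168)) (XT.lf (nat_lit 0) (nat_lit 48949550552) (nat_lit 152) (nat_lit 102662582010) (nat_lit 0) (nat_lit 33989087853) (nat_lit 1) (nat_lit 5) (nat_lit 3) (nat_lit 4) (nat_lit 1) (nat_lit 4) (nat_lit 234) (nat_lit 199) (nat_lit 167))))) (XT.nd (nat_lit 156) (nat_lit 0) (nat_lit 0) (XT.nd (nat_lit 78) (nat_lit 0) (nat_lit 0) (XT.lf (nat_lit 0) (nat_lit 60653600537) (nat_lit 152) (nat_lit 106555765670) (nat_lit 0) (nat_lit 45670595665) (nat_lit 1) (nat_lit 5) (nat_lit 3) (nat_lit 4) (nat_lit 1) (nat_lit 4) (nat_lit 235) (nat_lit 199) (nat_lit 166))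 (XT.lf (nat_lit 0) (nat_lit 74095175985) (nat_lit 152) (nat_lit 111064300189) (nat_lit 0) (nat_lit 59092569224) (nat_lit 1) (nat_lit 5) (nat_lit 3) (nat_lit 4) (nat_lit 1) (nat_lit 4) (nat_lit 236) (nat_lit 199) (nat_lit 165))) (XT.nd (nat_lit 78) (nat_lit 0) (nat_lit 0) (XT.lf (nat_lit 0) (nat_lit 89537264242) (nat_lit 152) (nat_lit 116276396027) (nat_lit 0) (nat_lit 74517612360) (nat_lit 1) (nat_lit 5) (nat_lit 3) (nat_lit 4) (nat_lit 1) (nat_lit 4) (nat_lit 237) (nat_lit 199) (nat_lit 164)) (XT.nd (nat_lit 78) (nat_lit 0) (nat_lit 0) (XT.lf (nat_lit 0) (nat_lit 107281993120) (nat_lit 152) (nat_lit 122294028972) (nat_lit 0) (nat_lit 92247519394) (nat_lit 1) (nat_lit 5) (nat_lit 3) (nat_lit 4) (nat_lit 1) (nat_lit 4) (nat_lit 238) (nat_lit 199) (nat_lit 163)) (XT.lf (nat_lit 0) (nat_lit 127676542100) (nat_lit 152) (nat_lit 129234935320) (nat_lit 0) (nat_lit 112629179813) (nat_lit 1)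 (nat_lit 5) (nat_lit 3) (nat_lit 4) (nat_lit 1) (nat_lit 4) (nat_lit 239) (nat_lit 199) (nat_lit 162)))))) (XT.nd (nat_lit 390) (nat_lit 0) (nat_lit 0) (XT.nd (nat_lit 156) (nat_lit 0) (nat_lit 0) (XT.nd (nat_lit 78) (nat_lit 0) (nat_lit 0) (XT.lf (nat_lit 0) (nat_lit 151119934964) (nat_lit 152) (nat_lit 137234915412) (nat_lit 0) (nat_lit 136061365233) (nat_lit 1) (nat_lit 5) (nat_lit 3) (nat_lit 4) (nat_lit 1) (nat_lit 4) (nat_lit 240) (nat_lit 199) (nat_lit 161)) (XT.lf (nat_lit 0) (nat_lit 178070846790) (nat_lit 152) (nat_lit 146450490600) (nat_lit 0) (nat_lit 163002531457) (nat_lit 1) (nat_lit 5) (nat_lit 3) (nat_lit 4) (nat_lit 1) (nat_lit 4) (nat_lit 241) (nat_lit 199) (nat_lit 160))) (XT.nd (nat_lit 78) (nat_lit 0) (nat_lit 0) (XT.lf (nat_lit 0) (nat_lit 209056578028) (nat_lit 152) (nat_lit 157061965613) (nat_lit 0) (nat_lit 193979788257) (nat_lit 1) (nat_lit 5) (nat_lit 3) (nat_lit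 4) (nat_lit 1) (nat_lit 4) (nat_lit 242) (nat_lit 199) (nat_lit 159)) (XT.nd (nat_lit 78) (nat_lit 0) (nat_lit 0) (XT.lf (nat_lit 0) (nat_lit 244683371244) (nat_lit 152) (nat_lit 169276956269) (nat_lit 0) (nat_lit 229599212397) (nat_lit 1) (nat_lit 5) (nat_lit 3) (nat_lit 4) (nat_lit 1) (nat_lit 4) (nat_lit 243) (nat_lit 199) (nat_lit 158)) (XT.lf (nat_lit 0) (nat_lit 285648272394) (nat_lit 152) (nat_lit 183334451514) (nat_lit 0) (nat_lit 270557705655) (nat_lit 1) (nat_lit 5) (nat_lit 3) (nat_lit 4) (nat_lit 1) (nat_lit 4) (nat_lit 244) (nat_lit 199) (nat_lit 157))))) (XT.nd (nat_lit 156) (nat_lit 0) (nat_lit 0) (XT.nd (nat_lit 78) (nat_lit 0) (nat_lit 0) (XT.lf (nat_lit 0) (nat_lit 332752768673) (nat_lit 152) (nat_lit 199509489300) (nat_lit 0) (nat_lit 317656629854) (nat_lit 1) (nat_lit 5) (nat_lit 3) (nat_lit 4) (nat_lit 1) (nat_lit 4) (nat_lit 245) (nat_lit 199) (nat_lit 156)) (XT.lf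 (nat_lit 0) (nat_lit 386918469792) (nat_lit 152) (nat_lit 218118537755) (nat_lit 0) (nat_lit 371817485685) (nat_lit 1) (nat_lit 5) (nat_lit 3) (nat_lit 4) (nat_lit 1) (nat_lit 4) (nat_lit 246) (nat_lit 199) (nat_lit 155))) (XT.nd (nat_lit 78) (nat_lit 0) (nat_lit 0) (XT.lf (nat_lit 0) (nat_lit 449205139468) (nat_lit 152) (nat_lit 239525686960) (nat_lit 0) (nat_lit 434099942068) (nat_lit 1) (nat_lit 5) (nat_lit 3) (nat_lit 4) (nat_lit 1) (nat_lit 4) (nat_lit 247) (nat_lit 199) (nat_lit 154)) (XT.nd (nat_lit 78) (nat_lit 0) (nat_lit 0) (XT.lf (nat_lit 0) (nat_lit 520831429934) (nat_lit 152) (nat_lit 264149772442) (nat_lit 0) (nat_lit 505722568800) (nat_lit 1) (nat_lit 5) (nat_lit 3) (nat_lit 4) (nat_lit 1) (nat_lit 4) (nat_lit 248) (nat_lit 199) (nat_lit 153)) (XT.lf (nat_lit 0) (nat_lit 603198725133) (nat_lit 152) (nat_lit 292472569786) (nat_lit 0) (nat_lit 588086678145) (nat_lit 1)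 (nat_lit 5) (nat_lit 3) (nat_lit 4) (nat_lit 1) (nat_lit 4) (nat_lit 249) (nat_lit 199) (nat_lit 152))))))))
noncomputable def xc24 : XT := (XT.nd (nat_lit 27924) (nat_lit 0) (nat_lit 152) (XT.nd (nat_lit 702) (nat_lit 0) (nat_lit 0) (XT.nd (nat_lit 312) (nat_lit 0) (nat_lit 0) (XT.nd (nat_lit 156) (nat_lit 0) (nat_lit 0) (XT.nd (nat_lit 78) (nat_lit 0) (nat_lit 0) (XT.lf (nat_lit 0) (nat_lit 697918559102) (nat_lit 152) (nat_lit 325048220680) (nat_lit 0) (nat_lit 682803741805) (nat_lit 1) (nat_lit 5) (nat_lit 3) (nat_lit 4) (nat_lit 1) (nat_lit 4) (nat_lit 250) (nat_lit 199) (nat_lit 151)) (XT.lf (nat_lit 0) (nat_lit 806844145985) (nat_lit 152) (nat_lit 362514074815) (nat_lit 0) (nat_lit 791726919724) (nat_lit 1) (nat_lit 5) (nat_lit 3) (nat_lit 4) (nat_lit 1) (nat_lit 4) (nat_lit 251) (nat_lit 199) (nat_lit 150))) (XT.nd (nat_lit 78) (nat_lit 0) (nat_lit 0) (XT.lf (nat_lit 0) (nat_lit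 932106638567) (nat_lit 152) (nat_lit 405603159772) (nat_lit 0) (nat_lit 916987317555) (nat_lit 1) (nat_lit 5) (nat_lit 3) (nat_lit 4) (nat_lit 1) (nat_lit 4) (nat_lit 252) (nat_lit 199) (nat_lit 149)) (XT.lf (nat_lit 0) (nat_lit 1076156824747) (nat_lit 152) (nat_lit 455158522866) (nat_lit 0) (nat_lit 1061035682212) (nat_lit 1) (nat_lit 5) (nat_lit 3) (nat_lit 4) (nat_lit 1) (nat_lit 4) (nat_lit 253) (nat_lit 199) (nat_lit 148)))) (XT.nd (nat_lit 156) (nat_lit 0) (nat_lit 0) (XT.nd (nat_lit 78) (nat_lit 0) (nat_lit 0) (XT.lf (nat_lit 0) (nat_lit 1241813077734) (nat_lit 152) (nat_lit 512149725547) (nat_lit 0) (nat_lit 1226690351266) (nat_lit 1) (nat_lit 5) (nat_lit 3) (nat_lit 4) (nat_lit 1) (nat_lit 4) (nat_lit 254) (nat_lit 199) (nat_lit 147)) (XT.lf (nat_lit 0) (nat_lit 1432316498129) (nat_lit 152) (nat_lit 577691813087) (nat_lit 0) (nat_lit 1417192394327) (nat_lit 1) (nat_lit 5) (nat_lit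 3) (nat_lit 4) (nat_lit 1) (nat_lit 4) (nat_lit 255) (nat_lit 199) (nat_lit 146))) (XT.nd (nat_lit 78) (nat_lit 0) (nat_lit 0) (XT.lf (nat_lit 0) (nat_lit 1651394326765) (nat_lit 152) (nat_lit 653067130675) (nat_lit 0) (nat_lit 1636269025283) (nat_lit 1) (nat_lit 5) (nat_lit 3) (nat_lit 4) (nat_lit 1) (nat_lit 4) (nat_lit 256) (nat_lit 199) (nat_lit 145)) (XT.nd (nat_lit 78) (nat_lit 0) (nat_lit 0) (XT.lf (nat_lit 0) (nat_lit 1903332868986) (nat_lit 152) (nat_lit 739750412787) (nat_lit 0) (nat_lit 1888206526042) (nat_lit 1) (nat_lit 5) (nat_lit 3) (nat_lit 4) (nat_lit 1) (nat_lit 4) (nat_lit 257) (nat_lit 199) (nat_lit 144)) (XT.lf (nat_lit 0) (nat_lit 2193061357140) (nat_lit 152) (nat_lit 839437636682) (nat_lit 0) (nat_lit 2177934108577) (nat_lit 1) (nat_lit 5) (nat_lit 3) (nat_lit 4) (nat_lit 1) (nat_lit 4) (nat_lit 258) (nat_lit 199) (nat_lit 143)))))) (XT.nd (nat_lit 26832) (nat_lit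 0) (nat_lit 2204) (XT.nd (nat_lit 156) (nat_lit 0) (nat_lit 0) (XT.nd (nat_lit 78) (nat_lit 0) (nat_lit 0) (XT.lf (nat_lit 0) (nat_lit 2526248392081) (nat_lit 152) (nat_lit 954079204565) (nat_lit 0) (nat_lit 2511120356023) (nat_lit 1) (nat_lit 5) (nat_lit 3) (nat_lit 4) (nat_lit 1) (nat_lit 4) (nat_lit 259) (nat_lit 199) (nat_lit 142)) (XT.lf (nat_lit 0) (nat_lit 2909412850580) (nat_lit 152) (nat_lit 1085918103635) (nat_lit 0) (nat_lit 2894284129745) (nat_lit 1) (nat_lit 5) (nat_lit 3) (nat_lit 4) (nat_lit 1) (nat_lit 4) (nat_lit 260) (nat_lit 199) (nat_lit 141))) (XT.nd (nat_lit 26520) (nat_lit 0) (nat_lit 3192) (XT.lf (nat_lit 0) (nat_lit 3350051428565) (nat_lit 152) (nat_lit 1237533790613) (nat_lit 0) (nat_lit 3334922112271) (nat_lit 1) (nat_lit 5) (nat_lit 3) (nat_lit 4) (nat_lit 1) (nat_lit 4) (nat_lit 261) (nat_lit 199) (nat_lit 140)) (XT.nd (nat_lit 78) (nat_lit 76) (nat_lit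 0) (XT.lf (nat_lit 0) (nat_lit 0) (nat_lit 0) (nat_lit 0) (nat_lit 0) (nat_lit 1073741823) (nat_lit 1) (nat_lit 0) (nat_lit 1) (nat_lit 0) (nat_lit 44) (nat_lit 0) (nat_lit 200) (nat_lit 200) (nat_lit 200)) (XT.lf (nat_lit 0) (nat_lit 4531724033) (nat_lit 76) (nat_lit 1613013649) (nat_lit 0) (nat_lit 330125591) (nat_lit 43) (nat_lit 5) (nat_lit 44) (nat_lit 0) (nat_lit 43) (nat_lit 4) (nat_lit 201) (nat_lit 200) (nat_lit 199))))) (XT.nd (nat_lit 156) (nat_lit 684) (nat_lit 0) (XT.nd (nat_lit 78) (nat_lit 152) (nat_lit 0) (XT.lf (nat_lit 0) (nat_lit 2327694387) (nat_lit 152) (nat_lit 3013557977) (nat_lit 76) (nat_lit 1238554596) (nat_lit 41) (nat_lit 5) (nat_lit 43) (nat_lit 5) (nat_lit 42) (nat_lit 4) (nat_lit 202) (nat_lit 200) (nat_lit 198)) (XT.lf (nat_lit 0) (nat_lit 2490845641) (nat_lit 152) (nat_lit 4010606281) (nat_lit 228) (nat_lit 257463449) (nat_lit 39) (nat_lit 5) (nat_lit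 41) (nat_lit 5) (nat_lit 42) (nat_lit 4) (nat_lit 203) (nat_lit 200) (nat_lit 197))) (XT.nd (nat_lit 78) (nat_lit 380) (nat_lit 0) (XT.lf (nat_lit 0) (nat_lit 1508997299) (nat_lit 228) (nat_lit 2060137135) (nat_lit 304) (nat_lit 3441622967) (nat_lit 35) (nat_lit 5) (nat_lit 38) (nat_lit 5) (nat_lit 39) (nat_lit 5) (nat_lit 204) (nat_lit 200) (nat_lit 196)) (XT.nd (nat_lit 78) (nat_lit 0) (nat_lit 0) (XT.lf (nat_lit 0) (nat_lit 152681152) (nat_lit 380) (nat_lit 6734656176) (nat_lit 76) (nat_lit 456980646) (nat_lit 30) (nat_lit 5) (nat_lit 35) (nat_lit 5) (nat_lit 31) (nat_lit 5) (nat_lit 205) (nat_lit 200) (nat_lit 195)) (XT.lf (nat_lit 0) (nat_lit 3758424606) (nat_lit 380) (nat_lit 415127785) (nat_lit 76) (nat_lit 3580253262) (nat_lit 30) (nat_lit 5) (nat_lit 35) (nat_lit 5) (nat_lit 31) (nat_lit 5) (nat_lit 206) (nat_lit 200) (nat_lit 194))))))) (XT.nd (nat_lit 780) (nat_lit 304) (nat_lit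 0) (XT.nd (nat_lit 390) (nat_lit 456) (nat_lit 0) (XT.nd (nat_lit 156) (nat_lit 608) (nat_lit 0) (XT.nd (nat_lit 78) (nat_lit 304) (nat_lit 0) (XT.lf (nat_lit 0) (nat_lit 6742055025) (nat_lit 380) (nat_lit 845960822) (nat_lit 456) (nat_lit 668262208) (nat_lit 25) (nat_lit 5) (nat_lit 30) (nat_lit 5) (nat_lit 31) (nat_lit 5) (nat_lit 207) (nat_lit 200) (nat_lit 193)) (XT.lf (nat_lit 0) (nat_lit 2790503294) (nat_lit 304) (nat_lit 2985706626) (nat_lit 76) (nat_lit 3073583790) (nat_lit 21) (nat_lit 5) (nat_lit 25) (nat_lit 5) (nat_lit 22) (nat_lit 5) (nat_lit 208) (nat_lit 200) (nat_lit 192))) (XT.nd (nat_lit 78) (nat_lit 380) (nat_lit 0) (XT.lf (nat_lit 0) (nat_lit 4665755713) (nat_lit 228) (nat_lit 1849962170) (nat_lit 304) (nat_lit 3036595161) (nat_lit 18) (nat_lit 5) (nat_lit 21) (nat_lit 5) (nat_lit 22) (nat_lit 5) (nat_lit 209) (nat_lit 200) (nat_lit 191)) (XT.nd (nat_lit 78) (nat_lit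 152) (nat_lit 0) (XT.lf (nat_lit 0) (nat_lit 280604270) (nat_lit 228) (nat_lit 7438715747) (nat_lit 76) (nat_lit 2654493095) (nat_lit 15) (nat_lit 5) (nat_lit 18) (nat_lit 5) (nat_lit 16) (nat_lit 5) (nat_lit 210) (nat_lit 200) (nat_lit 190)) (XT.lf (nat_lit 0) (nat_lit 384685896) (nat_lit 152) (nat_lit 3413716198) (nat_lit 228) (nat_lit 7526240168) (nat_lit 13) (nat_lit 5) (nat_lit 15) (nat_lit 5) (nat_lit 16) (nat_lit 5) (nat_lit 211) (nat_lit 200) (nat_lit 189))))) (XT.nd (nat_lit 156) (nat_lit 304) (nat_lit 0) (XT.nd (nat_lit 78) (nat_lit 152) (nat_lit 0) (XT.lf (nat_lit 0) (nat_lit 7806089633) (nat_lit 228) (nat_lit 3014907635) (nat_lit 76) (nat_lit 1602763858) (nat_lit 13) (nat_lit 5) (nat_lit 16) (nat_lit 5) (nat_lit 14) (nat_lit 4) (nat_lit 212) (nat_lit 200) (nat_lit 188)) (XT.lf (nat_lit 0) (nat_lit 5951237430) (nat_lit 152) (nat_lit 6443011083) (nat_lit 228) (nat_lit 1297452062)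 (nat_lit 11) (nat_lit 5) (nat_lit 13) (nat_lit 5) (nat_lit 14) (nat_lit 4) (nat_lit 213) (nat_lit 200) (nat_lit 187))) (XT.nd (nat_lit 78) (nat_lit 76) (nat_lit 0) (XT.lf (nat_lit 0) (nat_lit 950992637) (nat_lit 152) (nat_lit 1316433980) (nat_lit 228) (nat_lit 12889586554) (nat_lit 8) (nat_lit 5) (nat_lit 10) (nat_lit 5) (nat_lit 11) (nat_lit 5) (nat_lit 214) (nat_lit 200) (nat_lit 186)) (XT.nd (nat_lit 78) (nat_lit 76) (nat_lit 0) (XT.lf (nat_lit 0) (nat_lit 6415283629) (nat_lit 228) (nat_lit 5885098890) (nat_lit 76) (nat_lit 4530647574) (nat_lit 8) (nat_lit 5) (nat_lit 11) (nat_lit 5) (nat_lit 9) (nat_lit 4) (nat_lit 215) (nat_lit 200) (nat_lit 185)) (XT.lf (nat_lit 0) (nat_lit 3543009558) (nat_lit 76) (nat_lit 7573971096) (nat_lit 152) (nat_lit 7646035159) (nat_lit 7) (nat_lit 5) (nat_lit 8) (nat_lit 5) (nat_lit 9) (nat_lit 4) (nat_lit 216) (nat_lit 200) (nat_lit 184)))))) (XT.nd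 (nat_lit 390) (nat_lit 76) (nat_lit 0) (XT.nd (nat_lit 156) (nat_lit 152) (nat_lit 0) (XT.nd (nat_lit 78) (nat_lit 76) (nat_lit 0) (XT.lf (nat_lit 0) (nat_lit 14483791253) (nat_lit 76) (nat_lit 2040095887) (nat_lit 152) (nat_lit 4462132537) (nat_lit 7) (nat_lit 5) (nat_lit 8) (nat_lit 5) (nat_lit 9) (nat_lit 4) (nat_lit 217) (nat_lit 200) (nat_lit 183)) (XT.lf (nat_lit 0) (nat_lit 3351424420) (nat_lit 76) (nat_lit 19424157024) (nat_lit 76) (nat_lit 765250506) (nat_lit 6) (nat_lit 4) (nat_lit 7) (nat_lit 5) (nat_lit 7) (nat_lit 4) (nat_lit 218) (nat_lit 200) (nat_lit 182))) (XT.nd (nat_lit 78) (nat_lit 76) (nat_lit 0) (XT.lf (nat_lit 0) (nat_lit 3421655084) (nat_lit 152) (nat_lit 11755813249) (nat_lit 76) (nat_lit 11286751519) (nat_lit 5) (nat_lit 5) (nat_lit 7) (nat_lit 5) (nat_lit 6) (nat_lit 4) (nat_lit 219) (nat_lit 200) (nat_lit 181)) (XT.nd (nat_lit 78) (nat_lit 76) (nat_lit 0)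 (XT.lf (nat_lit 0) (nat_lit 8070170726) (nat_lit 152) (nat_lit 2272943590) (nat_lit 76) (nat_lit 19491841372) (nat_lit 5) (nat_lit 5) (nat_lit 7) (nat_lit 5) (nat_lit 6) (nat_lit 4) (nat_lit 220) (nat_lit 200) (nat_lit 180)) (XT.lf (nat_lit 0) (nat_lit 8908794109) (nat_lit 76) (nat_lit 4614989170) (nat_lit 152) (nat_lit 20179537163) (nat_lit 4) (nat_lit 5) (nat_lit 5) (nat_lit 5) (nat_lit 6) (nat_lit 4) (nat_lit 221) (nat_lit 200) (nat_lit 179))))) (XT.nd (nat_lit 156) (nat_lit 76) (nat_lit 0) (XT.nd (nat_lit 78) (nat_lit 0) (nat_lit 0) (XT.lf (nat_lit 0) (nat_lit 19813077131) (nat_lit 152) (nat_lit 16452110754) (nat_lit 0) (nat_lit 1885900968) (nat_lit 4) (nat_lit 5) (nat_lit 6) (nat_lit 4) (nat_lit 4) (nat_lit 4) (nat_lit 222) (nat_lit 200) (nat_lit 178)) (XT.lf (nat_lit 0) (nat_lit 27088457393) (nat_lit 152) (nat_lit 7126620565) (nat_lit 0) (nat_lit 9048016220) (nat_lit 4) (nat_lit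 5) (nat_lit 6) (nat_lit 4) (nat_lit 4) (nat_lit 4) (nat_lit 223) (nat_lit 200) (nat_lit 177))) (XT.nd (nat_lit 78) (nat_lit 0) (nat_lit 0) (XT.lf (nat_lit 0) (nat_lit 3658397958) (nat_lit 76) (nat_lit 31810864462) (nat_lit 76) (nat_lit 13671931976) (nat_lit 3) (nat_lit 4) (nat_lit 4) (nat_lit 5) (nat_lit 4) (nat_lit 4) (nat_lit 224) (nat_lit 200) (nat_lit 176)) (XT.nd (nat_lit 78) (nat_lit 0) (nat_lit 0) (XT.lf (nat_lit 0) (nat_lit 16380785022) (nat_lit 76) (nat_lit 28866962624) (nat_lit 76) (nat_lit 10642385518) (nat_lit 3) (nat_lit 4) (nat_lit 4) (nat_lit 5) (nat_lit 4) (nat_lit 4) (nat_lit 225) (nat_lit 200) (nat_lit 175)) (XT.lf (nat_lit 0) (nat_lit 30914181686) (nat_lit 76) (nat_lit 25520628800) (nat_lit 76) (nat_lit 7221578111) (nat_lit 3) (nat_lit 4) (nat_lit 4) (nat_lit 5) (nat_lit 4) (nat_lit 4) (nat_lit 226) (nat_lit 200) (nat_lit 174))))))))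
noncomputable def xc25 : XT := (XT.nd (nat_lit 1482) (nat_lit 0) (nat_lit 0) (XT.nd (nat_lit 702) (nat_lit 0) (nat_lit 0) (XT.nd (nat_lit 312) (nat_lit 0) (nat_lit 0) (XT.nd (nat_lit 156) (nat_lit 76) (nat_lit 0) (XT.nd (nat_lit 78) (nat_lit 76) (nat_lit 0) (XT.lf (nat_lit 0) (nat_lit 47542937014) (nat_lit 76) (nat_lit 21706391241) (nat_lit 76) (nat_lit 3342580916) (nat_lit 3) (nat_lit 4) (nat_lit 4) (nat_lit 5) (nat_lit 4) (nat_lit 4) (nat_lit 227) (nat_lit 200) (nat_lit 173)) (XT.lf (nat_lit 0) (nat_lit 1016948771) (nat_lit 152) (nat_lit 16304869608) (nat_lit 76) (nat_lit 65547642266) (nat_lit 2) (nat_lit 5) (nat_lit 4) (nat_lit 5) (nat_lit 3) (nat_lit 4) (nat_lit 228) (nat_lit 200) (nat_lit 172))) (XT.nd (nat_lit 78) (nat_lit 76) (nat_lit 0) (XT.lf (nat_lit 0) (nat_lit 5798658888) (nat_lit 152) (nat_lit 6407880154) (nat_lit 76) (nat_lit 82478061614) (nat_lit 2) (nat_lit 5) (nat_lit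 4) (nat_lit 5) (nat_lit 3) (nat_lit 4) (nat_lit 229) (nat_lit 200) (nat_lit 171)) (XT.lf (nat_lit 0) (nat_lit 5174891117) (nat_lit 76) (nat_lit 6212879205) (nat_lit 152) (nat_lit 96877199295) (nat_lit 1) (nat_lit 5) (nat_lit 2) (nat_lit 5) (nat_lit 3) (nat_lit 4) (nat_lit 230) (nat_lit 200) (nat_lit 170)))) (XT.nd (nat_lit 156) (nat_lit 0) (nat_lit 0) (XT.nd (nat_lit 78) (nat_lit 0) (nat_lit 0) (XT.lf (nat_lit 0) (nat_lit 17991377011) (nat_lit 152) (nat_lit 105060417120) (nat_lit 0) (nat_lit 816656930) (nat_lit 1) (nat_lit 5) (nat_lit 3) (nat_lit 4) (nat_lit 1) (nat_lit 4) (nat_lit 231) (nat_lit 200) (nat_lit 169)) (XT.lf (nat_lit 0) (nat_lit 25729857067) (nat_lit 152) (nat_lit 107545854294) (nat_lit 0) (nat_lit 8525324963) (nat_lit 1) (nat_lit 5) (nat_lit 3) (nat_lit 4) (nat_lit 1) (nat_lit 4) (nat_lit 232) (nat_lit 200) (nat_lit 168))) (XT.nd (nat_lit 78) (nat_lit 0) (nat_lit 0) (XT.lf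 (nat_lit 0) (nat_lit 34605195640) (nat_lit 152) (nat_lit 110445598250) (nat_lit 0) (nat_lit 17374740037) (nat_lit 1) (nat_lit 5) (nat_lit 3) (nat_lit 4) (nat_lit 1) (nat_lit 4) (nat_lit 233) (nat_lit 200) (nat_lit 167)) (XT.nd (nat_lit 78) (nat_lit 0) (nat_lit 0) (XT.lf (nat_lit 0) (nat_lit 44791040658) (nat_lit 152) (nat_lit 113816383107) (nat_lit 0) (nat_lit 27538042883) (nat_lit 1) (nat_lit 5) (nat_lit 3) (nat_lit 4) (nat_lit 1) (nat_lit 4) (nat_lit 234) (nat_lit 200) (nat_lit 166)) (XT.lf (nat_lit 0) (nat_lit 56486680395) (nat_lit 152) (nat_lit 117724159004) (nat_lit 0) (nat_lit 39214080731) (nat_lit 1) (nat_lit 5) (nat_lit 3) (nat_lit 4) (nat_lit 1) (nat_lit 4) (nat_lit 235) (nat_lit 200) (nat_lit 165)))))) (XT.nd (nat_lit 390) (nat_lit 0) (nat_lit 0) (XT.nd (nat_lit 156) (nat_lit 0) (nat_lit 0) (XT.nd (nat_lit 78) (nat_lit 0) (nat_lit 0) (XT.lf (nat_lit 0) (nat_lit 69920942583)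 (nat_lit 152) (nat_lit 122245382426) (nat_lit 0) (nat_lit 52631297798) (nat_lit 1) (nat_lit 5) (nat_lit 3) (nat_lit 4) (nat_lit 1) (nat_lit 4) (nat_lit 236) (nat_lit 200) (nat_lit 164)) (XT.lf (nat_lit 0) (nat_lit 85356671483) (nat_lit 152) (nat_lit 127468512092) (nat_lit 0) (nat_lit 68052204854) (nat_lit 1) (nat_lit 5) (nat_lit 3) (nat_lit 4) (nat_lit 1) (nat_lit 4) (nat_lit 237) (nat_lit 200) (nat_lit 163))) (XT.nd (nat_lit 78) (nat_lit 0) (nat_lit 0) (XT.lf (nat_lit 0) (nat_lit 103095870487) (nat_lit 152) (nat_lit 133495739670) (nat_lit 0) (nat_lit 85778515297) (nat_lit 1) (nat_lit 5) (nat_lit 3) (nat_lit 4) (nat_lit 1) (nat_lit 4) (nat_lit 238) (nat_lit 200) (nat_lit 162)) (XT.nd (nat_lit 78) (nat_lit 0) (nat_lit 0) (XT.lf (nat_lit 0) (nat_lit 123485610879) (nat_lit 152) (nat_lit 140444989178) (nat_lit 0) (nat_lit 106157048245) (nat_lit 1) (nat_lit 5) (nat_lit 3) (nat_lit 4) (nat_lit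 1) (nat_lit 4) (nat_lit 239) (nat_lit 200) (nat_lit 161)) (XT.lf (nat_lit 0) (nat_lit 146924822363) (nat_lit 152) (nat_lit 148452224192) (nat_lit 0) (nat_lit 129586514126) (nat_lit 1) (nat_lit 5) (nat_lit 3) (nat_lit 4) (nat_lit 1) (nat_lit 4) (nat_lit 240) (nat_lit 200) (nat_lit 160))))) (XT.nd (nat_lit 156) (nat_lit 0) (nat_lit 0) (XT.nd (nat_lit 78) (nat_lit 0) (nat_lit 0) (XT.lf (nat_lit 0) (nat_lit 173872098206) (nat_lit 152) (nat_lit 157674108006) (nat_lit 0) (nat_lit 156525315532) (nat_lit 1) (nat_lit 5) (nat_lit 3) (nat_lit 4) (nat_lit 1) (nat_lit 4) (nat_lit 241) (nat_lit 200) (nat_lit 159)) (XT.lf (nat_lit 0) (nat_lit 204854667720) (nat_lit 152) (nat_lit 168291068782) (nat_lit 0) (nat_lit 187500515970) (nat_lit 1) (nat_lit 5) (nat_lit 3) (nat_lit 4) (nat_lit 1) (nat_lit 4) (nat_lit 242) (nat_lit 200) (nat_lit 158))) (XT.nd (nat_lit 78) (nat_lit 0) (nat_lit 0) (XT.lf (nat_lit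 0) (nat_lit 240478711611) (nat_lit 152) (nat_lit 180510829667) (nat_lit 0) (nat_lit 223118151969) (nat_lit 1) (nat_lit 5) (nat_lit 3) (nat_lit 4) (nat_lit 1) (nat_lit 4) (nat_lit 243) (nat_lit 200) (nat_lit 157)) (XT.nd (nat_lit 78) (nat_lit 0) (nat_lit 0) (XT.lf (nat_lit 0) (nat_lit 281441222044) (nat_lit 152) (nat_lit 194572472937) (nat_lit 0) (nat_lit 264075090321) (nat_lit 1) (nat_lit 5) (nat_lit 3) (nat_lit 4) (nat_lit 1) (nat_lit 4) (nat_lit 244) (nat_lit 200) (nat_lit 156)) (XT.lf (nat_lit 0) (nat_lit 328543639438) (nat_lit 152) (nat_lit 210751117700) (nat_lit 0) (nat_lit 311172662428) (nat_lit 1) (nat_lit 5) (nat_lit 3) (nat_lit 4) (nat_lit 1) (nat_lit 4) (nat_lit 245) (nat_lit 200) (nat_lit 155))))))) (XT.nd (nat_lit 780) (nat_lit 0) (nat_lit 0) (XT.nd (nat_lit 390) (nat_lit 0) (nat_lit 0) (XT.nd (nat_lit 156) (nat_lit 0) (nat_lit 0) (XT.nd (nat_lit 78) (nat_lit 0) (nat_lit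 0) (XT.lf (nat_lit 0) (nat_lit 382707532831) (nat_lit 152) (nat_lit 229363302658) (nat_lit 0) (nat_lit 365332342528) (nat_lit 1) (nat_lit 5) (nat_lit 3) (nat_lit 4) (nat_lit 1) (nat_lit 4) (nat_lit 246) (nat_lit 200) (nat_lit 154)) (XT.lf (nat_lit 0) (nat_lit 444992630571) (nat_lit 152) (nat_lit 250773179257) (nat_lit 0) (nat_lit 427613776535) (nat_lit 1) (nat_lit 5) (nat_lit 3) (nat_lit 4) (nat_lit 1) (nat_lit 4) (nat_lit 247) (nat_lit 200) (nat_lit 153))) (XT.nd (nat_lit 78) (nat_lit 0) (nat_lit 0) (XT.lf (nat_lit 0) (nat_lit 516617554136) (nat_lit 152) (nat_lit 275399636385) (nat_lit 0) (nat_lit 499235514245) (nat_lit 1) (nat_lit 5) (nat_lit 3) (nat_lit 4) (nat_lit 1) (nat_lit 4) (nat_lit 248) (nat_lit 200) (nat_lit 152)) (XT.nd (nat_lit 78) (nat_lit 0) (nat_lit 0) (XT.lf (nat_lit 0) (nat_lit 598983660726) (nat_lit 152) (nat_lit 303724496031) (nat_lit 0) (nat_lit 581598850526) (nat_lit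 1) (nat_lit 5) (nat_lit 3) (nat_lit 4) (nat_lit 1) (nat_lit 4) (nat_lit 249) (nat_lit 200) (nat_lit 151)) (XT.lf (nat_lit 0) (nat_lit 693702461122) (nat_lit 152) (nat_lit 336301940230) (nat_lit 0) (nat_lit 676315241958) (nat_lit 1) (nat_lit 5) (nat_lit 3) (nat_lit 4) (nat_lit 1) (nat_lit 4) (nat_lit 250) (nat_lit 200) (nat_lit 150))))) (XT.nd (nat_lit 156) (nat_lit 0) (nat_lit 0) (XT.nd (nat_lit 78) (nat_lit 0) (nat_lit 0) (XT.lf (nat_lit 0) (nat_lit 802627149246) (nat_lit 152) (nat_lit 373769353762) (nat_lit 0) (nat_lit 785237835330) (nat_lit 1) (nat_lit 5) (nat_lit 3) (nat_lit 4) (nat_lit 1) (nat_lit 4) (nat_lit 251) (nat_lit 200) (nat_lit 149)) (XT.lf (nat_lit 0) (nat_lit 927888860298) (nat_lit 152) (nat_lit 416859794715) (nat_lit 0) (nat_lit 910497724859) (nat_lit 1) (nat_lit 5) (nat_lit 3) (nat_lit 4) (nat_lit 1) (nat_lit 4) (nat_lit 252) (nat_lit 200) (nat_lit 148))) (XT.nd (nat_lit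 78) (nat_lit 0) (nat_lit 0) (XT.lf (nat_lit 0) (nat_lit 1071938366887) (nat_lit 152) (nat_lit 466416336936) (nat_lit 0) (nat_lit 1054545647516) (nat_lit 1) (nat_lit 5) (nat_lit 3) (nat_lit 4) (nat_lit 1) (nat_lit 4) (nat_lit 253) (nat_lit 200) (nat_lit 147)) (XT.nd (nat_lit 78) (nat_lit 0) (nat_lit 0) (XT.lf (nat_lit 0) (nat_lit 1237594028925) (nat_lit 152) (nat_lit 523408564946) (nat_lit 0) (nat_lit 1220199932221) (nat_lit 1) (nat_lit 5) (nat_lit 3) (nat_lit 4) (nat_lit 1) (nat_lit 4) (nat_lit 254) (nat_lit 200) (nat_lit 146)) (XT.lf (nat_lit 0) (nat_lit 1428096935451) (nat_lit 152) (nat_lit 588951544075) (nat_lit 0) (nat_lit 1410701641066) (nat_lit 1) (nat_lit 5) (nat_lit 3) (nat_lit 4) (nat_lit 1) (nat_lit 4) (nat_lit 255) (nat_lit 200) (nat_lit 145)))))) (XT.nd (nat_lit 390) (nat_lit 0) (nat_lit 0) (XT.nd (nat_lit 156) (nat_lit 0) (nat_lit 0) (XT.nd (nat_lit 78) (nat_lit 0) (nat_lit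 0) (XT.lf (nat_lit 0) (nat_lit 1647174317245) (nat_lit 152) (nat_lit 664327636959) (nat_lit 0) (nat_lit 1629777981398) (nat_lit 1) (nat_lit 5) (nat_lit 3) (nat_lit 4) (nat_lit 1) (nat_lit 4) (nat_lit 256) (nat_lit 200) (nat_lit 144)) (XT.lf (nat_lit 0) (nat_lit 1899112470908) (nat_lit 152) (nat_lit 751011593241) (nat_lit 0) (nat_lit 1881715229442) (nat_lit 1) (nat_lit 5) (nat_lit 3) (nat_lit 4) (nat_lit 1) (nat_lit 4) (nat_lit 257) (nat_lit 200) (nat_lit 143))) (XT.nd (nat_lit 78) (nat_lit 0) (nat_lit 0) (XT.lf (nat_lit 0) (nat_lit 2188840621184) (nat_lit 152) (nat_lit 850699403370) (nat_lit 0) (nat_lit 2171442592224) (nat_lit 1) (nat_lit 5) (nat_lit 3) (nat_lit 4) (nat_lit 1) (nat_lit 4) (nat_lit 258) (nat_lit 200) (nat_lit 142)) (XT.nd (nat_lit 78) (nat_lit 0) (nat_lit 0) (XT.lf (nat_lit 0) (nat_lit 2522027362320) (nat_lit 152) (nat_lit 965341481023) (nat_lit 0) (nat_lit 2504628648581)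 (nat_lit 1) (nat_lit 5) (nat_lit 3) (nat_lit 4) (nat_lit 1) (nat_lit 4) (nat_lit 259) (nat_lit 200) (nat_lit 141)) (XT.lf (nat_lit 0) (nat_lit 2905191565336) (nat_lit 152) (nat_lit 1097180823371) (nat_lit 0) (nat_lit 2887792256138) (nat_lit 1) (nat_lit 5) (nat_lit 3) (nat_lit 4) (nat_lit 1) (nat_lit 4) (nat_lit 260) (nat_lit 200) (nat_lit 140))))) (XT.nd (nat_lit 26676) (nat_lit 0) (nat_lit 2736) (XT.nd (nat_lit 26598) (nat_lit 0) (nat_lit 2964) (XT.lf (nat_lit 0) (nat_lit 3345829921161) (nat_lit 152) (nat_lit 1248796895807) (nat_lit 0) (nat_lit 3328430094173) (nat_lit 1) (nat_lit 5) (nat_lit 3) (nat_lit 4) (nat_lit 1) (nat_lit 4) (nat_lit 261) (nat_lit 200) (nat_lit 139)) (XT.lf (nat_lit 0) (nat_lit 1009937723) (nat_lit 228) (nat_lit 1130480522) (nat_lit 228) (nat_lit 1130480522) (nat_lit 40) (nat_lit 3) (nat_lit 43) (nat_lit 3) (nat_lit 43) (nat_lit 5) (nat_lit 201) (nat_lit 201)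 (nat_lit 198))) (XT.nd (nat_lit 78) (nat_lit 228) (nat_lit 0) (XT.lf (nat_lit 76) (nat_lit 2663324672) (nat_lit 0) (nat_lit 3144628464) (nat_lit 228) (nat_lit 871777018) (nat_lit 41) (nat_lit 5) (nat_lit 40) (nat_lit 3) (nat_lit 43) (nat_lit 5) (nat_lit 202) (nat_lit 201) (nat_lit 197)) (XT.nd (nat_lit 78) (nat_lit 0) (nat_lit 76) (XT.lf (nat_lit 76) (nat_lit 1195224873) (nat_lit 0) (nat_lit 1388431415) (nat_lit 304) (nat_lit 4304550635) (nat_lit 38) (nat_lit 5) (nat_lit 37) (nat_lit 5) (nat_lit 41) (nat_lit 5) (nat_lit 203) (nat_lit 201) (nat_lit 196)) (XT.lf (nat_lit 0) (nat_lit 6054028503) (nat_lit 228) (nat_lit 168630273) (nat_lit 76) (nat_lit 948481652) (nat_lit 38) (nat_lit 5) (nat_lit 41) (nat_lit 5) (nat_lit 39) (nat_lit 5) (nat_lit 204) (nat_lit 201) (nat_lit 195))))))))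
noncomputable def xc26 : XT := (XT.nd (nat_lit 1482) (nat_lit 228) (nat_lit 0) (XT.nd (nat_lit 702) (nat_lit 684) (nat_lit 0) (XT.nd (nat_lit 312) (nat_lit 608) (nat_lit 0) (XT.nd (nat_lit 156) (nat_lit 684) (nat_lit 0) (XT.nd (nat_lit 78) (nat_lit 304) (nat_lit 0) (XT.lf (nat_lit 0) (nat_lit 2077829917) (nat_lit 304) (nat_lit 1515712197) (nat_lit 76) (nat_lit 3932649521) (nat_lit 34) (nat_lit 5) (nat_lit 38) (nat_lit 5) (nat_lit 35) (nat_lit 5) (nat_lit 205) (nat_lit 201) (nat_lit 194)) (XT.lf (nat_lit 0) (nat_lit 5032408564) (nat_lit 304) (nat_lit 309960170) (nat_lit 380) (nat_lit 2623490891) (nat_lit 30) (nat_lit 5) (nat_lit 34) (nat_lit 5) (nat_lit 35) (nat_lit 5) (nat_lit 206) (nat_lit 201) (nat_lit 193))) (XT.nd (nat_lit 78) (nat_lit 228) (nat_lit 0) (XT.lf (nat_lit 0) (nat_lit 389650739) (nat_lit 456) (nat_lit 4593826387) (nat_lit 76) (nat_lit 3508125442) (nat_lit 24) (nat_lit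 5) (nat_lit 30) (nat_lit 5) (nat_lit 25) (nat_lit 5) (nat_lit 207) (nat_lit 201) (nat_lit 192)) (XT.lf (nat_lit 0) (nat_lit 2502975435) (nat_lit 228) (nat_lit 972288380) (nat_lit 304) (nat_lit 5637765673) (nat_lit 21) (nat_lit 5) (nat_lit 24) (nat_lit 5) (nat_lit 25) (nat_lit 5) (nat_lit 208) (nat_lit 201) (nat_lit 191)))) (XT.nd (nat_lit 156) (nat_lit 304) (nat_lit 0) (XT.nd (nat_lit 78) (nat_lit 76) (nat_lit 0) (XT.lf (nat_lit 0) (nat_lit 689269216) (nat_lit 228) (nat_lit 6232530391) (nat_lit 304) (nat_lit 2917799294) (nat_lit 18) (nat_lit 5) (nat_lit 21) (nat_lit 5) (nat_lit 22) (nat_lit 5) (nat_lit 209) (nat_lit 201) (nat_lit 190)) (XT.lf (nat_lit 0) (nat_lit 106039844) (nat_lit 304) (nat_lit 1580264548) (nat_lit 76) (nat_lit 8998973092) (nat_lit 17) (nat_lit 5) (nat_lit 21) (nat_lit 5) (nat_lit 18) (nat_lit 5) (nat_lit 210) (nat_lit 201) (nat_lit 189))) (XT.nd (nat_lit 78) (nat_lit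 152) (nat_lit 0) (XT.lf (nat_lit 0) (nat_lit 3400053224) (nat_lit 228) (nat_lit 4673835884) (nat_lit 76) (nat_lit 3581349557) (nat_lit 15) (nat_lit 5) (nat_lit 18) (nat_lit 5) (nat_lit 16) (nat_lit 5) (nat_lit 211) (nat_lit 201) (nat_lit 188)) (XT.nd (nat_lit 78) (nat_lit 0) (nat_lit 0) (XT.lf (nat_lit 0) (nat_lit 3994595160) (nat_lit 152) (nat_lit 3134961648) (nat_lit 228) (nat_lit 5648124374) (nat_lit 13) (nat_lit 5) (nat_lit 15) (nat_lit 5) (nat_lit 16) (nat_lit 5) (nat_lit 212) (nat_lit 201) (nat_lit 187)) (XT.lf (nat_lit 0) (nat_lit 11394753902) (nat_lit 228) (nat_lit 181191822) (nat_lit 76) (nat_lit 2496441359) (nat_lit 13) (nat_lit 5) (nat_lit 16) (nat_lit 5) (nat_lit 14) (nat_lit 4) (nat_lit 213) (nat_lit 201) (nat_lit 186)))))) (XT.nd (nat_lit 390) (nat_lit 228) (nat_lit 0) (XT.nd (nat_lit 156) (nat_lit 76) (nat_lit 0) (XT.nd (nat_lit 78) (nat_lit 152) (nat_lit 0) (XT.lf (nat_lit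 0) (nat_lit 831561391) (nat_lit 228) (nat_lit 5722082484) (nat_lit 76) (nat_lit 8997437782) (nat_lit 10) (nat_lit 5) (nat_lit 13) (nat_lit 5) (nat_lit 11) (nat_lit 5) (nat_lit 214) (nat_lit 201) (nat_lit 185)) (XT.lf (nat_lit 0) (nat_lit 3971120160) (nat_lit 152) (nat_lit 661268997) (nat_lit 228) (nat_lit 12621122541) (nat_lit 8) (nat_lit 5) (nat_lit 10) (nat_lit 5) (nat_lit 11) (nat_lit 5) (nat_lit 215) (nat_lit 201) (nat_lit 184))) (XT.nd (nat_lit 78) (nat_lit 76) (nat_lit 0) (XT.lf (nat_lit 0) (nat_lit 9156145149) (nat_lit 228) (nat_lit 4129579983) (nat_lit 76) (nat_lit 5914573466) (nat_lit 8) (nat_lit 5) (nat_lit 11) (nat_lit 5) (nat_lit 9) (nat_lit 4) (nat_lit 216) (nat_lit 201) (nat_lit 183)) (XT.nd (nat_lit 78) (nat_lit 0) (nat_lit 0) (XT.lf (nat_lit 0) (nat_lit 6489427155) (nat_lit 76) (nat_lit 7899762310) (nat_lit 152) (nat_lit 7048514053) (nat_lit 7) (nat_lit 5) (nat_lit 8)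 (nat_lit 5) (nat_lit 9) (nat_lit 4) (nat_lit 217) (nat_lit 201) (nat_lit 182)) (XT.lf (nat_lit 0) (nat_lit 18756330517) (nat_lit 76) (nat_lit 1641497705) (nat_lit 152) (nat_lit 3614559913) (nat_lit 7) (nat_lit 5) (nat_lit 8) (nat_lit 5) (nat_lit 9) (nat_lit 4) (nat_lit 218) (nat_lit 201) (nat_lit 181))))) (XT.nd (nat_lit 156) (nat_lit 76) (nat_lit 0) (XT.nd (nat_lit 78) (nat_lit 0) (nat_lit 0) (XT.lf (nat_lit 0) (nat_lit 481949140) (nat_lit 152) (nat_lit 21101322168) (nat_lit 76) (nat_lit 5376965771) (nat_lit 5) (nat_lit 5) (nat_lit 7) (nat_lit 5) (nat_lit 6) (nat_lit 4) (nat_lit 219) (nat_lit 201) (nat_lit 180)) (XT.lf (nat_lit 0) (nat_lit 5080959132) (nat_lit 152) (nat_lit 11697157797) (nat_lit 76) (nat_lit 13557116022) (nat_lit 5) (nat_lit 5) (nat_lit 7) (nat_lit 5) (nat_lit 6) (nat_lit 4) (nat_lit 220) (nat_lit 201) (nat_lit 179))) (XT.nd (nat_lit 78) (nat_lit 76) (nat_lit 0) (XT.lf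 (nat_lit 0) (nat_lit 10277266583) (nat_lit 152) (nat_lit 1029513442) (nat_lit 76) (nat_lit 22917662600) (nat_lit 5) (nat_lit 5) (nat_lit 7) (nat_lit 5) (nat_lit 6) (nat_lit 4) (nat_lit 221) (nat_lit 201) (nat_lit 178)) (XT.nd (nat_lit 78) (nat_lit 0) (nat_lit 0) (XT.lf (nat_lit 0) (nat_lit 11695375740) (nat_lit 76) (nat_lit 4758436705) (nat_lit 152) (nat_lit 22227644960) (nat_lit 4) (nat_lit 5) (nat_lit 5) (nat_lit 5) (nat_lit 6) (nat_lit 4) (nat_lit 222) (nat_lit 201) (nat_lit 177)) (XT.lf (nat_lit 0) (nat_lit 23580395524) (nat_lit 152) (nat_lit 17603036111) (nat_lit 0) (nat_lit 2622131852) (nat_lit 4) (nat_lit 5) (nat_lit 6) (nat_lit 4) (nat_lit 4) (nat_lit 4) (nat_lit 223) (nat_lit 201) (nat_lit 176))))))) (XT.nd (nat_lit 780) (nat_lit 0) (nat_lit 0) (XT.nd (nat_lit 390) (nat_lit 152) (nat_lit 0) (XT.nd (nat_lit 156) (nat_lit 0) (nat_lit 0) (XT.nd (nat_lit 78) (nat_lit 76) (nat_lit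 0) (XT.lf (nat_lit 0) (nat_lit 31843340631) (nat_lit 152) (nat_lit 7050490818) (nat_lit 0) (nat_lit 10799432339) (nat_lit 4) (nat_lit 5) (nat_lit 6) (nat_lit 4) (nat_lit 4) (nat_lit 4) (nat_lit 224) (nat_lit 201) (nat_lit 175)) (XT.lf (nat_lit 0) (nat_lit 5255351539) (nat_lit 76) (nat_lit 36160913358) (nat_lit 76) (nat_lit 15042531483) (nat_lit 3) (nat_lit 4) (nat_lit 4) (nat_lit 5) (nat_lit 4) (nat_lit 4) (nat_lit 225) (nat_lit 201) (nat_lit 174))) (XT.nd (nat_lit 78) (nat_lit 0) (nat_lit 0) (XT.lf (nat_lit 0) (nat_lit 19749375721) (nat_lit 76) (nat_lit 32830415040) (nat_lit 76) (nat_lit 11647273529) (nat_lit 3) (nat_lit 4) (nat_lit 4) (nat_lit 5) (nat_lit 4) (nat_lit 4) (nat_lit 226) (nat_lit 201) (nat_lit 173)) (XT.nd (nat_lit 78) (nat_lit 0) (nat_lit 0) (XT.lf (nat_lit 0) (nat_lit 36343894109) (nat_lit 76) (nat_lit 29029947487) (nat_lit 76) (nat_lit 7790493248) (nat_lit 3) (nat_lit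 4) (nat_lit 4) (nat_lit 5) (nat_lit 4) (nat_lit 4) (nat_lit 227) (nat_lit 201) (nat_lit 172)) (XT.lf (nat_lit 0) (nat_lit 55363582062) (nat_lit 76) (nat_lit 24685153725) (nat_lit 76) (nat_lit 3396731897) (nat_lit 3) (nat_lit 4) (nat_lit 4) (nat_lit 5) (nat_lit 4) (nat_lit 4) (nat_lit 228) (nat_lit 201) (nat_lit 171))))) (XT.nd (nat_lit 156) (nat_lit 76) (nat_lit 0) (XT.nd (nat_lit 78) (nat_lit 0) (nat_lit 0) (XT.lf (nat_lit 0) (nat_lit 1538937689) (nat_lit 152) (nat_lit 18130011946) (nat_lit 76) (nat_lit 75599548936) (nat_lit 2) (nat_lit 5) (nat_lit 4) (nat_lit 5) (nat_lit 3) (nat_lit 4) (nat_lit 229) (nat_lit 201) (nat_lit 170)) (XT.lf (nat_lit 0) (nat_lit 6989715636) (nat_lit 152) (nat_lit 6829420349) (nat_lit 76) (nat_lit 95040866795) (nat_lit 2) (nat_lit 5) (nat_lit 4) (nat_lit 5) (nat_lit 3) (nat_lit 4) (nat_lit 230) (nat_lit 201) (nat_lit 169))) (XT.nd (nat_lit 78) (nat_lit 0)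 (nat_lit 0) (XT.lf (nat_lit 0) (nat_lit 6445088620) (nat_lit 76) (nat_lit 6942081802) (nat_lit 152) (nat_lit 111092865578) (nat_lit 1) (nat_lit 5) (nat_lit 2) (nat_lit 5) (nat_lit 3) (nat_lit 4) (nat_lit 231) (nat_lit 201) (nat_lit 168)) (XT.nd (nat_lit 78) (nat_lit 0) (nat_lit 0) (XT.lf (nat_lit 0) (nat_lit 20947570689) (nat_lit 152) (nat_lit 120372725555) (nat_lit 0) (nat_lit 1106623248) (nat_lit 1) (nat_lit 5) (nat_lit 3) (nat_lit 4) (nat_lit 1) (nat_lit 4) (nat_lit 232) (nat_lit 201) (nat_lit 167)) (XT.lf (nat_lit 0) (nat_lit 29813237476) (nat_lit 152) (nat_lit 123289250584) (nat_lit 0) (nat_lit 9949747862) (nat_lit 1) (nat_lit 5) (nat_lit 3) (nat_lit 4) (nat_lit 1) (nat_lit 4) (nat_lit 233) (nat_lit 201) (nat_lit 166)))))) (XT.nd (nat_lit 390) (nat_lit 0) (nat_lit 0) (XT.nd (nat_lit 156) (nat_lit 0) (nat_lit 0) (XT.nd (nat_lit 78) (nat_lit 0) (nat_lit 0) (XT.lf (nat_lit 0) (nat_lit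 39990672246) (nat_lit 152) (nat_lit 126674627679) (nat_lit 0) (nat_lit 20107580743) (nat_lit 1) (nat_lit 5) (nat_lit 3) (nat_lit 4) (nat_lit 1) (nat_lit 4) (nat_lit 234) (nat_lit 201) (nat_lit 165)) (XT.lf (nat_lit 0) (nat_lit 51678998722) (nat_lit 152) (nat_lit 130595092479) (nat_lit 0) (nat_lit 31778862098) (nat_lit 1) (nat_lit 5) (nat_lit 3) (nat_lit 4) (nat_lit 1) (nat_lit 4) (nat_lit 235) (nat_lit 201) (nat_lit 164))) (XT.nd (nat_lit 78) (nat_lit 0) (nat_lit 0) (XT.lf (nat_lit 0) (nat_lit 65106901554) (nat_lit 152) (nat_lit 135127349729) (nat_lit 0) (nat_lit 45191943086) (nat_lit 1) (nat_lit 5) (nat_lit 3) (nat_lit 4) (nat_lit 1) (nat_lit 4) (nat_lit 236) (nat_lit 201) (nat_lit 163)) (XT.nd (nat_lit 78) (nat_lit 0) (nat_lit 0) (XT.lf (nat_lit 0) (nat_lit 80537100579) (nat_lit 152) (nat_lit 140360074029) (nat_lit 0) (nat_lit 60609253551) (nat_lit 1) (nat_lit 5) (nat_lit 3) (nat_lit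 4) (nat_lit 1) (nat_lit 4) (nat_lit 237) (nat_lit 201) (nat_lit 162)) (XT.lf (nat_lit 0) (nat_lit 98271490996) (nat_lit 152) (nat_lit 146395644766) (nat_lit 0) (nat_lit 78332436524) (nat_lit 1) (nat_lit 5) (nat_lit 3) (nat_lit 4) (nat_lit 1) (nat_lit 4) (nat_lit 238) (nat_lit 201) (nat_lit 161))))) (XT.nd (nat_lit 156) (nat_lit 0) (nat_lit 0) (XT.nd (nat_lit 78) (nat_lit 0) (nat_lit 0) (XT.lf (nat_lit 0) (nat_lit 118657050008) (nat_lit 152) (nat_lit 153352149195) (nat_lit 0) (nat_lit 98708249933) (nat_lit 1) (nat_lit 5) (nat_lit 3) (nat_lit 4) (nat_lit 1) (nat_lit 4) (nat_lit 239) (nat_lit 201) (nat_lit 160)) (XT.lf (nat_lit 0) (nat_lit 142092625509) (nat_lit 152) (nat_lit 161365692836) (nat_lit 0) (nat_lit 122135350996) (nat_lit 1) (nat_lit 5) (nat_lit 3) (nat_lit 4) (nat_lit 1) (nat_lit 4) (nat_lit 240) (nat_lit 201) (nat_lit 159))) (XT.nd (nat_lit 78) (nat_lit 0) (nat_lit 0) (XT.lf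 (nat_lit 0) (nat_lit 169036739629) (nat_lit 152) (nat_lit 170593062413) (nat_lit 0) (nat_lit 149072096040) (nat_lit 1) (nat_lit 5) (nat_lit 3) (nat_lit 4) (nat_lit 1) (nat_lit 4) (nat_lit 241) (nat_lit 201) (nat_lit 158)) (XT.nd (nat_lit 78) (nat_lit 0) (nat_lit 0) (XT.lf (nat_lit 0) (nat_lit 200016559817) (nat_lit 152) (nat_lit 181214793418) (nat_lit 0) (nat_lit 180045508336) (nat_lit 1) (nat_lit 5) (nat_lit 3) (nat_lit 4) (nat_lit 1) (nat_lit 4) (nat_lit 242) (nat_lit 201) (nat_lit 157)) (XT.lf (nat_lit 0) (nat_lit 235638212991) (nat_lit 152) (nat_lit 193438702327) (nat_lit 0) (nat_lit 215661589429) (nat_lit 1) (nat_lit 5) (nat_lit 3) (nat_lit 4) (nat_lit 1) (nat_lit 4) (nat_lit 243) (nat_lit 201) (nat_lit 156))))))))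
noncomputable def xc27 : XT := (XT.nd (nat_lit 28236) (nat_lit 0) (nat_lit 228) (XT.nd (nat_lit 780) (nat_lit 0) (nat_lit 0) (XT.nd (nat_lit 390) (nat_lit 0) (nat_lit 0) (XT.nd (nat_lit 156) (nat_lit 0) (nat_lit 0) (XT.nd (nat_lit 78) (nat_lit 0) (nat_lit 0) (XT.lf (nat_lit 0) (nat_lit 276598644538) (nat_lit 152) (nat_lit 207503952575) (nat_lit 0) (nat_lit 256617175689) (nat_lit 1) (nat_lit 5) (nat_lit 3) (nat_lit 4) (nat_lit 1) (nat_lit 4) (nat_lit 244) (nat_lit 201) (nat_lit 155)) (XT.lf (nat_lit 0) (nat_lit 323699254207) (nat_lit 152) (nat_lit 223685733841) (nat_lit 0) (nat_lit 303713572065) (nat_lit 1) (nat_lit 5) (nat_lit 3) (nat_lit 4) (nat_lit 1) (nat_lit 4) (nat_lit 245) (nat_lit 201) (nat_lit 154))) (XT.nd (nat_lit 78) (nat_lit 0) (nat_lit 0) (XT.lf (nat_lit 0) (nat_lit 377861575664) (nat_lit 152) (nat_lit 242300646193) (nat_lit 0) (nat_lit 357872229789) (nat_lit 1) (nat_lit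 5) (nat_lit 3) (nat_lit 4) (nat_lit 1) (nat_lit 4) (nat_lit 246) (nat_lit 201) (nat_lit 153)) (XT.nd (nat_lit 78) (nat_lit 0) (nat_lit 0) (XT.lf (nat_lit 0) (nat_lit 440145306504) (nat_lit 152) (nat_lit 263712894438) (nat_lit 0) (nat_lit 420152774773) (nat_lit 1) (nat_lit 5) (nat_lit 3) (nat_lit 4) (nat_lit 1) (nat_lit 4) (nat_lit 247) (nat_lit 201) (nat_lit 152)) (XT.lf (nat_lit 0) (nat_lit 511769041459) (nat_lit 152) (nat_lit 288341413868) (nat_lit 0) (nat_lit 491773739421) (nat_lit 1) (nat_lit 5) (nat_lit 3) (nat_lit 4) (nat_lit 1) (nat_lit 4) (nat_lit 248) (nat_lit 201) (nat_lit 151))))) (XT.nd (nat_lit 156) (nat_lit 0) (nat_lit 0) (XT.nd (nat_lit 78) (nat_lit 0) (nat_lit 0) (XT.lf (nat_lit 0) (nat_lit 594134114476) (nat_lit 152) (nat_lit 316668066819) (nat_lit 0) (nat_lit 574136403473) (nat_lit 1) (nat_lit 5) (nat_lit 3) (nat_lit 4) (nat_lit 1) (nat_lit 4) (nat_lit 249) (nat_lit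 201) (nat_lit 150)) (XT.lf (nat_lit 0) (nat_lit 688852016113) (nat_lit 152) (nat_lit 349247070415) (nat_lit 0) (nat_lit 668852210359) (nat_lit 1) (nat_lit 5) (nat_lit 3) (nat_lit 4) (nat_lit 1) (nat_lit 4) (nat_lit 250) (nat_lit 201) (nat_lit 149))) (XT.nd (nat_lit 78) (nat_lit 0) (nat_lit 0) (XT.lf (nat_lit 0) (nat_lit 797775922706) (nat_lit 152) (nat_lit 386715839943) (nat_lit 0) (nat_lit 777774295429) (nat_lit 1) (nat_lit 5) (nat_lit 3) (nat_lit 4) (nat_lit 1) (nat_lit 4) (nat_lit 251) (nat_lit 201) (nat_lit 148)) (XT.nd (nat_lit 78) (nat_lit 0) (nat_lit 0) (XT.lf (nat_lit 0) (nat_lit 923036954168) (nat_lit 152) (nat_lit 429807460024) (nat_lit 0) (nat_lit 903033742957) (nat_lit 1) (nat_lit 5) (nat_lit 3) (nat_lit 4) (nat_lit 1) (nat_lit 4) (nat_lit 252) (nat_lit 201) (nat_lit 147)) (XT.lf (nat_lit 0) (nat_lit 1067085869808) (nat_lit 152) (nat_lit 479365027573) (nat_lit 0) (nat_lit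 1047081281265) (nat_lit 1) (nat_lit 5) (nat_lit 3) (nat_lit 4) (nat_lit 1) (nat_lit 4) (nat_lit 253) (nat_lit 201) (nat_lit 146)))))) (XT.nd (nat_lit 390) (nat_lit 0) (nat_lit 0) (XT.nd (nat_lit 156) (nat_lit 0) (nat_lit 0) (XT.nd (nat_lit 78) (nat_lit 0) (nat_lit 0) (XT.lf (nat_lit 0) (nat_lit 1232741017977) (nat_lit 152) (nat_lit 536358147172) (nat_lit 0) (nat_lit 1212735231753) (nat_lit 1) (nat_lit 5) (nat_lit 3) (nat_lit 4) (nat_lit 1) (nat_lit 4) (nat_lit 254) (nat_lit 201) (nat_lit 145)) (XT.lf (nat_lit 0) (nat_lit 1423243477661) (nat_lit 152) (nat_lit 601901901597) (nat_lit 0) (nat_lit 1403236649975) (nat_lit 1) (nat_lit 5) (nat_lit 3) (nat_lit 4) (nat_lit 1) (nat_lit 4) (nat_lit 255) (nat_lit 201) (nat_lit 144))) (XT.nd (nat_lit 78) (nat_lit 0) (nat_lit 0) (XT.lf (nat_lit 0) (nat_lit 1642320470897) (nat_lit 152) (nat_lit 677278668651) (nat_lit 0) (nat_lit 1622312737592) (nat_lit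 1) (nat_lit 5) (nat_lit 3) (nat_lit 4) (nat_lit 1) (nat_lit 4) (nat_lit 256) (nat_lit 201) (nat_lit 143)) (XT.nd (nat_lit 78) (nat_lit 0) (nat_lit 0) (XT.lf (nat_lit 0) (nat_lit 1894258286683) (nat_lit 152) (nat_lit 763963211168) (nat_lit 0) (nat_lit 1874249765883) (nat_lit 1) (nat_lit 5) (nat_lit 3) (nat_lit 4) (nat_lit 1) (nat_lit 4) (nat_lit 257) (nat_lit 201) (nat_lit 142)) (XT.lf (nat_lit 0) (nat_lit 2183986143153) (nat_lit 152) (nat_lit 863651531067) (nat_lit 0) (nat_lit 2163976937576) (nat_lit 1) (nat_lit 5) (nat_lit 3) (nat_lit 4) (nat_lit 1) (nat_lit 4) (nat_lit 258) (nat_lit 201) (nat_lit 141))))) (XT.nd (nat_lit 26832) (nat_lit 0) (nat_lit 2432) (XT.nd (nat_lit 78) (nat_lit 0) (nat_lit 0) (XT.lf (nat_lit 0) (nat_lit 2517172628805) (nat_lit 152) (nat_lit 978294051997) (nat_lit 0) (nat_lit 2497162827769) (nat_lit 1) (nat_lit 5) (nat_lit 3) (nat_lit 4) (nat_lit 1) (nat_lit 4)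 (nat_lit 259) (nat_lit 201) (nat_lit 140)) (XT.lf (nat_lit 0) (nat_lit 2900336609661) (nat_lit 152) (nat_lit 1110133779804) (nat_lit 0) (nat_lit 2880326290835) (nat_lit 1) (nat_lit 5) (nat_lit 3) (nat_lit 4) (nat_lit 1) (nat_lit 4) (nat_lit 260) (nat_lit 201) (nat_lit 139))) (XT.nd (nat_lit 78) (nat_lit 304) (nat_lit 0) (XT.lf (nat_lit 0) (nat_lit 564187424) (nat_lit 0) (nat_lit 564187424) (nat_lit 228) (nat_lit 2295457572) (nat_lit 37) (nat_lit 5) (nat_lit 37) (nat_lit 3) (nat_lit 40) (nat_lit 3) (nat_lit 202) (nat_lit 202) (nat_lit 196)) (XT.nd (nat_lit 78) (nat_lit 304) (nat_lit 0) (XT.lf (nat_lit 0) (nat_lit 5340844477) (nat_lit 228) (nat_lit 728296108) (nat_lit 304) (nat_lit 1015661151) (nat_lit 37) (nat_lit 5) (nat_lit 40) (nat_lit 3) (nat_lit 41) (nat_lit 5) (nat_lit 203) (nat_lit 202) (nat_lit 195)) (XT.lf (nat_lit 0) (nat_lit 1078017195) (nat_lit 304) (nat_lit 2507518742) (nat_lit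 380) (nat_lit 3806199011) (nat_lit 33) (nat_lit 5) (nat_lit 37) (nat_lit 5) (nat_lit 38) (nat_lit 5) (nat_lit 204) (nat_lit 202) (nat_lit 194))))))) (XT.nd (nat_lit 780) (nat_lit 532) (nat_lit 0) (XT.nd (nat_lit 390) (nat_lit 760) (nat_lit 0) (XT.nd (nat_lit 156) (nat_lit 684) (nat_lit 0) (XT.nd (nat_lit 78) (nat_lit 228) (nat_lit 0) (XT.lf (nat_lit 76) (nat_lit 3446728765) (nat_lit 0) (nat_lit 414045826) (nat_lit 380) (nat_lit 3915250336) (nat_lit 34) (nat_lit 5) (nat_lit 33) (nat_lit 5) (nat_lit 38) (nat_lit 5) (nat_lit 205) (nat_lit 202) (nat_lit 193)) (XT.lf (nat_lit 0) (nat_lit 1918995035) (nat_lit 304) (nat_lit 4930807048) (nat_lit 380) (nat_lit 1390439516) (nat_lit 30) (nat_lit 5) (nat_lit 34) (nat_lit 5) (nat_lit 35) (nat_lit 5) (nat_lit 206) (nat_lit 202) (nat_lit 192))) (XT.nd (nat_lit 78) (nat_lit 228) (nat_lit 0) (XT.lf (nat_lit 0) (nat_lit 235996700) (nat_lit 380) (nat_lit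 970174664) (nat_lit 456) (nat_lit 7587847809) (nat_lit 24) (nat_lit 5) (nat_lit 29) (nat_lit 5) (nat_lit 30) (nat_lit 5) (nat_lit 207) (nat_lit 202) (nat_lit 191)) (XT.nd (nat_lit 78) (nat_lit 228) (nat_lit 0) (XT.lf (nat_lit 0) (nat_lit 4052555025) (nat_lit 456) (nat_lit 1717126023) (nat_lit 76) (nat_lit 3666659173) (nat_lit 24) (nat_lit 5) (nat_lit 30) (nat_lit 5) (nat_lit 25) (nat_lit 5) (nat_lit 208) (nat_lit 202) (nat_lit 190)) (XT.lf (nat_lit 0) (nat_lit 6142371037) (nat_lit 228) (nat_lit 1066990561) (nat_lit 304) (nat_lit 2978253134) (nat_lit 21) (nat_lit 5) (nat_lit 24) (nat_lit 5) (nat_lit 25) (nat_lit 5) (nat_lit 209) (nat_lit 202) (nat_lit 189))))) (XT.nd (nat_lit 156) (nat_lit 304) (nat_lit 0) (XT.nd (nat_lit 78) (nat_lit 228) (nat_lit 0) (XT.lf (nat_lit 0) (nat_lit 4046827584) (nat_lit 228) (nat_lit 6786320570) (nat_lit 304) (nat_lit 221809928) (nat_lit 18) (nat_lit 5)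 (nat_lit 21) (nat_lit 5) (nat_lit 22) (nat_lit 5) (nat_lit 210) (nat_lit 202) (nat_lit 188)) (XT.lf (nat_lit 0) (nat_lit 1235257078) (nat_lit 152) (nat_lit 1505006211) (nat_lit 228) (nat_lit 9313594553) (nat_lit 15) (nat_lit 5) (nat_lit 17) (nat_lit 5) (nat_lit 18) (nat_lit 5) (nat_lit 211) (nat_lit 202) (nat_lit 187))) (XT.nd (nat_lit 78) (nat_lit 304) (nat_lit 0) (XT.lf (nat_lit 0) (nat_lit 6236986209) (nat_lit 228) (nat_lit 2440554197) (nat_lit 76) (nat_lit 4518311914) (nat_lit 15) (nat_lit 5) (nat_lit 18) (nat_lit 5) (nat_lit 16) (nat_lit 5) (nat_lit 212) (nat_lit 202) (nat_lit 186)) (XT.nd (nat_lit 78) (nat_lit 152) (nat_lit 0) (XT.lf (nat_lit 0) (nat_lit 7279762793) (nat_lit 152) (nat_lit 3007238425) (nat_lit 228) (nat_lit 4221579840) (nat_lit 13) (nat_lit 5) (nat_lit 15) (nat_lit 5) (nat_lit 16) (nat_lit 5) (nat_lit 213) (nat_lit 202) (nat_lit 185)) (XT.lf (nat_lit 0) (nat_lit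 2396146100) (nat_lit 152) (nat_lit 12593615233) (nat_lit 228) (nat_lit 1026349457) (nat_lit 11) (nat_lit 5) (nat_lit 13) (nat_lit 5) (nat_lit 14) (nat_lit 4) (nat_lit 214) (nat_lit 202) (nat_lit 184)))))) (XT.nd (nat_lit 390) (nat_lit 228) (nat_lit 0) (XT.nd (nat_lit 156) (nat_lit 76) (nat_lit 0) (XT.nd (nat_lit 78) (nat_lit 152) (nat_lit 0) (XT.lf (nat_lit 0) (nat_lit 2656856572) (nat_lit 228) (nat_lit 4203407471) (nat_lit 76) (nat_lit 10874334494) (nat_lit 10) (nat_lit 5) (nat_lit 13) (nat_lit 5) (nat_lit 11) (nat_lit 5) (nat_lit 215) (nat_lit 202) (nat_lit 183)) (XT.lf (nat_lit 0) (nat_lit 6742575426) (nat_lit 152) (nat_lit 115748512) (nat_lit 228) (nat_lit 12849336673) (nat_lit 8) (nat_lit 5) (nat_lit 10) (nat_lit 5) (nat_lit 11) (nat_lit 5) (nat_lit 216) (nat_lit 202) (nat_lit 182))) (XT.nd (nat_lit 78) (nat_lit 76) (nat_lit 0) (XT.lf (nat_lit 0) (nat_lit 11874420590) (nat_lit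 228) (nat_lit 2754095437) (nat_lit 76) (nat_lit 7334333215) (nat_lit 8) (nat_lit 5) (nat_lit 11) (nat_lit 5) (nat_lit 9) (nat_lit 4) (nat_lit 217) (nat_lit 202) (nat_lit 181)) (XT.nd (nat_lit 78) (nat_lit 0) (nat_lit 0) (XT.lf (nat_lit 0) (nat_lit 9288902598) (nat_lit 76) (nat_lit 8472020078) (nat_lit 152) (nat_lit 6786754201) (nat_lit 7) (nat_lit 5) (nat_lit 8) (nat_lit 5) (nat_lit 9) (nat_lit 4) (nat_lit 218) (nat_lit 202) (nat_lit 180)) (XT.lf (nat_lit 0) (nat_lit 23157659547) (nat_lit 76) (nat_lit 1354934031) (nat_lit 152) (nat_lit 3009755239) (nat_lit 7) (nat_lit 5) (nat_lit 8) (nat_lit 5) (nat_lit 9) (nat_lit 4) (nat_lit 219) (nat_lit 202) (nat_lit 179))))) (XT.nd (nat_lit 156) (nat_lit 76) (nat_lit 0) (XT.nd (nat_lit 78) (nat_lit 0) (nat_lit 0) (XT.lf (nat_lit 0) (nat_lit 1550811760) (nat_lit 152) (nat_lit 22682148807) (nat_lit 76) (nat_lit 6685555659) (nat_lit 5) (nat_lit 5)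 (nat_lit 7) (nat_lit 5) (nat_lit 6) (nat_lit 4) (nat_lit 220) (nat_lit 202) (nat_lit 178)) (XT.lf (nat_lit 0) (nat_lit 6709685828) (nat_lit 152) (nat_lit 12074016957) (nat_lit 76) (nat_lit 16027244315) (nat_lit 5) (nat_lit 5) (nat_lit 7) (nat_lit 5) (nat_lit 6) (nat_lit 4) (nat_lit 221) (nat_lit 202) (nat_lit 177))) (XT.nd (nat_lit 78) (nat_lit 0) (nat_lit 0) (XT.lf (nat_lit 0) (nat_lit 14813173) (nat_lit 76) (nat_lit 12557949937) (nat_lit 152) (nat_lit 26720473238) (nat_lit 4) (nat_lit 5) (nat_lit 5) (nat_lit 5) (nat_lit 6) (nat_lit 4) (nat_lit 222) (nat_lit 202) (nat_lit 176)) (XT.nd (nat_lit 78) (nat_lit 0) (nat_lit 0) (XT.lf (nat_lit 0) (nat_lit 14546288917) (nat_lit 76) (nat_lit 5057229931) (nat_lit 152) (nat_lit 24821661059) (nat_lit 4) (nat_lit 5) (nat_lit 5) (nat_lit 5) (nat_lit 6) (nat_lit 4) (nat_lit 223) (nat_lit 202) (nat_lit 175)) (XT.lf (nat_lit 0) (nat_lit 27718858878)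 (nat_lit 152) (nat_lit 19247732544) (nat_lit 0) (nat_lit 3358246140) (nat_lit 4) (nat_lit 5) (nat_lit 6) (nat_lit 4) (nat_lit 4) (nat_lit 4) (nat_lit 224) (nat_lit 202) (nat_lit 174))))))))
noncomputable def xc28 : XT := (XT.nd (nat_lit 1482) (nat_lit 0) (nat_lit 0) (XT.nd (nat_lit 702) (nat_lit 0) (nat_lit 0) (XT.nd (nat_lit 312) (nat_lit 152) (nat_lit 0) (XT.nd (nat_lit 156) (nat_lit 0) (nat_lit 0) (XT.nd (nat_lit 78) (nat_lit 76) (nat_lit 0) (XT.lf (nat_lit 0) (nat_lit 37142801748) (nat_lit 152) (nat_lit 7242187064) (nat_lit 0) (nat_lit 12717429373) (nat_lit 4) (nat_lit 5) (nat_lit 6) (nat_lit 4) (nat_lit 4) (nat_lit 4) (nat_lit 225) (nat_lit 202) (nat_lit 173)) (XT.lf (nat_lit 0) (nat_lit 6836239440) (nat_lit 76) (nat_lit 41266274729) (nat_lit 76) (nat_lit 16784589626) (nat_lit 3) (nat_lit 4) (nat_lit 4) (nat_lit 5) (nat_lit 4) (nat_lit 4) (nat_lit 226) (nat_lit 202) (nat_lit 172)))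 (XT.nd (nat_lit 78) (nat_lit 0) (nat_lit 0) (XT.lf (nat_lit 0) (nat_lit 23400986575) (nat_lit 76) (nat_lit 37477781094) (nat_lit 76) (nat_lit 12947128402) (nat_lit 3) (nat_lit 4) (nat_lit 4) (nat_lit 5) (nat_lit 4) (nat_lit 4) (nat_lit 227) (nat_lit 202) (nat_lit 171)) (XT.lf (nat_lit 0) (nat_lit 42394786483) (nat_lit 76) (nat_lit 33143399434) (nat_lit 76) (nat_lit 8570166230) (nat_lit 3) (nat_lit 4) (nat_lit 4) (nat_lit 5) (nat_lit 4) (nat_lit 4) (nat_lit 228) (nat_lit 202) (nat_lit 170)))) (XT.nd (nat_lit 156) (nat_lit 76) (nat_lit 0) (XT.nd (nat_lit 78) (nat_lit 76) (nat_lit 0) (XT.lf (nat_lit 0) (nat_lit 64189256986) (nat_lit 76) (nat_lit 28178326631) (nat_lit 76) (nat_lit 3568066894) (nat_lit 3) (nat_lit 4) (nat_lit 4) (nat_lit 5) (nat_lit 4) (nat_lit 4) (nat_lit 229) (nat_lit 202) (nat_lit 169)) (XT.lf (nat_lit 0) (nat_lit 2049133051) (nat_lit 152) (nat_lit 20380259974) (nat_lit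 76) (nat_lit 87105651658) (nat_lit 2) (nat_lit 5) (nat_lit 4) (nat_lit 5) (nat_lit 3) (nat_lit 4) (nat_lit 230) (nat_lit 202) (nat_lit 168))) (XT.nd (nat_lit 78) (nat_lit 76) (nat_lit 0) (XT.lf (nat_lit 0) (nat_lit 8281090120) (nat_lit 152) (nat_lit 7445786650) (nat_lit 76) (nat_lit 109441492799) (nat_lit 2) (nat_lit 5) (nat_lit 4) (nat_lit 5) (nat_lit 3) (nat_lit 4) (nat_lit 231) (nat_lit 202) (nat_lit 167)) (XT.nd (nat_lit 78) (nat_lit 0) (nat_lit 0) (XT.lf (nat_lit 0) (nat_lit 7785359539) (nat_lit 76) (nat_lit 7830101607) (nat_lit 152) (nat_lit 127517919338) (nat_lit 1) (nat_lit 5) (nat_lit 2) (nat_lit 5) (nat_lit 3) (nat_lit 4) (nat_lit 232) (nat_lit 202) (nat_lit 166)) (XT.lf (nat_lit 0) (nat_lit 24284403553) (nat_lit 152) (nat_lit 138090824081) (nat_lit 0) (nat_lit 1399246435) (nat_lit 1) (nat_lit 5) (nat_lit 3) (nat_lit 4) (nat_lit 1) (nat_lit 4) (nat_lit 233) (nat_lit 202) (nat_lit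 165)))))) (XT.nd (nat_lit 390) (nat_lit 0) (nat_lit 0) (XT.nd (nat_lit 156) (nat_lit 0) (nat_lit 0) (XT.nd (nat_lit 78) (nat_lit 0) (nat_lit 0) (XT.lf (nat_lit 0) (nat_lit 34454525062) (nat_lit 152) (nat_lit 141488890078) (nat_lit 0) (nat_lit 11552322824) (nat_lit 1) (nat_lit 5) (nat_lit 3) (nat_lit 4) (nat_lit 1) (nat_lit 4) (nat_lit 234) (nat_lit 202) (nat_lit 164)) (XT.lf (nat_lit 0) (nat_lit 46136492183) (nat_lit 152) (nat_lit 145420388706) (nat_lit 0) (nat_lit 23219468100) (nat_lit 1) (nat_lit 5) (nat_lit 3) (nat_lit 4) (nat_lit 1) (nat_lit 4) (nat_lit 235) (nat_lit 202) (nat_lit 163))) (XT.nd (nat_lit 78) (nat_lit 0) (nat_lit 0) (XT.lf (nat_lit 0) (nat_lit 59558865139) (nat_lit 152) (nat_lit 149962240590) (nat_lit 0) (nat_lit 36628952496) (nat_lit 1) (nat_lit 5) (nat_lit 3) (nat_lit 4) (nat_lit 1) (nat_lit 4) (nat_lit 236) (nat_lit 202) (nat_lit 162)) (XT.nd (nat_lit 78) (nat_lit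 0) (nat_lit 0) (XT.lf (nat_lit 0) (nat_lit 74984255577) (nat_lit 152) (nat_lit 155203308049) (nat_lit 0) (nat_lit 52043135491) (nat_lit 1) (nat_lit 5) (nat_lit 3) (nat_lit 4) (nat_lit 1) (nat_lit 4) (nat_lit 237) (nat_lit 202) (nat_lit 161)) (XT.lf (nat_lit 0) (nat_lit 92714464614) (nat_lit 152) (nat_lit 161246133707) (nat_lit 0) (nat_lit 69763598924) (nat_lit 1) (nat_lit 5) (nat_lit 3) (nat_lit 4) (nat_lit 1) (nat_lit 4) (nat_lit 238) (nat_lit 202) (nat_lit 160))))) (XT.nd (nat_lit 156) (nat_lit 0) (nat_lit 0) (XT.nd (nat_lit 78) (nat_lit 0) (nat_lit 0) (XT.lf (nat_lit 0) (nat_lit 113096387643) (nat_lit 152) (nat_lit 168208946763) (nat_lit 0) (nat_lit 90137047516) (nat_lit 1) (nat_lit 5) (nat_lit 3) (nat_lit 4) (nat_lit 1) (nat_lit 4) (nat_lit 239) (nat_lit 202) (nat_lit 159)) (XT.lf (nat_lit 0) (nat_lit 136528801421) (nat_lit 152) (nat_lit 176227976167) (nat_lit 0) (nat_lit 113562092217)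 (nat_lit 1) (nat_lit 5) (nat_lit 3) (nat_lit 4) (nat_lit 1) (nat_lit 4) (nat_lit 240) (nat_lit 202) (nat_lit 158))) (XT.nd (nat_lit 78) (nat_lit 0) (nat_lit 0) (XT.lf (nat_lit 0) (nat_lit 163470166215) (nat_lit 152) (nat_lit 185460115973) (nat_lit 0) (nat_lit 140497049119) (nat_lit 1) (nat_lit 5) (nat_lit 3) (nat_lit 4) (nat_lit 1) (nat_lit 4) (nat_lit 241) (nat_lit 202) (nat_lit 157)) (XT.nd (nat_lit 78) (nat_lit 0) (nat_lit 0) (XT.lf (nat_lit 0) (nat_lit 194447595686) (nat_lit 152) (nat_lit 196085995002) (nat_lit 0) (nat_lit 171468906510) (nat_lit 1) (nat_lit 5) (nat_lit 3) (nat_lit 4) (nat_lit 1) (nat_lit 4) (nat_lit 242) (nat_lit 202) (nat_lit 156)) (XT.lf (nat_lit 0) (nat_lit 230067169975) (nat_lit 152) (nat_lit 208313510889) (nat_lit 0) (nat_lit 207083635511) (nat_lit 1) (nat_lit 5) (nat_lit 3) (nat_lit 4) (nat_lit 1) (nat_lit 4) (nat_lit 243) (nat_lit 202) (nat_lit 155)))))))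 (XT.nd (nat_lit 780) (nat_lit 0) (nat_lit 0) (XT.nd (nat_lit 390) (nat_lit 0) (nat_lit 0) (XT.nd (nat_lit 156) (nat_lit 0) (nat_lit 0) (XT.nd (nat_lit 78) (nat_lit 0) (nat_lit 0) (XT.lf (nat_lit 0) (nat_lit 271025793796) (nat_lit 152) (nat_lit 222381897640) (nat_lit 0) (nat_lit 248038046039) (nat_lit 1) (nat_lit 5) (nat_lit 3) (nat_lit 4) (nat_lit 1) (nat_lit 4) (nat_lit 244) (nat_lit 202) (nat_lit 154)) (XT.lf (nat_lit 0) (nat_lit 318124831529) (nat_lit 152) (nat_lit 238566406299) (nat_lit 0) (nat_lit 295133420039) (nat_lit 1) (nat_lit 5) (nat_lit 3) (nat_lit 4) (nat_lit 1) (nat_lit 4) (nat_lit 245) (nat_lit 202) (nat_lit 153))) (XT.nd (nat_lit 78) (nat_lit 0) (nat_lit 0) (XT.lf (nat_lit 0) (nat_lit 372285786086) (nat_lit 152) (nat_lit 257183690298) (nat_lit 0) (nat_lit 349291188741) (nat_lit 1) (nat_lit 5) (nat_lit 3) (nat_lit 4) (nat_lit 1) (nat_lit 4) (nat_lit 246) (nat_lit 202)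 (nat_lit 152)) (XT.nd (nat_lit 78) (nat_lit 0) (nat_lit 0) (XT.lf (nat_lit 0) (nat_lit 434568328316) (nat_lit 152) (nat_lit 278598000844) (nat_lit 0) (nat_lit 411570960663) (nat_lit 1) (nat_lit 5) (nat_lit 3) (nat_lit 4) (nat_lit 1) (nat_lit 4) (nat_lit 247) (nat_lit 202) (nat_lit 151)) (XT.lf (nat_lit 0) (nat_lit 506191029699) (nat_lit 152) (nat_lit 303228313580) (nat_lit 0) (nat_lit 483191253081) (nat_lit 1) (nat_lit 5) (nat_lit 3) (nat_lit 4) (nat_lit 1) (nat_lit 4) (nat_lit 248) (nat_lit 202) (nat_lit 150))))) (XT.nd (nat_lit 156) (nat_lit 0) (nat_lit 0) (XT.nd (nat_lit 78) (nat_lit 0) (nat_lit 0) (XT.lf (nat_lit 0) (nat_lit 588555203956) (nat_lit 152) (nat_lit 331556525927) (nat_lit 0) (nat_lit 565553332587) (nat_lit 1) (nat_lit 5) (nat_lit 3) (nat_lit 4) (nat_lit 1) (nat_lit 4) (nat_lit 249) (nat_lit 202) (nat_lit 149)) (XT.lf (nat_lit 0) (nat_lit 683272324063) (nat_lit 152) (nat_lit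 364136885520) (nat_lit 0) (nat_lit 660268631172) (nat_lit 1) (nat_lit 5) (nat_lit 3) (nat_lit 4) (nat_lit 1) (nat_lit 4) (nat_lit 250) (nat_lit 202) (nat_lit 148))) (XT.nd (nat_lit 78) (nat_lit 0) (nat_lit 0) (XT.lf (nat_lit 0) (nat_lit 792195551065) (nat_lit 152) (nat_lit 401606834175) (nat_lit 0) (nat_lit 769190274241) (nat_lit 1) (nat_lit 5) (nat_lit 3) (nat_lit 4) (nat_lit 1) (nat_lit 4) (nat_lit 251) (nat_lit 202) (nat_lit 147)) (XT.nd (nat_lit 78) (nat_lit 0) (nat_lit 0) (XT.lf (nat_lit 0) (nat_lit 917455991578) (nat_lit 152) (nat_lit 444699479584) (nat_lit 0) (nat_lit 894449337420) (nat_lit 1) (nat_lit 5) (nat_lit 3) (nat_lit 4) (nat_lit 1) (nat_lit 4) (nat_lit 252) (nat_lit 202) (nat_lit 146)) (XT.lf (nat_lit 0) (nat_lit 1061504393350) (nat_lit 152) (nat_lit 494257938723) (nat_lit 0) (nat_lit 1038496541511) (nat_lit 1) (nat_lit 5) (nat_lit 3) (nat_lit 4) (nat_lit 1) (nat_lit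 4) (nat_lit 253) (nat_lit 202) (nat_lit 145)))))) (XT.nd (nat_lit 390) (nat_lit 0) (nat_lit 0) (XT.nd (nat_lit 156) (nat_lit 0) (nat_lit 0) (XT.nd (nat_lit 78) (nat_lit 0) (nat_lit 0) (XT.lf (nat_lit 0) (nat_lit 1227159094677) (nat_lit 152) (nat_lit 551251833618) (nat_lit 0) (nat_lit 1204150201376) (nat_lit 1) (nat_lit 5) (nat_lit 3) (nat_lit 4) (nat_lit 1) (nat_lit 4) (nat_lit 254) (nat_lit 202) (nat_lit 144)) (XT.lf (nat_lit 0) (nat_lit 1417661165802) (nat_lit 152) (nat_lit 616796262213) (nat_lit 0) (nat_lit 1394651366883) (nat_lit 1) (nat_lit 5) (nat_lit 3) (nat_lit 4) (nat_lit 1) (nat_lit 4) (nat_lit 255) (nat_lit 202) (nat_lit 143))) (XT.nd (nat_lit 78) (nat_lit 0) (nat_lit 0) (XT.lf (nat_lit 0) (nat_lit 1636737821161) (nat_lit 152) (nat_lit 692173615502) (nat_lit 0) (nat_lit 1613727234747) (nat_lit 1) (nat_lit 5) (nat_lit 3) (nat_lit 4) (nat_lit 1) (nat_lit 4) (nat_lit 256) (nat_lit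 202) (nat_lit 142)) (XT.nd (nat_lit 78) (nat_lit 0) (nat_lit 0) (XT.lf (nat_lit 0) (nat_lit 1888675343141) (nat_lit 152) (nat_lit 778858667788) (nat_lit 0) (nat_lit 1865664071949) (nat_lit 1) (nat_lit 5) (nat_lit 3) (nat_lit 4) (nat_lit 1) (nat_lit 4) (nat_lit 257) (nat_lit 202) (nat_lit 141)) (XT.lf (nat_lit 0) (nat_lit 2178402944128) (nat_lit 152) (nat_lit 878547430965) (nat_lit 0) (nat_lit 2155391077477) (nat_lit 1) (nat_lit 5) (nat_lit 3) (nat_lit 4) (nat_lit 1) (nat_lit 4) (nat_lit 258) (nat_lit 202) (nat_lit 140))))) (XT.nd (nat_lit 26910) (nat_lit 0) (nat_lit 2356) (XT.nd (nat_lit 78) (nat_lit 0) (nat_lit 0) (XT.lf (nat_lit 0) (nat_lit 2511589207620) (nat_lit 152) (nat_lit 993190337354) (nat_lit 0) (nat_lit 2488576823179) (nat_lit 1) (nat_lit 5) (nat_lit 3) (nat_lit 4) (nat_lit 1) (nat_lit 4) (nat_lit 259) (nat_lit 202) (nat_lit 139)) (XT.lf (nat_lit 0) (nat_lit 2894752995294)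 (nat_lit 152) (nat_lit 1125030400342) (nat_lit 0) (nat_lit 2871740160600) (nat_lit 1) (nat_lit 5) (nat_lit 3) (nat_lit 4) (nat_lit 1) (nat_lit 4) (nat_lit 260) (nat_lit 202) (nat_lit 138))) (XT.nd (nat_lit 78) (nat_lit 0) (nat_lit 0) (XT.lf (nat_lit 0) (nat_lit 373090017) (nat_lit 380) (nat_lit 1650271119) (nat_lit 380) (nat_lit 1650271119) (nat_lit 32) (nat_lit 3) (nat_lit 37) (nat_lit 3) (nat_lit 37) (nat_lit 5) (nat_lit 203) (nat_lit 203) (nat_lit 194)) (XT.nd (nat_lit 78) (nat_lit 0) (nat_lit 76) (XT.lf (nat_lit 76) (nat_lit 2084129177) (nat_lit 0) (nat_lit 1040542355) (nat_lit 380) (nat_lit 4557554208) (nat_lit 33) (nat_lit 5) (nat_lit 32) (nat_lit 3) (nat_lit 37) (nat_lit 5) (nat_lit 204) (nat_lit 203) (nat_lit 193)) (XT.lf (nat_lit 76) (nat_lit 84956738) (nat_lit 0) (nat_lit 5527785236) (nat_lit 380) (nat_lit 2479856474) (nat_lit 34) (nat_lit 5) (nat_lit 33) (nat_lit 5) (nat_lit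 38) (nat_lit 5) (nat_lit 205) (nat_lit 203) (nat_lit 192))))))))
noncomputable def xc29 : XT := (XT.nd (nat_lit 1482) (nat_lit 228) (nat_lit 0) (XT.nd (nat_lit 702) (nat_lit 684) (nat_lit 0) (XT.nd (nat_lit 312) (nat_lit 608) (nat_lit 0) (XT.nd (nat_lit 156) (nat_lit 608) (nat_lit 0) (XT.nd (nat_lit 78) (nat_lit 304) (nat_lit 0) (XT.lf (nat_lit 76) (nat_lit 6677173741) (nat_lit 0) (nat_lit 1628826526) (nat_lit 380) (nat_lit 276657060) (nat_lit 34) (nat_lit 5) (nat_lit 33) (nat_lit 5) (nat_lit 38) (nat_lit 5) (nat_lit 206) (nat_lit 203) (nat_lit 191)) (XT.lf (nat_lit 0) (nat_lit 2017145787) (nat_lit 380) (nat_lit 4165672526) (nat_lit 76) (nat_lit 2972996815) (nat_lit 29) (nat_lit 5) (nat_lit 34) (nat_lit 5) (nat_lit 30) (nat_lit 5) (nat_lit 207) (nat_lit 203) (nat_lit 190))) (XT.nd (nat_lit 78) (nat_lit 228) (nat_lit 0) (XT.lf (nat_lit 0) (nat_lit 3077238315) (nat_lit 380) (nat_lit 1452263238)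 (nat_lit 456) (nat_lit 5296883614) (nat_lit 24) (nat_lit 5) (nat_lit 29) (nat_lit 5) (nat_lit 30) (nat_lit 5) (nat_lit 208) (nat_lit 203) (nat_lit 189)) (XT.lf (nat_lit 0) (nat_lit 759537909) (nat_lit 228) (nat_lit 6644654363) (nat_lit 304) (nat_lit 3197364295) (nat_lit 21) (nat_lit 5) (nat_lit 24) (nat_lit 5) (nat_lit 25) (nat_lit 5) (nat_lit 209) (nat_lit 203) (nat_lit 188)))) (XT.nd (nat_lit 156) (nat_lit 304) (nat_lit 0) (XT.nd (nat_lit 78) (nat_lit 304) (nat_lit 0) (XT.lf (nat_lit 0) (nat_lit 9531741276) (nat_lit 228) (nat_lit 1188369144) (nat_lit 304) (nat_lit 774573419) (nat_lit 21) (nat_lit 5) (nat_lit 24) (nat_lit 5) (nat_lit 25) (nat_lit 5) (nat_lit 210) (nat_lit 203) (nat_lit 187)) (XT.lf (nat_lit 0) (nat_lit 2008643576) (nat_lit 304) (nat_lit 5452546883) (nat_lit 76) (nat_lit 5050906784) (nat_lit 17) (nat_lit 5) (nat_lit 21) (nat_lit 5) (nat_lit 18) (nat_lit 5) (nat_lit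 211) (nat_lit 203) (nat_lit 186))) (XT.nd (nat_lit 78) (nat_lit 152) (nat_lit 0) (XT.lf (nat_lit 0) (nat_lit 3801080482) (nat_lit 152) (nat_lit 1364834906) (nat_lit 228) (nat_lit 8516140691) (nat_lit 15) (nat_lit 5) (nat_lit 17) (nat_lit 5) (nat_lit 18) (nat_lit 5) (nat_lit 212) (nat_lit 203) (nat_lit 185)) (XT.nd (nat_lit 78) (nat_lit 152) (nat_lit 0) (XT.lf (nat_lit 0) (nat_lit 8932023745) (nat_lit 228) (nat_lit 587841811) (nat_lit 76) (nat_lit 5498334636) (nat_lit 15) (nat_lit 5) (nat_lit 18) (nat_lit 5) (nat_lit 16) (nat_lit 5) (nat_lit 213) (nat_lit 203) (nat_lit 184)) (XT.lf (nat_lit 0) (nat_lit 10402712738) (nat_lit 152) (nat_lit 3006174873) (nat_lit 228) (nat_lit 3135525179) (nat_lit 13) (nat_lit 5) (nat_lit 15) (nat_lit 5) (nat_lit 16) (nat_lit 5) (nat_lit 214) (nat_lit 203) (nat_lit 183)))))) (XT.nd (nat_lit 390) (nat_lit 228) (nat_lit 0) (XT.nd (nat_lit 156) (nat_lit 228)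 (nat_lit 0) (XT.nd (nat_lit 78) (nat_lit 0) (nat_lit 0) (XT.lf (nat_lit 0) (nat_lit 357490275) (nat_lit 228) (nat_lit 13567627553) (nat_lit 76) (nat_lit 4365988858) (nat_lit 10) (nat_lit 5) (nat_lit 13) (nat_lit 5) (nat_lit 11) (nat_lit 5) (nat_lit 215) (nat_lit 203) (nat_lit 182)) (XT.lf (nat_lit 0) (nat_lit 4341253468) (nat_lit 228) (nat_lit 3036574633) (nat_lit 76) (nat_lit 12904184891) (nat_lit 10) (nat_lit 5) (nat_lit 13) (nat_lit 5) (nat_lit 11) (nat_lit 5) (nat_lit 216) (nat_lit 203) (nat_lit 181))) (XT.nd (nat_lit 78) (nat_lit 76) (nat_lit 0) (XT.lf (nat_lit 0) (nat_lit 9053309183) (nat_lit 228) (nat_lit 13171932260) (nat_lit 76) (nat_lit 336655542) (nat_lit 8) (nat_lit 5) (nat_lit 11) (nat_lit 5) (nat_lit 9) (nat_lit 4) (nat_lit 217) (nat_lit 203) (nat_lit 180)) (XT.nd (nat_lit 78) (nat_lit 76) (nat_lit 0) (XT.lf (nat_lit 0) (nat_lit 14672486262) (nat_lit 228) (nat_lit 1658762461)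 (nat_lit 76) (nat_lit 8837185450) (nat_lit 8) (nat_lit 5) (nat_lit 11) (nat_lit 5) (nat_lit 9) (nat_lit 4) (nat_lit 218) (nat_lit 203) (nat_lit 179)) (XT.lf (nat_lit 0) (nat_lit 12063002730) (nat_lit 76) (nat_lit 9279528891) (nat_lit 152) (nat_lit 6807385887) (nat_lit 7) (nat_lit 5) (nat_lit 8) (nat_lit 5) (nat_lit 9) (nat_lit 4) (nat_lit 219) (nat_lit 203) (nat_lit 178))))) (XT.nd (nat_lit 156) (nat_lit 76) (nat_lit 0) (XT.nd (nat_lit 78) (nat_lit 152) (nat_lit 0) (XT.lf (nat_lit 0) (nat_lit 27831973472) (nat_lit 76) (nat_lit 1155309615) (nat_lit 152) (nat_lit 2593930312) (nat_lit 7) (nat_lit 5) (nat_lit 8) (nat_lit 5) (nat_lit 9) (nat_lit 4) (nat_lit 220) (nat_lit 203) (nat_lit 177)) (XT.lf (nat_lit 0) (nat_lit 2536983807) (nat_lit 152) (nat_lit 24886458511) (nat_lit 76) (nat_lit 8068007172) (nat_lit 5) (nat_lit 5) (nat_lit 7) (nat_lit 5) (nat_lit 6) (nat_lit 4) (nat_lit 221) (nat_lit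 203) (nat_lit 176))) (XT.nd (nat_lit 78) (nat_lit 76) (nat_lit 0) (XT.lf (nat_lit 0) (nat_lit 8371399817) (nat_lit 152) (nat_lit 12843369399) (nat_lit 76) (nat_lit 18761433713) (nat_lit 5) (nat_lit 5) (nat_lit 7) (nat_lit 5) (nat_lit 6) (nat_lit 4) (nat_lit 222) (nat_lit 203) (nat_lit 175)) (XT.nd (nat_lit 78) (nat_lit 0) (nat_lit 0) (XT.lf (nat_lit 0) (nat_lit 970606294) (nat_lit 76) (nat_lit 14080796967) (nat_lit 152) (nat_lit 30084952359) (nat_lit 4) (nat_lit 5) (nat_lit 5) (nat_lit 5) (nat_lit 6) (nat_lit 4) (nat_lit 223) (nat_lit 203) (nat_lit 174)) (XT.lf (nat_lit 0) (nat_lit 17557424554) (nat_lit 76) (nat_lit 5502035758) (nat_lit 152) (nat_lit 27985265119) (nat_lit 4) (nat_lit 5) (nat_lit 5) (nat_lit 5) (nat_lit 6) (nat_lit 4) (nat_lit 224) (nat_lit 203) (nat_lit 173))))))) (XT.nd (nat_lit 780) (nat_lit 0) (nat_lit 0) (XT.nd (nat_lit 390) (nat_lit 152) (nat_lit 0) (XT.nd (nat_lit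 156) (nat_lit 76) (nat_lit 0) (XT.nd (nat_lit 78) (nat_lit 0) (nat_lit 0) (XT.lf (nat_lit 0) (nat_lit 32331435555) (nat_lit 152) (nat_lit 21381955575) (nat_lit 0) (nat_lit 4121184959) (nat_lit 4) (nat_lit 5) (nat_lit 6) (nat_lit 4) (nat_lit 4) (nat_lit 4) (nat_lit 225) (nat_lit 203) (nat_lit 172)) (XT.lf (nat_lit 0) (nat_lit 43109654919) (nat_lit 152) (nat_lit 7673787428) (nat_lit 0) (nat_lit 14850436734) (nat_lit 4) (nat_lit 5) (nat_lit 6) (nat_lit 4) (nat_lit 4) (nat_lit 4) (nat_lit 226) (nat_lit 203) (nat_lit 171))) (XT.nd (nat_lit 78) (nat_lit 0) (nat_lit 0) (XT.lf (nat_lit 0) (nat_lit 8460983614) (nat_lit 76) (nat_lit 47215175762) (nat_lit 76) (nat_lit 18913377064) (nat_lit 3) (nat_lit 4) (nat_lit 4) (nat_lit 5) (nat_lit 4) (nat_lit 4) (nat_lit 227) (nat_lit 203) (nat_lit 170)) (XT.nd (nat_lit 78) (nat_lit 0) (nat_lit 0) (XT.lf (nat_lit 0) (nat_lit 27432272177) (nat_lit 76) (nat_lit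 42889848105) (nat_lit 76) (nat_lit 14551022875) (nat_lit 3) (nat_lit 4) (nat_lit 4) (nat_lit 5) (nat_lit 4) (nat_lit 4) (nat_lit 228) (nat_lit 203) (nat_lit 169)) (XT.lf (nat_lit 0) (nat_lit 49207167598) (nat_lit 76) (nat_lit 37932648347) (nat_lit 76) (nat_lit 9561626132) (nat_lit 3) (nat_lit 4) (nat_lit 4) (nat_lit 5) (nat_lit 4) (nat_lit 4) (nat_lit 229) (nat_lit 203) (nat_lit 168))))) (XT.nd (nat_lit 156) (nat_lit 76) (nat_lit 0) (XT.nd (nat_lit 78) (nat_lit 76) (nat_lit 0) (XT.lf (nat_lit 0) (nat_lit 74211700441) (nat_lit 76) (nat_lit 32246587797) (nat_lit 76) (nat_lit 3847568204) (nat_lit 3) (nat_lit 4) (nat_lit 4) (nat_lit 5) (nat_lit 4) (nat_lit 4) (nat_lit 230) (nat_lit 203) (nat_lit 167)) (XT.lf (nat_lit 0) (nat_lit 2567735303) (nat_lit 152) (nat_lit 23082475708) (nat_lit 76) (nat_lit 100297148089) (nat_lit 2) (nat_lit 5) (nat_lit 4) (nat_lit 5) (nat_lit 3) (nat_lit 4) (nat_lit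 231) (nat_lit 203) (nat_lit 166))) (XT.nd (nat_lit 78) (nat_lit 76) (nat_lit 0) (XT.lf (nat_lit 0) (nat_lit 9706933893) (nat_lit 152) (nat_lit 8254112680) (nat_lit 76) (nat_lit 125966976442) (nat_lit 2) (nat_lit 5) (nat_lit 4) (nat_lit 5) (nat_lit 3) (nat_lit 4) (nat_lit 232) (nat_lit 203) (nat_lit 165)) (XT.nd (nat_lit 78) (nat_lit 0) (nat_lit 0) (XT.lf (nat_lit 0) (nat_lit 9235588897) (nat_lit 76) (nat_lit 8888705722) (nat_lit 152) (nat_lit 146464982606) (nat_lit 1) (nat_lit 5) (nat_lit 2) (nat_lit 5) (nat_lit 3) (nat_lit 4) (nat_lit 233) (nat_lit 203) (nat_lit 164)) (XT.lf (nat_lit 0) (nat_lit 28074283186) (nat_lit 152) (nat_lit 158549014568) (nat_lit 0) (nat_lit 1704883646) (nat_lit 1) (nat_lit 5) (nat_lit 3) (nat_lit 4) (nat_lit 1) (nat_lit 4) (nat_lit 234) (nat_lit 203) (nat_lit 163)))))) (XT.nd (nat_lit 390) (nat_lit 0) (nat_lit 0) (XT.nd (nat_lit 156) (nat_lit 0) (nat_lit 0)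 (XT.nd (nat_lit 78) (nat_lit 0) (nat_lit 0) (XT.lf (nat_lit 0) (nat_lit 39750720431) (nat_lit 152) (nat_lit 162490107829) (nat_lit 0) (nat_lit 13368432331) (nat_lit 1) (nat_lit 5) (nat_lit 3) (nat_lit 4) (nat_lit 1) (nat_lit 4) (nat_lit 235) (nat_lit 203) (nat_lit 162)) (XT.lf (nat_lit 0) (nat_lit 53168284800) (nat_lit 152) (nat_lit 167040302872) (nat_lit 0) (nat_lit 26774789257) (nat_lit 1) (nat_lit 5) (nat_lit 3) (nat_lit 4) (nat_lit 1) (nat_lit 4) (nat_lit 236) (nat_lit 203) (nat_lit 161))) (XT.nd (nat_lit 78) (nat_lit 0) (nat_lit 0) (XT.lf (nat_lit 0) (nat_lit 68589493858) (nat_lit 152) (nat_lit 172288625252) (nat_lit 0) (nat_lit 42186252712) (nat_lit 1) (nat_lit 5) (nat_lit 3) (nat_lit 4) (nat_lit 1) (nat_lit 4) (nat_lit 237) (nat_lit 203) (nat_lit 160)) (XT.nd (nat_lit 78) (nat_lit 0) (nat_lit 0) (XT.lf (nat_lit 0) (nat_lit 86316066912) (nat_lit 152) (nat_lit 178337759538) (nat_lit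 0) (nat_lit 59904351328) (nat_lit 1) (nat_lit 5) (nat_lit 3) (nat_lit 4) (nat_lit 1) (nat_lit 4) (nat_lit 238) (nat_lit 203) (nat_lit 159)) (XT.lf (nat_lit 0) (nat_lit 106694828218) (nat_lit 152) (nat_lit 185306058356) (nat_lit 0) (nat_lit 80275743557) (nat_lit 1) (nat_lit 5) (nat_lit 3) (nat_lit 4) (nat_lit 1) (nat_lit 4) (nat_lit 239) (nat_lit 203) (nat_lit 158))))) (XT.nd (nat_lit 156) (nat_lit 0) (nat_lit 0) (XT.nd (nat_lit 78) (nat_lit 0) (nat_lit 0) (XT.lf (nat_lit 0) (nat_lit 130124492670) (nat_lit 152) (nat_lit 193329857989) (nat_lit 0) (nat_lit 103699000117) (nat_lit 1) (nat_lit 5) (nat_lit 3) (nat_lit 4) (nat_lit 1) (nat_lit 4) (nat_lit 240) (nat_lit 203) (nat_lit 157)) (XT.lf (nat_lit 0) (nat_lit 157063466746) (nat_lit 152) (nat_lit 202566145819) (nat_lit 0) (nat_lit 130632402114) (nat_lit 1) (nat_lit 5) (nat_lit 3) (nat_lit 4) (nat_lit 1) (nat_lit 4) (nat_lit 241) (nat_lit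 203) (nat_lit 156))) (XT.nd (nat_lit 78) (nat_lit 0) (nat_lit 0) (XT.lf (nat_lit 0) (nat_lit 188038817332) (nat_lit 152) (nat_lit 213195631827) (nat_lit 0) (nat_lit 161602907412) (nat_lit 1) (nat_lit 5) (nat_lit 3) (nat_lit 4) (nat_lit 1) (nat_lit 4) (nat_lit 242) (nat_lit 203) (nat_lit 155)) (XT.nd (nat_lit 78) (nat_lit 0) (nat_lit 0) (XT.lf (nat_lit 0) (nat_lit 223656583895) (nat_lit 152) (nat_lit 225426284216) (nat_lit 0) (nat_lit 197216460682) (nat_lit 1) (nat_lit 5) (nat_lit 3) (nat_lit 4) (nat_lit 1) (nat_lit 4) (nat_lit 243) (nat_lit 203) (nat_lit 154)) (XT.lf (nat_lit 0) (nat_lit 264613635781) (nat_lit 152) (nat_lit 239497398361) (nat_lit 0) (nat_lit 238169848834) (nat_lit 1) (nat_lit 5) (nat_lit 3) (nat_lit 4) (nat_lit 1) (nat_lit 4) (nat_lit 244) (nat_lit 203) (nat_lit 153))))))))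
noncomputable def xc30 : XT := (XT.nd (nat_lit 28314) (nat_lit 0) (nat_lit 228) (XT.nd (nat_lit 702) (nat_lit 0) (nat_lit 0) (XT.nd (nat_lit 312) (nat_lit 0) (nat_lit 0) (XT.nd (nat_lit 156) (nat_lit 0) (nat_lit 0) (XT.nd (nat_lit 78) (nat_lit 0) (nat_lit 0) (XT.lf (nat_lit 0) (nat_lit 311711306613) (nat_lit 152) (nat_lit 255684278667) (nat_lit 0) (nat_lit 285264333812) (nat_lit 1) (nat_lit 5) (nat_lit 3) (nat_lit 4) (nat_lit 1) (nat_lit 4) (nat_lit 245) (nat_lit 203) (nat_lit 152)) (XT.lf (nat_lit 0) (nat_lit 365871072561) (nat_lit 152) (nat_lit 274303624967) (nat_lit 0) (nat_lit 339421329451) (nat_lit 1) (nat_lit 5) (nat_lit 3) (nat_lit 4) (nat_lit 1) (nat_lit 4) (nat_lit 246) (nat_lit 203) (nat_lit 151))) (XT.nd (nat_lit 78) (nat_lit 0) (nat_lit 0) (XT.lf (nat_lit 0) (nat_lit 428152581218) (nat_lit 152) (nat_lit 295719728819) (nat_lit 0) (nat_lit 401700429144) (nat_lit 1) (nat_lit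 5) (nat_lit 3) (nat_lit 4) (nat_lit 1) (nat_lit 4) (nat_lit 247) (nat_lit 203) (nat_lit 150)) (XT.lf (nat_lit 0) (nat_lit 499774383841) (nat_lit 152) (nat_lit 320351600950) (nat_lit 0) (nat_lit 473320137016) (nat_lit 1) (nat_lit 5) (nat_lit 3) (nat_lit 4) (nat_lit 1) (nat_lit 4) (nat_lit 248) (nat_lit 203) (nat_lit 149)))) (XT.nd (nat_lit 156) (nat_lit 0) (nat_lit 0) (XT.nd (nat_lit 78) (nat_lit 0) (nat_lit 0) (XT.lf (nat_lit 0) (nat_lit 582137776569) (nat_lit 152) (nat_lit 348681169294) (nat_lit 0) (nat_lit 555681708221) (nat_lit 1) (nat_lit 5) (nat_lit 3) (nat_lit 4) (nat_lit 1) (nat_lit 4) (nat_lit 249) (nat_lit 203) (nat_lit 148)) (XT.lf (nat_lit 0) (nat_lit 676854217085) (nat_lit 152) (nat_lit 381262708014) (nat_lit 0) (nat_lit 650396564804) (nat_lit 1) (nat_lit 5) (nat_lit 3) (nat_lit 4) (nat_lit 1) (nat_lit 4) (nat_lit 250) (nat_lit 203) (nat_lit 147))) (XT.nd (nat_lit 78) (nat_lit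 0) (nat_lit 0) (XT.lf (nat_lit 0) (nat_lit 785776853138) (nat_lit 152) (nat_lit 418733681998) (nat_lit 0) (nat_lit 759317823524) (nat_lit 1) (nat_lit 5) (nat_lit 3) (nat_lit 4) (nat_lit 1) (nat_lit 4) (nat_lit 251) (nat_lit 203) (nat_lit 146)) (XT.nd (nat_lit 78) (nat_lit 0) (nat_lit 0) (XT.lf (nat_lit 0) (nat_lit 911036779782) (nat_lit 152) (nat_lit 461827218997) (nat_lit 0) (nat_lit 884576552487) (nat_lit 1) (nat_lit 5) (nat_lit 3) (nat_lit 4) (nat_lit 1) (nat_lit 4) (nat_lit 252) (nat_lit 203) (nat_lit 145)) (XT.lf (nat_lit 0) (nat_lit 1055084734712) (nat_lit 152) (nat_lit 511386453432) (nat_lit 0) (nat_lit 1028623465955) (nat_lit 1) (nat_lit 5) (nat_lit 3) (nat_lit 4) (nat_lit 1) (nat_lit 4) (nat_lit 253) (nat_lit 203) (nat_lit 144)))))) (XT.nd (nat_lit 390) (nat_lit 0) (nat_lit 0) (XT.nd (nat_lit 156) (nat_lit 0) (nat_lit 0) (XT.nd (nat_lit 78) (nat_lit 0) (nat_lit 0) (XT.lf (nat_lit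 0) (nat_lit 1220739047480) (nat_lit 152) (nat_lit 568381022497) (nat_lit 0) (nat_lit 1194276873105) (nat_lit 1) (nat_lit 5) (nat_lit 3) (nat_lit 4) (nat_lit 1) (nat_lit 4) (nat_lit 254) (nat_lit 203) (nat_lit 143)) (XT.lf (nat_lit 0) (nat_lit 1411240780729) (nat_lit 152) (nat_lit 633926037326) (nat_lit 0) (nat_lit 1384777818858) (nat_lit 1) (nat_lit 5) (nat_lit 3) (nat_lit 4) (nat_lit 1) (nat_lit 4) (nat_lit 255) (nat_lit 203) (nat_lit 142))) (XT.nd (nat_lit 78) (nat_lit 0) (nat_lit 0) (XT.lf (nat_lit 0) (nat_lit 1630317142282) (nat_lit 152) (nat_lit 709303900384) (nat_lit 0) (nat_lit 1603853495633) (nat_lit 1) (nat_lit 5) (nat_lit 3) (nat_lit 4) (nat_lit 1) (nat_lit 4) (nat_lit 256) (nat_lit 203) (nat_lit 141)) (XT.nd (nat_lit 78) (nat_lit 0) (nat_lit 0) (XT.lf (nat_lit 0) (nat_lit 1882254408778) (nat_lit 152) (nat_lit 795989395948) (nat_lit 0) (nat_lit 1855790166670) (nat_lit 1) (nat_lit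 5) (nat_lit 3) (nat_lit 4) (nat_lit 1) (nat_lit 4) (nat_lit 257) (nat_lit 203) (nat_lit 140)) (XT.lf (nat_lit 0) (nat_lit 2171981787605) (nat_lit 152) (nat_lit 895678544584) (nat_lit 0) (nat_lit 2145517027708) (nat_lit 1) (nat_lit 5) (nat_lit 3) (nat_lit 4) (nat_lit 1) (nat_lit 4) (nat_lit 258) (nat_lit 203) (nat_lit 139))))) (XT.nd (nat_lit 26988) (nat_lit 0) (nat_lit 2052) (XT.nd (nat_lit 78) (nat_lit 0) (nat_lit 0) (XT.lf (nat_lit 0) (nat_lit 2505167857915) (nat_lit 152) (nat_lit 1010321786154) (nat_lit 0) (nat_lit 2478702647765) (nat_lit 1) (nat_lit 5) (nat_lit 3) (nat_lit 4) (nat_lit 1) (nat_lit 4) (nat_lit 259) (nat_lit 203) (nat_lit 138)) (XT.lf (nat_lit 0) (nat_lit 2888331477605) (nat_lit 152) (nat_lit 1142162140605) (nat_lit 0) (nat_lit 2861865875931) (nat_lit 1) (nat_lit 5) (nat_lit 3) (nat_lit 4) (nat_lit 1) (nat_lit 4) (nat_lit 260) (nat_lit 203) (nat_lit 137))) (XT.nd (nat_lit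 78) (nat_lit 304) (nat_lit 0) (XT.lf (nat_lit 0) (nat_lit 2607362728) (nat_lit 380) (nat_lit 707011072) (nat_lit 380) (nat_lit 707011072) (nat_lit 32) (nat_lit 3) (nat_lit 37) (nat_lit 3) (nat_lit 37) (nat_lit 5) (nat_lit 204) (nat_lit 204) (nat_lit 192)) (XT.nd (nat_lit 78) (nat_lit 304) (nat_lit 0) (XT.lf (nat_lit 76) (nat_lit 4576759284) (nat_lit 0) (nat_lit 2857406129) (nat_lit 380) (nat_lit 1042648155) (nat_lit 33) (nat_lit 5) (nat_lit 32) (nat_lit 3) (nat_lit 37) (nat_lit 5) (nat_lit 205) (nat_lit 204) (nat_lit 191)) (XT.lf (nat_lit 0) (nat_lit 781682042) (nat_lit 380) (nat_lit 6556223473) (nat_lit 456) (nat_lit 1654154904) (nat_lit 28) (nat_lit 5) (nat_lit 33) (nat_lit 5) (nat_lit 34) (nat_lit 5) (nat_lit 206) (nat_lit 204) (nat_lit 190))))))) (XT.nd (nat_lit 780) (nat_lit 456) (nat_lit 0) (XT.nd (nat_lit 390) (nat_lit 760) (nat_lit 0) (XT.nd (nat_lit 156) (nat_lit 608) (nat_lit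 0) (XT.nd (nat_lit 78) (nat_lit 0) (nat_lit 76) (XT.lf (nat_lit 76) (nat_lit 66615095) (nat_lit 0) (nat_lit 2668274338) (nat_lit 456) (nat_lit 6857463735) (nat_lit 29) (nat_lit 5) (nat_lit 28) (nat_lit 5) (nat_lit 34) (nat_lit 5) (nat_lit 207) (nat_lit 204) (nat_lit 189)) (XT.lf (nat_lit 0) (nat_lit 4993564537) (nat_lit 380) (nat_lit 2472712514) (nat_lit 76) (nat_lit 2818268228) (nat_lit 29) (nat_lit 5) (nat_lit 34) (nat_lit 5) (nat_lit 30) (nat_lit 5) (nat_lit 208) (nat_lit 204) (nat_lit 188))) (XT.nd (nat_lit 78) (nat_lit 304) (nat_lit 0) (XT.lf (nat_lit 0) (nat_lit 5660443806) (nat_lit 380) (nat_lit 1924592232) (nat_lit 456) (nat_lit 3498492628) (nat_lit 24) (nat_lit 5) (nat_lit 29) (nat_lit 5) (nat_lit 30) (nat_lit 5) (nat_lit 209) (nat_lit 204) (nat_lit 187)) (XT.nd (nat_lit 78) (nat_lit 76) (nat_lit 0) (XT.lf (nat_lit 0) (nat_lit 3019568233) (nat_lit 228) (nat_lit 7607726430)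 (nat_lit 304) (nat_lit 1372257909) (nat_lit 21) (nat_lit 5) (nat_lit 24) (nat_lit 5) (nat_lit 25) (nat_lit 5) (nat_lit 210) (nat_lit 204) (nat_lit 186)) (XT.lf (nat_lit 0) (nat_lit 1057643484) (nat_lit 304) (nat_lit 250823108) (nat_lit 76) (nat_lit 11741114734) (nat_lit 20) (nat_lit 5) (nat_lit 24) (nat_lit 5) (nat_lit 21) (nat_lit 5) (nat_lit 211) (nat_lit 204) (nat_lit 185))))) (XT.nd (nat_lit 156) (nat_lit 380) (nat_lit 0) (XT.nd (nat_lit 78) (nat_lit 152) (nat_lit 0) (XT.lf (nat_lit 0) (nat_lit 4011992883) (nat_lit 304) (nat_lit 4303949916) (nat_lit 76) (nat_lit 5920533999) (nat_lit 17) (nat_lit 5) (nat_lit 21) (nat_lit 5) (nat_lit 18) (nat_lit 5) (nat_lit 212) (nat_lit 204) (nat_lit 184)) (XT.lf (nat_lit 0) (nat_lit 6171268901) (nat_lit 152) (nat_lit 1292870360) (nat_lit 228) (nat_lit 8134209776) (nat_lit 15) (nat_lit 5) (nat_lit 17) (nat_lit 5) (nat_lit 18) (nat_lit 5) (nat_lit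 213) (nat_lit 204) (nat_lit 183))) (XT.nd (nat_lit 78) (nat_lit 228) (nat_lit 0) (XT.lf (nat_lit 0) (nat_lit 1054458373) (nat_lit 152) (nat_lit 10573155604) (nat_lit 228) (nat_lit 5522550240) (nat_lit 13) (nat_lit 5) (nat_lit 15) (nat_lit 5) (nat_lit 16) (nat_lit 5) (nat_lit 214) (nat_lit 204) (nat_lit 182)) (XT.nd (nat_lit 78) (nat_lit 228) (nat_lit 0) (XT.lf (nat_lit 0) (nat_lit 13498836493) (nat_lit 152) (nat_lit 3115211263) (nat_lit 228) (nat_lit 2305822472) (nat_lit 13) (nat_lit 5) (nat_lit 15) (nat_lit 5) (nat_lit 16) (nat_lit 5) (nat_lit 215) (nat_lit 204) (nat_lit 181)) (XT.lf (nat_lit 0) (nat_lit 1529260260) (nat_lit 228) (nat_lit 14039863896) (nat_lit 76) (nat_lit 5367583033) (nat_lit 10) (nat_lit 5) (nat_lit 13) (nat_lit 5) (nat_lit 11) (nat_lit 5) (nat_lit 216) (nat_lit 204) (nat_lit 180)))))) (XT.nd (nat_lit 390) (nat_lit 228) (nat_lit 0) (XT.nd (nat_lit 156) (nat_lit 76)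 (nat_lit 0) (XT.nd (nat_lit 78) (nat_lit 152) (nat_lit 0) (XT.lf (nat_lit 0) (nat_lit 5964742743) (nat_lit 228) (nat_lit 2133010576) (nat_lit 76) (nat_lit 15141287273) (nat_lit 10) (nat_lit 5) (nat_lit 13) (nat_lit 5) (nat_lit 11) (nat_lit 5) (nat_lit 217) (nat_lit 204) (nat_lit 179)) (XT.lf (nat_lit 0) (nat_lit 11295568677) (nat_lit 228) (nat_lit 13836028802) (nat_lit 76) (nat_lit 737329745) (nat_lit 8) (nat_lit 5) (nat_lit 11) (nat_lit 5) (nat_lit 9) (nat_lit 4) (nat_lit 218) (nat_lit 204) (nat_lit 178))) (XT.nd (nat_lit 78) (nat_lit 76) (nat_lit 0) (XT.lf (nat_lit 0) (nat_lit 17642283651) (nat_lit 228) (nat_lit 766973964) (nat_lit 76) (nat_lit 10467264025) (nat_lit 8) (nat_lit 5) (nat_lit 11) (nat_lit 5) (nat_lit 9) (nat_lit 4) (nat_lit 219) (nat_lit 204) (nat_lit 177)) (XT.nd (nat_lit 78) (nat_lit 0) (nat_lit 0) (XT.lf (nat_lit 0) (nat_lit 14916509654) (nat_lit 76) (nat_lit 10321141249)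 (nat_lit 152) (nat_lit 7074330107) (nat_lit 7) (nat_lit 5) (nat_lit 8) (nat_lit 5) (nat_lit 9) (nat_lit 4) (nat_lit 220) (nat_lit 204) (nat_lit 176)) (XT.lf (nat_lit 0) (nat_lit 32914644724) (nat_lit 76) (nat_lit 1023982600) (nat_lit 152) (nat_lit 2327225369) (nat_lit 7) (nat_lit 5) (nat_lit 8) (nat_lit 5) (nat_lit 9) (nat_lit 4) (nat_lit 221) (nat_lit 204) (nat_lit 175))))) (XT.nd (nat_lit 156) (nat_lit 76) (nat_lit 0) (XT.nd (nat_lit 78) (nat_lit 0) (nat_lit 0) (XT.lf (nat_lit 0) (nat_lit 3487323652) (nat_lit 152) (nat_lit 27713557634) (nat_lit 76) (nat_lit 9565254118) (nat_lit 5) (nat_lit 5) (nat_lit 7) (nat_lit 5) (nat_lit 6) (nat_lit 4) (nat_lit 222) (nat_lit 204) (nat_lit 174)) (XT.lf (nat_lit 0) (nat_lit 10122581333) (nat_lit 152) (nat_lit 13982162066) (nat_lit 76) (nat_lit 21825253875) (nat_lit 5) (nat_lit 5) (nat_lit 7) (nat_lit 5) (nat_lit 6) (nat_lit 4) (nat_lit 223) (nat_lit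 204) (nat_lit 173))) (XT.nd (nat_lit 78) (nat_lit 0) (nat_lit 0) (XT.lf (nat_lit 0) (nat_lit 1837234020) (nat_lit 76) (nat_lit 15920065501) (nat_lit 152) (nat_lit 34111047300) (nat_lit 4) (nat_lit 5) (nat_lit 5) (nat_lit 5) (nat_lit 6) (nat_lit 4) (nat_lit 224) (nat_lit 204) (nat_lit 172)) (XT.nd (nat_lit 78) (nat_lit 0) (nat_lit 0) (XT.lf (nat_lit 0) (nat_lit 20818026744) (nat_lit 76) (nat_lit 6090079374) (nat_lit 152) (nat_lit 31759882788) (nat_lit 4) (nat_lit 5) (nat_lit 5) (nat_lit 5) (nat_lit 6) (nat_lit 4) (nat_lit 225) (nat_lit 204) (nat_lit 171)) (XT.lf (nat_lit 0) (nat_lit 37525005592) (nat_lit 152) (nat_lit 24019920481) (nat_lit 0) (nat_lit 4935356577) (nat_lit 4) (nat_lit 5) (nat_lit 6) (nat_lit 4) (nat_lit 4) (nat_lit 4) (nat_lit 226) (nat_lit 204) (nat_lit 170))))))))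
noncomputable def xc31 : XT := (XT.nd (nat_lit 1560) (nat_lit 0) (nat_lit 0) (XT.nd (nat_lit 780) (nat_lit 0) (nat_lit 0) (XT.nd (nat_lit 390) (nat_lit 152) (nat_lit 0) (XT.nd (nat_lit 156) (nat_lit 0) (nat_lit 0) (XT.nd (nat_lit 78) (nat_lit 76) (nat_lit 0) (XT.lf (nat_lit 0) (nat_lit 49875107247) (nat_lit 152) (nat_lit 8329787341) (nat_lit 0) (nat_lit 17248431699) (nat_lit 4) (nat_lit 5) (nat_lit 6) (nat_lit 4) (nat_lit 4) (nat_lit 4) (nat_lit 227) (nat_lit 204) (nat_lit 169)) (XT.lf (nat_lit 0) (nat_lit 10183294299) (nat_lit 76) (nat_lit 54115191124) (nat_lit 76) (nat_lit 21456318592) (nat_lit 3) (nat_lit 4) (nat_lit 4) (nat_lit 5) (nat_lit 4) (nat_lit 4) (nat_lit 228) (nat_lit 204) (nat_lit 168))) (XT.nd (nat_lit 78) (nat_lit 0) (nat_lit 0) (XT.lf (nat_lit 0) (nat_lit 31941167911) (nat_lit 76) (nat_lit 49164837493) (nat_lit 76) (nat_lit 16477967582) (nat_lit 3) (nat_lit 4) (nat_lit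 4) (nat_lit 5) (nat_lit 4) (nat_lit 4) (nat_lit 229) (nat_lit 204) (nat_lit 167)) (XT.nd (nat_lit 78) (nat_lit 0) (nat_lit 0) (XT.lf (nat_lit 0) (nat_lit 56930899179) (nat_lit 76) (nat_lit 43484730096) (nat_lit 76) (nat_lit 10773514639) (nat_lit 3) (nat_lit 4) (nat_lit 4) (nat_lit 5) (nat_lit 4) (nat_lit 4) (nat_lit 230) (nat_lit 204) (nat_lit 166)) (XT.lf (nat_lit 0) (nat_lit 85641417630) (nat_lit 76) (nat_lit 36963736399) (nat_lit 76) (nat_lit 4231350902) (nat_lit 3) (nat_lit 4) (nat_lit 4) (nat_lit 5) (nat_lit 4) (nat_lit 4) (nat_lit 231) (nat_lit 204) (nat_lit 165))))) (XT.nd (nat_lit 156) (nat_lit 76) (nat_lit 0) (XT.nd (nat_lit 78) (nat_lit 0) (nat_lit 0) (XT.lf (nat_lit 0) (nat_lit 3112617560) (nat_lit 152) (nat_lit 26276549702) (nat_lit 76) (nat_lit 115436728758) (nat_lit 2) (nat_lit 5) (nat_lit 4) (nat_lit 5) (nat_lit 3) (nat_lit 4) (nat_lit 232) (nat_lit 204) (nat_lit 164))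 (XT.lf (nat_lit 0) (nat_lit 11301862640) (nat_lit 152) (nat_lit 9258927528) (nat_lit 76) (nat_lit 144944638956) (nat_lit 2) (nat_lit 5) (nat_lit 4) (nat_lit 5) (nat_lit 3) (nat_lit 4) (nat_lit 233) (nat_lit 204) (nat_lit 163))) (XT.nd (nat_lit 78) (nat_lit 0) (nat_lit 0) (XT.lf (nat_lit 0) (nat_lit 10834481429) (nat_lit 76) (nat_lit 10134366115) (nat_lit 152) (nat_lit 168298151825) (nat_lit 1) (nat_lit 5) (nat_lit 2) (nat_lit 5) (nat_lit 3) (nat_lit 4) (nat_lit 234) (nat_lit 204) (nat_lit 162)) (XT.nd (nat_lit 78) (nat_lit 0) (nat_lit 0) (XT.lf (nat_lit 0) (nat_lit 32396744454) (nat_lit 152) (nat_lit 182138222613) (nat_lit 0) (nat_lit 2033017135) (nat_lit 1) (nat_lit 5) (nat_lit 3) (nat_lit 4) (nat_lit 1) (nat_lit 4) (nat_lit 235) (nat_lit 204) (nat_lit 161)) (XT.lf (nat_lit 0) (nat_lit 45810127443) (nat_lit 152) (nat_lit 186695672577) (nat_lit 0) (nat_lit 15436654522) (nat_lit 1) (nat_lit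 5) (nat_lit 3) (nat_lit 4) (nat_lit 1) (nat_lit 4) (nat_lit 236) (nat_lit 204) (nat_lit 160)))))) (XT.nd (nat_lit 390) (nat_lit 0) (nat_lit 0) (XT.nd (nat_lit 156) (nat_lit 0) (nat_lit 0) (XT.nd (nat_lit 78) (nat_lit 0) (nat_lit 0) (XT.lf (nat_lit 0) (nat_lit 61227700519) (nat_lit 152) (nat_lit 191950303585) (nat_lit 0) (nat_lit 30845753159) (nat_lit 1) (nat_lit 5) (nat_lit 3) (nat_lit 4) (nat_lit 1) (nat_lit 4) (nat_lit 237) (nat_lit 204) (nat_lit 159)) (XT.lf (nat_lit 0) (nat_lit 78951111849) (nat_lit 152) (nat_lit 198004923633) (nat_lit 0) (nat_lit 48561795413) (nat_lit 1) (nat_lit 5) (nat_lit 3) (nat_lit 4) (nat_lit 1) (nat_lit 4) (nat_lit 238) (nat_lit 204) (nat_lit 158))) (XT.nd (nat_lit 78) (nat_lit 0) (nat_lit 0) (XT.lf (nat_lit 0) (nat_lit 99327123829) (nat_lit 152) (nat_lit 204977992680) (nat_lit 0) (nat_lit 68931399501) (nat_lit 1) (nat_lit 5) (nat_lit 3) (nat_lit 4) (nat_lit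 1) (nat_lit 4) (nat_lit 239) (nat_lit 204) (nat_lit 157)) (XT.nd (nat_lit 78) (nat_lit 0) (nat_lit 0) (XT.lf (nat_lit 0) (nat_lit 122754397563) (nat_lit 152) (nat_lit 213005940337) (nat_lit 0) (nat_lit 92353101155) (nat_lit 1) (nat_lit 5) (nat_lit 3) (nat_lit 4) (nat_lit 1) (nat_lit 4) (nat_lit 240) (nat_lit 204) (nat_lit 156)) (XT.lf (nat_lit 0) (nat_lit 149691292755) (nat_lit 152) (nat_lit 222245835145) (nat_lit 0) (nat_lit 119285151060) (nat_lit 1) (nat_lit 5) (nat_lit 3) (nat_lit 4) (nat_lit 1) (nat_lit 4) (nat_lit 241) (nat_lit 204) (nat_lit 155))))) (XT.nd (nat_lit 156) (nat_lit 0) (nat_lit 0) (XT.nd (nat_lit 78) (nat_lit 0) (nat_lit 0) (XT.lf (nat_lit 0) (nat_lit 180664835615) (nat_lit 152) (nat_lit 232878457656) (nat_lit 0) (nat_lit 150254480627) (nat_lit 1) (nat_lit 5) (nat_lit 3) (nat_lit 4) (nat_lit 1) (nat_lit 4) (nat_lit 242) (nat_lit 204) (nat_lit 154)) (XT.lf (nat_lit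 0) (nat_lit 216281030242) (nat_lit 152) (nat_lit 245111837439) (nat_lit 0) (nat_lit 185867011521) (nat_lit 1) (nat_lit 5) (nat_lit 3) (nat_lit 4) (nat_lit 1) (nat_lit 4) (nat_lit 243) (nat_lit 204) (nat_lit 153))) (XT.nd (nat_lit 78) (nat_lit 0) (nat_lit 0) (XT.lf (nat_lit 0) (nat_lit 257236715227) (nat_lit 152) (nat_lit 259185323230) (nat_lit 0) (nat_lit 226819510651) (nat_lit 1) (nat_lit 5) (nat_lit 3) (nat_lit 4) (nat_lit 1) (nat_lit 4) (nat_lit 244) (nat_lit 204) (nat_lit 152)) (XT.nd (nat_lit 78) (nat_lit 0) (nat_lit 0) (XT.lf (nat_lit 0) (nat_lit 304333197451) (nat_lit 152) (nat_lit 275374265837) (nat_lit 0) (nat_lit 273913222565) (nat_lit 1) (nat_lit 5) (nat_lit 3) (nat_lit 4) (nat_lit 1) (nat_lit 4) (nat_lit 245) (nat_lit 204) (nat_lit 151)) (XT.lf (nat_lit 0) (nat_lit 358491929825) (nat_lit 152) (nat_lit 293995405443) (nat_lit 0) (nat_lit 328069545975) (nat_lit 1) (nat_lit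 5) (nat_lit 3) (nat_lit 4) (nat_lit 1) (nat_lit 4) (nat_lit 246) (nat_lit 204) (nat_lit 150))))))) (XT.nd (nat_lit 780) (nat_lit 0) (nat_lit 0) (XT.nd (nat_lit 390) (nat_lit 0) (nat_lit 0) (XT.nd (nat_lit 156) (nat_lit 0) (nat_lit 0) (XT.nd (nat_lit 78) (nat_lit 0) (nat_lit 0) (XT.lf (nat_lit 0) (nat_lit 420772539723) (nat_lit 152) (nat_lit 315413068691) (nat_lit 0) (nat_lit 390348061122) (nat_lit 1) (nat_lit 5) (nat_lit 3) (nat_lit 4) (nat_lit 1) (nat_lit 4) (nat_lit 247) (nat_lit 204) (nat_lit 149)) (XT.lf (nat_lit 0) (nat_lit 492393560816) (nat_lit 152) (nat_lit 340046296819) (nat_lit 0) (nat_lit 461967260693) (nat_lit 1) (nat_lit 5) (nat_lit 3) (nat_lit 4) (nat_lit 1) (nat_lit 4) (nat_lit 248) (nat_lit 204) (nat_lit 148))) (XT.nd (nat_lit 78) (nat_lit 0) (nat_lit 0) (XT.lf (nat_lit 0) (nat_lit 574756273953) (nat_lit 152) (nat_lit 368377044291) (nat_lit 0) (nat_lit 544328389896)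 (nat_lit 1) (nat_lit 5) (nat_lit 3) (nat_lit 4) (nat_lit 1) (nat_lit 4) (nat_lit 249) (nat_lit 204) (nat_lit 147)) (XT.nd (nat_lit 78) (nat_lit 0) (nat_lit 0) (XT.lf (nat_lit 0) (nat_lit 669472123520) (nat_lit 152) (nat_lit 400959608339) (nat_lit 0) (nat_lit 639042862130) (nat_lit 1) (nat_lit 5) (nat_lit 3) (nat_lit 4) (nat_lit 1) (nat_lit 4) (nat_lit 250) (nat_lit 204) (nat_lit 146)) (XT.lf (nat_lit 0) (nat_lit 778394245705) (nat_lit 152) (nat_lit 438431473912) (nat_lit 0) (nat_lit 747963786634) (nat_lit 1) (nat_lit 5) (nat_lit 3) (nat_lit 4) (nat_lit 1) (nat_lit 4) (nat_lit 251) (nat_lit 204) (nat_lit 145))))) (XT.nd (nat_lit 156) (nat_lit 0) (nat_lit 0) (XT.nd (nat_lit 78) (nat_lit 0) (nat_lit 0) (XT.lf (nat_lit 0) (nat_lit 903653725506) (nat_lit 152) (nat_lit 481525786207) (nat_lit 0) (nat_lit 873222224974) (nat_lit 1) (nat_lit 5) (nat_lit 3) (nat_lit 4) (nat_lit 1) (nat_lit 4)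 (nat_lit 252) (nat_lit 204) (nat_lit 144)) (XT.lf (nat_lit 0) (nat_lit 1047701291878) (nat_lit 152) (nat_lit 531085694812) (nat_lit 0) (nat_lit 1017268885727) (nat_lit 1) (nat_lit 5) (nat_lit 3) (nat_lit 4) (nat_lit 1) (nat_lit 4) (nat_lit 253) (nat_lit 204) (nat_lit 143))) (XT.nd (nat_lit 78) (nat_lit 0) (nat_lit 0) (XT.lf (nat_lit 0) (nat_lit 1213355266769) (nat_lit 152) (nat_lit 588080850111) (nat_lit 0) (nat_lit 1182922073124) (nat_lit 1) (nat_lit 5) (nat_lit 3) (nat_lit 4) (nat_lit 1) (nat_lit 4) (nat_lit 254) (nat_lit 204) (nat_lit 142)) (XT.nd (nat_lit 78) (nat_lit 0) (nat_lit 0) (XT.lf (nat_lit 0) (nat_lit 1403856706212) (nat_lit 152) (nat_lit 653626374710) (nat_lit 0) (nat_lit 1373422827788) (nat_lit 1) (nat_lit 5) (nat_lit 3) (nat_lit 4) (nat_lit 1) (nat_lit 4) (nat_lit 255) (nat_lit 204) (nat_lit 141)) (XT.lf (nat_lit 0) (nat_lit 1622932812281) (nat_lit 152) (nat_lit 729004681046)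 (nat_lit 0) (nat_lit 1592498338398) (nat_lit 1) (nat_lit 5) (nat_lit 3) (nat_lit 4) (nat_lit 1) (nat_lit 4) (nat_lit 256) (nat_lit 204) (nat_lit 140)))))) (XT.nd (nat_lit 27300) (nat_lit 0) (nat_lit 1748) (XT.nd (nat_lit 156) (nat_lit 0) (nat_lit 0) (XT.nd (nat_lit 78) (nat_lit 0) (nat_lit 0) (XT.lf (nat_lit 0) (nat_lit 1874869856618) (nat_lit 152) (nat_lit 815690562069) (nat_lit 0) (nat_lit 1844434864945) (nat_lit 1) (nat_lit 5) (nat_lit 3) (nat_lit 4) (nat_lit 1) (nat_lit 4) (nat_lit 257) (nat_lit 204) (nat_lit 139)) (XT.lf (nat_lit 0) (nat_lit 2164597042263) (nat_lit 152) (nat_lit 915380045886) (nat_lit 0) (nat_lit 2134161600337) (nat_lit 1) (nat_lit 5) (nat_lit 3) (nat_lit 4) (nat_lit 1) (nat_lit 4) (nat_lit 258) (nat_lit 204) (nat_lit 138))) (XT.nd (nat_lit 78) (nat_lit 0) (nat_lit 0) (XT.lf (nat_lit 0) (nat_lit 2497782944588) (nat_lit 152) (nat_lit 1030023578919) (nat_lit 0) (nat_lit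 2467347111139) (nat_lit 1) (nat_lit 5) (nat_lit 3) (nat_lit 4) (nat_lit 1) (nat_lit 4) (nat_lit 259) (nat_lit 204) (nat_lit 137)) (XT.nd (nat_lit 26988) (nat_lit 0) (nat_lit 1976) (XT.lf (nat_lit 0) (nat_lit 2880946418205) (nat_lit 152) (nat_lit 1161864186815) (nat_lit 0) (nat_lit 2850510244299) (nat_lit 1) (nat_lit 5) (nat_lit 3) (nat_lit 4) (nat_lit 1) (nat_lit 4) (nat_lit 260) (nat_lit 204) (nat_lit 136)) (XT.lf (nat_lit 0) (nat_lit 85142199) (nat_lit 0) (nat_lit 85142199) (nat_lit 380) (nat_lit 4299908616) (nat_lit 27) (nat_lit 5) (nat_lit 27) (nat_lit 3) (nat_lit 32) (nat_lit 3) (nat_lit 205) (nat_lit 205) (nat_lit 190))))) (XT.nd (nat_lit 156) (nat_lit 228) (nat_lit 0) (XT.nd (nat_lit 78) (nat_lit 0) (nat_lit 76) (XT.lf (nat_lit 0) (nat_lit 1876823250) (nat_lit 380) (nat_lit 2613668235) (nat_lit 456) (nat_lit 4983535561) (nat_lit 27) (nat_lit 5) (nat_lit 32) (nat_lit 3) (nat_lit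 33) (nat_lit 5) (nat_lit 206) (nat_lit 205) (nat_lit 189)) (XT.lf (nat_lit 0) (nat_lit 3538523501) (nat_lit 380) (nat_lit 5585798547) (nat_lit 456) (nat_lit 974645935) (nat_lit 28) (nat_lit 5) (nat_lit 33) (nat_lit 5) (nat_lit 34) (nat_lit 5) (nat_lit 207) (nat_lit 205) (nat_lit 188))) (XT.nd (nat_lit 78) (nat_lit 304) (nat_lit 0) (XT.lf (nat_lit 76) (nat_lit 1865081419) (nat_lit 0) (nat_lit 3618349187) (nat_lit 456) (nat_lit 5333985379) (nat_lit 29) (nat_lit 5) (nat_lit 28) (nat_lit 5) (nat_lit 34) (nat_lit 5) (nat_lit 208) (nat_lit 205) (nat_lit 187)) (XT.nd (nat_lit 78) (nat_lit 380) (nat_lit 0) (XT.lf (nat_lit 0) (nat_lit 7764411606) (nat_lit 380) (nat_lit 1091021364) (nat_lit 76) (nat_lit 2786809514) (nat_lit 29) (nat_lit 5) (nat_lit 34) (nat_lit 5) (nat_lit 30) (nat_lit 5) (nat_lit 209) (nat_lit 205) (nat_lit 186)) (XT.lf (nat_lit 0) (nat_lit 8113759710) (nat_lit 380) (nat_lit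 2405711697) (nat_lit 456) (nat_lit 2062643817) (nat_lit 24) (nat_lit 5) (nat_lit 29) (nat_lit 5) (nat_lit 30) (nat_lit 5) (nat_lit 210) (nat_lit 205) (nat_lit 185))))))))
noncomputable def xc32 : XT := (XT.nd (nat_lit 1482) (nat_lit 152) (nat_lit 0) (XT.nd (nat_lit 702) (nat_lit 380) (nat_lit 0) (XT.nd (nat_lit 312) (nat_lit 532) (nat_lit 0) (XT.nd (nat_lit 156) (nat_lit 152) (nat_lit 0) (XT.nd (nat_lit 78) (nat_lit 228) (nat_lit 0) (XT.lf (nat_lit 0) (nat_lit 156362294) (nat_lit 304) (nat_lit 8562821725) (nat_lit 76) (nat_lit 4934625602) (nat_lit 20) (nat_lit 5) (nat_lit 24) (nat_lit 5) (nat_lit 21) (nat_lit 5) (nat_lit 211) (nat_lit 205) (nat_lit 184)) (XT.lf (nat_lit 0) (nat_lit 1276456519) (nat_lit 228) (nat_lit 1410111521) (nat_lit 304) (nat_lit 12188679713) (nat_lit 17) (nat_lit 5) (nat_lit 20) (nat_lit 5) (nat_lit 21) (nat_lit 5) (nat_lit 212) (nat_lit 205) (nat_lit 183))) (XT.nd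 (nat_lit 78) (nat_lit 152) (nat_lit 0) (XT.lf (nat_lit 0) (nat_lit 5900788239) (nat_lit 304) (nat_lit 3462601762) (nat_lit 76) (nat_lit 6893295534) (nat_lit 17) (nat_lit 5) (nat_lit 21) (nat_lit 5) (nat_lit 18) (nat_lit 5) (nat_lit 213) (nat_lit 205) (nat_lit 182)) (XT.lf (nat_lit 0) (nat_lit 8458037759) (nat_lit 152) (nat_lit 1277583687) (nat_lit 228) (nat_lit 8099632721) (nat_lit 15) (nat_lit 5) (nat_lit 17) (nat_lit 5) (nat_lit 18) (nat_lit 5) (nat_lit 214) (nat_lit 205) (nat_lit 181)))) (XT.nd (nat_lit 156) (nat_lit 380) (nat_lit 0) (XT.nd (nat_lit 78) (nat_lit 0) (nat_lit 0) (XT.lf (nat_lit 0) (nat_lit 2548033080) (nat_lit 152) (nat_lit 11861833430) (nat_lit 228) (nat_lit 5220470617) (nat_lit 13) (nat_lit 5) (nat_lit 15) (nat_lit 5) (nat_lit 16) (nat_lit 5) (nat_lit 215) (nat_lit 205) (nat_lit 180)) (XT.lf (nat_lit 0) (nat_lit 16684884534) (nat_lit 152) (nat_lit 3323975113) (nat_lit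 228) (nat_lit 1668685269) (nat_lit 13) (nat_lit 5) (nat_lit 15) (nat_lit 5) (nat_lit 16) (nat_lit 5) (nat_lit 216) (nat_lit 205) (nat_lit 179))) (XT.nd (nat_lit 78) (nat_lit 152) (nat_lit 0) (XT.lf (nat_lit 0) (nat_lit 2604128651) (nat_lit 228) (nat_lit 14964060652) (nat_lit 76) (nat_lit 6434872357) (nat_lit 10) (nat_lit 5) (nat_lit 13) (nat_lit 5) (nat_lit 11) (nat_lit 5) (nat_lit 217) (nat_lit 205) (nat_lit 178)) (XT.nd (nat_lit 78) (nat_lit 152) (nat_lit 0) (XT.lf (nat_lit 0) (nat_lit 7594653592) (nat_lit 228) (nat_lit 1425324921) (nat_lit 76) (nat_lit 17640438511) (nat_lit 10) (nat_lit 5) (nat_lit 13) (nat_lit 5) (nat_lit 11) (nat_lit 5) (nat_lit 218) (nat_lit 205) (nat_lit 177)) (XT.lf (nat_lit 0) (nat_lit 13658533935) (nat_lit 228) (nat_lit 14919604542) (nat_lit 76) (nat_lit 1112712474) (nat_lit 8) (nat_lit 5) (nat_lit 11) (nat_lit 5) (nat_lit 9) (nat_lit 4) (nat_lit 219) (nat_lit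 205) (nat_lit 176)))))) (XT.nd (nat_lit 390) (nat_lit 152) (nat_lit 0) (XT.nd (nat_lit 156) (nat_lit 152) (nat_lit 0) (XT.nd (nat_lit 78) (nat_lit 76) (nat_lit 0) (XT.lf (nat_lit 0) (nat_lit 20870043552) (nat_lit 228) (nat_lit 19560424) (nat_lit 76) (nat_lit 12267599949) (nat_lit 8) (nat_lit 5) (nat_lit 11) (nat_lit 5) (nat_lit 9) (nat_lit 4) (nat_lit 220) (nat_lit 205) (nat_lit 175)) (XT.lf (nat_lit 0) (nat_lit 17943442825) (nat_lit 76) (nat_lit 11604422475) (nat_lit 152) (nat_lit 7565223545) (nat_lit 7) (nat_lit 5) (nat_lit 8) (nat_lit 5) (nat_lit 9) (nat_lit 4) (nat_lit 221) (nat_lit 205) (nat_lit 174))) (XT.nd (nat_lit 78) (nat_lit 152) (nat_lit 0) (XT.lf (nat_lit 0) (nat_lit 38538325539) (nat_lit 76) (nat_lit 947240893) (nat_lit 152) (nat_lit 2180434324) (nat_lit 7) (nat_lit 5) (nat_lit 8) (nat_lit 5) (nat_lit 9) (nat_lit 4) (nat_lit 222) (nat_lit 205) (nat_lit 173)) (XT.nd (nat_lit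 78) (nat_lit 0) (nat_lit 0) (XT.lf (nat_lit 0) (nat_lit 4441267020) (nat_lit 152) (nat_lit 31185623677) (nat_lit 76) (nat_lit 11217090154) (nat_lit 5) (nat_lit 5) (nat_lit 7) (nat_lit 5) (nat_lit 6) (nat_lit 4) (nat_lit 223) (nat_lit 205) (nat_lit 172)) (XT.lf (nat_lit 0) (nat_lit 12015616202) (nat_lit 152) (nat_lit 15483862375) (nat_lit 76) (nat_lit 25287779276) (nat_lit 5) (nat_lit 5) (nat_lit 7) (nat_lit 5) (nat_lit 6) (nat_lit 4) (nat_lit 224) (nat_lit 205) (nat_lit 171))))) (XT.nd (nat_lit 156) (nat_lit 76) (nat_lit 0) (XT.nd (nat_lit 78) (nat_lit 0) (nat_lit 0) (XT.lf (nat_lit 0) (nat_lit 2658026520) (nat_lit 76) (nat_lit 18101760763) (nat_lit 152) (nat_lit 38859728657) (nat_lit 4) (nat_lit 5) (nat_lit 5) (nat_lit 5) (nat_lit 6) (nat_lit 4) (nat_lit 225) (nat_lit 205) (nat_lit 170)) (XT.lf (nat_lit 0) (nat_lit 24414824144) (nat_lit 76) (nat_lit 6824187312) (nat_lit 152) (nat_lit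 36203886304) (nat_lit 4) (nat_lit 5) (nat_lit 5) (nat_lit 5) (nat_lit 6) (nat_lit 4) (nat_lit 226) (nat_lit 205) (nat_lit 169))) (XT.nd (nat_lit 78) (nat_lit 76) (nat_lit 0) (XT.lf (nat_lit 0) (nat_lit 43413759987) (nat_lit 152) (nat_lit 27192414465) (nat_lit 0) (nat_lit 5823859590) (nat_lit 4) (nat_lit 5) (nat_lit 6) (nat_lit 4) (nat_lit 4) (nat_lit 4) (nat_lit 227) (nat_lit 205) (nat_lit 168)) (XT.nd (nat_lit 78) (nat_lit 76) (nat_lit 0) (XT.lf (nat_lit 0) (nat_lit 57582463383) (nat_lit 152) (nat_lit 9204912757) (nat_lit 0) (nat_lit 19964565607) (nat_lit 4) (nat_lit 5) (nat_lit 6) (nat_lit 4) (nat_lit 4) (nat_lit 4) (nat_lit 228) (nat_lit 205) (nat_lit 167)) (XT.lf (nat_lit 0) (nat_lit 12053444885) (nat_lit 76) (nat_lit 62094654290) (nat_lit 76) (nat_lit 24452410968) (nat_lit 3) (nat_lit 4) (nat_lit 4) (nat_lit 5) (nat_lit 4) (nat_lit 4) (nat_lit 229) (nat_lit 205) (nat_lit 166)))))))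 (XT.nd (nat_lit 780) (nat_lit 0) (nat_lit 0) (XT.nd (nat_lit 390) (nat_lit 76) (nat_lit 0) (XT.nd (nat_lit 156) (nat_lit 76) (nat_lit 0) (XT.nd (nat_lit 78) (nat_lit 0) (nat_lit 0) (XT.lf (nat_lit 0) (nat_lit 37030305220) (nat_lit 76) (nat_lit 56419723549) (nat_lit 76) (nat_lit 18756310187) (nat_lit 3) (nat_lit 4) (nat_lit 4) (nat_lit 5) (nat_lit 4) (nat_lit 4) (nat_lit 230) (nat_lit 205) (nat_lit 165)) (XT.lf (nat_lit 0) (nat_lit 65729631555) (nat_lit 76) (nat_lit 49903231291) (nat_lit 76) (nat_lit 12221409199) (nat_lit 3) (nat_lit 4) (nat_lit 4) (nat_lit 5) (nat_lit 4) (nat_lit 4) (nat_lit 231) (nat_lit 205) (nat_lit 164))) (XT.nd (nat_lit 78) (nat_lit 76) (nat_lit 0) (XT.lf (nat_lit 0) (nat_lit 98712932447) (nat_lit 76) (nat_lit 42417680929) (nat_lit 76) (nat_lit 4719851245) (nat_lit 3) (nat_lit 4) (nat_lit 4) (nat_lit 5) (nat_lit 4) (nat_lit 4) (nat_lit 232) (nat_lit 205) (nat_lit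 163)) (XT.nd (nat_lit 78) (nat_lit 0) (nat_lit 0) (XT.lf (nat_lit 0) (nat_lit 3700282943) (nat_lit 152) (nat_lit 30015160806) (nat_lit 76) (nat_lit 132824078113) (nat_lit 2) (nat_lit 5) (nat_lit 4) (nat_lit 5) (nat_lit 3) (nat_lit 4) (nat_lit 233) (nat_lit 205) (nat_lit 162)) (XT.lf (nat_lit 0) (nat_lit 13102161818) (nat_lit 152) (nat_lit 10471356786) (nat_lit 76) (nat_lit 166748804401) (nat_lit 2) (nat_lit 5) (nat_lit 4) (nat_lit 5) (nat_lit 3) (nat_lit 4) (nat_lit 234) (nat_lit 205) (nat_lit 161))))) (XT.nd (nat_lit 156) (nat_lit 0) (nat_lit 0) (XT.nd (nat_lit 78) (nat_lit 0) (nat_lit 0) (XT.lf (nat_lit 0) (nat_lit 12621131297) (nat_lit 76) (nat_lit 11588248470) (nat_lit 152) (nat_lit 193439601879) (nat_lit 1) (nat_lit 5) (nat_lit 2) (nat_lit 5) (nat_lit 3) (nat_lit 4) (nat_lit 235) (nat_lit 205) (nat_lit 160)) (XT.lf (nat_lit 0) (nat_lit 37340429120) (nat_lit 152) (nat_lit 209312911287)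 (nat_lit 0) (nat_lit 2392715219) (nat_lit 1) (nat_lit 5) (nat_lit 3) (nat_lit 4) (nat_lit 1) (nat_lit 4) (nat_lit 236) (nat_lit 205) (nat_lit 159))) (XT.nd (nat_lit 78) (nat_lit 0) (nat_lit 0) (XT.lf (nat_lit 0) (nat_lit 52754840471) (nat_lit 152) (nat_lit 214573028057) (nat_lit 0) (nat_lit 17799757495) (nat_lit 1) (nat_lit 5) (nat_lit 3) (nat_lit 4) (nat_lit 1) (nat_lit 4) (nat_lit 237) (nat_lit 205) (nat_lit 158)) (XT.nd (nat_lit 78) (nat_lit 0) (nat_lit 0) (XT.lf (nat_lit 0) (nat_lit 70475502476) (nat_lit 152) (nat_lit 220632418334) (nat_lit 0) (nat_lit 35514011607) (nat_lit 1) (nat_lit 5) (nat_lit 3) (nat_lit 4) (nat_lit 1) (nat_lit 4) (nat_lit 238) (nat_lit 205) (nat_lit 157)) (XT.lf (nat_lit 0) (nat_lit 90849123739) (nat_lit 152) (nat_lit 227609635405) (nat_lit 0) (nat_lit 55882060789) (nat_lit 1) (nat_lit 5) (nat_lit 3) (nat_lit 4) (nat_lit 1) (nat_lit 4) (nat_lit 239) (nat_lit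 205) (nat_lit 156)))))) (XT.nd (nat_lit 390) (nat_lit 0) (nat_lit 0) (XT.nd (nat_lit 156) (nat_lit 0) (nat_lit 0) (XT.nd (nat_lit 78) (nat_lit 0) (nat_lit 0) (XT.lf (nat_lit 0) (nat_lit 114274318588) (nat_lit 152) (nat_lit 235641190040) (nat_lit 0) (nat_lit 79302410351) (nat_lit 1) (nat_lit 5) (nat_lit 3) (nat_lit 4) (nat_lit 1) (nat_lit 4) (nat_lit 240) (nat_lit 205) (nat_lit 155)) (XT.lf (nat_lit 0) (nat_lit 141209406054) (nat_lit 152) (nat_lit 244884221351) (nat_lit 0) (nat_lit 106233284524) (nat_lit 1) (nat_lit 5) (nat_lit 3) (nat_lit 4) (nat_lit 1) (nat_lit 4) (nat_lit 241) (nat_lit 205) (nat_lit 154))) (XT.nd (nat_lit 78) (nat_lit 0) (nat_lit 0) (XT.lf (nat_lit 0) (nat_lit 172181376978) (nat_lit 152) (nat_lit 255519571255) (nat_lit 0) (nat_lit 137201591715) (nat_lit 1) (nat_lit 5) (nat_lit 3) (nat_lit 4) (nat_lit 1) (nat_lit 4) (nat_lit 242) (nat_lit 205) (nat_lit 153)) (XT.nd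 (nat_lit 78) (nat_lit 0) (nat_lit 0) (XT.lf (nat_lit 0) (nat_lit 207796204705) (nat_lit 152) (nat_lit 267755322685) (nat_lit 0) (nat_lit 172813233587) (nat_lit 1) (nat_lit 5) (nat_lit 3) (nat_lit 4) (nat_lit 1) (nat_lit 4) (nat_lit 243) (nat_lit 205) (nat_lit 152)) (XT.lf (nat_lit 0) (nat_lit 248750701081) (nat_lit 152) (nat_lit 281830870777) (nat_lit 0) (nat_lit 213764959654) (nat_lit 1) (nat_lit 5) (nat_lit 3) (nat_lit 4) (nat_lit 1) (nat_lit 4) (nat_lit 244) (nat_lit 205) (nat_lit 151))))) (XT.nd (nat_lit 156) (nat_lit 0) (nat_lit 0) (XT.nd (nat_lit 78) (nat_lit 0) (nat_lit 0) (XT.lf (nat_lit 0) (nat_lit 295846149731) (nat_lit 152) (nat_lit 298021606690) (nat_lit 0) (nat_lit 260857999340) (nat_lit 1) (nat_lit 5) (nat_lit 3) (nat_lit 4) (nat_lit 1) (nat_lit 4) (nat_lit 245) (nat_lit 205) (nat_lit 150)) (XT.lf (nat_lit 0) (nat_lit 350003983346) (nat_lit 152) (nat_lit 316644305692)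 (nat_lit 0) (nat_lit 315013738204) (nat_lit 1) (nat_lit 5) (nat_lit 3) (nat_lit 4) (nat_lit 1) (nat_lit 4) (nat_lit 246) (nat_lit 205) (nat_lit 149))) (XT.nd (nat_lit 78) (nat_lit 0) (nat_lit 0) (XT.lf (nat_lit 0) (nat_lit 412283811714) (nat_lit 152) (nat_lit 338063324937) (nat_lit 0) (nat_lit 377291745049) (nat_lit 1) (nat_lit 5) (nat_lit 3) (nat_lit 4) (nat_lit 1) (nat_lit 4) (nat_lit 247) (nat_lit 205) (nat_lit 148)) (XT.nd (nat_lit 78) (nat_lit 0) (nat_lit 0) (XT.lf (nat_lit 0) (nat_lit 483904153216) (nat_lit 152) (nat_lit 362697732193) (nat_lit 0) (nat_lit 448910502618) (nat_lit 1) (nat_lit 5) (nat_lit 3) (nat_lit 4) (nat_lit 1) (nat_lit 4) (nat_lit 248) (nat_lit 205) (nat_lit 147)) (XT.lf (nat_lit 0) (nat_lit 566266275404) (nat_lit 152) (nat_lit 391029504993) (nat_lit 0) (nat_lit 531271247473) (nat_lit 1) (nat_lit 5) (nat_lit 3) (nat_lit 4) (nat_lit 1) (nat_lit 4) (nat_lit 249)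 (nat_lit 205) (nat_lit 146))))))))
noncomputable def xc33 : XT := (XT.nd (nat_lit 28470) (nat_lit 0) (nat_lit 152) (XT.nd (nat_lit 702) (nat_lit 0) (nat_lit 0) (XT.nd (nat_lit 312) (nat_lit 0) (nat_lit 0) (XT.nd (nat_lit 156) (nat_lit 0) (nat_lit 0) (XT.nd (nat_lit 78) (nat_lit 0) (nat_lit 0) (XT.lf (nat_lit 0) (nat_lit 660981611103) (nat_lit 152) (nat_lit 423612960631) (nat_lit 0) (nat_lit 625985385491) (nat_lit 1) (nat_lit 5) (nat_lit 3) (nat_lit 4) (nat_lit 1) (nat_lit 4) (nat_lit 250) (nat_lit 205) (nat_lit 145)) (XT.lf (nat_lit 0) (nat_lit 769903286445) (nat_lit 152) (nat_lit 461085601499) (nat_lit 0) (nat_lit 734906019372) (nat_lit 1) (nat_lit 5) (nat_lit 3) (nat_lit 4) (nat_lit 1) (nat_lit 4) (nat_lit 251) (nat_lit 205) (nat_lit 144))) (XT.nd (nat_lit 78) (nat_lit 0) (nat_lit 0) (XT.lf (nat_lit 0) (nat_lit 895162377689) (nat_lit 152) (nat_lit 504180587964) (nat_lit 0) (nat_lit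 860164204996) (nat_lit 1) (nat_lit 5) (nat_lit 3) (nat_lit 4) (nat_lit 1) (nat_lit 4) (nat_lit 252) (nat_lit 205) (nat_lit 143)) (XT.lf (nat_lit 0) (nat_lit 1039209606183) (nat_lit 152) (nat_lit 553741082803) (nat_lit 0) (nat_lit 1004210645996) (nat_lit 1) (nat_lit 5) (nat_lit 3) (nat_lit 4) (nat_lit 1) (nat_lit 4) (nat_lit 253) (nat_lit 205) (nat_lit 142)))) (XT.nd (nat_lit 156) (nat_lit 0) (nat_lit 0) (XT.nd (nat_lit 78) (nat_lit 0) (nat_lit 0) (XT.lf (nat_lit 0) (nat_lit 1204863287268) (nat_lit 152) (nat_lit 610736747873) (nat_lit 0) (nat_lit 1169863642303) (nat_lit 1) (nat_lit 5) (nat_lit 3) (nat_lit 4) (nat_lit 1) (nat_lit 4) (nat_lit 254) (nat_lit 205) (nat_lit 141)) (XT.lf (nat_lit 0) (nat_lit 1395364471227) (nat_lit 152) (nat_lit 676282715749) (nat_lit 0) (nat_lit 1360364230803) (nat_lit 1) (nat_lit 5) (nat_lit 3) (nat_lit 4) (nat_lit 1) (nat_lit 4) (nat_lit 255) (nat_lit 205)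 (nat_lit 140))) (XT.nd (nat_lit 78) (nat_lit 0) (nat_lit 0) (XT.lf (nat_lit 0) (nat_lit 1614440355137) (nat_lit 152) (nat_lit 751661407544) (nat_lit 0) (nat_lit 1579439596923) (nat_lit 1) (nat_lit 5) (nat_lit 3) (nat_lit 4) (nat_lit 1) (nat_lit 4) (nat_lit 256) (nat_lit 205) (nat_lit 139)) (XT.nd (nat_lit 78) (nat_lit 0) (nat_lit 0) (XT.lf (nat_lit 0) (nat_lit 1866377206292) (nat_lit 152) (nat_lit 838347623748) (nat_lit 0) (nat_lit 1831375997824) (nat_lit 1) (nat_lit 5) (nat_lit 3) (nat_lit 4) (nat_lit 1) (nat_lit 4) (nat_lit 257) (nat_lit 205) (nat_lit 138)) (XT.lf (nat_lit 0) (nat_lit 2156104223952) (nat_lit 152) (nat_lit 938037399028) (nat_lit 0) (nat_lit 2121102623961) (nat_lit 1) (nat_lit 5) (nat_lit 3) (nat_lit 4) (nat_lit 1) (nat_lit 4) (nat_lit 258) (nat_lit 205) (nat_lit 137)))))) (XT.nd (nat_lit 27378) (nat_lit 0) (nat_lit 1216) (XT.nd (nat_lit 27144) (nat_lit 0) (nat_lit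 1976) (XT.nd (nat_lit 78) (nat_lit 0) (nat_lit 0) (XT.lf (nat_lit 0) (nat_lit 2489289980204) (nat_lit 152) (nat_lit 1052681185506) (nat_lit 0) (nat_lit 2454288039757) (nat_lit 1) (nat_lit 5) (nat_lit 3) (nat_lit 4) (nat_lit 1) (nat_lit 4) (nat_lit 259) (nat_lit 205) (nat_lit 136)) (XT.lf (nat_lit 0) (nat_lit 2872453326800) (nat_lit 152) (nat_lit 1184522013790) (nat_lit 0) (nat_lit 2837451090305) (nat_lit 1) (nat_lit 5) (nat_lit 3) (nat_lit 4) (nat_lit 1) (nat_lit 4) (nat_lit 260) (nat_lit 205) (nat_lit 135))) (XT.nd (nat_lit 78) (nat_lit 0) (nat_lit 0) (XT.lf (nat_lit 0) (nat_lit 761521141) (nat_lit 0) (nat_lit 761521141) (nat_lit 380) (nat_lit 3496135283) (nat_lit 27) (nat_lit 5) (nat_lit 27) (nat_lit 3) (nat_lit 32) (nat_lit 3) (nat_lit 206) (nat_lit 206) (nat_lit 188)) (XT.nd (nat_lit 78) (nat_lit 0) (nat_lit 76) (XT.lf (nat_lit 0) (nat_lit 4438790990) (nat_lit 380) (nat_lit 1612480571)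 (nat_lit 456) (nat_lit 4634698466) (nat_lit 27) (nat_lit 5) (nat_lit 32) (nat_lit 3) (nat_lit 33) (nat_lit 5) (nat_lit 207) (nat_lit 206) (nat_lit 187)) (XT.lf (nat_lit 0) (nat_lit 6065210648) (nat_lit 380) (nat_lit 4946270638) (nat_lit 456) (nat_lit 419419608) (nat_lit 28) (nat_lit 5) (nat_lit 33) (nat_lit 5) (nat_lit 34) (nat_lit 5) (nat_lit 208) (nat_lit 206) (nat_lit 186))))) (XT.nd (nat_lit 156) (nat_lit 532) (nat_lit 0) (XT.nd (nat_lit 78) (nat_lit 304) (nat_lit 0) (XT.lf (nat_lit 76) (nat_lit 3497186967) (nat_lit 0) (nat_lit 4576854835) (nat_lit 456) (nat_lit 4204330508) (nat_lit 29) (nat_lit 5) (nat_lit 28) (nat_lit 5) (nat_lit 34) (nat_lit 5) (nat_lit 209) (nat_lit 206) (nat_lit 185)) (XT.lf (nat_lit 0) (nat_lit 74255912) (nat_lit 380) (nat_lit 10385383924) (nat_lit 456) (nat_lit 2788921228) (nat_lit 24) (nat_lit 5) (nat_lit 29) (nat_lit 5) (nat_lit 30) (nat_lit 5) (nat_lit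 210) (nat_lit 206) (nat_lit 184))) (XT.nd (nat_lit 78) (nat_lit 532) (nat_lit 0) (XT.lf (nat_lit 0) (nat_lit 10543866641) (nat_lit 380) (nat_lit 2912073654) (nat_lit 456) (nat_lit 889527947) (nat_lit 24) (nat_lit 5) (nat_lit 29) (nat_lit 5) (nat_lit 30) (nat_lit 5) (nat_lit 211) (nat_lit 206) (nat_lit 183)) (XT.nd (nat_lit 78) (nat_lit 228) (nat_lit 0) (XT.lf (nat_lit 0) (nat_lit 1431624658) (nat_lit 304) (nat_lit 8541984489) (nat_lit 76) (nat_lit 5615824206) (nat_lit 20) (nat_lit 5) (nat_lit 24) (nat_lit 5) (nat_lit 21) (nat_lit 5) (nat_lit 212) (nat_lit 206) (nat_lit 182)) (XT.lf (nat_lit 0) (nat_lit 2662701691) (nat_lit 228) (nat_lit 1544114676) (nat_lit 304) (nat_lit 12799639177) (nat_lit 17) (nat_lit 5) (nat_lit 20) (nat_lit 5) (nat_lit 21) (nat_lit 5) (nat_lit 213) (nat_lit 206) (nat_lit 181))))))) (XT.nd (nat_lit 780) (nat_lit 304) (nat_lit 0) (XT.nd (nat_lit 390) (nat_lit 228)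 (nat_lit 0) (XT.nd (nat_lit 156) (nat_lit 380) (nat_lit 0) (XT.nd (nat_lit 78) (nat_lit 152) (nat_lit 0) (XT.lf (nat_lit 0) (nat_lit 7759060670) (nat_lit 304) (nat_lit 2857651276) (nat_lit 76) (nat_lit 7991321195) (nat_lit 17) (nat_lit 5) (nat_lit 21) (nat_lit 5) (nat_lit 18) (nat_lit 5) (nat_lit 214) (nat_lit 206) (nat_lit 180)) (XT.lf (nat_lit 0) (nat_lit 10755914328) (nat_lit 152) (nat_lit 1311022959) (nat_lit 228) (nat_lit 8365837727) (nat_lit 15) (nat_lit 5) (nat_lit 17) (nat_lit 5) (nat_lit 18) (nat_lit 5) (nat_lit 215) (nat_lit 206) (nat_lit 179))) (XT.nd (nat_lit 78) (nat_lit 228) (nat_lit 0) (XT.lf (nat_lit 0) (nat_lit 3939996796) (nat_lit 152) (nat_lit 13416310324) (nat_lit 228) (nat_lit 5148749406) (nat_lit 13) (nat_lit 5) (nat_lit 15) (nat_lit 5) (nat_lit 16) (nat_lit 5) (nat_lit 216) (nat_lit 206) (nat_lit 178)) (XT.nd (nat_lit 78) (nat_lit 228) (nat_lit 0) (XT.lf (nat_lit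 0) (nat_lit 20065668304) (nat_lit 152) (nat_lit 3627094753) (nat_lit 228) (nat_lit 1175690839) (nat_lit 13) (nat_lit 5) (nat_lit 15) (nat_lit 5) (nat_lit 16) (nat_lit 5) (nat_lit 217) (nat_lit 206) (nat_lit 177)) (XT.lf (nat_lit 0) (nat_lit 3634051807) (nat_lit 228) (nat_lit 16315072149) (nat_lit 76) (nat_lit 7598327686) (nat_lit 10) (nat_lit 5) (nat_lit 13) (nat_lit 5) (nat_lit 11) (nat_lit 5) (nat_lit 218) (nat_lit 206) (nat_lit 176))))) (XT.nd (nat_lit 156) (nat_lit 76) (nat_lit 0) (XT.nd (nat_lit 78) (nat_lit 152) (nat_lit 0) (XT.lf (nat_lit 0) (nat_lit 9289768029) (nat_lit 228) (nat_lit 862082267) (nat_lit 76) (nat_lit 20458873396) (nat_lit 10) (nat_lit 5) (nat_lit 13) (nat_lit 5) (nat_lit 11) (nat_lit 5) (nat_lit 219) (nat_lit 206) (nat_lit 175)) (XT.lf (nat_lit 0) (nat_lit 16212894332) (nat_lit 228) (nat_lit 16407580324) (nat_lit 76) (nat_lit 1479833537) (nat_lit 8) (nat_lit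 5) (nat_lit 11) (nat_lit 5) (nat_lit 9) (nat_lit 4) (nat_lit 220) (nat_lit 206) (nat_lit 174))) (XT.nd (nat_lit 78) (nat_lit 0) (nat_lit 0) (XT.lf (nat_lit 0) (nat_lit 662805098) (nat_lit 76) (nat_lit 23793320514) (nat_lit 152) (nat_lit 13634974618) (nat_lit 7) (nat_lit 5) (nat_lit 8) (nat_lit 5) (nat_lit 9) (nat_lit 4) (nat_lit 221) (nat_lit 206) (nat_lit 173)) (XT.nd (nat_lit 78) (nat_lit 0) (nat_lit 0) (XT.lf (nat_lit 0) (nat_lit 21231901950) (nat_lit 76) (nat_lit 13144790979) (nat_lit 152) (nat_lit 8268811554) (nat_lit 7) (nat_lit 5) (nat_lit 8) (nat_lit 5) (nat_lit 9) (nat_lit 4) (nat_lit 222) (nat_lit 206) (nat_lit 172)) (XT.lf (nat_lit 0) (nat_lit 44838154979) (nat_lit 76) (nat_lit 915157577) (nat_lit 152) (nat_lit 2132546845) (nat_lit 7) (nat_lit 5) (nat_lit 8) (nat_lit 5) (nat_lit 9) (nat_lit 4) (nat_lit 223) (nat_lit 206) (nat_lit 171)))))) (XT.nd (nat_lit 390) (nat_lit 76)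 (nat_lit 0) (XT.nd (nat_lit 156) (nat_lit 76) (nat_lit 0) (XT.nd (nat_lit 78) (nat_lit 0) (nat_lit 0) (XT.lf (nat_lit 0) (nat_lit 5433237655) (nat_lit 152) (nat_lit 35345533314) (nat_lit 76) (nat_lit 13063773085) (nat_lit 5) (nat_lit 5) (nat_lit 7) (nat_lit 5) (nat_lit 6) (nat_lit 4) (nat_lit 224) (nat_lit 206) (nat_lit 170)) (XT.lf (nat_lit 0) (nat_lit 14101246095) (nat_lit 152) (nat_lit 17356064414) (nat_lit 76) (nat_lit 29223658697) (nat_lit 5) (nat_lit 5) (nat_lit 7) (nat_lit 5) (nat_lit 6) (nat_lit 4) (nat_lit 225) (nat_lit 206) (nat_lit 169))) (XT.nd (nat_lit 78) (nat_lit 0) (nat_lit 0) (XT.lf (nat_lit 0) (nat_lit 3468985618) (nat_lit 76) (nat_lit 20661021427) (nat_lit 152) (nat_lit 44410445432) (nat_lit 4) (nat_lit 5) (nat_lit 5) (nat_lit 5) (nat_lit 6) (nat_lit 4) (nat_lit 226) (nat_lit 206) (nat_lit 168)) (XT.nd (nat_lit 78) (nat_lit 0) (nat_lit 0) (XT.lf (nat_lit 0) (nat_lit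 28435530479) (nat_lit 76) (nat_lit 7712160234) (nat_lit 152) (nat_lit 41392519230) (nat_lit 4) (nat_lit 5) (nat_lit 5) (nat_lit 5) (nat_lit 6) (nat_lit 4) (nat_lit 227) (nat_lit 206) (nat_lit 167)) (XT.lf (nat_lit 0) (nat_lit 50122424028) (nat_lit 152) (nat_lit 30945761257) (nat_lit 0) (nat_lit 6809498661) (nat_lit 4) (nat_lit 5) (nat_lit 6) (nat_lit 4) (nat_lit 4) (nat_lit 4) (nat_lit 228) (nat_lit 206) (nat_lit 166))))) (XT.nd (nat_lit 156) (nat_lit 0) (nat_lit 0) (XT.nd (nat_lit 78) (nat_lit 76) (nat_lit 0) (XT.lf (nat_lit 0) (nat_lit 66390789449) (nat_lit 152) (nat_lit 10302592821) (nat_lit 0) (nat_lit 23056694043) (nat_lit 4) (nat_lit 5) (nat_lit 6) (nat_lit 4) (nat_lit 4) (nat_lit 4) (nat_lit 229) (nat_lit 206) (nat_lit 165)) (XT.lf (nat_lit 0) (nat_lit 14120559116) (nat_lit 76) (nat_lit 71304644114) (nat_lit 76) (nat_lit 27952139977) (nat_lit 3) (nat_lit 4) (nat_lit 4) (nat_lit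 5) (nat_lit 4) (nat_lit 4) (nat_lit 230) (nat_lit 206) (nat_lit 164))) (XT.nd (nat_lit 78) (nat_lit 0) (nat_lit 0) (XT.lf (nat_lit 0) (nat_lit 42810153175) (nat_lit 76) (nat_lit 64792066151) (nat_lit 76) (nat_lit 21423554422) (nat_lit 3) (nat_lit 4) (nat_lit 4) (nat_lit 5) (nat_lit 4) (nat_lit 4) (nat_lit 231) (nat_lit 206) (nat_lit 163)) (XT.nd (nat_lit 78) (nat_lit 0) (nat_lit 0) (XT.lf (nat_lit 0) (nat_lit 75784991220) (nat_lit 76) (nat_lit 57309919524) (nat_lit 76) (nat_lit 13927488150) (nat_lit 3) (nat_lit 4) (nat_lit 4) (nat_lit 5) (nat_lit 4) (nat_lit 4) (nat_lit 232) (nat_lit 206) (nat_lit 162)) (XT.lf (nat_lit 0) (nat_lit 113690233125) (nat_lit 76) (nat_lit 48711814407) (nat_lit 76) (nat_lit 5317278994) (nat_lit 3) (nat_lit 4) (nat_lit 4) (nat_lit 5) (nat_lit 4) (nat_lit 4) (nat_lit 233) (nat_lit 206) (nat_lit 161))))))))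
noncomputable def xc34 : XT := (XT.nd (nat_lit 1482) (nat_lit 0) (nat_lit 0) (XT.nd (nat_lit 702) (nat_lit 0) (nat_lit 0) (XT.nd (nat_lit 312) (nat_lit 0) (nat_lit 0) (XT.nd (nat_lit 156) (nat_lit 76) (nat_lit 0) (XT.nd (nat_lit 78) (nat_lit 0) (nat_lit 0) (XT.lf (nat_lit 0) (nat_lit 4346646935) (nat_lit 152) (nat_lit 34364035039) (nat_lit 76) (nat_lit 152802011223) (nat_lit 2) (nat_lit 5) (nat_lit 4) (nat_lit 5) (nat_lit 3) (nat_lit 4) (nat_lit 234) (nat_lit 206) (nat_lit 160)) (XT.lf (nat_lit 0) (nat_lit 15146896134) (nat_lit 152) (nat_lit 11908669097) (nat_lit 76) (nat_lit 191808361055) (nat_lit 2) (nat_lit 5) (nat_lit 4) (nat_lit 5) (nat_lit 3) (nat_lit 4) (nat_lit 235) (nat_lit 206) (nat_lit 159))) (XT.nd (nat_lit 78) (nat_lit 0) (nat_lit 0) (XT.lf (nat_lit 0) (nat_lit 14636401297) (nat_lit 76) (nat_lit 13276374162) (nat_lit 152) (nat_lit 222377453148) (nat_lit 1) (nat_lit 5) (nat_lit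 2) (nat_lit 5) (nat_lit 3) (nat_lit 4) (nat_lit 236) (nat_lit 206) (nat_lit 158)) (XT.lf (nat_lit 0) (nat_lit 43005140368) (nat_lit 152) (nat_lit 240599417191) (nat_lit 0) (nat_lit 2793017976) (nat_lit 1) (nat_lit 5) (nat_lit 3) (nat_lit 4) (nat_lit 1) (nat_lit 4) (nat_lit 237) (nat_lit 206) (nat_lit 157)))) (XT.nd (nat_lit 156) (nat_lit 0) (nat_lit 0) (XT.nd (nat_lit 78) (nat_lit 0) (nat_lit 0) (XT.lf (nat_lit 0) (nat_lit 60723411655) (nat_lit 152) (nat_lit 246662955492) (nat_lit 0) (nat_lit 20505717183) (nat_lit 1) (nat_lit 5) (nat_lit 3) (nat_lit 4) (nat_lit 1) (nat_lit 4) (nat_lit 238) (nat_lit 206) (nat_lit 156)) (XT.lf (nat_lit 0) (nat_lit 81094954033) (nat_lit 152) (nat_lit 253643779542) (nat_lit 0) (nat_lit 40872414273) (nat_lit 1) (nat_lit 5) (nat_lit 3) (nat_lit 4) (nat_lit 1) (nat_lit 4) (nat_lit 239) (nat_lit 206) (nat_lit 155))) (XT.nd (nat_lit 78) (nat_lit 0) (nat_lit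 0) (XT.lf (nat_lit 0) (nat_lit 104518341156) (nat_lit 152) (nat_lit 261678470680) (nat_lit 0) (nat_lit 64291588103) (nat_lit 1) (nat_lit 5) (nat_lit 3) (nat_lit 4) (nat_lit 1) (nat_lit 4) (nat_lit 240) (nat_lit 206) (nat_lit 154)) (XT.nd (nat_lit 78) (nat_lit 0) (nat_lit 0) (XT.lf (nat_lit 0) (nat_lit 131451856686) (nat_lit 152) (nat_lit 270924229384) (nat_lit 0) (nat_lit 91221439901) (nat_lit 1) (nat_lit 5) (nat_lit 3) (nat_lit 4) (nat_lit 1) (nat_lit 4) (nat_lit 241) (nat_lit 206) (nat_lit 153)) (XT.lf (nat_lit 0) (nat_lit 162422460710) (nat_lit 152) (nat_lit 281561950935) (nat_lit 0) (nat_lit 122188858069) (nat_lit 1) (nat_lit 5) (nat_lit 3) (nat_lit 4) (nat_lit 1) (nat_lit 4) (nat_lit 242) (nat_lit 206) (nat_lit 152)))))) (XT.nd (nat_lit 390) (nat_lit 0) (nat_lit 0) (XT.nd (nat_lit 156) (nat_lit 0) (nat_lit 0) (XT.nd (nat_lit 78) (nat_lit 0) (nat_lit 0) (XT.lf (nat_lit 0) (nat_lit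 198036099828) (nat_lit 152) (nat_lit 293799764666) (nat_lit 0) (nat_lit 157799726878) (nat_lit 1) (nat_lit 5) (nat_lit 3) (nat_lit 4) (nat_lit 1) (nat_lit 4) (nat_lit 243) (nat_lit 206) (nat_lit 151)) (XT.lf (nat_lit 0) (nat_lit 238989562630) (nat_lit 152) (nat_lit 307877106064) (nat_lit 0) (nat_lit 198750780717) (nat_lit 1) (nat_lit 5) (nat_lit 3) (nat_lit 4) (nat_lit 1) (nat_lit 4) (nat_lit 244) (nat_lit 206) (nat_lit 150))) (XT.nd (nat_lit 78) (nat_lit 0) (nat_lit 0) (XT.lf (nat_lit 0) (nat_lit 286084112521) (nat_lit 152) (nat_lit 324069401373) (nat_lit 0) (nat_lit 245843235856) (nat_lit 1) (nat_lit 5) (nat_lit 3) (nat_lit 4) (nat_lit 1) (nat_lit 4) (nat_lit 245) (nat_lit 206) (nat_lit 149)) (XT.nd (nat_lit 78) (nat_lit 0) (nat_lit 0) (XT.lf (nat_lit 0) (nat_lit 340241164606) (nat_lit 152) (nat_lit 342693456372) (nat_lit 0) (nat_lit 299998466418) (nat_lit 1) (nat_lit 5) (nat_lit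 3) (nat_lit 4) (nat_lit 1) (nat_lit 4) (nat_lit 246) (nat_lit 206) (nat_lit 148)) (XT.lf (nat_lit 0) (nat_lit 402520313383) (nat_lit 152) (nat_lit 364113654744) (nat_lit 0) (nat_lit 362276031262) (nat_lit 1) (nat_lit 5) (nat_lit 3) (nat_lit 4) (nat_lit 1) (nat_lit 4) (nat_lit 247) (nat_lit 206) (nat_lit 147))))) (XT.nd (nat_lit 156) (nat_lit 0) (nat_lit 0) (XT.nd (nat_lit 78) (nat_lit 0) (nat_lit 0) (XT.lf (nat_lit 0) (nat_lit 474140063937) (nat_lit 152) (nat_lit 388749087328) (nat_lit 0) (nat_lit 433894404483) (nat_lit 1) (nat_lit 5) (nat_lit 3) (nat_lit 4) (nat_lit 1) (nat_lit 4) (nat_lit 248) (nat_lit 206) (nat_lit 146)) (XT.lf (nat_lit 0) (nat_lit 556501672256) (nat_lit 152) (nat_lit 417081751718) (nat_lit 0) (nat_lit 516254815121) (nat_lit 1) (nat_lit 5) (nat_lit 3) (nat_lit 4) (nat_lit 1) (nat_lit 4) (nat_lit 249) (nat_lit 206) (nat_lit 145))) (XT.nd (nat_lit 78) (nat_lit 0) (nat_lit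 0) (XT.lf (nat_lit 0) (nat_lit 651216561112) (nat_lit 152) (nat_lit 449665982651) (nat_lit 0) (nat_lit 610968662516) (nat_lit 1) (nat_lit 5) (nat_lit 3) (nat_lit 4) (nat_lit 1) (nat_lit 4) (nat_lit 250) (nat_lit 206) (nat_lit 144)) (XT.nd (nat_lit 78) (nat_lit 0) (nat_lit 0) (XT.lf (nat_lit 0) (nat_lit 760137847896) (nat_lit 152) (nat_lit 487139297690) (nat_lit 0) (nat_lit 719889043681) (nat_lit 1) (nat_lit 5) (nat_lit 3) (nat_lit 4) (nat_lit 1) (nat_lit 4) (nat_lit 251) (nat_lit 206) (nat_lit 143)) (XT.lf (nat_lit 0) (nat_lit 885396601263) (nat_lit 152) (nat_lit 530234870390) (nat_lit 0) (nat_lit 845147009553) (nat_lit 1) (nat_lit 5) (nat_lit 3) (nat_lit 4) (nat_lit 1) (nat_lit 4) (nat_lit 252) (nat_lit 206) (nat_lit 142))))))) (XT.nd (nat_lit 27846) (nat_lit 0) (nat_lit 912) (XT.nd (nat_lit 390) (nat_lit 0) (nat_lit 0) (XT.nd (nat_lit 156) (nat_lit 0) (nat_lit 0) (XT.nd (nat_lit 78)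 (nat_lit 0) (nat_lit 0) (XT.lf (nat_lit 0) (nat_lit 1029443535951) (nat_lit 152) (nat_lit 579795874998) (nat_lit 0) (nat_lit 989193259463) (nat_lit 1) (nat_lit 5) (nat_lit 3) (nat_lit 4) (nat_lit 1) (nat_lit 4) (nat_lit 253) (nat_lit 206) (nat_lit 141)) (XT.lf (nat_lit 0) (nat_lit 1195096961553) (nat_lit 152) (nat_lit 636791983345) (nat_lit 0) (nat_lit 1154846089606) (nat_lit 1) (nat_lit 5) (nat_lit 3) (nat_lit 4) (nat_lit 1) (nat_lit 4) (nat_lit 254) (nat_lit 206) (nat_lit 140))) (XT.nd (nat_lit 78) (nat_lit 0) (nat_lit 0) (XT.lf (nat_lit 0) (nat_lit 1385597923352) (nat_lit 152) (nat_lit 702338336681) (nat_lit 0) (nat_lit 1345346533615) (nat_lit 1) (nat_lit 5) (nat_lit 3) (nat_lit 4) (nat_lit 1) (nat_lit 4) (nat_lit 255) (nat_lit 206) (nat_lit 139)) (XT.nd (nat_lit 78) (nat_lit 0) (nat_lit 0) (XT.lf (nat_lit 0) (nat_lit 1604673614080) (nat_lit 152) (nat_lit 777717363657) (nat_lit 0)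 (nat_lit 1564421774090) (nat_lit 1) (nat_lit 5) (nat_lit 3) (nat_lit 4) (nat_lit 1) (nat_lit 4) (nat_lit 256) (nat_lit 206) (nat_lit 138)) (XT.lf (nat_lit 0) (nat_lit 1856610297250) (nat_lit 152) (nat_lit 864403871324) (nat_lit 0) (nat_lit 1816358065736) (nat_lit 1) (nat_lit 5) (nat_lit 3) (nat_lit 4) (nat_lit 1) (nat_lit 4) (nat_lit 257) (nat_lit 206) (nat_lit 137))))) (XT.nd (nat_lit 156) (nat_lit 0) (nat_lit 0) (XT.nd (nat_lit 78) (nat_lit 0) (nat_lit 0) (XT.lf (nat_lit 0) (nat_lit 2146337168837) (nat_lit 152) (nat_lit 964093900048) (nat_lit 0) (nat_lit 2106084596868) (nat_lit 1) (nat_lit 5) (nat_lit 3) (nat_lit 4) (nat_lit 1) (nat_lit 4) (nat_lit 258) (nat_lit 206) (nat_lit 136)) (XT.lf (nat_lit 0) (nat_lit 2479522798069) (nat_lit 152) (nat_lit 1078737906914) (nat_lit 0) (nat_lit 2439269930051) (nat_lit 1) (nat_lit 5) (nat_lit 3) (nat_lit 4) (nat_lit 1) (nat_lit 4) (nat_lit 259)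 (nat_lit 206) (nat_lit 135))) (XT.nd (nat_lit 27144) (nat_lit 0) (nat_lit 1976) (XT.lf (nat_lit 0) (nat_lit 2862686034212) (nat_lit 152) (nat_lit 1210578926839) (nat_lit 0) (nat_lit 2822432908761) (nat_lit 1) (nat_lit 5) (nat_lit 3) (nat_lit 4) (nat_lit 1) (nat_lit 4) (nat_lit 260) (nat_lit 206) (nat_lit 134)) (XT.nd (nat_lit 78) (nat_lit 0) (nat_lit 0) (XT.lf (nat_lit 0) (nat_lit 1377532006) (nat_lit 0) (nat_lit 1377532006) (nat_lit 380) (nat_lit 2925085159) (nat_lit 27) (nat_lit 5) (nat_lit 27) (nat_lit 3) (nat_lit 32) (nat_lit 3) (nat_lit 207) (nat_lit 207) (nat_lit 186)) (XT.lf (nat_lit 0) (nat_lit 6828953118) (nat_lit 380) (nat_lit 800864642) (nat_lit 456) (nat_lit 4500891947) (nat_lit 27) (nat_lit 5) (nat_lit 32) (nat_lit 3) (nat_lit 33) (nat_lit 5) (nat_lit 208) (nat_lit 207) (nat_lit 185)))))) (XT.nd (nat_lit 390) (nat_lit 532) (nat_lit 0) (XT.nd (nat_lit 156) (nat_lit 532)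 (nat_lit 0) (XT.nd (nat_lit 78) (nat_lit 0) (nat_lit 76) (XT.lf (nat_lit 76) (nat_lit 8434828123) (nat_lit 0) (nat_lit 50574095) (nat_lit 456) (nat_lit 4521728539) (nat_lit 28) (nat_lit 5) (nat_lit 27) (nat_lit 5) (nat_lit 33) (nat_lit 5) (nat_lit 209) (nat_lit 207) (nat_lit 184)) (XT.lf (nat_lit 76) (nat_lit 5044330861) (nat_lit 0) (nat_lit 5577752262) (nat_lit 456) (nat_lit 3375809818) (nat_lit 29) (nat_lit 5) (nat_lit 28) (nat_lit 5) (nat_lit 34) (nat_lit 5) (nat_lit 210) (nat_lit 207) (nat_lit 183))) (XT.nd (nat_lit 78) (nat_lit 304) (nat_lit 0) (XT.lf (nat_lit 0) (nat_lit 1140214276) (nat_lit 380) (nat_lit 12069717776) (nat_lit 456) (nat_lit 1918118157) (nat_lit 24) (nat_lit 5) (nat_lit 29) (nat_lit 5) (nat_lit 30) (nat_lit 5) (nat_lit 211) (nat_lit 207) (nat_lit 182)) (XT.nd (nat_lit 78) (nat_lit 228) (nat_lit 0) (XT.lf (nat_lit 0) (nat_lit 93131135) (nat_lit 456) (nat_lit 3363230034)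 (nat_lit 76) (nat_lit 12947003895) (nat_lit 23) (nat_lit 5) (nat_lit 29) (nat_lit 5) (nat_lit 24) (nat_lit 5) (nat_lit 212) (nat_lit 207) (nat_lit 181)) (XT.lf (nat_lit 0) (nat_lit 2592915064) (nat_lit 304) (nat_lit 8836317705) (nat_lit 76) (nat_lit 6413588962) (nat_lit 20) (nat_lit 5) (nat_lit 24) (nat_lit 5) (nat_lit 21) (nat_lit 5) (nat_lit 213) (nat_lit 207) (nat_lit 180))))) (XT.nd (nat_lit 156) (nat_lit 304) (nat_lit 0) (XT.nd (nat_lit 78) (nat_lit 0) (nat_lit 0) (XT.lf (nat_lit 0) (nat_lit 3965529777) (nat_lit 228) (nat_lit 1717120480) (nat_lit 304) (nat_lit 13799099237) (nat_lit 17) (nat_lit 5) (nat_lit 20) (nat_lit 5) (nat_lit 21) (nat_lit 5) (nat_lit 214) (nat_lit 207) (nat_lit 179)) (XT.lf (nat_lit 0) (nat_lit 9658764153) (nat_lit 304) (nat_lit 2436135830) (nat_lit 76) (nat_lit 9238436260) (nat_lit 17) (nat_lit 5) (nat_lit 21) (nat_lit 5) (nat_lit 18) (nat_lit 5) (nat_lit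 215) (nat_lit 207) (nat_lit 178))) (XT.nd (nat_lit 78) (nat_lit 152) (nat_lit 0) (XT.lf (nat_lit 0) (nat_lit 13147502540) (nat_lit 152) (nat_lit 1388055775) (nat_lit 228) (nat_lit 8903329718) (nat_lit 15) (nat_lit 5) (nat_lit 17) (nat_lit 5) (nat_lit 18) (nat_lit 5) (nat_lit 216) (nat_lit 207) (nat_lit 177)) (XT.nd (nat_lit 78) (nat_lit 0) (nat_lit 0) (XT.lf (nat_lit 0) (nat_lit 5294519003) (nat_lit 152) (nat_lit 15258777197) (nat_lit 228) (nat_lit 5274716408) (nat_lit 13) (nat_lit 5) (nat_lit 15) (nat_lit 5) (nat_lit 16) (nat_lit 5) (nat_lit 217) (nat_lit 207) (nat_lit 176)) (XT.lf (nat_lit 0) (nat_lit 23739451321) (nat_lit 152) (nat_lit 4023350553) (nat_lit 228) (nat_lit 790004979) (nat_lit 13) (nat_lit 5) (nat_lit 15) (nat_lit 5) (nat_lit 16) (nat_lit 5) (nat_lit 218) (nat_lit 207) (nat_lit 175))))))))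
noncomputable def xc35 : XT := (XT.nd (nat_lit 1482) (nat_lit 0) (nat_lit 0) (XT.nd (nat_lit 702) (nat_lit 228) (nat_lit 0) (XT.nd (nat_lit 312) (nat_lit 228) (nat_lit 0) (XT.nd (nat_lit 156) (nat_lit 228) (nat_lit 0) (XT.nd (nat_lit 78) (nat_lit 0) (nat_lit 0) (XT.lf (nat_lit 0) (nat_lit 4662565141) (nat_lit 228) (nat_lit 18086644804) (nat_lit 76) (nat_lit 8887963020) (nat_lit 10) (nat_lit 5) (nat_lit 13) (nat_lit 5) (nat_lit 11) (nat_lit 5) (nat_lit 219) (nat_lit 207) (nat_lit 174)) (XT.lf (nat_lit 0) (nat_lit 11103585897) (nat_lit 228) (nat_lit 403839678) (nat_lit 76) (nat_lit 23658040216) (nat_lit 10) (nat_lit 5) (nat_lit 13) (nat_lit 5) (nat_lit 11) (nat_lit 5) (nat_lit 220) (nat_lit 207) (nat_lit 173))) (XT.nd (nat_lit 78) (nat_lit 76) (nat_lit 0) (XT.lf (nat_lit 0) (nat_lit 19027119830) (nat_lit 228) (nat_lit 18301636163) (nat_lit 76) (nat_lit 1853199260) (nat_lit 8) (nat_lit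 5) (nat_lit 11) (nat_lit 5) (nat_lit 9) (nat_lit 4) (nat_lit 221) (nat_lit 207) (nat_lit 172)) (XT.lf (nat_lit 0) (nat_lit 1281306473) (nat_lit 76) (nat_lit 27188149142) (nat_lit 152) (nat_lit 15305268183) (nat_lit 7) (nat_lit 5) (nat_lit 8) (nat_lit 5) (nat_lit 9) (nat_lit 4) (nat_lit 222) (nat_lit 207) (nat_lit 171)))) (XT.nd (nat_lit 156) (nat_lit 228) (nat_lit 0) (XT.nd (nat_lit 78) (nat_lit 0) (nat_lit 0) (XT.lf (nat_lit 0) (nat_lit 24868061686) (nat_lit 76) (nat_lit 14965057930) (nat_lit 152) (nat_lit 9183087524) (nat_lit 7) (nat_lit 5) (nat_lit 8) (nat_lit 5) (nat_lit 9) (nat_lit 4) (nat_lit 223) (nat_lit 207) (nat_lit 170)) (XT.lf (nat_lit 0) (nat_lit 51956377742) (nat_lit 76) (nat_lit 920734087) (nat_lit 152) (nat_lit 2168910817) (nat_lit 7) (nat_lit 5) (nat_lit 8) (nat_lit 5) (nat_lit 9) (nat_lit 4) (nat_lit 224) (nat_lit 207) (nat_lit 169))) (XT.nd (nat_lit 78) (nat_lit 76)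 (nat_lit 0) (XT.lf (nat_lit 0) (nat_lit 6494560228) (nat_lit 152) (nat_lit 40255730861) (nat_lit 76) (nat_lit 15147436899) (nat_lit 5) (nat_lit 5) (nat_lit 7) (nat_lit 5) (nat_lit 6) (nat_lit 4) (nat_lit 225) (nat_lit 207) (nat_lit 168)) (XT.nd (nat_lit 78) (nat_lit 76) (nat_lit 0) (XT.lf (nat_lit 0) (nat_lit 16430639031) (nat_lit 152) (nat_lit 19618924120) (nat_lit 76) (nat_lit 33715118676) (nat_lit 5) (nat_lit 5) (nat_lit 7) (nat_lit 5) (nat_lit 6) (nat_lit 4) (nat_lit 226) (nat_lit 207) (nat_lit 167)) (XT.lf (nat_lit 0) (nat_lit 4301057560) (nat_lit 76) (nat_lit 23642213620) (nat_lit 152) (nat_lit 50861620925) (nat_lit 4) (nat_lit 5) (nat_lit 5) (nat_lit 5) (nat_lit 6) (nat_lit 4) (nat_lit 227) (nat_lit 207) (nat_lit 166)))))) (XT.nd (nat_lit 390) (nat_lit 152) (nat_lit 0) (XT.nd (nat_lit 156) (nat_lit 76) (nat_lit 0) (XT.nd (nat_lit 78) (nat_lit 0) (nat_lit 0) (XT.lf (nat_lit 0)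 (nat_lit 32971924485) (nat_lit 76) (nat_lit 8766409468) (nat_lit 152) (nat_lit 47418448138) (nat_lit 4) (nat_lit 5) (nat_lit 5) (nat_lit 5) (nat_lit 6) (nat_lit 4) (nat_lit 228) (nat_lit 207) (nat_lit 165)) (XT.lf (nat_lit 0) (nat_lit 57789445509) (nat_lit 152) (nat_lit 35341489054) (nat_lit 0) (nat_lit 7915657021) (nat_lit 4) (nat_lit 5) (nat_lit 6) (nat_lit 4) (nat_lit 4) (nat_lit 4) (nat_lit 229) (nat_lit 207) (nat_lit 164))) (XT.nd (nat_lit 78) (nat_lit 76) (nat_lit 0) (XT.lf (nat_lit 0) (nat_lit 76478675586) (nat_lit 152) (nat_lit 11633950099) (nat_lit 0) (nat_lit 26588879506) (nat_lit 4) (nat_lit 5) (nat_lit 6) (nat_lit 4) (nat_lit 4) (nat_lit 4) (nat_lit 230) (nat_lit 207) (nat_lit 163)) (XT.nd (nat_lit 78) (nat_lit 0) (nat_lit 0) (XT.lf (nat_lit 0) (nat_lit 16434557916) (nat_lit 76) (nat_lit 81921544270) (nat_lit 76) (nat_lit 32017828545) (nat_lit 3) (nat_lit 4) (nat_lit 4)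 (nat_lit 5) (nat_lit 4) (nat_lit 4) (nat_lit 231) (nat_lit 207) (nat_lit 162)) (XT.lf (nat_lit 0) (nat_lit 49402036963) (nat_lit 76) (nat_lit 74442357412) (nat_lit 76) (nat_lit 24526537648) (nat_lit 3) (nat_lit 4) (nat_lit 4) (nat_lit 5) (nat_lit 4) (nat_lit 4) (nat_lit 232) (nat_lit 207) (nat_lit 161))))) (XT.nd (nat_lit 156) (nat_lit 152) (nat_lit 0) (XT.nd (nat_lit 78) (nat_lit 0) (nat_lit 0) (XT.lf (nat_lit 0) (nat_lit 87300879739) (nat_lit 76) (nat_lit 65846826008) (nat_lit 76) (nat_lit 15920480992) (nat_lit 3) (nat_lit 4) (nat_lit 4) (nat_lit 5) (nat_lit 4) (nat_lit 4) (nat_lit 233) (nat_lit 207) (nat_lit 160)) (XT.lf (nat_lit 0) (nat_lit 130872585342) (nat_lit 76) (nat_lit 55966776616) (nat_lit 76) (nat_lit 6031279207) (nat_lit 3) (nat_lit 4) (nat_lit 4) (nat_lit 5) (nat_lit 4) (nat_lit 4) (nat_lit 234) (nat_lit 207) (nat_lit 159))) (XT.nd (nat_lit 78) (nat_lit 76) (nat_lit 0)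 (XT.lf (nat_lit 0) (nat_lit 5067696187) (nat_lit 152) (nat_lit 39402647941) (nat_lit 76) (nat_lit 175763387684) (nat_lit 2) (nat_lit 5) (nat_lit 4) (nat_lit 5) (nat_lit 3) (nat_lit 4) (nat_lit 235) (nat_lit 207) (nat_lit 158)) (XT.nd (nat_lit 78) (nat_lit 76) (nat_lit 0) (XT.lf (nat_lit 0) (nat_lit 17478975955) (nat_lit 152) (nat_lit 13594106546) (nat_lit 76) (nat_lit 220615332411) (nat_lit 2) (nat_lit 5) (nat_lit 4) (nat_lit 5) (nat_lit 3) (nat_lit 4) (nat_lit 236) (nat_lit 207) (nat_lit 157)) (XT.lf (nat_lit 0) (nat_lit 16924186865) (nat_lit 76) (nat_lit 15229938733) (nat_lit 152) (nat_lit 255675024607) (nat_lit 1) (nat_lit 5) (nat_lit 2) (nat_lit 5) (nat_lit 3) (nat_lit 4) (nat_lit 237) (nat_lit 207) (nat_lit 156))))))) (XT.nd (nat_lit 780) (nat_lit 0) (nat_lit 0) (XT.nd (nat_lit 390) (nat_lit 0) (nat_lit 0) (XT.nd (nat_lit 156) (nat_lit 0) (nat_lit 0) (XT.nd (nat_lit 78) (nat_lit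 0) (nat_lit 0) (XT.lf (nat_lit 0) (nat_lit 49504037608) (nat_lit 152) (nat_lit 276605828228) (nat_lit 0) (nat_lit 3243271598) (nat_lit 1) (nat_lit 5) (nat_lit 3) (nat_lit 4) (nat_lit 1) (nat_lit 4) (nat_lit 238) (nat_lit 207) (nat_lit 155)) (XT.lf (nat_lit 0) (nat_lit 69873772260) (nat_lit 152) (nat_lit 283589788780) (nat_lit 0) (nat_lit 23608792956) (nat_lit 1) (nat_lit 5) (nat_lit 3) (nat_lit 4) (nat_lit 1) (nat_lit 4) (nat_lit 239) (nat_lit 207) (nat_lit 154))) (XT.nd (nat_lit 78) (nat_lit 0) (nat_lit 0) (XT.lf (nat_lit 0) (nat_lit 93295587448) (nat_lit 152) (nat_lit 291627207311) (nat_lit 0) (nat_lit 47026944411) (nat_lit 1) (nat_lit 5) (nat_lit 3) (nat_lit 4) (nat_lit 1) (nat_lit 4) (nat_lit 240) (nat_lit 207) (nat_lit 153)) (XT.nd (nat_lit 78) (nat_lit 0) (nat_lit 0) (XT.lf (nat_lit 0) (nat_lit 120227736077) (nat_lit 152) (nat_lit 300875337663) (nat_lit 0) (nat_lit 73955907185)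 (nat_lit 1) (nat_lit 5) (nat_lit 3) (nat_lit 4) (nat_lit 1) (nat_lit 4) (nat_lit 241) (nat_lit 207) (nat_lit 152)) (XT.lf (nat_lit 0) (nat_lit 151197151492) (nat_lit 152) (nat_lit 311515121515) (nat_lit 0) (nat_lit 104922552291) (nat_lit 1) (nat_lit 5) (nat_lit 3) (nat_lit 4) (nat_lit 1) (nat_lit 4) (nat_lit 242) (nat_lit 207) (nat_lit 151))))) (XT.nd (nat_lit 156) (nat_lit 0) (nat_lit 0) (XT.nd (nat_lit 78) (nat_lit 0) (nat_lit 0) (XT.lf (nat_lit 0) (nat_lit 186809757036) (nat_lit 152) (nat_lit 323754728551) (nat_lit 0) (nat_lit 140532748872) (nat_lit 1) (nat_lit 5) (nat_lit 3) (nat_lit 4) (nat_lit 1) (nat_lit 4) (nat_lit 243) (nat_lit 207) (nat_lit 150)) (XT.lf (nat_lit 0) (nat_lit 227762321080) (nat_lit 152) (nat_lit 337833629345) (nat_lit 0) (nat_lit 181483218164) (nat_lit 1) (nat_lit 5) (nat_lit 3) (nat_lit 4) (nat_lit 1) (nat_lit 4) (nat_lit 244) (nat_lit 207) (nat_lit 149)))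 (XT.nd (nat_lit 78) (nat_lit 0) (nat_lit 0) (XT.lf (nat_lit 0) (nat_lit 274856089441) (nat_lit 152) (nat_lit 354027280651) (nat_lit 0) (nat_lit 228575165002) (nat_lit 1) (nat_lit 5) (nat_lit 3) (nat_lit 4) (nat_lit 1) (nat_lit 4) (nat_lit 245) (nat_lit 207) (nat_lit 148)) (XT.nd (nat_lit 78) (nat_lit 0) (nat_lit 0) (XT.lf (nat_lit 0) (nat_lit 329012461935) (nat_lit 152) (nat_lit 372652514777) (nat_lit 0) (nat_lit 282729953563) (nat_lit 1) (nat_lit 5) (nat_lit 3) (nat_lit 4) (nat_lit 1) (nat_lit 4) (nat_lit 246) (nat_lit 207) (nat_lit 147)) (XT.lf (nat_lit 0) (nat_lit 391291019763) (nat_lit 152) (nat_lit 394073738478) (nat_lit 0) (nat_lit 345007134058) (nat_lit 1) (nat_lit 5) (nat_lit 3) (nat_lit 4) (nat_lit 1) (nat_lit 4) (nat_lit 247) (nat_lit 207) (nat_lit 146)))))) (XT.nd (nat_lit 390) (nat_lit 0) (nat_lit 0) (XT.nd (nat_lit 156) (nat_lit 0) (nat_lit 0) (XT.nd (nat_lit 78) (nat_lit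 0) (nat_lit 0) (XT.lf (nat_lit 0) (nat_lit 462910256448) (nat_lit 152) (nat_lit 418710062652) (nat_lit 0) (nat_lit 416625173062) (nat_lit 1) (nat_lit 5) (nat_lit 3) (nat_lit 4) (nat_lit 1) (nat_lit 4) (nat_lit 248) (nat_lit 207) (nat_lit 145)) (XT.lf (nat_lit 0) (nat_lit 545271417925) (nat_lit 152) (nat_lit 447043502337) (nat_lit 0) (nat_lit 498985293077) (nat_lit 1) (nat_lit 5) (nat_lit 3) (nat_lit 4) (nat_lit 1) (nat_lit 4) (nat_lit 249) (nat_lit 207) (nat_lit 144))) (XT.nd (nat_lit 78) (nat_lit 0) (nat_lit 0) (XT.lf (nat_lit 0) (nat_lit 639985918222) (nat_lit 152) (nat_lit 479628407440) (nat_lit 0) (nat_lit 593698887756) (nat_lit 1) (nat_lit 5) (nat_lit 3) (nat_lit 4) (nat_lit 1) (nat_lit 4) (nat_lit 250) (nat_lit 207) (nat_lit 143)) (XT.nd (nat_lit 78) (nat_lit 0) (nat_lit 0) (XT.lf (nat_lit 0) (nat_lit 748906867130) (nat_lit 152) (nat_lit 517102308714) (nat_lit 0) (nat_lit 702619049169)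 (nat_lit 1) (nat_lit 5) (nat_lit 3) (nat_lit 4) (nat_lit 1) (nat_lit 4) (nat_lit 251) (nat_lit 207) (nat_lit 142)) (XT.lf (nat_lit 0) (nat_lit 874165326690) (nat_lit 152) (nat_lit 560198391183) (nat_lit 0) (nat_lit 827876823951) (nat_lit 1) (nat_lit 5) (nat_lit 3) (nat_lit 4) (nat_lit 1) (nat_lit 4) (nat_lit 252) (nat_lit 207) (nat_lit 141))))) (XT.nd (nat_lit 156) (nat_lit 0) (nat_lit 0) (XT.nd (nat_lit 78) (nat_lit 0) (nat_lit 0) (XT.lf (nat_lit 0) (nat_lit 1018212005895) (nat_lit 152) (nat_lit 609759839069) (nat_lit 0) (nat_lit 971922907697) (nat_lit 1) (nat_lit 5) (nat_lit 3) (nat_lit 4) (nat_lit 1) (nat_lit 4) (nat_lit 253) (nat_lit 207) (nat_lit 140)) (XT.lf (nat_lit 0) (nat_lit 1183865209337) (nat_lit 152) (nat_lit 666756332875) (nat_lit 0) (nat_lit 1137575593349) (nat_lit 1) (nat_lit 5) (nat_lit 3) (nat_lit 4) (nat_lit 1) (nat_lit 4) (nat_lit 254) (nat_lit 207) (nat_lit 139)))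 (XT.nd (nat_lit 78) (nat_lit 0) (nat_lit 0) (XT.lf (nat_lit 0) (nat_lit 1374365977955) (nat_lit 152) (nat_lit 732303021392) (nat_lit 0) (nat_lit 1328075911714) (nat_lit 1) (nat_lit 5) (nat_lit 3) (nat_lit 4) (nat_lit 1) (nat_lit 4) (nat_lit 255) (nat_lit 207) (nat_lit 138)) (XT.nd (nat_lit 78) (nat_lit 0) (nat_lit 0) (XT.lf (nat_lit 0) (nat_lit 1593441500698) (nat_lit 152) (nat_lit 807682339831) (nat_lit 0) (nat_lit 1547151042933) (nat_lit 1) (nat_lit 5) (nat_lit 3) (nat_lit 4) (nat_lit 1) (nat_lit 4) (nat_lit 256) (nat_lit 207) (nat_lit 137)) (XT.lf (nat_lit 0) (nat_lit 1845378037794) (nat_lit 152) (nat_lit 894369100943) (nat_lit 0) (nat_lit 1799087239573) (nat_lit 1) (nat_lit 5) (nat_lit 3) (nat_lit 4) (nat_lit 1) (nat_lit 4) (nat_lit 257) (nat_lit 207) (nat_lit 136))))))))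
noncomputable def xc36 : XT := (XT.nd (nat_lit 28626) (nat_lit 0) (nat_lit 0) (XT.nd (nat_lit 27846) (nat_lit 0) (nat_lit 456) (XT.nd (nat_lit 27456) (nat_lit 0) (nat_lit 1672) (XT.nd (nat_lit 156) (nat_lit 0) (nat_lit 0) (XT.nd (nat_lit 78) (nat_lit 0) (nat_lit 0) (XT.lf (nat_lit 0) (nat_lit 2135104782361) (nat_lit 152) (nat_lit 994059350055) (nat_lit 0) (nat_lit 2088813688092) (nat_lit 1) (nat_lit 5) (nat_lit 3) (nat_lit 4) (nat_lit 1) (nat_lit 4) (nat_lit 258) (nat_lit 207) (nat_lit 135)) (XT.lf (nat_lit 0) (nat_lit 2468290301140) (nat_lit 152) (nat_lit 1108703548562) (nat_lit 0) (nat_lit 2421998949437) (nat_lit 1) (nat_lit 5) (nat_lit 3) (nat_lit 4) (nat_lit 1) (nat_lit 4) (nat_lit 259) (nat_lit 207) (nat_lit 134))) (XT.nd (nat_lit 27222) (nat_lit 0) (nat_lit 1976) (XT.lf (nat_lit 0) (nat_lit 2851453441237) (nat_lit 152) (nat_lit 1240544735131) (nat_lit 0) (nat_lit 2805161865680)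 (nat_lit 1) (nat_lit 5) (nat_lit 3) (nat_lit 4) (nat_lit 1) (nat_lit 4) (nat_lit 260) (nat_lit 207) (nat_lit 133)) (XT.lf (nat_lit 0) (nat_lit 1963581612) (nat_lit 0) (nat_lit 1963581612) (nat_lit 380) (nat_lit 2535514916) (nat_lit 27) (nat_lit 5) (nat_lit 27) (nat_lit 3) (nat_lit 32) (nat_lit 3) (nat_lit 208) (nat_lit 208) (nat_lit 184)))) (XT.nd (nat_lit 156) (nat_lit 304) (nat_lit 0) (XT.nd (nat_lit 78) (nat_lit 0) (nat_lit 0) (XT.lf (nat_lit 0) (nat_lit 9157147488) (nat_lit 380) (nat_lit 124406047) (nat_lit 456) (nat_lit 4549174104) (nat_lit 27) (nat_lit 5) (nat_lit 32) (nat_lit 3) (nat_lit 33) (nat_lit 5) (nat_lit 209) (nat_lit 208) (nat_lit 183)) (XT.lf (nat_lit 76) (nat_lit 10429213402) (nat_lit 0) (nat_lit 480319319) (nat_lit 456) (nat_lit 3943274722) (nat_lit 28) (nat_lit 5) (nat_lit 27) (nat_lit 5) (nat_lit 33) (nat_lit 5) (nat_lit 210) (nat_lit 208) (nat_lit 182))) (XT.nd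 (nat_lit 78) (nat_lit 380) (nat_lit 0) (XT.lf (nat_lit 76) (nat_lit 6574187182) (nat_lit 0) (nat_lit 6652123383) (nat_lit 456) (nat_lit 2778838934) (nat_lit 29) (nat_lit 5) (nat_lit 28) (nat_lit 5) (nat_lit 34) (nat_lit 5) (nat_lit 211) (nat_lit 208) (nat_lit 181)) (XT.nd (nat_lit 78) (nat_lit 76) (nat_lit 0) (XT.lf (nat_lit 0) (nat_lit 2108841864) (nat_lit 380) (nat_lit 13975847475) (nat_lit 456) (nat_lit 1231059885) (nat_lit 24) (nat_lit 5) (nat_lit 29) (nat_lit 5) (nat_lit 30) (nat_lit 5) (nat_lit 212) (nat_lit 208) (nat_lit 180)) (XT.lf (nat_lit 0) (nat_lit 912330155) (nat_lit 456) (nat_lit 3123661864) (nat_lit 76) (nat_lit 14755369989) (nat_lit 23) (nat_lit 5) (nat_lit 29) (nat_lit 5) (nat_lit 24) (nat_lit 5) (nat_lit 213) (nat_lit 208) (nat_lit 179)))))) (XT.nd (nat_lit 390) (nat_lit 456) (nat_lit 0) (XT.nd (nat_lit 156) (nat_lit 304) (nat_lit 0) (XT.nd (nat_lit 78) (nat_lit 228)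 (nat_lit 0) (XT.lf (nat_lit 0) (nat_lit 3697577623) (nat_lit 304) (nat_lit 9415478437) (nat_lit 76) (nat_lit 7341896589) (nat_lit 20) (nat_lit 5) (nat_lit 24) (nat_lit 5) (nat_lit 21) (nat_lit 5) (nat_lit 214) (nat_lit 208) (nat_lit 178)) (XT.lf (nat_lit 0) (nat_lit 5243476697) (nat_lit 228) (nat_lit 1930369915) (nat_lit 304) (nat_lit 15172944602) (nat_lit 17) (nat_lit 5) (nat_lit 20) (nat_lit 5) (nat_lit 21) (nat_lit 5) (nat_lit 215) (nat_lit 208) (nat_lit 177))) (XT.nd (nat_lit 78) (nat_lit 304) (nat_lit 0) (XT.lf (nat_lit 0) (nat_lit 11663982846) (nat_lit 304) (nat_lit 2158710731) (nat_lit 76) (nat_lit 10660811820) (nat_lit 17) (nat_lit 5) (nat_lit 21) (nat_lit 5) (nat_lit 18) (nat_lit 5) (nat_lit 216) (nat_lit 208) (nat_lit 176)) (XT.nd (nat_lit 78) (nat_lit 152) (nat_lit 0) (XT.lf (nat_lit 0) (nat_lit 15708059727) (nat_lit 152) (nat_lit 1505813761) (nat_lit 228) (nat_lit 9696384057)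 (nat_lit 15) (nat_lit 5) (nat_lit 17) (nat_lit 5) (nat_lit 18) (nat_lit 5) (nat_lit 217) (nat_lit 208) (nat_lit 175)) (XT.lf (nat_lit 0) (nat_lit 6666029698) (nat_lit 152) (nat_lit 17419064721) (nat_lit 228) (nat_lit 5577193882) (nat_lit 13) (nat_lit 5) (nat_lit 15) (nat_lit 5) (nat_lit 16) (nat_lit 5) (nat_lit 218) (nat_lit 208) (nat_lit 174))))) (XT.nd (nat_lit 156) (nat_lit 228) (nat_lit 0) (XT.nd (nat_lit 78) (nat_lit 228) (nat_lit 0) (XT.lf (nat_lit 0) (nat_lit 27802397580) (nat_lit 152) (nat_lit 4515088740) (nat_lit 228) (nat_lit 483523128) (nat_lit 13) (nat_lit 5) (nat_lit 15) (nat_lit 5) (nat_lit 16) (nat_lit 5) (nat_lit 219) (nat_lit 208) (nat_lit 173)) (XT.lf (nat_lit 0) (nat_lit 5727473969) (nat_lit 228) (nat_lit 20288724196) (nat_lit 76) (nat_lit 10334492960) (nat_lit 10) (nat_lit 5) (nat_lit 13) (nat_lit 5) (nat_lit 11) (nat_lit 5) (nat_lit 220) (nat_lit 208) (nat_lit 172)))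 (XT.nd (nat_lit 78) (nat_lit 228) (nat_lit 0) (XT.lf (nat_lit 0) (nat_lit 13086970787) (nat_lit 228) (nat_lit 20139692) (nat_lit 76) (nat_lit 27305298846) (nat_lit 10) (nat_lit 5) (nat_lit 13) (nat_lit 5) (nat_lit 11) (nat_lit 5) (nat_lit 221) (nat_lit 208) (nat_lit 171)) (XT.nd (nat_lit 78) (nat_lit 76) (nat_lit 0) (XT.lf (nat_lit 0) (nat_lit 22170254986) (nat_lit 228) (nat_lit 20618086722) (nat_lit 76) (nat_lit 2245652263) (nat_lit 8) (nat_lit 5) (nat_lit 11) (nat_lit 5) (nat_lit 9) (nat_lit 4) (nat_lit 222) (nat_lit 208) (nat_lit 170)) (XT.lf (nat_lit 0) (nat_lit 1866001959) (nat_lit 76) (nat_lit 31134674386) (nat_lit 152) (nat_lit 17317540356) (nat_lit 7) (nat_lit 5) (nat_lit 8) (nat_lit 5) (nat_lit 9) (nat_lit 4) (nat_lit 223) (nat_lit 208) (nat_lit 169))))))) (XT.nd (nat_lit 780) (nat_lit 152) (nat_lit 0) (XT.nd (nat_lit 390) (nat_lit 76) (nat_lit 0) (XT.nd (nat_lit 156) (nat_lit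 228) (nat_lit 0) (XT.nd (nat_lit 78) (nat_lit 0) (nat_lit 0) (XT.lf (nat_lit 0) (nat_lit 28939574866) (nat_lit 76) (nat_lit 17095297379) (nat_lit 152) (nat_lit 10314013214) (nat_lit 7) (nat_lit 5) (nat_lit 8) (nat_lit 5) (nat_lit 9) (nat_lit 4) (nat_lit 224) (nat_lit 208) (nat_lit 168)) (XT.lf (nat_lit 0) (nat_lit 60046620427) (nat_lit 76) (nat_lit 959262252) (nat_lit 152) (nat_lit 2279867057) (nat_lit 7) (nat_lit 5) (nat_lit 8) (nat_lit 5) (nat_lit 9) (nat_lit 4) (nat_lit 225) (nat_lit 208) (nat_lit 167))) (XT.nd (nat_lit 78) (nat_lit 76) (nat_lit 0) (XT.lf (nat_lit 0) (nat_lit 7655010367) (nat_lit 152) (nat_lit 45997960094) (nat_lit 76) (nat_lit 17513388238) (nat_lit 5) (nat_lit 5) (nat_lit 7) (nat_lit 5) (nat_lit 6) (nat_lit 4) (nat_lit 226) (nat_lit 208) (nat_lit 166)) (XT.nd (nat_lit 78) (nat_lit 76) (nat_lit 0) (XT.lf (nat_lit 0) (nat_lit 19057205412) (nat_lit 152) (nat_lit 22304258045)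 (nat_lit 76) (nat_lit 38853982829) (nat_lit 5) (nat_lit 5) (nat_lit 7) (nat_lit 5) (nat_lit 6) (nat_lit 4) (nat_lit 227) (nat_lit 208) (nat_lit 165)) (XT.lf (nat_lit 0) (nat_lit 5181924397) (nat_lit 76) (nat_lit 27099350183) (nat_lit 152) (nat_lit 58331777998) (nat_lit 4) (nat_lit 5) (nat_lit 5) (nat_lit 5) (nat_lit 6) (nat_lit 4) (nat_lit 228) (nat_lit 208) (nat_lit 164))))) (XT.nd (nat_lit 156) (nat_lit 76) (nat_lit 0) (XT.nd (nat_lit 78) (nat_lit 0) (nat_lit 0) (XT.lf (nat_lit 0) (nat_lit 38122676812) (nat_lit 76) (nat_lit 10003809602) (nat_lit 152) (nat_lit 54392879650) (nat_lit 4) (nat_lit 5) (nat_lit 5) (nat_lit 5) (nat_lit 6) (nat_lit 4) (nat_lit 229) (nat_lit 208) (nat_lit 163)) (XT.lf (nat_lit 0) (nat_lit 66570269048) (nat_lit 152) (nat_lit 40456597938) (nat_lit 0) (nat_lit 9167076319) (nat_lit 4) (nat_lit 5) (nat_lit 6) (nat_lit 4) (nat_lit 4) (nat_lit 4) (nat_lit 230) (nat_lit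 208) (nat_lit 162))) (XT.nd (nat_lit 78) (nat_lit 76) (nat_lit 0) (XT.lf (nat_lit 0) (nat_lit 88048221891) (nat_lit 152) (nat_lit 13217203940) (nat_lit 0) (nat_lit 30632925123) (nat_lit 4) (nat_lit 5) (nat_lit 6) (nat_lit 4) (nat_lit 4) (nat_lit 4) (nat_lit 231) (nat_lit 208) (nat_lit 161)) (XT.nd (nat_lit 78) (nat_lit 0) (nat_lit 0) (XT.lf (nat_lit 0) (nat_lit 19047881439) (nat_lit 76) (nat_lit 94150194465) (nat_lit 76) (nat_lit 36724372446) (nat_lit 3) (nat_lit 4) (nat_lit 4) (nat_lit 5) (nat_lit 4) (nat_lit 4) (nat_lit 232) (nat_lit 208) (nat_lit 160)) (XT.lf (nat_lit 0) (nat_lit 56941159755) (nat_lit 76) (nat_lit 85556901072) (nat_lit 76) (nat_lit 28121926660) (nat_lit 3) (nat_lit 4) (nat_lit 4) (nat_lit 5) (nat_lit 4) (nat_lit 4) (nat_lit 233) (nat_lit 208) (nat_lit 159)))))) (XT.nd (nat_lit 390) (nat_lit 0) (nat_lit 0) (XT.nd (nat_lit 156) (nat_lit 152) (nat_lit 0) (XT.nd (nat_lit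 78) (nat_lit 0) (nat_lit 0) (XT.lf (nat_lit 0) (nat_lit 100508026698) (nat_lit 76) (nat_lit 75678797776) (nat_lit 76) (nat_lit 18235864762) (nat_lit 3) (nat_lit 4) (nat_lit 4) (nat_lit 5) (nat_lit 4) (nat_lit 4) (nat_lit 234) (nat_lit 208) (nat_lit 158)) (XT.lf (nat_lit 0) (nat_lit 150600877490) (nat_lit 76) (nat_lit 64322617341) (nat_lit 76) (nat_lit 6872763803) (nat_lit 3) (nat_lit 4) (nat_lit 4) (nat_lit 5) (nat_lit 4) (nat_lit 4) (nat_lit 235) (nat_lit 208) (nat_lit 157))) (XT.nd (nat_lit 78) (nat_lit 76) (nat_lit 0) (XT.lf (nat_lit 0) (nat_lit 5880064007) (nat_lit 152) (nat_lit 45225338248) (nat_lit 76) (nat_lit 202158954269) (nat_lit 2) (nat_lit 5) (nat_lit 4) (nat_lit 5) (nat_lit 3) (nat_lit 4) (nat_lit 236) (nat_lit 208) (nat_lit 156)) (XT.nd (nat_lit 78) (nat_lit 76) (nat_lit 0) (XT.lf (nat_lit 0) (nat_lit 20146225299) (nat_lit 152) (nat_lit 15556955672) (nat_lit 76) (nat_lit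 253734639605) (nat_lit 2) (nat_lit 5) (nat_lit 4) (nat_lit 5) (nat_lit 3) (nat_lit 4) (nat_lit 237) (nat_lit 208) (nat_lit 155)) (XT.lf (nat_lit 0) (nat_lit 19532626140) (nat_lit 76) (nat_lit 17485778086) (nat_lit 152) (nat_lit 293981630651) (nat_lit 1) (nat_lit 5) (nat_lit 2) (nat_lit 5) (nat_lit 3) (nat_lit 4) (nat_lit 238) (nat_lit 208) (nat_lit 154))))) (XT.nd (nat_lit 156) (nat_lit 0) (nat_lit 0) (XT.nd (nat_lit 78) (nat_lit 0) (nat_lit 0) (XT.lf (nat_lit 0) (nat_lit 56966033559) (nat_lit 152) (nat_lit 318033563300) (nat_lit 0) (nat_lit 3753430334) (nat_lit 1) (nat_lit 5) (nat_lit 3) (nat_lit 4) (nat_lit 1) (nat_lit 4) (nat_lit 239) (nat_lit 208) (nat_lit 153)) (XT.lf (nat_lit 0) (nat_lit 80386481847) (nat_lit 152) (nat_lit 326073353478) (nat_lit 0) (nat_lit 27170692766) (nat_lit 1) (nat_lit 5) (nat_lit 3) (nat_lit 4) (nat_lit 1) (nat_lit 4) (nat_lit 240) (nat_lit 208) (nat_lit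 152))) (XT.nd (nat_lit 78) (nat_lit 0) (nat_lit 0) (XT.lf (nat_lit 0) (nat_lit 107317441867) (nat_lit 152) (nat_lit 335323546131) (nat_lit 0) (nat_lit 54098882478) (nat_lit 1) (nat_lit 5) (nat_lit 3) (nat_lit 4) (nat_lit 1) (nat_lit 4) (nat_lit 241) (nat_lit 208) (nat_lit 151)) (XT.nd (nat_lit 78) (nat_lit 0) (nat_lit 0) (XT.lf (nat_lit 0) (nat_lit 138285823708) (nat_lit 152) (nat_lit 345965123288) (nat_lit 0) (nat_lit 85064855355) (nat_lit 1) (nat_lit 5) (nat_lit 3) (nat_lit 4) (nat_lit 1) (nat_lit 4) (nat_lit 242) (nat_lit 208) (nat_lit 150)) (XT.lf (nat_lit 0) (nat_lit 173897530494) (nat_lit 152) (nat_lit 358206289721) (nat_lit 0) (nat_lit 120674467389) (nat_lit 1) (nat_lit 5) (nat_lit 3) (nat_lit 4) (nat_lit 1) (nat_lit 4) (nat_lit 243) (nat_lit 208) (nat_lit 149))))))))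
noncomputable def xc37 : XT := (XT.nd (nat_lit 28782) (nat_lit 0) (nat_lit 228) (XT.nd (nat_lit 702) (nat_lit 0) (nat_lit 0) (XT.nd (nat_lit 312) (nat_lit 0) (nat_lit 0) (XT.nd (nat_lit 156) (nat_lit 0) (nat_lit 0) (XT.nd (nat_lit 78) (nat_lit 0) (nat_lit 0) (XT.lf (nat_lit 0) (nat_lit 214849313007) (nat_lit 152) (nat_lit 372286546512) (nat_lit 0) (nat_lit 161624428380) (nat_lit 1) (nat_lit 5) (nat_lit 3) (nat_lit 4) (nat_lit 1) (nat_lit 4) (nat_lit 244) (nat_lit 208) (nat_lit 148)) (XT.lf (nat_lit 0) (nat_lit 261942401777) (nat_lit 152) (nat_lit 388481376945) (nat_lit 0) (nat_lit 208715933216) (nat_lit 1) (nat_lit 5) (nat_lit 3) (nat_lit 4) (nat_lit 1) (nat_lit 4) (nat_lit 245) (nat_lit 208) (nat_lit 147))) (XT.nd (nat_lit 78) (nat_lit 0) (nat_lit 0) (XT.lf (nat_lit 0) (nat_lit 316098183322) (nat_lit 152) (nat_lit 407107636399) (nat_lit 0) (nat_lit 262870337428) (nat_lit 1) (nat_lit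 5) (nat_lit 3) (nat_lit 4) (nat_lit 1) (nat_lit 4) (nat_lit 246) (nat_lit 208) (nat_lit 146)) (XT.lf (nat_lit 0) (nat_lit 378376227282) (nat_lit 152) (nat_lit 428529751690) (nat_lit 0) (nat_lit 325147183707) (nat_lit 1) (nat_lit 5) (nat_lit 3) (nat_lit 4) (nat_lit 1) (nat_lit 4) (nat_lit 247) (nat_lit 208) (nat_lit 145)))) (XT.nd (nat_lit 156) (nat_lit 0) (nat_lit 0) (XT.nd (nat_lit 78) (nat_lit 0) (nat_lit 0) (XT.lf (nat_lit 0) (nat_lit 449995017124) (nat_lit 152) (nat_lit 453166851159) (nat_lit 0) (nat_lit 396764932088) (nat_lit 1) (nat_lit 5) (nat_lit 3) (nat_lit 4) (nat_lit 1) (nat_lit 4) (nat_lit 248) (nat_lit 208) (nat_lit 144)) (XT.lf (nat_lit 0) (nat_lit 532355790043) (nat_lit 152) (nat_lit 481500965014) (nat_lit 0) (nat_lit 479124799388) (nat_lit 1) (nat_lit 5) (nat_lit 3) (nat_lit 4) (nat_lit 1) (nat_lit 4) (nat_lit 249) (nat_lit 208) (nat_lit 143))) (XT.nd (nat_lit 78) (nat_lit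 0) (nat_lit 0) (XT.lf (nat_lit 0) (nat_lit 627069952464) (nat_lit 152) (nat_lit 514086456352) (nat_lit 0) (nat_lit 573838174314) (nat_lit 1) (nat_lit 5) (nat_lit 3) (nat_lit 4) (nat_lit 1) (nat_lit 4) (nat_lit 250) (nat_lit 208) (nat_lit 142)) (XT.nd (nat_lit 78) (nat_lit 0) (nat_lit 0) (XT.lf (nat_lit 0) (nat_lit 735990607565) (nat_lit 152) (nat_lit 551560867396) (nat_lit 0) (nat_lit 682758144638) (nat_lit 1) (nat_lit 5) (nat_lit 3) (nat_lit 4) (nat_lit 1) (nat_lit 4) (nat_lit 251) (nat_lit 208) (nat_lit 141)) (XT.lf (nat_lit 0) (nat_lit 861248811642) (nat_lit 152) (nat_lit 594657393142) (nat_lit 0) (nat_lit 808015753255) (nat_lit 1) (nat_lit 5) (nat_lit 3) (nat_lit 4) (nat_lit 1) (nat_lit 4) (nat_lit 252) (nat_lit 208) (nat_lit 140)))))) (XT.nd (nat_lit 390) (nat_lit 0) (nat_lit 0) (XT.nd (nat_lit 156) (nat_lit 0) (nat_lit 0) (XT.nd (nat_lit 78) (nat_lit 0) (nat_lit 0) (XT.lf (nat_lit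 0) (nat_lit 1005295268687) (nat_lit 152) (nat_lit 644219226487) (nat_lit 0) (nat_lit 952061692510) (nat_lit 1) (nat_lit 5) (nat_lit 3) (nat_lit 4) (nat_lit 1) (nat_lit 4) (nat_lit 253) (nat_lit 208) (nat_lit 139)) (XT.lf (nat_lit 0) (nat_lit 1170948278948) (nat_lit 152) (nat_lit 701216055475) (nat_lit 0) (nat_lit 1117714252518) (nat_lit 1) (nat_lit 5) (nat_lit 3) (nat_lit 4) (nat_lit 1) (nat_lit 4) (nat_lit 254) (nat_lit 208) (nat_lit 138))) (XT.nd (nat_lit 78) (nat_lit 0) (nat_lit 0) (XT.lf (nat_lit 0) (nat_lit 1361448879580) (nat_lit 152) (nat_lit 766763035454) (nat_lit 0) (nat_lit 1308214461626) (nat_lit 1) (nat_lit 5) (nat_lit 3) (nat_lit 4) (nat_lit 1) (nat_lit 4) (nat_lit 255) (nat_lit 208) (nat_lit 137)) (XT.nd (nat_lit 78) (nat_lit 0) (nat_lit 0) (XT.lf (nat_lit 0) (nat_lit 1580524256250) (nat_lit 152) (nat_lit 842142607338) (nat_lit 0) (nat_lit 1527289497840) (nat_lit 1) (nat_lit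 5) (nat_lit 3) (nat_lit 4) (nat_lit 1) (nat_lit 4) (nat_lit 256) (nat_lit 208) (nat_lit 136)) (XT.lf (nat_lit 0) (nat_lit 1832460666326) (nat_lit 152) (nat_lit 928829588838) (nat_lit 0) (nat_lit 1779225611868) (nat_lit 1) (nat_lit 5) (nat_lit 3) (nat_lit 4) (nat_lit 1) (nat_lit 4) (nat_lit 257) (nat_lit 208) (nat_lit 135))))) (XT.nd (nat_lit 27456) (nat_lit 0) (nat_lit 1976) (XT.nd (nat_lit 78) (nat_lit 0) (nat_lit 0) (XT.lf (nat_lit 0) (nat_lit 2122187300440) (nat_lit 152) (nat_lit 1028520029591) (nat_lit 0) (nat_lit 2068951988549) (nat_lit 1) (nat_lit 5) (nat_lit 3) (nat_lit 4) (nat_lit 1) (nat_lit 4) (nat_lit 258) (nat_lit 208) (nat_lit 134)) (XT.lf (nat_lit 0) (nat_lit 2455372723173) (nat_lit 152) (nat_lit 1143164394743) (nat_lit 0) (nat_lit 2402137187427) (nat_lit 1) (nat_lit 5) (nat_lit 3) (nat_lit 4) (nat_lit 1) (nat_lit 4) (nat_lit 259) (nat_lit 208) (nat_lit 133))) (XT.nd (nat_lit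 78) (nat_lit 0) (nat_lit 0) (XT.lf (nat_lit 0) (nat_lit 2545014738) (nat_lit 0) (nat_lit 2545014738) (nat_lit 380) (nat_lit 2289503387) (nat_lit 27) (nat_lit 5) (nat_lit 27) (nat_lit 3) (nat_lit 32) (nat_lit 3) (nat_lit 209) (nat_lit 209) (nat_lit 182)) (XT.nd (nat_lit 78) (nat_lit 0) (nat_lit 0) (XT.lf (nat_lit 76) (nat_lit 483452488) (nat_lit 0) (nat_lit 11044793148) (nat_lit 456) (nat_lit 4285734880) (nat_lit 28) (nat_lit 5) (nat_lit 27) (nat_lit 5) (nat_lit 33) (nat_lit 5) (nat_lit 210) (nat_lit 209) (nat_lit 181)) (XT.lf (nat_lit 76) (nat_lit 12544945930) (nat_lit 0) (nat_lit 871580154) (nat_lit 456) (nat_lit 3584510280) (nat_lit 28) (nat_lit 5) (nat_lit 27) (nat_lit 5) (nat_lit 33) (nat_lit 5) (nat_lit 211) (nat_lit 209) (nat_lit 180))))))) (XT.nd (nat_lit 780) (nat_lit 456) (nat_lit 0) (XT.nd (nat_lit 390) (nat_lit 532) (nat_lit 0) (XT.nd (nat_lit 156) (nat_lit 532) (nat_lit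 0) (XT.nd (nat_lit 78) (nat_lit 304) (nat_lit 0) (XT.lf (nat_lit 76) (nat_lit 8144970602) (nat_lit 0) (nat_lit 7829683501) (nat_lit 456) (nat_lit 2361379438) (nat_lit 29) (nat_lit 5) (nat_lit 28) (nat_lit 5) (nat_lit 34) (nat_lit 5) (nat_lit 212) (nat_lit 209) (nat_lit 179)) (XT.lf (nat_lit 0) (nat_lit 3028264889) (nat_lit 380) (nat_lit 16144566397) (nat_lit 456) (nat_lit 678648171) (nat_lit 24) (nat_lit 5) (nat_lit 29) (nat_lit 5) (nat_lit 30) (nat_lit 5) (nat_lit 213) (nat_lit 209) (nat_lit 178))) (XT.nd (nat_lit 78) (nat_lit 456) (nat_lit 0) (XT.lf (nat_lit 0) (nat_lit 1658048752) (nat_lit 456) (nat_lit 3029600424) (nat_lit 76) (nat_lit 16867590807) (nat_lit 23) (nat_lit 5) (nat_lit 29) (nat_lit 5) (nat_lit 24) (nat_lit 5) (nat_lit 214) (nat_lit 209) (nat_lit 177)) (XT.nd (nat_lit 78) (nat_lit 228) (nat_lit 0) (XT.lf (nat_lit 0) (nat_lit 4793405418) (nat_lit 304) (nat_lit 10263500070)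 (nat_lit 76) (nat_lit 8417675808) (nat_lit 20) (nat_lit 5) (nat_lit 24) (nat_lit 5) (nat_lit 21) (nat_lit 5) (nat_lit 215) (nat_lit 209) (nat_lit 176)) (XT.lf (nat_lit 0) (nat_lit 6546533137) (nat_lit 228) (nat_lit 2186414145) (nat_lit 304) (nat_lit 16922595539) (nat_lit 17) (nat_lit 5) (nat_lit 20) (nat_lit 5) (nat_lit 21) (nat_lit 5) (nat_lit 216) (nat_lit 209) (nat_lit 175))))) (XT.nd (nat_lit 156) (nat_lit 380) (nat_lit 0) (XT.nd (nat_lit 78) (nat_lit 152) (nat_lit 0) (XT.lf (nat_lit 0) (nat_lit 13834301687) (nat_lit 304) (nat_lit 1996433808) (nat_lit 76) (nat_lit 12287616105) (nat_lit 17) (nat_lit 5) (nat_lit 21) (nat_lit 5) (nat_lit 18) (nat_lit 5) (nat_lit 217) (nat_lit 209) (nat_lit 174)) (XT.lf (nat_lit 0) (nat_lit 18509207669) (nat_lit 152) (nat_lit 1663292342) (nat_lit 228) (nat_lit 10740675224) (nat_lit 15) (nat_lit 5) (nat_lit 17) (nat_lit 5) (nat_lit 18) (nat_lit 5) (nat_lit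 218) (nat_lit 209) (nat_lit 173))) (XT.nd (nat_lit 78) (nat_lit 228) (nat_lit 0) (XT.lf (nat_lit 0) (nat_lit 8102480727) (nat_lit 152) (nat_lit 19934737999) (nat_lit 228) (nat_lit 6044222879) (nat_lit 13) (nat_lit 5) (nat_lit 15) (nat_lit 5) (nat_lit 16) (nat_lit 5) (nat_lit 219) (nat_lit 209) (nat_lit 172)) (XT.nd (nat_lit 78) (nat_lit 228) (nat_lit 0) (XT.lf (nat_lit 0) (nat_lit 32352362934) (nat_lit 152) (nat_lit 5107842111) (nat_lit 228) (nat_lit 234703697) (nat_lit 13) (nat_lit 5) (nat_lit 15) (nat_lit 5) (nat_lit 16) (nat_lit 5) (nat_lit 220) (nat_lit 209) (nat_lit 171)) (XT.lf (nat_lit 0) (nat_lit 6862983764) (nat_lit 228) (nat_lit 22945705922) (nat_lit 76) (nat_lit 11970364815) (nat_lit 10) (nat_lit 5) (nat_lit 13) (nat_lit 5) (nat_lit 11) (nat_lit 5) (nat_lit 221) (nat_lit 209) (nat_lit 170)))))) (XT.nd (nat_lit 390) (nat_lit 228) (nat_lit 0) (XT.nd (nat_lit 156) (nat_lit 76)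 (nat_lit 0) (XT.nd (nat_lit 78) (nat_lit 0) (nat_lit 0) (XT.lf (nat_lit 0) (nat_lit 329246009) (nat_lit 152) (nat_lit 14969026770) (nat_lit 228) (nat_lit 31154285960) (nat_lit 8) (nat_lit 5) (nat_lit 10) (nat_lit 5) (nat_lit 11) (nat_lit 5) (nat_lit 222) (nat_lit 209) (nat_lit 169)) (XT.lf (nat_lit 0) (nat_lit 25714369552) (nat_lit 228) (nat_lit 23386569208) (nat_lit 76) (nat_lit 2669058222) (nat_lit 8) (nat_lit 5) (nat_lit 11) (nat_lit 5) (nat_lit 9) (nat_lit 4) (nat_lit 223) (nat_lit 209) (nat_lit 168))) (XT.nd (nat_lit 78) (nat_lit 0) (nat_lit 0) (XT.lf (nat_lit 0) (nat_lit 2442688277) (nat_lit 76) (nat_lit 35705293596) (nat_lit 152) (nat_lit 19700791027) (nat_lit 7) (nat_lit 5) (nat_lit 8) (nat_lit 5) (nat_lit 9) (nat_lit 4) (nat_lit 224) (nat_lit 209) (nat_lit 167)) (XT.nd (nat_lit 78) (nat_lit 0) (nat_lit 0) (XT.lf (nat_lit 0) (nat_lit 33538585898) (nat_lit 76) (nat_lit 19572998987)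 (nat_lit 152) (nat_lit 11674697472) (nat_lit 7) (nat_lit 5) (nat_lit 8) (nat_lit 5) (nat_lit 9) (nat_lit 4) (nat_lit 225) (nat_lit 209) (nat_lit 166)) (XT.lf (nat_lit 0) (nat_lit 69278026363) (nat_lit 76) (nat_lit 1027853330) (nat_lit 152) (nat_lit 2459744748) (nat_lit 7) (nat_lit 5) (nat_lit 8) (nat_lit 5) (nat_lit 9) (nat_lit 4) (nat_lit 226) (nat_lit 209) (nat_lit 165))))) (XT.nd (nat_lit 156) (nat_lit 76) (nat_lit 0) (XT.nd (nat_lit 78) (nat_lit 0) (nat_lit 0) (XT.lf (nat_lit 0) (nat_lit 8944105858) (nat_lit 152) (nat_lit 52673736984) (nat_lit 76) (nat_lit 20211349823) (nat_lit 5) (nat_lit 5) (nat_lit 7) (nat_lit 5) (nat_lit 6) (nat_lit 4) (nat_lit 227) (nat_lit 209) (nat_lit 164)) (XT.lf (nat_lit 0) (nat_lit 22038259211) (nat_lit 152) (nat_lit 25455186209) (nat_lit 76) (nat_lit 44743778818) (nat_lit 5) (nat_lit 5) (nat_lit 7) (nat_lit 5) (nat_lit 6) (nat_lit 4) (nat_lit 228) (nat_lit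 209) (nat_lit 163))) (XT.nd (nat_lit 78) (nat_lit 0) (nat_lit 0) (XT.lf (nat_lit 0) (nat_lit 6137442322) (nat_lit 76) (nat_lit 31096808114) (nat_lit 152) (nat_lit 66961252776) (nat_lit 4) (nat_lit 5) (nat_lit 5) (nat_lit 5) (nat_lit 6) (nat_lit 4) (nat_lit 229) (nat_lit 209) (nat_lit 162)) (XT.nd (nat_lit 78) (nat_lit 0) (nat_lit 0) (XT.lf (nat_lit 0) (nat_lit 43996060304) (nat_lit 76) (nat_lit 11445733567) (nat_lit 152) (nat_lit 62447209926) (nat_lit 4) (nat_lit 5) (nat_lit 5) (nat_lit 5) (nat_lit 6) (nat_lit 4) (nat_lit 230) (nat_lit 209) (nat_lit 161)) (XT.lf (nat_lit 0) (nat_lit 76640805029) (nat_lit 152) (nat_lit 46384358347) (nat_lit 0) (nat_lit 10590584455) (nat_lit 4) (nat_lit 5) (nat_lit 6) (nat_lit 4) (nat_lit 4) (nat_lit 4) (nat_lit 231) (nat_lit 209) (nat_lit 160))))))))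
noncomputable def xc38 : XT := (XT.nd (nat_lit 1482) (nat_lit 0) (nat_lit 0) (XT.nd (nat_lit 702) (nat_lit 0) (nat_lit 0) (XT.nd (nat_lit 312) (nat_lit 152) (nat_lit 0) (XT.nd (nat_lit 156) (nat_lit 0) (nat_lit 0) (XT.nd (nat_lit 78) (nat_lit 76) (nat_lit 0) (XT.lf (nat_lit 0) (nat_lit 101329364413) (nat_lit 152) (nat_lit 15077411244) (nat_lit 0) (nat_lit 35269991446) (nat_lit 4) (nat_lit 5) (nat_lit 6) (nat_lit 4) (nat_lit 4) (nat_lit 4) (nat_lit 232) (nat_lit 209) (nat_lit 159)) (XT.lf (nat_lit 0) (nat_lit 22017078654) (nat_lit 76) (nat_lit 108227671503) (nat_lit 76) (nat_lit 42160339934) (nat_lit 3) (nat_lit 4) (nat_lit 4) (nat_lit 5) (nat_lit 4) (nat_lit 4) (nat_lit 233) (nat_lit 209) (nat_lit 158))) (XT.nd (nat_lit 78) (nat_lit 0) (nat_lit 0) (XT.lf (nat_lit 0) (nat_lit 65579738065) (nat_lit 76) (nat_lit 98351260465) (nat_lit 76) (nat_lit 32277008373) (nat_lit 3) (nat_lit 4) (nat_lit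 4) (nat_lit 5) (nat_lit 4) (nat_lit 4) (nat_lit 234) (nat_lit 209) (nat_lit 157)) (XT.lf (nat_lit 0) (nat_lit 115668930134) (nat_lit 76) (nat_lit 86996551558) (nat_lit 76) (nat_lit 20916281619) (nat_lit 3) (nat_lit 4) (nat_lit 4) (nat_lit 5) (nat_lit 4) (nat_lit 4) (nat_lit 235) (nat_lit 209) (nat_lit 156)))) (XT.nd (nat_lit 156) (nat_lit 76) (nat_lit 0) (XT.nd (nat_lit 78) (nat_lit 76) (nat_lit 0) (XT.lf (nat_lit 0) (nat_lit 173264660793) (nat_lit 76) (nat_lit 73941387434) (nat_lit 76) (nat_lit 7855884584) (nat_lit 3) (nat_lit 4) (nat_lit 4) (nat_lit 5) (nat_lit 4) (nat_lit 4) (nat_lit 236) (nat_lit 209) (nat_lit 155)) (XT.lf (nat_lit 0) (nat_lit 6801554434) (nat_lit 152) (nat_lit 51942819981) (nat_lit 76) (nat_lit 232506282046) (nat_lit 2) (nat_lit 5) (nat_lit 4) (nat_lit 5) (nat_lit 3) (nat_lit 4) (nat_lit 237) (nat_lit 209) (nat_lit 154))) (XT.nd (nat_lit 78) (nat_lit 76) (nat_lit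 0) (XT.lf (nat_lit 0) (nat_lit 23202490247) (nat_lit 152) (nat_lit 17832830323) (nat_lit 76) (nat_lit 291815256970) (nat_lit 2) (nat_lit 5) (nat_lit 4) (nat_lit 5) (nat_lit 3) (nat_lit 4) (nat_lit 238) (nat_lit 209) (nat_lit 153)) (XT.nd (nat_lit 78) (nat_lit 0) (nat_lit 0) (XT.lf (nat_lit 0) (nat_lit 22515307393) (nat_lit 76) (nat_lit 20086980180) (nat_lit 152) (nat_lit 338045115214) (nat_lit 1) (nat_lit 5) (nat_lit 2) (nat_lit 5) (nat_lit 3) (nat_lit 4) (nat_lit 239) (nat_lit 209) (nat_lit 152)) (XT.lf (nat_lit 0) (nat_lit 65538454896) (nat_lit 152) (nat_lit 365690855518) (nat_lit 0) (nat_lit 4334341289) (nat_lit 1) (nat_lit 5) (nat_lit 3) (nat_lit 4) (nat_lit 1) (nat_lit 4) (nat_lit 240) (nat_lit 209) (nat_lit 151)))))) (XT.nd (nat_lit 390) (nat_lit 0) (nat_lit 0) (XT.nd (nat_lit 156) (nat_lit 0) (nat_lit 0) (XT.nd (nat_lit 78) (nat_lit 0) (nat_lit 0) (XT.lf (nat_lit 0) (nat_lit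 92468381343) (nat_lit 152) (nat_lit 374942841476) (nat_lit 0) (nat_lit 31261858773) (nat_lit 1) (nat_lit 5) (nat_lit 3) (nat_lit 4) (nat_lit 1) (nat_lit 4) (nat_lit 241) (nat_lit 209) (nat_lit 150)) (XT.lf (nat_lit 0) (nat_lit 123435864425) (nat_lit 152) (nat_lit 385585978030) (nat_lit 0) (nat_lit 62227247103) (nat_lit 1) (nat_lit 5) (nat_lit 3) (nat_lit 4) (nat_lit 1) (nat_lit 4) (nat_lit 242) (nat_lit 209) (nat_lit 149))) (XT.nd (nat_lit 78) (nat_lit 0) (nat_lit 0) (XT.lf (nat_lit 0) (nat_lit 159046789680) (nat_lit 152) (nat_lit 397828500459) (nat_lit 0) (nat_lit 97836350836) (nat_lit 1) (nat_lit 5) (nat_lit 3) (nat_lit 4) (nat_lit 1) (nat_lit 4) (nat_lit 243) (nat_lit 209) (nat_lit 148)) (XT.nd (nat_lit 78) (nat_lit 0) (nat_lit 0) (XT.lf (nat_lit 0) (nat_lit 199997892603) (nat_lit 152) (nat_lit 411909936377) (nat_lit 0) (nat_lit 138785869825) (nat_lit 1) (nat_lit 5) (nat_lit 3) (nat_lit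 4) (nat_lit 1) (nat_lit 4) (nat_lit 244) (nat_lit 209) (nat_lit 147)) (XT.lf (nat_lit 0) (nat_lit 247090390424) (nat_lit 152) (nat_lit 428105792139) (nat_lit 0) (nat_lit 185876990313) (nat_lit 1) (nat_lit 5) (nat_lit 3) (nat_lit 4) (nat_lit 1) (nat_lit 4) (nat_lit 245) (nat_lit 209) (nat_lit 146))))) (XT.nd (nat_lit 156) (nat_lit 0) (nat_lit 0) (XT.nd (nat_lit 78) (nat_lit 0) (nat_lit 0) (XT.lf (nat_lit 0) (nat_lit 301245658100) (nat_lit 152) (nat_lit 446732943183) (nat_lit 0) (nat_lit 240031060309) (nat_lit 1) (nat_lit 5) (nat_lit 3) (nat_lit 4) (nat_lit 1) (nat_lit 4) (nat_lit 246) (nat_lit 209) (nat_lit 145)) (XT.lf (nat_lit 0) (nat_lit 363523255218) (nat_lit 152) (nat_lit 468155833769) (nat_lit 0) (nat_lit 302307615965) (nat_lit 1) (nat_lit 5) (nat_lit 3) (nat_lit 4) (nat_lit 1) (nat_lit 4) (nat_lit 247) (nat_lit 209) (nat_lit 144))) (XT.nd (nat_lit 78) (nat_lit 0) (nat_lit 0) (XT.lf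 (nat_lit 0) (nat_lit 435141656502) (nat_lit 152) (nat_lit 492793607408) (nat_lit 0) (nat_lit 373925111630) (nat_lit 1) (nat_lit 5) (nat_lit 3) (nat_lit 4) (nat_lit 1) (nat_lit 4) (nat_lit 248) (nat_lit 209) (nat_lit 143)) (XT.nd (nat_lit 78) (nat_lit 0) (nat_lit 0) (XT.lf (nat_lit 0) (nat_lit 517502091544) (nat_lit 152) (nat_lit 521128307498) (nat_lit 0) (nat_lit 456284759177) (nat_lit 1) (nat_lit 5) (nat_lit 3) (nat_lit 4) (nat_lit 1) (nat_lit 4) (nat_lit 249) (nat_lit 209) (nat_lit 142)) (XT.lf (nat_lit 0) (nat_lit 612215960159) (nat_lit 152) (nat_lit 553714308606) (nat_lit 0) (nat_lit 550997943014) (nat_lit 1) (nat_lit 5) (nat_lit 3) (nat_lit 4) (nat_lit 1) (nat_lit 4) (nat_lit 250) (nat_lit 209) (nat_lit 141))))))) (XT.nd (nat_lit 28158) (nat_lit 0) (nat_lit 912) (XT.nd (nat_lit 390) (nat_lit 0) (nat_lit 0) (XT.nd (nat_lit 156) (nat_lit 0) (nat_lit 0) (XT.nd (nat_lit 78) (nat_lit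 0) (nat_lit 0) (XT.lf (nat_lit 0) (nat_lit 721136359776) (nat_lit 152) (nat_lit 591189162926) (nat_lit 0) (nat_lit 659917747173) (nat_lit 1) (nat_lit 5) (nat_lit 3) (nat_lit 4) (nat_lit 1) (nat_lit 4) (nat_lit 251) (nat_lit 209) (nat_lit 140)) (XT.lf (nat_lit 0) (nat_lit 846394341694) (nat_lit 152) (nat_lit 634286074132) (nat_lit 0) (nat_lit 785175211299) (nat_lit 1) (nat_lit 5) (nat_lit 3) (nat_lit 4) (nat_lit 1) (nat_lit 4) (nat_lit 252) (nat_lit 209) (nat_lit 139))) (XT.nd (nat_lit 78) (nat_lit 0) (nat_lit 0) (XT.lf (nat_lit 0) (nat_lit 990440605557) (nat_lit 152) (nat_lit 683848242659) (nat_lit 0) (nat_lit 929221024910) (nat_lit 1) (nat_lit 5) (nat_lit 3) (nat_lit 4) (nat_lit 1) (nat_lit 4) (nat_lit 253) (nat_lit 209) (nat_lit 138)) (XT.nd (nat_lit 78) (nat_lit 0) (nat_lit 0) (XT.lf (nat_lit 0) (nat_lit 1156093447832) (nat_lit 152) (nat_lit 740845363108) (nat_lit 0) (nat_lit 1094873475662)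 (nat_lit 1) (nat_lit 5) (nat_lit 3) (nat_lit 4) (nat_lit 1) (nat_lit 4) (nat_lit 254) (nat_lit 209) (nat_lit 137)) (XT.lf (nat_lit 0) (nat_lit 1346593902392) (nat_lit 152) (nat_lit 806392596533) (nat_lit 0) (nat_lit 1285373589765) (nat_lit 1) (nat_lit 5) (nat_lit 3) (nat_lit 4) (nat_lit 1) (nat_lit 4) (nat_lit 255) (nat_lit 209) (nat_lit 136))))) (XT.nd (nat_lit 156) (nat_lit 0) (nat_lit 0) (XT.nd (nat_lit 78) (nat_lit 0) (nat_lit 0) (XT.lf (nat_lit 0) (nat_lit 1565669152041) (nat_lit 152) (nat_lit 881772388805) (nat_lit 0) (nat_lit 1504448543366) (nat_lit 1) (nat_lit 5) (nat_lit 3) (nat_lit 4) (nat_lit 1) (nat_lit 4) (nat_lit 256) (nat_lit 209) (nat_lit 135)) (XT.lf (nat_lit 0) (nat_lit 1817605451664) (nat_lit 152) (nat_lit 968459561946) (nat_lit 0) (nat_lit 1756384585556) (nat_lit 1) (nat_lit 5) (nat_lit 3) (nat_lit 4) (nat_lit 1) (nat_lit 4) (nat_lit 257) (nat_lit 209) (nat_lit 134)))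 (XT.nd (nat_lit 78) (nat_lit 0) (nat_lit 0) (XT.lf (nat_lit 0) (nat_lit 2107331989733) (nat_lit 152) (nat_lit 1068150169343) (nat_lit 0) (nat_lit 2046110899769) (nat_lit 1) (nat_lit 5) (nat_lit 3) (nat_lit 4) (nat_lit 1) (nat_lit 4) (nat_lit 258) (nat_lit 209) (nat_lit 133)) (XT.nd (nat_lit 27456) (nat_lit 0) (nat_lit 1976) (XT.lf (nat_lit 0) (nat_lit 2440517328948) (nat_lit 152) (nat_lit 1182794679403) (nat_lit 0) (nat_lit 2379296044328) (nat_lit 1) (nat_lit 5) (nat_lit 3) (nat_lit 4) (nat_lit 1) (nat_lit 4) (nat_lit 259) (nat_lit 209) (nat_lit 132)) (XT.lf (nat_lit 0) (nat_lit 3143701454) (nat_lit 0) (nat_lit 3143701454) (nat_lit 380) (nat_lit 2159326804) (nat_lit 27) (nat_lit 5) (nat_lit 27) (nat_lit 3) (nat_lit 32) (nat_lit 3) (nat_lit 210) (nat_lit 210) (nat_lit 180)))))) (XT.nd (nat_lit 390) (nat_lit 760) (nat_lit 0) (XT.nd (nat_lit 156) (nat_lit 304) (nat_lit 0) (XT.nd (nat_lit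 78) (nat_lit 0) (nat_lit 0) (XT.lf (nat_lit 76) (nat_lit 1035405594) (nat_lit 0) (nat_lit 12979088587) (nat_lit 456) (nat_lit 4102285851) (nat_lit 28) (nat_lit 5) (nat_lit 27) (nat_lit 5) (nat_lit 33) (nat_lit 5) (nat_lit 211) (nat_lit 210) (nat_lit 179)) (XT.lf (nat_lit 76) (nat_lit 14843588022) (nat_lit 0) (nat_lit 1243688018) (nat_lit 456) (nat_lit 3403657030) (nat_lit 28) (nat_lit 5) (nat_lit 27) (nat_lit 5) (nat_lit 33) (nat_lit 5) (nat_lit 212) (nat_lit 210) (nat_lit 178))) (XT.nd (nat_lit 78) (nat_lit 380) (nat_lit 0) (XT.lf (nat_lit 76) (nat_lit 9808799627) (nat_lit 0) (nat_lit 9140046508) (nat_lit 456) (nat_lit 2084746781) (nat_lit 29) (nat_lit 5) (nat_lit 28) (nat_lit 5) (nat_lit 34) (nat_lit 5) (nat_lit 213) (nat_lit 210) (nat_lit 177)) (XT.nd (nat_lit 78) (nat_lit 76) (nat_lit 0) (XT.lf (nat_lit 0) (nat_lit 3938532408) (nat_lit 380) (nat_lit 18620952152) (nat_lit 456) (nat_lit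 223114058) (nat_lit 24) (nat_lit 5) (nat_lit 29) (nat_lit 5) (nat_lit 30) (nat_lit 5) (nat_lit 214) (nat_lit 210) (nat_lit 176)) (XT.lf (nat_lit 0) (nat_lit 2367148560) (nat_lit 456) (nat_lit 3058625956) (nat_lit 76) (nat_lit 19321294888) (nat_lit 23) (nat_lit 5) (nat_lit 29) (nat_lit 5) (nat_lit 24) (nat_lit 5) (nat_lit 215) (nat_lit 210) (nat_lit 175))))) (XT.nd (nat_lit 156) (nat_lit 304) (nat_lit 0) (XT.nd (nat_lit 78) (nat_lit 228) (nat_lit 0) (XT.lf (nat_lit 0) (nat_lit 5921634493) (nat_lit 304) (nat_lit 11376333110) (nat_lit 76) (nat_lit 9661041532) (nat_lit 20) (nat_lit 5) (nat_lit 24) (nat_lit 5) (nat_lit 21) (nat_lit 5) (nat_lit 216) (nat_lit 210) (nat_lit 174)) (XT.lf (nat_lit 0) (nat_lit 7919087729) (nat_lit 228) (nat_lit 2489036943) (nat_lit 304) (nat_lit 19063033450) (nat_lit 17) (nat_lit 5) (nat_lit 20) (nat_lit 5) (nat_lit 21) (nat_lit 5) (nat_lit 217) (nat_lit 210)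 (nat_lit 173))) (XT.nd (nat_lit 78) (nat_lit 304) (nat_lit 0) (XT.lf (nat_lit 0) (nat_lit 16227572773) (nat_lit 304) (nat_lit 1928349893) (nat_lit 76) (nat_lit 14151690476) (nat_lit 17) (nat_lit 5) (nat_lit 21) (nat_lit 5) (nat_lit 18) (nat_lit 5) (nat_lit 218) (nat_lit 210) (nat_lit 172)) (XT.nd (nat_lit 78) (nat_lit 152) (nat_lit 0) (XT.lf (nat_lit 0) (nat_lit 21622026614) (nat_lit 152) (nat_lit 1861070895) (nat_lit 228) (nat_lit 12041631751) (nat_lit 15) (nat_lit 5) (nat_lit 17) (nat_lit 5) (nat_lit 18) (nat_lit 5) (nat_lit 219) (nat_lit 210) (nat_lit 171)) (XT.lf (nat_lit 0) (nat_lit 9647944764) (nat_lit 152) (nat_lit 22851461794) (nat_lit 228) (nat_lit 6671423354) (nat_lit 13) (nat_lit 5) (nat_lit 15) (nat_lit 5) (nat_lit 16) (nat_lit 5) (nat_lit 220) (nat_lit 210) (nat_lit 170))))))))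
noncomputable def xc39 : XT := (XT.nd (nat_lit 1560) (nat_lit 0) (nat_lit 0) (XT.nd (nat_lit 780) (nat_lit 228) (nat_lit 0) (XT.nd (nat_lit 390) (nat_lit 228) (nat_lit 0) (XT.nd (nat_lit 156) (nat_lit 228) (nat_lit 0) (XT.nd (nat_lit 78) (nat_lit 228) (nat_lit 0) (XT.lf (nat_lit 0) (nat_lit 37492253833) (nat_lit 152) (nat_lit 5810116772) (nat_lit 228) (nat_lit 26924072) (nat_lit 13) (nat_lit 5) (nat_lit 15) (nat_lit 5) (nat_lit 16) (nat_lit 5) (nat_lit 221) (nat_lit 210) (nat_lit 169)) (XT.lf (nat_lit 0) (nat_lit 8101420894) (nat_lit 228) (nat_lit 26095443170) (nat_lit 76) (nat_lit 13830719470) (nat_lit 10) (nat_lit 5) (nat_lit 13) (nat_lit 5) (nat_lit 11) (nat_lit 5) (nat_lit 222) (nat_lit 210) (nat_lit 168))) (XT.nd (nat_lit 78) (nat_lit 76) (nat_lit 0) (XT.lf (nat_lit 0) (nat_lit 646025164) (nat_lit 152) (nat_lit 17135149379) (nat_lit 228) (nat_lit 35622815159) (nat_lit 8) (nat_lit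 5) (nat_lit 10) (nat_lit 5) (nat_lit 11) (nat_lit 5) (nat_lit 223) (nat_lit 210) (nat_lit 167)) (XT.nd (nat_lit 78) (nat_lit 76) (nat_lit 0) (XT.lf (nat_lit 0) (nat_lit 29736800085) (nat_lit 228) (nat_lit 26649389733) (nat_lit 76) (nat_lit 3134867330) (nat_lit 8) (nat_lit 5) (nat_lit 11) (nat_lit 5) (nat_lit 9) (nat_lit 4) (nat_lit 224) (nat_lit 210) (nat_lit 166)) (XT.lf (nat_lit 0) (nat_lit 3033504390) (nat_lit 76) (nat_lit 40985789376) (nat_lit 152) (nat_lit 22493807313) (nat_lit 7) (nat_lit 5) (nat_lit 8) (nat_lit 5) (nat_lit 9) (nat_lit 4) (nat_lit 225) (nat_lit 210) (nat_lit 165))))) (XT.nd (nat_lit 156) (nat_lit 228) (nat_lit 0) (XT.nd (nat_lit 78) (nat_lit 0) (nat_lit 0) (XT.lf (nat_lit 0) (nat_lit 38764515411) (nat_lit 76) (nat_lit 22443472088) (nat_lit 152) (nat_lit 13284943512) (nat_lit 7) (nat_lit 5) (nat_lit 8) (nat_lit 5) (nat_lit 9) (nat_lit 4) (nat_lit 226) (nat_lit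 210) (nat_lit 164)) (XT.lf (nat_lit 0) (nat_lit 79839418690) (nat_lit 76) (nat_lit 1125095028) (nat_lit 152) (nat_lit 2706133781) (nat_lit 7) (nat_lit 5) (nat_lit 8) (nat_lit 5) (nat_lit 9) (nat_lit 4) (nat_lit 227) (nat_lit 210) (nat_lit 163))) (XT.nd (nat_lit 78) (nat_lit 76) (nat_lit 0) (XT.lf (nat_lit 0) (nat_lit 10392219987) (nat_lit 152) (nat_lit 60405484016) (nat_lit 76) (nat_lit 23296703222) (nat_lit 5) (nat_lit 5) (nat_lit 7) (nat_lit 5) (nat_lit 6) (nat_lit 4) (nat_lit 228) (nat_lit 210) (nat_lit 162)) (XT.nd (nat_lit 78) (nat_lit 76) (nat_lit 0) (XT.lf (nat_lit 0) (nat_lit 25436605267) (nat_lit 152) (nat_lit 29126234996) (nat_lit 76) (nat_lit 51501998620) (nat_lit 5) (nat_lit 5) (nat_lit 7) (nat_lit 5) (nat_lit 6) (nat_lit 4) (nat_lit 229) (nat_lit 210) (nat_lit 161)) (XT.lf (nat_lit 0) (nat_lit 7192825600) (nat_lit 76) (nat_lit 35710331526) (nat_lit 152) (nat_lit 76914482718)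 (nat_lit 4) (nat_lit 5) (nat_lit 5) (nat_lit 5) (nat_lit 6) (nat_lit 4) (nat_lit 230) (nat_lit 210) (nat_lit 160)))))) (XT.nd (nat_lit 390) (nat_lit 152) (nat_lit 0) (XT.nd (nat_lit 156) (nat_lit 76) (nat_lit 0) (XT.nd (nat_lit 78) (nat_lit 0) (nat_lit 0) (XT.lf (nat_lit 0) (nat_lit 50712657984) (nat_lit 76) (nat_lit 13118247685) (nat_lit 152) (nat_lit 71735197525) (nat_lit 4) (nat_lit 5) (nat_lit 5) (nat_lit 5) (nat_lit 6) (nat_lit 4) (nat_lit 231) (nat_lit 210) (nat_lit 159)) (XT.lf (nat_lit 0) (nat_lit 88201194686) (nat_lit 152) (nat_lit 53235600545) (nat_lit 0) (nat_lit 12215804780) (nat_lit 4) (nat_lit 5) (nat_lit 6) (nat_lit 4) (nat_lit 4) (nat_lit 4) (nat_lit 232) (nat_lit 210) (nat_lit 158))) (XT.nd (nat_lit 78) (nat_lit 76) (nat_lit 0) (XT.lf (nat_lit 0) (nat_lit 116584655077) (nat_lit 152) (nat_lit 17246491144) (nat_lit 0) (nat_lit 40592344647) (nat_lit 4) (nat_lit 5) (nat_lit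 6) (nat_lit 4) (nat_lit 4) (nat_lit 4) (nat_lit 233) (nat_lit 210) (nat_lit 157)) (XT.nd (nat_lit 78) (nat_lit 0) (nat_lit 0) (XT.lf (nat_lit 0) (nat_lit 25404339883) (nat_lit 76) (nat_lit 124427756344) (nat_lit 76) (nat_lit 48429428067) (nat_lit 3) (nat_lit 4) (nat_lit 4) (nat_lit 5) (nat_lit 4) (nat_lit 4) (nat_lit 234) (nat_lit 210) (nat_lit 156)) (XT.lf (nat_lit 0) (nat_lit 75490350455) (nat_lit 76) (nat_lit 113074327027) (nat_lit 76) (nat_lit 37070765840) (nat_lit 3) (nat_lit 4) (nat_lit 4) (nat_lit 5) (nat_lit 4) (nat_lit 4) (nat_lit 235) (nat_lit 210) (nat_lit 155))))) (XT.nd (nat_lit 156) (nat_lit 152) (nat_lit 0) (XT.nd (nat_lit 78) (nat_lit 0) (nat_lit 0) (XT.lf (nat_lit 0) (nat_lit 133083314594) (nat_lit 76) (nat_lit 100020275589) (nat_lit 76) (nat_lit 24012164046) (nat_lit 3) (nat_lit 4) (nat_lit 4) (nat_lit 5) (nat_lit 4) (nat_lit 4) (nat_lit 236) (nat_lit 210) (nat_lit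 154)) (XT.lf (nat_lit 0) (nat_lit 199310051164) (nat_lit 76) (nat_lit 85010196677) (nat_lit 76) (nat_lit 8998128301) (nat_lit 3) (nat_lit 4) (nat_lit 4) (nat_lit 5) (nat_lit 4) (nat_lit 4) (nat_lit 237) (nat_lit 210) (nat_lit 153))) (XT.nd (nat_lit 78) (nat_lit 76) (nat_lit 0) (XT.lf (nat_lit 0) (nat_lit 7851640776) (nat_lit 152) (nat_lit 59684096283) (nat_lit 76) (nat_lit 267399982113) (nat_lit 2) (nat_lit 5) (nat_lit 4) (nat_lit 5) (nat_lit 3) (nat_lit 4) (nat_lit 238) (nat_lit 210) (nat_lit 152)) (XT.nd (nat_lit 78) (nat_lit 76) (nat_lit 0) (XT.lf (nat_lit 0) (nat_lit 26708823068) (nat_lit 152) (nat_lit 20464149050) (nat_lit 76) (nat_lit 335602987046) (nat_lit 2) (nat_lit 5) (nat_lit 4) (nat_lit 5) (nat_lit 3) (nat_lit 4) (nat_lit 239) (nat_lit 210) (nat_lit 151)) (XT.lf (nat_lit 0) (nat_lit 25932518309) (nat_lit 76) (nat_lit 23083645644) (nat_lit 152) (nat_lit 388726355059) (nat_lit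 1) (nat_lit 5) (nat_lit 2) (nat_lit 5) (nat_lit 3) (nat_lit 4) (nat_lit 240) (nat_lit 210) (nat_lit 150))))))) (XT.nd (nat_lit 780) (nat_lit 0) (nat_lit 0) (XT.nd (nat_lit 390) (nat_lit 0) (nat_lit 0) (XT.nd (nat_lit 156) (nat_lit 0) (nat_lit 0) (XT.nd (nat_lit 78) (nat_lit 0) (nat_lit 0) (XT.lf (nat_lit 0) (nat_lit 75390029408) (nat_lit 152) (nat_lit 420508383825) (nat_lit 0) (nat_lit 4998024737) (nat_lit 1) (nat_lit 5) (nat_lit 3) (nat_lit 4) (nat_lit 1) (nat_lit 4) (nat_lit 241) (nat_lit 210) (nat_lit 149)) (XT.lf (nat_lit 0) (nat_lit 106356730960) (nat_lit 152) (nat_lit 431152876375) (nat_lit 0) (nat_lit 35962904766) (nat_lit 1) (nat_lit 5) (nat_lit 3) (nat_lit 4) (nat_lit 1) (nat_lit 4) (nat_lit 242) (nat_lit 210) (nat_lit 148))) (XT.nd (nat_lit 78) (nat_lit 0) (nat_lit 0) (XT.lf (nat_lit 0) (nat_lit 141966976624) (nat_lit 152) (nat_lit 443396577932) (nat_lit 0) (nat_lit 71571566497)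 (nat_lit 1) (nat_lit 5) (nat_lit 3) (nat_lit 4) (nat_lit 1) (nat_lit 4) (nat_lit 243) (nat_lit 210) (nat_lit 147)) (XT.nd (nat_lit 78) (nat_lit 0) (nat_lit 0) (XT.lf (nat_lit 0) (nat_lit 182917488598) (nat_lit 152) (nat_lit 457479039179) (nat_lit 0) (nat_lit 112520701138) (nat_lit 1) (nat_lit 5) (nat_lit 3) (nat_lit 4) (nat_lit 1) (nat_lit 4) (nat_lit 244) (nat_lit 210) (nat_lit 146)) (XT.lf (nat_lit 0) (nat_lit 230009472550) (nat_lit 152) (nat_lit 473675786530) (nat_lit 0) (nat_lit 159611487409) (nat_lit 1) (nat_lit 5) (nat_lit 3) (nat_lit 4) (nat_lit 1) (nat_lit 4) (nat_lit 245) (nat_lit 210) (nat_lit 145))))) (XT.nd (nat_lit 156) (nat_lit 0) (nat_lit 0) (XT.nd (nat_lit 78) (nat_lit 0) (nat_lit 0) (XT.lf (nat_lit 0) (nat_lit 284164293385) (nat_lit 152) (nat_lit 492303712870) (nat_lit 0) (nat_lit 213765266782) (nat_lit 1) (nat_lit 5) (nat_lit 3) (nat_lit 4) (nat_lit 1) (nat_lit 4)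 (nat_lit 246) (nat_lit 210) (nat_lit 144)) (XT.lf (nat_lit 0) (nat_lit 346441501944) (nat_lit 152) (nat_lit 513727277625) (nat_lit 0) (nat_lit 276041569722) (nat_lit 1) (nat_lit 5) (nat_lit 3) (nat_lit 4) (nat_lit 1) (nat_lit 4) (nat_lit 247) (nat_lit 210) (nat_lit 143))) (XT.nd (nat_lit 78) (nat_lit 0) (nat_lit 0) (XT.lf (nat_lit 0) (nat_lit 418059565351) (nat_lit 152) (nat_lit 538365637499) (nat_lit 0) (nat_lit 347658845635) (nat_lit 1) (nat_lit 5) (nat_lit 3) (nat_lit 4) (nat_lit 1) (nat_lit 4) (nat_lit 248) (nat_lit 210) (nat_lit 142)) (XT.nd (nat_lit 78) (nat_lit 0) (nat_lit 0) (XT.lf (nat_lit 0) (nat_lit 500419706587) (nat_lit 152) (nat_lit 566700847359) (nat_lit 0) (nat_lit 430018302092) (nat_lit 1) (nat_lit 5) (nat_lit 3) (nat_lit 4) (nat_lit 1) (nat_lit 4) (nat_lit 249) (nat_lit 210) (nat_lit 141)) (XT.lf (nat_lit 0) (nat_lit 595133319718) (nat_lit 152) (nat_lit 599287291744)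 (nat_lit 0) (nat_lit 524731319765) (nat_lit 1) (nat_lit 5) (nat_lit 3) (nat_lit 4) (nat_lit 1) (nat_lit 4) (nat_lit 250) (nat_lit 210) (nat_lit 140)))))) (XT.nd (nat_lit 390) (nat_lit 0) (nat_lit 0) (XT.nd (nat_lit 156) (nat_lit 0) (nat_lit 0) (XT.nd (nat_lit 78) (nat_lit 0) (nat_lit 0) (XT.lf (nat_lit 0) (nat_lit 704053497176) (nat_lit 152) (nat_lit 636762531524) (nat_lit 0) (nat_lit 633650979432) (nat_lit 1) (nat_lit 5) (nat_lit 3) (nat_lit 4) (nat_lit 1) (nat_lit 4) (nat_lit 251) (nat_lit 210) (nat_lit 139)) (XT.lf (nat_lit 0) (nat_lit 829311285911) (nat_lit 152) (nat_lit 679859777911) (nat_lit 0) (nat_lit 758908317915) (nat_lit 1) (nat_lit 5) (nat_lit 3) (nat_lit 4) (nat_lit 1) (nat_lit 4) (nat_lit 252) (nat_lit 210) (nat_lit 138))) (XT.nd (nat_lit 78) (nat_lit 0) (nat_lit 0) (XT.lf (nat_lit 0) (nat_lit 973357381790) (nat_lit 152) (nat_lit 729422237900) (nat_lit 0) (nat_lit 902954022269)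 (nat_lit 1) (nat_lit 5) (nat_lit 3) (nat_lit 4) (nat_lit 1) (nat_lit 4) (nat_lit 253) (nat_lit 210) (nat_lit 137)) (XT.nd (nat_lit 78) (nat_lit 0) (nat_lit 0) (XT.lf (nat_lit 0) (nat_lit 1139010077992) (nat_lit 152) (nat_lit 786419611795) (nat_lit 0) (nat_lit 1068606378016) (nat_lit 1) (nat_lit 5) (nat_lit 3) (nat_lit 4) (nat_lit 1) (nat_lit 4) (nat_lit 254) (nat_lit 210) (nat_lit 136)) (XT.lf (nat_lit 0) (nat_lit 1329510405531) (nat_lit 152) (nat_lit 851967065607) (nat_lit 0) (nat_lit 1259106409506) (nat_lit 1) (nat_lit 5) (nat_lit 3) (nat_lit 4) (nat_lit 1) (nat_lit 4) (nat_lit 255) (nat_lit 210) (nat_lit 135))))) (XT.nd (nat_lit 156) (nat_lit 0) (nat_lit 0) (XT.nd (nat_lit 78) (nat_lit 0) (nat_lit 0) (XT.lf (nat_lit 0) (nat_lit 1548585544727) (nat_lit 152) (nat_lit 927347049520) (nat_lit 0) (nat_lit 1478181291269) (nat_lit 1) (nat_lit 5) (nat_lit 3) (nat_lit 4) (nat_lit 1) (nat_lit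 4) (nat_lit 256) (nat_lit 210) (nat_lit 134)) (XT.lf (nat_lit 0) (nat_lit 1800521748305) (nat_lit 152) (nat_lit 1014034389305) (nat_lit 0) (nat_lit 1730117270992) (nat_lit 1) (nat_lit 5) (nat_lit 3) (nat_lit 4) (nat_lit 1) (nat_lit 4) (nat_lit 257) (nat_lit 210) (nat_lit 133))) (XT.nd (nat_lit 78) (nat_lit 0) (nat_lit 0) (XT.lf (nat_lit 0) (nat_lit 2090248202855) (nat_lit 152) (nat_lit 1113725141611) (nat_lit 0) (nat_lit 2019843530886) (nat_lit 1) (nat_lit 5) (nat_lit 3) (nat_lit 4) (nat_lit 1) (nat_lit 4) (nat_lit 258) (nat_lit 210) (nat_lit 132)) (XT.nd (nat_lit 27534) (nat_lit 0) (nat_lit 1976) (XT.lf (nat_lit 0) (nat_lit 2423433469446) (nat_lit 152) (nat_lit 1228369777678) (nat_lit 0) (nat_lit 2353028628210) (nat_lit 1) (nat_lit 5) (nat_lit 3) (nat_lit 4) (nat_lit 1) (nat_lit 4) (nat_lit 259) (nat_lit 210) (nat_lit 131)) (XT.lf (nat_lit 0) (nat_lit 3779290325) (nat_lit 0) (nat_lit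 3779290325) (nat_lit 380) (nat_lit 2125114602) (nat_lit 27) (nat_lit 5) (nat_lit 27) (nat_lit 3) (nat_lit 32) (nat_lit 3) (nat_lit 211) (nat_lit 211) (nat_lit 178))))))))
noncomputable def xc40 : XT := (XT.nd (nat_lit 1482) (nat_lit 304) (nat_lit 0) (XT.nd (nat_lit 702) (nat_lit 760) (nat_lit 0) (XT.nd (nat_lit 312) (nat_lit 608) (nat_lit 0) (XT.nd (nat_lit 156) (nat_lit 304) (nat_lit 0) (XT.nd (nat_lit 78) (nat_lit 0) (nat_lit 0) (XT.lf (nat_lit 76) (nat_lit 1553238349) (nat_lit 0) (nat_lit 15135839563) (nat_lit 456) (nat_lit 4092820213) (nat_lit 28) (nat_lit 5) (nat_lit 27) (nat_lit 5) (nat_lit 33) (nat_lit 5) (nat_lit 212) (nat_lit 211) (nat_lit 177)) (XT.lf (nat_lit 76) (nat_lit 17385362673) (nat_lit 0) (nat_lit 1612752254) (nat_lit 456) (nat_lit 3370893832) (nat_lit 28) (nat_lit 5) (nat_lit 27) (nat_lit 5) (nat_lit 33) (nat_lit 5) (nat_lit 213) (nat_lit 211) (nat_lit 176))) (XT.nd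 (nat_lit 78) (nat_lit 380) (nat_lit 0) (XT.lf (nat_lit 76) (nat_lit 11614398161) (nat_lit 0) (nat_lit 10613821334) (nat_lit 456) (nat_lit 1920453449) (nat_lit 29) (nat_lit 5) (nat_lit 28) (nat_lit 5) (nat_lit 34) (nat_lit 5) (nat_lit 214) (nat_lit 211) (nat_lit 175)) (XT.lf (nat_lit 0) (nat_lit 156595361) (nat_lit 456) (nat_lit 21294579679) (nat_lit 76) (nat_lit 4713257834) (nat_lit 23) (nat_lit 5) (nat_lit 29) (nat_lit 5) (nat_lit 24) (nat_lit 5) (nat_lit 215) (nat_lit 211) (nat_lit 174)))) (XT.nd (nat_lit 156) (nat_lit 380) (nat_lit 0) (XT.nd (nat_lit 78) (nat_lit 228) (nat_lit 0) (XT.lf (nat_lit 0) (nat_lit 3070343713) (nat_lit 456) (nat_lit 3195745345) (nat_lit 76) (nat_lit 22161693627) (nat_lit 23) (nat_lit 5) (nat_lit 29) (nat_lit 5) (nat_lit 24) (nat_lit 5) (nat_lit 216) (nat_lit 211) (nat_lit 173)) (XT.lf (nat_lit 0) (nat_lit 7119307465) (nat_lit 304) (nat_lit 12760142645) (nat_lit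 76) (nat_lit 11095615041) (nat_lit 20) (nat_lit 5) (nat_lit 24) (nat_lit 5) (nat_lit 21) (nat_lit 5) (nat_lit 217) (nat_lit 211) (nat_lit 172))) (XT.nd (nat_lit 78) (nat_lit 152) (nat_lit 0) (XT.lf (nat_lit 0) (nat_lit 9402281415) (nat_lit 228) (nat_lit 2843232314) (nat_lit 304) (nat_lit 21621580021) (nat_lit 17) (nat_lit 5) (nat_lit 20) (nat_lit 5) (nat_lit 21) (nat_lit 5) (nat_lit 218) (nat_lit 211) (nat_lit 171)) (XT.nd (nat_lit 78) (nat_lit 152) (nat_lit 0) (XT.lf (nat_lit 0) (nat_lit 18902257523) (nat_lit 304) (nat_lit 1939682540) (nat_lit 76) (nat_lit 16290271614) (nat_lit 17) (nat_lit 5) (nat_lit 21) (nat_lit 5) (nat_lit 18) (nat_lit 5) (nat_lit 219) (nat_lit 211) (nat_lit 170)) (XT.lf (nat_lit 0) (nat_lit 25119725915) (nat_lit 152) (nat_lit 2101127334) (nat_lit 228) (nat_lit 13613362520) (nat_lit 15) (nat_lit 5) (nat_lit 17) (nat_lit 5) (nat_lit 18) (nat_lit 5) (nat_lit 220)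 (nat_lit 211) (nat_lit 169)))))) (XT.nd (nat_lit 390) (nat_lit 228) (nat_lit 0) (XT.nd (nat_lit 156) (nat_lit 304) (nat_lit 0) (XT.nd (nat_lit 78) (nat_lit 76) (nat_lit 0) (XT.lf (nat_lit 0) (nat_lit 11344733399) (nat_lit 152) (nat_lit 26223614406) (nat_lit 228) (nat_lit 7460845397) (nat_lit 13) (nat_lit 5) (nat_lit 15) (nat_lit 5) (nat_lit 16) (nat_lit 5) (nat_lit 221) (nat_lit 211) (nat_lit 168)) (XT.lf (nat_lit 0) (nat_lit 145126896) (nat_lit 228) (nat_lit 6484220533) (nat_lit 76) (nat_lit 43184037785) (nat_lit 12) (nat_lit 5) (nat_lit 15) (nat_lit 5) (nat_lit 13) (nat_lit 5) (nat_lit 222) (nat_lit 211) (nat_lit 167))) (XT.nd (nat_lit 78) (nat_lit 152) (nat_lit 0) (XT.lf (nat_lit 0) (nat_lit 9474660164) (nat_lit 228) (nat_lit 29788875985) (nat_lit 76) (nat_lit 15954325450) (nat_lit 10) (nat_lit 5) (nat_lit 13) (nat_lit 5) (nat_lit 11) (nat_lit 5) (nat_lit 223) (nat_lit 211) (nat_lit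 166)) (XT.nd (nat_lit 78) (nat_lit 0) (nat_lit 0) (XT.lf (nat_lit 0) (nat_lit 945115897) (nat_lit 152) (nat_lit 19645511460) (nat_lit 228) (nat_lit 40811520083) (nat_lit 8) (nat_lit 5) (nat_lit 10) (nat_lit 5) (nat_lit 11) (nat_lit 5) (nat_lit 224) (nat_lit 211) (nat_lit 165)) (XT.lf (nat_lit 0) (nat_lit 34322291817) (nat_lit 228) (nat_lit 30461418340) (nat_lit 76) (nat_lit 3654587315) (nat_lit 8) (nat_lit 5) (nat_lit 11) (nat_lit 5) (nat_lit 9) (nat_lit 4) (nat_lit 225) (nat_lit 211) (nat_lit 164))))) (XT.nd (nat_lit 156) (nat_lit 152) (nat_lit 0) (XT.nd (nat_lit 78) (nat_lit 0) (nat_lit 0) (XT.lf (nat_lit 0) (nat_lit 3658218421) (nat_lit 76) (nat_lit 47076721480) (nat_lit 152) (nat_lit 25745305731) (nat_lit 7) (nat_lit 5) (nat_lit 8) (nat_lit 5) (nat_lit 9) (nat_lit 4) (nat_lit 226) (nat_lit 211) (nat_lit 163)) (XT.lf (nat_lit 0) (nat_lit 44726747829) (nat_lit 76) (nat_lit 25760483073)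 (nat_lit 152) (nat_lit 15171100101) (nat_lit 7) (nat_lit 5) (nat_lit 8) (nat_lit 5) (nat_lit 9) (nat_lit 4) (nat_lit 227) (nat_lit 211) (nat_lit 162))) (XT.nd (nat_lit 78) (nat_lit 152) (nat_lit 0) (XT.lf (nat_lit 0) (nat_lit 91943640281) (nat_lit 76) (nat_lit 1250807258) (nat_lit 152) (nat_lit 3019371293) (nat_lit 7) (nat_lit 5) (nat_lit 8) (nat_lit 5) (nat_lit 9) (nat_lit 4) (nat_lit 228) (nat_lit 211) (nat_lit 161)) (XT.nd (nat_lit 78) (nat_lit 0) (nat_lit 0) (XT.lf (nat_lit 0) (nat_lit 12031580963) (nat_lit 152) (nat_lit 69338281276) (nat_lit 76) (nat_lit 26831776514) (nat_lit 5) (nat_lit 5) (nat_lit 7) (nat_lit 5) (nat_lit 6) (nat_lit 4) (nat_lit 229) (nat_lit 211) (nat_lit 160)) (XT.lf (nat_lit 0) (nat_lit 29322120385) (nat_lit 152) (nat_lit 33383843861) (nat_lit 76) (nat_lit 59262574767) (nat_lit 5) (nat_lit 5) (nat_lit 7) (nat_lit 5) (nat_lit 6) (nat_lit 4) (nat_lit 230) (nat_lit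 211) (nat_lit 159))))))) (XT.nd (nat_lit 780) (nat_lit 76) (nat_lit 0) (XT.nd (nat_lit 390) (nat_lit 76) (nat_lit 0) (XT.nd (nat_lit 156) (nat_lit 76) (nat_lit 0) (XT.nd (nat_lit 78) (nat_lit 0) (nat_lit 0) (XT.lf (nat_lit 0) (nat_lit 8373652601) (nat_lit 76) (nat_lit 41028319588) (nat_lit 152) (nat_lit 88382877829) (nat_lit 4) (nat_lit 5) (nat_lit 5) (nat_lit 5) (nat_lit 6) (nat_lit 4) (nat_lit 231) (nat_lit 211) (nat_lit 158)) (XT.lf (nat_lit 0) (nat_lit 58408168126) (nat_lit 76) (nat_lit 15052452953) (nat_lit 152) (nat_lit 82435670809) (nat_lit 4) (nat_lit 5) (nat_lit 5) (nat_lit 5) (nat_lit 6) (nat_lit 4) (nat_lit 232) (nat_lit 211) (nat_lit 157))) (XT.nd (nat_lit 78) (nat_lit 76) (nat_lit 0) (XT.lf (nat_lit 0) (nat_lit 101479970413) (nat_lit 152) (nat_lit 61140478204) (nat_lit 0) (nat_lit 14075875048) (nat_lit 4) (nat_lit 5) (nat_lit 6) (nat_lit 4) (nat_lit 4) (nat_lit 4) (nat_lit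 233) (nat_lit 211) (nat_lit 156)) (XT.nd (nat_lit 78) (nat_lit 76) (nat_lit 0) (XT.lf (nat_lit 0) (nat_lit 134114611186) (nat_lit 152) (nat_lit 19763497491) (nat_lit 0) (nat_lit 46705282910) (nat_lit 4) (nat_lit 5) (nat_lit 6) (nat_lit 4) (nat_lit 4) (nat_lit 4) (nat_lit 234) (nat_lit 211) (nat_lit 155)) (XT.lf (nat_lit 0) (nat_lit 29279035805) (nat_lit 76) (nat_lit 143066161093) (nat_lit 76) (nat_lit 55652282461) (nat_lit 3) (nat_lit 4) (nat_lit 4) (nat_lit 5) (nat_lit 4) (nat_lit 4) (nat_lit 235) (nat_lit 211) (nat_lit 154))))) (XT.nd (nat_lit 156) (nat_lit 76) (nat_lit 0) (XT.nd (nat_lit 78) (nat_lit 0) (nat_lit 0) (XT.lf (nat_lit 0) (nat_lit 86869594274) (nat_lit 76) (nat_lit 130013077209) (nat_lit 76) (nat_lit 42595241745) (nat_lit 3) (nat_lit 4) (nat_lit 4) (nat_lit 5) (nat_lit 4) (nat_lit 4) (nat_lit 236) (nat_lit 211) (nat_lit 153)) (XT.lf (nat_lit 0) (nat_lit 153094238958)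 (nat_lit 76) (nat_lit 115003839648) (nat_lit 76) (nat_lit 27582563460) (nat_lit 3) (nat_lit 4) (nat_lit 4) (nat_lit 5) (nat_lit 4) (nat_lit 4) (nat_lit 237) (nat_lit 211) (nat_lit 152))) (XT.nd (nat_lit 78) (nat_lit 76) (nat_lit 0) (XT.lf (nat_lit 0) (nat_lit 229248669425) (nat_lit 76) (nat_lit 97744789413) (nat_lit 76) (nat_lit 10320521293) (nat_lit 3) (nat_lit 4) (nat_lit 4) (nat_lit 5) (nat_lit 4) (nat_lit 4) (nat_lit 238) (nat_lit 211) (nat_lit 151)) (XT.nd (nat_lit 78) (nat_lit 0) (nat_lit 0) (XT.lf (nat_lit 0) (nat_lit 9051960183) (nat_lit 152) (nat_lit 68598792619) (nat_lit 76) (nat_lit 307523406848) (nat_lit 2) (nat_lit 5) (nat_lit 4) (nat_lit 5) (nat_lit 3) (nat_lit 4) (nat_lit 239) (nat_lit 211) (nat_lit 150)) (XT.lf (nat_lit 0) (nat_lit 30734775476) (nat_lit 152) (nat_lit 23500799141) (nat_lit 76) (nat_lit 385955111118) (nat_lit 2) (nat_lit 5) (nat_lit 4) (nat_lit 5) (nat_lit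 3) (nat_lit 4) (nat_lit 240) (nat_lit 211) (nat_lit 149)))))) (XT.nd (nat_lit 390) (nat_lit 0) (nat_lit 0) (XT.nd (nat_lit 156) (nat_lit 0) (nat_lit 0) (XT.nd (nat_lit 78) (nat_lit 0) (nat_lit 0) (XT.lf (nat_lit 0) (nat_lit 29852577383) (nat_lit 76) (nat_lit 26533805674) (nat_lit 152) (nat_lit 447016005908) (nat_lit 1) (nat_lit 5) (nat_lit 2) (nat_lit 5) (nat_lit 3) (nat_lit 4) (nat_lit 241) (nat_lit 211) (nat_lit 148)) (XT.lf (nat_lit 0) (nat_lit 86714266354) (nat_lit 152) (nat_lit 483557344596) (nat_lit 0) (nat_lit 5757960775) (nat_lit 1) (nat_lit 5) (nat_lit 3) (nat_lit 4) (nat_lit 1) (nat_lit 4) (nat_lit 242) (nat_lit 211) (nat_lit 147))) (XT.nd (nat_lit 78) (nat_lit 0) (nat_lit 0) (XT.lf (nat_lit 0) (nat_lit 122323921070) (nat_lit 152) (nat_lit 495802071482) (nat_lit 0) (nat_lit 41366238157) (nat_lit 1) (nat_lit 5) (nat_lit 3) (nat_lit 4) (nat_lit 1) (nat_lit 4) (nat_lit 243) (nat_lit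 211) (nat_lit 146)) (XT.nd (nat_lit 78) (nat_lit 0) (nat_lit 0) (XT.lf (nat_lit 0) (nat_lit 163273919175) (nat_lit 152) (nat_lit 509885424318) (nat_lit 0) (nat_lit 82315038582) (nat_lit 1) (nat_lit 5) (nat_lit 3) (nat_lit 4) (nat_lit 1) (nat_lit 4) (nat_lit 244) (nat_lit 211) (nat_lit 145)) (XT.lf (nat_lit 0) (nat_lit 210365456285) (nat_lit 152) (nat_lit 526082946965) (nat_lit 0) (nat_lit 129405534230) (nat_lit 1) (nat_lit 5) (nat_lit 3) (nat_lit 4) (nat_lit 1) (nat_lit 4) (nat_lit 245) (nat_lit 211) (nat_lit 144))))) (XT.nd (nat_lit 156) (nat_lit 0) (nat_lit 0) (XT.nd (nat_lit 78) (nat_lit 0) (nat_lit 0) (XT.lf (nat_lit 0) (nat_lit 264519888561) (nat_lit 152) (nat_lit 544711547474) (nat_lit 0) (nat_lit 183559060887) (nat_lit 1) (nat_lit 5) (nat_lit 3) (nat_lit 4) (nat_lit 1) (nat_lit 4) (nat_lit 246) (nat_lit 211) (nat_lit 143)) (XT.lf (nat_lit 0) (nat_lit 326796759243) (nat_lit 152)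 (nat_lit 566135698465) (nat_lit 0) (nat_lit 245835144075) (nat_lit 1) (nat_lit 5) (nat_lit 3) (nat_lit 4) (nat_lit 1) (nat_lit 4) (nat_lit 247) (nat_lit 211) (nat_lit 142))) (XT.nd (nat_lit 78) (nat_lit 0) (nat_lit 0) (XT.lf (nat_lit 0) (nat_lit 398414528844) (nat_lit 152) (nat_lit 590774568108) (nat_lit 0) (nat_lit 317452228898) (nat_lit 1) (nat_lit 5) (nat_lit 3) (nat_lit 4) (nat_lit 1) (nat_lit 4) (nat_lit 248) (nat_lit 211) (nat_lit 141)) (XT.nd (nat_lit 78) (nat_lit 0) (nat_lit 0) (XT.lf (nat_lit 0) (nat_lit 480774414596) (nat_lit 152) (nat_lit 619110221245) (nat_lit 0) (nat_lit 399811519191) (nat_lit 1) (nat_lit 5) (nat_lit 3) (nat_lit 4) (nat_lit 1) (nat_lit 4) (nat_lit 249) (nat_lit 211) (nat_lit 140)) (XT.lf (nat_lit 0) (nat_lit 575487805568) (nat_lit 152) (nat_lit 651697051090) (nat_lit 0) (nat_lit 494524392372) (nat_lit 1) (nat_lit 5) (nat_lit 3) (nat_lit 4) (nat_lit 1) (nat_lit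 4) (nat_lit 250) (nat_lit 211) (nat_lit 139))))))))
noncomputable def xc41 : XT := (XT.nd (nat_lit 29016) (nat_lit 0) (nat_lit 76) (XT.nd (nat_lit 28236) (nat_lit 0) (nat_lit 1064) (XT.nd (nat_lit 312) (nat_lit 0) (nat_lit 0) (XT.nd (nat_lit 156) (nat_lit 0) (nat_lit 0) (XT.nd (nat_lit 78) (nat_lit 0) (nat_lit 0) (XT.lf (nat_lit 0) (nat_lit 684407789844) (nat_lit 152) (nat_lit 689172626051) (nat_lit 0) (nat_lit 603443926396) (nat_lit 1) (nat_lit 5) (nat_lit 3) (nat_lit 4) (nat_lit 1) (nat_lit 4) (nat_lit 251) (nat_lit 211) (nat_lit 138)) (XT.lf (nat_lit 0) (nat_lit 809665410595) (nat_lit 152) (nat_lit 732270163900) (nat_lit 0) (nat_lit 728701155622) (nat_lit 1) (nat_lit 5) (nat_lit 3) (nat_lit 4) (nat_lit 1) (nat_lit 4) (nat_lit 252) (nat_lit 211) (nat_lit 137))) (XT.nd (nat_lit 78) (nat_lit 0) (nat_lit 0) (XT.lf (nat_lit 0) (nat_lit 953711360400) (nat_lit 152) (nat_lit 781832877335)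 (nat_lit 0) (nat_lit 872746764972) (nat_lit 1) (nat_lit 5) (nat_lit 3) (nat_lit 4) (nat_lit 1) (nat_lit 4) (nat_lit 253) (nat_lit 211) (nat_lit 136)) (XT.lf (nat_lit 0) (nat_lit 1119363929582) (nat_lit 152) (nat_lit 838830471617) (nat_lit 0) (nat_lit 1038399038105) (nat_lit 1) (nat_lit 5) (nat_lit 3) (nat_lit 4) (nat_lit 1) (nat_lit 4) (nat_lit 254) (nat_lit 211) (nat_lit 135)))) (XT.nd (nat_lit 156) (nat_lit 0) (nat_lit 0) (XT.nd (nat_lit 78) (nat_lit 0) (nat_lit 0) (XT.lf (nat_lit 0) (nat_lit 1309864146668) (nat_lit 152) (nat_lit 904378117071) (nat_lit 0) (nat_lit 1228898997758) (nat_lit 1) (nat_lit 5) (nat_lit 3) (nat_lit 4) (nat_lit 1) (nat_lit 4) (nat_lit 255) (nat_lit 211) (nat_lit 134)) (XT.lf (nat_lit 0) (nat_lit 1528939189818) (nat_lit 152) (nat_lit 979758267628) (nat_lit 0) (nat_lit 1447973817053) (nat_lit 1) (nat_lit 5) (nat_lit 3) (nat_lit 4) (nat_lit 1) (nat_lit 4) (nat_lit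 256) (nat_lit 211) (nat_lit 133))) (XT.nd (nat_lit 78) (nat_lit 0) (nat_lit 0) (XT.lf (nat_lit 0) (nat_lit 1780875309878) (nat_lit 152) (nat_lit 1066445752322) (nat_lit 0) (nat_lit 1699909742456) (nat_lit 1) (nat_lit 5) (nat_lit 3) (nat_lit 4) (nat_lit 1) (nat_lit 4) (nat_lit 257) (nat_lit 211) (nat_lit 132)) (XT.nd (nat_lit 78) (nat_lit 0) (nat_lit 0) (XT.lf (nat_lit 0) (nat_lit 2070601691804) (nat_lit 152) (nat_lit 1166136630635) (nat_lit 0) (nat_lit 1989635955116) (nat_lit 1) (nat_lit 5) (nat_lit 3) (nat_lit 4) (nat_lit 1) (nat_lit 4) (nat_lit 258) (nat_lit 211) (nat_lit 131)) (XT.lf (nat_lit 0) (nat_lit 2403786895244) (nat_lit 152) (nat_lit 1280781376273) (nat_lit 0) (nat_lit 2322821011367) (nat_lit 1) (nat_lit 5) (nat_lit 3) (nat_lit 4) (nat_lit 1) (nat_lit 4) (nat_lit 259) (nat_lit 211) (nat_lit 130)))))) (XT.nd (nat_lit 390) (nat_lit 608) (nat_lit 0) (XT.nd (nat_lit 156) (nat_lit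 304) (nat_lit 0) (XT.nd (nat_lit 78) (nat_lit 0) (nat_lit 0) (XT.lf (nat_lit 0) (nat_lit 4470216881) (nat_lit 0) (nat_lit 4470216881) (nat_lit 380) (nat_lit 2173098260) (nat_lit 27) (nat_lit 5) (nat_lit 27) (nat_lit 3) (nat_lit 32) (nat_lit 3) (nat_lit 212) (nat_lit 212) (nat_lit 176)) (XT.lf (nat_lit 76) (nat_lit 2060342752) (nat_lit 0) (nat_lit 17564920744) (nat_lit 456) (nat_lit 4234298244) (nat_lit 28) (nat_lit 5) (nat_lit 27) (nat_lit 5) (nat_lit 33) (nat_lit 5) (nat_lit 213) (nat_lit 212) (nat_lit 175))) (XT.nd (nat_lit 78) (nat_lit 304) (nat_lit 0) (XT.lf (nat_lit 76) (nat_lit 20231531118) (nat_lit 0) (nat_lit 1992669654) (nat_lit 456) (nat_lit 3465706166) (nat_lit 28) (nat_lit 5) (nat_lit 27) (nat_lit 5) (nat_lit 33) (nat_lit 5) (nat_lit 214) (nat_lit 212) (nat_lit 174)) (XT.nd (nat_lit 78) (nat_lit 380) (nat_lit 0) (XT.lf (nat_lit 76) (nat_lit 13609320524) (nat_lit 0) (nat_lit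 12283601793) (nat_lit 456) (nat_lit 1847836893) (nat_lit 29) (nat_lit 5) (nat_lit 28) (nat_lit 5) (nat_lit 34) (nat_lit 5) (nat_lit 215) (nat_lit 212) (nat_lit 173)) (XT.lf (nat_lit 0) (nat_lit 482800204) (nat_lit 456) (nat_lit 24209049670) (nat_lit 76) (nat_lit 5369989558) (nat_lit 23) (nat_lit 5) (nat_lit 29) (nat_lit 5) (nat_lit 24) (nat_lit 5) (nat_lit 216) (nat_lit 212) (nat_lit 172))))) (XT.nd (nat_lit 156) (nat_lit 380) (nat_lit 0) (XT.nd (nat_lit 78) (nat_lit 228) (nat_lit 0) (XT.lf (nat_lit 0) (nat_lit 3794126173) (nat_lit 456) (nat_lit 3431875007) (nat_lit 76) (nat_lit 25442245974) (nat_lit 23) (nat_lit 5) (nat_lit 29) (nat_lit 5) (nat_lit 24) (nat_lit 5) (nat_lit 217) (nat_lit 212) (nat_lit 171)) (XT.lf (nat_lit 0) (nat_lit 8421175454) (nat_lit 304) (nat_lit 14430201522) (nat_lit 76) (nat_lit 12748930666) (nat_lit 20) (nat_lit 5) (nat_lit 24) (nat_lit 5) (nat_lit 21) (nat_lit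 5) (nat_lit 218) (nat_lit 212) (nat_lit 170))) (XT.nd (nat_lit 78) (nat_lit 152) (nat_lit 0) (XT.lf (nat_lit 0) (nat_lit 11035935934) (nat_lit 228) (nat_lit 3255229321) (nat_lit 304) (nat_lit 24637287009) (nat_lit 17) (nat_lit 5) (nat_lit 20) (nat_lit 5) (nat_lit 21) (nat_lit 5) (nat_lit 219) (nat_lit 212) (nat_lit 169)) (XT.nd (nat_lit 78) (nat_lit 152) (nat_lit 0) (XT.lf (nat_lit 0) (nat_lit 21919485629) (nat_lit 304) (nat_lit 2020487595) (nat_lit 76) (nat_lit 18745780269) (nat_lit 17) (nat_lit 5) (nat_lit 21) (nat_lit 5) (nat_lit 18) (nat_lit 5) (nat_lit 220) (nat_lit 212) (nat_lit 168)) (XT.lf (nat_lit 0) (nat_lit 29080044203) (nat_lit 152) (nat_lit 2386728044) (nat_lit 228) (nat_lit 15478040627) (nat_lit 15) (nat_lit 5) (nat_lit 17) (nat_lit 5) (nat_lit 18) (nat_lit 5) (nat_lit 221) (nat_lit 212) (nat_lit 167))))))) (XT.nd (nat_lit 780) (nat_lit 228) (nat_lit 0) (XT.nd (nat_lit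 390) (nat_lit 228) (nat_lit 0) (XT.nd (nat_lit 156) (nat_lit 304) (nat_lit 0) (XT.nd (nat_lit 78) (nat_lit 76) (nat_lit 0) (XT.lf (nat_lit 0) (nat_lit 13235174540) (nat_lit 152) (nat_lit 30115140191) (nat_lit 228) (nat_lit 8420205506) (nat_lit 13) (nat_lit 5) (nat_lit 15) (nat_lit 5) (nat_lit 16) (nat_lit 5) (nat_lit 222) (nat_lit 212) (nat_lit 166)) (XT.lf (nat_lit 0) (nat_lit 298873776) (nat_lit 228) (nat_lit 7284731279) (nat_lit 76) (nat_lit 49690171126) (nat_lit 12) (nat_lit 5) (nat_lit 15) (nat_lit 5) (nat_lit 13) (nat_lit 5) (nat_lit 223) (nat_lit 212) (nat_lit 165))) (XT.nd (nat_lit 78) (nat_lit 152) (nat_lit 0) (XT.lf (nat_lit 0) (nat_lit 11015349651) (nat_lit 228) (nat_lit 34090187601) (nat_lit 76) (nat_lit 18384523839) (nat_lit 10) (nat_lit 5) (nat_lit 13) (nat_lit 5) (nat_lit 11) (nat_lit 5) (nat_lit 224) (nat_lit 212) (nat_lit 164)) (XT.nd (nat_lit 78) (nat_lit 0) (nat_lit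 0) (XT.lf (nat_lit 0) (nat_lit 1239765670) (nat_lit 152) (nat_lit 22547037365) (nat_lit 228) (nat_lit 46816259550) (nat_lit 8) (nat_lit 5) (nat_lit 10) (nat_lit 5) (nat_lit 11) (nat_lit 5) (nat_lit 225) (nat_lit 212) (nat_lit 163)) (XT.lf (nat_lit 0) (nat_lit 39565132164) (nat_lit 228) (nat_lit 34890457289) (nat_lit 76) (nat_lit 4240196877) (nat_lit 8) (nat_lit 5) (nat_lit 11) (nat_lit 5) (nat_lit 9) (nat_lit 4) (nat_lit 226) (nat_lit 212) (nat_lit 162))))) (XT.nd (nat_lit 156) (nat_lit 152) (nat_lit 0) (XT.nd (nat_lit 78) (nat_lit 0) (nat_lit 0) (XT.lf (nat_lit 0) (nat_lit 4335259972) (nat_lit 76) (nat_lit 54095177678) (nat_lit 152) (nat_lit 29514419035) (nat_lit 7) (nat_lit 5) (nat_lit 8) (nat_lit 5) (nat_lit 9) (nat_lit 4) (nat_lit 227) (nat_lit 212) (nat_lit 161)) (XT.lf (nat_lit 0) (nat_lit 51547332863) (nat_lit 76) (nat_lit 29587118992) (nat_lit 152) (nat_lit 17366171589) (nat_lit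 7) (nat_lit 5) (nat_lit 8) (nat_lit 5) (nat_lit 9) (nat_lit 4) (nat_lit 228) (nat_lit 212) (nat_lit 160))) (XT.nd (nat_lit 78) (nat_lit 152) (nat_lit 0) (XT.lf (nat_lit 0) (nat_lit 105832206201) (nat_lit 76) (nat_lit 1405874831) (nat_lit 152) (nat_lit 3402195660) (nat_lit 7) (nat_lit 5) (nat_lit 8) (nat_lit 5) (nat_lit 9) (nat_lit 4) (nat_lit 229) (nat_lit 212) (nat_lit 159)) (XT.nd (nat_lit 78) (nat_lit 0) (nat_lit 0) (XT.lf (nat_lit 0) (nat_lit 13897208828) (nat_lit 152) (nat_lit 79642217915) (nat_lit 76) (nat_lit 30887218082) (nat_lit 5) (nat_lit 5) (nat_lit 7) (nat_lit 5) (nat_lit 6) (nat_lit 4) (nat_lit 230) (nat_lit 212) (nat_lit 158)) (XT.lf (nat_lit 0) (nat_lit 33773386896) (nat_lit 152) (nat_lit 38307241699) (nat_lit 76) (nat_lit 68178634975) (nat_lit 5) (nat_lit 5) (nat_lit 7) (nat_lit 5) (nat_lit 6) (nat_lit 4) (nat_lit 231) (nat_lit 212) (nat_lit 157)))))) (XT.nd (nat_lit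 390) (nat_lit 76) (nat_lit 0) (XT.nd (nat_lit 156) (nat_lit 76) (nat_lit 0) (XT.nd (nat_lit 78) (nat_lit 0) (nat_lit 0) (XT.lf (nat_lit 0) (nat_lit 9706753921) (nat_lit 76) (nat_lit 47153409366) (nat_lit 152) (nat_lit 101588303987) (nat_lit 4) (nat_lit 5) (nat_lit 5) (nat_lit 5) (nat_lit 6) (nat_lit 4) (nat_lit 232) (nat_lit 212) (nat_lit 156)) (XT.lf (nat_lit 0) (nat_lit 67236396328) (nat_lit 76) (nat_lit 17284965974) (nat_lit 152) (nat_lit 94755799241) (nat_lit 4) (nat_lit 5) (nat_lit 5) (nat_lit 5) (nat_lit 6) (nat_lit 4) (nat_lit 233) (nat_lit 212) (nat_lit 155))) (XT.nd (nat_lit 78) (nat_lit 76) (nat_lit 0) (XT.lf (nat_lit 0) (nat_lit 116738711929) (nat_lit 152) (nat_lit 70250708783) (nat_lit 0) (nat_lit 16208201145) (nat_lit 4) (nat_lit 5) (nat_lit 6) (nat_lit 4) (nat_lit 4) (nat_lit 4) (nat_lit 234) (nat_lit 212) (nat_lit 154)) (XT.nd (nat_lit 78) (nat_lit 76) (nat_lit 0) (XT.lf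 (nat_lit 0) (nat_lit 154263755867) (nat_lit 152) (nat_lit 22675116766) (nat_lit 0) (nat_lit 53729288251) (nat_lit 4) (nat_lit 5) (nat_lit 6) (nat_lit 4) (nat_lit 4) (nat_lit 4) (nat_lit 235) (nat_lit 212) (nat_lit 153)) (XT.lf (nat_lit 0) (nat_lit 33719318351) (nat_lit 76) (nat_lit 164506607977) (nat_lit 76) (nat_lit 63968699638) (nat_lit 3) (nat_lit 4) (nat_lit 4) (nat_lit 5) (nat_lit 4) (nat_lit 4) (nat_lit 236) (nat_lit 212) (nat_lit 152))))) (XT.nd (nat_lit 156) (nat_lit 76) (nat_lit 0) (XT.nd (nat_lit 78) (nat_lit 0) (nat_lit 0) (XT.lf (nat_lit 0) (nat_lit 99942144002) (nat_lit 76) (nat_lit 149498102025) (nat_lit 76) (nat_lit 48957201753) (nat_lit 3) (nat_lit 4) (nat_lit 4) (nat_lit 5) (nat_lit 4) (nat_lit 4) (nat_lit 237) (nat_lit 212) (nat_lit 151)) (XT.lf (nat_lit 0) (nat_lit 176094992703) (nat_lit 76) (nat_lit 132239687973) (nat_lit 76) (nat_lit 31696186020) (nat_lit 3) (nat_lit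 4) (nat_lit 4) (nat_lit 5) (nat_lit 4) (nat_lit 4) (nat_lit 238) (nat_lit 212) (nat_lit 150))) (XT.nd (nat_lit 78) (nat_lit 76) (nat_lit 0) (XT.lf (nat_lit 0) (nat_lit 263667811493) (nat_lit 76) (nat_lit 112393701198) (nat_lit 76) (nat_lit 11847936913) (nat_lit 3) (nat_lit 4) (nat_lit 4) (nat_lit 5) (nat_lit 4) (nat_lit 4) (nat_lit 239) (nat_lit 212) (nat_lit 149)) (XT.nd (nat_lit 78) (nat_lit 0) (nat_lit 0) (XT.lf (nat_lit 0) (nat_lit 10426822861) (nat_lit 152) (nat_lit 78859939976) (nat_lit 76) (nat_lit 353662070931) (nat_lit 2) (nat_lit 5) (nat_lit 4) (nat_lit 5) (nat_lit 3) (nat_lit 4) (nat_lit 240) (nat_lit 212) (nat_lit 148)) (XT.lf (nat_lit 0) (nat_lit 35359834103) (nat_lit 152) (nat_lit 27000987242) (nat_lit 76) (nat_lit 443857206530) (nat_lit 2) (nat_lit 5) (nat_lit 4) (nat_lit 5) (nat_lit 3) (nat_lit 4) (nat_lit 241) (nat_lit 212) (nat_lit 147))))))))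
noncomputable def xc42 : XT := (XT.nd (nat_lit 29094) (nat_lit 0) (nat_lit 228) (XT.nd (nat_lit 702) (nat_lit 0) (nat_lit 0) (XT.nd (nat_lit 312) (nat_lit 0) (nat_lit 0) (XT.nd (nat_lit 156) (nat_lit 0) (nat_lit 0) (XT.nd (nat_lit 78) (nat_lit 0) (nat_lit 0) (XT.lf (nat_lit 0) (nat_lit 34353285411) (nat_lit 76) (nat_lit 30504510313) (nat_lit 152) (nat_lit 514053811400) (nat_lit 1) (nat_lit 5) (nat_lit 2) (nat_lit 5) (nat_lit 3) (nat_lit 4) (nat_lit 242) (nat_lit 212) (nat_lit 146)) (XT.lf (nat_lit 0) (nat_lit 99733302365) (nat_lit 152) (nat_lit 556070305982) (nat_lit 0) (nat_lit 6629392001) (nat_lit 1) (nat_lit 5) (nat_lit 3) (nat_lit 4) (nat_lit 1) (nat_lit 4) (nat_lit 243) (nat_lit 212) (nat_lit 145))) (XT.nd (nat_lit 78) (nat_lit 0) (nat_lit 0) (XT.lf (nat_lit 0) (nat_lit 140682853628) (nat_lit 152) (nat_lit 570154434114) (nat_lit 0) (nat_lit 47577901803) (nat_lit 1) (nat_lit 5)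 (nat_lit 3) (nat_lit 4) (nat_lit 1) (nat_lit 4) (nat_lit 244) (nat_lit 212) (nat_lit 144)) (XT.lf (nat_lit 0) (nat_lit 187774002179) (nat_lit 152) (nat_lit 586352630931) (nat_lit 0) (nat_lit 94668144736) (nat_lit 1) (nat_lit 5) (nat_lit 3) (nat_lit 4) (nat_lit 1) (nat_lit 4) (nat_lit 245) (nat_lit 212) (nat_lit 143)))) (XT.nd (nat_lit 156) (nat_lit 0) (nat_lit 0) (XT.nd (nat_lit 78) (nat_lit 0) (nat_lit 0) (XT.lf (nat_lit 0) (nat_lit 241928096578) (nat_lit 152) (nat_lit 604981817675) (nat_lit 0) (nat_lit 148821451640) (nat_lit 1) (nat_lit 5) (nat_lit 3) (nat_lit 4) (nat_lit 1) (nat_lit 4) (nat_lit 246) (nat_lit 212) (nat_lit 142)) (XT.lf (nat_lit 0) (nat_lit 304204673454) (nat_lit 152) (nat_lit 626406478435) (nat_lit 0) (nat_lit 211097343738) (nat_lit 1) (nat_lit 5) (nat_lit 3) (nat_lit 4) (nat_lit 1) (nat_lit 4) (nat_lit 247) (nat_lit 212) (nat_lit 141))) (XT.nd (nat_lit 78) (nat_lit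 0) (nat_lit 0) (XT.lf (nat_lit 0) (nat_lit 375822187572) (nat_lit 152) (nat_lit 651045791356) (nat_lit 0) (nat_lit 282714262397) (nat_lit 1) (nat_lit 5) (nat_lit 3) (nat_lit 4) (nat_lit 1) (nat_lit 4) (nat_lit 248) (nat_lit 212) (nat_lit 140)) (XT.nd (nat_lit 78) (nat_lit 0) (nat_lit 0) (XT.lf (nat_lit 0) (nat_lit 458181851165) (nat_lit 152) (nat_lit 679381829952) (nat_lit 0) (nat_lit 365073408199) (nat_lit 1) (nat_lit 5) (nat_lit 3) (nat_lit 4) (nat_lit 1) (nat_lit 4) (nat_lit 249) (nat_lit 212) (nat_lit 139)) (XT.lf (nat_lit 0) (nat_lit 552895048954) (nat_lit 152) (nat_lit 711968994978) (nat_lit 0) (nat_lit 459786155736) (nat_lit 1) (nat_lit 5) (nat_lit 3) (nat_lit 4) (nat_lit 1) (nat_lit 4) (nat_lit 250) (nat_lit 212) (nat_lit 138)))))) (XT.nd (nat_lit 390) (nat_lit 0) (nat_lit 0) (XT.nd (nat_lit 156) (nat_lit 0) (nat_lit 0) (XT.nd (nat_lit 78) (nat_lit 0) (nat_lit 0) (XT.lf (nat_lit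 0) (nat_lit 661814865246) (nat_lit 152) (nat_lit 749444861401) (nat_lit 0) (nat_lit 568705580503) (nat_lit 1) (nat_lit 5) (nat_lit 3) (nat_lit 4) (nat_lit 1) (nat_lit 4) (nat_lit 251) (nat_lit 212) (nat_lit 137)) (XT.lf (nat_lit 0) (nat_lit 787072339923) (nat_lit 152) (nat_lit 792542652696) (nat_lit 0) (nat_lit 693962714725) (nat_lit 1) (nat_lit 5) (nat_lit 3) (nat_lit 4) (nat_lit 1) (nat_lit 4) (nat_lit 252) (nat_lit 212) (nat_lit 136))) (XT.nd (nat_lit 78) (nat_lit 0) (nat_lit 0) (XT.lf (nat_lit 0) (nat_lit 931118162707) (nat_lit 152) (nat_lit 842105586518) (nat_lit 0) (nat_lit 838008241461) (nat_lit 1) (nat_lit 5) (nat_lit 3) (nat_lit 4) (nat_lit 1) (nat_lit 4) (nat_lit 253) (nat_lit 212) (nat_lit 135)) (XT.nd (nat_lit 78) (nat_lit 0) (nat_lit 0) (XT.lf (nat_lit 0) (nat_lit 1096770621437) (nat_lit 152) (nat_lit 899103372442) (nat_lit 0) (nat_lit 1003660442757) (nat_lit 1) (nat_lit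 5) (nat_lit 3) (nat_lit 4) (nat_lit 1) (nat_lit 4) (nat_lit 254) (nat_lit 212) (nat_lit 134)) (XT.lf (nat_lit 0) (nat_lit 1287270742477) (nat_lit 152) (nat_lit 964651184540) (nat_lit 0) (nat_lit 1194160339942) (nat_lit 1) (nat_lit 5) (nat_lit 3) (nat_lit 4) (nat_lit 1) (nat_lit 4) (nat_lit 255) (nat_lit 212) (nat_lit 133))))) (XT.nd (nat_lit 156) (nat_lit 0) (nat_lit 0) (XT.nd (nat_lit 78) (nat_lit 0) (nat_lit 0) (XT.lf (nat_lit 0) (nat_lit 1506345702110) (nat_lit 152) (nat_lit 1040031480005) (nat_lit 0) (nat_lit 1413235104918) (nat_lit 1) (nat_lit 5) (nat_lit 3) (nat_lit 4) (nat_lit 1) (nat_lit 4) (nat_lit 256) (nat_lit 212) (nat_lit 132)) (XT.lf (nat_lit 0) (nat_lit 1758281749545) (nat_lit 152) (nat_lit 1126719090706) (nat_lit 0) (nat_lit 1665170983087) (nat_lit 1) (nat_lit 5) (nat_lit 3) (nat_lit 4) (nat_lit 1) (nat_lit 4) (nat_lit 257) (nat_lit 212) (nat_lit 131))) (XT.nd (nat_lit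 78) (nat_lit 0) (nat_lit 0) (XT.lf (nat_lit 0) (nat_lit 2048008068320) (nat_lit 152) (nat_lit 1226410078590) (nat_lit 0) (nat_lit 1954897154673) (nat_lit 1) (nat_lit 5) (nat_lit 3) (nat_lit 4) (nat_lit 1) (nat_lit 4) (nat_lit 258) (nat_lit 212) (nat_lit 130)) (XT.nd (nat_lit 27690) (nat_lit 0) (nat_lit 1976) (XT.lf (nat_lit 0) (nat_lit 2381193216845) (nat_lit 152) (nat_lit 1341054919509) (nat_lit 0) (nat_lit 2288082175208) (nat_lit 1) (nat_lit 5) (nat_lit 3) (nat_lit 4) (nat_lit 1) (nat_lit 4) (nat_lit 259) (nat_lit 212) (nat_lit 129)) (XT.lf (nat_lit 0) (nat_lit 5234536187) (nat_lit 0) (nat_lit 5234536187) (nat_lit 380) (nat_lit 2294311746) (nat_lit 27) (nat_lit 5) (nat_lit 27) (nat_lit 3) (nat_lit 32) (nat_lit 3) (nat_lit 213) (nat_lit 213) (nat_lit 174))))))) (XT.nd (nat_lit 780) (nat_lit 684) (nat_lit 0) (XT.nd (nat_lit 390) (nat_lit 760) (nat_lit 0) (XT.nd (nat_lit 156) (nat_lit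 304) (nat_lit 0) (XT.nd (nat_lit 78) (nat_lit 0) (nat_lit 0) (XT.lf (nat_lit 76) (nat_lit 2576667246) (nat_lit 0) (nat_lit 20319662822) (nat_lit 456) (nat_lit 4512206684) (nat_lit 28) (nat_lit 5) (nat_lit 27) (nat_lit 5) (nat_lit 33) (nat_lit 5) (nat_lit 214) (nat_lit 213) (nat_lit 173)) (XT.lf (nat_lit 76) (nat_lit 23446498248) (nat_lit 0) (nat_lit 2395921378) (nat_lit 456) (nat_lit 3674921833) (nat_lit 28) (nat_lit 5) (nat_lit 27) (nat_lit 5) (nat_lit 33) (nat_lit 5) (nat_lit 215) (nat_lit 213) (nat_lit 172))) (XT.nd (nat_lit 78) (nat_lit 380) (nat_lit 0) (XT.lf (nat_lit 76) (nat_lit 15841843472) (nat_lit 0) (nat_lit 14184899914) (nat_lit 456) (nat_lit 1852283071) (nat_lit 29) (nat_lit 5) (nat_lit 28) (nat_lit 5) (nat_lit 34) (nat_lit 5) (nat_lit 216) (nat_lit 213) (nat_lit 171)) (XT.nd (nat_lit 78) (nat_lit 0) (nat_lit 0) (XT.lf (nat_lit 0) (nat_lit 784116672) (nat_lit 456) (nat_lit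 27628900912) (nat_lit 76) (nat_lit 6137486516) (nat_lit 23) (nat_lit 5) (nat_lit 29) (nat_lit 5) (nat_lit 24) (nat_lit 5) (nat_lit 217) (nat_lit 213) (nat_lit 170)) (XT.lf (nat_lit 0) (nat_lit 4562285479) (nat_lit 456) (nat_lit 3762737816) (nat_lit 76) (nat_lit 29225538108) (nat_lit 23) (nat_lit 5) (nat_lit 29) (nat_lit 5) (nat_lit 24) (nat_lit 5) (nat_lit 218) (nat_lit 213) (nat_lit 169))))) (XT.nd (nat_lit 156) (nat_lit 304) (nat_lit 0) (XT.nd (nat_lit 78) (nat_lit 228) (nat_lit 0) (XT.lf (nat_lit 0) (nat_lit 9861268120) (nat_lit 304) (nat_lit 16410261037) (nat_lit 76) (nat_lit 14652932549) (nat_lit 20) (nat_lit 5) (nat_lit 24) (nat_lit 5) (nat_lit 21) (nat_lit 5) (nat_lit 219) (nat_lit 213) (nat_lit 168)) (XT.lf (nat_lit 0) (nat_lit 12860182511) (nat_lit 228) (nat_lit 3732558829) (nat_lit 304) (nat_lit 28160834679) (nat_lit 17) (nat_lit 5) (nat_lit 20) (nat_lit 5) (nat_lit 21) (nat_lit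 5) (nat_lit 220) (nat_lit 213) (nat_lit 167))) (XT.nd (nat_lit 78) (nat_lit 304) (nat_lit 0) (XT.lf (nat_lit 0) (nat_lit 25344943049) (nat_lit 304) (nat_lit 2164659165) (nat_lit 76) (nat_lit 21566696772) (nat_lit 17) (nat_lit 5) (nat_lit 21) (nat_lit 5) (nat_lit 18) (nat_lit 5) (nat_lit 221) (nat_lit 213) (nat_lit 166)) (XT.nd (nat_lit 78) (nat_lit 152) (nat_lit 0) (XT.lf (nat_lit 0) (nat_lit 33587502176) (nat_lit 152) (nat_lit 2722379300) (nat_lit 228) (nat_lit 17665662583) (nat_lit 15) (nat_lit 5) (nat_lit 17) (nat_lit 5) (nat_lit 18) (nat_lit 5) (nat_lit 222) (nat_lit 213) (nat_lit 165)) (XT.lf (nat_lit 0) (nat_lit 15363158571) (nat_lit 152) (nat_lit 34600640803) (nat_lit 228) (nat_lit 9562429754) (nat_lit 13) (nat_lit 5) (nat_lit 15) (nat_lit 5) (nat_lit 16) (nat_lit 5) (nat_lit 223) (nat_lit 213) (nat_lit 164)))))) (XT.nd (nat_lit 390) (nat_lit 228) (nat_lit 0) (XT.nd (nat_lit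 156) (nat_lit 228) (nat_lit 0) (XT.nd (nat_lit 78) (nat_lit 152) (nat_lit 0) (XT.lf (nat_lit 0) (nat_lit 443499055) (nat_lit 228) (nat_lit 8247291759) (nat_lit 76) (nat_lit 57165267815) (nat_lit 12) (nat_lit 5) (nat_lit 15) (nat_lit 5) (nat_lit 13) (nat_lit 5) (nat_lit 224) (nat_lit 213) (nat_lit 163)) (XT.lf (nat_lit 0) (nat_lit 12758004055) (nat_lit 228) (nat_lit 39077424792) (nat_lit 76) (nat_lit 21170217214) (nat_lit 10) (nat_lit 5) (nat_lit 13) (nat_lit 5) (nat_lit 11) (nat_lit 5) (nat_lit 225) (nat_lit 213) (nat_lit 162))) (XT.nd (nat_lit 78) (nat_lit 76) (nat_lit 0) (XT.lf (nat_lit 0) (nat_lit 1541331571) (nat_lit 152) (nat_lit 25894839047) (nat_lit 228) (nat_lit 53750238336) (nat_lit 8) (nat_lit 5) (nat_lit 10) (nat_lit 5) (nat_lit 11) (nat_lit 5) (nat_lit 226) (nat_lit 213) (nat_lit 161)) (XT.nd (nat_lit 78) (nat_lit 76) (nat_lit 0) (XT.lf (nat_lit 0) (nat_lit 45571354975)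 (nat_lit 228) (nat_lit 40018034349) (nat_lit 76) (nat_lit 4904522411) (nat_lit 8) (nat_lit 5) (nat_lit 11) (nat_lit 5) (nat_lit 9) (nat_lit 4) (nat_lit 227) (nat_lit 213) (nat_lit 160)) (XT.lf (nat_lit 0) (nat_lit 5082568846) (nat_lit 76) (nat_lit 62176900815) (nat_lit 152) (nat_lit 33871500564) (nat_lit 7) (nat_lit 5) (nat_lit 8) (nat_lit 5) (nat_lit 9) (nat_lit 4) (nat_lit 228) (nat_lit 213) (nat_lit 159))))) (XT.nd (nat_lit 156) (nat_lit 228) (nat_lit 0) (XT.nd (nat_lit 78) (nat_lit 0) (nat_lit 0) (XT.lf (nat_lit 0) (nat_lit 59363797903) (nat_lit 76) (nat_lit 33996879436) (nat_lit 152) (nat_lit 19910157044) (nat_lit 7) (nat_lit 5) (nat_lit 8) (nat_lit 5) (nat_lit 9) (nat_lit 4) (nat_lit 229) (nat_lit 213) (nat_lit 158)) (XT.lf (nat_lit 0) (nat_lit 121780398097) (nat_lit 76) (nat_lit 1592140921) (nat_lit 152) (nat_lit 3859533457) (nat_lit 7) (nat_lit 5) (nat_lit 8) (nat_lit 5) (nat_lit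 9) (nat_lit 4) (nat_lit 230) (nat_lit 213) (nat_lit 157))) (XT.nd (nat_lit 78) (nat_lit 76) (nat_lit 0) (XT.lf (nat_lit 0) (nat_lit 16027832284) (nat_lit 152) (nat_lit 91515351697) (nat_lit 76) (nat_lit 35543495570) (nat_lit 5) (nat_lit 5) (nat_lit 7) (nat_lit 5) (nat_lit 6) (nat_lit 4) (nat_lit 231) (nat_lit 213) (nat_lit 156)) (XT.nd (nat_lit 78) (nat_lit 76) (nat_lit 0) (XT.lf (nat_lit 0) (nat_lit 38879431567) (nat_lit 152) (nat_lit 43989676732) (nat_lit 76) (nat_lit 78425599591) (nat_lit 5) (nat_lit 5) (nat_lit 7) (nat_lit 5) (nat_lit 6) (nat_lit 4) (nat_lit 232) (nat_lit 213) (nat_lit 155)) (XT.lf (nat_lit 0) (nat_lit 11221030472) (nat_lit 76) (nat_lit 54204373013) (nat_lit 152) (nat_lit 116787225942) (nat_lit 4) (nat_lit 5) (nat_lit 5) (nat_lit 5) (nat_lit 6) (nat_lit 4) (nat_lit 233) (nat_lit 213) (nat_lit 154))))))))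
noncomputable def xc43 : XT := (XT.nd (nat_lit 1560) (nat_lit 0) (nat_lit 0) (XT.nd (nat_lit 780) (nat_lit 0) (nat_lit 0) (XT.nd (nat_lit 390) (nat_lit 152) (nat_lit 0) (XT.nd (nat_lit 156) (nat_lit 76) (nat_lit 0) (XT.nd (nat_lit 78) (nat_lit 0) (nat_lit 0) (XT.lf (nat_lit 0) (nat_lit 77372519658) (nat_lit 76) (nat_lit 19858538906) (nat_lit 152) (nat_lit 108934974656) (nat_lit 4) (nat_lit 5) (nat_lit 5) (nat_lit 5) (nat_lit 6) (nat_lit 4) (nat_lit 234) (nat_lit 213) (nat_lit 153)) (XT.lf (nat_lit 0) (nat_lit 134277303938) (nat_lit 152) (nat_lit 80742310449) (nat_lit 0) (nat_lit 18655268626) (nat_lit 4) (nat_lit 5) (nat_lit 6) (nat_lit 4) (nat_lit 4) (nat_lit 4) (nat_lit 235) (nat_lit 213) (nat_lit 152))) (XT.nd (nat_lit 78) (nat_lit 76) (nat_lit 0) (XT.lf (nat_lit 0) (nat_lit 177427480308) (nat_lit 152) (nat_lit 26036380236) (nat_lit 0) (nat_lit 61802453062) (nat_lit 4) (nat_lit 5)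 (nat_lit 6) (nat_lit 4) (nat_lit 4) (nat_lit 4) (nat_lit 236) (nat_lit 213) (nat_lit 151)) (XT.nd (nat_lit 78) (nat_lit 0) (nat_lit 0) (XT.lf (nat_lit 0) (nat_lit 38813834005) (nat_lit 76) (nat_lit 189167871551) (nat_lit 76) (nat_lit 73540242624) (nat_lit 3) (nat_lit 4) (nat_lit 4) (nat_lit 5) (nat_lit 4) (nat_lit 4) (nat_lit 237) (nat_lit 213) (nat_lit 150)) (XT.lf (nat_lit 0) (nat_lit 114965307256) (nat_lit 76) (nat_lit 171910010701) (nat_lit 76) (nat_lit 56280119442) (nat_lit 3) (nat_lit 4) (nat_lit 4) (nat_lit 5) (nat_lit 4) (nat_lit 4) (nat_lit 238) (nat_lit 213) (nat_lit 149))))) (XT.nd (nat_lit 156) (nat_lit 152) (nat_lit 0) (XT.nd (nat_lit 78) (nat_lit 0) (nat_lit 0) (XT.lf (nat_lit 0) (nat_lit 202536930003) (nat_lit 76) (nat_lit 152064504971) (nat_lit 76) (nat_lit 36432646467) (nat_lit 3) (nat_lit 4) (nat_lit 4) (nat_lit 5) (nat_lit 4) (nat_lit 4) (nat_lit 239) (nat_lit 213)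 (nat_lit 148)) (XT.lf (nat_lit 0) (nat_lit 303242060081) (nat_lit 76) (nat_lit 129243072727) (nat_lit 76) (nat_lit 13609503575) (nat_lit 3) (nat_lit 4) (nat_lit 4) (nat_lit 5) (nat_lit 4) (nat_lit 4) (nat_lit 240) (nat_lit 213) (nat_lit 147))) (XT.nd (nat_lit 78) (nat_lit 76) (nat_lit 0) (XT.lf (nat_lit 0) (nat_lit 12003752643) (nat_lit 152) (nat_lit 90667251172) (nat_lit 76) (nat_lit 406719058741) (nat_lit 2) (nat_lit 5) (nat_lit 4) (nat_lit 5) (nat_lit 3) (nat_lit 4) (nat_lit 241) (nat_lit 213) (nat_lit 146)) (XT.nd (nat_lit 78) (nat_lit 76) (nat_lit 0) (XT.lf (nat_lit 0) (nat_lit 40675032133) (nat_lit 152) (nat_lit 31032283328) (nat_lit 76) (nat_lit 510442463310) (nat_lit 2) (nat_lit 5) (nat_lit 4) (nat_lit 5) (nat_lit 3) (nat_lit 4) (nat_lit 242) (nat_lit 213) (nat_lit 145)) (XT.lf (nat_lit 0) (nat_lit 39523534495) (nat_lit 76) (nat_lit 35073104658) (nat_lit 152) (nat_lit 591150846894)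 (nat_lit 1) (nat_lit 5) (nat_lit 2) (nat_lit 5) (nat_lit 3) (nat_lit 4) (nat_lit 243) (nat_lit 213) (nat_lit 144)))))) (XT.nd (nat_lit 390) (nat_lit 0) (nat_lit 0) (XT.nd (nat_lit 156) (nat_lit 0) (nat_lit 0) (XT.nd (nat_lit 78) (nat_lit 0) (nat_lit 0) (XT.lf (nat_lit 0) (nat_lit 114702292847) (nat_lit 152) (nat_lit 639465244844) (nat_lit 0) (nat_lit 7629651168) (nat_lit 1) (nat_lit 5) (nat_lit 3) (nat_lit 4) (nat_lit 1) (nat_lit 4) (nat_lit 244) (nat_lit 213) (nat_lit 143)) (XT.lf (nat_lit 0) (nat_lit 161793103522) (nat_lit 152) (nat_lit 655664027896) (nat_lit 0) (nat_lit 54719674349) (nat_lit 1) (nat_lit 5) (nat_lit 3) (nat_lit 4) (nat_lit 1) (nat_lit 4) (nat_lit 245) (nat_lit 213) (nat_lit 142))) (XT.nd (nat_lit 78) (nat_lit 0) (nat_lit 0) (XT.lf (nat_lit 0) (nat_lit 215946904115) (nat_lit 152) (nat_lit 674293724409) (nat_lit 0) (nat_lit 108872790164) (nat_lit 1) (nat_lit 5) (nat_lit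 3) (nat_lit 4) (nat_lit 1) (nat_lit 4) (nat_lit 246) (nat_lit 213) (nat_lit 141)) (XT.nd (nat_lit 78) (nat_lit 0) (nat_lit 0) (XT.lf (nat_lit 0) (nat_lit 278223225508) (nat_lit 152) (nat_lit 695718828447) (nat_lit 0) (nat_lit 171148516097) (nat_lit 1) (nat_lit 5) (nat_lit 3) (nat_lit 4) (nat_lit 1) (nat_lit 4) (nat_lit 247) (nat_lit 213) (nat_lit 140)) (XT.lf (nat_lit 0) (nat_lit 349840517466) (nat_lit 152) (nat_lit 720358526827) (nat_lit 0) (nat_lit 242765290265) (nat_lit 1) (nat_lit 5) (nat_lit 3) (nat_lit 4) (nat_lit 1) (nat_lit 4) (nat_lit 248) (nat_lit 213) (nat_lit 139))))) (XT.nd (nat_lit 156) (nat_lit 0) (nat_lit 0) (XT.nd (nat_lit 78) (nat_lit 0) (nat_lit 0) (XT.lf (nat_lit 0) (nat_lit 432199987876) (nat_lit 152) (nat_lit 748694900605) (nat_lit 0) (nat_lit 325124310423) (nat_lit 1) (nat_lit 5) (nat_lit 3) (nat_lit 4) (nat_lit 1) (nat_lit 4) (nat_lit 249) (nat_lit 213) (nat_lit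 138)) (XT.lf (nat_lit 0) (nat_lit 526913017682) (nat_lit 152) (nat_lit 781282357093) (nat_lit 0) (nat_lit 419836948704) (nat_lit 1) (nat_lit 5) (nat_lit 3) (nat_lit 4) (nat_lit 1) (nat_lit 4) (nat_lit 250) (nat_lit 213) (nat_lit 137))) (XT.nd (nat_lit 78) (nat_lit 0) (nat_lit 0) (XT.lf (nat_lit 0) (nat_lit 635832687899) (nat_lit 152) (nat_lit 818758476962) (nat_lit 0) (nat_lit 528756278466) (nat_lit 1) (nat_lit 5) (nat_lit 3) (nat_lit 4) (nat_lit 1) (nat_lit 4) (nat_lit 251) (nat_lit 213) (nat_lit 136)) (XT.nd (nat_lit 78) (nat_lit 0) (nat_lit 0) (XT.lf (nat_lit 0) (nat_lit 761090035556) (nat_lit 152) (nat_lit 861856488644) (nat_lit 0) (nat_lit 654013330074) (nat_lit 1) (nat_lit 5) (nat_lit 3) (nat_lit 4) (nat_lit 1) (nat_lit 4) (nat_lit 252) (nat_lit 213) (nat_lit 135)) (XT.lf (nat_lit 0) (nat_lit 905135747888) (nat_lit 152) (nat_lit 911419614107) (nat_lit 0) (nat_lit 798058784973)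 (nat_lit 1) (nat_lit 5) (nat_lit 3) (nat_lit 4) (nat_lit 1) (nat_lit 4) (nat_lit 253) (nat_lit 213) (nat_lit 134))))))) (XT.nd (nat_lit 28470) (nat_lit 0) (nat_lit 532) (XT.nd (nat_lit 390) (nat_lit 0) (nat_lit 0) (XT.nd (nat_lit 156) (nat_lit 0) (nat_lit 0) (XT.nd (nat_lit 78) (nat_lit 0) (nat_lit 0) (XT.lf (nat_lit 0) (nat_lit 1070788110572) (nat_lit 152) (nat_lit 968417566675) (nat_lit 0) (nat_lit 963710923801) (nat_lit 1) (nat_lit 5) (nat_lit 3) (nat_lit 4) (nat_lit 1) (nat_lit 4) (nat_lit 254) (nat_lit 213) (nat_lit 133)) (XT.lf (nat_lit 0) (nat_lit 1261288148094) (nat_lit 152) (nat_lit 1033965523681) (nat_lit 0) (nat_lit 1154210766667) (nat_lit 1) (nat_lit 5) (nat_lit 3) (nat_lit 4) (nat_lit 1) (nat_lit 4) (nat_lit 255) (nat_lit 213) (nat_lit 132))) (XT.nd (nat_lit 78) (nat_lit 0) (nat_lit 0) (XT.lf (nat_lit 0) (nat_lit 1480363035102) (nat_lit 152) (nat_lit 1109345945154) (nat_lit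 0) (nat_lit 1373285484409) (nat_lit 1) (nat_lit 5) (nat_lit 3) (nat_lit 4) (nat_lit 1) (nat_lit 4) (nat_lit 256) (nat_lit 213) (nat_lit 131)) (XT.nd (nat_lit 78) (nat_lit 0) (nat_lit 0) (XT.lf (nat_lit 0) (nat_lit 1732299019386) (nat_lit 152) (nat_lit 1196033665426) (nat_lit 0) (nat_lit 1625221321504) (nat_lit 1) (nat_lit 5) (nat_lit 3) (nat_lit 4) (nat_lit 1) (nat_lit 4) (nat_lit 257) (nat_lit 213) (nat_lit 130)) (XT.lf (nat_lit 0) (nat_lit 2022025283246) (nat_lit 152) (nat_lit 1295724748590) (nat_lit 0) (nat_lit 1914947457374) (nat_lit 1) (nat_lit 5) (nat_lit 3) (nat_lit 4) (nat_lit 1) (nat_lit 4) (nat_lit 258) (nat_lit 213) (nat_lit 129))))) (XT.nd (nat_lit 27846) (nat_lit 0) (nat_lit 1976) (XT.nd (nat_lit 27768) (nat_lit 0) (nat_lit 1976) (XT.lf (nat_lit 0) (nat_lit 2355210384019) (nat_lit 152) (nat_lit 1410369672360) (nat_lit 0) (nat_lit 2248132446852) (nat_lit 1) (nat_lit 5) (nat_lit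 3) (nat_lit 4) (nat_lit 1) (nat_lit 4) (nat_lit 259) (nat_lit 213) (nat_lit 128)) (XT.lf (nat_lit 0) (nat_lit 6090632889) (nat_lit 0) (nat_lit 6090632889) (nat_lit 380) (nat_lit 2483637144) (nat_lit 27) (nat_lit 5) (nat_lit 27) (nat_lit 3) (nat_lit 32) (nat_lit 3) (nat_lit 214) (nat_lit 214) (nat_lit 172))) (XT.nd (nat_lit 78) (nat_lit 0) (nat_lit 0) (XT.lf (nat_lit 76) (nat_lit 3119895561) (nat_lit 0) (nat_lit 23458352485) (nat_lit 456) (nat_lit 4918915723) (nat_lit 28) (nat_lit 5) (nat_lit 27) (nat_lit 5) (nat_lit 33) (nat_lit 5) (nat_lit 215) (nat_lit 214) (nat_lit 171)) (XT.nd (nat_lit 78) (nat_lit 0) (nat_lit 76) (XT.lf (nat_lit 76) (nat_lit 27099758401) (nat_lit 0) (nat_lit 2834214141) (nat_lit 456) (nat_lit 3991271444) (nat_lit 28) (nat_lit 5) (nat_lit 27) (nat_lit 5) (nat_lit 33) (nat_lit 5) (nat_lit 216) (nat_lit 214) (nat_lit 170)) (XT.lf (nat_lit 76) (nat_lit 18362637852)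 (nat_lit 0) (nat_lit 16357064278) (nat_lit 456) (nat_lit 1923902956) (nat_lit 29) (nat_lit 5) (nat_lit 28) (nat_lit 5) (nat_lit 34) (nat_lit 5) (nat_lit 217) (nat_lit 214) (nat_lit 169)))))) (XT.nd (nat_lit 390) (nat_lit 684) (nat_lit 0) (XT.nd (nat_lit 156) (nat_lit 456) (nat_lit 0) (XT.nd (nat_lit 78) (nat_lit 0) (nat_lit 0) (XT.lf (nat_lit 0) (nat_lit 1074812764) (nat_lit 456) (nat_lit 31613306969) (nat_lit 76) (nat_lit 7029374919) (nat_lit 23) (nat_lit 5) (nat_lit 29) (nat_lit 5) (nat_lit 24) (nat_lit 5) (nat_lit 218) (nat_lit 214) (nat_lit 168)) (XT.lf (nat_lit 0) (nat_lit 5397131424) (nat_lit 456) (nat_lit 4188079723) (nat_lit 76) (nat_lit 33584382238) (nat_lit 23) (nat_lit 5) (nat_lit 29) (nat_lit 5) (nat_lit 24) (nat_lit 5) (nat_lit 219) (nat_lit 214) (nat_lit 167))) (XT.nd (nat_lit 78) (nat_lit 228) (nat_lit 0) (XT.lf (nat_lit 0) (nat_lit 11474232514) (nat_lit 304) (nat_lit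 18732313830) (nat_lit 76) (nat_lit 16844567919) (nat_lit 20) (nat_lit 5) (nat_lit 24) (nat_lit 5) (nat_lit 21) (nat_lit 5) (nat_lit 220) (nat_lit 214) (nat_lit 166)) (XT.nd (nat_lit 78) (nat_lit 0) (nat_lit 0) (XT.lf (nat_lit 0) (nat_lit 14916889424) (nat_lit 228) (nat_lit 4284159184) (nat_lit 304) (nat_lit 32254868856) (nat_lit 17) (nat_lit 5) (nat_lit 20) (nat_lit 5) (nat_lit 21) (nat_lit 5) (nat_lit 221) (nat_lit 214) (nat_lit 165)) (XT.lf (nat_lit 0) (nat_lit 29250680406) (nat_lit 304) (nat_lit 2369205625) (nat_lit 76) (nat_lit 24808543981) (nat_lit 17) (nat_lit 5) (nat_lit 21) (nat_lit 5) (nat_lit 18) (nat_lit 5) (nat_lit 222) (nat_lit 214) (nat_lit 164))))) (XT.nd (nat_lit 156) (nat_lit 380) (nat_lit 0) (XT.nd (nat_lit 78) (nat_lit 152) (nat_lit 0) (XT.lf (nat_lit 0) (nat_lit 38735609615) (nat_lit 152) (nat_lit 3113830372) (nat_lit 228) (nat_lit 20214125100) (nat_lit 15) (nat_lit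 5) (nat_lit 17) (nat_lit 5) (nat_lit 18) (nat_lit 5) (nat_lit 223) (nat_lit 214) (nat_lit 163)) (XT.lf (nat_lit 0) (nat_lit 17775539993) (nat_lit 152) (nat_lit 39766713924) (nat_lit 228) (nat_lit 10905447088) (nat_lit 13) (nat_lit 5) (nat_lit 15) (nat_lit 5) (nat_lit 16) (nat_lit 5) (nat_lit 224) (nat_lit 214) (nat_lit 162))) (XT.nd (nat_lit 78) (nat_lit 304) (nat_lit 0) (XT.lf (nat_lit 0) (nat_lit 585482675) (nat_lit 228) (nat_lit 9385974021) (nat_lit 76) (nat_lit 65756368776) (nat_lit 12) (nat_lit 5) (nat_lit 15) (nat_lit 5) (nat_lit 13) (nat_lit 5) (nat_lit 225) (nat_lit 214) (nat_lit 161)) (XT.nd (nat_lit 78) (nat_lit 152) (nat_lit 0) (XT.lf (nat_lit 0) (nat_lit 14740023723) (nat_lit 228) (nat_lit 44843544409) (nat_lit 76) (nat_lit 24366933009) (nat_lit 10) (nat_lit 5) (nat_lit 13) (nat_lit 5) (nat_lit 11) (nat_lit 5) (nat_lit 226) (nat_lit 214) (nat_lit 160)) (XT.lf (nat_lit 0)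 (nat_lit 1859942308) (nat_lit 152) (nat_lit 29753164017) (nat_lit 228) (nat_lit 61745885507) (nat_lit 8) (nat_lit 5) (nat_lit 10) (nat_lit 5) (nat_lit 11) (nat_lit 5) (nat_lit 227) (nat_lit 214) (nat_lit 159))))))))
noncomputable def xc44 : XT := (XT.nd (nat_lit 1482) (nat_lit 0) (nat_lit 0) (XT.nd (nat_lit 702) (nat_lit 228) (nat_lit 0) (XT.nd (nat_lit 312) (nat_lit 228) (nat_lit 0) (XT.nd (nat_lit 156) (nat_lit 0) (nat_lit 0) (XT.nd (nat_lit 78) (nat_lit 76) (nat_lit 0) (XT.lf (nat_lit 0) (nat_lit 52461086944) (nat_lit 228) (nat_lit 45940594675) (nat_lit 76) (nat_lit 5661596616) (nat_lit 8) (nat_lit 5) (nat_lit 11) (nat_lit 5) (nat_lit 9) (nat_lit 4) (nat_lit 228) (nat_lit 214) (nat_lit 158)) (XT.lf (nat_lit 0) (nat_lit 5918315139) (nat_lit 76) (nat_lit 71478820802) (nat_lit 152) (nat_lit 38899234096) (nat_lit 7) (nat_lit 5) (nat_lit 8) (nat_lit 5) (nat_lit 9) (nat_lit 4) (nat_lit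 229) (nat_lit 214) (nat_lit 157))) (XT.nd (nat_lit 78) (nat_lit 0) (nat_lit 0) (XT.lf (nat_lit 0) (nat_lit 68332159733) (nat_lit 76) (nat_lit 39075006886) (nat_lit 152) (nat_lit 22850600990) (nat_lit 7) (nat_lit 5) (nat_lit 8) (nat_lit 5) (nat_lit 9) (nat_lit 4) (nat_lit 230) (nat_lit 214) (nat_lit 156)) (XT.lf (nat_lit 0) (nat_lit 140102929242) (nat_lit 76) (nat_lit 1812349481) (nat_lit 152) (nat_lit 4398394250) (nat_lit 7) (nat_lit 5) (nat_lit 8) (nat_lit 5) (nat_lit 9) (nat_lit 4) (nat_lit 231) (nat_lit 214) (nat_lit 155)))) (XT.nd (nat_lit 156) (nat_lit 76) (nat_lit 0) (XT.nd (nat_lit 78) (nat_lit 0) (nat_lit 0) (XT.lf (nat_lit 0) (nat_lit 18466821594) (nat_lit 152) (nat_lit 105187305564) (nat_lit 76) (nat_lit 40892558488) (nat_lit 5) (nat_lit 5) (nat_lit 7) (nat_lit 5) (nat_lit 6) (nat_lit 4) (nat_lit 232) (nat_lit 214) (nat_lit 154)) (XT.lf (nat_lit 0) (nat_lit 44741619751) (nat_lit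 152) (nat_lit 50539998774) (nat_lit 76) (nat_lit 90204690471) (nat_lit 5) (nat_lit 5) (nat_lit 7) (nat_lit 5) (nat_lit 6) (nat_lit 4) (nat_lit 233) (nat_lit 214) (nat_lit 153))) (XT.nd (nat_lit 78) (nat_lit 0) (nat_lit 0) (XT.lf (nat_lit 0) (nat_lit 12948240592) (nat_lit 76) (nat_lit 62318357692) (nat_lit 152) (nat_lit 134275575510) (nat_lit 4) (nat_lit 5) (nat_lit 5) (nat_lit 5) (nat_lit 6) (nat_lit 4) (nat_lit 234) (nat_lit 214) (nat_lit 152)) (XT.nd (nat_lit 78) (nat_lit 0) (nat_lit 0) (XT.lf (nat_lit 0) (nat_lit 89016706779) (nat_lit 76) (nat_lit 22822822983) (nat_lit 152) (nat_lit 125249364921) (nat_lit 4) (nat_lit 5) (nat_lit 5) (nat_lit 5) (nat_lit 6) (nat_lit 4) (nat_lit 235) (nat_lit 214) (nat_lit 151)) (XT.lf (nat_lit 0) (nat_lit 154439909148) (nat_lit 152) (nat_lit 92818870890) (nat_lit 0) (nat_lit 21465534200) (nat_lit 4) (nat_lit 5) (nat_lit 6) (nat_lit 4) (nat_lit 4) (nat_lit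 4) (nat_lit 236) (nat_lit 214) (nat_lit 150)))))) (XT.nd (nat_lit 390) (nat_lit 152) (nat_lit 0) (XT.nd (nat_lit 156) (nat_lit 0) (nat_lit 0) (XT.nd (nat_lit 78) (nat_lit 76) (nat_lit 0) (XT.lf (nat_lit 0) (nat_lit 204059871588) (nat_lit 152) (nat_lit 29911588466) (nat_lit 0) (nat_lit 71083234308) (nat_lit 4) (nat_lit 5) (nat_lit 6) (nat_lit 4) (nat_lit 4) (nat_lit 4) (nat_lit 237) (nat_lit 214) (nat_lit 149)) (XT.lf (nat_lit 0) (nat_lit 44663597501) (nat_lit 76) (nat_lit 217531916086) (nat_lit 76) (nat_lit 84553311562) (nat_lit 3) (nat_lit 4) (nat_lit 4) (nat_lit 5) (nat_lit 4) (nat_lit 4) (nat_lit 238) (nat_lit 214) (nat_lit 148))) (XT.nd (nat_lit 78) (nat_lit 0) (nat_lit 0) (XT.lf (nat_lit 0) (nat_lit 132234180210) (nat_lit 76) (nat_lit 197686828656) (nat_lit 76) (nat_lit 64706513484) (nat_lit 3) (nat_lit 4) (nat_lit 4) (nat_lit 5) (nat_lit 4) (nat_lit 4) (nat_lit 239) (nat_lit 214)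 (nat_lit 147)) (XT.nd (nat_lit 78) (nat_lit 0) (nat_lit 0) (XT.lf (nat_lit 0) (nat_lit 232938405908) (nat_lit 76) (nat_lit 174865760151) (nat_lit 76) (nat_lit 41883957460) (nat_lit 3) (nat_lit 4) (nat_lit 4) (nat_lit 5) (nat_lit 4) (nat_lit 4) (nat_lit 240) (nat_lit 214) (nat_lit 146)) (XT.lf (nat_lit 0) (nat_lit 348746574663) (nat_lit 76) (nat_lit 148622211405) (nat_lit 76) (nat_lit 15639115218) (nat_lit 3) (nat_lit 4) (nat_lit 4) (nat_lit 5) (nat_lit 4) (nat_lit 4) (nat_lit 241) (nat_lit 214) (nat_lit 145))))) (XT.nd (nat_lit 156) (nat_lit 76) (nat_lit 0) (XT.nd (nat_lit 78) (nat_lit 0) (nat_lit 0) (XT.lf (nat_lit 0) (nat_lit 13814074596) (nat_lit 152) (nat_lit 104250945805) (nat_lit 76) (nat_lit 467732722595) (nat_lit 2) (nat_lit 5) (nat_lit 4) (nat_lit 5) (nat_lit 3) (nat_lit 4) (nat_lit 242) (nat_lit 214) (nat_lit 144)) (XT.lf (nat_lit 0) (nat_lit 46784773089) (nat_lit 152) (nat_lit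 35672871007) (nat_lit 76) (nat_lit 587013880670) (nat_lit 2) (nat_lit 5) (nat_lit 4) (nat_lit 5) (nat_lit 3) (nat_lit 4) (nat_lit 243) (nat_lit 214) (nat_lit 143))) (XT.nd (nat_lit 78) (nat_lit 0) (nat_lit 0) (XT.lf (nat_lit 0) (nat_lit 45465112890) (nat_lit 76) (nat_lit 40328715195) (nat_lit 152) (nat_lit 679815128964) (nat_lit 1) (nat_lit 5) (nat_lit 2) (nat_lit 5) (nat_lit 3) (nat_lit 4) (nat_lit 244) (nat_lit 214) (nat_lit 142)) (XT.nd (nat_lit 78) (nat_lit 0) (nat_lit 0) (XT.lf (nat_lit 0) (nat_lit 131914438384) (nat_lit 152) (nat_lit 735373230410) (nat_lit 0) (nat_lit 8778522562) (nat_lit 1) (nat_lit 5) (nat_lit 3) (nat_lit 4) (nat_lit 1) (nat_lit 4) (nat_lit 245) (nat_lit 214) (nat_lit 141)) (XT.lf (nat_lit 0) (nat_lit 186067983493) (nat_lit 152) (nat_lit 754003370201) (nat_lit 0) (nat_lit 62931472212) (nat_lit 1) (nat_lit 5) (nat_lit 3) (nat_lit 4) (nat_lit 1) (nat_lit 4) (nat_lit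 246) (nat_lit 214) (nat_lit 140))))))) (XT.nd (nat_lit 780) (nat_lit 0) (nat_lit 0) (XT.nd (nat_lit 390) (nat_lit 0) (nat_lit 0) (XT.nd (nat_lit 156) (nat_lit 0) (nat_lit 0) (XT.nd (nat_lit 78) (nat_lit 0) (nat_lit 0) (XT.lf (nat_lit 0) (nat_lit 248344082726) (nat_lit 152) (nat_lit 775428859698) (nat_lit 0) (nat_lit 125207053655) (nat_lit 1) (nat_lit 5) (nat_lit 3) (nat_lit 4) (nat_lit 1) (nat_lit 4) (nat_lit 247) (nat_lit 214) (nat_lit 139)) (XT.lf (nat_lit 0) (nat_lit 319961181502) (nat_lit 152) (nat_lit 800068893259) (nat_lit 0) (nat_lit 196823702178) (nat_lit 1) (nat_lit 5) (nat_lit 3) (nat_lit 4) (nat_lit 1) (nat_lit 4) (nat_lit 248) (nat_lit 214) (nat_lit 138))) (XT.nd (nat_lit 78) (nat_lit 0) (nat_lit 0) (XT.lf (nat_lit 0) (nat_lit 402320483928) (nat_lit 152) (nat_lit 828405558499) (nat_lit 0) (nat_lit 279182613080) (nat_lit 1) (nat_lit 5) (nat_lit 3) (nat_lit 4) (nat_lit 1)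 (nat_lit 4) (nat_lit 249) (nat_lit 214) (nat_lit 137)) (XT.nd (nat_lit 78) (nat_lit 0) (nat_lit 0) (XT.lf (nat_lit 0) (nat_lit 497033367660) (nat_lit 152) (nat_lit 860993268433) (nat_lit 0) (nat_lit 373895156356) (nat_lit 1) (nat_lit 5) (nat_lit 3) (nat_lit 4) (nat_lit 1) (nat_lit 4) (nat_lit 250) (nat_lit 214) (nat_lit 136)) (XT.lf (nat_lit 0) (nat_lit 605952910857) (nat_lit 152) (nat_lit 898469608689) (nat_lit 0) (nat_lit 482814403505) (nat_lit 1) (nat_lit 5) (nat_lit 3) (nat_lit 4) (nat_lit 1) (nat_lit 4) (nat_lit 251) (nat_lit 214) (nat_lit 135))))) (XT.nd (nat_lit 156) (nat_lit 0) (nat_lit 0) (XT.nd (nat_lit 78) (nat_lit 0) (nat_lit 0) (XT.lf (nat_lit 0) (nat_lit 731210148061) (nat_lit 152) (nat_lit 941567812013) (nat_lit 0) (nat_lit 608071383275) (nat_lit 1) (nat_lit 5) (nat_lit 3) (nat_lit 4) (nat_lit 1) (nat_lit 4) (nat_lit 252) (nat_lit 214) (nat_lit 134)) (XT.lf (nat_lit 0)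 (nat_lit 875255764348) (nat_lit 152) (nat_lit 991131104120) (nat_lit 0) (nat_lit 752116775707) (nat_lit 1) (nat_lit 5) (nat_lit 3) (nat_lit 4) (nat_lit 1) (nat_lit 4) (nat_lit 253) (nat_lit 214) (nat_lit 133))) (XT.nd (nat_lit 78) (nat_lit 0) (nat_lit 0) (XT.lf (nat_lit 0) (nat_lit 1040908043513) (nat_lit 152) (nat_lit 1048129201597) (nat_lit 0) (nat_lit 917768860216) (nat_lit 1) (nat_lit 5) (nat_lit 3) (nat_lit 4) (nat_lit 1) (nat_lit 4) (nat_lit 254) (nat_lit 214) (nat_lit 132)) (XT.nd (nat_lit 78) (nat_lit 0) (nat_lit 0) (XT.lf (nat_lit 0) (nat_lit 1231408008411) (nat_lit 152) (nat_lit 1113677284610) (nat_lit 0) (nat_lit 1108268655847) (nat_lit 1) (nat_lit 5) (nat_lit 3) (nat_lit 4) (nat_lit 1) (nat_lit 4) (nat_lit 255) (nat_lit 214) (nat_lit 131)) (XT.lf (nat_lit 0) (nat_lit 1450482832268) (nat_lit 152) (nat_lit 1189057815654) (nat_lit 0) (nat_lit 1327343332515) (nat_lit 1) (nat_lit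 5) (nat_lit 3) (nat_lit 4) (nat_lit 1) (nat_lit 4) (nat_lit 256) (nat_lit 214) (nat_lit 130)))))) (XT.nd (nat_lit 28236) (nat_lit 0) (nat_lit 1216) (XT.nd (nat_lit 28002) (nat_lit 0) (nat_lit 1976) (XT.nd (nat_lit 78) (nat_lit 0) (nat_lit 0) (XT.lf (nat_lit 0) (nat_lit 1702418761637) (nat_lit 152) (nat_lit 1275745631206) (nat_lit 0) (nat_lit 1579279133895) (nat_lit 1) (nat_lit 5) (nat_lit 3) (nat_lit 4) (nat_lit 1) (nat_lit 4) (nat_lit 257) (nat_lit 214) (nat_lit 129)) (XT.lf (nat_lit 0) (nat_lit 1992144977746) (nat_lit 152) (nat_lit 1375436797222) (nat_lit 0) (nat_lit 1869005238708) (nat_lit 1) (nat_lit 5) (nat_lit 3) (nat_lit 4) (nat_lit 1) (nat_lit 4) (nat_lit 258) (nat_lit 214) (nat_lit 128))) (XT.nd (nat_lit 78) (nat_lit 0) (nat_lit 0) (XT.lf (nat_lit 0) (nat_lit 7057850715) (nat_lit 0) (nat_lit 7057850715) (nat_lit 380) (nat_lit 2739115522) (nat_lit 27) (nat_lit 5) (nat_lit 27)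 (nat_lit 3) (nat_lit 32) (nat_lit 3) (nat_lit 215) (nat_lit 215) (nat_lit 170)) (XT.nd (nat_lit 78) (nat_lit 0) (nat_lit 0) (XT.lf (nat_lit 76) (nat_lit 3706388952) (nat_lit 0) (nat_lit 27045718016) (nat_lit 456) (nat_lit 5452502070) (nat_lit 28) (nat_lit 5) (nat_lit 27) (nat_lit 5) (nat_lit 33) (nat_lit 5) (nat_lit 216) (nat_lit 215) (nat_lit 169)) (XT.lf (nat_lit 76) (nat_lit 31267773515) (nat_lit 0) (nat_lit 3319009442) (nat_lit 456) (nat_lit 4412352586) (nat_lit 28) (nat_lit 5) (nat_lit 27) (nat_lit 5) (nat_lit 33) (nat_lit 5) (nat_lit 217) (nat_lit 215) (nat_lit 168))))) (XT.nd (nat_lit 156) (nat_lit 456) (nat_lit 0) (XT.nd (nat_lit 78) (nat_lit 380) (nat_lit 0) (XT.lf (nat_lit 76) (nat_lit 21226309793) (nat_lit 0) (nat_lit 18844218912) (nat_lit 456) (nat_lit 2056554505) (nat_lit 29) (nat_lit 5) (nat_lit 28) (nat_lit 5) (nat_lit 34) (nat_lit 5) (nat_lit 218) (nat_lit 215) (nat_lit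 167)) (XT.lf (nat_lit 0) (nat_lit 1366906959) (nat_lit 456) (nat_lit 36234373653) (nat_lit 76) (nat_lit 8062053690) (nat_lit 23) (nat_lit 5) (nat_lit 29) (nat_lit 5) (nat_lit 24) (nat_lit 5) (nat_lit 219) (nat_lit 215) (nat_lit 166))) (XT.nd (nat_lit 78) (nat_lit 456) (nat_lit 0) (XT.lf (nat_lit 0) (nat_lit 6320503121) (nat_lit 456) (nat_lit 4711135715) (nat_lit 76) (nat_lit 38603146124) (nat_lit 23) (nat_lit 5) (nat_lit 29) (nat_lit 5) (nat_lit 24) (nat_lit 5) (nat_lit 220) (nat_lit 215) (nat_lit 165)) (XT.nd (nat_lit 78) (nat_lit 228) (nat_lit 0) (XT.lf (nat_lit 0) (nat_lit 13296519887) (nat_lit 304) (nat_lit 21436689175) (nat_lit 76) (nat_lit 19366485989) (nat_lit 20) (nat_lit 5) (nat_lit 24) (nat_lit 5) (nat_lit 21) (nat_lit 5) (nat_lit 221) (nat_lit 215) (nat_lit 164)) (XT.lf (nat_lit 0) (nat_lit 17250966911) (nat_lit 228) (nat_lit 4920519568) (nat_lit 304) (nat_lit 36994731680)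 (nat_lit 17) (nat_lit 5) (nat_lit 20) (nat_lit 5) (nat_lit 21) (nat_lit 5) (nat_lit 222) (nat_lit 215) (nat_lit 163))))))))
noncomputable def xc45 : XT := (XT.nd (nat_lit 1482) (nat_lit 152) (nat_lit 0) (XT.nd (nat_lit 702) (nat_lit 304) (nat_lit 0) (XT.nd (nat_lit 312) (nat_lit 380) (nat_lit 0) (XT.nd (nat_lit 156) (nat_lit 228) (nat_lit 0) (XT.nd (nat_lit 78) (nat_lit 152) (nat_lit 0) (XT.lf (nat_lit 0) (nat_lit 33716918307) (nat_lit 304) (nat_lit 2633733980) (nat_lit 76) (nat_lit 28534999638) (nat_lit 17) (nat_lit 5) (nat_lit 21) (nat_lit 5) (nat_lit 18) (nat_lit 5) (nat_lit 223) (nat_lit 215) (nat_lit 162)) (XT.lf (nat_lit 0) (nat_lit 44629113334) (nat_lit 152) (nat_lit 3568121697) (nat_lit 228) (nat_lit 23169580824) (nat_lit 15) (nat_lit 5) (nat_lit 17) (nat_lit 5) (nat_lit 18) (nat_lit 5) (nat_lit 224) (nat_lit 215) (nat_lit 161))) (XT.nd (nat_lit 78) (nat_lit 76) (nat_lit 0)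 (XT.lf (nat_lit 0) (nat_lit 20523464668) (nat_lit 152) (nat_lit 45713556173) (nat_lit 228) (nat_lit 12472192598) (nat_lit 13) (nat_lit 5) (nat_lit 15) (nat_lit 5) (nat_lit 16) (nat_lit 5) (nat_lit 225) (nat_lit 215) (nat_lit 160)) (XT.lf (nat_lit 0) (nat_lit 730362741) (nat_lit 228) (nat_lit 10719456889) (nat_lit 76) (nat_lit 75632157393) (nat_lit 12) (nat_lit 5) (nat_lit 15) (nat_lit 5) (nat_lit 13) (nat_lit 5) (nat_lit 226) (nat_lit 215) (nat_lit 159)))) (XT.nd (nat_lit 156) (nat_lit 76) (nat_lit 0) (XT.nd (nat_lit 78) (nat_lit 152) (nat_lit 0) (XT.lf (nat_lit 0) (nat_lit 17002686306) (nat_lit 228) (nat_lit 51497868810) (nat_lit 76) (nat_lit 28037990513) (nat_lit 10) (nat_lit 5) (nat_lit 13) (nat_lit 5) (nat_lit 11) (nat_lit 5) (nat_lit 227) (nat_lit 215) (nat_lit 158)) (XT.lf (nat_lit 0) (nat_lit 2205028930) (nat_lit 152) (nat_lit 34196553828) (nat_lit 228) (nat_lit 70957190956)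 (nat_lit 8) (nat_lit 5) (nat_lit 10) (nat_lit 5) (nat_lit 11) (nat_lit 5) (nat_lit 228) (nat_lit 215) (nat_lit 157))) (XT.nd (nat_lit 78) (nat_lit 76) (nat_lit 0) (XT.lf (nat_lit 0) (nat_lit 60371103463) (nat_lit 228) (nat_lit 52771082874) (nat_lit 76) (nat_lit 6527014440) (nat_lit 8) (nat_lit 5) (nat_lit 11) (nat_lit 5) (nat_lit 9) (nat_lit 4) (nat_lit 229) (nat_lit 215) (nat_lit 156)) (XT.nd (nat_lit 78) (nat_lit 0) (nat_lit 0) (XT.lf (nat_lit 0) (nat_lit 6861533839) (nat_lit 76) (nat_lit 82182031344) (nat_lit 152) (nat_lit 44694049985) (nat_lit 7) (nat_lit 5) (nat_lit 8) (nat_lit 5) (nat_lit 9) (nat_lit 4) (nat_lit 230) (nat_lit 215) (nat_lit 155)) (XT.lf (nat_lit 0) (nat_lit 78630219719) (nat_lit 76) (nat_lit 44920073069) (nat_lit 152) (nat_lit 26243348333) (nat_lit 7) (nat_lit 5) (nat_lit 8) (nat_lit 5) (nat_lit 9) (nat_lit 4) (nat_lit 231) (nat_lit 215) (nat_lit 154)))))) (XT.nd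 (nat_lit 390) (nat_lit 76) (nat_lit 0) (XT.nd (nat_lit 156) (nat_lit 76) (nat_lit 0) (XT.nd (nat_lit 78) (nat_lit 152) (nat_lit 0) (XT.lf (nat_lit 0) (nat_lit 161160312998) (nat_lit 76) (nat_lit 2070128120) (nat_lit 152) (nat_lit 5027855295) (nat_lit 7) (nat_lit 5) (nat_lit 8) (nat_lit 5) (nat_lit 9) (nat_lit 4) (nat_lit 232) (nat_lit 215) (nat_lit 153)) (XT.lf (nat_lit 0) (nat_lit 21263169572) (nat_lit 152) (nat_lit 120923549687) (nat_lit 76) (nat_lit 47039703950) (nat_lit 5) (nat_lit 5) (nat_lit 7) (nat_lit 5) (nat_lit 6) (nat_lit 4) (nat_lit 233) (nat_lit 215) (nat_lit 152))) (XT.nd (nat_lit 78) (nat_lit 76) (nat_lit 0) (XT.lf (nat_lit 0) (nat_lit 51475753791) (nat_lit 152) (nat_lit 58084605798) (nat_lit 76) (nat_lit 103746925945) (nat_lit 5) (nat_lit 5) (nat_lit 7) (nat_lit 5) (nat_lit 6) (nat_lit 4) (nat_lit 234) (nat_lit 215) (nat_lit 151)) (XT.nd (nat_lit 78) (nat_lit 0) (nat_lit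 0) (XT.lf (nat_lit 0) (nat_lit 14923789005) (nat_lit 76) (nat_lit 71653505468) (nat_lit 152) (nat_lit 154394428417) (nat_lit 4) (nat_lit 5) (nat_lit 5) (nat_lit 5) (nat_lit 6) (nat_lit 4) (nat_lit 235) (nat_lit 215) (nat_lit 150)) (XT.lf (nat_lit 0) (nat_lit 102398180034) (nat_lit 76) (nat_lit 26235284798) (nat_lit 152) (nat_lit 144017218859) (nat_lit 4) (nat_lit 5) (nat_lit 5) (nat_lit 5) (nat_lit 6) (nat_lit 4) (nat_lit 236) (nat_lit 215) (nat_lit 149))))) (XT.nd (nat_lit 156) (nat_lit 76) (nat_lit 0) (XT.nd (nat_lit 78) (nat_lit 0) (nat_lit 0) (XT.lf (nat_lit 0) (nat_lit 177621781810) (nat_lit 152) (nat_lit 106715398215) (nat_lit 0) (nat_lit 24694419362) (nat_lit 4) (nat_lit 5) (nat_lit 6) (nat_lit 4) (nat_lit 4) (nat_lit 4) (nat_lit 237) (nat_lit 215) (nat_lit 148)) (XT.lf (nat_lit 0) (nat_lit 234682666491) (nat_lit 152) (nat_lit 34375454294) (nat_lit 0) (nat_lit 81753593396) (nat_lit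 4) (nat_lit 5) (nat_lit 6) (nat_lit 4) (nat_lit 4) (nat_lit 4) (nat_lit 238) (nat_lit 215) (nat_lit 147))) (XT.nd (nat_lit 78) (nat_lit 0) (nat_lit 0) (XT.lf (nat_lit 0) (nat_lit 51384073530) (nat_lit 76) (nat_lit 250153282933) (nat_lit 76) (nat_lit 97222722318) (nat_lit 3) (nat_lit 4) (nat_lit 4) (nat_lit 5) (nat_lit 4) (nat_lit 4) (nat_lit 239) (nat_lit 215) (nat_lit 146)) (XT.nd (nat_lit 78) (nat_lit 0) (nat_lit 0) (XT.lf (nat_lit 0) (nat_lit 152087512810) (nat_lit 76) (nat_lit 227332530723) (nat_lit 76) (nat_lit 74400676613) (nat_lit 3) (nat_lit 4) (nat_lit 4) (nat_lit 5) (nat_lit 4) (nat_lit 4) (nat_lit 240) (nat_lit 215) (nat_lit 145)) (XT.lf (nat_lit 0) (nat_lit 267894997723) (nat_lit 76) (nat_lit 201089257016) (nat_lit 76) (nat_lit 48156278128) (nat_lit 3) (nat_lit 4) (nat_lit 4) (nat_lit 5) (nat_lit 4) (nat_lit 4) (nat_lit 241) (nat_lit 215) (nat_lit 144))))))) (XT.nd (nat_lit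 780) (nat_lit 0) (nat_lit 0) (XT.nd (nat_lit 390) (nat_lit 0) (nat_lit 0) (XT.nd (nat_lit 156) (nat_lit 76) (nat_lit 0) (XT.nd (nat_lit 78) (nat_lit 76) (nat_lit 0) (XT.lf (nat_lit 0) (nat_lit 401072326888) (nat_lit 76) (nat_lit 170910006457) (nat_lit 76) (nat_lit 17976049500) (nat_lit 3) (nat_lit 4) (nat_lit 4) (nat_lit 5) (nat_lit 4) (nat_lit 4) (nat_lit 242) (nat_lit 215) (nat_lit 143)) (XT.lf (nat_lit 0) (nat_lit 15893565034) (nat_lit 152) (nat_lit 119876192179) (nat_lit 76) (nat_lit 537897020431) (nat_lit 2) (nat_lit 5) (nat_lit 4) (nat_lit 5) (nat_lit 3) (nat_lit 4) (nat_lit 243) (nat_lit 215) (nat_lit 142))) (XT.nd (nat_lit 78) (nat_lit 76) (nat_lit 0) (XT.lf (nat_lit 0) (nat_lit 53808905791) (nat_lit 152) (nat_lit 41013022965) (nat_lit 76) (nat_lit 675069779680) (nat_lit 2) (nat_lit 5) (nat_lit 4) (nat_lit 5) (nat_lit 3) (nat_lit 4) (nat_lit 244) (nat_lit 215) (nat_lit 141))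 (XT.nd (nat_lit 78) (nat_lit 0) (nat_lit 0) (XT.lf (nat_lit 0) (nat_lit 52294746154) (nat_lit 76) (nat_lit 46373973202) (nat_lit 152) (nat_lit 781781088317) (nat_lit 1) (nat_lit 5) (nat_lit 2) (nat_lit 5) (nat_lit 3) (nat_lit 4) (nat_lit 245) (nat_lit 215) (nat_lit 140)) (XT.lf (nat_lit 0) (nat_lit 151706747135) (nat_lit 152) (nat_lit 845670291598) (nat_lit 0) (nat_lit 10098645912) (nat_lit 1) (nat_lit 5) (nat_lit 3) (nat_lit 4) (nat_lit 1) (nat_lit 4) (nat_lit 246) (nat_lit 215) (nat_lit 139))))) (XT.nd (nat_lit 156) (nat_lit 0) (nat_lit 0) (XT.nd (nat_lit 78) (nat_lit 0) (nat_lit 0) (XT.lf (nat_lit 0) (nat_lit 213982653186) (nat_lit 152) (nat_lit 867096116277) (nat_lit 0) (nat_lit 72374101710) (nat_lit 1) (nat_lit 5) (nat_lit 3) (nat_lit 4) (nat_lit 1) (nat_lit 4) (nat_lit 247) (nat_lit 215) (nat_lit 138)) (XT.lf (nat_lit 0) (nat_lit 285599583977) (nat_lit 152) (nat_lit 891736441301)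 (nat_lit 0) (nat_lit 143990640978) (nat_lit 1) (nat_lit 5) (nat_lit 3) (nat_lit 4) (nat_lit 1) (nat_lit 4) (nat_lit 248) (nat_lit 215) (nat_lit 137))) (XT.nd (nat_lit 78) (nat_lit 0) (nat_lit 0) (XT.lf (nat_lit 0) (nat_lit 367958740330) (nat_lit 152) (nat_lit 920073359986) (nat_lit 0) (nat_lit 226349456874) (nat_lit 1) (nat_lit 5) (nat_lit 3) (nat_lit 4) (nat_lit 1) (nat_lit 4) (nat_lit 249) (nat_lit 215) (nat_lit 136)) (XT.nd (nat_lit 78) (nat_lit 0) (nat_lit 0) (XT.lf (nat_lit 0) (nat_lit 462671497041) (nat_lit 152) (nat_lit 952661290307) (nat_lit 0) (nat_lit 321061917537) (nat_lit 1) (nat_lit 5) (nat_lit 3) (nat_lit 4) (nat_lit 1) (nat_lit 4) (nat_lit 250) (nat_lit 215) (nat_lit 135)) (XT.lf (nat_lit 0) (nat_lit 571590929786) (nat_lit 152) (nat_lit 990137822204) (nat_lit 0) (nat_lit 429981092849) (nat_lit 1) (nat_lit 5) (nat_lit 3) (nat_lit 4) (nat_lit 1) (nat_lit 4) (nat_lit 251)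 (nat_lit 215) (nat_lit 134)))))) (XT.nd (nat_lit 390) (nat_lit 0) (nat_lit 0) (XT.nd (nat_lit 156) (nat_lit 0) (nat_lit 0) (XT.nd (nat_lit 78) (nat_lit 0) (nat_lit 0) (XT.lf (nat_lit 0) (nat_lit 696848070944) (nat_lit 152) (nat_lit 1033236192172) (nat_lit 0) (nat_lit 555238010152) (nat_lit 1) (nat_lit 5) (nat_lit 3) (nat_lit 4) (nat_lit 1) (nat_lit 4) (nat_lit 252) (nat_lit 215) (nat_lit 133)) (XT.lf (nat_lit 0) (nat_lit 840893603712) (nat_lit 152) (nat_lit 1082799629188) (nat_lit 0) (nat_lit 699283348263) (nat_lit 1) (nat_lit 5) (nat_lit 3) (nat_lit 4) (nat_lit 1) (nat_lit 4) (nat_lit 253) (nat_lit 215) (nat_lit 132))) (XT.nd (nat_lit 78) (nat_lit 0) (nat_lit 0) (XT.lf (nat_lit 0) (nat_lit 1006545810254) (nat_lit 152) (nat_lit 1139797852672) (nat_lit 0) (nat_lit 864935385538) (nat_lit 1) (nat_lit 5) (nat_lit 3) (nat_lit 4) (nat_lit 1) (nat_lit 4) (nat_lit 254) (nat_lit 215) (nat_lit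 131)) (XT.nd (nat_lit 78) (nat_lit 0) (nat_lit 0) (XT.lf (nat_lit 0) (nat_lit 1197045712000) (nat_lit 152) (nat_lit 1205346045257) (nat_lit 0) (nat_lit 1055435140096) (nat_lit 1) (nat_lit 5) (nat_lit 3) (nat_lit 4) (nat_lit 1) (nat_lit 4) (nat_lit 255) (nat_lit 215) (nat_lit 130)) (XT.lf (nat_lit 0) (nat_lit 1416120480942) (nat_lit 152) (nat_lit 1280726671580) (nat_lit 0) (nat_lit 1274509781049) (nat_lit 1) (nat_lit 5) (nat_lit 3) (nat_lit 4) (nat_lit 1) (nat_lit 4) (nat_lit 256) (nat_lit 215) (nat_lit 129))))) (XT.nd (nat_lit 28080) (nat_lit 0) (nat_lit 1976) (XT.nd (nat_lit 78) (nat_lit 0) (nat_lit 0) (XT.lf (nat_lit 0) (nat_lit 1668056362560) (nat_lit 152) (nat_lit 1367414569984) (nat_lit 0) (nat_lit 1526445551371) (nat_lit 1) (nat_lit 5) (nat_lit 3) (nat_lit 4) (nat_lit 1) (nat_lit 4) (nat_lit 257) (nat_lit 215) (nat_lit 128)) (XT.lf (nat_lit 0) (nat_lit 1957782537145) (nat_lit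 152) (nat_lit 1467105808045) (nat_lit 0) (nat_lit 1816171629177) (nat_lit 1) (nat_lit 5) (nat_lit 3) (nat_lit 4) (nat_lit 1) (nat_lit 4) (nat_lit 258) (nat_lit 215) (nat_lit 127))) (XT.nd (nat_lit 78) (nat_lit 0) (nat_lit 0) (XT.lf (nat_lit 0) (nat_lit 8157074932) (nat_lit 0) (nat_lit 8157074932) (nat_lit 380) (nat_lit 3061463233) (nat_lit 27) (nat_lit 5) (nat_lit 27) (nat_lit 3) (nat_lit 32) (nat_lit 3) (nat_lit 216) (nat_lit 216) (nat_lit 168)) (XT.nd (nat_lit 78) (nat_lit 0) (nat_lit 0) (XT.lf (nat_lit 76) (nat_lit 4351957168) (nat_lit 0) (nat_lit 31154456744) (nat_lit 456) (nat_lit 6115934271) (nat_lit 28) (nat_lit 5) (nat_lit 27) (nat_lit 5) (nat_lit 33) (nat_lit 5) (nat_lit 217) (nat_lit 216) (nat_lit 167)) (XT.lf (nat_lit 76) (nat_lit 36035861172) (nat_lit 0) (nat_lit 3861974795) (nat_lit 456) (nat_lit 4939907118) (nat_lit 28) (nat_lit 5) (nat_lit 27) (nat_lit 5) (nat_lit 33)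 (nat_lit 5) (nat_lit 218) (nat_lit 216) (nat_lit 166))))))))
noncomputable def xc46 : XT := (XT.nd (nat_lit 1482) (nat_lit 228) (nat_lit 0) (XT.nd (nat_lit 702) (nat_lit 608) (nat_lit 0) (XT.nd (nat_lit 312) (nat_lit 608) (nat_lit 0) (XT.nd (nat_lit 156) (nat_lit 228) (nat_lit 0) (XT.nd (nat_lit 78) (nat_lit 380) (nat_lit 0) (XT.lf (nat_lit 76) (nat_lit 24492884817) (nat_lit 0) (nat_lit 21696254390) (nat_lit 456) (nat_lit 2247129254) (nat_lit 29) (nat_lit 5) (nat_lit 28) (nat_lit 5) (nat_lit 34) (nat_lit 5) (nat_lit 219) (nat_lit 216) (nat_lit 165)) (XT.lf (nat_lit 0) (nat_lit 1670901250) (nat_lit 456) (nat_lit 41578089731) (nat_lit 76) (nat_lit 9254932656) (nat_lit 23) (nat_lit 5) (nat_lit 29) (nat_lit 5) (nat_lit 24) (nat_lit 5) (nat_lit 220) (nat_lit 216) (nat_lit 164))) (XT.nd (nat_lit 78) (nat_lit 228) (nat_lit 0) (XT.lf (nat_lit 0) (nat_lit 7354629238) (nat_lit 456) (nat_lit 5338293055)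 (nat_lit 76) (nat_lit 44379331880) (nat_lit 23) (nat_lit 5) (nat_lit 29) (nat_lit 5) (nat_lit 24) (nat_lit 5) (nat_lit 221) (nat_lit 216) (nat_lit 163)) (XT.lf (nat_lit 0) (nat_lit 15367483689) (nat_lit 304) (nat_lit 24572440771) (nat_lit 76) (nat_lit 22267854262) (nat_lit 20) (nat_lit 5) (nat_lit 24) (nat_lit 5) (nat_lit 21) (nat_lit 5) (nat_lit 222) (nat_lit 216) (nat_lit 162)))) (XT.nd (nat_lit 156) (nat_lit 380) (nat_lit 0) (XT.nd (nat_lit 78) (nat_lit 0) (nat_lit 0) (XT.lf (nat_lit 0) (nat_lit 19911613137) (nat_lit 228) (nat_lit 5653861402) (nat_lit 304) (nat_lit 42469561466) (nat_lit 17) (nat_lit 5) (nat_lit 20) (nat_lit 5) (nat_lit 21) (nat_lit 5) (nat_lit 223) (nat_lit 216) (nat_lit 161)) (XT.lf (nat_lit 0) (nat_lit 38833916046) (nat_lit 304) (nat_lit 2960096544) (nat_lit 76) (nat_lit 32819161916) (nat_lit 17) (nat_lit 5) (nat_lit 21) (nat_lit 5) (nat_lit 18) (nat_lit 5) (nat_lit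 224) (nat_lit 216) (nat_lit 160))) (XT.nd (nat_lit 78) (nat_lit 228) (nat_lit 0) (XT.lf (nat_lit 0) (nat_lit 51386362964) (nat_lit 152) (nat_lit 4093673993) (nat_lit 228) (nat_lit 26587049675) (nat_lit 15) (nat_lit 5) (nat_lit 17) (nat_lit 5) (nat_lit 18) (nat_lit 5) (nat_lit 225) (nat_lit 216) (nat_lit 159)) (XT.nd (nat_lit 78) (nat_lit 76) (nat_lit 0) (XT.lf (nat_lit 0) (nat_lit 23663680910) (nat_lit 152) (nat_lit 52556854372) (nat_lit 228) (nat_lit 14290793470) (nat_lit 13) (nat_lit 5) (nat_lit 15) (nat_lit 5) (nat_lit 16) (nat_lit 5) (nat_lit 226) (nat_lit 216) (nat_lit 158)) (XT.lf (nat_lit 0) (nat_lit 883060944) (nat_lit 228) (nat_lit 12271108327) (nat_lit 76) (nat_lit 86986306749) (nat_lit 12) (nat_lit 5) (nat_lit 15) (nat_lit 5) (nat_lit 13) (nat_lit 5) (nat_lit 227) (nat_lit 216) (nat_lit 157)))))) (XT.nd (nat_lit 390) (nat_lit 228) (nat_lit 0) (XT.nd (nat_lit 156) (nat_lit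 76) (nat_lit 0) (XT.nd (nat_lit 78) (nat_lit 152) (nat_lit 0) (XT.lf (nat_lit 0) (nat_lit 19592150896) (nat_lit 228) (nat_lit 59167950068) (nat_lit 76) (nat_lit 32255800660) (nat_lit 10) (nat_lit 5) (nat_lit 13) (nat_lit 5) (nat_lit 11) (nat_lit 5) (nat_lit 228) (nat_lit 216) (nat_lit 156)) (XT.lf (nat_lit 0) (nat_lit 2585760794) (nat_lit 152) (nat_lit 39311227985) (nat_lit 228) (nat_lit 81562525837) (nat_lit 8) (nat_lit 5) (nat_lit 10) (nat_lit 5) (nat_lit 11) (nat_lit 5) (nat_lit 229) (nat_lit 216) (nat_lit 155))) (XT.nd (nat_lit 78) (nat_lit 76) (nat_lit 0) (XT.lf (nat_lit 0) (nat_lit 69457660080) (nat_lit 228) (nat_lit 60640922241) (nat_lit 76) (nat_lit 7518299749) (nat_lit 8) (nat_lit 5) (nat_lit 11) (nat_lit 5) (nat_lit 9) (nat_lit 4) (nat_lit 230) (nat_lit 216) (nat_lit 154)) (XT.nd (nat_lit 78) (nat_lit 0) (nat_lit 0) (XT.lf (nat_lit 0) (nat_lit 7932708286) (nat_lit 76) (nat_lit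 94495262263) (nat_lit 152) (nat_lit 51367859391) (nat_lit 7) (nat_lit 5) (nat_lit 8) (nat_lit 5) (nat_lit 9) (nat_lit 4) (nat_lit 231) (nat_lit 216) (nat_lit 153)) (XT.lf (nat_lit 0) (nat_lit 90461226042) (nat_lit 76) (nat_lit 51645845957) (nat_lit 152) (nat_lit 30153504416) (nat_lit 7) (nat_lit 5) (nat_lit 8) (nat_lit 5) (nat_lit 9) (nat_lit 4) (nat_lit 232) (nat_lit 216) (nat_lit 152))))) (XT.nd (nat_lit 156) (nat_lit 76) (nat_lit 0) (XT.nd (nat_lit 78) (nat_lit 152) (nat_lit 0) (XT.lf (nat_lit 0) (nat_lit 185366075918) (nat_lit 76) (nat_lit 2370005536) (nat_lit 152) (nat_lit 5759123880) (nat_lit 7) (nat_lit 5) (nat_lit 8) (nat_lit 5) (nat_lit 9) (nat_lit 4) (nat_lit 233) (nat_lit 216) (nat_lit 151)) (XT.lf (nat_lit 0) (nat_lit 24472550292) (nat_lit 152) (nat_lit 139030436233) (nat_lit 76) (nat_lit 54105687284) (nat_lit 5) (nat_lit 5) (nat_lit 7) (nat_lit 5) (nat_lit 6) (nat_lit 4)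 (nat_lit 234) (nat_lit 216) (nat_lit 150))) (XT.nd (nat_lit 78) (nat_lit 76) (nat_lit 0) (XT.lf (nat_lit 0) (nat_lit 59214425803) (nat_lit 152) (nat_lit 66769778488) (nat_lit 76) (nat_lit 119317684612) (nat_lit 5) (nat_lit 5) (nat_lit 7) (nat_lit 5) (nat_lit 6) (nat_lit 4) (nat_lit 235) (nat_lit 216) (nat_lit 149)) (XT.nd (nat_lit 78) (nat_lit 0) (nat_lit 0) (XT.lf (nat_lit 0) (nat_lit 17187546258) (nat_lit 76) (nat_lit 82391999434) (nat_lit 152) (nat_lit 177536591984) (nat_lit 4) (nat_lit 5) (nat_lit 5) (nat_lit 5) (nat_lit 6) (nat_lit 4) (nat_lit 236) (nat_lit 216) (nat_lit 148)) (XT.lf (nat_lit 0) (nat_lit 117779810433) (nat_lit 76) (nat_lit 30162288949) (nat_lit 152) (nat_lit 165605018474) (nat_lit 4) (nat_lit 5) (nat_lit 5) (nat_lit 5) (nat_lit 6) (nat_lit 4) (nat_lit 237) (nat_lit 216) (nat_lit 147))))))) (XT.nd (nat_lit 780) (nat_lit 0) (nat_lit 0) (XT.nd (nat_lit 390) (nat_lit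 152) (nat_lit 0) (XT.nd (nat_lit 156) (nat_lit 76) (nat_lit 0) (XT.nd (nat_lit 78) (nat_lit 0) (nat_lit 0) (XT.lf (nat_lit 0) (nat_lit 204277061399) (nat_lit 152) (nat_lit 122702818867) (nat_lit 0) (nat_lit 28405429172) (nat_lit 4) (nat_lit 5) (nat_lit 6) (nat_lit 4) (nat_lit 4) (nat_lit 4) (nat_lit 238) (nat_lit 216) (nat_lit 146)) (XT.lf (nat_lit 0) (nat_lit 269895511958) (nat_lit 152) (nat_lit 39514477585) (nat_lit 0) (nat_lit 94022586236) (nat_lit 4) (nat_lit 5) (nat_lit 6) (nat_lit 4) (nat_lit 4) (nat_lit 4) (nat_lit 239) (nat_lit 216) (nat_lit 145))) (XT.nd (nat_lit 78) (nat_lit 0) (nat_lit 0) (XT.lf (nat_lit 0) (nat_lit 59107515489) (nat_lit 76) (nat_lit 287669908216) (nat_lit 76) (nat_lit 111795857715) (nat_lit 3) (nat_lit 4) (nat_lit 4) (nat_lit 5) (nat_lit 4) (nat_lit 4) (nat_lit 240) (nat_lit 216) (nat_lit 144)) (XT.nd (nat_lit 78) (nat_lit 0) (nat_lit 0) (XT.lf (nat_lit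 0) (nat_lit 174914405757) (nat_lit 76) (nat_lit 261426873673) (nat_lit 76) (nat_lit 85551845104) (nat_lit 3) (nat_lit 4) (nat_lit 4) (nat_lit 5) (nat_lit 4) (nat_lit 4) (nat_lit 241) (nat_lit 216) (nat_lit 143)) (XT.lf (nat_lit 0) (nat_lit 308091217839) (nat_lit 76) (nat_lit 231247831083) (nat_lit 76) (nat_lit 55371952020) (nat_lit 3) (nat_lit 4) (nat_lit 4) (nat_lit 5) (nat_lit 4) (nat_lit 4) (nat_lit 242) (nat_lit 216) (nat_lit 142))))) (XT.nd (nat_lit 156) (nat_lit 76) (nat_lit 0) (XT.nd (nat_lit 78) (nat_lit 76) (nat_lit 0) (XT.lf (nat_lit 0) (nat_lit 461243585014) (nat_lit 76) (nat_lit 196542320916) (nat_lit 76) (nat_lit 20665702293) (nat_lit 3) (nat_lit 4) (nat_lit 4) (nat_lit 5) (nat_lit 4) (nat_lit 4) (nat_lit 243) (nat_lit 216) (nat_lit 141)) (XT.lf (nat_lit 0) (nat_lit 18283179561) (nat_lit 152) (nat_lit 137848248230) (nat_lit 76) (nat_lit 618584892548) (nat_lit 2) (nat_lit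 5) (nat_lit 4) (nat_lit 5) (nat_lit 3) (nat_lit 4) (nat_lit 244) (nat_lit 216) (nat_lit 140))) (XT.nd (nat_lit 78) (nat_lit 76) (nat_lit 0) (XT.lf (nat_lit 0) (nat_lit 61885093635) (nat_lit 152) (nat_lit 47156826170) (nat_lit 76) (nat_lit 776333132765) (nat_lit 2) (nat_lit 5) (nat_lit 4) (nat_lit 5) (nat_lit 3) (nat_lit 4) (nat_lit 245) (nat_lit 216) (nat_lit 139)) (XT.nd (nat_lit 78) (nat_lit 0) (nat_lit 0) (XT.lf (nat_lit 0) (nat_lit 60146418439) (nat_lit 76) (nat_lit 53327007351) (nat_lit 152) (nat_lit 899043480304) (nat_lit 1) (nat_lit 5) (nat_lit 2) (nat_lit 5) (nat_lit 3) (nat_lit 4) (nat_lit 246) (nat_lit 216) (nat_lit 138)) (XT.lf (nat_lit 0) (nat_lit 174466648048) (nat_lit 152) (nat_lit 972514087986) (nat_lit 0) (nat_lit 11615972074) (nat_lit 1) (nat_lit 5) (nat_lit 3) (nat_lit 4) (nat_lit 1) (nat_lit 4) (nat_lit 247) (nat_lit 216) (nat_lit 137)))))) (XT.nd (nat_lit 390) (nat_lit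 0) (nat_lit 0) (XT.nd (nat_lit 156) (nat_lit 0) (nat_lit 0) (XT.nd (nat_lit 78) (nat_lit 0) (nat_lit 0) (XT.lf (nat_lit 0) (nat_lit 246083432766) (nat_lit 152) (nat_lit 997154666456) (nat_lit 0) (nat_lit 83232416336) (nat_lit 1) (nat_lit 5) (nat_lit 3) (nat_lit 4) (nat_lit 1) (nat_lit 4) (nat_lit 248) (nat_lit 216) (nat_lit 136)) (XT.lf (nat_lit 0) (nat_lit 328442462097) (nat_lit 152) (nat_lit 1025491805528) (nat_lit 0) (nat_lit 165591149620) (nat_lit 1) (nat_lit 5) (nat_lit 3) (nat_lit 4) (nat_lit 1) (nat_lit 4) (nat_lit 249) (nat_lit 216) (nat_lit 135))) (XT.nd (nat_lit 78) (nat_lit 0) (nat_lit 0) (XT.lf (nat_lit 0) (nat_lit 423155108356) (nat_lit 152) (nat_lit 1058079927490) (nat_lit 0) (nat_lit 260303538445) (nat_lit 1) (nat_lit 5) (nat_lit 3) (nat_lit 4) (nat_lit 1) (nat_lit 4) (nat_lit 250) (nat_lit 216) (nat_lit 134)) (XT.nd (nat_lit 78) (nat_lit 0) (nat_lit 0) (XT.lf (nat_lit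 0) (nat_lit 532074445055) (nat_lit 152) (nat_lit 1095556626032) (nat_lit 0) (nat_lit 369222651289) (nat_lit 1) (nat_lit 5) (nat_lit 3) (nat_lit 4) (nat_lit 1) (nat_lit 4) (nat_lit 251) (nat_lit 216) (nat_lit 133)) (XT.lf (nat_lit 0) (nat_lit 657331502695) (nat_lit 152) (nat_lit 1138655140909) (nat_lit 0) (nat_lit 494479514273) (nat_lit 1) (nat_lit 5) (nat_lit 3) (nat_lit 4) (nat_lit 1) (nat_lit 4) (nat_lit 252) (nat_lit 216) (nat_lit 132))))) (XT.nd (nat_lit 156) (nat_lit 0) (nat_lit 0) (XT.nd (nat_lit 78) (nat_lit 0) (nat_lit 0) (XT.lf (nat_lit 0) (nat_lit 801376962839) (nat_lit 152) (nat_lit 1188218703932) (nat_lit 0) (nat_lit 638524805150) (nat_lit 1) (nat_lit 5) (nat_lit 3) (nat_lit 4) (nat_lit 1) (nat_lit 4) (nat_lit 253) (nat_lit 216) (nat_lit 131)) (XT.lf (nat_lit 0) (nat_lit 967029106229) (nat_lit 152) (nat_lit 1245217036987) (nat_lit 0) (nat_lit 804176801351) (nat_lit 1) (nat_lit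 5) (nat_lit 3) (nat_lit 4) (nat_lit 1) (nat_lit 4) (nat_lit 254) (nat_lit 216) (nat_lit 130))) (XT.nd (nat_lit 78) (nat_lit 0) (nat_lit 0) (XT.lf (nat_lit 0) (nat_lit 1157528953061) (nat_lit 152) (nat_lit 1310765324851) (nat_lit 0) (nat_lit 994676520193) (nat_lit 1) (nat_lit 5) (nat_lit 3) (nat_lit 4) (nat_lit 1) (nat_lit 4) (nat_lit 255) (nat_lit 216) (nat_lit 129)) (XT.nd (nat_lit 78) (nat_lit 0) (nat_lit 0) (XT.lf (nat_lit 0) (nat_lit 1376603674252) (nat_lit 152) (nat_lit 1386146034027) (nat_lit 0) (nat_lit 1213751130088) (nat_lit 1) (nat_lit 5) (nat_lit 3) (nat_lit 4) (nat_lit 1) (nat_lit 4) (nat_lit 256) (nat_lit 216) (nat_lit 128)) (XT.lf (nat_lit 0) (nat_lit 1628539514346) (nat_lit 152) (nat_lit 1472834004475) (nat_lit 0) (nat_lit 1465686873404) (nat_lit 1) (nat_lit 5) (nat_lit 3) (nat_lit 4) (nat_lit 1) (nat_lit 4) (nat_lit 257) (nat_lit 216) (nat_lit 127))))))))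
noncomputable def xc47 : XT := (XT.nd (nat_lit 29562) (nat_lit 0) (nat_lit 0) (XT.nd (nat_lit 28782) (nat_lit 0) (nat_lit 304) (XT.nd (nat_lit 28392) (nat_lit 0) (nat_lit 1216) (XT.nd (nat_lit 28158) (nat_lit 0) (nat_lit 1976) (XT.nd (nat_lit 28080) (nat_lit 0) (nat_lit 1976) (XT.lf (nat_lit 0) (nat_lit 1918265652824) (nat_lit 152) (nat_lit 1572525305184) (nat_lit 0) (nat_lit 1755412927727) (nat_lit 1) (nat_lit 5) (nat_lit 3) (nat_lit 4) (nat_lit 1) (nat_lit 4) (nat_lit 258) (nat_lit 216) (nat_lit 126)) (XT.lf (nat_lit 0) (nat_lit 9411295235) (nat_lit 0) (nat_lit 9411295235) (nat_lit 380) (nat_lit 3453749170) (nat_lit 27) (nat_lit 5) (nat_lit 27) (nat_lit 3) (nat_lit 32) (nat_lit 3) (nat_lit 217) (nat_lit 217) (nat_lit 166))) (XT.nd (nat_lit 78) (nat_lit 0) (nat_lit 0) (XT.lf (nat_lit 76) (nat_lit 5072508682) (nat_lit 0) (nat_lit 35866854766) (nat_lit 456) (nat_lit 6916543233) (nat_lit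 28) (nat_lit 5) (nat_lit 27) (nat_lit 5) (nat_lit 33) (nat_lit 5) (nat_lit 218) (nat_lit 217) (nat_lit 165)) (XT.nd (nat_lit 78) (nat_lit 0) (nat_lit 76) (XT.lf (nat_lit 76) (nat_lit 41500160294) (nat_lit 0) (nat_lit 4475383631) (nat_lit 456) (nat_lit 5579344334) (nat_lit 28) (nat_lit 5) (nat_lit 27) (nat_lit 5) (nat_lit 33) (nat_lit 5) (nat_lit 219) (nat_lit 217) (nat_lit 164)) (XT.lf (nat_lit 76) (nat_lit 28229296599) (nat_lit 0) (nat_lit 24969900595) (nat_lit 456) (nat_lit 2495042932) (nat_lit 29) (nat_lit 5) (nat_lit 28) (nat_lit 5) (nat_lit 34) (nat_lit 5) (nat_lit 220) (nat_lit 217) (nat_lit 163))))) (XT.nd (nat_lit 156) (nat_lit 456) (nat_lit 0) (XT.nd (nat_lit 78) (nat_lit 0) (nat_lit 0) (XT.lf (nat_lit 0) (nat_lit 1996363089) (nat_lit 456) (nat_lit 47745661436) (nat_lit 76) (nat_lit 10630749805) (nat_lit 23) (nat_lit 5) (nat_lit 29) (nat_lit 5) (nat_lit 24) (nat_lit 5) (nat_lit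 221) (nat_lit 217) (nat_lit 162)) (XT.lf (nat_lit 0) (nat_lit 8522890277) (nat_lit 456) (nat_lit 6078913748) (nat_lit 76) (nat_lit 51025429271) (nat_lit 23) (nat_lit 5) (nat_lit 29) (nat_lit 5) (nat_lit 24) (nat_lit 5) (nat_lit 222) (nat_lit 217) (nat_lit 161))) (XT.nd (nat_lit 78) (nat_lit 228) (nat_lit 0) (XT.lf (nat_lit 0) (nat_lit 17730440511) (nat_lit 304) (nat_lit 28198003084) (nat_lit 76) (nat_lit 25605306787) (nat_lit 20) (nat_lit 5) (nat_lit 24) (nat_lit 5) (nat_lit 21) (nat_lit 5) (nat_lit 223) (nat_lit 217) (nat_lit 160)) (XT.nd (nat_lit 78) (nat_lit 0) (nat_lit 0) (XT.lf (nat_lit 0) (nat_lit 22953554494) (nat_lit 228) (nat_lit 6498359440) (nat_lit 304) (nat_lit 48783753746) (nat_lit 17) (nat_lit 5) (nat_lit 20) (nat_lit 5) (nat_lit 21) (nat_lit 5) (nat_lit 224) (nat_lit 217) (nat_lit 159)) (XT.lf (nat_lit 0) (nat_lit 44703963750) (nat_lit 304) (nat_lit 3352165821) (nat_lit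 76) (nat_lit 37744994488) (nat_lit 17) (nat_lit 5) (nat_lit 21) (nat_lit 5) (nat_lit 18) (nat_lit 5) (nat_lit 225) (nat_lit 217) (nat_lit 158)))))) (XT.nd (nat_lit 390) (nat_lit 228) (nat_lit 0) (XT.nd (nat_lit 156) (nat_lit 380) (nat_lit 0) (XT.nd (nat_lit 78) (nat_lit 152) (nat_lit 0) (XT.lf (nat_lit 0) (nat_lit 59141865711) (nat_lit 152) (nat_lit 4700416238) (nat_lit 228) (nat_lit 30531274784) (nat_lit 15) (nat_lit 5) (nat_lit 17) (nat_lit 5) (nat_lit 18) (nat_lit 5) (nat_lit 226) (nat_lit 217) (nat_lit 157)) (XT.lf (nat_lit 0) (nat_lit 27259884496) (nat_lit 152) (nat_lit 60429996722) (nat_lit 228) (nat_lit 16394920606) (nat_lit 13) (nat_lit 5) (nat_lit 15) (nat_lit 5) (nat_lit 16) (nat_lit 5) (nat_lit 227) (nat_lit 217) (nat_lit 156))) (XT.nd (nat_lit 78) (nat_lit 304) (nat_lit 0) (XT.lf (nat_lit 0) (nat_lit 1048142991) (nat_lit 228) (nat_lit 14069228567) (nat_lit 76) (nat_lit 100041304366)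 (nat_lit 12) (nat_lit 5) (nat_lit 15) (nat_lit 5) (nat_lit 13) (nat_lit 5) (nat_lit 228) (nat_lit 217) (nat_lit 155)) (XT.nd (nat_lit 78) (nat_lit 152) (nat_lit 0) (XT.lf (nat_lit 0) (nat_lit 22560509745) (nat_lit 228) (nat_lit 68001857843) (nat_lit 76) (nat_lit 37103328847) (nat_lit 10) (nat_lit 5) (nat_lit 13) (nat_lit 5) (nat_lit 11) (nat_lit 5) (nat_lit 229) (nat_lit 217) (nat_lit 154)) (XT.lf (nat_lit 0) (nat_lit 3011415101) (nat_lit 152) (nat_lit 45196714515) (nat_lit 228) (nat_lit 93767986934) (nat_lit 8) (nat_lit 5) (nat_lit 10) (nat_lit 5) (nat_lit 11) (nat_lit 5) (nat_lit 230) (nat_lit 217) (nat_lit 153))))) (XT.nd (nat_lit 156) (nat_lit 152) (nat_lit 0) (XT.nd (nat_lit 78) (nat_lit 76) (nat_lit 0) (XT.lf (nat_lit 0) (nat_lit 79899667200) (nat_lit 228) (nat_lit 69702411757) (nat_lit 76) (nat_lit 8655294726) (nat_lit 8) (nat_lit 5) (nat_lit 11) (nat_lit 5) (nat_lit 9) (nat_lit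 4) (nat_lit 231) (nat_lit 217) (nat_lit 152)) (XT.lf (nat_lit 0) (nat_lit 9154330499) (nat_lit 76) (nat_lit 108658909801) (nat_lit 152) (nat_lit 59050128589) (nat_lit 7) (nat_lit 5) (nat_lit 8) (nat_lit 5) (nat_lit 9) (nat_lit 4) (nat_lit 232) (nat_lit 217) (nat_lit 151))) (XT.nd (nat_lit 78) (nat_lit 152) (nat_lit 0) (XT.lf (nat_lit 0) (nat_lit 104057989053) (nat_lit 76) (nat_lit 59383469110) (nat_lit 152) (nat_lit 34656608592) (nat_lit 7) (nat_lit 5) (nat_lit 8) (nat_lit 5) (nat_lit 9) (nat_lit 4) (nat_lit 233) (nat_lit 217) (nat_lit 150)) (XT.nd (nat_lit 78) (nat_lit 152) (nat_lit 0) (XT.lf (nat_lit 0) (nat_lit 213194969136) (nat_lit 76) (nat_lit 2717459635) (nat_lit 152) (nat_lit 6605669429) (nat_lit 7) (nat_lit 5) (nat_lit 8) (nat_lit 5) (nat_lit 9) (nat_lit 4) (nat_lit 234) (nat_lit 217) (nat_lit 149)) (XT.lf (nat_lit 0) (nat_lit 28158484091) (nat_lit 152) (nat_lit 159861072816)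 (nat_lit 76) (nat_lit 62229122790) (nat_lit 5) (nat_lit 5) (nat_lit 7) (nat_lit 5) (nat_lit 6) (nat_lit 4) (nat_lit 235) (nat_lit 217) (nat_lit 148))))))) (XT.nd (nat_lit 780) (nat_lit 76) (nat_lit 0) (XT.nd (nat_lit 390) (nat_lit 152) (nat_lit 0) (XT.nd (nat_lit 156) (nat_lit 0) (nat_lit 0) (XT.nd (nat_lit 78) (nat_lit 76) (nat_lit 0) (XT.lf (nat_lit 0) (nat_lit 68109677721) (nat_lit 152) (nat_lit 76764437564) (nat_lit 76) (nat_lit 137221930707) (nat_lit 5) (nat_lit 5) (nat_lit 7) (nat_lit 5) (nat_lit 6) (nat_lit 4) (nat_lit 236) (nat_lit 217) (nat_lit 147)) (XT.lf (nat_lit 0) (nat_lit 19784724627) (nat_lit 76) (nat_lit 94743591898) (nat_lit 152) (nat_lit 204154225813) (nat_lit 4) (nat_lit 5) (nat_lit 5) (nat_lit 5) (nat_lit 6) (nat_lit 4) (nat_lit 237) (nat_lit 217) (nat_lit 146))) (XT.nd (nat_lit 78) (nat_lit 0) (nat_lit 0) (XT.lf (nat_lit 0) (nat_lit 135463344111) (nat_lit 76) (nat_lit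 34680364943) (nat_lit 152) (nat_lit 190434593012) (nat_lit 4) (nat_lit 5) (nat_lit 5) (nat_lit 5) (nat_lit 6) (nat_lit 4) (nat_lit 238) (nat_lit 217) (nat_lit 145)) (XT.nd (nat_lit 78) (nat_lit 0) (nat_lit 0) (XT.lf (nat_lit 0) (nat_lit 234927703646) (nat_lit 152) (nat_lit 141093202695) (nat_lit 0) (nat_lit 32671420792) (nat_lit 4) (nat_lit 5) (nat_lit 6) (nat_lit 4) (nat_lit 4) (nat_lit 4) (nat_lit 239) (nat_lit 217) (nat_lit 144)) (XT.lf (nat_lit 0) (nat_lit 310387737045) (nat_lit 152) (nat_lit 45428571830) (nat_lit 0) (nat_lit 108130476123) (nat_lit 4) (nat_lit 5) (nat_lit 6) (nat_lit 4) (nat_lit 4) (nat_lit 4) (nat_lit 240) (nat_lit 217) (nat_lit 143))))) (XT.nd (nat_lit 156) (nat_lit 76) (nat_lit 0) (XT.nd (nat_lit 78) (nat_lit 0) (nat_lit 0) (XT.lf (nat_lit 0) (nat_lit 67985613269) (nat_lit 76) (nat_lit 330815579962) (nat_lit 76) (nat_lit 128557468546) (nat_lit 3) (nat_lit 4)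 (nat_lit 4) (nat_lit 5) (nat_lit 4) (nat_lit 4) (nat_lit 241) (nat_lit 217) (nat_lit 142)) (XT.lf (nat_lit 0) (nat_lit 201161975714) (nat_lit 76) (nat_lit 300636718215) (nat_lit 76) (nat_lit 98377867238) (nat_lit 3) (nat_lit 4) (nat_lit 4) (nat_lit 5) (nat_lit 4) (nat_lit 4) (nat_lit 242) (nat_lit 217) (nat_lit 141))) (XT.nd (nat_lit 78) (nat_lit 76) (nat_lit 0) (XT.lf (nat_lit 0) (nat_lit 354313951900) (nat_lit 76) (nat_lit 265931365303) (nat_lit 76) (nat_lit 63671871230) (nat_lit 3) (nat_lit 4) (nat_lit 4) (nat_lit 5) (nat_lit 4) (nat_lit 4) (nat_lit 243) (nat_lit 217) (nat_lit 140)) (XT.nd (nat_lit 78) (nat_lit 76) (nat_lit 0) (XT.lf (nat_lit 0) (nat_lit 530437993536) (nat_lit 76) (nat_lit 226020503451) (nat_lit 76) (nat_lit 23760450165) (nat_lit 3) (nat_lit 4) (nat_lit 4) (nat_lit 5) (nat_lit 4) (nat_lit 4) (nat_lit 244) (nat_lit 217) (nat_lit 139)) (XT.lf (nat_lit 0) (nat_lit 21029875605)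 (nat_lit 152) (nat_lit 158518398300) (nat_lit 76) (nat_lit 711375136111) (nat_lit 2) (nat_lit 5) (nat_lit 4) (nat_lit 5) (nat_lit 3) (nat_lit 4) (nat_lit 245) (nat_lit 217) (nat_lit 138)))))) (XT.nd (nat_lit 390) (nat_lit 0) (nat_lit 0) (XT.nd (nat_lit 156) (nat_lit 0) (nat_lit 0) (XT.nd (nat_lit 78) (nat_lit 76) (nat_lit 0) (XT.lf (nat_lit 0) (nat_lit 71171526471) (nat_lit 152) (nat_lit 54224187343) (nat_lit 76) (nat_lit 892785285010) (nat_lit 2) (nat_lit 5) (nat_lit 4) (nat_lit 5) (nat_lit 3) (nat_lit 4) (nat_lit 246) (nat_lit 217) (nat_lit 137)) (XT.lf (nat_lit 0) (nat_lit 69174022311) (nat_lit 76) (nat_lit 61323743269) (nat_lit 152) (nat_lit 1033896394591) (nat_lit 1) (nat_lit 5) (nat_lit 2) (nat_lit 5) (nat_lit 3) (nat_lit 4) (nat_lit 247) (nat_lit 217) (nat_lit 136))) (XT.nd (nat_lit 78) (nat_lit 0) (nat_lit 0) (XT.lf (nat_lit 0) (nat_lit 200639585778) (nat_lit 152) (nat_lit 1118386099217)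 (nat_lit 0) (nat_lit 13360280380) (nat_lit 1) (nat_lit 5) (nat_lit 3) (nat_lit 4) (nat_lit 1) (nat_lit 4) (nat_lit 248) (nat_lit 217) (nat_lit 135)) (XT.nd (nat_lit 78) (nat_lit 0) (nat_lit 0) (XT.lf (nat_lit 0) (nat_lit 282998504657) (nat_lit 152) (nat_lit 1146723429931) (nat_lit 0) (nat_lit 95718941826) (nat_lit 1) (nat_lit 5) (nat_lit 3) (nat_lit 4) (nat_lit 1) (nat_lit 4) (nat_lit 249) (nat_lit 217) (nat_lit 134)) (XT.lf (nat_lit 0) (nat_lit 377711054870) (nat_lit 152) (nat_lit 1179311718537) (nat_lit 0) (nat_lit 190431268184) (nat_lit 1) (nat_lit 5) (nat_lit 3) (nat_lit 4) (nat_lit 1) (nat_lit 4) (nat_lit 250) (nat_lit 217) (nat_lit 133))))) (XT.nd (nat_lit 156) (nat_lit 0) (nat_lit 0) (XT.nd (nat_lit 78) (nat_lit 0) (nat_lit 0) (XT.lf (nat_lit 0) (nat_lit 486630308051) (nat_lit 152) (nat_lit 1216788561987) (nat_lit 0) (nat_lit 299350326708) (nat_lit 1) (nat_lit 5) (nat_lit 3)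 (nat_lit 4) (nat_lit 1) (nat_lit 4) (nat_lit 251) (nat_lit 217) (nat_lit 132)) (XT.lf (nat_lit 0) (nat_lit 611887293067) (nat_lit 152) (nat_lit 1259887202871) (nat_lit 0) (nat_lit 424607142458) (nat_lit 1) (nat_lit 5) (nat_lit 3) (nat_lit 4) (nat_lit 1) (nat_lit 4) (nat_lit 252) (nat_lit 217) (nat_lit 131))) (XT.nd (nat_lit 78) (nat_lit 0) (nat_lit 0) (XT.lf (nat_lit 0) (nat_lit 755932690060) (nat_lit 152) (nat_lit 1309450875465) (nat_lit 0) (nat_lit 568652392262) (nat_lit 1) (nat_lit 5) (nat_lit 3) (nat_lit 4) (nat_lit 1) (nat_lit 4) (nat_lit 253) (nat_lit 217) (nat_lit 130)) (XT.nd (nat_lit 78) (nat_lit 0) (nat_lit 0) (XT.lf (nat_lit 0) (nat_lit 921584778535) (nat_lit 152) (nat_lit 1366449303800) (nat_lit 0) (nat_lit 734304352747) (nat_lit 1) (nat_lit 5) (nat_lit 3) (nat_lit 4) (nat_lit 1) (nat_lit 4) (nat_lit 254) (nat_lit 217) (nat_lit 129)) (XT.lf (nat_lit 0) (nat_lit 1112084577615)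 (nat_lit 152) (nat_lit 1431997674516) (nat_lit 0) (nat_lit 924804040532) (nat_lit 1) (nat_lit 5) (nat_lit 3) (nat_lit 4) (nat_lit 1) (nat_lit 4) (nat_lit 255) (nat_lit 217) (nat_lit 128))))))))
noncomputable def xc48 : XT := (XT.nd (nat_lit 29562) (nat_lit 0) (nat_lit 0) (XT.nd (nat_lit 28782) (nat_lit 0) (nat_lit 456) (XT.nd (nat_lit 28392) (nat_lit 0) (nat_lit 1672) (XT.nd (nat_lit 156) (nat_lit 0) (nat_lit 0) (XT.nd (nat_lit 78) (nat_lit 0) (nat_lit 0) (XT.lf (nat_lit 0) (nat_lit 1331159257283) (nat_lit 152) (nat_lit 1507378455737) (nat_lit 0) (nat_lit 1143878623420) (nat_lit 1) (nat_lit 5) (nat_lit 3) (nat_lit 4) (nat_lit 1) (nat_lit 4) (nat_lit 256) (nat_lit 217) (nat_lit 127)) (XT.lf (nat_lit 0) (nat_lit 1583095061270) (nat_lit 152) (nat_lit 1594066488833) (nat_lit 0) (nat_lit 1395814343252) (nat_lit 1) (nat_lit 5) (nat_lit 3) (nat_lit 4) (nat_lit 1) (nat_lit 4) (nat_lit 257)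 (nat_lit 217) (nat_lit 126))) (XT.nd (nat_lit 28158) (nat_lit 0) (nat_lit 1976) (XT.lf (nat_lit 0) (nat_lit 1872821168350) (nat_lit 152) (nat_lit 1693757844018) (nat_lit 0) (nat_lit 1685540377154) (nat_lit 1) (nat_lit 5) (nat_lit 3) (nat_lit 4) (nat_lit 1) (nat_lit 4) (nat_lit 258) (nat_lit 217) (nat_lit 125)) (XT.lf (nat_lit 0) (nat_lit 10846172176) (nat_lit 0) (nat_lit 10846172176) (nat_lit 380) (nat_lit 3921200167) (nat_lit 27) (nat_lit 5) (nat_lit 27) (nat_lit 3) (nat_lit 32) (nat_lit 3) (nat_lit 218) (nat_lit 218) (nat_lit 164)))) (XT.nd (nat_lit 156) (nat_lit 304) (nat_lit 0) (XT.nd (nat_lit 78) (nat_lit 0) (nat_lit 0) (XT.lf (nat_lit 76) (nat_lit 5884619720) (nat_lit 0) (nat_lit 41276546126) (nat_lit 456) (nat_lit 7865721369) (nat_lit 28) (nat_lit 5) (nat_lit 27) (nat_lit 5) (nat_lit 33) (nat_lit 5) (nat_lit 219) (nat_lit 218) (nat_lit 163)) (XT.lf (nat_lit 76) (nat_lit 47769736282)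 (nat_lit 0) (nat_lit 5172485215) (nat_lit 456) (nat_lit 6339460463) (nat_lit 28) (nat_lit 5) (nat_lit 27) (nat_lit 5) (nat_lit 33) (nat_lit 5) (nat_lit 220) (nat_lit 218) (nat_lit 162))) (XT.nd (nat_lit 78) (nat_lit 380) (nat_lit 0) (XT.lf (nat_lit 76) (nat_lit 32510934233) (nat_lit 0) (nat_lit 28729909726) (nat_lit 456) (nat_lit 2801884846) (nat_lit 29) (nat_lit 5) (nat_lit 28) (nat_lit 5) (nat_lit 34) (nat_lit 5) (nat_lit 221) (nat_lit 218) (nat_lit 161)) (XT.nd (nat_lit 78) (nat_lit 0) (nat_lit 0) (XT.lf (nat_lit 0) (nat_lit 2352397251) (nat_lit 456) (nat_lit 54855229551) (nat_lit 76) (nat_lit 12215968893) (nat_lit 23) (nat_lit 5) (nat_lit 29) (nat_lit 5) (nat_lit 24) (nat_lit 5) (nat_lit 222) (nat_lit 218) (nat_lit 160)) (XT.lf (nat_lit 0) (nat_lit 9850523557) (nat_lit 456) (nat_lit 6945288985) (nat_lit 76) (nat_lit 58671075502) (nat_lit 23) (nat_lit 5) (nat_lit 29) (nat_lit 5)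 (nat_lit 24) (nat_lit 5) (nat_lit 223) (nat_lit 218) (nat_lit 159)))))) (XT.nd (nat_lit 390) (nat_lit 456) (nat_lit 0) (XT.nd (nat_lit 156) (nat_lit 304) (nat_lit 0) (XT.nd (nat_lit 78) (nat_lit 228) (nat_lit 0) (XT.lf (nat_lit 0) (nat_lit 20433737603) (nat_lit 304) (nat_lit 32382105207) (nat_lit 76) (nat_lit 29444041849) (nat_lit 20) (nat_lit 5) (nat_lit 24) (nat_lit 5) (nat_lit 21) (nat_lit 5) (nat_lit 224) (nat_lit 218) (nat_lit 158)) (XT.lf (nat_lit 0) (nat_lit 26438326336) (nat_lit 228) (nat_lit 7470405475) (nat_lit 304) (nat_lit 56058789821) (nat_lit 17) (nat_lit 5) (nat_lit 20) (nat_lit 5) (nat_lit 21) (nat_lit 5) (nat_lit 225) (nat_lit 218) (nat_lit 157))) (XT.nd (nat_lit 78) (nat_lit 304) (nat_lit 0) (XT.lf (nat_lit 0) (nat_lit 51443554757) (nat_lit 304) (nat_lit 3815712656) (nat_lit 76) (nat_lit 43408980550) (nat_lit 17) (nat_lit 5) (nat_lit 21) (nat_lit 5) (nat_lit 18) (nat_lit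 5) (nat_lit 226) (nat_lit 218) (nat_lit 156)) (XT.nd (nat_lit 78) (nat_lit 152) (nat_lit 0) (XT.lf (nat_lit 0) (nat_lit 68049098915) (nat_lit 152) (nat_lit 5399952131) (nat_lit 228) (nat_lit 35077822454) (nat_lit 15) (nat_lit 5) (nat_lit 17) (nat_lit 5) (nat_lit 18) (nat_lit 5) (nat_lit 227) (nat_lit 218) (nat_lit 155)) (XT.lf (nat_lit 0) (nat_lit 31384142368) (nat_lit 152) (nat_lit 69486643069) (nat_lit 228) (nat_lit 18824297158) (nat_lit 13) (nat_lit 5) (nat_lit 15) (nat_lit 5) (nat_lit 16) (nat_lit 5) (nat_lit 228) (nat_lit 218) (nat_lit 154))))) (XT.nd (nat_lit 156) (nat_lit 228) (nat_lit 0) (XT.nd (nat_lit 78) (nat_lit 152) (nat_lit 0) (XT.lf (nat_lit 0) (nat_lit 1230032042) (nat_lit 228) (nat_lit 16147441958) (nat_lit 76) (nat_lit 115052832047) (nat_lit 12) (nat_lit 5) (nat_lit 15) (nat_lit 5) (nat_lit 13) (nat_lit 5) (nat_lit 229) (nat_lit 218) (nat_lit 153)) (XT.lf (nat_lit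 0) (nat_lit 25966919829) (nat_lit 228) (nat_lit 78170919328) (nat_lit 76) (nat_lit 42675753004) (nat_lit 10) (nat_lit 5) (nat_lit 13) (nat_lit 5) (nat_lit 11) (nat_lit 5) (nat_lit 230) (nat_lit 218) (nat_lit 152))) (XT.nd (nat_lit 78) (nat_lit 76) (nat_lit 0) (XT.lf (nat_lit 0) (nat_lit 3491702178) (nat_lit 152) (nat_lit 51967754646) (nat_lit 228) (nat_lit 107811318979) (nat_lit 8) (nat_lit 5) (nat_lit 10) (nat_lit 5) (nat_lit 11) (nat_lit 5) (nat_lit 231) (nat_lit 218) (nat_lit 151)) (XT.nd (nat_lit 78) (nat_lit 76) (nat_lit 0) (XT.lf (nat_lit 0) (nat_lit 91902279366) (nat_lit 228) (nat_lit 80131574034) (nat_lit 76) (nat_lit 9960583274) (nat_lit 8) (nat_lit 5) (nat_lit 11) (nat_lit 5) (nat_lit 9) (nat_lit 4) (nat_lit 232) (nat_lit 218) (nat_lit 150)) (XT.lf (nat_lit 0) (nat_lit 10551461903) (nat_lit 76) (nat_lit 124949699540) (nat_lit 152) (nat_lit 67890324846) (nat_lit 7) (nat_lit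 5) (nat_lit 8) (nat_lit 5) (nat_lit 9) (nat_lit 4) (nat_lit 233) (nat_lit 218) (nat_lit 149))))))) (XT.nd (nat_lit 780) (nat_lit 152) (nat_lit 0) (XT.nd (nat_lit 390) (nat_lit 76) (nat_lit 0) (XT.nd (nat_lit 156) (nat_lit 228) (nat_lit 0) (XT.nd (nat_lit 78) (nat_lit 0) (nat_lit 0) (XT.lf (nat_lit 0) (nat_lit 119687541176) (nat_lit 76) (nat_lit 68283992318) (nat_lit 152) (nat_lit 39840036374) (nat_lit 7) (nat_lit 5) (nat_lit 8) (nat_lit 5) (nat_lit 9) (nat_lit 4) (nat_lit 234) (nat_lit 218) (nat_lit 148)) (XT.lf (nat_lit 0) (nat_lit 245192348215) (nat_lit 76) (nat_lit 3118994096) (nat_lit 152) (nat_lit 7583421143) (nat_lit 7) (nat_lit 5) (nat_lit 8) (nat_lit 5) (nat_lit 9) (nat_lit 4) (nat_lit 235) (nat_lit 218) (nat_lit 147))) (XT.nd (nat_lit 78) (nat_lit 76) (nat_lit 0) (XT.lf (nat_lit 0) (nat_lit 32393637615) (nat_lit 152) (nat_lit 183822140089) (nat_lit 76) (nat_lit 71569224602)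 (nat_lit 5) (nat_lit 5) (nat_lit 7) (nat_lit 5) (nat_lit 6) (nat_lit 4) (nat_lit 236) (nat_lit 218) (nat_lit 146)) (XT.nd (nat_lit 78) (nat_lit 76) (nat_lit 0) (XT.lf (nat_lit 0) (nat_lit 78336025824) (nat_lit 152) (nat_lit 88263369590) (nat_lit 76) (nat_lit 157810205873) (nat_lit 5) (nat_lit 5) (nat_lit 7) (nat_lit 5) (nat_lit 6) (nat_lit 4) (nat_lit 237) (nat_lit 218) (nat_lit 145)) (XT.lf (nat_lit 0) (nat_lit 22766835158) (nat_lit 76) (nat_lit 108949680814) (nat_lit 152) (nat_lit 234767639482) (nat_lit 4) (nat_lit 5) (nat_lit 5) (nat_lit 5) (nat_lit 6) (nat_lit 4) (nat_lit 238) (nat_lit 218) (nat_lit 144))))) (XT.nd (nat_lit 156) (nat_lit 76) (nat_lit 0) (XT.nd (nat_lit 78) (nat_lit 0) (nat_lit 0) (XT.lf (nat_lit 0) (nat_lit 155795369064) (nat_lit 76) (nat_lit 39877680668) (nat_lit 152) (nat_lit 218991329613) (nat_lit 4) (nat_lit 5) (nat_lit 5) (nat_lit 5) (nat_lit 6) (nat_lit 4)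 (nat_lit 239) (nat_lit 218) (nat_lit 143)) (XT.lf (nat_lit 0) (nat_lit 270173727275) (nat_lit 152) (nat_lit 162245811453) (nat_lit 0) (nat_lit 37576048651) (nat_lit 4) (nat_lit 5) (nat_lit 6) (nat_lit 4) (nat_lit 4) (nat_lit 4) (nat_lit 240) (nat_lit 218) (nat_lit 142))) (XT.nd (nat_lit 78) (nat_lit 76) (nat_lit 0) (XT.lf (nat_lit 0) (nat_lit 356951869847) (nat_lit 152) (nat_lit 52232969216) (nat_lit 0) (nat_lit 124353451663) (nat_lit 4) (nat_lit 5) (nat_lit 6) (nat_lit 4) (nat_lit 4) (nat_lit 4) (nat_lit 241) (nat_lit 218) (nat_lit 141)) (XT.nd (nat_lit 78) (nat_lit 0) (nat_lit 0) (XT.lf (nat_lit 0) (nat_lit 78192506645) (nat_lit 76) (nat_lit 380434276514) (nat_lit 76) (nat_lit 147835215235) (nat_lit 3) (nat_lit 4) (nat_lit 4) (nat_lit 5) (nat_lit 4) (nat_lit 4) (nat_lit 242) (nat_lit 218) (nat_lit 140)) (XT.lf (nat_lit 0) (nat_lit 231344142841) (nat_lit 76) (nat_lit 345729060345)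 (nat_lit 76) (nat_lit 113129439852) (nat_lit 3) (nat_lit 4) (nat_lit 4) (nat_lit 5) (nat_lit 4) (nat_lit 4) (nat_lit 243) (nat_lit 218) (nat_lit 139)))))) (XT.nd (nat_lit 390) (nat_lit 0) (nat_lit 0) (XT.nd (nat_lit 156) (nat_lit 152) (nat_lit 0) (XT.nd (nat_lit 78) (nat_lit 0) (nat_lit 0) (XT.lf (nat_lit 0) (nat_lit 407467888833) (nat_lit 76) (nat_lit 305818317400) (nat_lit 76) (nat_lit 73218210634) (nat_lit 3) (nat_lit 4) (nat_lit 4) (nat_lit 5) (nat_lit 4) (nat_lit 4) (nat_lit 244) (nat_lit 218) (nat_lit 138)) (XT.lf (nat_lit 0) (nat_lit 610009643999) (nat_lit 76) (nat_lit 259921185319) (nat_lit 76) (nat_lit 27320655707) (nat_lit 3) (nat_lit 4) (nat_lit 4) (nat_lit 5) (nat_lit 4) (nat_lit 4) (nat_lit 245) (nat_lit 218) (nat_lit 137))) (XT.nd (nat_lit 78) (nat_lit 76) (nat_lit 0) (XT.lf (nat_lit 0) (nat_lit 24187547198) (nat_lit 152) (nat_lit 182290799130) (nat_lit 76) (nat_lit 818083304206)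 (nat_lit 2) (nat_lit 5) (nat_lit 4) (nat_lit 5) (nat_lit 3) (nat_lit 4) (nat_lit 246) (nat_lit 218) (nat_lit 136)) (XT.nd (nat_lit 78) (nat_lit 76) (nat_lit 0) (XT.lf (nat_lit 0) (nat_lit 81850029575) (nat_lit 152) (nat_lit 62353155519) (nat_lit 76) (nat_lit 1026704727917) (nat_lit 2) (nat_lit 5) (nat_lit 4) (nat_lit 5) (nat_lit 3) (nat_lit 4) (nat_lit 247) (nat_lit 218) (nat_lit 135)) (XT.lf (nat_lit 0) (nat_lit 79554391145) (nat_lit 76) (nat_lit 70520554147) (nat_lit 152) (nat_lit 1188978125796) (nat_lit 1) (nat_lit 5) (nat_lit 2) (nat_lit 5) (nat_lit 3) (nat_lit 4) (nat_lit 248) (nat_lit 218) (nat_lit 134))))) (XT.nd (nat_lit 156) (nat_lit 0) (nat_lit 0) (XT.nd (nat_lit 78) (nat_lit 0) (nat_lit 0) (XT.lf (nat_lit 0) (nat_lit 230737747103) (nat_lit 152) (nat_lit 1286140156279) (nat_lit 0) (nat_lit 15365768559) (nat_lit 1) (nat_lit 5) (nat_lit 3) (nat_lit 4) (nat_lit 1) (nat_lit 4)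 (nat_lit 249) (nat_lit 218) (nat_lit 133)) (XT.lf (nat_lit 0) (nat_lit 325450213798) (nat_lit 152) (nat_lit 1318728589794) (nat_lit 0) (nat_lit 110078040597) (nat_lit 1) (nat_lit 5) (nat_lit 3) (nat_lit 4) (nat_lit 1) (nat_lit 4) (nat_lit 250) (nat_lit 218) (nat_lit 132))) (XT.nd (nat_lit 78) (nat_lit 0) (nat_lit 0) (XT.lf (nat_lit 0) (nat_lit 434369394355) (nat_lit 152) (nat_lit 1356205559251) (nat_lit 0) (nat_lit 218997051887) (nat_lit 1) (nat_lit 5) (nat_lit 3) (nat_lit 4) (nat_lit 1) (nat_lit 4) (nat_lit 251) (nat_lit 218) (nat_lit 131)) (XT.nd (nat_lit 78) (nat_lit 0) (nat_lit 0) (XT.lf (nat_lit 0) (nat_lit 559626316219) (nat_lit 152) (nat_lit 1399304309706) (nat_lit 0) (nat_lit 344253826563) (nat_lit 1) (nat_lit 5) (nat_lit 3) (nat_lit 4) (nat_lit 1) (nat_lit 4) (nat_lit 252) (nat_lit 218) (nat_lit 130)) (XT.lf (nat_lit 0) (nat_lit 703671658297) (nat_lit 152) (nat_lit 1448868077580)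 (nat_lit 0) (nat_lit 488299040651) (nat_lit 1) (nat_lit 5) (nat_lit 3) (nat_lit 4) (nat_lit 1) (nat_lit 4) (nat_lit 253) (nat_lit 218) (nat_lit 129))))))))
noncomputable def xc49 : XT := (XT.nd (nat_lit 29718) (nat_lit 0) (nat_lit 0) (XT.nd (nat_lit 28938) (nat_lit 0) (nat_lit 532) (XT.nd (nat_lit 28548) (nat_lit 0) (nat_lit 1672) (XT.nd (nat_lit 156) (nat_lit 0) (nat_lit 0) (XT.nd (nat_lit 78) (nat_lit 0) (nat_lit 0) (XT.lf (nat_lit 0) (nat_lit 869323699020) (nat_lit 152) (nat_lit 1505866588767) (nat_lit 0) (nat_lit 653950970079) (nat_lit 1) (nat_lit 5) (nat_lit 3) (nat_lit 4) (nat_lit 1) (nat_lit 4) (nat_lit 254) (nat_lit 218) (nat_lit 128)) (XT.lf (nat_lit 0) (nat_lit 1059823456577) (nat_lit 152) (nat_lit 1571415031528) (nat_lit 0) (nat_lit 844450630857) (nat_lit 1) (nat_lit 5) (nat_lit 3) (nat_lit 4) (nat_lit 1) (nat_lit 4) (nat_lit 255) (nat_lit 218) (nat_lit 127))) (XT.nd (nat_lit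 78) (nat_lit 0) (nat_lit 0) (XT.lf (nat_lit 0) (nat_lit 1278898100138) (nat_lit 152) (nat_lit 1646795875396) (nat_lit 0) (nat_lit 1063525190262) (nat_lit 1) (nat_lit 5) (nat_lit 3) (nat_lit 4) (nat_lit 1) (nat_lit 4) (nat_lit 256) (nat_lit 218) (nat_lit 126)) (XT.lf (nat_lit 0) (nat_lit 1530833872727) (nat_lit 152) (nat_lit 1733483962969) (nat_lit 0) (nat_lit 1315460889673) (nat_lit 1) (nat_lit 5) (nat_lit 3) (nat_lit 4) (nat_lit 1) (nat_lit 4) (nat_lit 257) (nat_lit 218) (nat_lit 125)))) (XT.nd (nat_lit 156) (nat_lit 304) (nat_lit 0) (XT.nd (nat_lit 78) (nat_lit 0) (nat_lit 0) (XT.lf (nat_lit 0) (nat_lit 12490627421) (nat_lit 0) (nat_lit 12490627421) (nat_lit 380) (nat_lit 4471110718) (nat_lit 27) (nat_lit 5) (nat_lit 27) (nat_lit 3) (nat_lit 32) (nat_lit 3) (nat_lit 219) (nat_lit 219) (nat_lit 162)) (XT.lf (nat_lit 76) (nat_lit 6806053499) (nat_lit 0) (nat_lit 47490457644) (nat_lit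 456) (nat_lit 8978809556) (nat_lit 28) (nat_lit 5) (nat_lit 27) (nat_lit 5) (nat_lit 33) (nat_lit 5) (nat_lit 220) (nat_lit 219) (nat_lit 161))) (XT.nd (nat_lit 78) (nat_lit 304) (nat_lit 0) (XT.lf (nat_lit 76) (nat_lit 54968884395) (nat_lit 0) (nat_lit 5967861997) (nat_lit 456) (nat_lit 7232318648) (nat_lit 28) (nat_lit 5) (nat_lit 27) (nat_lit 5) (nat_lit 33) (nat_lit 5) (nat_lit 221) (nat_lit 219) (nat_lit 160)) (XT.nd (nat_lit 78) (nat_lit 380) (nat_lit 0) (XT.lf (nat_lit 76) (nat_lit 37423296973) (nat_lit 0) (nat_lit 33050378448) (nat_lit 456) (nat_lit 3171192506) (nat_lit 29) (nat_lit 5) (nat_lit 28) (nat_lit 5) (nat_lit 34) (nat_lit 5) (nat_lit 222) (nat_lit 219) (nat_lit 159)) (XT.lf (nat_lit 0) (nat_lit 2748039219) (nat_lit 456) (nat_lit 63043981961) (nat_lit 76) (nat_lit 14041261479) (nat_lit 23) (nat_lit 5) (nat_lit 29) (nat_lit 5) (nat_lit 24) (nat_lit 5) (nat_lit 223) (nat_lit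 219) (nat_lit 158)))))) (XT.nd (nat_lit 390) (nat_lit 532) (nat_lit 0) (XT.nd (nat_lit 156) (nat_lit 380) (nat_lit 0) (XT.nd (nat_lit 78) (nat_lit 228) (nat_lit 0) (XT.lf (nat_lit 0) (nat_lit 11365304161) (nat_lit 456) (nat_lit 7952706661) (nat_lit 76) (nat_lit 67465560526) (nat_lit 23) (nat_lit 5) (nat_lit 29) (nat_lit 5) (nat_lit 24) (nat_lit 5) (nat_lit 224) (nat_lit 219) (nat_lit 157)) (XT.lf (nat_lit 0) (nat_lit 23531865173) (nat_lit 304) (nat_lit 37204942093) (nat_lit 76) (nat_lit 33859089748) (nat_lit 20) (nat_lit 5) (nat_lit 24) (nat_lit 5) (nat_lit 21) (nat_lit 5) (nat_lit 225) (nat_lit 219) (nat_lit 156))) (XT.nd (nat_lit 78) (nat_lit 152) (nat_lit 0) (XT.lf (nat_lit 0) (nat_lit 30435635715) (nat_lit 228) (nat_lit 8588918749) (nat_lit 304) (nat_lit 64435451782) (nat_lit 17) (nat_lit 5) (nat_lit 20) (nat_lit 5) (nat_lit 21) (nat_lit 5) (nat_lit 226) (nat_lit 219) (nat_lit 155))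 (XT.nd (nat_lit 78) (nat_lit 152) (nat_lit 0) (XT.lf (nat_lit 0) (nat_lit 59185794166) (nat_lit 304) (nat_lit 4358369716) (nat_lit 76) (nat_lit 49922019042) (nat_lit 17) (nat_lit 5) (nat_lit 21) (nat_lit 5) (nat_lit 18) (nat_lit 5) (nat_lit 227) (nat_lit 219) (nat_lit 154)) (XT.lf (nat_lit 0) (nat_lit 78283649648) (nat_lit 152) (nat_lit 6205766089) (nat_lit 228) (nat_lit 40314434538) (nat_lit 15) (nat_lit 5) (nat_lit 17) (nat_lit 5) (nat_lit 18) (nat_lit 5) (nat_lit 228) (nat_lit 219) (nat_lit 153))))) (XT.nd (nat_lit 156) (nat_lit 304) (nat_lit 0) (XT.nd (nat_lit 78) (nat_lit 76) (nat_lit 0) (XT.lf (nat_lit 0) (nat_lit 36118436841) (nat_lit 152) (nat_lit 79903701411) (nat_lit 228) (nat_lit 21625362119) (nat_lit 13) (nat_lit 5) (nat_lit 15) (nat_lit 5) (nat_lit 16) (nat_lit 5) (nat_lit 229) (nat_lit 219) (nat_lit 152)) (XT.lf (nat_lit 0) (nat_lit 1433189101) (nat_lit 228) (nat_lit 18545232433)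 (nat_lit 76) (nat_lit 132314788632) (nat_lit 12) (nat_lit 5) (nat_lit 15) (nat_lit 5) (nat_lit 13) (nat_lit 5) (nat_lit 230) (nat_lit 219) (nat_lit 151))) (XT.nd (nat_lit 78) (nat_lit 152) (nat_lit 0) (XT.lf (nat_lit 0) (nat_lit 29878845230) (nat_lit 228) (nat_lit 89872952546) (nat_lit 76) (nat_lit 49082352121) (nat_lit 10) (nat_lit 5) (nat_lit 13) (nat_lit 5) (nat_lit 11) (nat_lit 5) (nat_lit 231) (nat_lit 219) (nat_lit 150)) (XT.nd (nat_lit 78) (nat_lit 0) (nat_lit 0) (XT.lf (nat_lit 0) (nat_lit 4037064167) (nat_lit 152) (nat_lit 59756515540) (nat_lit 228) (nat_lit 123966482992) (nat_lit 8) (nat_lit 5) (nat_lit 10) (nat_lit 5) (nat_lit 11) (nat_lit 5) (nat_lit 232) (nat_lit 219) (nat_lit 149)) (XT.lf (nat_lit 0) (nat_lit 105700976345) (nat_lit 228) (nat_lit 92131499564) (nat_lit 76) (nat_lit 11459959490) (nat_lit 8) (nat_lit 5) (nat_lit 11) (nat_lit 5) (nat_lit 9) (nat_lit 4) (nat_lit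 233) (nat_lit 219) (nat_lit 148))))))) (XT.nd (nat_lit 780) (nat_lit 152) (nat_lit 0) (XT.nd (nat_lit 390) (nat_lit 152) (nat_lit 0) (XT.nd (nat_lit 156) (nat_lit 152) (nat_lit 0) (XT.nd (nat_lit 78) (nat_lit 0) (nat_lit 0) (XT.lf (nat_lit 0) (nat_lit 12152314898) (nat_lit 76) (nat_lit 143686069986) (nat_lit 152) (nat_lit 78060774871) (nat_lit 7) (nat_lit 5) (nat_lit 8) (nat_lit 5) (nat_lit 9) (nat_lit 4) (nat_lit 234) (nat_lit 219) (nat_lit 147)) (XT.lf (nat_lit 0) (nat_lit 137656440795) (nat_lit 76) (nat_lit 78521300310) (nat_lit 152) (nat_lit 45804651656) (nat_lit 7) (nat_lit 5) (nat_lit 8) (nat_lit 5) (nat_lit 9) (nat_lit 4) (nat_lit 235) (nat_lit 219) (nat_lit 146))) (XT.nd (nat_lit 78) (nat_lit 152) (nat_lit 0) (XT.lf (nat_lit 0) (nat_lit 281984912137) (nat_lit 76) (nat_lit 3582242466) (nat_lit 152) (nat_lit 8711029814) (nat_lit 7) (nat_lit 5) (nat_lit 8) (nat_lit 5) (nat_lit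 9) (nat_lit 4) (nat_lit 236) (nat_lit 219) (nat_lit 145)) (XT.nd (nat_lit 78) (nat_lit 0) (nat_lit 0) (XT.lf (nat_lit 0) (nat_lit 37261288861) (nat_lit 152) (nat_lit 211381779703) (nat_lit 76) (nat_lit 82308943562) (nat_lit 5) (nat_lit 5) (nat_lit 7) (nat_lit 5) (nat_lit 6) (nat_lit 4) (nat_lit 237) (nat_lit 219) (nat_lit 144)) (XT.lf (nat_lit 0) (nat_lit 90093912831) (nat_lit 152) (nat_lit 101490978160) (nat_lit 76) (nat_lit 181485506553) (nat_lit 5) (nat_lit 5) (nat_lit 7) (nat_lit 5) (nat_lit 6) (nat_lit 4) (nat_lit 238) (nat_lit 219) (nat_lit 143))))) (XT.nd (nat_lit 156) (nat_lit 76) (nat_lit 0) (XT.nd (nat_lit 78) (nat_lit 0) (nat_lit 0) (XT.lf (nat_lit 0) (nat_lit 26192750289) (nat_lit 76) (nat_lit 125288012053) (nat_lit 152) (nat_lit 269975435534) (nat_lit 4) (nat_lit 5) (nat_lit 5) (nat_lit 5) (nat_lit 6) (nat_lit 4) (nat_lit 239) (nat_lit 219) (nat_lit 142)) (XT.lf (nat_lit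 0) (nat_lit 179174143865) (nat_lit 76) (nat_lit 45855749391) (nat_lit 152) (nat_lit 251833637864) (nat_lit 4) (nat_lit 5) (nat_lit 5) (nat_lit 5) (nat_lit 6) (nat_lit 4) (nat_lit 240) (nat_lit 219) (nat_lit 141))) (XT.nd (nat_lit 78) (nat_lit 76) (nat_lit 0) (XT.lf (nat_lit 0) (nat_lit 310704979622) (nat_lit 152) (nat_lit 186574084573) (nat_lit 0) (nat_lit 43215416055) (nat_lit 4) (nat_lit 5) (nat_lit 6) (nat_lit 4) (nat_lit 4) (nat_lit 4) (nat_lit 241) (nat_lit 219) (nat_lit 140)) (XT.nd (nat_lit 78) (nat_lit 76) (nat_lit 0) (XT.lf (nat_lit 0) (nat_lit 410499166199) (nat_lit 152) (nat_lit 60060437557) (nat_lit 0) (nat_lit 143009043418) (nat_lit 4) (nat_lit 5) (nat_lit 6) (nat_lit 4) (nat_lit 4) (nat_lit 4) (nat_lit 242) (nat_lit 219) (nat_lit 139)) (XT.lf (nat_lit 0) (nat_lit 89928226789) (nat_lit 76) (nat_lit 437496665293) (nat_lit 76) (nat_lit 170006056240) (nat_lit 3) (nat_lit 4)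 (nat_lit 4) (nat_lit 5) (nat_lit 4) (nat_lit 4) (nat_lit 243) (nat_lit 219) (nat_lit 138)))))) (XT.nd (nat_lit 390) (nat_lit 76) (nat_lit 0) (XT.nd (nat_lit 156) (nat_lit 76) (nat_lit 0) (XT.nd (nat_lit 78) (nat_lit 0) (nat_lit 0) (XT.lf (nat_lit 0) (nat_lit 266051715700) (nat_lit 76) (nat_lit 397586025746) (nat_lit 76) (nat_lit 130094993847) (nat_lit 3) (nat_lit 4) (nat_lit 4) (nat_lit 5) (nat_lit 4) (nat_lit 4) (nat_lit 244) (nat_lit 219) (nat_lit 137)) (XT.lf (nat_lit 0) (nat_lit 468593247317) (nat_lit 76) (nat_lit 351688983575) (nat_lit 76) (nat_lit 84197583984) (nat_lit 3) (nat_lit 4) (nat_lit 4) (nat_lit 5) (nat_lit 4) (nat_lit 4) (nat_lit 245) (nat_lit 219) (nat_lit 136))) (XT.nd (nat_lit 78) (nat_lit 76) (nat_lit 0) (XT.lf (nat_lit 0) (nat_lit 701515590737) (nat_lit 76) (nat_lit 298907553173) (nat_lit 76) (nat_lit 31415833849) (nat_lit 3) (nat_lit 4) (nat_lit 4) (nat_lit 5)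 (nat_lit 4) (nat_lit 4) (nat_lit 246) (nat_lit 219) (nat_lit 135)) (XT.nd (nat_lit 78) (nat_lit 0) (nat_lit 0) (XT.lf (nat_lit 0) (nat_lit 27818091568) (nat_lit 152) (nat_lit 209630366889) (nat_lit 76) (nat_lit 940797234755) (nat_lit 2) (nat_lit 5) (nat_lit 4) (nat_lit 5) (nat_lit 3) (nat_lit 4) (nat_lit 247) (nat_lit 219) (nat_lit 134)) (XT.lf (nat_lit 0) (nat_lit 94129631654) (nat_lit 152) (nat_lit 71702605273) (nat_lit 76) (nat_lit 1180711684860) (nat_lit 2) (nat_lit 5) (nat_lit 4) (nat_lit 5) (nat_lit 3) (nat_lit 4) (nat_lit 248) (nat_lit 219) (nat_lit 133))))) (XT.nd (nat_lit 156) (nat_lit 0) (nat_lit 0) (XT.nd (nat_lit 78) (nat_lit 0) (nat_lit 0) (XT.lf (nat_lit 0) (nat_lit 91490775137) (nat_lit 76) (nat_lit 81097313555) (nat_lit 152) (nat_lit 1367322781918) (nat_lit 1) (nat_lit 5) (nat_lit 2) (nat_lit 5) (nat_lit 3) (nat_lit 4) (nat_lit 249) (nat_lit 219) (nat_lit 132)) (XT.lf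 (nat_lit 0) (nat_lit 265350090422) (nat_lit 152) (nat_lit 1479058262654) (nat_lit 0) (nat_lit 17671727318) (nat_lit 1) (nat_lit 5) (nat_lit 3) (nat_lit 4) (nat_lit 1) (nat_lit 4) (nat_lit 250) (nat_lit 219) (nat_lit 131))) (XT.nd (nat_lit 78) (nat_lit 0) (nat_lit 0) (XT.lf (nat_lit 0) (nat_lit 374269207827) (nat_lit 152) (nat_lit 1516535341683) (nat_lit 0) (nat_lit 126590697535) (nat_lit 1) (nat_lit 5) (nat_lit 3) (nat_lit 4) (nat_lit 1) (nat_lit 4) (nat_lit 251) (nat_lit 219) (nat_lit 130)) (XT.nd (nat_lit 78) (nat_lit 0) (nat_lit 0) (XT.lf (nat_lit 0) (nat_lit 499526074777) (nat_lit 152) (nat_lit 1559634187418) (nat_lit 0) (nat_lit 251847436495) (nat_lit 1) (nat_lit 5) (nat_lit 3) (nat_lit 4) (nat_lit 1) (nat_lit 4) (nat_lit 252) (nat_lit 219) (nat_lit 129)) (XT.lf (nat_lit 0) (nat_lit 643571369103) (nat_lit 152) (nat_lit 1609198038144) (nat_lit 0) (nat_lit 395892619525) (nat_lit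 1) (nat_lit 5) (nat_lit 3) (nat_lit 4) (nat_lit 1) (nat_lit 4) (nat_lit 253) (nat_lit 219) (nat_lit 128))))))))
noncomputable def xc50 : XT := (XT.nd (nat_lit 29796) (nat_lit 0) (nat_lit 0) (XT.nd (nat_lit 29016) (nat_lit 0) (nat_lit 532) (XT.nd (nat_lit 28626) (nat_lit 0) (nat_lit 1672) (XT.nd (nat_lit 156) (nat_lit 0) (nat_lit 0) (XT.nd (nat_lit 78) (nat_lit 0) (nat_lit 0) (XT.lf (nat_lit 0) (nat_lit 809223368304) (nat_lit 152) (nat_lit 1666196621375) (nat_lit 0) (nat_lit 561544521947) (nat_lit 1) (nat_lit 5) (nat_lit 3) (nat_lit 4) (nat_lit 1) (nat_lit 4) (nat_lit 254) (nat_lit 219) (nat_lit 127)) (XT.lf (nat_lit 0) (nat_lit 999723089754) (nat_lit 152) (nat_lit 1731745126784) (nat_lit 0) (nat_lit 752044159241) (nat_lit 1) (nat_lit 5) (nat_lit 3) (nat_lit 4) (nat_lit 1) (nat_lit 4) (nat_lit 255) (nat_lit 219) (nat_lit 126))) (XT.nd (nat_lit 78) (nat_lit 0) (nat_lit 0) (XT.lf (nat_lit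 0) (nat_lit 1218797701916) (nat_lit 152) (nat_lit 1807126025129) (nat_lit 0) (nat_lit 971118698225) (nat_lit 1) (nat_lit 5) (nat_lit 3) (nat_lit 4) (nat_lit 1) (nat_lit 4) (nat_lit 256) (nat_lit 219) (nat_lit 125)) (XT.lf (nat_lit 0) (nat_lit 1470733447204) (nat_lit 152) (nat_lit 1893814160072) (nat_lit 0) (nat_lit 1223054379879) (nat_lit 1) (nat_lit 5) (nat_lit 3) (nat_lit 4) (nat_lit 1) (nat_lit 4) (nat_lit 257) (nat_lit 219) (nat_lit 124)))) (XT.nd (nat_lit 156) (nat_lit 304) (nat_lit 0) (XT.nd (nat_lit 78) (nat_lit 0) (nat_lit 0) (XT.lf (nat_lit 0) (nat_lit 14377476293) (nat_lit 0) (nat_lit 14377476293) (nat_lit 380) (nat_lit 5112840106) (nat_lit 27) (nat_lit 5) (nat_lit 27) (nat_lit 3) (nat_lit 32) (nat_lit 3) (nat_lit 220) (nat_lit 220) (nat_lit 160)) (XT.lf (nat_lit 76) (nat_lit 7856255150) (nat_lit 0) (nat_lit 54630986291) (nat_lit 456) (nat_lit 10275143264) (nat_lit 28) (nat_lit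 5) (nat_lit 27) (nat_lit 5) (nat_lit 33) (nat_lit 5) (nat_lit 221) (nat_lit 220) (nat_lit 159))) (XT.nd (nat_lit 78) (nat_lit 304) (nat_lit 0) (XT.lf (nat_lit 76) (nat_lit 63239689773) (nat_lit 0) (nat_lit 6877789122) (nat_lit 456) (nat_lit 8273264074) (nat_lit 28) (nat_lit 5) (nat_lit 27) (nat_lit 5) (nat_lit 33) (nat_lit 5) (nat_lit 222) (nat_lit 220) (nat_lit 158)) (XT.nd (nat_lit 78) (nat_lit 380) (nat_lit 0) (XT.lf (nat_lit 76) (nat_lit 43063802940) (nat_lit 0) (nat_lit 38016239383) (nat_lit 456) (nat_lit 3608326908) (nat_lit 29) (nat_lit 5) (nat_lit 28) (nat_lit 5) (nat_lit 34) (nat_lit 5) (nat_lit 223) (nat_lit 220) (nat_lit 157)) (XT.lf (nat_lit 0) (nat_lit 3192594729) (nat_lit 456) (nat_lit 72470687367) (nat_lit 76) (nat_lit 16142080003) (nat_lit 23) (nat_lit 5) (nat_lit 29) (nat_lit 5) (nat_lit 24) (nat_lit 5) (nat_lit 224) (nat_lit 220) (nat_lit 156)))))) (XT.nd (nat_lit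 390) (nat_lit 532) (nat_lit 0) (XT.nd (nat_lit 156) (nat_lit 380) (nat_lit 0) (XT.nd (nat_lit 78) (nat_lit 228) (nat_lit 0) (XT.lf (nat_lit 0) (nat_lit 13098229895) (nat_lit 456) (nat_lit 9119619713) (nat_lit 76) (nat_lit 77580724433) (nat_lit 23) (nat_lit 5) (nat_lit 29) (nat_lit 5) (nat_lit 24) (nat_lit 5) (nat_lit 225) (nat_lit 220) (nat_lit 155)) (XT.lf (nat_lit 0) (nat_lit 27086648299) (nat_lit 304) (nat_lit 42759612408) (nat_lit 76) (nat_lit 38936774851) (nat_lit 20) (nat_lit 5) (nat_lit 24) (nat_lit 5) (nat_lit 21) (nat_lit 5) (nat_lit 226) (nat_lit 220) (nat_lit 154))) (XT.nd (nat_lit 78) (nat_lit 152) (nat_lit 0) (XT.lf (nat_lit 0) (nat_lit 35024845290) (nat_lit 228) (nat_lit 9875708321) (nat_lit 304) (nat_lit 74076454607) (nat_lit 17) (nat_lit 5) (nat_lit 20) (nat_lit 5) (nat_lit 21) (nat_lit 5) (nat_lit 227) (nat_lit 220) (nat_lit 153)) (XT.nd (nat_lit 78) (nat_lit 152) (nat_lit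 0) (XT.lf (nat_lit 0) (nat_lit 68083100868) (nat_lit 304) (nat_lit 4989667827) (nat_lit 76) (nat_lit 57411600847) (nat_lit 17) (nat_lit 5) (nat_lit 21) (nat_lit 5) (nat_lit 18) (nat_lit 5) (nat_lit 228) (nat_lit 220) (nat_lit 152)) (XT.lf (nat_lit 0) (nat_lit 90046753538) (nat_lit 152) (nat_lit 7133471184) (nat_lit 228) (nat_lit 46342649788) (nat_lit 15) (nat_lit 5) (nat_lit 17) (nat_lit 5) (nat_lit 18) (nat_lit 5) (nat_lit 229) (nat_lit 220) (nat_lit 151))))) (XT.nd (nat_lit 156) (nat_lit 304) (nat_lit 0) (XT.nd (nat_lit 78) (nat_lit 76) (nat_lit 0) (XT.lf (nat_lit 0) (nat_lit 41556371076) (nat_lit 152) (nat_lit 91884766553) (nat_lit 228) (nat_lit 24852093005) (nat_lit 13) (nat_lit 5) (nat_lit 15) (nat_lit 5) (nat_lit 16) (nat_lit 5) (nat_lit 230) (nat_lit 220) (nat_lit 150)) (XT.lf (nat_lit 0) (nat_lit 1662271248) (nat_lit 228) (nat_lit 21308623485) (nat_lit 76) (nat_lit 152165055530)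 (nat_lit 12) (nat_lit 5) (nat_lit 15) (nat_lit 5) (nat_lit 13) (nat_lit 5) (nat_lit 231) (nat_lit 220) (nat_lit 149))) (XT.nd (nat_lit 78) (nat_lit 152) (nat_lit 0) (XT.lf (nat_lit 0) (nat_lit 34373441335) (nat_lit 228) (nat_lit 103336046898) (nat_lit 76) (nat_lit 56448664233) (nat_lit 10) (nat_lit 5) (nat_lit 13) (nat_lit 5) (nat_lit 11) (nat_lit 5) (nat_lit 232) (nat_lit 220) (nat_lit 148)) (XT.nd (nat_lit 78) (nat_lit 0) (nat_lit 0) (XT.lf (nat_lit 0) (nat_lit 4658961534) (nat_lit 152) (nat_lit 68715151810) (nat_lit 228) (nat_lit 142548953487) (nat_lit 8) (nat_lit 5) (nat_lit 10) (nat_lit 5) (nat_lit 11) (nat_lit 5) (nat_lit 233) (nat_lit 220) (nat_lit 147)) (XT.lf (nat_lit 0) (nat_lit 121566221151) (nat_lit 228) (nat_lit 105936244858) (nat_lit 76) (nat_lit 13182952450) (nat_lit 8) (nat_lit 5) (nat_lit 11) (nat_lit 5) (nat_lit 9) (nat_lit 4) (nat_lit 234) (nat_lit 220) (nat_lit 146)))))))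 (XT.nd (nat_lit 780) (nat_lit 152) (nat_lit 0) (XT.nd (nat_lit 390) (nat_lit 152) (nat_lit 0) (XT.nd (nat_lit 156) (nat_lit 152) (nat_lit 0) (XT.nd (nat_lit 78) (nat_lit 0) (nat_lit 0) (XT.lf (nat_lit 0) (nat_lit 13988873822) (nat_lit 76) (nat_lit 165234379739) (nat_lit 152) (nat_lit 89759986602) (nat_lit 7) (nat_lit 5) (nat_lit 8) (nat_lit 5) (nat_lit 9) (nat_lit 4) (nat_lit 235) (nat_lit 220) (nat_lit 145)) (XT.lf (nat_lit 0) (nat_lit 158316830122) (nat_lit 76) (nat_lit 90295494709) (nat_lit 152) (nat_lit 52666736796) (nat_lit 7) (nat_lit 5) (nat_lit 8) (nat_lit 5) (nat_lit 9) (nat_lit 4) (nat_lit 236) (nat_lit 220) (nat_lit 144))) (XT.nd (nat_lit 78) (nat_lit 152) (nat_lit 0) (XT.lf (nat_lit 0) (nat_lit 324293016964) (nat_lit 76) (nat_lit 4116100012) (nat_lit 152) (nat_lit 10010195062) (nat_lit 7) (nat_lit 5) (nat_lit 8) (nat_lit 5) (nat_lit 9) (nat_lit 4) (nat_lit 237) (nat_lit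 220) (nat_lit 143)) (XT.nd (nat_lit 78) (nat_lit 0) (nat_lit 0) (XT.lf (nat_lit 0) (nat_lit 42856989263) (nat_lit 152) (nat_lit 243078701556) (nat_lit 76) (nat_lit 94658563183) (nat_lit 5) (nat_lit 5) (nat_lit 7) (nat_lit 5) (nat_lit 6) (nat_lit 4) (nat_lit 238) (nat_lit 220) (nat_lit 142)) (XT.lf (nat_lit 0) (nat_lit 103613658080) (nat_lit 152) (nat_lit 116705629142) (nat_lit 76) (nat_lit 208711183046) (nat_lit 5) (nat_lit 5) (nat_lit 7) (nat_lit 5) (nat_lit 6) (nat_lit 4) (nat_lit 239) (nat_lit 220) (nat_lit 141))))) (XT.nd (nat_lit 156) (nat_lit 76) (nat_lit 0) (XT.nd (nat_lit 78) (nat_lit 0) (nat_lit 0) (XT.lf (nat_lit 0) (nat_lit 30129897130) (nat_lit 76) (nat_lit 144078097881) (nat_lit 152) (nat_lit 310466193307) (nat_lit 4) (nat_lit 5) (nat_lit 5) (nat_lit 5) (nat_lit 6) (nat_lit 4) (nat_lit 240) (nat_lit 220) (nat_lit 140)) (XT.lf (nat_lit 0) (nat_lit 206057425703) (nat_lit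 76) (nat_lit 52731402252) (nat_lit 152) (nat_lit 289603850885) (nat_lit 4) (nat_lit 5) (nat_lit 5) (nat_lit 5) (nat_lit 6) (nat_lit 4) (nat_lit 241) (nat_lit 220) (nat_lit 139))) (XT.nd (nat_lit 78) (nat_lit 76) (nat_lit 0) (XT.lf (nat_lit 0) (nat_lit 357314653414) (nat_lit 152) (nat_lit 214553695483) (nat_lit 0) (nat_lit 49699966729) (nat_lit 4) (nat_lit 5) (nat_lit 6) (nat_lit 4) (nat_lit 4) (nat_lit 4) (nat_lit 242) (nat_lit 220) (nat_lit 138)) (XT.nd (nat_lit 78) (nat_lit 76) (nat_lit 0) (XT.lf (nat_lit 0) (nat_lit 472077455780) (nat_lit 152) (nat_lit 69063849472) (nat_lit 0) (nat_lit 164462346249) (nat_lit 4) (nat_lit 5) (nat_lit 6) (nat_lit 4) (nat_lit 4) (nat_lit 4) (nat_lit 243) (nat_lit 220) (nat_lit 137)) (XT.lf (nat_lit 0) (nat_lit 103422635967) (nat_lit 76) (nat_lit 503119083652) (nat_lit 76) (nat_lit 195503606430) (nat_lit 3) (nat_lit 4) (nat_lit 4) (nat_lit 5) (nat_lit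 4) (nat_lit 4) (nat_lit 244) (nat_lit 220) (nat_lit 136)))))) (XT.nd (nat_lit 390) (nat_lit 76) (nat_lit 0) (XT.nd (nat_lit 156) (nat_lit 76) (nat_lit 0) (XT.nd (nat_lit 78) (nat_lit 0) (nat_lit 0) (XT.lf (nat_lit 0) (nat_lit 305963973193) (nat_lit 76) (nat_lit 457222119665) (nat_lit 76) (nat_lit 149606322710) (nat_lit 3) (nat_lit 4) (nat_lit 4) (nat_lit 5) (nat_lit 4) (nat_lit 4) (nat_lit 245) (nat_lit 220) (nat_lit 135)) (XT.lf (nat_lit 0) (nat_lit 538886147578) (nat_lit 76) (nat_lit 404440757248) (nat_lit 76) (nat_lit 96824682265) (nat_lit 3) (nat_lit 4) (nat_lit 4) (nat_lit 5) (nat_lit 4) (nat_lit 4) (nat_lit 246) (nat_lit 220) (nat_lit 134))) (XT.nd (nat_lit 78) (nat_lit 76) (nat_lit 0) (XT.lf (nat_lit 0) (nat_lit 806746332099) (nat_lit 76) (nat_lit 343742317572) (nat_lit 76) (nat_lit 36126000825) (nat_lit 3) (nat_lit 4) (nat_lit 4) (nat_lit 5) (nat_lit 4) (nat_lit 4) (nat_lit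 247) (nat_lit 220) (nat_lit 133)) (XT.nd (nat_lit 78) (nat_lit 0) (nat_lit 0) (XT.lf (nat_lit 0) (nat_lit 31992629340) (nat_lit 152) (nat_lit 241071857946) (nat_lit 76) (nat_lit 1081917904972) (nat_lit 2) (nat_lit 5) (nat_lit 4) (nat_lit 5) (nat_lit 3) (nat_lit 4) (nat_lit 248) (nat_lit 220) (nat_lit 132)) (XT.lf (nat_lit 0) (nat_lit 108250662522) (nat_lit 152) (nat_lit 82455331736) (nat_lit 76) (nat_lit 1357819381071) (nat_lit 2) (nat_lit 5) (nat_lit 4) (nat_lit 5) (nat_lit 3) (nat_lit 4) (nat_lit 249) (nat_lit 220) (nat_lit 131))))) (XT.nd (nat_lit 156) (nat_lit 0) (nat_lit 0) (XT.nd (nat_lit 78) (nat_lit 0) (nat_lit 0) (XT.lf (nat_lit 0) (nat_lit 105216830214) (nat_lit 76) (nat_lit 93260909670) (nat_lit 152) (nat_lit 1572419639472) (nat_lit 1) (nat_lit 5) (nat_lit 2) (nat_lit 5) (nat_lit 3) (nat_lit 4) (nat_lit 250) (nat_lit 220) (nat_lit 130)) (XT.lf (nat_lit 0) (nat_lit 305153875255)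 (nat_lit 152) (nat_lit 1700914796331) (nat_lit 0) (nat_lit 20323313240) (nat_lit 1) (nat_lit 5) (nat_lit 3) (nat_lit 4) (nat_lit 1) (nat_lit 4) (nat_lit 251) (nat_lit 220) (nat_lit 129))) (XT.nd (nat_lit 78) (nat_lit 0) (nat_lit 0) (XT.lf (nat_lit 0) (nat_lit 430410694453) (nat_lit 152) (nat_lit 1744013724917) (nat_lit 0) (nat_lit 145580021143) (nat_lit 1) (nat_lit 5) (nat_lit 3) (nat_lit 4) (nat_lit 1) (nat_lit 4) (nat_lit 252) (nat_lit 220) (nat_lit 128)) (XT.nd (nat_lit 78) (nat_lit 0) (nat_lit 0) (XT.lf (nat_lit 0) (nat_lit 574455947256) (nat_lit 152) (nat_lit 1793577647688) (nat_lit 0) (nat_lit 289625177167) (nat_lit 1) (nat_lit 5) (nat_lit 3) (nat_lit 4) (nat_lit 1) (nat_lit 4) (nat_lit 253) (nat_lit 220) (nat_lit 127)) (XT.lf (nat_lit 0) (nat_lit 740107910349) (nat_lit 152) (nat_lit 1850576293568) (nat_lit 0) (nat_lit 455277056105) (nat_lit 1) (nat_lit 5) (nat_lit 3) (nat_lit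 4) (nat_lit 1) (nat_lit 4) (nat_lit 254) (nat_lit 220) (nat_lit 126))))))))
noncomputable def xc51 : XT := (XT.nd (nat_lit 29952) (nat_lit 0) (nat_lit 0) (XT.nd (nat_lit 29172) (nat_lit 0) (nat_lit 456) (XT.nd (nat_lit 28782) (nat_lit 0) (nat_lit 1444) (XT.nd (nat_lit 156) (nat_lit 0) (nat_lit 0) (XT.nd (nat_lit 78) (nat_lit 0) (nat_lit 0) (XT.lf (nat_lit 0) (nat_lit 930607600402) (nat_lit 152) (nat_lit 1916124853453) (nat_lit 0) (nat_lit 645776672978) (nat_lit 1) (nat_lit 5) (nat_lit 3) (nat_lit 4) (nat_lit 1) (nat_lit 4) (nat_lit 255) (nat_lit 220) (nat_lit 125)) (XT.lf (nat_lit 0) (nat_lit 1149682185262) (nat_lit 152) (nat_lit 1991505799169) (nat_lit 0) (nat_lit 864851194205) (nat_lit 1) (nat_lit 5) (nat_lit 3) (nat_lit 4) (nat_lit 1) (nat_lit 4) (nat_lit 256) (nat_lit 220) (nat_lit 124))) (XT.nd (nat_lit 28470) (nat_lit 0) (nat_lit 1976) (XT.lf (nat_lit 0) (nat_lit 1401617906809)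 (nat_lit 152) (nat_lit 2078193975304) (nat_lit 0) (nat_lit 1116786860418) (nat_lit 1) (nat_lit 5) (nat_lit 3) (nat_lit 4) (nat_lit 1) (nat_lit 4) (nat_lit 257) (nat_lit 220) (nat_lit 123)) (XT.nd (nat_lit 78) (nat_lit 0) (nat_lit 0) (XT.lf (nat_lit 0) (nat_lit 16544120239) (nat_lit 0) (nat_lit 16544120239) (nat_lit 380) (nat_lit 5857885427) (nat_lit 27) (nat_lit 5) (nat_lit 27) (nat_lit 3) (nat_lit 32) (nat_lit 3) (nat_lit 221) (nat_lit 221) (nat_lit 158)) (XT.lf (nat_lit 76) (nat_lit 9056843613) (nat_lit 0) (nat_lit 62838458431) (nat_lit 456) (nat_lit 11778238779) (nat_lit 28) (nat_lit 5) (nat_lit 27) (nat_lit 5) (nat_lit 33) (nat_lit 5) (nat_lit 222) (nat_lit 221) (nat_lit 157))))) (XT.nd (nat_lit 156) (nat_lit 532) (nat_lit 0) (XT.nd (nat_lit 78) (nat_lit 0) (nat_lit 76) (XT.lf (nat_lit 76) (nat_lit 72744904273) (nat_lit 0) (nat_lit 7920608965) (nat_lit 456) (nat_lit 9481057186)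 (nat_lit 28) (nat_lit 5) (nat_lit 27) (nat_lit 5) (nat_lit 33) (nat_lit 5) (nat_lit 223) (nat_lit 221) (nat_lit 156)) (XT.lf (nat_lit 76) (nat_lit 49543797896) (nat_lit 0) (nat_lit 43724954435) (nat_lit 456) (nat_lit 4120430784) (nat_lit 29) (nat_lit 5) (nat_lit 28) (nat_lit 5) (nat_lit 34) (nat_lit 5) (nat_lit 224) (nat_lit 221) (nat_lit 155))) (XT.nd (nat_lit 78) (nat_lit 228) (nat_lit 0) (XT.lf (nat_lit 0) (nat_lit 3695944903) (nat_lit 456) (nat_lit 83318687910) (nat_lit 76) (nat_lit 18559330985) (nat_lit 23) (nat_lit 5) (nat_lit 29) (nat_lit 5) (nat_lit 24) (nat_lit 5) (nat_lit 225) (nat_lit 221) (nat_lit 154)) (XT.nd (nat_lit 78) (nat_lit 228) (nat_lit 0) (XT.lf (nat_lit 0) (nat_lit 15084234784) (nat_lit 456) (nat_lit 10467908268) (nat_lit 76) (nat_lit 89214301777) (nat_lit 23) (nat_lit 5) (nat_lit 29) (nat_lit 5) (nat_lit 24) (nat_lit 5) (nat_lit 226) (nat_lit 221) (nat_lit 153))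 (XT.lf (nat_lit 0) (nat_lit 31168551669) (nat_lit 304) (nat_lit 49153840849) (nat_lit 76) (nat_lit 44776400071) (nat_lit 20) (nat_lit 5) (nat_lit 24) (nat_lit 5) (nat_lit 21) (nat_lit 5) (nat_lit 227) (nat_lit 221) (nat_lit 152)))))) (XT.nd (nat_lit 390) (nat_lit 380) (nat_lit 0) (XT.nd (nat_lit 156) (nat_lit 380) (nat_lit 0) (XT.nd (nat_lit 78) (nat_lit 0) (nat_lit 0) (XT.lf (nat_lit 0) (nat_lit 40296616861) (nat_lit 228) (nat_lit 11355893878) (nat_lit 304) (nat_lit 85169537208) (nat_lit 17) (nat_lit 5) (nat_lit 20) (nat_lit 5) (nat_lit 21) (nat_lit 5) (nat_lit 228) (nat_lit 221) (nat_lit 151)) (XT.lf (nat_lit 0) (nat_lit 78310263599) (nat_lit 304) (nat_lit 5721137022) (nat_lit 76) (nat_lit 66024308042) (nat_lit 17) (nat_lit 5) (nat_lit 21) (nat_lit 5) (nat_lit 18) (nat_lit 5) (nat_lit 229) (nat_lit 221) (nat_lit 150))) (XT.nd (nat_lit 78) (nat_lit 228) (nat_lit 0) (XT.lf (nat_lit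 0) (nat_lit 103569310193) (nat_lit 152) (nat_lit 8201102584) (nat_lit 228) (nat_lit 53279718386) (nat_lit 15) (nat_lit 5) (nat_lit 17) (nat_lit 5) (nat_lit 18) (nat_lit 5) (nat_lit 230) (nat_lit 221) (nat_lit 149)) (XT.nd (nat_lit 78) (nat_lit 76) (nat_lit 0) (XT.lf (nat_lit 0) (nat_lit 47805077179) (nat_lit 152) (nat_lit 105664086397) (nat_lit 228) (nat_lit 28566996989) (nat_lit 13) (nat_lit 5) (nat_lit 15) (nat_lit 5) (nat_lit 16) (nat_lit 5) (nat_lit 231) (nat_lit 221) (nat_lit 148)) (XT.lf (nat_lit 0) (nat_lit 1922276421) (nat_lit 228) (nat_lit 24491008642) (nat_lit 76) (nat_lit 174992119042) (nat_lit 12) (nat_lit 5) (nat_lit 15) (nat_lit 5) (nat_lit 13) (nat_lit 5) (nat_lit 232) (nat_lit 221) (nat_lit 147))))) (XT.nd (nat_lit 156) (nat_lit 76) (nat_lit 0) (XT.nd (nat_lit 78) (nat_lit 152) (nat_lit 0) (XT.lf (nat_lit 0) (nat_lit 39539112976) (nat_lit 228) (nat_lit 118822957879)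 (nat_lit 76) (nat_lit 64918957663) (nat_lit 10) (nat_lit 5) (nat_lit 13) (nat_lit 5) (nat_lit 11) (nat_lit 5) (nat_lit 233) (nat_lit 221) (nat_lit 146)) (XT.lf (nat_lit 0) (nat_lit 5370159444) (nat_lit 152) (nat_lit 79018764044) (nat_lit 228) (nat_lit 163921843236) (nat_lit 8) (nat_lit 5) (nat_lit 10) (nat_lit 5) (nat_lit 11) (nat_lit 5) (nat_lit 234) (nat_lit 221) (nat_lit 145))) (XT.nd (nat_lit 78) (nat_lit 76) (nat_lit 0) (XT.lf (nat_lit 0) (nat_lit 139808790131) (nat_lit 228) (nat_lit 121815354826) (nat_lit 76) (nat_lit 15163419163) (nat_lit 8) (nat_lit 5) (nat_lit 11) (nat_lit 5) (nat_lit 9) (nat_lit 4) (nat_lit 235) (nat_lit 221) (nat_lit 144)) (XT.nd (nat_lit 78) (nat_lit 0) (nat_lit 0) (XT.lf (nat_lit 0) (nat_lit 16097572902) (nat_lit 76) (nat_lit 190016057876) (nat_lit 152) (nat_lit 103216495368) (nat_lit 7) (nat_lit 5) (nat_lit 8) (nat_lit 5) (nat_lit 9) (nat_lit 4) (nat_lit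 236) (nat_lit 221) (nat_lit 143)) (XT.lf (nat_lit 0) (nat_lit 182073370299) (nat_lit 76) (nat_lit 103836793851) (nat_lit 152) (nat_lit 60560234946) (nat_lit 7) (nat_lit 5) (nat_lit 8) (nat_lit 5) (nat_lit 9) (nat_lit 4) (nat_lit 237) (nat_lit 221) (nat_lit 142))))))) (XT.nd (nat_lit 780) (nat_lit 152) (nat_lit 0) (XT.nd (nat_lit 390) (nat_lit 76) (nat_lit 0) (XT.nd (nat_lit 156) (nat_lit 76) (nat_lit 0) (XT.nd (nat_lit 78) (nat_lit 152) (nat_lit 0) (XT.lf (nat_lit 0) (nat_lit 372944809211) (nat_lit 76) (nat_lit 4730884523) (nat_lit 152) (nat_lit 11506061391) (nat_lit 7) (nat_lit 5) (nat_lit 8) (nat_lit 5) (nat_lit 9) (nat_lit 4) (nat_lit 238) (nat_lit 221) (nat_lit 141)) (XT.lf (nat_lit 0) (nat_lit 49290457935) (nat_lit 152) (nat_lit 279532684405) (nat_lit 76) (nat_lit 108859826364) (nat_lit 5) (nat_lit 5) (nat_lit 7) (nat_lit 5) (nat_lit 6) (nat_lit 4) (nat_lit 239) (nat_lit 221) (nat_lit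 140))) (XT.nd (nat_lit 78) (nat_lit 76) (nat_lit 0) (XT.lf (nat_lit 0) (nat_lit 119159985298) (nat_lit 152) (nat_lit 134204671440) (nat_lit 76) (nat_lit 240020015898) (nat_lit 5) (nat_lit 5) (nat_lit 7) (nat_lit 5) (nat_lit 6) (nat_lit 4) (nat_lit 240) (nat_lit 221) (nat_lit 139)) (XT.nd (nat_lit 78) (nat_lit 0) (nat_lit 0) (XT.lf (nat_lit 0) (nat_lit 34655608011) (nat_lit 76) (nat_lit 165687456435) (nat_lit 152) (nat_lit 357031919991) (nat_lit 4) (nat_lit 5) (nat_lit 5) (nat_lit 5) (nat_lit 6) (nat_lit 4) (nat_lit 241) (nat_lit 221) (nat_lit 138)) (XT.lf (nat_lit 0) (nat_lit 236971453743) (nat_lit 76) (nat_lit 60639063782) (nat_lit 152) (nat_lit 333040774333) (nat_lit 4) (nat_lit 5) (nat_lit 5) (nat_lit 5) (nat_lit 6) (nat_lit 4) (nat_lit 242) (nat_lit 221) (nat_lit 137))))) (XT.nd (nat_lit 156) (nat_lit 76) (nat_lit 0) (XT.nd (nat_lit 78) (nat_lit 0) (nat_lit 0) (XT.lf (nat_lit 0)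 (nat_lit 410914820687) (nat_lit 152) (nat_lit 246731833529) (nat_lit 0) (nat_lit 57156654189) (nat_lit 4) (nat_lit 5) (nat_lit 6) (nat_lit 4) (nat_lit 4) (nat_lit 4) (nat_lit 243) (nat_lit 221) (nat_lit 136)) (XT.lf (nat_lit 0) (nat_lit 542891656113) (nat_lit 152) (nat_lit 79419151870) (nat_lit 0) (nat_lit 189133169882) (nat_lit 4) (nat_lit 5) (nat_lit 6) (nat_lit 4) (nat_lit 4) (nat_lit 4) (nat_lit 244) (nat_lit 221) (nat_lit 135))) (XT.nd (nat_lit 78) (nat_lit 0) (nat_lit 0) (XT.lf (nat_lit 0) (nat_lit 118939944525) (nat_lit 76) (nat_lit 578585372336) (nat_lit 76) (nat_lit 224826608078) (nat_lit 3) (nat_lit 4) (nat_lit 4) (nat_lit 5) (nat_lit 4) (nat_lit 4) (nat_lit 245) (nat_lit 221) (nat_lit 134)) (XT.nd (nat_lit 78) (nat_lit 0) (nat_lit 0) (XT.lf (nat_lit 0) (nat_lit 351861971923) (nat_lit 76) (nat_lit 525804069037) (nat_lit 76) (nat_lit 172045063015) (nat_lit 3) (nat_lit 4) (nat_lit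 4) (nat_lit 5) (nat_lit 4) (nat_lit 4) (nat_lit 246) (nat_lit 221) (nat_lit 133)) (XT.lf (nat_lit 0) (nat_lit 619722028629) (nat_lit 76) (nat_lit 465105680768) (nat_lit 76) (nat_lit 111346464517) (nat_lit 3) (nat_lit 4) (nat_lit 4) (nat_lit 5) (nat_lit 4) (nat_lit 4) (nat_lit 247) (nat_lit 221) (nat_lit 132)))))) (XT.nd (nat_lit 390) (nat_lit 0) (nat_lit 0) (XT.nd (nat_lit 156) (nat_lit 76) (nat_lit 0) (XT.nd (nat_lit 78) (nat_lit 76) (nat_lit 0) (XT.lf (nat_lit 0) (nat_lit 927760854882) (nat_lit 76) (nat_lit 395302630367) (nat_lit 76) (nat_lit 41543231307) (nat_lit 3) (nat_lit 4) (nat_lit 4) (nat_lit 5) (nat_lit 4) (nat_lit 4) (nat_lit 248) (nat_lit 221) (nat_lit 131)) (XT.lf (nat_lit 0) (nat_lit 36792902976) (nat_lit 152) (nat_lit 277230319831) (nat_lit 76) (nat_lit 1244206411137) (nat_lit 2) (nat_lit 5) (nat_lit 4) (nat_lit 5) (nat_lit 3) (nat_lit 4) (nat_lit 249) (nat_lit 221) (nat_lit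 130))) (XT.nd (nat_lit 78) (nat_lit 76) (nat_lit 0) (XT.lf (nat_lit 0) (nat_lit 124489461235) (nat_lit 152) (nat_lit 94821616882) (nat_lit 76) (nat_lit 1561493001639) (nat_lit 2) (nat_lit 5) (nat_lit 4) (nat_lit 5) (nat_lit 3) (nat_lit 4) (nat_lit 250) (nat_lit 221) (nat_lit 129)) (XT.nd (nat_lit 78) (nat_lit 0) (nat_lit 0) (XT.lf (nat_lit 0) (nat_lit 121001198834) (nat_lit 76) (nat_lit 107249289283) (nat_lit 152) (nat_lit 1808281406011) (nat_lit 1) (nat_lit 5) (nat_lit 2) (nat_lit 5) (nat_lit 3) (nat_lit 4) (nat_lit 251) (nat_lit 221) (nat_lit 128)) (XT.lf (nat_lit 0) (nat_lit 350927917806) (nat_lit 152) (nat_lit 1956050347939) (nat_lit 0) (nat_lit 23372435424) (nat_lit 1) (nat_lit 5) (nat_lit 3) (nat_lit 4) (nat_lit 1) (nat_lit 4) (nat_lit 252) (nat_lit 221) (nat_lit 127))))) (XT.nd (nat_lit 156) (nat_lit 0) (nat_lit 0) (XT.nd (nat_lit 78) (nat_lit 0) (nat_lit 0) (XT.lf (nat_lit 0)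 (nat_lit 494973134501) (nat_lit 152) (nat_lit 2005614333357) (nat_lit 0) (nat_lit 167417567965) (nat_lit 1) (nat_lit 5) (nat_lit 3) (nat_lit 4) (nat_lit 1) (nat_lit 4) (nat_lit 253) (nat_lit 221) (nat_lit 126)) (XT.lf (nat_lit 0) (nat_lit 660625066197) (nat_lit 152) (nat_lit 2062613033713) (nat_lit 0) (nat_lit 333069426482) (nat_lit 1) (nat_lit 5) (nat_lit 3) (nat_lit 4) (nat_lit 1) (nat_lit 4) (nat_lit 254) (nat_lit 221) (nat_lit 125))) (XT.nd (nat_lit 78) (nat_lit 0) (nat_lit 0) (XT.lf (nat_lit 0) (nat_lit 851124728947) (nat_lit 152) (nat_lit 2128161640969) (nat_lit 0) (nat_lit 523569025598) (nat_lit 1) (nat_lit 5) (nat_lit 3) (nat_lit 4) (nat_lit 1) (nat_lit 4) (nat_lit 255) (nat_lit 221) (nat_lit 124)) (XT.nd (nat_lit 78) (nat_lit 0) (nat_lit 0) (XT.lf (nat_lit 0) (nat_lit 1070199290067) (nat_lit 152) (nat_lit 2203542627877) (nat_lit 0) (nat_lit 742643531384) (nat_lit 1) (nat_lit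 5) (nat_lit 3) (nat_lit 4) (nat_lit 1) (nat_lit 4) (nat_lit 256) (nat_lit 221) (nat_lit 123)) (XT.lf (nat_lit 0) (nat_lit 1322134990969) (nat_lit 152) (nat_lit 2290230839832) (nat_lit 0) (nat_lit 994579184170) (nat_lit 1) (nat_lit 5) (nat_lit 3) (nat_lit 4) (nat_lit 1) (nat_lit 4) (nat_lit 257) (nat_lit 221) (nat_lit 122))))))))
noncomputable def xc52 : XT := (XT.nd (nat_lit 1482) (nat_lit 304) (nat_lit 0) (XT.nd (nat_lit 702) (nat_lit 912) (nat_lit 0) (XT.nd (nat_lit 312) (nat_lit 760) (nat_lit 0) (XT.nd (nat_lit 156) (nat_lit 0) (nat_lit 0) (XT.nd (nat_lit 78) (nat_lit 0) (nat_lit 0) (XT.lf (nat_lit 0) (nat_lit 19033316727) (nat_lit 0) (nat_lit 19033316727) (nat_lit 380) (nat_lit 6720023292) (nat_lit 27) (nat_lit 5) (nat_lit 27) (nat_lit 3) (nat_lit 32) (nat_lit 3) (nat_lit 222) (nat_lit 222) (nat_lit 156)) (XT.lf (nat_lit 76) (nat_lit 10432118881) (nat_lit 0) (nat_lit 72273924130)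 (nat_lit 456) (nat_lit 13516108074) (nat_lit 28) (nat_lit 5) (nat_lit 27) (nat_lit 5) (nat_lit 33) (nat_lit 5) (nat_lit 223) (nat_lit 222) (nat_lit 155))) (XT.nd (nat_lit 78) (nat_lit 0) (nat_lit 76) (XT.lf (nat_lit 76) (nat_lit 83671204024) (nat_lit 0) (nat_lit 9117132428) (nat_lit 456) (nat_lit 10878114441) (nat_lit 28) (nat_lit 5) (nat_lit 27) (nat_lit 5) (nat_lit 33) (nat_lit 5) (nat_lit 224) (nat_lit 222) (nat_lit 154)) (XT.lf (nat_lit 76) (nat_lit 56990811448) (nat_lit 0) (nat_lit 50288445536) (nat_lit 456) (nat_lit 4716457474) (nat_lit 29) (nat_lit 5) (nat_lit 28) (nat_lit 5) (nat_lit 34) (nat_lit 5) (nat_lit 225) (nat_lit 222) (nat_lit 153)))) (XT.nd (nat_lit 156) (nat_lit 456) (nat_lit 0) (XT.nd (nat_lit 78) (nat_lit 0) (nat_lit 0) (XT.lf (nat_lit 0) (nat_lit 4268832643) (nat_lit 456) (nat_lit 95799400312) (nat_lit 76) (nat_lit 21340159919) (nat_lit 23) (nat_lit 5) (nat_lit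 29) (nat_lit 5) (nat_lit 24) (nat_lit 5) (nat_lit 226) (nat_lit 222) (nat_lit 152)) (XT.lf (nat_lit 0) (nat_lit 17362953483) (nat_lit 456) (nat_lit 12023232957) (nat_lit 76) (nat_lit 102593776858) (nat_lit 23) (nat_lit 5) (nat_lit 29) (nat_lit 5) (nat_lit 24) (nat_lit 5) (nat_lit 227) (nat_lit 222) (nat_lit 151))) (XT.nd (nat_lit 78) (nat_lit 228) (nat_lit 0) (XT.lf (nat_lit 0) (nat_lit 35858130166) (nat_lit 304) (nat_lit 56512010798) (nat_lit 76) (nat_lit 51492186351) (nat_lit 20) (nat_lit 5) (nat_lit 24) (nat_lit 5) (nat_lit 21) (nat_lit 5) (nat_lit 228) (nat_lit 222) (nat_lit 150)) (XT.nd (nat_lit 78) (nat_lit 0) (nat_lit 0) (XT.lf (nat_lit 0) (nat_lit 46354753835) (nat_lit 228) (nat_lit 13058392749) (nat_lit 304) (nat_lit 97931065642) (nat_lit 17) (nat_lit 5) (nat_lit 20) (nat_lit 5) (nat_lit 21) (nat_lit 5) (nat_lit 229) (nat_lit 222) (nat_lit 149)) (XT.lf (nat_lit 0) (nat_lit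 90067916637) (nat_lit 304) (nat_lit 6566467515) (nat_lit 76) (nat_lit 75928685492) (nat_lit 17) (nat_lit 5) (nat_lit 21) (nat_lit 5) (nat_lit 18) (nat_lit 5) (nat_lit 230) (nat_lit 222) (nat_lit 148)))))) (XT.nd (nat_lit 390) (nat_lit 228) (nat_lit 0) (XT.nd (nat_lit 156) (nat_lit 380) (nat_lit 0) (XT.nd (nat_lit 78) (nat_lit 152) (nat_lit 0) (XT.lf (nat_lit 0) (nat_lit 119116459936) (nat_lit 152) (nat_lit 9429461335) (nat_lit 228) (nat_lit 61260841459) (nat_lit 15) (nat_lit 5) (nat_lit 17) (nat_lit 5) (nat_lit 18) (nat_lit 5) (nat_lit 231) (nat_lit 222) (nat_lit 147)) (XT.lf (nat_lit 0) (nat_lit 54987370280) (nat_lit 152) (nat_lit 121511132145) (nat_lit 228) (nat_lit 32842284747) (nat_lit 13) (nat_lit 5) (nat_lit 15) (nat_lit 5) (nat_lit 16) (nat_lit 5) (nat_lit 232) (nat_lit 222) (nat_lit 146))) (XT.nd (nat_lit 78) (nat_lit 304) (nat_lit 0) (XT.lf (nat_lit 0) (nat_lit 2218681767)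 (nat_lit 228) (nat_lit 28154143216) (nat_lit 76) (nat_lit 201242679947) (nat_lit 12) (nat_lit 5) (nat_lit 15) (nat_lit 5) (nat_lit 13) (nat_lit 5) (nat_lit 233) (nat_lit 222) (nat_lit 145)) (XT.nd (nat_lit 78) (nat_lit 152) (nat_lit 0) (XT.lf (nat_lit 0) (nat_lit 45477280823) (nat_lit 228) (nat_lit 136636196606) (nat_lit 76) (nat_lit 74659065052) (nat_lit 10) (nat_lit 5) (nat_lit 13) (nat_lit 5) (nat_lit 11) (nat_lit 5) (nat_lit 234) (nat_lit 222) (nat_lit 144)) (XT.lf (nat_lit 0) (nat_lit 6185024517) (nat_lit 152) (nat_lit 90868810759) (nat_lit 228) (nat_lit 188502971689) (nat_lit 8) (nat_lit 5) (nat_lit 10) (nat_lit 5) (nat_lit 11) (nat_lit 5) (nat_lit 235) (nat_lit 222) (nat_lit 143))))) (XT.nd (nat_lit 156) (nat_lit 152) (nat_lit 0) (XT.nd (nat_lit 78) (nat_lit 76) (nat_lit 0) (XT.lf (nat_lit 0) (nat_lit 160785882417) (nat_lit 228) (nat_lit 140079093391) (nat_lit 76) (nat_lit 17440218499)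 (nat_lit 8) (nat_lit 5) (nat_lit 11) (nat_lit 5) (nat_lit 9) (nat_lit 4) (nat_lit 236) (nat_lit 222) (nat_lit 142)) (XT.lf (nat_lit 0) (nat_lit 18520048540) (nat_lit 76) (nat_lit 218515836067) (nat_lit 152) (nat_lit 118693306743) (nat_lit 7) (nat_lit 5) (nat_lit 8) (nat_lit 5) (nat_lit 9) (nat_lit 4) (nat_lit 237) (nat_lit 222) (nat_lit 141))) (XT.nd (nat_lit 78) (nat_lit 152) (nat_lit 0) (XT.lf (nat_lit 0) (nat_lit 209391192976) (nat_lit 76) (nat_lit 119410025546) (nat_lit 152) (nat_lit 69639345900) (nat_lit 7) (nat_lit 5) (nat_lit 8) (nat_lit 5) (nat_lit 9) (nat_lit 4) (nat_lit 238) (nat_lit 222) (nat_lit 140)) (XT.nd (nat_lit 78) (nat_lit 152) (nat_lit 0) (XT.lf (nat_lit 0) (nat_lit 428892458535) (nat_lit 76) (nat_lit 5438528172) (nat_lit 152) (nat_lit 13227688611) (nat_lit 7) (nat_lit 5) (nat_lit 8) (nat_lit 5) (nat_lit 9) (nat_lit 4) (nat_lit 239) (nat_lit 222) (nat_lit 139)) (XT.lf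 (nat_lit 0) (nat_lit 56687747065) (nat_lit 152) (nat_lit 321456672220) (nat_lit 76) (nat_lit 125190674576) (nat_lit 5) (nat_lit 5) (nat_lit 7) (nat_lit 5) (nat_lit 6) (nat_lit 4) (nat_lit 240) (nat_lit 222) (nat_lit 138))))))) (XT.nd (nat_lit 780) (nat_lit 76) (nat_lit 0) (XT.nd (nat_lit 390) (nat_lit 152) (nat_lit 0) (XT.nd (nat_lit 156) (nat_lit 0) (nat_lit 0) (XT.nd (nat_lit 78) (nat_lit 76) (nat_lit 0) (XT.lf (nat_lit 0) (nat_lit 137037218258) (nat_lit 152) (nat_lit 154330228812) (nat_lit 76) (nat_lit 276024648072) (nat_lit 5) (nat_lit 5) (nat_lit 7) (nat_lit 5) (nat_lit 6) (nat_lit 4) (nat_lit 241) (nat_lit 222) (nat_lit 137)) (XT.lf (nat_lit 0) (nat_lit 39858657198) (nat_lit 76) (nat_lit 190538793328) (nat_lit 152) (nat_lit 410583530438) (nat_lit 4) (nat_lit 5) (nat_lit 5) (nat_lit 5) (nat_lit 6) (nat_lit 4) (nat_lit 242) (nat_lit 222) (nat_lit 136))) (XT.nd (nat_lit 78) (nat_lit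 0) (nat_lit 0) (XT.lf (nat_lit 0) (nat_lit 272521265705) (nat_lit 76) (nat_lit 69733374157) (nat_lit 152) (nat_lit 382994127395) (nat_lit 4) (nat_lit 5) (nat_lit 5) (nat_lit 5) (nat_lit 6) (nat_lit 4) (nat_lit 243) (nat_lit 222) (nat_lit 135)) (XT.nd (nat_lit 78) (nat_lit 0) (nat_lit 0) (XT.lf (nat_lit 0) (nat_lit 472554288978) (nat_lit 152) (nat_lit 283737891147) (nat_lit 0) (nat_lit 65731432053) (nat_lit 4) (nat_lit 5) (nat_lit 6) (nat_lit 4) (nat_lit 4) (nat_lit 4) (nat_lit 244) (nat_lit 222) (nat_lit 134)) (XT.lf (nat_lit 0) (nat_lit 624327356867) (nat_lit 152) (nat_lit 91328792119) (nat_lit 0) (nat_lit 217504258178) (nat_lit 4) (nat_lit 5) (nat_lit 6) (nat_lit 4) (nat_lit 4) (nat_lit 4) (nat_lit 245) (nat_lit 222) (nat_lit 133))))) (XT.nd (nat_lit 156) (nat_lit 76) (nat_lit 0) (XT.nd (nat_lit 78) (nat_lit 0) (nat_lit 0) (XT.lf (nat_lit 0) (nat_lit 136783895118) (nat_lit 76) (nat_lit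 665371988120) (nat_lit 76) (nat_lit 258548679202) (nat_lit 3) (nat_lit 4) (nat_lit 4) (nat_lit 5) (nat_lit 4) (nat_lit 4) (nat_lit 246) (nat_lit 222) (nat_lit 132)) (XT.lf (nat_lit 0) (nat_lit 404643840680) (nat_lit 76) (nat_lit 604673644552) (nat_lit 76) (nat_lit 197850152826) (nat_lit 3) (nat_lit 4) (nat_lit 4) (nat_lit 5) (nat_lit 4) (nat_lit 4) (nat_lit 247) (nat_lit 222) (nat_lit 131))) (XT.nd (nat_lit 78) (nat_lit 76) (nat_lit 0) (XT.lf (nat_lit 0) (nat_lit 712682570287) (nat_lit 76) (nat_lit 534870633021) (nat_lit 76) (nat_lit 128046982332) (nat_lit 3) (nat_lit 4) (nat_lit 4) (nat_lit 5) (nat_lit 4) (nat_lit 4) (nat_lit 248) (nat_lit 222) (nat_lit 130)) (XT.nd (nat_lit 78) (nat_lit 76) (nat_lit 0) (XT.lf (nat_lit 0) (nat_lit 1066926928648) (nat_lit 76) (nat_lit 454597242433) (nat_lit 76) (nat_lit 47773453515) (nat_lit 3) (nat_lit 4) (nat_lit 4) (nat_lit 5) (nat_lit 4) (nat_lit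 4) (nat_lit 249) (nat_lit 222) (nat_lit 129)) (XT.lf (nat_lit 0) (nat_lit 42312881322) (nat_lit 152) (nat_lit 318813115967) (nat_lit 76) (nat_lit 1430837993162) (nat_lit 2) (nat_lit 5) (nat_lit 4) (nat_lit 5) (nat_lit 3) (nat_lit 4) (nat_lit 250) (nat_lit 222) (nat_lit 128)))))) (XT.nd (nat_lit 390) (nat_lit 0) (nat_lit 0) (XT.nd (nat_lit 156) (nat_lit 0) (nat_lit 0) (XT.nd (nat_lit 78) (nat_lit 76) (nat_lit 0) (XT.lf (nat_lit 0) (nat_lit 143163787289) (nat_lit 152) (nat_lit 109043336076) (nat_lit 76) (nat_lit 1795717491324) (nat_lit 2) (nat_lit 5) (nat_lit 4) (nat_lit 5) (nat_lit 3) (nat_lit 4) (nat_lit 251) (nat_lit 222) (nat_lit 127)) (XT.lf (nat_lit 0) (nat_lit 139152773054) (nat_lit 76) (nat_lit 123336110398) (nat_lit 152) (nat_lit 2079522725129) (nat_lit 1) (nat_lit 5) (nat_lit 2) (nat_lit 5) (nat_lit 3) (nat_lit 4) (nat_lit 252) (nat_lit 222) (nat_lit 126))) (XT.nd (nat_lit 78)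 (nat_lit 0) (nat_lit 0) (XT.lf (nat_lit 0) (nat_lit 403567832329) (nat_lit 152) (nat_lit 2249456639001) (nat_lit 0) (nat_lit 26878773478) (nat_lit 1) (nat_lit 5) (nat_lit 3) (nat_lit 4) (nat_lit 1) (nat_lit 4) (nat_lit 253) (nat_lit 222) (nat_lit 125)) (XT.nd (nat_lit 78) (nat_lit 0) (nat_lit 0) (XT.lf (nat_lit 0) (nat_lit 569219736722) (nat_lit 152) (nat_lit 2306455386728) (nat_lit 0) (nat_lit 192530614237) (nat_lit 1) (nat_lit 5) (nat_lit 3) (nat_lit 4) (nat_lit 1) (nat_lit 4) (nat_lit 254) (nat_lit 222) (nat_lit 124)) (XT.lf (nat_lit 0) (nat_lit 759719375732) (nat_lit 152) (nat_lit 2372004035176) (nat_lit 0) (nat_lit 383030197913) (nat_lit 1) (nat_lit 5) (nat_lit 3) (nat_lit 4) (nat_lit 1) (nat_lit 4) (nat_lit 255) (nat_lit 222) (nat_lit 123))))) (XT.nd (nat_lit 28782) (nat_lit 0) (nat_lit 1976) (XT.nd (nat_lit 28704) (nat_lit 0) (nat_lit 1976) (XT.lf (nat_lit 0) (nat_lit 978793916207)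 (nat_lit 152) (nat_lit 2447385057903) (nat_lit 0) (nat_lit 602104690272) (nat_lit 1) (nat_lit 5) (nat_lit 3) (nat_lit 4) (nat_lit 1) (nat_lit 4) (nat_lit 256) (nat_lit 222) (nat_lit 122)) (XT.lf (nat_lit 0) (nat_lit 21894044634) (nat_lit 0) (nat_lit 21894044634) (nat_lit 380) (nat_lit 7715516427) (nat_lit 27) (nat_lit 5) (nat_lit 27) (nat_lit 3) (nat_lit 32) (nat_lit 3) (nat_lit 223) (nat_lit 223) (nat_lit 154))) (XT.nd (nat_lit 78) (nat_lit 0) (nat_lit 0) (XT.lf (nat_lit 76) (nat_lit 12009601156) (nat_lit 0) (nat_lit 83122345025) (nat_lit 456) (nat_lit 15521697048) (nat_lit 28) (nat_lit 5) (nat_lit 27) (nat_lit 5) (nat_lit 33) (nat_lit 5) (nat_lit 224) (nat_lit 223) (nat_lit 153)) (XT.nd (nat_lit 78) (nat_lit 0) (nat_lit 76) (XT.lf (nat_lit 76) (nat_lit 96232897187) (nat_lit 0) (nat_lit 10491078184) (nat_lit 456) (nat_lit 12490851401) (nat_lit 28) (nat_lit 5) (nat_lit 27) (nat_lit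 5) (nat_lit 33) (nat_lit 5) (nat_lit 225) (nat_lit 223) (nat_lit 152)) (XT.lf (nat_lit 76) (nat_lit 65551110948) (nat_lit 0) (nat_lit 57835302488) (nat_lit 456) (nat_lit 5407262256) (nat_lit 29) (nat_lit 5) (nat_lit 28) (nat_lit 5) (nat_lit 34) (nat_lit 5) (nat_lit 226) (nat_lit 223) (nat_lit 151))))))))
noncomputable def xc53 : XT := (XT.nd (nat_lit 1482) (nat_lit 228) (nat_lit 0) (XT.nd (nat_lit 702) (nat_lit 456) (nat_lit 0) (XT.nd (nat_lit 312) (nat_lit 532) (nat_lit 0) (XT.nd (nat_lit 156) (nat_lit 456) (nat_lit 0) (XT.nd (nat_lit 78) (nat_lit 0) (nat_lit 0) (XT.lf (nat_lit 0) (nat_lit 4923143175) (nat_lit 456) (nat_lit 110156387271) (nat_lit 76) (nat_lit 24538862006) (nat_lit 23) (nat_lit 5) (nat_lit 29) (nat_lit 5) (nat_lit 24) (nat_lit 5) (nat_lit 227) (nat_lit 223) (nat_lit 150)) (XT.lf (nat_lit 0) (nat_lit 19979557928) (nat_lit 456) (nat_lit 13815480432) (nat_lit 76) (nat_lit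 117980824342) (nat_lit 23) (nat_lit 5) (nat_lit 29) (nat_lit 5) (nat_lit 24) (nat_lit 5) (nat_lit 228) (nat_lit 223) (nat_lit 149))) (XT.nd (nat_lit 78) (nat_lit 228) (nat_lit 0) (XT.lf (nat_lit 0) (nat_lit 41247659329) (nat_lit 304) (nat_lit 64977541206) (nat_lit 76) (nat_lit 59215504867) (nat_lit 20) (nat_lit 5) (nat_lit 24) (nat_lit 5) (nat_lit 21) (nat_lit 5) (nat_lit 229) (nat_lit 223) (nat_lit 148)) (XT.lf (nat_lit 0) (nat_lit 53318284070) (nat_lit 228) (nat_lit 15016482314) (nat_lit 304) (nat_lit 112610213467) (nat_lit 17) (nat_lit 5) (nat_lit 20) (nat_lit 5) (nat_lit 21) (nat_lit 5) (nat_lit 230) (nat_lit 223) (nat_lit 147)))) (XT.nd (nat_lit 156) (nat_lit 380) (nat_lit 0) (XT.nd (nat_lit 78) (nat_lit 152) (nat_lit 0) (XT.lf (nat_lit 0) (nat_lit 103586507534) (nat_lit 304) (nat_lit 7541728712) (nat_lit 76) (nat_lit 87318541240) (nat_lit 17) (nat_lit 5) (nat_lit 21) (nat_lit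 5) (nat_lit 18) (nat_lit 5) (nat_lit 231) (nat_lit 223) (nat_lit 146)) (XT.lf (nat_lit 0) (nat_lit 136992816044) (nat_lit 152) (nat_lit 10842514458) (nat_lit 228) (nat_lit 70441775100) (nat_lit 15) (nat_lit 5) (nat_lit 17) (nat_lit 5) (nat_lit 18) (nat_lit 5) (nat_lit 232) (nat_lit 223) (nat_lit 145))) (XT.nd (nat_lit 78) (nat_lit 228) (nat_lit 0) (XT.lf (nat_lit 0) (nat_lit 63244195312) (nat_lit 152) (nat_lit 139735860785) (nat_lit 228) (nat_lit 37761246143) (nat_lit 13) (nat_lit 5) (nat_lit 15) (nat_lit 5) (nat_lit 16) (nat_lit 5) (nat_lit 233) (nat_lit 223) (nat_lit 144)) (XT.nd (nat_lit 78) (nat_lit 152) (nat_lit 0) (XT.lf (nat_lit 0) (nat_lit 2557581486) (nat_lit 228) (nat_lit 32369312545) (nat_lit 76) (nat_lit 231430399935) (nat_lit 12) (nat_lit 5) (nat_lit 15) (nat_lit 5) (nat_lit 13) (nat_lit 5) (nat_lit 234) (nat_lit 223) (nat_lit 143)) (XT.lf (nat_lit 0) (nat_lit 52304393477)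 (nat_lit 228) (nat_lit 157123909685) (nat_lit 76) (nat_lit 85859636522) (nat_lit 10) (nat_lit 5) (nat_lit 13) (nat_lit 5) (nat_lit 11) (nat_lit 5) (nat_lit 235) (nat_lit 223) (nat_lit 142)))))) (XT.nd (nat_lit 390) (nat_lit 228) (nat_lit 0) (XT.nd (nat_lit 156) (nat_lit 76) (nat_lit 0) (XT.nd (nat_lit 78) (nat_lit 0) (nat_lit 0) (XT.lf (nat_lit 0) (nat_lit 7119841451) (nat_lit 152) (nat_lit 104497039448) (nat_lit 228) (nat_lit 216773012503) (nat_lit 8) (nat_lit 5) (nat_lit 10) (nat_lit 5) (nat_lit 11) (nat_lit 5) (nat_lit 236) (nat_lit 223) (nat_lit 141)) (XT.lf (nat_lit 0) (nat_lit 184908130577) (nat_lit 228) (nat_lit 161084481288) (nat_lit 76) (nat_lit 20057980168) (nat_lit 8) (nat_lit 5) (nat_lit 11) (nat_lit 5) (nat_lit 9) (nat_lit 4) (nat_lit 237) (nat_lit 223) (nat_lit 140))) (XT.nd (nat_lit 78) (nat_lit 0) (nat_lit 0) (XT.lf (nat_lit 0) (nat_lit 21303983762) (nat_lit 76) (nat_lit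 251291222448) (nat_lit 152) (nat_lit 136493020766) (nat_lit 7) (nat_lit 5) (nat_lit 8) (nat_lit 5) (nat_lit 9) (nat_lit 4) (nat_lit 238) (nat_lit 223) (nat_lit 139)) (XT.nd (nat_lit 78) (nat_lit 0) (nat_lit 0) (XT.lf (nat_lit 0) (nat_lit 240805026654) (nat_lit 76) (nat_lit 137319799787) (nat_lit 152) (nat_lit 80081524317) (nat_lit 7) (nat_lit 5) (nat_lit 8) (nat_lit 5) (nat_lit 9) (nat_lit 4) (nat_lit 239) (nat_lit 223) (nat_lit 138)) (XT.lf (nat_lit 0) (nat_lit 493230809691) (nat_lit 76) (nat_lit 6252803407) (nat_lit 152) (nat_lit 15208604104) (nat_lit 7) (nat_lit 5) (nat_lit 8) (nat_lit 5) (nat_lit 9) (nat_lit 4) (nat_lit 240) (nat_lit 223) (nat_lit 137))))) (XT.nd (nat_lit 156) (nat_lit 76) (nat_lit 0) (XT.nd (nat_lit 78) (nat_lit 0) (nat_lit 0) (XT.lf (nat_lit 0) (nat_lit 65193722312) (nat_lit 152) (nat_lit 369670700579) (nat_lit 76) (nat_lit 143970692970) (nat_lit 5) (nat_lit 5)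 (nat_lit 7) (nat_lit 5) (nat_lit 6) (nat_lit 4) (nat_lit 241) (nat_lit 223) (nat_lit 136)) (XT.lf (nat_lit 0) (nat_lit 157595247247) (nat_lit 152) (nat_lit 177475874026) (nat_lit 76) (nat_lit 317429577637) (nat_lit 5) (nat_lit 5) (nat_lit 7) (nat_lit 5) (nat_lit 6) (nat_lit 4) (nat_lit 242) (nat_lit 223) (nat_lit 135))) (XT.nd (nat_lit 78) (nat_lit 0) (nat_lit 0) (XT.lf (nat_lit 0) (nat_lit 45841015692) (nat_lit 76) (nat_lit 219118265203) (nat_lit 152) (nat_lit 472168657318) (nat_lit 4) (nat_lit 5) (nat_lit 5) (nat_lit 5) (nat_lit 6) (nat_lit 4) (nat_lit 243) (nat_lit 223) (nat_lit 134)) (XT.nd (nat_lit 78) (nat_lit 0) (nat_lit 0) (XT.lf (nat_lit 0) (nat_lit 313402551138) (nat_lit 76) (nat_lit 80192208868) (nat_lit 152) (nat_lit 440441157212) (nat_lit 4) (nat_lit 5) (nat_lit 5) (nat_lit 5) (nat_lit 6) (nat_lit 4) (nat_lit 244) (nat_lit 223) (nat_lit 133)) (XT.lf (nat_lit 0) (nat_lit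 543439130010) (nat_lit 152) (nat_lit 326295763922) (nat_lit 0) (nat_lit 75592114525) (nat_lit 4) (nat_lit 5) (nat_lit 6) (nat_lit 4) (nat_lit 4) (nat_lit 4) (nat_lit 245) (nat_lit 223) (nat_lit 132))))))) (XT.nd (nat_lit 780) (nat_lit 0) (nat_lit 0) (XT.nd (nat_lit 390) (nat_lit 152) (nat_lit 0) (XT.nd (nat_lit 156) (nat_lit 0) (nat_lit 0) (XT.nd (nat_lit 78) (nat_lit 76) (nat_lit 0) (XT.lf (nat_lit 0) (nat_lit 717977936645) (nat_lit 152) (nat_lit 105025666679) (nat_lit 0) (nat_lit 250130738352) (nat_lit 4) (nat_lit 5) (nat_lit 6) (nat_lit 4) (nat_lit 4) (nat_lit 4) (nat_lit 246) (nat_lit 223) (nat_lit 131)) (XT.lf (nat_lit 0) (nat_lit 157303716750) (nat_lit 76) (nat_lit 765176886476) (nat_lit 76) (nat_lit 297329529220) (nat_lit 3) (nat_lit 4) (nat_lit 4) (nat_lit 5) (nat_lit 4) (nat_lit 4) (nat_lit 247) (nat_lit 223) (nat_lit 130))) (XT.nd (nat_lit 78) (nat_lit 0) (nat_lit 0) (XT.lf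 (nat_lit 0) (nat_lit 465342362317) (nat_lit 76) (nat_lit 695373908746) (nat_lit 76) (nat_lit 227526413261) (nat_lit 3) (nat_lit 4) (nat_lit 4) (nat_lit 5) (nat_lit 4) (nat_lit 4) (nat_lit 248) (nat_lit 223) (nat_lit 129)) (XT.nd (nat_lit 78) (nat_lit 0) (nat_lit 0) (XT.lf (nat_lit 0) (nat_lit 819586647599) (nat_lit 76) (nat_lit 615100547550) (nat_lit 76) (nat_lit 147252931865) (nat_lit 3) (nat_lit 4) (nat_lit 4) (nat_lit 5) (nat_lit 4) (nat_lit 4) (nat_lit 249) (nat_lit 223) (nat_lit 128)) (XT.lf (nat_lit 0) (nat_lit 1226967439049) (nat_lit 76) (nat_lit 522786237124) (nat_lit 76) (nat_lit 54938516919) (nat_lit 3) (nat_lit 4) (nat_lit 4) (nat_lit 5) (nat_lit 4) (nat_lit 4) (nat_lit 250) (nat_lit 223) (nat_lit 127))))) (XT.nd (nat_lit 156) (nat_lit 76) (nat_lit 0) (XT.nd (nat_lit 78) (nat_lit 0) (nat_lit 0) (XT.lf (nat_lit 0) (nat_lit 48660602102) (nat_lit 152) (nat_lit 366633758720)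 (nat_lit 76) (nat_lit 1645464161214) (nat_lit 2) (nat_lit 5) (nat_lit 4) (nat_lit 5) (nat_lit 3) (nat_lit 4) (nat_lit 251) (nat_lit 223) (nat_lit 126)) (XT.lf (nat_lit 0) (nat_lit 164639041105) (nat_lit 152) (nat_lit 125398684626) (nat_lit 76) (nat_lit 2065075522916) (nat_lit 2) (nat_lit 5) (nat_lit 4) (nat_lit 5) (nat_lit 3) (nat_lit 4) (nat_lit 252) (nat_lit 223) (nat_lit 125))) (XT.nd (nat_lit 78) (nat_lit 0) (nat_lit 0) (XT.lf (nat_lit 0) (nat_lit 160026743375) (nat_lit 76) (nat_lit 141836094233) (nat_lit 152) (nat_lit 2391450459583) (nat_lit 1) (nat_lit 5) (nat_lit 2) (nat_lit 5) (nat_lit 3) (nat_lit 4) (nat_lit 253) (nat_lit 223) (nat_lit 124)) (XT.nd (nat_lit 78) (nat_lit 0) (nat_lit 0) (XT.lf (nat_lit 0) (nat_lit 464103556783) (nat_lit 152) (nat_lit 2586874181257) (nat_lit 0) (nat_lit 30910946958) (nat_lit 1) (nat_lit 5) (nat_lit 3) (nat_lit 4) (nat_lit 1) (nat_lit 4) (nat_lit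 254) (nat_lit 223) (nat_lit 123)) (XT.lf (nat_lit 0) (nat_lit 654603175148) (nat_lit 152) (nat_lit 2652422865525) (nat_lit 0) (nat_lit 221410517207) (nat_lit 1) (nat_lit 5) (nat_lit 3) (nat_lit 4) (nat_lit 1) (nat_lit 4) (nat_lit 255) (nat_lit 223) (nat_lit 122)))))) (XT.nd (nat_lit 29094) (nat_lit 0) (nat_lit 1216) (XT.nd (nat_lit 28860) (nat_lit 0) (nat_lit 1976) (XT.nd (nat_lit 28782) (nat_lit 0) (nat_lit 1976) (XT.lf (nat_lit 0) (nat_lit 873677697672) (nat_lit 152) (nat_lit 2727803919398) (nat_lit 0) (nat_lit 440484997890) (nat_lit 1) (nat_lit 5) (nat_lit 3) (nat_lit 4) (nat_lit 1) (nat_lit 4) (nat_lit 256) (nat_lit 223) (nat_lit 121)) (XT.lf (nat_lit 0) (nat_lit 25182484333) (nat_lit 0) (nat_lit 25182484333) (nat_lit 380) (nat_lit 8863384262) (nat_lit 27) (nat_lit 5) (nat_lit 27) (nat_lit 3) (nat_lit 32) (nat_lit 3) (nat_lit 224) (nat_lit 224) (nat_lit 152))) (XT.nd (nat_lit 78)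 (nat_lit 0) (nat_lit 0) (XT.lf (nat_lit 76) (nat_lit 13820617468) (nat_lit 0) (nat_lit 95596241033) (nat_lit 456) (nat_lit 17833447078) (nat_lit 28) (nat_lit 5) (nat_lit 27) (nat_lit 5) (nat_lit 33) (nat_lit 5) (nat_lit 225) (nat_lit 224) (nat_lit 151)) (XT.nd (nat_lit 78) (nat_lit 0) (nat_lit 76) (XT.lf (nat_lit 76) (nat_lit 110676158842) (nat_lit 0) (nat_lit 12069561002) (nat_lit 456) (nat_lit 14350127348) (nat_lit 28) (nat_lit 5) (nat_lit 27) (nat_lit 5) (nat_lit 33) (nat_lit 5) (nat_lit 226) (nat_lit 224) (nat_lit 150)) (XT.lf (nat_lit 76) (nat_lit 75392607672) (nat_lit 0) (nat_lit 66513312508) (nat_lit 456) (nat_lit 6205751337) (nat_lit 29) (nat_lit 5) (nat_lit 28) (nat_lit 5) (nat_lit 34) (nat_lit 5) (nat_lit 227) (nat_lit 224) (nat_lit 149))))) (XT.nd (nat_lit 156) (nat_lit 456) (nat_lit 0) (XT.nd (nat_lit 78) (nat_lit 0) (nat_lit 0) (XT.lf (nat_lit 0) (nat_lit 5672189802) (nat_lit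 456) (nat_lit 126670073650) (nat_lit 76) (nat_lit 28217935617) (nat_lit 23) (nat_lit 5) (nat_lit 29) (nat_lit 5) (nat_lit 24) (nat_lit 5) (nat_lit 228) (nat_lit 224) (nat_lit 148)) (XT.lf (nat_lit 0) (nat_lit 22985687400) (nat_lit 456) (nat_lit 15879305357) (nat_lit 76) (nat_lit 135676421306) (nat_lit 23) (nat_lit 5) (nat_lit 29) (nat_lit 5) (nat_lit 24) (nat_lit 5) (nat_lit 229) (nat_lit 224) (nat_lit 147))) (XT.nd (nat_lit 78) (nat_lit 228) (nat_lit 0) (XT.lf (nat_lit 0) (nat_lit 47442981868) (nat_lit 304) (nat_lit 74715649731) (nat_lit 76) (nat_lit 68097445390) (nat_lit 20) (nat_lit 5) (nat_lit 24) (nat_lit 5) (nat_lit 21) (nat_lit 5) (nat_lit 230) (nat_lit 224) (nat_lit 146)) (XT.nd (nat_lit 78) (nat_lit 0) (nat_lit 0) (XT.lf (nat_lit 0) (nat_lit 61323827936) (nat_lit 228) (nat_lit 17268448539) (nat_lit 304) (nat_lit 129493796890) (nat_lit 17) (nat_lit 5) (nat_lit 20) (nat_lit 5)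 (nat_lit 21) (nat_lit 5) (nat_lit 231) (nat_lit 224) (nat_lit 145)) (XT.lf (nat_lit 0) (nat_lit 119130837842) (nat_lit 304) (nat_lit 8665646673) (nat_lit 76) (nat_lit 100416740517) (nat_lit 17) (nat_lit 5) (nat_lit 21) (nat_lit 5) (nat_lit 18) (nat_lit 5) (nat_lit 232) (nat_lit 224) (nat_lit 144))))))))
noncomputable def xc54 : XT := (XT.nd (nat_lit 1482) (nat_lit 152) (nat_lit 0) (XT.nd (nat_lit 702) (nat_lit 304) (nat_lit 0) (XT.nd (nat_lit 312) (nat_lit 228) (nat_lit 0) (XT.nd (nat_lit 156) (nat_lit 228) (nat_lit 0) (XT.nd (nat_lit 78) (nat_lit 152) (nat_lit 0) (XT.lf (nat_lit 0) (nat_lit 157548458388) (nat_lit 152) (nat_lit 12467858676) (nat_lit 228) (nat_lit 81001846598) (nat_lit 15) (nat_lit 5) (nat_lit 17) (nat_lit 5) (nat_lit 18) (nat_lit 5) (nat_lit 233) (nat_lit 224) (nat_lit 143)) (XT.lf (nat_lit 0) (nat_lit 72737417795) (nat_lit 152) (nat_lit 160694772091) (nat_lit 228)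 (nat_lit 43419851730) (nat_lit 13) (nat_lit 5) (nat_lit 15) (nat_lit 5) (nat_lit 16) (nat_lit 5) (nat_lit 234) (nat_lit 224) (nat_lit 142))) (XT.nd (nat_lit 78) (nat_lit 152) (nat_lit 0) (XT.lf (nat_lit 0) (nat_lit 2945829261) (nat_lit 228) (nat_lit 37218696457) (nat_lit 76) (nat_lit 266145956519) (nat_lit 12) (nat_lit 5) (nat_lit 15) (nat_lit 5) (nat_lit 13) (nat_lit 5) (nat_lit 235) (nat_lit 224) (nat_lit 141)) (XT.lf (nat_lit 0) (nat_lit 60154226812) (nat_lit 228) (nat_lit 180686661421) (nat_lit 76) (nat_lit 98739876301) (nat_lit 10) (nat_lit 5) (nat_lit 13) (nat_lit 5) (nat_lit 11) (nat_lit 5) (nat_lit 236) (nat_lit 224) (nat_lit 140)))) (XT.nd (nat_lit 156) (nat_lit 76) (nat_lit 0) (XT.nd (nat_lit 78) (nat_lit 0) (nat_lit 0) (XT.lf (nat_lit 0) (nat_lit 8193158505) (nat_lit 152) (nat_lit 120170012814) (nat_lit 228) (nat_lit 249284877468) (nat_lit 8) (nat_lit 5) (nat_lit 10) (nat_lit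 5) (nat_lit 11) (nat_lit 5) (nat_lit 237) (nat_lit 224) (nat_lit 139)) (XT.lf (nat_lit 0) (nat_lit 212647651334) (nat_lit 228) (nat_lit 185242256610) (nat_lit 76) (nat_lit 23067984485) (nat_lit 8) (nat_lit 5) (nat_lit 11) (nat_lit 5) (nat_lit 9) (nat_lit 4) (nat_lit 238) (nat_lit 224) (nat_lit 138))) (XT.nd (nat_lit 78) (nat_lit 0) (nat_lit 0) (XT.lf (nat_lit 0) (nat_lit 24504063702) (nat_lit 76) (nat_lit 288983401824) (nat_lit 152) (nat_lit 156963736082) (nat_lit 7) (nat_lit 5) (nat_lit 8) (nat_lit 5) (nat_lit 9) (nat_lit 4) (nat_lit 239) (nat_lit 224) (nat_lit 137)) (XT.nd (nat_lit 78) (nat_lit 0) (nat_lit 0) (XT.lf (nat_lit 0) (nat_lit 276929678371) (nat_lit 76) (nat_lit 157916461937) (nat_lit 152) (nat_lit 92090937488) (nat_lit 7) (nat_lit 5) (nat_lit 8) (nat_lit 5) (nat_lit 9) (nat_lit 4) (nat_lit 240) (nat_lit 224) (nat_lit 136)) (XT.lf (nat_lit 0) (nat_lit 567218820464) (nat_lit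 76) (nat_lit 7189586684) (nat_lit 152) (nat_lit 17487446479) (nat_lit 7) (nat_lit 5) (nat_lit 8) (nat_lit 5) (nat_lit 9) (nat_lit 4) (nat_lit 241) (nat_lit 224) (nat_lit 135)))))) (XT.nd (nat_lit 390) (nat_lit 76) (nat_lit 0) (XT.nd (nat_lit 156) (nat_lit 76) (nat_lit 0) (XT.nd (nat_lit 78) (nat_lit 0) (nat_lit 0) (XT.lf (nat_lit 0) (nat_lit 74974907833) (nat_lit 152) (nat_lit 425117923834) (nat_lit 76) (nat_lit 165567368527) (nat_lit 5) (nat_lit 5) (nat_lit 7) (nat_lit 5) (nat_lit 6) (nat_lit 4) (nat_lit 242) (nat_lit 224) (nat_lit 134)) (XT.lf (nat_lit 0) (nat_lit 181236384050) (nat_lit 152) (nat_lit 204094314406) (nat_lit 76) (nat_lit 365044946119) (nat_lit 5) (nat_lit 5) (nat_lit 7) (nat_lit 5) (nat_lit 6) (nat_lit 4) (nat_lit 243) (nat_lit 224) (nat_lit 133))) (XT.nd (nat_lit 78) (nat_lit 0) (nat_lit 0) (XT.lf (nat_lit 0) (nat_lit 52719859852) (nat_lit 76) (nat_lit 251984986364)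 (nat_lit 152) (nat_lit 542992139140) (nat_lit 4) (nat_lit 5) (nat_lit 5) (nat_lit 5) (nat_lit 6) (nat_lit 4) (nat_lit 244) (nat_lit 224) (nat_lit 132)) (XT.nd (nat_lit 78) (nat_lit 0) (nat_lit 0) (XT.lf (nat_lit 0) (nat_lit 360415274510) (nat_lit 76) (nat_lit 92220154442) (nat_lit 152) (nat_lit 506505750989) (nat_lit 4) (nat_lit 5) (nat_lit 5) (nat_lit 5) (nat_lit 6) (nat_lit 4) (nat_lit 245) (nat_lit 224) (nat_lit 131)) (XT.lf (nat_lit 0) (nat_lit 624956283205) (nat_lit 152) (nat_lit 375238003068) (nat_lit 0) (nat_lit 86931663397) (nat_lit 4) (nat_lit 5) (nat_lit 6) (nat_lit 4) (nat_lit 4) (nat_lit 4) (nat_lit 246) (nat_lit 224) (nat_lit 130))))) (XT.nd (nat_lit 156) (nat_lit 0) (nat_lit 0) (XT.nd (nat_lit 78) (nat_lit 76) (nat_lit 0) (XT.lf (nat_lit 0) (nat_lit 825675743397) (nat_lit 152) (nat_lit 120777668470) (nat_lit 0) (nat_lit 287650985360) (nat_lit 4) (nat_lit 5) (nat_lit 6)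 (nat_lit 4) (nat_lit 4) (nat_lit 4) (nat_lit 247) (nat_lit 224) (nat_lit 129)) (XT.lf (nat_lit 0) (nat_lit 180900966031) (nat_lit 76) (nat_lit 879952739022) (nat_lit 76) (nat_lit 341927860786) (nat_lit 3) (nat_lit 4) (nat_lit 4) (nat_lit 5) (nat_lit 4) (nat_lit 4) (nat_lit 248) (nat_lit 224) (nat_lit 128))) (XT.nd (nat_lit 78) (nat_lit 0) (nat_lit 0) (XT.lf (nat_lit 0) (nat_lit 535145187767) (nat_lit 76) (nat_lit 799679403384) (nat_lit 76) (nat_lit 261654420627) (nat_lit 3) (nat_lit 4) (nat_lit 4) (nat_lit 5) (nat_lit 4) (nat_lit 4) (nat_lit 249) (nat_lit 224) (nat_lit 127)) (XT.nd (nat_lit 78) (nat_lit 0) (nat_lit 0) (XT.lf (nat_lit 0) (nat_lit 942525923959) (nat_lit 76) (nat_lit 707365115183) (nat_lit 76) (nat_lit 169340041538) (nat_lit 3) (nat_lit 4) (nat_lit 4) (nat_lit 5) (nat_lit 4) (nat_lit 4) (nat_lit 250) (nat_lit 224) (nat_lit 126)) (XT.lf (nat_lit 0) (nat_lit 1411013667272)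 (nat_lit 76) (nat_lit 601203725303) (nat_lit 76) (nat_lit 63178572624) (nat_lit 3) (nat_lit 4) (nat_lit 4) (nat_lit 5) (nat_lit 4) (nat_lit 4) (nat_lit 251) (nat_lit 224) (nat_lit 125))))))) (XT.nd (nat_lit 29562) (nat_lit 0) (nat_lit 532) (XT.nd (nat_lit 29172) (nat_lit 0) (nat_lit 1672) (XT.nd (nat_lit 156) (nat_lit 76) (nat_lit 0) (XT.nd (nat_lit 78) (nat_lit 0) (nat_lit 0) (XT.lf (nat_lit 0) (nat_lit 55960288698) (nat_lit 152) (nat_lit 421627820909) (nat_lit 76) (nat_lit 1892284140086) (nat_lit 2) (nat_lit 5) (nat_lit 4) (nat_lit 5) (nat_lit 3) (nat_lit 4) (nat_lit 252) (nat_lit 224) (nat_lit 124)) (XT.lf (nat_lit 0) (nat_lit 189335415777) (nat_lit 152) (nat_lit 144207616346) (nat_lit 76) (nat_lit 2374837159779) (nat_lit 2) (nat_lit 5) (nat_lit 4) (nat_lit 5) (nat_lit 3) (nat_lit 4) (nat_lit 253) (nat_lit 224) (nat_lit 123))) (XT.nd (nat_lit 78) (nat_lit 0) (nat_lit 0) (XT.lf (nat_lit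 0) (nat_lit 184031552131) (nat_lit 76) (nat_lit 163111181166) (nat_lit 152) (nat_lit 2750167518641) (nat_lit 1) (nat_lit 5) (nat_lit 2) (nat_lit 5) (nat_lit 3) (nat_lit 4) (nat_lit 254) (nat_lit 224) (nat_lit 122)) (XT.nd (nat_lit 78) (nat_lit 0) (nat_lit 0) (XT.lf (nat_lit 0) (nat_lit 533719505881) (nat_lit 152) (nat_lit 2974904587392) (nat_lit 0) (nat_lit 35547859292) (nat_lit 1) (nat_lit 5) (nat_lit 3) (nat_lit 4) (nat_lit 1) (nat_lit 4) (nat_lit 255) (nat_lit 224) (nat_lit 121)) (XT.lf (nat_lit 0) (nat_lit 752794012794) (nat_lit 152) (nat_lit 3050285668350) (nat_lit 0) (nat_lit 254622329823) (nat_lit 1) (nat_lit 5) (nat_lit 3) (nat_lit 4) (nat_lit 1) (nat_lit 4) (nat_lit 256) (nat_lit 224) (nat_lit 120))))) (XT.nd (nat_lit 156) (nat_lit 304) (nat_lit 0) (XT.nd (nat_lit 78) (nat_lit 0) (nat_lit 0) (XT.lf (nat_lit 0) (nat_lit 28963133357) (nat_lit 0) (nat_lit 28963133357) (nat_lit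 380) (nat_lit 10185739063) (nat_lit 27) (nat_lit 5) (nat_lit 27) (nat_lit 3) (nat_lit 32) (nat_lit 3) (nat_lit 225) (nat_lit 225) (nat_lit 150)) (XT.lf (nat_lit 76) (nat_lit 15900951025) (nat_lit 0) (nat_lit 109939869441) (nat_lit 456) (nat_lit 20495984346) (nat_lit 28) (nat_lit 5) (nat_lit 27) (nat_lit 5) (nat_lit 33) (nat_lit 5) (nat_lit 226) (nat_lit 225) (nat_lit 149))) (XT.nd (nat_lit 78) (nat_lit 304) (nat_lit 0) (XT.lf (nat_lit 76) (nat_lit 127283879135) (nat_lit 0) (nat_lit 13883640589) (nat_lit 456) (nat_lit 16491794456) (nat_lit 28) (nat_lit 5) (nat_lit 27) (nat_lit 5) (nat_lit 33) (nat_lit 5) (nat_lit 227) (nat_lit 225) (nat_lit 148)) (XT.nd (nat_lit 78) (nat_lit 380) (nat_lit 0) (XT.lf (nat_lit 76) (nat_lit 86708175633) (nat_lit 0) (nat_lit 76492362048) (nat_lit 456) (nat_lit 7127086433) (nat_lit 29) (nat_lit 5) (nat_lit 28) (nat_lit 5) (nat_lit 34) (nat_lit 5) (nat_lit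 228) (nat_lit 225) (nat_lit 147)) (XT.lf (nat_lit 0) (nat_lit 6531014605) (nat_lit 456) (nat_lit 145663195880) (nat_lit 76) (nat_lit 32449298405) (nat_lit 23) (nat_lit 5) (nat_lit 29) (nat_lit 5) (nat_lit 24) (nat_lit 5) (nat_lit 229) (nat_lit 225) (nat_lit 146)))))) (XT.nd (nat_lit 390) (nat_lit 532) (nat_lit 0) (XT.nd (nat_lit 156) (nat_lit 380) (nat_lit 0) (XT.nd (nat_lit 78) (nat_lit 228) (nat_lit 0) (XT.lf (nat_lit 0) (nat_lit 26440493843) (nat_lit 456) (nat_lit 18254776102) (nat_lit 76) (nat_lit 156026730107) (nat_lit 23) (nat_lit 5) (nat_lit 29) (nat_lit 5) (nat_lit 24) (nat_lit 5) (nat_lit 230) (nat_lit 225) (nat_lit 145)) (XT.lf (nat_lit 0) (nat_lit 54565609594) (nat_lit 304) (nat_lit 85916552839) (nat_lit 76) (nat_lit 78311770926) (nat_lit 20) (nat_lit 5) (nat_lit 24) (nat_lit 5) (nat_lit 21) (nat_lit 5) (nat_lit 231) (nat_lit 225) (nat_lit 144))) (XT.nd (nat_lit 78) (nat_lit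 152) (nat_lit 0) (XT.lf (nat_lit 0) (nat_lit 70528300996) (nat_lit 228) (nat_lit 19858333119) (nat_lit 304) (nat_lit 148911856141) (nat_lit 17) (nat_lit 5) (nat_lit 20) (nat_lit 5) (nat_lit 21) (nat_lit 5) (nat_lit 232) (nat_lit 225) (nat_lit 143)) (XT.nd (nat_lit 78) (nat_lit 152) (nat_lit 0) (XT.lf (nat_lit 0) (nat_lit 137005268190) (nat_lit 304) (nat_lit 9959942562) (nat_lit 76) (nat_lit 115479567731) (nat_lit 17) (nat_lit 5) (nat_lit 21) (nat_lit 5) (nat_lit 18) (nat_lit 5) (nat_lit 233) (nat_lit 225) (nat_lit 142)) (XT.lf (nat_lit 0) (nat_lit 181185808384) (nat_lit 152) (nat_lit 14337256419) (nat_lit 228) (nat_lit 93147439455) (nat_lit 15) (nat_lit 5) (nat_lit 17) (nat_lit 5) (nat_lit 18) (nat_lit 5) (nat_lit 234) (nat_lit 225) (nat_lit 141))))) (XT.nd (nat_lit 156) (nat_lit 304) (nat_lit 0) (XT.nd (nat_lit 78) (nat_lit 76) (nat_lit 0) (XT.lf (nat_lit 0) (nat_lit 83653015861) (nat_lit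 152) (nat_lit 184797878028) (nat_lit 228) (nat_lit 49928609198) (nat_lit 13) (nat_lit 5) (nat_lit 15) (nat_lit 5) (nat_lit 16) (nat_lit 5) (nat_lit 235) (nat_lit 225) (nat_lit 140)) (XT.lf (nat_lit 0) (nat_lit 3391189889) (nat_lit 228) (nat_lit 42796954256) (nat_lit 76) (nat_lit 306068603565) (nat_lit 12) (nat_lit 5) (nat_lit 15) (nat_lit 5) (nat_lit 13) (nat_lit 5) (nat_lit 236) (nat_lit 225) (nat_lit 139))) (XT.nd (nat_lit 78) (nat_lit 152) (nat_lit 0) (XT.lf (nat_lit 0) (nat_lit 69180517214) (nat_lit 228) (nat_lit 207785248751) (nat_lit 76) (nat_lit 113551836423) (nat_lit 10) (nat_lit 5) (nat_lit 13) (nat_lit 5) (nat_lit 11) (nat_lit 5) (nat_lit 237) (nat_lit 225) (nat_lit 138)) (XT.nd (nat_lit 78) (nat_lit 0) (nat_lit 0) (XT.lf (nat_lit 0) (nat_lit 9426170721) (nat_lit 152) (nat_lit 138194318100) (nat_lit 228) (nat_lit 286674518796) (nat_lit 8) (nat_lit 5) (nat_lit 10) (nat_lit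 5) (nat_lit 11) (nat_lit 5) (nat_lit 238) (nat_lit 225) (nat_lit 137)) (XT.lf (nat_lit 0) (nat_lit 244547295193) (nat_lit 228) (nat_lit 213024892363) (nat_lit 76) (nat_lit 26529170659) (nat_lit 8) (nat_lit 5) (nat_lit 11) (nat_lit 5) (nat_lit 9) (nat_lit 4) (nat_lit 239) (nat_lit 225) (nat_lit 136))))))))
noncomputable def xc55 : XT := (XT.nd (nat_lit 30420) (nat_lit 0) (nat_lit 228) (XT.nd (nat_lit 780) (nat_lit 152) (nat_lit 0) (XT.nd (nat_lit 390) (nat_lit 152) (nat_lit 0) (XT.nd (nat_lit 156) (nat_lit 152) (nat_lit 0) (XT.nd (nat_lit 78) (nat_lit 0) (nat_lit 0) (XT.lf (nat_lit 0) (nat_lit 28183062578) (nat_lit 76) (nat_lit 332329774864) (nat_lit 152) (nat_lit 180505848254) (nat_lit 7) (nat_lit 5) (nat_lit 8) (nat_lit 5) (nat_lit 9) (nat_lit 4) (nat_lit 240) (nat_lit 225) (nat_lit 135)) (XT.lf (nat_lit 0) (nat_lit 318472077361) (nat_lit 76) (nat_lit 181602942328) (nat_lit 152) (nat_lit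 105902449206) (nat_lit 7) (nat_lit 5) (nat_lit 8) (nat_lit 5) (nat_lit 9) (nat_lit 4) (nat_lit 241) (nat_lit 225) (nat_lit 134))) (XT.nd (nat_lit 78) (nat_lit 152) (nat_lit 0) (XT.lf (nat_lit 0) (nat_lit 652304206347) (nat_lit 76) (nat_lit 8267164775) (nat_lit 152) (nat_lit 20108712229) (nat_lit 7) (nat_lit 5) (nat_lit 8) (nat_lit 5) (nat_lit 9) (nat_lit 4) (nat_lit 242) (nat_lit 225) (nat_lit 133)) (XT.nd (nat_lit 78) (nat_lit 0) (nat_lit 0) (XT.lf (nat_lit 0) (nat_lit 86222752457) (nat_lit 152) (nat_lit 488883055258) (nat_lit 76) (nat_lit 190403284099) (nat_lit 5) (nat_lit 5) (nat_lit 7) (nat_lit 5) (nat_lit 6) (nat_lit 4) (nat_lit 243) (nat_lit 225) (nat_lit 132)) (XT.lf (nat_lit 0) (nat_lit 208423240309) (nat_lit 152) (nat_lit 234706237957) (nat_lit 76) (nat_lit 419802392639) (nat_lit 5) (nat_lit 5) (nat_lit 7) (nat_lit 5) (nat_lit 6) (nat_lit 4) (nat_lit 244) (nat_lit 225) (nat_lit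 131))))) (XT.nd (nat_lit 156) (nat_lit 76) (nat_lit 0) (XT.nd (nat_lit 78) (nat_lit 0) (nat_lit 0) (XT.lf (nat_lit 0) (nat_lit 60629874222) (nat_lit 76) (nat_lit 289781964096) (nat_lit 152) (nat_lit 624439586268) (nat_lit 4) (nat_lit 5) (nat_lit 5) (nat_lit 5) (nat_lit 6) (nat_lit 4) (nat_lit 245) (nat_lit 225) (nat_lit 130)) (XT.lf (nat_lit 0) (nat_lit 414479335593) (nat_lit 76) (nat_lit 106052507850) (nat_lit 152) (nat_lit 582480419079) (nat_lit 4) (nat_lit 5) (nat_lit 5) (nat_lit 5) (nat_lit 6) (nat_lit 4) (nat_lit 246) (nat_lit 225) (nat_lit 129))) (XT.nd (nat_lit 78) (nat_lit 76) (nat_lit 0) (XT.lf (nat_lit 0) (nat_lit 718700696342) (nat_lit 152) (nat_lit 431522096389) (nat_lit 0) (nat_lit 99971966171) (nat_lit 4) (nat_lit 5) (nat_lit 6) (nat_lit 4) (nat_lit 4) (nat_lit 4) (nat_lit 247) (nat_lit 225) (nat_lit 128)) (XT.nd (nat_lit 78) (nat_lit 76) (nat_lit 0) (XT.lf (nat_lit 0)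 (nat_lit 949527948956) (nat_lit 152) (nat_lit 138892921228) (nat_lit 0) (nat_lit 330799114264) (nat_lit 4) (nat_lit 5) (nat_lit 6) (nat_lit 4) (nat_lit 4) (nat_lit 4) (nat_lit 248) (nat_lit 225) (nat_lit 127)) (XT.lf (nat_lit 0) (nat_lit 208037390156) (nat_lit 76) (nat_lit 1011945135377) (nat_lit 76) (nat_lit 393216209797) (nat_lit 3) (nat_lit 4) (nat_lit 4) (nat_lit 5) (nat_lit 4) (nat_lit 4) (nat_lit 249) (nat_lit 225) (nat_lit 126)))))) (XT.nd (nat_lit 390) (nat_lit 76) (nat_lit 0) (XT.nd (nat_lit 156) (nat_lit 76) (nat_lit 0) (XT.nd (nat_lit 78) (nat_lit 0) (nat_lit 0) (XT.lf (nat_lit 0) (nat_lit 615418078298) (nat_lit 76) (nat_lit 919630866502) (nat_lit 76) (nat_lit 300901861889) (nat_lit 3) (nat_lit 4) (nat_lit 4) (nat_lit 5) (nat_lit 4) (nat_lit 4) (nat_lit 250) (nat_lit 225) (nat_lit 125)) (XT.lf (nat_lit 0) (nat_lit 1083905779827) (nat_lit 76) (nat_lit 813469493426) (nat_lit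 76) (nat_lit 194740420089) (nat_lit 3) (nat_lit 4) (nat_lit 4) (nat_lit 5) (nat_lit 4) (nat_lit 4) (nat_lit 251) (nat_lit 225) (nat_lit 124))) (XT.nd (nat_lit 78) (nat_lit 76) (nat_lit 0) (XT.lf (nat_lit 0) (nat_lit 1622666558471) (nat_lit 76) (nat_lit 691383945807) (nat_lit 76) (nat_lit 72654812709) (nat_lit 3) (nat_lit 4) (nat_lit 4) (nat_lit 5) (nat_lit 4) (nat_lit 4) (nat_lit 252) (nat_lit 225) (nat_lit 123)) (XT.nd (nat_lit 78) (nat_lit 0) (nat_lit 0) (XT.lf (nat_lit 0) (nat_lit 64354782877) (nat_lit 152) (nat_lit 484871236677) (nat_lit 76) (nat_lit 2176127029295) (nat_lit 2) (nat_lit 5) (nat_lit 4) (nat_lit 5) (nat_lit 3) (nat_lit 4) (nat_lit 253) (nat_lit 225) (nat_lit 122)) (XT.lf (nat_lit 0) (nat_lit 217736120208) (nat_lit 152) (nat_lit 165838100217) (nat_lit 76) (nat_lit 2731062966960) (nat_lit 2) (nat_lit 5) (nat_lit 4) (nat_lit 5) (nat_lit 3) (nat_lit 4) (nat_lit 254) (nat_lit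 225) (nat_lit 121))))) (XT.nd (nat_lit 29016) (nat_lit 0) (nat_lit 1976) (XT.nd (nat_lit 78) (nat_lit 0) (nat_lit 0) (XT.lf (nat_lit 0) (nat_lit 211636887787) (nat_lit 76) (nat_lit 187577610929) (nat_lit 152) (nat_lit 3162692260895) (nat_lit 1) (nat_lit 5) (nat_lit 2) (nat_lit 5) (nat_lit 3) (nat_lit 4) (nat_lit 255) (nat_lit 225) (nat_lit 120)) (XT.lf (nat_lit 0) (nat_lit 613777746001) (nat_lit 152) (nat_lit 3421139730280) (nat_lit 0) (nat_lit 40880242565) (nat_lit 1) (nat_lit 5) (nat_lit 3) (nat_lit 4) (nat_lit 1) (nat_lit 4) (nat_lit 256) (nat_lit 225) (nat_lit 119))) (XT.nd (nat_lit 78) (nat_lit 0) (nat_lit 0) (XT.lf (nat_lit 0) (nat_lit 33310080769) (nat_lit 0) (nat_lit 33310080769) (nat_lit 380) (nat_lit 11708191350) (nat_lit 27) (nat_lit 5) (nat_lit 27) (nat_lit 3) (nat_lit 32) (nat_lit 3) (nat_lit 226) (nat_lit 226) (nat_lit 148)) (XT.nd (nat_lit 78) (nat_lit 0) (nat_lit 0)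 (XT.lf (nat_lit 76) (nat_lit 18291568867) (nat_lit 0) (nat_lit 126434019802) (nat_lit 456) (nat_lit 23560945481) (nat_lit 28) (nat_lit 5) (nat_lit 27) (nat_lit 5) (nat_lit 33) (nat_lit 5) (nat_lit 227) (nat_lit 226) (nat_lit 147)) (XT.lf (nat_lit 76) (nat_lit 146381222038) (nat_lit 0) (nat_lit 15968943152) (nat_lit 456) (nat_lit 18957357957) (nat_lit 28) (nat_lit 5) (nat_lit 27) (nat_lit 5) (nat_lit 33) (nat_lit 5) (nat_lit 228) (nat_lit 226) (nat_lit 146))))))) (XT.nd (nat_lit 780) (nat_lit 456) (nat_lit 0) (XT.nd (nat_lit 390) (nat_lit 532) (nat_lit 0) (XT.nd (nat_lit 156) (nat_lit 456) (nat_lit 0) (XT.nd (nat_lit 78) (nat_lit 380) (nat_lit 0) (XT.lf (nat_lit 76) (nat_lit 99719450606) (nat_lit 0) (nat_lit 87967768463) (nat_lit 456) (nat_lit 8188945161) (nat_lit 29) (nat_lit 5) (nat_lit 28) (nat_lit 5) (nat_lit 34) (nat_lit 5) (nat_lit 229) (nat_lit 226) (nat_lit 145)) (XT.lf (nat_lit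 0) (nat_lit 7516713172) (nat_lit 456) (nat_lit 167507088255) (nat_lit 76) (nat_lit 37315689344) (nat_lit 23) (nat_lit 5) (nat_lit 29) (nat_lit 5) (nat_lit 24) (nat_lit 5) (nat_lit 230) (nat_lit 226) (nat_lit 144))) (XT.nd (nat_lit 78) (nat_lit 456) (nat_lit 0) (XT.lf (nat_lit 0) (nat_lit 30411825638) (nat_lit 456) (nat_lit 20988134249) (nat_lit 76) (nat_lit 179429866735) (nat_lit 23) (nat_lit 5) (nat_lit 29) (nat_lit 5) (nat_lit 24) (nat_lit 5) (nat_lit 231) (nat_lit 226) (nat_lit 143)) (XT.nd (nat_lit 78) (nat_lit 228) (nat_lit 0) (XT.lf (nat_lit 0) (nat_lit 62755124338) (nat_lit 304) (nat_lit 98799162909) (nat_lit 76) (nat_lit 90058316322) (nat_lit 20) (nat_lit 5) (nat_lit 24) (nat_lit 5) (nat_lit 21) (nat_lit 5) (nat_lit 232) (nat_lit 226) (nat_lit 142)) (XT.lf (nat_lit 0) (nat_lit 81112006539) (nat_lit 228) (nat_lit 22836793709) (nat_lit 304) (nat_lit 171244089926) (nat_lit 17)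 (nat_lit 5) (nat_lit 20) (nat_lit 5) (nat_lit 21) (nat_lit 5) (nat_lit 233) (nat_lit 226) (nat_lit 141))))) (XT.nd (nat_lit 156) (nat_lit 380) (nat_lit 0) (XT.nd (nat_lit 78) (nat_lit 152) (nat_lit 0) (XT.lf (nat_lit 0) (nat_lit 157559691441) (nat_lit 304) (nat_lit 11449736508) (nat_lit 76) (nat_lit 132801741935) (nat_lit 17) (nat_lit 5) (nat_lit 21) (nat_lit 5) (nat_lit 18) (nat_lit 5) (nat_lit 234) (nat_lit 226) (nat_lit 140)) (XT.lf (nat_lit 0) (nat_lit 208367521788) (nat_lit 152) (nat_lit 16487254289) (nat_lit 228) (nat_lit 107116013496) (nat_lit 15) (nat_lit 5) (nat_lit 17) (nat_lit 5) (nat_lit 18) (nat_lit 5) (nat_lit 235) (nat_lit 226) (nat_lit 139))) (XT.nd (nat_lit 78) (nat_lit 228) (nat_lit 0) (XT.lf (nat_lit 0) (nat_lit 96204737916) (nat_lit 152) (nat_lit 212516720506) (nat_lit 228) (nat_lit 57414709432) (nat_lit 13) (nat_lit 5) (nat_lit 15) (nat_lit 5) (nat_lit 16) (nat_lit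 5) (nat_lit 236) (nat_lit 226) (nat_lit 138)) (XT.nd (nat_lit 78) (nat_lit 152) (nat_lit 0) (XT.lf (nat_lit 0) (nat_lit 3902504470) (nat_lit 228) (nat_lit 49213059459) (nat_lit 76) (nat_lit 351979463905) (nat_lit 12) (nat_lit 5) (nat_lit 15) (nat_lit 5) (nat_lit 13) (nat_lit 5) (nat_lit 237) (nat_lit 226) (nat_lit 137)) (XT.lf (nat_lit 0) (nat_lit 79559981474) (nat_lit 228) (nat_lit 238949700045) (nat_lit 76) (nat_lit 130585351907) (nat_lit 10) (nat_lit 5) (nat_lit 13) (nat_lit 5) (nat_lit 11) (nat_lit 5) (nat_lit 238) (nat_lit 226) (nat_lit 136)))))) (XT.nd (nat_lit 390) (nat_lit 228) (nat_lit 0) (XT.nd (nat_lit 156) (nat_lit 76) (nat_lit 0) (XT.nd (nat_lit 78) (nat_lit 0) (nat_lit 0) (XT.lf (nat_lit 0) (nat_lit 10843149969) (nat_lit 152) (nat_lit 158922560986) (nat_lit 228) (nat_lit 329673359911) (nat_lit 8) (nat_lit 5) (nat_lit 10) (nat_lit 5) (nat_lit 11) (nat_lit 5) (nat_lit 239)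 (nat_lit 226) (nat_lit 135)) (XT.lf (nat_lit 0) (nat_lit 281231276927) (nat_lit 228) (nat_lit 244975826416) (nat_lit 76) (nat_lit 30509293706) (nat_lit 8) (nat_lit 5) (nat_lit 11) (nat_lit 5) (nat_lit 9) (nat_lit 4) (nat_lit 240) (nat_lit 226) (nat_lit 134))) (XT.nd (nat_lit 78) (nat_lit 0) (nat_lit 0) (XT.lf (nat_lit 0) (nat_lit 32413084777) (nat_lit 76) (nat_lit 382178381182) (nat_lit 152) (nat_lit 207579874270) (nat_lit 7) (nat_lit 5) (nat_lit 8) (nat_lit 5) (nat_lit 9) (nat_lit 4) (nat_lit 241) (nat_lit 226) (nat_lit 133)) (XT.nd (nat_lit 78) (nat_lit 0) (nat_lit 0) (XT.lf (nat_lit 0) (nat_lit 366245117498) (nat_lit 76) (nat_lit 208842635928) (nat_lit 152) (nat_lit 121786206829) (nat_lit 7) (nat_lit 5) (nat_lit 8) (nat_lit 5) (nat_lit 9) (nat_lit 4) (nat_lit 242) (nat_lit 226) (nat_lit 132)) (XT.lf (nat_lit 0) (nat_lit 750151775153) (nat_lit 76) (nat_lit 9506589274) (nat_lit 152)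 (nat_lit 23123619274) (nat_lit 7) (nat_lit 5) (nat_lit 8) (nat_lit 5) (nat_lit 9) (nat_lit 4) (nat_lit 243) (nat_lit 226) (nat_lit 131))))) (XT.nd (nat_lit 156) (nat_lit 76) (nat_lit 0) (XT.nd (nat_lit 78) (nat_lit 0) (nat_lit 0) (XT.lf (nat_lit 0) (nat_lit 99157381544) (nat_lit 152) (nat_lit 562213579973) (nat_lit 76) (nat_lit 218964389412) (nat_lit 5) (nat_lit 5) (nat_lit 7) (nat_lit 5) (nat_lit 6) (nat_lit 4) (nat_lit 244) (nat_lit 226) (nat_lit 130)) (XT.lf (nat_lit 0) (nat_lit 239687783937) (nat_lit 152) (nat_lit 269910492283) (nat_lit 76) (nat_lit 482773284316) (nat_lit 5) (nat_lit 5) (nat_lit 7) (nat_lit 5) (nat_lit 6) (nat_lit 4) (nat_lit 245) (nat_lit 226) (nat_lit 129))) (XT.nd (nat_lit 78) (nat_lit 0) (nat_lit 0) (XT.lf (nat_lit 0) (nat_lit 69725894405) (nat_lit 76) (nat_lit 333248676312) (nat_lit 152) (nat_lit 718104485461) (nat_lit 4) (nat_lit 5) (nat_lit 5) (nat_lit 5)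 (nat_lit 6) (nat_lit 4) (nat_lit 246) (nat_lit 226) (nat_lit 128)) (XT.nd (nat_lit 78) (nat_lit 0) (nat_lit 0) (XT.lf (nat_lit 0) (nat_lit 476652574236) (nat_lit 76) (nat_lit 121959877593) (nat_lit 152) (nat_lit 669851578682) (nat_lit 4) (nat_lit 5) (nat_lit 5) (nat_lit 5) (nat_lit 6) (nat_lit 4) (nat_lit 247) (nat_lit 226) (nat_lit 127)) (XT.lf (nat_lit 0) (nat_lit 826506534750) (nat_lit 152) (nat_lit 496249195619) (nat_lit 0) (nat_lit 114968179445) (nat_lit 4) (nat_lit 5) (nat_lit 6) (nat_lit 4) (nat_lit 4) (nat_lit 4) (nat_lit 248) (nat_lit 226) (nat_lit 126))))))))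
noncomputable def xc56 : XT := (XT.nd (nat_lit 30498) (nat_lit 0) (nat_lit 0) (XT.nd (nat_lit 29718) (nat_lit 0) (nat_lit 760) (XT.nd (nat_lit 312) (nat_lit 76) (nat_lit 0) (XT.nd (nat_lit 156) (nat_lit 0) (nat_lit 0) (XT.nd (nat_lit 78) (nat_lit 76) (nat_lit 0) (XT.lf (nat_lit 0) (nat_lit 1091957779522) (nat_lit 152) (nat_lit 159725802692) (nat_lit 0) (nat_lit 380419345184) (nat_lit 4) (nat_lit 5) (nat_lit 6) (nat_lit 4) (nat_lit 4) (nat_lit 4) (nat_lit 249) (nat_lit 226) (nat_lit 125)) (XT.lf (nat_lit 0) (nat_lit 239243965954) (nat_lit 76) (nat_lit 1163736516649) (nat_lit 76) (nat_lit 452198013587) (nat_lit 3) (nat_lit 4) (nat_lit 4) (nat_lit 5) (nat_lit 4) (nat_lit 4) (nat_lit 250) (nat_lit 226) (nat_lit 124))) (XT.nd (nat_lit 78) (nat_lit 0) (nat_lit 0) (XT.lf (nat_lit 0) (nat_lit 707731631151) (nat_lit 76) (nat_lit 1057575158186) (nat_lit 76) (nat_lit 346036595364) (nat_lit 3)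 (nat_lit 4) (nat_lit 4) (nat_lit 5) (nat_lit 4) (nat_lit 4) (nat_lit 251) (nat_lit 226) (nat_lit 123)) (XT.lf (nat_lit 0) (nat_lit 1246492378200) (nat_lit 76) (nat_lit 935489623274) (nat_lit 76) (nat_lit 223951008486) (nat_lit 3) (nat_lit 4) (nat_lit 4) (nat_lit 5) (nat_lit 4) (nat_lit 4) (nat_lit 252) (nat_lit 226) (nat_lit 122)))) (XT.nd (nat_lit 156) (nat_lit 0) (nat_lit 0) (XT.nd (nat_lit 78) (nat_lit 76) (nat_lit 0) (XT.lf (nat_lit 0) (nat_lit 1866067178240) (nat_lit 76) (nat_lit 795091281881) (nat_lit 76) (nat_lit 83552621906) (nat_lit 3) (nat_lit 4) (nat_lit 4) (nat_lit 5) (nat_lit 4) (nat_lit 4) (nat_lit 253) (nat_lit 226) (nat_lit 121)) (XT.lf (nat_lit 0) (nat_lit 74008341235) (nat_lit 152) (nat_lit 557601349499) (nat_lit 76) (nat_lit 2502546286485) (nat_lit 2) (nat_lit 5) (nat_lit 4) (nat_lit 5) (nat_lit 3) (nat_lit 4) (nat_lit 254) (nat_lit 226) (nat_lit 120))) (XT.nd (nat_lit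 29094) (nat_lit 0) (nat_lit 1900) (XT.lf (nat_lit 0) (nat_lit 250396834696) (nat_lit 152) (nat_lit 190713317267) (nat_lit 76) (nat_lit 3140722588348) (nat_lit 2) (nat_lit 5) (nat_lit 4) (nat_lit 5) (nat_lit 3) (nat_lit 4) (nat_lit 255) (nat_lit 226) (nat_lit 119)) (XT.nd (nat_lit 78) (nat_lit 0) (nat_lit 0) (XT.lf (nat_lit 0) (nat_lit 38308466162) (nat_lit 0) (nat_lit 38308466162) (nat_lit 380) (nat_lit 13460330394) (nat_lit 27) (nat_lit 5) (nat_lit 27) (nat_lit 3) (nat_lit 32) (nat_lit 3) (nat_lit 227) (nat_lit 227) (nat_lit 146)) (XT.lf (nat_lit 76) (nat_lit 21039444226) (nat_lit 0) (nat_lit 145401519707) (nat_lit 456) (nat_lit 27087951940) (nat_lit 28) (nat_lit 5) (nat_lit 27) (nat_lit 5) (nat_lit 33) (nat_lit 5) (nat_lit 228) (nat_lit 227) (nat_lit 145)))))) (XT.nd (nat_lit 390) (nat_lit 608) (nat_lit 0) (XT.nd (nat_lit 156) (nat_lit 532) (nat_lit 0) (XT.nd (nat_lit 78) (nat_lit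 0) (nat_lit 76) (XT.lf (nat_lit 76) (nat_lit 168342005369) (nat_lit 0) (nat_lit 18366368915) (nat_lit 456) (nat_lit 21794756987) (nat_lit 28) (nat_lit 5) (nat_lit 27) (nat_lit 5) (nat_lit 33) (nat_lit 5) (nat_lit 229) (nat_lit 227) (nat_lit 144)) (XT.lf (nat_lit 76) (nat_lit 114681185685) (nat_lit 0) (nat_lit 101164107350) (nat_lit 456) (nat_lit 9411839496) (nat_lit 29) (nat_lit 5) (nat_lit 28) (nat_lit 5) (nat_lit 34) (nat_lit 5) (nat_lit 230) (nat_lit 227) (nat_lit 143))) (XT.nd (nat_lit 78) (nat_lit 228) (nat_lit 0) (XT.lf (nat_lit 0) (nat_lit 8648792077) (nat_lit 456) (nat_lit 192628926912) (nat_lit 76) (nat_lit 42912283712) (nat_lit 23) (nat_lit 5) (nat_lit 29) (nat_lit 5) (nat_lit 24) (nat_lit 5) (nat_lit 231) (nat_lit 227) (nat_lit 142)) (XT.nd (nat_lit 78) (nat_lit 228) (nat_lit 0) (XT.lf (nat_lit 0) (nat_lit 34977575075) (nat_lit 456) (nat_lit 24132680839) (nat_lit 76) (nat_lit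 206343686716) (nat_lit 23) (nat_lit 5) (nat_lit 29) (nat_lit 5) (nat_lit 24) (nat_lit 5) (nat_lit 232) (nat_lit 227) (nat_lit 141)) (XT.lf (nat_lit 0) (nat_lit 72171926679) (nat_lit 304) (nat_lit 113615352766) (nat_lit 76) (nat_lit 103566897234) (nat_lit 20) (nat_lit 5) (nat_lit 24) (nat_lit 5) (nat_lit 21) (nat_lit 5) (nat_lit 233) (nat_lit 227) (nat_lit 140))))) (XT.nd (nat_lit 156) (nat_lit 380) (nat_lit 0) (XT.nd (nat_lit 78) (nat_lit 0) (nat_lit 0) (XT.lf (nat_lit 0) (nat_lit 93282180218) (nat_lit 228) (nat_lit 26262093955) (nat_lit 304) (nat_lit 196927267016) (nat_lit 17) (nat_lit 5) (nat_lit 20) (nat_lit 5) (nat_lit 21) (nat_lit 5) (nat_lit 234) (nat_lit 227) (nat_lit 139)) (XT.lf (nat_lit 0) (nat_lit 181196392244) (nat_lit 304) (nat_lit 13164023117) (nat_lit 76) (nat_lit 152722183977) (nat_lit 17) (nat_lit 5) (nat_lit 21) (nat_lit 5) (nat_lit 18) (nat_lit 5) (nat_lit 235) (nat_lit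 227) (nat_lit 138))) (XT.nd (nat_lit 78) (nat_lit 228) (nat_lit 0) (XT.lf (nat_lit 0) (nat_lit 239625555271) (nat_lit 152) (nat_lit 18959895859) (nat_lit 228) (nat_lit 123180737352) (nat_lit 15) (nat_lit 5) (nat_lit 17) (nat_lit 5) (nat_lit 18) (nat_lit 5) (nat_lit 236) (nat_lit 227) (nat_lit 137)) (XT.nd (nat_lit 78) (nat_lit 76) (nat_lit 0) (XT.lf (nat_lit 0) (nat_lit 110638299020) (nat_lit 152) (nat_lit 244393594007) (nat_lit 228) (nat_lit 66024502881) (nat_lit 13) (nat_lit 5) (nat_lit 15) (nat_lit 5) (nat_lit 16) (nat_lit 5) (nat_lit 237) (nat_lit 227) (nat_lit 136)) (XT.lf (nat_lit 0) (nat_lit 4489873410) (nat_lit 228) (nat_lit 56592418805) (nat_lit 76) (nat_lit 404776814346) (nat_lit 12) (nat_lit 5) (nat_lit 15) (nat_lit 5) (nat_lit 13) (nat_lit 5) (nat_lit 238) (nat_lit 227) (nat_lit 135))))))) (XT.nd (nat_lit 780) (nat_lit 152) (nat_lit 0) (XT.nd (nat_lit 390) (nat_lit 228)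 (nat_lit 0) (XT.nd (nat_lit 156) (nat_lit 76) (nat_lit 0) (XT.nd (nat_lit 78) (nat_lit 152) (nat_lit 0) (XT.lf (nat_lit 0) (nat_lit 91495783366) (nat_lit 228) (nat_lit 274789632543) (nat_lit 76) (nat_lit 150173714255) (nat_lit 10) (nat_lit 5) (nat_lit 13) (nat_lit 5) (nat_lit 11) (nat_lit 5) (nat_lit 239) (nat_lit 227) (nat_lit 134)) (XT.lf (nat_lit 0) (nat_lit 12471931456) (nat_lit 152) (nat_lit 182760260954) (nat_lit 228) (nat_lit 379122597013) (nat_lit 8) (nat_lit 5) (nat_lit 10) (nat_lit 5) (nat_lit 11) (nat_lit 5) (nat_lit 240) (nat_lit 227) (nat_lit 133))) (XT.nd (nat_lit 78) (nat_lit 76) (nat_lit 0) (XT.lf (nat_lit 0) (nat_lit 323417395653) (nat_lit 228) (nat_lit 281720083326) (nat_lit 76) (nat_lit 35086252941) (nat_lit 8) (nat_lit 5) (nat_lit 11) (nat_lit 5) (nat_lit 9) (nat_lit 4) (nat_lit 241) (nat_lit 227) (nat_lit 132)) (XT.nd (nat_lit 78) (nat_lit 0) (nat_lit 0) (XT.lf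 (nat_lit 0) (nat_lit 37276985348) (nat_lit 76) (nat_lit 439504488142) (nat_lit 152) (nat_lit 238715455621) (nat_lit 7) (nat_lit 5) (nat_lit 8) (nat_lit 5) (nat_lit 9) (nat_lit 4) (nat_lit 242) (nat_lit 227) (nat_lit 131)) (XT.lf (nat_lit 0) (nat_lit 421183570214) (nat_lit 76) (nat_lit 240168465911) (nat_lit 152) (nat_lit 140052920645) (nat_lit 7) (nat_lit 5) (nat_lit 8) (nat_lit 5) (nat_lit 9) (nat_lit 4) (nat_lit 243) (nat_lit 227) (nat_lit 130))))) (XT.nd (nat_lit 156) (nat_lit 76) (nat_lit 0) (XT.nd (nat_lit 78) (nat_lit 152) (nat_lit 0) (XT.lf (nat_lit 0) (nat_lit 862676006723) (nat_lit 76) (nat_lit 10932086008) (nat_lit 152) (nat_lit 26591103723) (nat_lit 7) (nat_lit 5) (nat_lit 8) (nat_lit 5) (nat_lit 9) (nat_lit 4) (nat_lit 244) (nat_lit 227) (nat_lit 129)) (XT.lf (nat_lit 0) (nat_lit 114031908411) (nat_lit 152) (nat_lit 646544154909) (nat_lit 76) (nat_lit 251809511112) (nat_lit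 5) (nat_lit 5) (nat_lit 7) (nat_lit 5) (nat_lit 6) (nat_lit 4) (nat_lit 245) (nat_lit 227) (nat_lit 128))) (XT.nd (nat_lit 78) (nat_lit 76) (nat_lit 0) (XT.lf (nat_lit 0) (nat_lit 275641751211) (nat_lit 152) (nat_lit 310395794769) (nat_lit 76) (nat_lit 555189679822) (nat_lit 5) (nat_lit 5) (nat_lit 7) (nat_lit 5) (nat_lit 6) (nat_lit 4) (nat_lit 246) (nat_lit 227) (nat_lit 127)) (XT.nd (nat_lit 78) (nat_lit 0) (nat_lit 0) (XT.lf (nat_lit 0) (nat_lit 80185942308) (nat_lit 76) (nat_lit 383235537382) (nat_lit 152) (nat_lit 825819372838) (nat_lit 4) (nat_lit 5) (nat_lit 5) (nat_lit 5) (nat_lit 6) (nat_lit 4) (nat_lit 247) (nat_lit 227) (nat_lit 126)) (XT.lf (nat_lit 0) (nat_lit 548151472321) (nat_lit 76) (nat_lit 140253476296) (nat_lit 152) (nat_lit 770328632491) (nat_lit 4) (nat_lit 5) (nat_lit 5) (nat_lit 5) (nat_lit 6) (nat_lit 4) (nat_lit 248) (nat_lit 227) (nat_lit 125)))))) (XT.nd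 (nat_lit 390) (nat_lit 76) (nat_lit 0) (XT.nd (nat_lit 156) (nat_lit 76) (nat_lit 0) (XT.nd (nat_lit 78) (nat_lit 0) (nat_lit 0) (XT.lf (nat_lit 0) (nat_lit 950483069938) (nat_lit 152) (nat_lit 570685656075) (nat_lit 0) (nat_lit 132213722693) (nat_lit 4) (nat_lit 5) (nat_lit 6) (nat_lit 4) (nat_lit 4) (nat_lit 4) (nat_lit 249) (nat_lit 227) (nat_lit 124)) (XT.lf (nat_lit 0) (nat_lit 1255751929038) (nat_lit 152) (nat_lit 183683874064) (nat_lit 0) (nat_lit 437482522032) (nat_lit 4) (nat_lit 5) (nat_lit 6) (nat_lit 4) (nat_lit 4) (nat_lit 4) (nat_lit 250) (nat_lit 227) (nat_lit 123))) (XT.nd (nat_lit 78) (nat_lit 0) (nat_lit 0) (XT.lf (nat_lit 0) (nat_lit 275131292245) (nat_lit 76) (nat_lit 1338296699980) (nat_lit 76) (nat_lit 520027241008) (nat_lit 3) (nat_lit 4) (nat_lit 4) (nat_lit 5) (nat_lit 4) (nat_lit 4) (nat_lit 251) (nat_lit 227) (nat_lit 122)) (XT.nd (nat_lit 78) (nat_lit 0)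 (nat_lit 0) (XT.lf (nat_lit 0) (nat_lit 813892011822) (nat_lit 76) (nat_lit 1216211176117) (nat_lit 76) (nat_lit 397941671958) (nat_lit 3) (nat_lit 4) (nat_lit 4) (nat_lit 5) (nat_lit 4) (nat_lit 4) (nat_lit 252) (nat_lit 227) (nat_lit 121)) (XT.lf (nat_lit 0) (nat_lit 1433466787972) (nat_lit 76) (nat_lit 1075812844333) (nat_lit 76) (nat_lit 257543300881) (nat_lit 3) (nat_lit 4) (nat_lit 4) (nat_lit 5) (nat_lit 4) (nat_lit 4) (nat_lit 253) (nat_lit 227) (nat_lit 120))))) (XT.nd (nat_lit 29250) (nat_lit 0) (nat_lit 1900) (XT.nd (nat_lit 78) (nat_lit 76) (nat_lit 0) (XT.lf (nat_lit 0) (nat_lit 2145977735882) (nat_lit 76) (nat_lit 914354780744) (nat_lit 76) (nat_lit 96085203124) (nat_lit 3) (nat_lit 4) (nat_lit 4) (nat_lit 5) (nat_lit 4) (nat_lit 4) (nat_lit 254) (nat_lit 227) (nat_lit 119)) (XT.lf (nat_lit 0) (nat_lit 85109850209) (nat_lit 152) (nat_lit 641241118896) (nat_lit 76) (nat_lit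 2877928382800) (nat_lit 2) (nat_lit 5) (nat_lit 4) (nat_lit 5) (nat_lit 3) (nat_lit 4) (nat_lit 255) (nat_lit 227) (nat_lit 118))) (XT.nd (nat_lit 78) (nat_lit 0) (nat_lit 0) (XT.lf (nat_lit 0) (nat_lit 44056152553) (nat_lit 0) (nat_lit 44056152553) (nat_lit 380) (nat_lit 15476287584) (nat_lit 27) (nat_lit 5) (nat_lit 27) (nat_lit 3) (nat_lit 32) (nat_lit 3) (nat_lit 228) (nat_lit 228) (nat_lit 144)) (XT.nd (nat_lit 78) (nat_lit 0) (nat_lit 0) (XT.lf (nat_lit 76) (nat_lit 24198491317) (nat_lit 0) (nat_lit 167213560089) (nat_lit 456) (nat_lit 31145749372) (nat_lit 28) (nat_lit 5) (nat_lit 27) (nat_lit 5) (nat_lit 33) (nat_lit 5) (nat_lit 229) (nat_lit 228) (nat_lit 143)) (XT.lf (nat_lit 76) (nat_lit 193596028311) (nat_lit 0) (nat_lit 21122900275) (nat_lit 456) (nat_lit 25059278919) (nat_lit 28) (nat_lit 5) (nat_lit 27) (nat_lit 5) (nat_lit 33) (nat_lit 5) (nat_lit 230) (nat_lit 228)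 (nat_lit 142))))))))
noncomputable def xc57 : XT := (XT.nd (nat_lit 1482) (nat_lit 76) (nat_lit 0) (XT.nd (nat_lit 702) (nat_lit 608) (nat_lit 0) (XT.nd (nat_lit 312) (nat_lit 608) (nat_lit 0) (XT.nd (nat_lit 156) (nat_lit 228) (nat_lit 0) (XT.nd (nat_lit 78) (nat_lit 380) (nat_lit 0) (XT.lf (nat_lit 76) (nat_lit 131886250107) (nat_lit 0) (nat_lit 116339610876) (nat_lit 456) (nat_lit 10819496374) (nat_lit 29) (nat_lit 5) (nat_lit 28) (nat_lit 5) (nat_lit 34) (nat_lit 5) (nat_lit 231) (nat_lit 228) (nat_lit 141)) (XT.lf (nat_lit 0) (nat_lit 9949567924) (nat_lit 456) (nat_lit 221520071559) (nat_lit 76) (nat_lit 49348552331) (nat_lit 23) (nat_lit 5) (nat_lit 29) (nat_lit 5) (nat_lit 24) (nat_lit 5) (nat_lit 232) (nat_lit 228) (nat_lit 140))) (XT.nd (nat_lit 78) (nat_lit 228) (nat_lit 0) (XT.lf (nat_lit 0) (nat_lit 40227217454) (nat_lit 456) (nat_lit 27749805234) (nat_lit 76) (nat_lit 237294740647)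 (nat_lit 23) (nat_lit 5) (nat_lit 29) (nat_lit 5) (nat_lit 24) (nat_lit 5) (nat_lit 233) (nat_lit 228) (nat_lit 139)) (XT.lf (nat_lit 0) (nat_lit 83000387658) (nat_lit 304) (nat_lit 130654869610) (nat_lit 76) (nat_lit 119101805894) (nat_lit 20) (nat_lit 5) (nat_lit 24) (nat_lit 5) (nat_lit 21) (nat_lit 5) (nat_lit 234) (nat_lit 228) (nat_lit 138)))) (XT.nd (nat_lit 156) (nat_lit 380) (nat_lit 0) (XT.nd (nat_lit 78) (nat_lit 0) (nat_lit 0) (XT.lf (nat_lit 0) (nat_lit 107277057495) (nat_lit 228) (nat_lit 30201242596) (nat_lit 304) (nat_lit 226463758658) (nat_lit 17) (nat_lit 5) (nat_lit 20) (nat_lit 5) (nat_lit 21) (nat_lit 5) (nat_lit 235) (nat_lit 228) (nat_lit 137)) (XT.lf (nat_lit 0) (nat_lit 208377928273) (nat_lit 304) (nat_lit 15136226686) (nat_lit 76) (nat_lit 175630648248) (nat_lit 17) (nat_lit 5) (nat_lit 21) (nat_lit 5) (nat_lit 18) (nat_lit 5) (nat_lit 236) (nat_lit 228) (nat_lit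 136))) (XT.nd (nat_lit 78) (nat_lit 228) (nat_lit 0) (XT.lf (nat_lit 0) (nat_lit 275571585322) (nat_lit 152) (nat_lit 21803542565) (nat_lit 228) (nat_lit 141655822875) (nat_lit 15) (nat_lit 5) (nat_lit 17) (nat_lit 5) (nat_lit 18) (nat_lit 5) (nat_lit 237) (nat_lit 228) (nat_lit 135)) (XT.nd (nat_lit 78) (nat_lit 76) (nat_lit 0) (XT.lf (nat_lit 0) (nat_lit 127236199198) (nat_lit 152) (nat_lit 281052153278) (nat_lit 228) (nat_lit 75926353765) (nat_lit 13) (nat_lit 5) (nat_lit 15) (nat_lit 5) (nat_lit 16) (nat_lit 5) (nat_lit 238) (nat_lit 228) (nat_lit 134)) (XT.lf (nat_lit 0) (nat_lit 5164861619) (nat_lit 228) (nat_lit 65079315975) (nat_lit 76) (nat_lit 465493662286) (nat_lit 12) (nat_lit 5) (nat_lit 15) (nat_lit 5) (nat_lit 13) (nat_lit 5) (nat_lit 239) (nat_lit 228) (nat_lit 133)))))) (XT.nd (nat_lit 390) (nat_lit 228) (nat_lit 0) (XT.nd (nat_lit 156) (nat_lit 76) (nat_lit 0) (XT.nd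 (nat_lit 78) (nat_lit 152) (nat_lit 0) (XT.lf (nat_lit 0) (nat_lit 105221515462) (nat_lit 228) (nat_lit 316006170046) (nat_lit 76) (nat_lit 172700194502) (nat_lit 10) (nat_lit 5) (nat_lit 13) (nat_lit 5) (nat_lit 11) (nat_lit 5) (nat_lit 240) (nat_lit 228) (nat_lit 132)) (XT.lf (nat_lit 0) (nat_lit 14344467103) (nat_lit 152) (nat_lit 210173782758) (nat_lit 228) (nat_lit 435989650547) (nat_lit 8) (nat_lit 5) (nat_lit 10) (nat_lit 5) (nat_lit 11) (nat_lit 5) (nat_lit 241) (nat_lit 228) (nat_lit 131))) (XT.nd (nat_lit 78) (nat_lit 76) (nat_lit 0) (XT.lf (nat_lit 0) (nat_lit 371931084159) (nat_lit 228) (nat_lit 323976495029) (nat_lit 76) (nat_lit 40349618238) (nat_lit 8) (nat_lit 5) (nat_lit 11) (nat_lit 5) (nat_lit 9) (nat_lit 4) (nat_lit 242) (nat_lit 228) (nat_lit 130)) (XT.nd (nat_lit 78) (nat_lit 0) (nat_lit 0) (XT.lf (nat_lit 0) (nat_lit 42869998447) (nat_lit 76) (nat_lit 505429669706)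 (nat_lit 152) (nat_lit 274521715522) (nat_lit 7) (nat_lit 5) (nat_lit 8) (nat_lit 5) (nat_lit 9) (nat_lit 4) (nat_lit 243) (nat_lit 228) (nat_lit 129)) (XT.lf (nat_lit 0) (nat_lit 484362379917) (nat_lit 76) (nat_lit 276193308270) (nat_lit 152) (nat_lit 161059938357) (nat_lit 7) (nat_lit 5) (nat_lit 8) (nat_lit 5) (nat_lit 9) (nat_lit 4) (nat_lit 244) (nat_lit 228) (nat_lit 128))))) (XT.nd (nat_lit 156) (nat_lit 76) (nat_lit 0) (XT.nd (nat_lit 78) (nat_lit 152) (nat_lit 0) (XT.lf (nat_lit 0) (nat_lit 992078515706) (nat_lit 76) (nat_lit 12571527145) (nat_lit 152) (nat_lit 30578968947) (nat_lit 7) (nat_lit 5) (nat_lit 8) (nat_lit 5) (nat_lit 9) (nat_lit 4) (nat_lit 245) (nat_lit 228) (nat_lit 127)) (XT.lf (nat_lit 0) (nat_lit 131137390050) (nat_lit 152) (nat_lit 743524672619) (nat_lit 76) (nat_lit 289581288090) (nat_lit 5) (nat_lit 5) (nat_lit 7) (nat_lit 5) (nat_lit 6) (nat_lit 4) (nat_lit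 246) (nat_lit 228) (nat_lit 126))) (XT.nd (nat_lit 78) (nat_lit 76) (nat_lit 0) (XT.lf (nat_lit 0) (nat_lit 316988618568) (nat_lit 152) (nat_lit 356954202656) (nat_lit 76) (nat_lit 638468436415) (nat_lit 5) (nat_lit 5) (nat_lit 7) (nat_lit 5) (nat_lit 6) (nat_lit 4) (nat_lit 247) (nat_lit 228) (nat_lit 125)) (XT.nd (nat_lit 78) (nat_lit 0) (nat_lit 0) (XT.lf (nat_lit 0) (nat_lit 92214713610) (nat_lit 76) (nat_lit 440720535000) (nat_lit 152) (nat_lit 949691684857) (nat_lit 4) (nat_lit 5) (nat_lit 5) (nat_lit 5) (nat_lit 6) (nat_lit 4) (nat_lit 248) (nat_lit 228) (nat_lit 124)) (XT.lf (nat_lit 0) (nat_lit 630374958349) (nat_lit 76) (nat_lit 161291208185) (nat_lit 152) (nat_lit 885877410924) (nat_lit 4) (nat_lit 5) (nat_lit 5) (nat_lit 5) (nat_lit 6) (nat_lit 4) (nat_lit 249) (nat_lit 228) (nat_lit 123))))))) (XT.nd (nat_lit 29952) (nat_lit 0) (nat_lit 380) (XT.nd (nat_lit 390) (nat_lit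 0) (nat_lit 0) (XT.nd (nat_lit 156) (nat_lit 76) (nat_lit 0) (XT.nd (nat_lit 78) (nat_lit 0) (nat_lit 0) (XT.lf (nat_lit 0) (nat_lit 1093055950071) (nat_lit 152) (nat_lit 656287809676) (nat_lit 0) (nat_lit 152046020288) (nat_lit 4) (nat_lit 5) (nat_lit 6) (nat_lit 4) (nat_lit 4) (nat_lit 4) (nat_lit 250) (nat_lit 228) (nat_lit 122)) (XT.lf (nat_lit 0) (nat_lit 1444115083300) (nat_lit 152) (nat_lit 211235850990) (nat_lit 0) (nat_lit 503105108330) (nat_lit 4) (nat_lit 5) (nat_lit 6) (nat_lit 4) (nat_lit 4) (nat_lit 4) (nat_lit 251) (nat_lit 228) (nat_lit 121))) (XT.nd (nat_lit 78) (nat_lit 0) (nat_lit 0) (XT.lf (nat_lit 0) (nat_lit 316401539124) (nat_lit 76) (nat_lit 1539040982544) (nat_lit 76) (nat_lit 598030968281) (nat_lit 3) (nat_lit 4) (nat_lit 4) (nat_lit 5) (nat_lit 4) (nat_lit 4) (nat_lit 252) (nat_lit 228) (nat_lit 120)) (XT.nd (nat_lit 78) (nat_lit 0) (nat_lit 0) (XT.lf (nat_lit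 0) (nat_lit 935976294501) (nat_lit 76) (nat_lit 1398642659115) (nat_lit 76) (nat_lit 457632610684) (nat_lit 3) (nat_lit 4) (nat_lit 4) (nat_lit 5) (nat_lit 4) (nat_lit 4) (nat_lit 253) (nat_lit 228) (nat_lit 119)) (XT.lf (nat_lit 0) (nat_lit 1648487224347) (nat_lit 76) (nat_lit 1237184602792) (nat_lit 76) (nat_lit 296174524649) (nat_lit 3) (nat_lit 4) (nat_lit 4) (nat_lit 5) (nat_lit 4) (nat_lit 4) (nat_lit 254) (nat_lit 228) (nat_lit 118))))) (XT.nd (nat_lit 29328) (nat_lit 0) (nat_lit 1824) (XT.nd (nat_lit 29250) (nat_lit 0) (nat_lit 1824) (XT.lf (nat_lit 0) (nat_lit 2467874759899) (nat_lit 76) (nat_lit 1051507851603) (nat_lit 76) (nat_lit 110497747624) (nat_lit 3) (nat_lit 4) (nat_lit 4) (nat_lit 5) (nat_lit 4) (nat_lit 4) (nat_lit 255) (nat_lit 228) (nat_lit 117)) (XT.lf (nat_lit 0) (nat_lit 50665646489) (nat_lit 0) (nat_lit 50665646489) (nat_lit 380) (nat_lit 17795392446) (nat_lit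 27) (nat_lit 5) (nat_lit 27) (nat_lit 3) (nat_lit 32) (nat_lit 3) (nat_lit 229) (nat_lit 229) (nat_lit 142))) (XT.nd (nat_lit 78) (nat_lit 0) (nat_lit 0) (XT.lf (nat_lit 76) (nat_lit 27830632089) (nat_lit 0) (nat_lit 192296964557) (nat_lit 456) (nat_lit 35813532111) (nat_lit 28) (nat_lit 5) (nat_lit 27) (nat_lit 5) (nat_lit 33) (nat_lit 5) (nat_lit 230) (nat_lit 229) (nat_lit 141)) (XT.nd (nat_lit 78) (nat_lit 0) (nat_lit 76) (XT.lf (nat_lit 76) (nat_lit 222637490884) (nat_lit 0) (nat_lit 24292527016) (nat_lit 456) (nat_lit 28814623221) (nat_lit 28) (nat_lit 5) (nat_lit 27) (nat_lit 5) (nat_lit 33) (nat_lit 5) (nat_lit 231) (nat_lit 229) (nat_lit 140)) (XT.lf (nat_lit 76) (nat_lit 151671370284) (nat_lit 0) (nat_lit 133791223526) (nat_lit 456) (nat_lit 12439306239) (nat_lit 29) (nat_lit 5) (nat_lit 28) (nat_lit 5) (nat_lit 34) (nat_lit 5) (nat_lit 232) (nat_lit 229) (nat_lit 139))))))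 (XT.nd (nat_lit 390) (nat_lit 684) (nat_lit 0) (XT.nd (nat_lit 156) (nat_lit 456) (nat_lit 0) (XT.nd (nat_lit 78) (nat_lit 0) (nat_lit 0) (XT.lf (nat_lit 0) (nat_lit 11444617129) (nat_lit 456) (nat_lit 254745666876) (nat_lit 76) (nat_lit 56750401201) (nat_lit 23) (nat_lit 5) (nat_lit 29) (nat_lit 5) (nat_lit 24) (nat_lit 5) (nat_lit 233) (nat_lit 229) (nat_lit 138)) (XT.lf (nat_lit 0) (nat_lit 46263573129) (nat_lit 456) (nat_lit 31910175656) (nat_lit 76) (nat_lit 272888574370) (nat_lit 23) (nat_lit 5) (nat_lit 29) (nat_lit 5) (nat_lit 24) (nat_lit 5) (nat_lit 234) (nat_lit 229) (nat_lit 137))) (XT.nd (nat_lit 78) (nat_lit 228) (nat_lit 0) (XT.lf (nat_lit 0) (nat_lit 95452466206) (nat_lit 304) (nat_lit 150250993382) (nat_lit 76) (nat_lit 136966981561) (nat_lit 20) (nat_lit 5) (nat_lit 24) (nat_lit 5) (nat_lit 21) (nat_lit 5) (nat_lit 235) (nat_lit 229) (nat_lit 136)) (XT.nd (nat_lit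 78) (nat_lit 0) (nat_lit 0) (XT.lf (nat_lit 0) (nat_lit 123370544470) (nat_lit 228) (nat_lit 34731303880) (nat_lit 304) (nat_lit 260431357685) (nat_lit 17) (nat_lit 5) (nat_lit 20) (nat_lit 5) (nat_lit 21) (nat_lit 5) (nat_lit 236) (nat_lit 229) (nat_lit 135)) (XT.lf (nat_lit 0) (nat_lit 239636188170) (nat_lit 304) (nat_lit 17404846020) (nat_lit 76) (nat_lit 201975348831) (nat_lit 17) (nat_lit 5) (nat_lit 21) (nat_lit 5) (nat_lit 18) (nat_lit 5) (nat_lit 237) (nat_lit 229) (nat_lit 134))))) (XT.nd (nat_lit 156) (nat_lit 380) (nat_lit 0) (XT.nd (nat_lit 78) (nat_lit 152) (nat_lit 0) (XT.lf (nat_lit 0) (nat_lit 316908984186) (nat_lit 152) (nat_lit 25073818620) (nat_lit 228) (nat_lit 162902665055) (nat_lit 15) (nat_lit 5) (nat_lit 17) (nat_lit 5) (nat_lit 18) (nat_lit 5) (nat_lit 238) (nat_lit 229) (nat_lit 133)) (XT.lf (nat_lit 0) (nat_lit 146323258812) (nat_lit 152) (nat_lit 323209613449)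 (nat_lit 228) (nat_lit 87313927209) (nat_lit 13) (nat_lit 5) (nat_lit 15) (nat_lit 5) (nat_lit 16) (nat_lit 5) (nat_lit 239) (nat_lit 229) (nat_lit 132))) (XT.nd (nat_lit 78) (nat_lit 304) (nat_lit 0) (XT.lf (nat_lit 0) (nat_lit 5940730519) (nat_lit 228) (nat_lit 74839727057) (nat_lit 76) (nat_lit 535317957972) (nat_lit 12) (nat_lit 5) (nat_lit 15) (nat_lit 5) (nat_lit 13) (nat_lit 5) (nat_lit 240) (nat_lit 229) (nat_lit 131)) (XT.nd (nat_lit 78) (nat_lit 152) (nat_lit 0) (XT.lf (nat_lit 0) (nat_lit 121005774607) (nat_lit 228) (nat_lit 363405653300) (nat_lit 76) (nat_lit 198605543608) (nat_lit 10) (nat_lit 5) (nat_lit 13) (nat_lit 5) (nat_lit 11) (nat_lit 5) (nat_lit 241) (nat_lit 229) (nat_lit 130)) (XT.lf (nat_lit 0) (nat_lit 16497457342) (nat_lit 152) (nat_lit 241699458989) (nat_lit 228) (nat_lit 501387087907) (nat_lit 8) (nat_lit 5) (nat_lit 10) (nat_lit 5) (nat_lit 11) (nat_lit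 5) (nat_lit 242) (nat_lit 229) (nat_lit 129))))))))
noncomputable def xc58 : XT := (XT.nd (nat_lit 30732) (nat_lit 0) (nat_lit 0) (XT.nd (nat_lit 702) (nat_lit 76) (nat_lit 0) (XT.nd (nat_lit 312) (nat_lit 228) (nat_lit 0) (XT.nd (nat_lit 156) (nat_lit 0) (nat_lit 0) (XT.nd (nat_lit 78) (nat_lit 76) (nat_lit 0) (XT.lf (nat_lit 0) (nat_lit 427721562782) (nat_lit 228) (nat_lit 372571758852) (nat_lit 76) (nat_lit 46402384116) (nat_lit 8) (nat_lit 5) (nat_lit 11) (nat_lit 5) (nat_lit 9) (nat_lit 4) (nat_lit 243) (nat_lit 229) (nat_lit 128)) (XT.lf (nat_lit 0) (nat_lit 49301606189) (nat_lit 76) (nat_lit 581243748398) (nat_lit 152) (nat_lit 315699172516) (nat_lit 7) (nat_lit 5) (nat_lit 8) (nat_lit 5) (nat_lit 9) (nat_lit 4) (nat_lit 244) (nat_lit 229) (nat_lit 127))) (XT.nd (nat_lit 78) (nat_lit 0) (nat_lit 0) (XT.lf (nat_lit 0) (nat_lit 557017700360) (nat_lit 76) (nat_lit 317621981237)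 (nat_lit 152) (nat_lit 185218233168) (nat_lit 7) (nat_lit 5) (nat_lit 8) (nat_lit 5) (nat_lit 9) (nat_lit 4) (nat_lit 245) (nat_lit 229) (nat_lit 126)) (XT.lf (nat_lit 0) (nat_lit 1140891130850) (nat_lit 76) (nat_lit 14456975110) (nat_lit 152) (nat_lit 35165209121) (nat_lit 7) (nat_lit 5) (nat_lit 8) (nat_lit 5) (nat_lit 9) (nat_lit 4) (nat_lit 246) (nat_lit 229) (nat_lit 125)))) (XT.nd (nat_lit 156) (nat_lit 76) (nat_lit 0) (XT.nd (nat_lit 78) (nat_lit 0) (nat_lit 0) (XT.lf (nat_lit 0) (nat_lit 150808524362) (nat_lit 152) (nat_lit 855052537574) (nat_lit 76) (nat_lit 333018746190) (nat_lit 5) (nat_lit 5) (nat_lit 7) (nat_lit 5) (nat_lit 6) (nat_lit 4) (nat_lit 247) (nat_lit 229) (nat_lit 124)) (XT.lf (nat_lit 0) (nat_lit 364537368575) (nat_lit 152) (nat_lit 410496606153) (nat_lit 76) (nat_lit 734238932213) (nat_lit 5) (nat_lit 5) (nat_lit 7) (nat_lit 5) (nat_lit 6) (nat_lit 4) (nat_lit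 248) (nat_lit 229) (nat_lit 123))) (XT.nd (nat_lit 78) (nat_lit 0) (nat_lit 0) (XT.lf (nat_lit 0) (nat_lit 106047586025) (nat_lit 76) (nat_lit 506828363463) (nat_lit 152) (nat_lit 1092144988507) (nat_lit 4) (nat_lit 5) (nat_lit 5) (nat_lit 5) (nat_lit 6) (nat_lit 4) (nat_lit 249) (nat_lit 229) (nat_lit 122)) (XT.nd (nat_lit 78) (nat_lit 0) (nat_lit 0) (XT.lf (nat_lit 0) (nat_lit 724931780686) (nat_lit 76) (nat_lit 185484670467) (nat_lit 152) (nat_lit 1018758632059) (nat_lit 4) (nat_lit 5) (nat_lit 5) (nat_lit 5) (nat_lit 6) (nat_lit 4) (nat_lit 250) (nat_lit 229) (nat_lit 121)) (XT.lf (nat_lit 0) (nat_lit 1257014659891) (nat_lit 152) (nat_lit 754730455750) (nat_lit 0) (nat_lit 174853104195) (nat_lit 4) (nat_lit 5) (nat_lit 6) (nat_lit 4) (nat_lit 4) (nat_lit 4) (nat_lit 251) (nat_lit 229) (nat_lit 120)))))) (XT.nd (nat_lit 29640) (nat_lit 0) (nat_lit 1520) (XT.nd (nat_lit 156) (nat_lit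 0) (nat_lit 0) (XT.nd (nat_lit 78) (nat_lit 76) (nat_lit 0) (XT.lf (nat_lit 0) (nat_lit 1660732621716) (nat_lit 152) (nat_lit 242920771790) (nat_lit 0) (nat_lit 578571031852) (nat_lit 4) (nat_lit 5) (nat_lit 6) (nat_lit 4) (nat_lit 4) (nat_lit 4) (nat_lit 252) (nat_lit 229) (nat_lit 119)) (XT.lf (nat_lit 0) (nat_lit 363862188172) (nat_lit 76) (nat_lit 1769896961736) (nat_lit 76) (nat_lit 687735342160) (nat_lit 3) (nat_lit 4) (nat_lit 4) (nat_lit 5) (nat_lit 4) (nat_lit 4) (nat_lit 253) (nat_lit 229) (nat_lit 118))) (XT.nd (nat_lit 78) (nat_lit 0) (nat_lit 0) (XT.lf (nat_lit 0) (nat_lit 1076373102311) (nat_lit 76) (nat_lit 1608438911730) (nat_lit 76) (nat_lit 526277266318) (nat_lit 3) (nat_lit 4) (nat_lit 4) (nat_lit 5) (nat_lit 4) (nat_lit 4) (nat_lit 254) (nat_lit 229) (nat_lit 117)) (XT.nd (nat_lit 29328) (nat_lit 0) (nat_lit 1824) (XT.lf (nat_lit 0) (nat_lit 1895760624203) (nat_lit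 76) (nat_lit 1422762166035) (nat_lit 76) (nat_lit 340600498157) (nat_lit 3) (nat_lit 4) (nat_lit 4) (nat_lit 5) (nat_lit 4) (nat_lit 4) (nat_lit 255) (nat_lit 229) (nat_lit 116)) (XT.lf (nat_lit 0) (nat_lit 58266303332) (nat_lit 0) (nat_lit 58266303332) (nat_lit 380) (nat_lit 20462933240) (nat_lit 27) (nat_lit 5) (nat_lit 27) (nat_lit 3) (nat_lit 32) (nat_lit 3) (nat_lit 230) (nat_lit 230) (nat_lit 140))))) (XT.nd (nat_lit 156) (nat_lit 304) (nat_lit 0) (XT.nd (nat_lit 78) (nat_lit 0) (nat_lit 0) (XT.lf (nat_lit 76) (nat_lit 32007016751) (nat_lit 0) (nat_lit 221142545502) (nat_lit 456) (nat_lit 41182477114) (nat_lit 28) (nat_lit 5) (nat_lit 27) (nat_lit 5) (nat_lit 33) (nat_lit 5) (nat_lit 231) (nat_lit 230) (nat_lit 139)) (XT.lf (nat_lit 76) (nat_lit 256034670907) (nat_lit 0) (nat_lit 27937307165) (nat_lit 456) (nat_lit 33134134257) (nat_lit 28) (nat_lit 5) (nat_lit 27) (nat_lit 5)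 (nat_lit 33) (nat_lit 5) (nat_lit 232) (nat_lit 230) (nat_lit 138))) (XT.nd (nat_lit 78) (nat_lit 380) (nat_lit 0) (XT.lf (nat_lit 76) (nat_lit 174423726232) (nat_lit 0) (nat_lit 153860414442) (nat_lit 456) (nat_lit 14302847097) (nat_lit 29) (nat_lit 5) (nat_lit 28) (nat_lit 5) (nat_lit 34) (nat_lit 5) (nat_lit 233) (nat_lit 230) (nat_lit 137)) (XT.nd (nat_lit 78) (nat_lit 0) (nat_lit 0) (XT.lf (nat_lit 0) (nat_lit 13163286269) (nat_lit 456) (nat_lit 292955690504) (nat_lit 76) (nat_lit 65262633230) (nat_lit 23) (nat_lit 5) (nat_lit 29) (nat_lit 5) (nat_lit 24) (nat_lit 5) (nat_lit 234) (nat_lit 230) (nat_lit 136)) (XT.lf (nat_lit 0) (nat_lit 53204827856) (nat_lit 456) (nat_lit 36695113829) (nat_lit 76) (nat_lit 313821575177) (nat_lit 23) (nat_lit 5) (nat_lit 29) (nat_lit 5) (nat_lit 24) (nat_lit 5) (nat_lit 235) (nat_lit 230) (nat_lit 135))))))) (XT.nd (nat_lit 780) (nat_lit 304) (nat_lit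 0) (XT.nd (nat_lit 390) (nat_lit 456) (nat_lit 0) (XT.nd (nat_lit 156) (nat_lit 304) (nat_lit 0) (XT.nd (nat_lit 78) (nat_lit 228) (nat_lit 0) (XT.lf (nat_lit 0) (nat_lit 109771863848) (nat_lit 304) (nat_lit 172787049444) (nat_lit 76) (nat_lit 157511956797) (nat_lit 20) (nat_lit 5) (nat_lit 24) (nat_lit 5) (nat_lit 21) (nat_lit 5) (nat_lit 236) (nat_lit 230) (nat_lit 134)) (XT.lf (nat_lit 0) (nat_lit 141877584251) (nat_lit 228) (nat_lit 39940904864) (nat_lit 304) (nat_lit 299494575688) (nat_lit 17) (nat_lit 5) (nat_lit 20) (nat_lit 5) (nat_lit 21) (nat_lit 5) (nat_lit 237) (nat_lit 230) (nat_lit 133))) (XT.nd (nat_lit 78) (nat_lit 304) (nat_lit 0) (XT.lf (nat_lit 0) (nat_lit 275582804037) (nat_lit 304) (nat_lit 20014200773) (nat_lit 76) (nat_lit 232271729300) (nat_lit 17) (nat_lit 5) (nat_lit 21) (nat_lit 5) (nat_lit 18) (nat_lit 5) (nat_lit 238) (nat_lit 230) (nat_lit 132)) (XT.nd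 (nat_lit 78) (nat_lit 152) (nat_lit 0) (XT.lf (nat_lit 0) (nat_lit 364446587818) (nat_lit 152) (nat_lit 28834698348) (nat_lit 228) (nat_lit 187336906967) (nat_lit 15) (nat_lit 5) (nat_lit 17) (nat_lit 5) (nat_lit 18) (nat_lit 5) (nat_lit 239) (nat_lit 230) (nat_lit 131)) (XT.lf (nat_lit 0) (nat_lit 168272979948) (nat_lit 152) (nat_lit 371690781121) (nat_lit 228) (nat_lit 100409973100) (nat_lit 13) (nat_lit 5) (nat_lit 15) (nat_lit 5) (nat_lit 16) (nat_lit 5) (nat_lit 240) (nat_lit 230) (nat_lit 130))))) (XT.nd (nat_lit 156) (nat_lit 228) (nat_lit 0) (XT.nd (nat_lit 78) (nat_lit 152) (nat_lit 0) (XT.lf (nat_lit 0) (nat_lit 6832701842) (nat_lit 228) (nat_lit 86064562249) (nat_lit 76) (nat_lit 615615837938) (nat_lit 12) (nat_lit 5) (nat_lit 15) (nat_lit 5) (nat_lit 13) (nat_lit 5) (nat_lit 241) (nat_lit 230) (nat_lit 129)) (XT.lf (nat_lit 0) (nat_lit 139157421008) (nat_lit 228) (nat_lit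 417915410745) (nat_lit 76) (nat_lit 228396617064) (nat_lit 10) (nat_lit 5) (nat_lit 13) (nat_lit 5) (nat_lit 11) (nat_lit 5) (nat_lit 242) (nat_lit 230) (nat_lit 128))) (XT.nd (nat_lit 78) (nat_lit 76) (nat_lit 0) (XT.lf (nat_lit 0) (nat_lit 18973074184) (nat_lit 152) (nat_lit 277954082047) (nat_lit 228) (nat_lit 576594387220) (nat_lit 8) (nat_lit 5) (nat_lit 10) (nat_lit 5) (nat_lit 11) (nat_lit 5) (nat_lit 243) (nat_lit 230) (nat_lit 127)) (XT.nd (nat_lit 78) (nat_lit 76) (nat_lit 0) (XT.lf (nat_lit 0) (nat_lit 491880414212) (nat_lit 228) (nat_lit 428456607419) (nat_lit 76) (nat_lit 53362986076) (nat_lit 8) (nat_lit 5) (nat_lit 11) (nat_lit 5) (nat_lit 9) (nat_lit 4) (nat_lit 244) (nat_lit 230) (nat_lit 126)) (XT.lf (nat_lit 0) (nat_lit 56697684905) (nat_lit 76) (nat_lit 668430029551) (nat_lit 152) (nat_lit 363053443226) (nat_lit 7) (nat_lit 5) (nat_lit 8) (nat_lit 5) (nat_lit 9)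 (nat_lit 4) (nat_lit 245) (nat_lit 230) (nat_lit 125)))))) (XT.nd (nat_lit 390) (nat_lit 76) (nat_lit 0) (XT.nd (nat_lit 156) (nat_lit 228) (nat_lit 0) (XT.nd (nat_lit 78) (nat_lit 0) (nat_lit 0) (XT.lf (nat_lit 0) (nat_lit 640571083926) (nat_lit 76) (nat_lit 365265033982) (nat_lit 152) (nat_lit 213000441910) (nat_lit 7) (nat_lit 5) (nat_lit 8) (nat_lit 5) (nat_lit 9) (nat_lit 4) (nat_lit 246) (nat_lit 230) (nat_lit 124)) (XT.lf (nat_lit 0) (nat_lit 1312025433966) (nat_lit 76) (nat_lit 16625308820) (nat_lit 152) (nat_lit 40439532896) (nat_lit 7) (nat_lit 5) (nat_lit 8) (nat_lit 5) (nat_lit 9) (nat_lit 4) (nat_lit 247) (nat_lit 230) (nat_lit 123))) (XT.nd (nat_lit 78) (nat_lit 76) (nat_lit 0) (XT.lf (nat_lit 0) (nat_lit 173430200600) (nat_lit 152) (nat_lit 983309786122) (nat_lit 76) (nat_lit 382971758411) (nat_lit 5) (nat_lit 5) (nat_lit 7) (nat_lit 5) (nat_lit 6) (nat_lit 4) (nat_lit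 248) (nat_lit 230) (nat_lit 122)) (XT.nd (nat_lit 78) (nat_lit 76) (nat_lit 0) (XT.lf (nat_lit 0) (nat_lit 419218319586) (nat_lit 152) (nat_lit 472070547434) (nat_lit 76) (nat_lit 844374946212) (nat_lit 5) (nat_lit 5) (nat_lit 7) (nat_lit 5) (nat_lit 6) (nat_lit 4) (nat_lit 249) (nat_lit 230) (nat_lit 121)) (XT.lf (nat_lit 0) (nat_lit 121955227047) (nat_lit 76) (nat_lit 582852427596) (nat_lit 152) (nat_lit 1255966397214) (nat_lit 4) (nat_lit 5) (nat_lit 5) (nat_lit 5) (nat_lit 6) (nat_lit 4) (nat_lit 250) (nat_lit 230) (nat_lit 120))))) (XT.nd (nat_lit 156) (nat_lit 76) (nat_lit 0) (XT.nd (nat_lit 78) (nat_lit 0) (nat_lit 0) (XT.lf (nat_lit 0) (nat_lit 833671985283) (nat_lit 76) (nat_lit 213307205483) (nat_lit 152) (nat_lit 1171572131591) (nat_lit 4) (nat_lit 5) (nat_lit 5) (nat_lit 5) (nat_lit 6) (nat_lit 4) (nat_lit 251) (nat_lit 230) (nat_lit 119)) (XT.lf (nat_lit 0) (nat_lit 1445567098806)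 (nat_lit 152) (nat_lit 867939626853) (nat_lit 0) (nat_lit 201081206583) (nat_lit 4) (nat_lit 5) (nat_lit 6) (nat_lit 4) (nat_lit 4) (nat_lit 4) (nat_lit 252) (nat_lit 230) (nat_lit 118))) (XT.nd (nat_lit 78) (nat_lit 76) (nat_lit 0) (XT.lf (nat_lit 0) (nat_lit 1909842723610) (nat_lit 152) (nat_lit 279358542114) (nat_lit 0) (nat_lit 665356805550) (nat_lit 4) (nat_lit 5) (nat_lit 6) (nat_lit 4) (nat_lit 4) (nat_lit 4) (nat_lit 253) (nat_lit 230) (nat_lit 117)) (XT.nd (nat_lit 29484) (nat_lit 0) (nat_lit 1824) (XT.lf (nat_lit 0) (nat_lit 418441832602) (nat_lit 76) (nat_lit 2035381378820) (nat_lit 76) (nat_lit 790895438295) (nat_lit 3) (nat_lit 4) (nat_lit 4) (nat_lit 5) (nat_lit 4) (nat_lit 4) (nat_lit 254) (nat_lit 230) (nat_lit 116)) (XT.lf (nat_lit 0) (nat_lit 67006861209) (nat_lit 0) (nat_lit 67006861209) (nat_lit 380) (nat_lit 23531036310) (nat_lit 27) (nat_lit 5) (nat_lit 27) (nat_lit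 3) (nat_lit 32) (nat_lit 3) (nat_lit 231) (nat_lit 231) (nat_lit 138))))))))
noncomputable def xc59 : XT := (XT.nd (nat_lit 1560) (nat_lit 0) (nat_lit 0) (XT.nd (nat_lit 780) (nat_lit 684) (nat_lit 0) (XT.nd (nat_lit 390) (nat_lit 760) (nat_lit 0) (XT.nd (nat_lit 156) (nat_lit 304) (nat_lit 0) (XT.nd (nat_lit 78) (nat_lit 0) (nat_lit 0) (XT.lf (nat_lit 76) (nat_lit 36809422647) (nat_lit 0) (nat_lit 254314710889) (nat_lit 456) (nat_lit 47357516118) (nat_lit 28) (nat_lit 5) (nat_lit 27) (nat_lit 5) (nat_lit 33) (nat_lit 5) (nat_lit 232) (nat_lit 231) (nat_lit 137)) (XT.lf (nat_lit 76) (nat_lit 294441048397) (nat_lit 0) (nat_lit 32128584598) (nat_lit 456) (nat_lit 38102226080) (nat_lit 28) (nat_lit 5) (nat_lit 27) (nat_lit 5) (nat_lit 33) (nat_lit 5) (nat_lit 233) (nat_lit 231) (nat_lit 136))) (XT.nd (nat_lit 78) (nat_lit 380) (nat_lit 0) (XT.lf (nat_lit 76) (nat_lit 200588533111) (nat_lit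 0) (nat_lit 176939860266) (nat_lit 456) (nat_lit 16446493385) (nat_lit 29) (nat_lit 5) (nat_lit 28) (nat_lit 5) (nat_lit 34) (nat_lit 5) (nat_lit 234) (nat_lit 231) (nat_lit 135)) (XT.nd (nat_lit 78) (nat_lit 0) (nat_lit 0) (XT.lf (nat_lit 0) (nat_lit 15139273781) (nat_lit 456) (nat_lit 336897663057) (nat_lit 76) (nat_lit 75051780085) (nat_lit 23) (nat_lit 5) (nat_lit 29) (nat_lit 5) (nat_lit 24) (nat_lit 5) (nat_lit 235) (nat_lit 231) (nat_lit 134)) (XT.lf (nat_lit 0) (nat_lit 61186851662) (nat_lit 456) (nat_lit 42198180014) (nat_lit 76) (nat_lit 360894595688) (nat_lit 23) (nat_lit 5) (nat_lit 29) (nat_lit 5) (nat_lit 24) (nat_lit 5) (nat_lit 236) (nat_lit 231) (nat_lit 133))))) (XT.nd (nat_lit 156) (nat_lit 304) (nat_lit 0) (XT.nd (nat_lit 78) (nat_lit 228) (nat_lit 0) (XT.lf (nat_lit 0) (nat_lit 126238798595) (nat_lit 304) (nat_lit 198703902365) (nat_lit 76) (nat_lit 181138695876)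 (nat_lit 20) (nat_lit 5) (nat_lit 24) (nat_lit 5) (nat_lit 21) (nat_lit 5) (nat_lit 237) (nat_lit 231) (nat_lit 132)) (XT.lf (nat_lit 0) (nat_lit 163160324430) (nat_lit 228) (nat_lit 45931969065) (nat_lit 304) (nat_lit 344417638677) (nat_lit 17) (nat_lit 5) (nat_lit 20) (nat_lit 5) (nat_lit 21) (nat_lit 5) (nat_lit 238) (nat_lit 231) (nat_lit 131))) (XT.nd (nat_lit 78) (nat_lit 304) (nat_lit 0) (XT.lf (nat_lit 0) (nat_lit 316921122670) (nat_lit 304) (nat_lit 23015293347) (nat_lit 76) (nat_lit 267112547783) (nat_lit 17) (nat_lit 5) (nat_lit 21) (nat_lit 5) (nat_lit 18) (nat_lit 5) (nat_lit 239) (nat_lit 231) (nat_lit 130)) (XT.nd (nat_lit 78) (nat_lit 152) (nat_lit 0) (XT.lf (nat_lit 0) (nat_lit 419114525711) (nat_lit 152) (nat_lit 33159757114) (nat_lit 228) (nat_lit 215436567514) (nat_lit 15) (nat_lit 5) (nat_lit 17) (nat_lit 5) (nat_lit 18) (nat_lit 5) (nat_lit 240) (nat_lit 231) (nat_lit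 129)) (XT.lf (nat_lit 0) (nat_lit 193514858747) (nat_lit 152) (nat_lit 427444190846) (nat_lit 228) (nat_lit 115470680262) (nat_lit 13) (nat_lit 5) (nat_lit 15) (nat_lit 5) (nat_lit 16) (nat_lit 5) (nat_lit 241) (nat_lit 231) (nat_lit 128)))))) (XT.nd (nat_lit 390) (nat_lit 228) (nat_lit 0) (XT.nd (nat_lit 156) (nat_lit 228) (nat_lit 0) (XT.nd (nat_lit 78) (nat_lit 152) (nat_lit 0) (XT.lf (nat_lit 0) (nat_lit 7858258722) (nat_lit 228) (nat_lit 98973396781) (nat_lit 76) (nat_lit 707958354476) (nat_lit 12) (nat_lit 5) (nat_lit 15) (nat_lit 5) (nat_lit 13) (nat_lit 5) (nat_lit 242) (nat_lit 231) (nat_lit 127)) (XT.lf (nat_lit 0) (nat_lit 160031624109) (nat_lit 228) (nat_lit 480601897744) (nat_lit 76) (nat_lit 262656292545) (nat_lit 10) (nat_lit 5) (nat_lit 13) (nat_lit 5) (nat_lit 11) (nat_lit 5) (nat_lit 243) (nat_lit 231) (nat_lit 126))) (XT.nd (nat_lit 78) (nat_lit 76) (nat_lit 0) (XT.lf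 (nat_lit 0) (nat_lit 21819790125) (nat_lit 152) (nat_lit 319646970695) (nat_lit 228) (nat_lit 663082967706) (nat_lit 8) (nat_lit 5) (nat_lit 10) (nat_lit 5) (nat_lit 11) (nat_lit 5) (nat_lit 244) (nat_lit 231) (nat_lit 125)) (XT.nd (nat_lit 78) (nat_lit 76) (nat_lit 0) (XT.lf (nat_lit 0) (nat_lit 565662942893) (nat_lit 228) (nat_lit 492724406464) (nat_lit 76) (nat_lit 61367618745) (nat_lit 8) (nat_lit 5) (nat_lit 11) (nat_lit 5) (nat_lit 9) (nat_lit 4) (nat_lit 245) (nat_lit 231) (nat_lit 124)) (XT.lf (nat_lit 0) (nat_lit 65202971129) (nat_lit 76) (nat_lit 768694321426) (nat_lit 152) (nat_lit 417511002116) (nat_lit 7) (nat_lit 5) (nat_lit 8) (nat_lit 5) (nat_lit 9) (nat_lit 4) (nat_lit 246) (nat_lit 231) (nat_lit 123))))) (XT.nd (nat_lit 156) (nat_lit 228) (nat_lit 0) (XT.nd (nat_lit 78) (nat_lit 0) (nat_lit 0) (XT.lf (nat_lit 0) (nat_lit 736657297374) (nat_lit 76) (nat_lit 420054604248)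 (nat_lit 152) (nat_lit 244950110290) (nat_lit 7) (nat_lit 5) (nat_lit 8) (nat_lit 5) (nat_lit 9) (nat_lit 4) (nat_lit 247) (nat_lit 231) (nat_lit 122)) (XT.lf (nat_lit 0) (nat_lit 1508829728069) (nat_lit 76) (nat_lit 19118944419) (nat_lit 152) (nat_lit 46505116824) (nat_lit 7) (nat_lit 5) (nat_lit 8) (nat_lit 5) (nat_lit 9) (nat_lit 4) (nat_lit 248) (nat_lit 231) (nat_lit 121))) (XT.nd (nat_lit 78) (nat_lit 76) (nat_lit 0) (XT.lf (nat_lit 0) (nat_lit 199445031321) (nat_lit 152) (nat_lit 1130805776090) (nat_lit 76) (nat_lit 440417673622) (nat_lit 5) (nat_lit 5) (nat_lit 7) (nat_lit 5) (nat_lit 6) (nat_lit 4) (nat_lit 249) (nat_lit 231) (nat_lit 120)) (XT.nd (nat_lit 78) (nat_lit 76) (nat_lit 0) (XT.lf (nat_lit 0) (nat_lit 482101328942) (nat_lit 152) (nat_lit 542880713940) (nat_lit 76) (nat_lit 971031319839) (nat_lit 5) (nat_lit 5) (nat_lit 7) (nat_lit 5) (nat_lit 6) (nat_lit 4) (nat_lit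 250) (nat_lit 231) (nat_lit 119)) (XT.lf (nat_lit 0) (nat_lit 140248891533) (nat_lit 76) (nat_lit 670280147775) (nat_lit 152) (nat_lit 1444361100034) (nat_lit 4) (nat_lit 5) (nat_lit 5) (nat_lit 5) (nat_lit 6) (nat_lit 4) (nat_lit 251) (nat_lit 231) (nat_lit 118))))))) (XT.nd (nat_lit 30264) (nat_lit 0) (nat_lit 228) (XT.nd (nat_lit 29874) (nat_lit 0) (nat_lit 1216) (XT.nd (nat_lit 156) (nat_lit 0) (nat_lit 0) (XT.nd (nat_lit 78) (nat_lit 0) (nat_lit 0) (XT.lf (nat_lit 0) (nat_lit 958723113884) (nat_lit 76) (nat_lit 245303161123) (nat_lit 152) (nat_lit 1347307728058) (nat_lit 4) (nat_lit 5) (nat_lit 5) (nat_lit 5) (nat_lit 6) (nat_lit 4) (nat_lit 252) (nat_lit 231) (nat_lit 117)) (XT.lf (nat_lit 0) (nat_lit 1662402345050) (nat_lit 152) (nat_lit 998130270495) (nat_lit 0) (nat_lit 231243490980) (nat_lit 4) (nat_lit 5) (nat_lit 6) (nat_lit 4) (nat_lit 4) (nat_lit 4) (nat_lit 253) (nat_lit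 231) (nat_lit 116))) (XT.nd (nat_lit 29562) (nat_lit 0) (nat_lit 1748) (XT.lf (nat_lit 0) (nat_lit 2196319289910) (nat_lit 152) (nat_lit 321262062227) (nat_lit 0) (nat_lit 765160416304) (nat_lit 4) (nat_lit 5) (nat_lit 6) (nat_lit 4) (nat_lit 4) (nat_lit 4) (nat_lit 254) (nat_lit 231) (nat_lit 115)) (XT.nd (nat_lit 78) (nat_lit 0) (nat_lit 0) (XT.lf (nat_lit 0) (nat_lit 77058353436) (nat_lit 0) (nat_lit 77058353436) (nat_lit 380) (nat_lit 27059680855) (nat_lit 27) (nat_lit 5) (nat_lit 27) (nat_lit 3) (nat_lit 32) (nat_lit 3) (nat_lit 232) (nat_lit 232) (nat_lit 136)) (XT.lf (nat_lit 76) (nat_lit 42331859396) (nat_lit 0) (nat_lit 292462510008) (nat_lit 456) (nat_lit 54459379784) (nat_lit 28) (nat_lit 5) (nat_lit 27) (nat_lit 5) (nat_lit 33) (nat_lit 5) (nat_lit 233) (nat_lit 232) (nat_lit 135))))) (XT.nd (nat_lit 156) (nat_lit 532) (nat_lit 0) (XT.nd (nat_lit 78) (nat_lit 0) (nat_lit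 76) (XT.lf (nat_lit 76) (nat_lit 338608095528) (nat_lit 0) (nat_lit 36948387493) (nat_lit 456) (nat_lit 43816026294) (nat_lit 28) (nat_lit 5) (nat_lit 27) (nat_lit 5) (nat_lit 33) (nat_lit 5) (nat_lit 234) (nat_lit 232) (nat_lit 134)) (XT.lf (nat_lit 76) (nat_lit 230677756702) (nat_lit 0) (nat_lit 203481129406) (nat_lit 456) (nat_lit 18912120869) (nat_lit 29) (nat_lit 5) (nat_lit 28) (nat_lit 5) (nat_lit 34) (nat_lit 5) (nat_lit 235) (nat_lit 232) (nat_lit 133))) (XT.nd (nat_lit 78) (nat_lit 228) (nat_lit 0) (XT.lf (nat_lit 0) (nat_lit 17411294960) (nat_lit 456) (nat_lit 387431268264) (nat_lit 76) (nat_lit 86309359476) (nat_lit 23) (nat_lit 5) (nat_lit 29) (nat_lit 5) (nat_lit 24) (nat_lit 5) (nat_lit 236) (nat_lit 232) (nat_lit 132)) (XT.nd (nat_lit 78) (nat_lit 228) (nat_lit 0) (XT.lf (nat_lit 0) (nat_lit 70365862117) (nat_lit 456) (nat_lit 48526998971) (nat_lit 76) (nat_lit 415028621893)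 (nat_lit 23) (nat_lit 5) (nat_lit 29) (nat_lit 5) (nat_lit 24) (nat_lit 5) (nat_lit 237) (nat_lit 232) (nat_lit 131)) (XT.lf (nat_lit 0) (nat_lit 145175491859) (nat_lit 304) (nat_lit 228508576948) (nat_lit 76) (nat_lit 208309459092) (nat_lit 20) (nat_lit 5) (nat_lit 24) (nat_lit 5) (nat_lit 21) (nat_lit 5) (nat_lit 238) (nat_lit 232) (nat_lit 130)))))) (XT.nd (nat_lit 390) (nat_lit 380) (nat_lit 0) (XT.nd (nat_lit 156) (nat_lit 380) (nat_lit 0) (XT.nd (nat_lit 78) (nat_lit 0) (nat_lit 0) (XT.lf (nat_lit 0) (nat_lit 187635206773) (nat_lit 228) (nat_lit 52821710338) (nat_lit 304) (nat_lit 396079435053) (nat_lit 17) (nat_lit 5) (nat_lit 20) (nat_lit 5) (nat_lit 21) (nat_lit 5) (nat_lit 239) (nat_lit 232) (nat_lit 129)) (XT.lf (nat_lit 0) (nat_lit 364459970108) (nat_lit 304) (nat_lit 26466802818) (nat_lit 76) (nat_lit 307179474630) (nat_lit 17) (nat_lit 5) (nat_lit 21) (nat_lit 5) (nat_lit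 18) (nat_lit 5) (nat_lit 240) (nat_lit 232) (nat_lit 128))) (XT.nd (nat_lit 78) (nat_lit 228) (nat_lit 0) (XT.lf (nat_lit 0) (nat_lit 481982422692) (nat_lit 152) (nat_lit 38133610296) (nat_lit 228) (nat_lit 247751390639) (nat_lit 15) (nat_lit 5) (nat_lit 17) (nat_lit 5) (nat_lit 18) (nat_lit 5) (nat_lit 241) (nat_lit 232) (nat_lit 127)) (XT.nd (nat_lit 78) (nat_lit 76) (nat_lit 0) (XT.lf (nat_lit 0) (nat_lit 222542792138) (nat_lit 152) (nat_lit 491560662615) (nat_lit 228) (nat_lit 132790685853) (nat_lit 13) (nat_lit 5) (nat_lit 15) (nat_lit 5) (nat_lit 16) (nat_lit 5) (nat_lit 242) (nat_lit 232) (nat_lit 126)) (XT.lf (nat_lit 0) (nat_lit 9037490236) (nat_lit 228) (nat_lit 113818763724) (nat_lit 76) (nat_lit 814152214149) (nat_lit 12) (nat_lit 5) (nat_lit 15) (nat_lit 5) (nat_lit 13) (nat_lit 5) (nat_lit 243) (nat_lit 232) (nat_lit 125))))) (XT.nd (nat_lit 156) (nat_lit 76) (nat_lit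 0) (XT.nd (nat_lit 78) (nat_lit 152) (nat_lit 0) (XT.lf (nat_lit 0) (nat_lit 184036813812) (nat_lit 228) (nat_lit 552691558880) (nat_lit 76) (nat_lit 302054874742) (nat_lit 10) (nat_lit 5) (nat_lit 13) (nat_lit 5) (nat_lit 11) (nat_lit 5) (nat_lit 244) (nat_lit 232) (nat_lit 124)) (XT.lf (nat_lit 0) (nat_lit 25093329391) (nat_lit 152) (nat_lit 367593847180) (nat_lit 228) (nat_lit 762544976115) (nat_lit 8) (nat_lit 5) (nat_lit 10) (nat_lit 5) (nat_lit 11) (nat_lit 5) (nat_lit 245) (nat_lit 232) (nat_lit 123))) (XT.nd (nat_lit 78) (nat_lit 76) (nat_lit 0) (XT.lf (nat_lit 0) (nat_lit 650512737106) (nat_lit 228) (nat_lit 566632544131) (nat_lit 76) (nat_lit 70572901261) (nat_lit 8) (nat_lit 5) (nat_lit 11) (nat_lit 5) (nat_lit 9) (nat_lit 4) (nat_lit 246) (nat_lit 232) (nat_lit 122)) (XT.nd (nat_lit 78) (nat_lit 0) (nat_lit 0) (XT.lf (nat_lit 0) (nat_lit 74983895807) (nat_lit 76) (nat_lit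 883998308917) (nat_lit 152) (nat_lit 480137306427) (nat_lit 7) (nat_lit 5) (nat_lit 8) (nat_lit 5) (nat_lit 9) (nat_lit 4) (nat_lit 247) (nat_lit 232) (nat_lit 121)) (XT.lf (nat_lit 0) (nat_lit 847156308509) (nat_lit 76) (nat_lit 483062655125) (nat_lit 152) (nat_lit 281692325958) (nat_lit 7) (nat_lit 5) (nat_lit 8) (nat_lit 5) (nat_lit 9) (nat_lit 4) (nat_lit 248) (nat_lit 232) (nat_lit 120))))))))
noncomputable def xc60 : XT := (XT.nd (nat_lit 31122) (nat_lit 0) (nat_lit 0) (XT.nd (nat_lit 30342) (nat_lit 0) (nat_lit 304) (XT.nd (nat_lit 312) (nat_lit 0) (nat_lit 0) (XT.nd (nat_lit 156) (nat_lit 76) (nat_lit 0) (XT.nd (nat_lit 78) (nat_lit 152) (nat_lit 0) (XT.lf (nat_lit 0) (nat_lit 1735154549478) (nat_lit 76) (nat_lit 21986664552) (nat_lit 152) (nat_lit 53480622716) (nat_lit 7) (nat_lit 5) (nat_lit 8) (nat_lit 5) (nat_lit 9) (nat_lit 4) (nat_lit 249) (nat_lit 232) (nat_lit 119))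 (XT.lf (nat_lit 0) (nat_lit 229362013339) (nat_lit 152) (nat_lit 1300426281105) (nat_lit 76) (nat_lit 506480439183) (nat_lit 5) (nat_lit 5) (nat_lit 7) (nat_lit 5) (nat_lit 6) (nat_lit 4) (nat_lit 250) (nat_lit 232) (nat_lit 118))) (XT.nd (nat_lit 78) (nat_lit 76) (nat_lit 0) (XT.lf (nat_lit 0) (nat_lit 554416725953) (nat_lit 152) (nat_lit 624312506772) (nat_lit 76) (nat_lit 1116686117396) (nat_lit 5) (nat_lit 5) (nat_lit 7) (nat_lit 5) (nat_lit 6) (nat_lit 4) (nat_lit 251) (nat_lit 232) (nat_lit 117)) (XT.lf (nat_lit 0) (nat_lit 161286512922) (nat_lit 76) (nat_lit 770822061087) (nat_lit 152) (nat_lit 1661015070890) (nat_lit 4) (nat_lit 5) (nat_lit 5) (nat_lit 5) (nat_lit 6) (nat_lit 4) (nat_lit 252) (nat_lit 232) (nat_lit 116)))) (XT.nd (nat_lit 29796) (nat_lit 0) (nat_lit 1748) (XT.nd (nat_lit 29718) (nat_lit 0) (nat_lit 1748) (XT.lf (nat_lit 0) (nat_lit 1102531831105) (nat_lit 76)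 (nat_lit 282098540635) (nat_lit 152) (nat_lit 1549403718441) (nat_lit 4) (nat_lit 5) (nat_lit 5) (nat_lit 5) (nat_lit 6) (nat_lit 4) (nat_lit 253) (nat_lit 232) (nat_lit 115)) (XT.lf (nat_lit 0) (nat_lit 88617456580) (nat_lit 0) (nat_lit 88617456580) (nat_lit 380) (nat_lit 31117868597) (nat_lit 27) (nat_lit 5) (nat_lit 27) (nat_lit 3) (nat_lit 32) (nat_lit 3) (nat_lit 233) (nat_lit 233) (nat_lit 134))) (XT.nd (nat_lit 78) (nat_lit 0) (nat_lit 0) (XT.lf (nat_lit 76) (nat_lit 48682412106) (nat_lit 0) (nat_lit 336332334513) (nat_lit 456) (nat_lit 62626953101) (nat_lit 28) (nat_lit 5) (nat_lit 27) (nat_lit 5) (nat_lit 33) (nat_lit 5) (nat_lit 234) (nat_lit 233) (nat_lit 133)) (XT.nd (nat_lit 78) (nat_lit 0) (nat_lit 76) (XT.lf (nat_lit 76) (nat_lit 389399982728) (nat_lit 0) (nat_lit 42491035186) (nat_lit 456) (nat_lit 50387270542) (nat_lit 28) (nat_lit 5) (nat_lit 27) (nat_lit 5) (nat_lit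 33) (nat_lit 5) (nat_lit 235) (nat_lit 233) (nat_lit 132)) (XT.lf (nat_lit 76) (nat_lit 265280133723) (nat_lit 0) (nat_lit 234003518175) (nat_lit 456) (nat_lit 21747920834) (nat_lit 29) (nat_lit 5) (nat_lit 28) (nat_lit 5) (nat_lit 34) (nat_lit 5) (nat_lit 236) (nat_lit 233) (nat_lit 131)))))) (XT.nd (nat_lit 390) (nat_lit 684) (nat_lit 0) (XT.nd (nat_lit 156) (nat_lit 456) (nat_lit 0) (XT.nd (nat_lit 78) (nat_lit 0) (nat_lit 0) (XT.lf (nat_lit 0) (nat_lit 20023843730) (nat_lit 456) (nat_lit 445545168900) (nat_lit 76) (nat_lit 99255621529) (nat_lit 23) (nat_lit 5) (nat_lit 29) (nat_lit 5) (nat_lit 24) (nat_lit 5) (nat_lit 237) (nat_lit 233) (nat_lit 130)) (XT.lf (nat_lit 0) (nat_lit 80921484501) (nat_lit 456) (nat_lit 55805362204) (nat_lit 76) (nat_lit 477282791812) (nat_lit 23) (nat_lit 5) (nat_lit 29) (nat_lit 5) (nat_lit 24) (nat_lit 5) (nat_lit 238) (nat_lit 233) (nat_lit 129)))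 (XT.nd (nat_lit 78) (nat_lit 228) (nat_lit 0) (XT.lf (nat_lit 0) (nat_lit 166952476109) (nat_lit 304) (nat_lit 262784174816) (nat_lit 76) (nat_lit 239555846830) (nat_lit 20) (nat_lit 5) (nat_lit 24) (nat_lit 5) (nat_lit 21) (nat_lit 5) (nat_lit 239) (nat_lit 233) (nat_lit 128)) (XT.nd (nat_lit 78) (nat_lit 0) (nat_lit 0) (XT.lf (nat_lit 0) (nat_lit 215781118171) (nat_lit 228) (nat_lit 60744925991) (nat_lit 304) (nat_lit 455490708024) (nat_lit 17) (nat_lit 5) (nat_lit 20) (nat_lit 5) (nat_lit 21) (nat_lit 5) (nat_lit 240) (nat_lit 233) (nat_lit 127)) (XT.lf (nat_lit 0) (nat_lit 419129479075) (nat_lit 304) (nat_lit 30436230022) (nat_lit 76) (nat_lit 353256429609) (nat_lit 17) (nat_lit 5) (nat_lit 21) (nat_lit 5) (nat_lit 18) (nat_lit 5) (nat_lit 241) (nat_lit 233) (nat_lit 126))))) (XT.nd (nat_lit 156) (nat_lit 380) (nat_lit 0) (XT.nd (nat_lit 78) (nat_lit 152) (nat_lit 0) (XT.lf (nat_lit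 0) (nat_lit 554280329101) (nat_lit 152) (nat_lit 43853568372) (nat_lit 228) (nat_lit 284913598666) (nat_lit 15) (nat_lit 5) (nat_lit 17) (nat_lit 5) (nat_lit 18) (nat_lit 5) (nat_lit 242) (nat_lit 233) (nat_lit 125)) (XT.lf (nat_lit 0) (nat_lit 255924743722) (nat_lit 152) (nat_lit 565294643401) (nat_lit 228) (nat_lit 152708837731) (nat_lit 13) (nat_lit 5) (nat_lit 15) (nat_lit 5) (nat_lit 16) (nat_lit 5) (nat_lit 243) (nat_lit 233) (nat_lit 124))) (XT.nd (nat_lit 78) (nat_lit 304) (nat_lit 0) (XT.lf (nat_lit 0) (nat_lit 10393486327) (nat_lit 228) (nat_lit 130891092403) (nat_lit 76) (nat_lit 936275126801) (nat_lit 12) (nat_lit 5) (nat_lit 15) (nat_lit 5) (nat_lit 13) (nat_lit 5) (nat_lit 244) (nat_lit 233) (nat_lit 123)) (XT.nd (nat_lit 78) (nat_lit 152) (nat_lit 0) (XT.lf (nat_lit 0) (nat_lit 211642673190) (nat_lit 228) (nat_lit 635594821237) (nat_lit 76) (nat_lit 347363210539) (nat_lit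 10) (nat_lit 5) (nat_lit 13) (nat_lit 5) (nat_lit 11) (nat_lit 5) (nat_lit 245) (nat_lit 233) (nat_lit 122)) (XT.lf (nat_lit 0) (nat_lit 28857760367) (nat_lit 152) (nat_lit 422732796379) (nat_lit 228) (nat_lit 876926392289) (nat_lit 8) (nat_lit 5) (nat_lit 10) (nat_lit 5) (nat_lit 11) (nat_lit 5) (nat_lit 246) (nat_lit 233) (nat_lit 121))))))) (XT.nd (nat_lit 30498) (nat_lit 0) (nat_lit 456) (XT.nd (nat_lit 390) (nat_lit 76) (nat_lit 0) (XT.nd (nat_lit 156) (nat_lit 152) (nat_lit 0) (XT.nd (nat_lit 78) (nat_lit 76) (nat_lit 0) (XT.lf (nat_lit 0) (nat_lit 748089914424) (nat_lit 228) (nat_lit 651627030058) (nat_lit 76) (nat_lit 81158942086) (nat_lit 8) (nat_lit 5) (nat_lit 11) (nat_lit 5) (nat_lit 9) (nat_lit 4) (nat_lit 247) (nat_lit 233) (nat_lit 120)) (XT.lf (nat_lit 0) (nat_lit 86231842377) (nat_lit 76) (nat_lit 1016597933724) (nat_lit 152) (nat_lit 552157640760) (nat_lit 7) (nat_lit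 5) (nat_lit 8) (nat_lit 5) (nat_lit 9) (nat_lit 4) (nat_lit 248) (nat_lit 233) (nat_lit 119))) (XT.nd (nat_lit 78) (nat_lit 152) (nat_lit 0) (XT.lf (nat_lit 0) (nat_lit 974230069741) (nat_lit 76) (nat_lit 555521947715) (nat_lit 152) (nat_lit 323945947347) (nat_lit 7) (nat_lit 5) (nat_lit 8) (nat_lit 5) (nat_lit 9) (nat_lit 4) (nat_lit 249) (nat_lit 233) (nat_lit 118)) (XT.nd (nat_lit 78) (nat_lit 152) (nat_lit 0) (XT.lf (nat_lit 0) (nat_lit 1995428005774) (nat_lit 76) (nat_lit 25284572340) (nat_lit 152) (nat_lit 61502518294) (nat_lit 7) (nat_lit 5) (nat_lit 8) (nat_lit 5) (nat_lit 9) (nat_lit 4) (nat_lit 250) (nat_lit 233) (nat_lit 117)) (XT.lf (nat_lit 0) (nat_lit 263766487227) (nat_lit 152) (nat_lit 1495489950002) (nat_lit 76) (nat_lit 582452591652) (nat_lit 5) (nat_lit 5) (nat_lit 7) (nat_lit 5) (nat_lit 6) (nat_lit 4) (nat_lit 251) (nat_lit 233) (nat_lit 116))))) (XT.nd (nat_lit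 29874) (nat_lit 0) (nat_lit 1748) (XT.nd (nat_lit 78) (nat_lit 76) (nat_lit 0) (XT.lf (nat_lit 0) (nat_lit 637579384312) (nat_lit 152) (nat_lit 717959145162) (nat_lit 76) (nat_lit 1284189110302) (nat_lit 5) (nat_lit 5) (nat_lit 7) (nat_lit 5) (nat_lit 6) (nat_lit 4) (nat_lit 252) (nat_lit 233) (nat_lit 115)) (XT.lf (nat_lit 0) (nat_lit 185479707373) (nat_lit 76) (nat_lit 886445287940) (nat_lit 152) (nat_lit 1910167184719) (nat_lit 4) (nat_lit 5) (nat_lit 5) (nat_lit 5) (nat_lit 6) (nat_lit 4) (nat_lit 253) (nat_lit 233) (nat_lit 114))) (XT.nd (nat_lit 78) (nat_lit 0) (nat_lit 0) (XT.lf (nat_lit 0) (nat_lit 101910339815) (nat_lit 0) (nat_lit 101910339815) (nat_lit 380) (nat_lit 35784970901) (nat_lit 27) (nat_lit 5) (nat_lit 27) (nat_lit 3) (nat_lit 32) (nat_lit 3) (nat_lit 234) (nat_lit 234) (nat_lit 132)) (XT.nd (nat_lit 78) (nat_lit 0) (nat_lit 0) (XT.lf (nat_lit 76) (nat_lit 55985359027)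 (nat_lit 0) (nat_lit 386782523446) (nat_lit 456) (nat_lit 72019987635) (nat_lit 28) (nat_lit 5) (nat_lit 27) (nat_lit 5) (nat_lit 33) (nat_lit 5) (nat_lit 235) (nat_lit 234) (nat_lit 131)) (XT.lf (nat_lit 76) (nat_lit 447810488924) (nat_lit 0) (nat_lit 48864985034) (nat_lit 456) (nat_lit 57944484227) (nat_lit 28) (nat_lit 5) (nat_lit 27) (nat_lit 5) (nat_lit 33) (nat_lit 5) (nat_lit 236) (nat_lit 234) (nat_lit 130)))))) (XT.nd (nat_lit 390) (nat_lit 532) (nat_lit 0) (XT.nd (nat_lit 156) (nat_lit 456) (nat_lit 0) (XT.nd (nat_lit 78) (nat_lit 380) (nat_lit 0) (XT.lf (nat_lit 76) (nat_lit 305072693302) (nat_lit 0) (nat_lit 269104211767) (nat_lit 456) (nat_lit 25009339080) (nat_lit 29) (nat_lit 5) (nat_lit 28) (nat_lit 5) (nat_lit 34) (nat_lit 5) (nat_lit 237) (nat_lit 234) (nat_lit 129)) (XT.lf (nat_lit 0) (nat_lit 23028066434) (nat_lit 456) (nat_lit 512376347180) (nat_lit 76) (nat_lit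 114143857485) (nat_lit 23) (nat_lit 5) (nat_lit 29) (nat_lit 5) (nat_lit 24) (nat_lit 5) (nat_lit 238) (nat_lit 234) (nat_lit 128))) (XT.nd (nat_lit 78) (nat_lit 456) (nat_lit 0) (XT.lf (nat_lit 0) (nat_lit 93060269041) (nat_lit 456) (nat_lit 64175647357) (nat_lit 76) (nat_lit 548875117303) (nat_lit 23) (nat_lit 5) (nat_lit 29) (nat_lit 5) (nat_lit 24) (nat_lit 5) (nat_lit 239) (nat_lit 234) (nat_lit 127)) (XT.nd (nat_lit 78) (nat_lit 228) (nat_lit 0) (XT.lf (nat_lit 0) (nat_lit 191995846937) (nat_lit 304) (nat_lit 302201280302) (nat_lit 76) (nat_lit 275489200318) (nat_lit 20) (nat_lit 5) (nat_lit 24) (nat_lit 5) (nat_lit 21) (nat_lit 5) (nat_lit 240) (nat_lit 234) (nat_lit 126)) (XT.lf (nat_lit 0) (nat_lit 248148762556) (nat_lit 228) (nat_lit 69856633966) (nat_lit 304) (nat_lit 523813828566) (nat_lit 17) (nat_lit 5) (nat_lit 20) (nat_lit 5) (nat_lit 21) (nat_lit 5) (nat_lit 241) (nat_lit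 234) (nat_lit 125))))) (XT.nd (nat_lit 156) (nat_lit 380) (nat_lit 0) (XT.nd (nat_lit 78) (nat_lit 152) (nat_lit 0) (XT.lf (nat_lit 0) (nat_lit 481999289178) (nat_lit 304) (nat_lit 35001215967) (nat_lit 76) (nat_lit 406244919596) (nat_lit 17) (nat_lit 5) (nat_lit 21) (nat_lit 5) (nat_lit 18) (nat_lit 5) (nat_lit 242) (nat_lit 234) (nat_lit 124)) (XT.lf (nat_lit 0) (nat_lit 637422789056) (nat_lit 152) (nat_lit 50431540515) (nat_lit 228) (nat_lit 327650259964) (nat_lit 15) (nat_lit 5) (nat_lit 17) (nat_lit 5) (nat_lit 18) (nat_lit 5) (nat_lit 243) (nat_lit 234) (nat_lit 123))) (XT.nd (nat_lit 78) (nat_lit 228) (nat_lit 0) (XT.lf (nat_lit 0) (nat_lit 294313858126) (nat_lit 152) (nat_lit 650088750228) (nat_lit 228) (nat_lit 175614822369) (nat_lit 13) (nat_lit 5) (nat_lit 15) (nat_lit 5) (nat_lit 16) (nat_lit 5) (nat_lit 244) (nat_lit 234) (nat_lit 122)) (XT.nd (nat_lit 78) (nat_lit 152)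 (nat_lit 0) (XT.lf (nat_lit 0) (nat_lit 11952790982) (nat_lit 228) (nat_lit 150524388870) (nat_lit 76) (nat_lit 1076716456713) (nat_lit 12) (nat_lit 5) (nat_lit 15) (nat_lit 5) (nat_lit 13) (nat_lit 5) (nat_lit 245) (nat_lit 234) (nat_lit 121)) (XT.lf (nat_lit 0) (nat_lit 243389329221) (nat_lit 228) (nat_lit 730933687920) (nat_lit 76) (nat_lit 399467771203) (nat_lit 10) (nat_lit 5) (nat_lit 13) (nat_lit 5) (nat_lit 11) (nat_lit 5) (nat_lit 246) (nat_lit 234) (nat_lit 120))))))))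
noncomputable def xc61 : XT := (XT.nd (nat_lit 31278) (nat_lit 0) (nat_lit 152) (XT.nd (nat_lit 30498) (nat_lit 0) (nat_lit 532) (XT.nd (nat_lit 312) (nat_lit 152) (nat_lit 0) (XT.nd (nat_lit 156) (nat_lit 76) (nat_lit 0) (XT.nd (nat_lit 78) (nat_lit 0) (nat_lit 0) (XT.lf (nat_lit 0) (nat_lit 33186750748) (nat_lit 152) (nat_lit 486142619141) (nat_lit 228) (nat_lit 1008465101421) (nat_lit 8) (nat_lit 5) (nat_lit 10) (nat_lit 5) (nat_lit 11) (nat_lit 5) (nat_lit 247) (nat_lit 234) (nat_lit 119)) (XT.lf (nat_lit 0) (nat_lit 860303603290) (nat_lit 228) (nat_lit 749370785367) (nat_lit 76) (nat_lit 93332863275) (nat_lit 8) (nat_lit 5) (nat_lit 11) (nat_lit 5) (nat_lit 9) (nat_lit 4) (nat_lit 248) (nat_lit 234) (nat_lit 118))) (XT.nd (nat_lit 78) (nat_lit 0) (nat_lit 0) (XT.lf (nat_lit 0) (nat_lit 99166892608) (nat_lit 76) (nat_lit 1169087531888) (nat_lit 152) (nat_lit 634981089044) (nat_lit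 7) (nat_lit 5) (nat_lit 8) (nat_lit 5) (nat_lit 9) (nat_lit 4) (nat_lit 249) (nat_lit 234) (nat_lit 117)) (XT.lf (nat_lit 0) (nat_lit 1120364818354) (nat_lit 76) (nat_lit 638850159965) (nat_lit 152) (nat_lit 372537667422) (nat_lit 7) (nat_lit 5) (nat_lit 8) (nat_lit 5) (nat_lit 9) (nat_lit 4) (nat_lit 250) (nat_lit 234) (nat_lit 116)))) (XT.nd (nat_lit 156) (nat_lit 0) (nat_lit 0) (XT.nd (nat_lit 78) (nat_lit 152) (nat_lit 0) (XT.lf (nat_lit 0) (nat_lit 2294742413729) (nat_lit 76) (nat_lit 29077188706) (nat_lit 152) (nat_lit 70727746449) (nat_lit 7) (nat_lit 5) (nat_lit 8) (nat_lit 5) (nat_lit 9) (nat_lit 4) (nat_lit 251) (nat_lit 234) (nat_lit 115)) (XT.lf (nat_lit 0) (nat_lit 303331590282) (nat_lit 152) (nat_lit 1719813235871) (nat_lit 76) (nat_lit 669820545876) (nat_lit 5) (nat_lit 5) (nat_lit 7) (nat_lit 5) (nat_lit 6) (nat_lit 4) (nat_lit 252) (nat_lit 234) (nat_lit 114))) (XT.nd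 (nat_lit 29874) (nat_lit 0) (nat_lit 1672) (XT.lf (nat_lit 0) (nat_lit 733216404978) (nat_lit 152) (nat_lit 825652837257) (nat_lit 76) (nat_lit 1476817533783) (nat_lit 5) (nat_lit 5) (nat_lit 7) (nat_lit 5) (nat_lit 6) (nat_lit 4) (nat_lit 253) (nat_lit 234) (nat_lit 113)) (XT.nd (nat_lit 78) (nat_lit 0) (nat_lit 0) (XT.lf (nat_lit 0) (nat_lit 117197090975) (nat_lit 0) (nat_lit 117197090975) (nat_lit 380) (nat_lit 41152279496) (nat_lit 27) (nat_lit 5) (nat_lit 27) (nat_lit 3) (nat_lit 32) (nat_lit 3) (nat_lit 235) (nat_lit 235) (nat_lit 130)) (XT.lf (nat_lit 76) (nat_lit 64383605304) (nat_lit 0) (nat_lit 444800158111) (nat_lit 456) (nat_lit 82822223261) (nat_lit 28) (nat_lit 5) (nat_lit 27) (nat_lit 5) (nat_lit 33) (nat_lit 5) (nat_lit 236) (nat_lit 235) (nat_lit 129)))))) (XT.nd (nat_lit 390) (nat_lit 608) (nat_lit 0) (XT.nd (nat_lit 156) (nat_lit 532) (nat_lit 0) (XT.nd (nat_lit 78)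 (nat_lit 0) (nat_lit 76) (XT.lf (nat_lit 76) (nat_lit 514982446978) (nat_lit 0) (nat_lit 56194955526) (nat_lit 456) (nat_lit 66635493801) (nat_lit 28) (nat_lit 5) (nat_lit 27) (nat_lit 5) (nat_lit 33) (nat_lit 5) (nat_lit 237) (nat_lit 235) (nat_lit 128)) (XT.lf (nat_lit 76) (nat_lit 350834005253) (nat_lit 0) (nat_lit 309469968950) (nat_lit 456) (nat_lit 28760157803) (nat_lit 29) (nat_lit 5) (nat_lit 28) (nat_lit 5) (nat_lit 34) (nat_lit 5) (nat_lit 238) (nat_lit 235) (nat_lit 127))) (XT.nd (nat_lit 78) (nat_lit 228) (nat_lit 0) (XT.lf (nat_lit 0) (nat_lit 26482764977) (nat_lit 456) (nat_lit 589232347799) (nat_lit 76) (nat_lit 131265354994) (nat_lit 23) (nat_lit 5) (nat_lit 29) (nat_lit 5) (nat_lit 24) (nat_lit 5) (nat_lit 239) (nat_lit 235) (nat_lit 126)) (XT.nd (nat_lit 78) (nat_lit 228) (nat_lit 0) (XT.lf (nat_lit 0) (nat_lit 107019734248) (nat_lit 456) (nat_lit 73801601888) (nat_lit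 76) (nat_lit 631206314365) (nat_lit 23) (nat_lit 5) (nat_lit 29) (nat_lit 5) (nat_lit 24) (nat_lit 5) (nat_lit 240) (nat_lit 235) (nat_lit 125)) (XT.lf (nat_lit 0) (nat_lit 220795601605) (nat_lit 304) (nat_lit 347531078595) (nat_lit 76) (nat_lit 316812562569) (nat_lit 20) (nat_lit 5) (nat_lit 24) (nat_lit 5) (nat_lit 21) (nat_lit 5) (nat_lit 241) (nat_lit 235) (nat_lit 124))))) (XT.nd (nat_lit 156) (nat_lit 380) (nat_lit 0) (XT.nd (nat_lit 78) (nat_lit 0) (nat_lit 0) (XT.lf (nat_lit 0) (nat_lit 285371437361) (nat_lit 228) (nat_lit 80335105677) (nat_lit 304) (nat_lit 602385535621) (nat_lit 17) (nat_lit 5) (nat_lit 20) (nat_lit 5) (nat_lit 21) (nat_lit 5) (nat_lit 242) (nat_lit 235) (nat_lit 123)) (XT.lf (nat_lit 0) (nat_lit 554299476122) (nat_lit 304) (nat_lit 40251059188) (nat_lit 76) (nat_lit 467181676851) (nat_lit 17) (nat_lit 5) (nat_lit 21) (nat_lit 5) (nat_lit 18) (nat_lit 5) (nat_lit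 243) (nat_lit 235) (nat_lit 122))) (XT.nd (nat_lit 78) (nat_lit 228) (nat_lit 0) (XT.lf (nat_lit 0) (nat_lit 733036517880) (nat_lit 152) (nat_lit 57996223869) (nat_lit 228) (nat_lit 376797512757) (nat_lit 15) (nat_lit 5) (nat_lit 17) (nat_lit 5) (nat_lit 18) (nat_lit 5) (nat_lit 244) (nat_lit 235) (nat_lit 121)) (XT.nd (nat_lit 78) (nat_lit 76) (nat_lit 0) (XT.lf (nat_lit 0) (nat_lit 338461241454) (nat_lit 152) (nat_lit 747601994948) (nat_lit 228) (nat_lit 201956787864) (nat_lit 13) (nat_lit 5) (nat_lit 15) (nat_lit 5) (nat_lit 16) (nat_lit 5) (nat_lit 245) (nat_lit 235) (nat_lit 120)) (XT.lf (nat_lit 0) (nat_lit 13745922640) (nat_lit 228) (nat_lit 173102769398) (nat_lit 76) (nat_lit 1238223971264) (nat_lit 12) (nat_lit 5) (nat_lit 15) (nat_lit 5) (nat_lit 13) (nat_lit 5) (nat_lit 246) (nat_lit 235) (nat_lit 119))))))) (XT.nd (nat_lit 30732) (nat_lit 0) (nat_lit 76) (XT.nd (nat_lit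 390) (nat_lit 0) (nat_lit 0) (XT.nd (nat_lit 156) (nat_lit 76) (nat_lit 0) (XT.nd (nat_lit 78) (nat_lit 152) (nat_lit 0) (XT.lf (nat_lit 0) (nat_lit 279897921459) (nat_lit 228) (nat_lit 840573471541) (nat_lit 76) (nat_lit 459387996680) (nat_lit 10) (nat_lit 5) (nat_lit 13) (nat_lit 5) (nat_lit 11) (nat_lit 5) (nat_lit 247) (nat_lit 235) (nat_lit 118)) (XT.lf (nat_lit 0) (nat_lit 38165010110) (nat_lit 152) (nat_lit 559063938898) (nat_lit 228) (nat_lit 1159734677817) (nat_lit 8) (nat_lit 5) (nat_lit 10) (nat_lit 5) (nat_lit 11) (nat_lit 5) (nat_lit 248) (nat_lit 235) (nat_lit 117))) (XT.nd (nat_lit 78) (nat_lit 76) (nat_lit 0) (XT.lf (nat_lit 0) (nat_lit 989349296299) (nat_lit 228) (nat_lit 861776176933) (nat_lit 76) (nat_lit 107332853164) (nat_lit 8) (nat_lit 5) (nat_lit 11) (nat_lit 5) (nat_lit 9) (nat_lit 4) (nat_lit 249) (nat_lit 235) (nat_lit 116)) (XT.nd (nat_lit 78) (nat_lit 0)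 (nat_lit 0) (XT.lf (nat_lit 0) (nat_lit 114042133587) (nat_lit 76) (nat_lit 1344450592186) (nat_lit 152) (nat_lit 730228102813) (nat_lit 7) (nat_lit 5) (nat_lit 8) (nat_lit 5) (nat_lit 9) (nat_lit 4) (nat_lit 250) (nat_lit 235) (nat_lit 115)) (XT.lf (nat_lit 0) (nat_lit 1288419721184) (nat_lit 76) (nat_lit 734677623538) (nat_lit 152) (nat_lit 428418187459) (nat_lit 7) (nat_lit 5) (nat_lit 8) (nat_lit 5) (nat_lit 9) (nat_lit 4) (nat_lit 251) (nat_lit 235) (nat_lit 114))))) (XT.nd (nat_lit 30108) (nat_lit 0) (nat_lit 1520) (XT.nd (nat_lit 30030) (nat_lit 0) (nat_lit 1520) (XT.lf (nat_lit 0) (nat_lit 2638953932377) (nat_lit 76) (nat_lit 33438714471) (nat_lit 152) (nat_lit 81336795307) (nat_lit 7) (nat_lit 5) (nat_lit 8) (nat_lit 5) (nat_lit 9) (nat_lit 4) (nat_lit 252) (nat_lit 235) (nat_lit 113)) (XT.lf (nat_lit 0) (nat_lit 134776805992) (nat_lit 0) (nat_lit 134776805992) (nat_lit 380)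 (nat_lit 47324790955) (nat_lit 27) (nat_lit 5) (nat_lit 27) (nat_lit 3) (nat_lit 32) (nat_lit 3) (nat_lit 236) (nat_lit 236) (nat_lit 128))) (XT.nd (nat_lit 78) (nat_lit 0) (nat_lit 0) (XT.lf (nat_lit 76) (nat_lit 74041480636) (nat_lit 0) (nat_lit 511520375512) (nat_lit 456) (nat_lit 95244980177) (nat_lit 28) (nat_lit 5) (nat_lit 27) (nat_lit 5) (nat_lit 33) (nat_lit 5) (nat_lit 237) (nat_lit 236) (nat_lit 127)) (XT.nd (nat_lit 78) (nat_lit 0) (nat_lit 76) (XT.lf (nat_lit 76) (nat_lit 592230104926) (nat_lit 0) (nat_lit 64624367276) (nat_lit 456) (nat_lit 76630316503) (nat_lit 28) (nat_lit 5) (nat_lit 27) (nat_lit 5) (nat_lit 33) (nat_lit 5) (nat_lit 238) (nat_lit 236) (nat_lit 126)) (XT.lf (nat_lit 76) (nat_lit 403459414513) (nat_lit 0) (nat_lit 355890559127) (nat_lit 456) (nat_lit 33073741292) (nat_lit 29) (nat_lit 5) (nat_lit 28) (nat_lit 5) (nat_lit 34) (nat_lit 5) (nat_lit 239)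 (nat_lit 236) (nat_lit 125)))))) (XT.nd (nat_lit 390) (nat_lit 684) (nat_lit 0) (XT.nd (nat_lit 156) (nat_lit 456) (nat_lit 0) (XT.nd (nat_lit 78) (nat_lit 0) (nat_lit 0) (XT.lf (nat_lit 0) (nat_lit 30455549159) (nat_lit 456) (nat_lit 677616858601) (nat_lit 76) (nat_lit 150955096910) (nat_lit 23) (nat_lit 5) (nat_lit 29) (nat_lit 5) (nat_lit 24) (nat_lit 5) (nat_lit 240) (nat_lit 236) (nat_lit 124)) (XT.lf (nat_lit 0) (nat_lit 123073015633) (nat_lit 456) (nat_lit 84871545329) (nat_lit 76) (nat_lit 725887208186) (nat_lit 23) (nat_lit 5) (nat_lit 29) (nat_lit 5) (nat_lit 24) (nat_lit 5) (nat_lit 241) (nat_lit 236) (nat_lit 123))) (XT.nd (nat_lit 78) (nat_lit 228) (nat_lit 0) (XT.lf (nat_lit 0) (nat_lit 253915227386) (nat_lit 304) (nat_lit 399660442652) (nat_lit 76) (nat_lit 364334433497) (nat_lit 20) (nat_lit 5) (nat_lit 24) (nat_lit 5) (nat_lit 21) (nat_lit 5) (nat_lit 242) (nat_lit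 236) (nat_lit 122)) (XT.nd (nat_lit 78) (nat_lit 0) (nat_lit 0) (XT.lf (nat_lit 0) (nat_lit 328177425497) (nat_lit 228) (nat_lit 92385353848) (nat_lit 304) (nat_lit 692743088286) (nat_lit 17) (nat_lit 5) (nat_lit 20) (nat_lit 5) (nat_lit 21) (nat_lit 5) (nat_lit 243) (nat_lit 236) (nat_lit 121)) (XT.lf (nat_lit 0) (nat_lit 637444619519) (nat_lit 304) (nat_lit 46288461602) (nat_lit 76) (nat_lit 537258942984) (nat_lit 17) (nat_lit 5) (nat_lit 21) (nat_lit 5) (nat_lit 18) (nat_lit 5) (nat_lit 244) (nat_lit 236) (nat_lit 120))))) (XT.nd (nat_lit 156) (nat_lit 380) (nat_lit 0) (XT.nd (nat_lit 78) (nat_lit 152) (nat_lit 0) (XT.lf (nat_lit 0) (nat_lit 842992230318) (nat_lit 152) (nat_lit 66695621364) (nat_lit 228) (nat_lit 433316923261) (nat_lit 15) (nat_lit 5) (nat_lit 17) (nat_lit 5) (nat_lit 18) (nat_lit 5) (nat_lit 245) (nat_lit 236) (nat_lit 119)) (XT.lf (nat_lit 0) (nat_lit 389230658001)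 (nat_lit 152) (nat_lit 859742242913) (nat_lit 228) (nat_lit 232250111064) (nat_lit 13) (nat_lit 5) (nat_lit 15) (nat_lit 5) (nat_lit 16) (nat_lit 5) (nat_lit 246) (nat_lit 236) (nat_lit 118))) (XT.nd (nat_lit 78) (nat_lit 304) (nat_lit 0) (XT.lf (nat_lit 0) (nat_lit 15807972102) (nat_lit 228) (nat_lit 199067974749) (nat_lit 76) (nat_lit 1423957601769) (nat_lit 12) (nat_lit 5) (nat_lit 15) (nat_lit 5) (nat_lit 13) (nat_lit 5) (nat_lit 247) (nat_lit 236) (nat_lit 117)) (XT.nd (nat_lit 78) (nat_lit 152) (nat_lit 0) (XT.lf (nat_lit 0) (nat_lit 321882755505) (nat_lit 228) (nat_lit 966659288441) (nat_lit 76) (nat_lit 528296241398) (nat_lit 10) (nat_lit 5) (nat_lit 13) (nat_lit 5) (nat_lit 11) (nat_lit 5) (nat_lit 248) (nat_lit 236) (nat_lit 116)) (XT.lf (nat_lit 0) (nat_lit 43889948205) (nat_lit 152) (nat_lit 642923474447) (nat_lit 228) (nat_lit 1333694736716) (nat_lit 8) (nat_lit 5) (nat_lit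 10) (nat_lit 5) (nat_lit 11) (nat_lit 5) (nat_lit 249) (nat_lit 236) (nat_lit 115))))))))
noncomputable def xc62 : XT := (XT.nd (nat_lit 61620) (nat_lit 0) (nat_lit 76) (XT.nd (nat_lit 30732) (nat_lit 0) (nat_lit 0) (XT.nd (nat_lit 30342) (nat_lit 0) (nat_lit 1216) (XT.nd (nat_lit 156) (nat_lit 0) (nat_lit 0) (XT.nd (nat_lit 78) (nat_lit 76) (nat_lit 0) (XT.lf (nat_lit 0) (nat_lit 1137751806068) (nat_lit 228) (nat_lit 991042432405) (nat_lit 76) (nat_lit 123432826808) (nat_lit 8) (nat_lit 5) (nat_lit 11) (nat_lit 5) (nat_lit 9) (nat_lit 4) (nat_lit 250) (nat_lit 236) (nat_lit 114)) (XT.lf (nat_lit 0) (nat_lit 131148610214) (nat_lit 76) (nat_lit 1546118128474) (nat_lit 152) (nat_lit 839762205124) (nat_lit 7) (nat_lit 5) (nat_lit 8) (nat_lit 5) (nat_lit 9) (nat_lit 4) (nat_lit 251) (nat_lit 236) (nat_lit 113))) (XT.nd (nat_lit 30108) (nat_lit 0) (nat_lit 1520) (XT.lf (nat_lit 0) (nat_lit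 1481682815525) (nat_lit 76) (nat_lit 844879221381) (nat_lit 152) (nat_lit 492680817221) (nat_lit 7) (nat_lit 5) (nat_lit 8) (nat_lit 5) (nat_lit 9) (nat_lit 4) (nat_lit 252) (nat_lit 236) (nat_lit 112)) (XT.lf (nat_lit 0) (nat_lit 154993441348) (nat_lit 0) (nat_lit 154993441348) (nat_lit 380) (nat_lit 54423259719) (nat_lit 27) (nat_lit 5) (nat_lit 27) (nat_lit 3) (nat_lit 32) (nat_lit 3) (nat_lit 237) (nat_lit 237) (nat_lit 126)))) (XT.nd (nat_lit 156) (nat_lit 304) (nat_lit 0) (XT.nd (nat_lit 78) (nat_lit 0) (nat_lit 0) (XT.lf (nat_lit 76) (nat_lit 85147955688) (nat_lit 0) (nat_lit 588248578292) (nat_lit 456) (nat_lit 109531291231) (nat_lit 28) (nat_lit 5) (nat_lit 27) (nat_lit 5) (nat_lit 33) (nat_lit 5) (nat_lit 238) (nat_lit 237) (nat_lit 125)) (XT.lf (nat_lit 76) (nat_lit 681064840627) (nat_lit 0) (nat_lit 74318149719) (nat_lit 456) (nat_lit 88124484872) (nat_lit 28) (nat_lit 5)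 (nat_lit 27) (nat_lit 5) (nat_lit 33) (nat_lit 5) (nat_lit 239) (nat_lit 237) (nat_lit 124))) (XT.nd (nat_lit 78) (nat_lit 380) (nat_lit 0) (XT.lf (nat_lit 76) (nat_lit 463978559940) (nat_lit 0) (nat_lit 409274214705) (nat_lit 456) (nat_lit 38034469646) (nat_lit 29) (nat_lit 5) (nat_lit 28) (nat_lit 5) (nat_lit 34) (nat_lit 5) (nat_lit 240) (nat_lit 237) (nat_lit 123)) (XT.nd (nat_lit 78) (nat_lit 0) (nat_lit 0) (XT.lf (nat_lit 0) (nat_lit 35024160879) (nat_lit 456) (nat_lit 779259129268) (nat_lit 76) (nat_lit 173598315069) (nat_lit 23) (nat_lit 5) (nat_lit 29) (nat_lit 5) (nat_lit 24) (nat_lit 5) (nat_lit 241) (nat_lit 237) (nat_lit 122)) (XT.lf (nat_lit 0) (nat_lit 141534210888) (nat_lit 456) (nat_lit 97602052674) (nat_lit 76) (nat_lit 834770249086) (nat_lit 23) (nat_lit 5) (nat_lit 29) (nat_lit 5) (nat_lit 24) (nat_lit 5) (nat_lit 242) (nat_lit 237) (nat_lit 121)))))) (XT.nd (nat_lit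 390) (nat_lit 456) (nat_lit 0) (XT.nd (nat_lit 156) (nat_lit 304) (nat_lit 0) (XT.nd (nat_lit 78) (nat_lit 228) (nat_lit 0) (XT.lf (nat_lit 0) (nat_lit 292002727404) (nat_lit 304) (nat_lit 459609283921) (nat_lit 76) (nat_lit 418984588346) (nat_lit 20) (nat_lit 5) (nat_lit 24) (nat_lit 5) (nat_lit 21) (nat_lit 5) (nat_lit 243) (nat_lit 237) (nat_lit 120)) (XT.lf (nat_lit 0) (nat_lit 377404245394) (nat_lit 228) (nat_lit 106243143556) (nat_lit 304) (nat_lit 796654341564) (nat_lit 17) (nat_lit 5) (nat_lit 20) (nat_lit 5) (nat_lit 21) (nat_lit 5) (nat_lit 244) (nat_lit 237) (nat_lit 119))) (XT.nd (nat_lit 78) (nat_lit 304) (nat_lit 0) (XT.lf (nat_lit 0) (nat_lit 733061480294) (nat_lit 304) (nat_lit 53231536918) (nat_lit 76) (nat_lit 617847795476) (nat_lit 17) (nat_lit 5) (nat_lit 21) (nat_lit 5) (nat_lit 18) (nat_lit 5) (nat_lit 245) (nat_lit 237) (nat_lit 118)) (XT.nd (nat_lit 78) (nat_lit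 152) (nat_lit 0) (XT.lf (nat_lit 0) (nat_lit 969441242376) (nat_lit 152) (nat_lit 76699937283) (nat_lit 228) (nat_lit 498314298113) (nat_lit 15) (nat_lit 5) (nat_lit 17) (nat_lit 5) (nat_lit 18) (nat_lit 5) (nat_lit 246) (nat_lit 237) (nat_lit 117)) (XT.lf (nat_lit 0) (nat_lit 447615430862) (nat_lit 152) (nat_lit 988703540578) (nat_lit 228) (nat_lit 267087480290) (nat_lit 13) (nat_lit 5) (nat_lit 15) (nat_lit 5) (nat_lit 16) (nat_lit 5) (nat_lit 247) (nat_lit 237) (nat_lit 116))))) (XT.nd (nat_lit 156) (nat_lit 228) (nat_lit 0) (XT.nd (nat_lit 78) (nat_lit 152) (nat_lit 0) (XT.lf (nat_lit 0) (nat_lit 18179289707) (nat_lit 228) (nat_lit 228928012126) (nat_lit 76) (nat_lit 1637551268359) (nat_lit 12) (nat_lit 5) (nat_lit 15) (nat_lit 5) (nat_lit 13) (nat_lit 5) (nat_lit 248) (nat_lit 237) (nat_lit 115)) (XT.lf (nat_lit 0) (nat_lit 370165279097) (nat_lit 228) (nat_lit 1111658027581) (nat_lit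 76) (nat_lit 607540711797) (nat_lit 10) (nat_lit 5) (nat_lit 13) (nat_lit 5) (nat_lit 11) (nat_lit 5) (nat_lit 249) (nat_lit 237) (nat_lit 114))) (XT.nd (nat_lit 78) (nat_lit 76) (nat_lit 0) (XT.lf (nat_lit 0) (nat_lit 50473581516) (nat_lit 152) (nat_lit 739361953811) (nat_lit 228) (nat_lit 1533748839266) (nat_lit 8) (nat_lit 5) (nat_lit 10) (nat_lit 5) (nat_lit 11) (nat_lit 5) (nat_lit 250) (nat_lit 237) (nat_lit 113)) (XT.nd (nat_lit 78) (nat_lit 76) (nat_lit 0) (XT.lf (nat_lit 0) (nat_lit 1308414664180) (nat_lit 228) (nat_lit 1139698667913) (nat_lit 76) (nat_lit 141947785361) (nat_lit 8) (nat_lit 5) (nat_lit 11) (nat_lit 5) (nat_lit 9) (nat_lit 4) (nat_lit 251) (nat_lit 237) (nat_lit 112)) (XT.lf (nat_lit 0) (nat_lit 150821020150) (nat_lit 76) (nat_lit 1778035808016) (nat_lit 152) (nat_lit 965726450366) (nat_lit 7) (nat_lit 5) (nat_lit 8) (nat_lit 5) (nat_lit 9) (nat_lit 4) (nat_lit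 252) (nat_lit 237) (nat_lit 111))))))) (XT.nd (nat_lit 780) (nat_lit 532) (nat_lit 0) (XT.nd (nat_lit 390) (nat_lit 608) (nat_lit 0) (XT.nd (nat_lit 156) (nat_lit 304) (nat_lit 0) (XT.nd (nat_lit 78) (nat_lit 0) (nat_lit 0) (XT.lf (nat_lit 0) (nat_lit 178242544097) (nat_lit 0) (nat_lit 178242544097) (nat_lit 380) (nat_lit 62586559732) (nat_lit 27) (nat_lit 5) (nat_lit 27) (nat_lit 3) (nat_lit 32) (nat_lit 3) (nat_lit 238) (nat_lit 238) (nat_lit 124)) (XT.lf (nat_lit 76) (nat_lit 97920340313) (nat_lit 0) (nat_lit 676485975776) (nat_lit 456) (nat_lit 125960655257) (nat_lit 28) (nat_lit 5) (nat_lit 27) (nat_lit 5) (nat_lit 33) (nat_lit 5) (nat_lit 239) (nat_lit 238) (nat_lit 123))) (XT.nd (nat_lit 78) (nat_lit 304) (nat_lit 0) (XT.lf (nat_lit 76) (nat_lit 783224733045) (nat_lit 0) (nat_lit 85465968472) (nat_lit 456) (nat_lit 101342870943) (nat_lit 28) (nat_lit 5) (nat_lit 27) (nat_lit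 5) (nat_lit 33) (nat_lit 5) (nat_lit 240) (nat_lit 238) (nat_lit 122)) (XT.nd (nat_lit 78) (nat_lit 380) (nat_lit 0) (XT.lf (nat_lit 76) (nat_lit 533575520301) (nat_lit 0) (nat_lit 470665401132) (nat_lit 456) (nat_lit 43739388418) (nat_lit 29) (nat_lit 5) (nat_lit 28) (nat_lit 5) (nat_lit 34) (nat_lit 5) (nat_lit 241) (nat_lit 238) (nat_lit 121)) (XT.lf (nat_lit 0) (nat_lit 40277996237) (nat_lit 456) (nat_lit 896147803480) (nat_lit 76) (nat_lit 199638027261) (nat_lit 23) (nat_lit 5) (nat_lit 29) (nat_lit 5) (nat_lit 24) (nat_lit 5) (nat_lit 242) (nat_lit 238) (nat_lit 120))))) (XT.nd (nat_lit 156) (nat_lit 380) (nat_lit 0) (XT.nd (nat_lit 78) (nat_lit 228) (nat_lit 0) (XT.lf (nat_lit 0) (nat_lit 162764526195) (nat_lit 456) (nat_lit 112242190855) (nat_lit 76) (nat_lit 959985755955) (nat_lit 23) (nat_lit 5) (nat_lit 29) (nat_lit 5) (nat_lit 24) (nat_lit 5) (nat_lit 243) (nat_lit 238)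 (nat_lit 119)) (XT.lf (nat_lit 0) (nat_lit 335803299773) (nat_lit 304) (nat_lit 528550506280) (nat_lit 76) (nat_lit 481832268904) (nat_lit 20) (nat_lit 5) (nat_lit 24) (nat_lit 5) (nat_lit 21) (nat_lit 5) (nat_lit 244) (nat_lit 238) (nat_lit 118))) (XT.nd (nat_lit 78) (nat_lit 152) (nat_lit 0) (XT.lf (nat_lit 0) (nat_lit 434015038024) (nat_lit 228) (nat_lit 122179604980) (nat_lit 304) (nat_lit 916152334035) (nat_lit 17) (nat_lit 5) (nat_lit 20) (nat_lit 5) (nat_lit 21) (nat_lit 5) (nat_lit 245) (nat_lit 238) (nat_lit 117)) (XT.nd (nat_lit 78) (nat_lit 152) (nat_lit 0) (XT.lf (nat_lit 0) (nat_lit 843020829255) (nat_lit 304) (nat_lit 61216120821) (nat_lit 76) (nat_lit 710524973148) (nat_lit 17) (nat_lit 5) (nat_lit 21) (nat_lit 5) (nat_lit 18) (nat_lit 5) (nat_lit 246) (nat_lit 238) (nat_lit 116)) (XT.lf (nat_lit 0) (nat_lit 1114857562955) (nat_lit 152) (nat_lit 88204907244) (nat_lit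 228) (nat_lit 573061319097) (nat_lit 15) (nat_lit 5) (nat_lit 17) (nat_lit 5) (nat_lit 18) (nat_lit 5) (nat_lit 247) (nat_lit 238) (nat_lit 115)))))) (XT.nd (nat_lit 30654) (nat_lit 0) (nat_lit 1140) (XT.nd (nat_lit 156) (nat_lit 304) (nat_lit 0) (XT.nd (nat_lit 78) (nat_lit 76) (nat_lit 0) (XT.lf (nat_lit 0) (nat_lit 514757877182) (nat_lit 152) (nat_lit 1137009042346) (nat_lit 228) (nat_lit 307150490854) (nat_lit 13) (nat_lit 5) (nat_lit 15) (nat_lit 5) (nat_lit 16) (nat_lit 5) (nat_lit 248) (nat_lit 238) (nat_lit 114)) (XT.lf (nat_lit 0) (nat_lit 20906275253) (nat_lit 228) (nat_lit 263267093844) (nat_lit 76) (nat_lit 1883183978519) (nat_lit 12) (nat_lit 5) (nat_lit 15) (nat_lit 5) (nat_lit 13) (nat_lit 5) (nat_lit 249) (nat_lit 238) (nat_lit 113))) (XT.nd (nat_lit 78) (nat_lit 152) (nat_lit 0) (XT.lf (nat_lit 0) (nat_lit 425690154338) (nat_lit 228) (nat_lit 1278406615177) (nat_lit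 76) (nat_lit 698671844419) (nat_lit 10) (nat_lit 5) (nat_lit 13) (nat_lit 5) (nat_lit 11) (nat_lit 5) (nat_lit 250) (nat_lit 238) (nat_lit 112)) (XT.nd (nat_lit 30342) (nat_lit 0) (nat_lit 1444) (XT.lf (nat_lit 0) (nat_lit 58044725420) (nat_lit 152) (nat_lit 850266215273) (nat_lit 228) (nat_lit 1763811083525) (nat_lit 8) (nat_lit 5) (nat_lit 10) (nat_lit 5) (nat_lit 11) (nat_lit 5) (nat_lit 251) (nat_lit 238) (nat_lit 111)) (XT.lf (nat_lit 0) (nat_lit 204978991153) (nat_lit 0) (nat_lit 204978991153) (nat_lit 380) (nat_lit 71974400823) (nat_lit 27) (nat_lit 5) (nat_lit 27) (nat_lit 3) (nat_lit 32) (nat_lit 3) (nat_lit 239) (nat_lit 239) (nat_lit 122))))) (XT.nd (nat_lit 156) (nat_lit 304) (nat_lit 0) (XT.nd (nat_lit 78) (nat_lit 0) (nat_lit 0) (XT.lf (nat_lit 76) (nat_lit 112608535989) (nat_lit 0) (nat_lit 777958955877) (nat_lit 456) (nat_lit 144854504277) (nat_lit 28) (nat_lit 5) (nat_lit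 27) (nat_lit 5) (nat_lit 33) (nat_lit 5) (nat_lit 240) (nat_lit 239) (nat_lit 121)) (XT.lf (nat_lit 76) (nat_lit 900708568766) (nat_lit 0) (nat_lit 98285936556) (nat_lit 456) (nat_lit 116544084830) (nat_lit 28) (nat_lit 5) (nat_lit 27) (nat_lit 5) (nat_lit 33) (nat_lit 5) (nat_lit 241) (nat_lit 239) (nat_lit 120))) (XT.nd (nat_lit 78) (nat_lit 380) (nat_lit 0) (XT.lf (nat_lit 76) (nat_lit 613611981708) (nat_lit 0) (nat_lit 541265252301) (nat_lit 456) (nat_lit 50300106379) (nat_lit 29) (nat_lit 5) (nat_lit 28) (nat_lit 5) (nat_lit 34) (nat_lit 5) (nat_lit 242) (nat_lit 239) (nat_lit 119)) (XT.nd (nat_lit 78) (nat_lit 0) (nat_lit 0) (XT.lf (nat_lit 0) (nat_lit 46319855390) (nat_lit 456) (nat_lit 1030569826420) (nat_lit 76) (nat_lit 229583704834) (nat_lit 23) (nat_lit 5) (nat_lit 29) (nat_lit 5) (nat_lit 24) (nat_lit 5) (nat_lit 243) (nat_lit 239) (nat_lit 118)) (XT.lf (nat_lit 0) (nat_lit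 187179344009) (nat_lit 456) (nat_lit 129078391151) (nat_lit 76) (nat_lit 1103983596291) (nat_lit 23) (nat_lit 5) (nat_lit 29) (nat_lit 5) (nat_lit 24) (nat_lit 5) (nat_lit 244) (nat_lit 239) (nat_lit 117))))))))
noncomputable def xc63 : XT := (XT.nd (nat_lit 62556) (nat_lit 0) (nat_lit 380) (XT.nd (nat_lit 31200) (nat_lit 0) (nat_lit 380) (XT.nd (nat_lit 468) (nat_lit 228) (nat_lit 0) (XT.nd (nat_lit 156) (nat_lit 304) (nat_lit 0) (XT.nd (nat_lit 78) (nat_lit 228) (nat_lit 0) (XT.lf (nat_lit 0) (nat_lit 386173918186) (nat_lit 304) (nat_lit 607832953503) (nat_lit 76) (nat_lit 554107103422) (nat_lit 20) (nat_lit 5) (nat_lit 24) (nat_lit 5) (nat_lit 21) (nat_lit 5) (nat_lit 245) (nat_lit 239) (nat_lit 116)) (XT.lf (nat_lit 0) (nat_lit 499117411551) (nat_lit 228) (nat_lit 140506538083) (nat_lit 304) (nat_lit 1053575064092) (nat_lit 17) (nat_lit 5) (nat_lit 20) (nat_lit 5) (nat_lit 21) (nat_lit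 5) (nat_lit 246) (nat_lit 239) (nat_lit 115))) (XT.nd (nat_lit 78) (nat_lit 304) (nat_lit 0) (XT.lf (nat_lit 0) (nat_lit 969474049611) (nat_lit 304) (nat_lit 70398428068) (nat_lit 76) (nat_lit 817103725435) (nat_lit 17) (nat_lit 5) (nat_lit 21) (nat_lit 5) (nat_lit 18) (nat_lit 5) (nat_lit 247) (nat_lit 239) (nat_lit 114)) (XT.nd (nat_lit 78) (nat_lit 152) (nat_lit 0) (XT.lf (nat_lit 0) (nat_lit 1282086298890) (nat_lit 152) (nat_lit 101435627730) (nat_lit 228) (nat_lit 659020423402) (nat_lit 15) (nat_lit 5) (nat_lit 17) (nat_lit 5) (nat_lit 18) (nat_lit 5) (nat_lit 248) (nat_lit 239) (nat_lit 113)) (XT.lf (nat_lit 0) (nat_lit 591971658337) (nat_lit 152) (nat_lit 1307560376530) (nat_lit 228) (nat_lit 353222980187) (nat_lit 13) (nat_lit 5) (nat_lit 15) (nat_lit 5) (nat_lit 16) (nat_lit 5) (nat_lit 249) (nat_lit 239) (nat_lit 112))))) (XT.nd (nat_lit 30498) (nat_lit 0) (nat_lit 1292) (XT.nd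 (nat_lit 30420) (nat_lit 0) (nat_lit 1292) (XT.lf (nat_lit 0) (nat_lit 489543740534) (nat_lit 228) (nat_lit 1470167519331) (nat_lit 76) (nat_lit 803472640630) (nat_lit 10) (nat_lit 5) (nat_lit 13) (nat_lit 5) (nat_lit 11) (nat_lit 5) (nat_lit 251) (nat_lit 239) (nat_lit 110)) (XT.lf (nat_lit 0) (nat_lit 235725889310) (nat_lit 0) (nat_lit 235725889310) (nat_lit 380) (nat_lit 82770452917) (nat_lit 27) (nat_lit 5) (nat_lit 27) (nat_lit 3) (nat_lit 32) (nat_lit 3) (nat_lit 240) (nat_lit 240) (nat_lit 120))) (XT.nd (nat_lit 78) (nat_lit 0) (nat_lit 0) (XT.lf (nat_lit 76) (nat_lit 129499925748) (nat_lit 0) (nat_lit 894652862575) (nat_lit 456) (nat_lit 166582491436) (nat_lit 28) (nat_lit 5) (nat_lit 27) (nat_lit 5) (nat_lit 33) (nat_lit 5) (nat_lit 241) (nat_lit 240) (nat_lit 119)) (XT.nd (nat_lit 78) (nat_lit 0) (nat_lit 76) (XT.lf (nat_lit 76) (nat_lit 1035814949177) (nat_lit 0) (nat_lit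 113028882097) (nat_lit 456) (nat_lit 134025533656) (nat_lit 28) (nat_lit 5) (nat_lit 27) (nat_lit 5) (nat_lit 33) (nat_lit 5) (nat_lit 242) (nat_lit 240) (nat_lit 118)) (XT.lf (nat_lit 76) (nat_lit 705653879804) (nat_lit 0) (nat_lit 622455071148) (nat_lit 456) (nat_lit 57844978440) (nat_lit 29) (nat_lit 5) (nat_lit 28) (nat_lit 5) (nat_lit 34) (nat_lit 5) (nat_lit 243) (nat_lit 240) (nat_lit 117)))))) (XT.nd (nat_lit 390) (nat_lit 152) (nat_lit 0) (XT.nd (nat_lit 156) (nat_lit 456) (nat_lit 0) (XT.nd (nat_lit 78) (nat_lit 0) (nat_lit 0) (XT.lf (nat_lit 0) (nat_lit 53267954468) (nat_lit 456) (nat_lit 1185155188789) (nat_lit 76) (nat_lit 264021240510) (nat_lit 23) (nat_lit 5) (nat_lit 29) (nat_lit 5) (nat_lit 24) (nat_lit 5) (nat_lit 244) (nat_lit 240) (nat_lit 116)) (XT.lf (nat_lit 0) (nat_lit 215256350627) (nat_lit 456) (nat_lit 148440052786) (nat_lit 76) (nat_lit 1269581118300) (nat_lit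 23) (nat_lit 5) (nat_lit 29) (nat_lit 5) (nat_lit 24) (nat_lit 5) (nat_lit 245) (nat_lit 240) (nat_lit 115))) (XT.nd (nat_lit 78) (nat_lit 228) (nat_lit 0) (XT.lf (nat_lit 0) (nat_lit 444100099257) (nat_lit 304) (nat_lit 699007799200) (nat_lit 76) (nat_lit 637223164537) (nat_lit 20) (nat_lit 5) (nat_lit 24) (nat_lit 5) (nat_lit 21) (nat_lit 5) (nat_lit 246) (nat_lit 240) (nat_lit 114)) (XT.nd (nat_lit 78) (nat_lit 0) (nat_lit 0) (XT.lf (nat_lit 0) (nat_lit 573985112375) (nat_lit 228) (nat_lit 161582513016) (nat_lit 304) (nat_lit 1211611232932) (nat_lit 17) (nat_lit 5) (nat_lit 20) (nat_lit 5) (nat_lit 21) (nat_lit 5) (nat_lit 247) (nat_lit 240) (nat_lit 113)) (XT.lf (nat_lit 0) (nat_lit 1114895229618) (nat_lit 304) (nat_lit 80958108439) (nat_lit 76) (nat_lit 939669289025) (nat_lit 17) (nat_lit 5) (nat_lit 21) (nat_lit 5) (nat_lit 18) (nat_lit 5) (nat_lit 248) (nat_lit 240) (nat_lit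 112))))) (XT.nd (nat_lit 30732) (nat_lit 0) (nat_lit 912) (XT.nd (nat_lit 30654) (nat_lit 0) (nat_lit 912) (XT.lf (nat_lit 0) (nat_lit 1474399320465) (nat_lit 152) (nat_lit 116650960093) (nat_lit 228) (nat_lit 757873416167) (nat_lit 15) (nat_lit 5) (nat_lit 17) (nat_lit 5) (nat_lit 18) (nat_lit 5) (nat_lit 249) (nat_lit 240) (nat_lit 111)) (XT.lf (nat_lit 0) (nat_lit 271084810123) (nat_lit 0) (nat_lit 271084810123) (nat_lit 380) (nat_lit 95185939169) (nat_lit 27) (nat_lit 5) (nat_lit 27) (nat_lit 3) (nat_lit 32) (nat_lit 3) (nat_lit 241) (nat_lit 241) (nat_lit 118))) (XT.nd (nat_lit 78) (nat_lit 0) (nat_lit 0) (XT.lf (nat_lit 76) (nat_lit 148924997302) (nat_lit 0) (nat_lit 1028850839837) (nat_lit 456) (nat_lit 191569722631) (nat_lit 28) (nat_lit 5) (nat_lit 27) (nat_lit 5) (nat_lit 33) (nat_lit 5) (nat_lit 242) (nat_lit 241) (nat_lit 117)) (XT.nd (nat_lit 78) (nat_lit 0) (nat_lit 76)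 (XT.lf (nat_lit 76) (nat_lit 1191187263459) (nat_lit 0) (nat_lit 129983256042) (nat_lit 456) (nat_lit 154129239774) (nat_lit 28) (nat_lit 5) (nat_lit 27) (nat_lit 5) (nat_lit 33) (nat_lit 5) (nat_lit 243) (nat_lit 241) (nat_lit 116)) (XT.lf (nat_lit 76) (nat_lit 811502038025) (nat_lit 0) (nat_lit 715823355262) (nat_lit 456) (nat_lit 66521616400) (nat_lit 29) (nat_lit 5) (nat_lit 28) (nat_lit 5) (nat_lit 34) (nat_lit 5) (nat_lit 244) (nat_lit 241) (nat_lit 115))))))) (XT.nd (nat_lit 31434) (nat_lit 0) (nat_lit 380) (XT.nd (nat_lit 31044) (nat_lit 0) (nat_lit 608) (XT.nd (nat_lit 156) (nat_lit 608) (nat_lit 0) (XT.nd (nat_lit 78) (nat_lit 0) (nat_lit 0) (XT.lf (nat_lit 0) (nat_lit 61258238957) (nat_lit 456) (nat_lit 1362928382727) (nat_lit 76) (nat_lit 303624411425) (nat_lit 23) (nat_lit 5) (nat_lit 29) (nat_lit 5) (nat_lit 24) (nat_lit 5) (nat_lit 245) (nat_lit 241) (nat_lit 114)) (XT.lf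 (nat_lit 0) (nat_lit 247544882629) (nat_lit 456) (nat_lit 170705987329) (nat_lit 76) (nat_lit 1460018272862) (nat_lit 23) (nat_lit 5) (nat_lit 29) (nat_lit 5) (nat_lit 24) (nat_lit 5) (nat_lit 246) (nat_lit 241) (nat_lit 113))) (XT.nd (nat_lit 78) (nat_lit 380) (nat_lit 0) (XT.lf (nat_lit 0) (nat_lit 510715184727) (nat_lit 304) (nat_lit 803858895485) (nat_lit 76) (nat_lit 732806635891) (nat_lit 20) (nat_lit 5) (nat_lit 24) (nat_lit 5) (nat_lit 21) (nat_lit 5) (nat_lit 247) (nat_lit 241) (nat_lit 112)) (XT.nd (nat_lit 156) (nat_lit 152) (nat_lit 0) (XT.lf (nat_lit 0) (nat_lit 660082946596) (nat_lit 228) (nat_lit 185819885598) (nat_lit 304) (nat_lit 1393352849234) (nat_lit 17) (nat_lit 5) (nat_lit 20) (nat_lit 5) (nat_lit 21) (nat_lit 5) (nat_lit 248) (nat_lit 241) (nat_lit 111)) (XT.lf (nat_lit 0) (nat_lit 1695559276563) (nat_lit 152) (nat_lit 134148595187) (nat_lit 228) (nat_lit 871554375100)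 (nat_lit 15) (nat_lit 5) (nat_lit 17) (nat_lit 5) (nat_lit 18) (nat_lit 5) (nat_lit 250) (nat_lit 241) (nat_lit 109))))) (XT.nd (nat_lit 156) (nat_lit 304) (nat_lit 0) (XT.nd (nat_lit 78) (nat_lit 0) (nat_lit 0) (XT.lf (nat_lit 0) (nat_lit 311747559934) (nat_lit 0) (nat_lit 311747559934) (nat_lit 380) (nat_lit 109463768278) (nat_lit 27) (nat_lit 5) (nat_lit 27) (nat_lit 3) (nat_lit 32) (nat_lit 3) (nat_lit 242) (nat_lit 242) (nat_lit 116)) (XT.lf (nat_lit 76) (nat_lit 171263809424) (nat_lit 0) (nat_lit 1183178502014) (nat_lit 456) (nat_lit 220305073260) (nat_lit 28) (nat_lit 5) (nat_lit 27) (nat_lit 5) (nat_lit 33) (nat_lit 5) (nat_lit 243) (nat_lit 242) (nat_lit 115))) (XT.nd (nat_lit 78) (nat_lit 304) (nat_lit 0) (XT.lf (nat_lit 76) (nat_lit 1369865407350) (nat_lit 0) (nat_lit 149480775928) (nat_lit 456) (nat_lit 177248532030) (nat_lit 28) (nat_lit 5) (nat_lit 27) (nat_lit 5) (nat_lit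 33) (nat_lit 5) (nat_lit 244) (nat_lit 242) (nat_lit 114)) (XT.nd (nat_lit 78) (nat_lit 380) (nat_lit 0) (XT.lf (nat_lit 76) (nat_lit 933227401384) (nat_lit 0) (nat_lit 823196876277) (nat_lit 456) (nat_lit 76499776587) (nat_lit 29) (nat_lit 5) (nat_lit 28) (nat_lit 5) (nat_lit 34) (nat_lit 5) (nat_lit 245) (nat_lit 242) (nat_lit 113)) (XT.lf (nat_lit 0) (nat_lit 70447043850) (nat_lit 456) (nat_lit 1567367576332) (nat_lit 76) (nat_lit 349168061676) (nat_lit 23) (nat_lit 5) (nat_lit 29) (nat_lit 5) (nat_lit 24) (nat_lit 5) (nat_lit 246) (nat_lit 242) (nat_lit 112)))))) (XT.nd (nat_lit 31200) (nat_lit 0) (nat_lit 228) (XT.nd (nat_lit 30966) (nat_lit 0) (nat_lit 532) (XT.nd (nat_lit 78) (nat_lit 228) (nat_lit 0) (XT.lf (nat_lit 0) (nat_lit 284676675067) (nat_lit 456) (nat_lit 196311829946) (nat_lit 76) (nat_lit 1679021003823) (nat_lit 23) (nat_lit 5) (nat_lit 29) (nat_lit 5) (nat_lit 24)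 (nat_lit 5) (nat_lit 247) (nat_lit 242) (nat_lit 111)) (XT.lf (nat_lit 0) (nat_lit 587322515806) (nat_lit 304) (nat_lit 924437674159) (nat_lit 76) (nat_lit 842727628759) (nat_lit 20) (nat_lit 5) (nat_lit 24) (nat_lit 5) (nat_lit 21) (nat_lit 5) (nat_lit 248) (nat_lit 242) (nat_lit 110))) (XT.nd (nat_lit 78) (nat_lit 0) (nat_lit 0) (XT.lf (nat_lit 0) (nat_lit 358509715317) (nat_lit 0) (nat_lit 358509715317) (nat_lit 380) (nat_lit 125883286815) (nat_lit 27) (nat_lit 5) (nat_lit 27) (nat_lit 3) (nat_lit 32) (nat_lit 3) (nat_lit 243) (nat_lit 243) (nat_lit 114)) (XT.nd (nat_lit 78) (nat_lit 0) (nat_lit 0) (XT.lf (nat_lit 76) (nat_lit 196953428117) (nat_lit 0) (nat_lit 1360655304689) (nat_lit 456) (nat_lit 253350752763) (nat_lit 28) (nat_lit 5) (nat_lit 27) (nat_lit 5) (nat_lit 33) (nat_lit 5) (nat_lit 244) (nat_lit 243) (nat_lit 113)) (XT.lf (nat_lit 76) (nat_lit 1575345259565) (nat_lit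 0) (nat_lit 171902916120) (nat_lit 456) (nat_lit 203835740977) (nat_lit 28) (nat_lit 5) (nat_lit 27) (nat_lit 5) (nat_lit 33) (nat_lit 5) (nat_lit 245) (nat_lit 243) (nat_lit 112))))) (XT.nd (nat_lit 31122) (nat_lit 0) (nat_lit 304) (XT.nd (nat_lit 78) (nat_lit 380) (nat_lit 0) (XT.lf (nat_lit 76) (nat_lit 1073211555188) (nat_lit 0) (nat_lit 946676421121) (nat_lit 456) (nat_lit 87974680865) (nat_lit 29) (nat_lit 5) (nat_lit 28) (nat_lit 5) (nat_lit 34) (nat_lit 5) (nat_lit 246) (nat_lit 243) (nat_lit 111)) (XT.lf (nat_lit 0) (nat_lit 81014152640) (nat_lit 456) (nat_lit 1802472664536) (nat_lit 76) (nat_lit 401543262259) (nat_lit 23) (nat_lit 5) (nat_lit 29) (nat_lit 5) (nat_lit 24) (nat_lit 5) (nat_lit 247) (nat_lit 243) (nat_lit 110))) (XT.nd (nat_lit 78) (nat_lit 0) (nat_lit 0) (XT.lf (nat_lit 0) (nat_lit 412286188790) (nat_lit 0) (nat_lit 412286188790) (nat_lit 380) (nat_lit 144765744522)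 (nat_lit 27) (nat_lit 5) (nat_lit 27) (nat_lit 3) (nat_lit 32) (nat_lit 3) (nat_lit 244) (nat_lit 244) (nat_lit 112)) (XT.nd (nat_lit 78) (nat_lit 0) (nat_lit 0) (XT.lf (nat_lit 76) (nat_lit 226496478085) (nat_lit 0) (nat_lit 1564753621091) (nat_lit 456) (nat_lit 291353304062) (nat_lit 28) (nat_lit 5) (nat_lit 27) (nat_lit 5) (nat_lit 33) (nat_lit 5) (nat_lit 245) (nat_lit 244) (nat_lit 111)) (XT.lf (nat_lit 76) (nat_lit 1811647079587) (nat_lit 0) (nat_lit 197688371536) (nat_lit 456) (nat_lit 234411048545) (nat_lit 28) (nat_lit 5) (nat_lit 27) (nat_lit 5) (nat_lit 33) (nat_lit 5) (nat_lit 246) (nat_lit 244) (nat_lit 110))))))))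

set_option maxRecDepth 10000000 in
noncomputable def Tp : PT := (PT.nd (nat_lit 3166878) pc0 pc1)

set_option maxRecDepth 10000000 in
noncomputable def Tx : XT := (XT.nd (nat_lit 5306418) (nat_lit 0) (nat_lit 76) XT.nil (XT.nd (nat_lit 2344680) (nat_lit 0) (nat_lit 0) (XT.nd (nat_lit 1122030) (nat_lit 0) (nat_lit 0) (XT.nd (nat_lit 778362) (nat_lit 0) (nat_lit 0) (XT.nd (nat_lit 530946) (nat_lit 0) (nat_lit 0) (XT.nd (nat_lit 374400) (nat_lit 0) (nat_lit 0) (XT.nd (nat_lit 250068) (nat_lit 0) (nat_lit 0) (XT.nd (nat_lit 186966) (nat_lit 0) (nat_lit 0) xc0 xc1) (XT.nd (nat_lit 62478) (nat_lit 0) (nat_lit 0) xc2 xc3)) (XT.nd (nat_lit 93132) (nat_lit 0) (nat_lit 0) (XT.nd (nat_lit 32214) (nat_lit 0) (nat_lit 0) xc4 xc5) (XT.nd (nat_lit 31746) (nat_lit 0) (nat_lit 0) xc6 xc7))) (XT.nd (nat_lit 124878) (nat_lit 0) (nat_lit 0) (XT.nd (nat_lit 62712) (nat_lit 0) (nat_lit 0) (XT.nd (nat_lit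 31434) (nat_lit 0) (nat_lit 0) xc8 xc9) (XT.nd (nat_lit 31122) (nat_lit 0) (nat_lit 0) xc10 xc11)) (XT.nd (nat_lit 61464) (nat_lit 0) (nat_lit 0) (XT.nd (nat_lit 30810) (nat_lit 0) (nat_lit 0) xc12 xc13) (XT.nd (nat_lit 30576) (nat_lit 0) (nat_lit 0) xc14 xc15)))) (XT.nd (nat_lit 159042) (nat_lit 0) (nat_lit 0) (XT.nd (nat_lit 93444) (nat_lit 0) (nat_lit 0) (XT.nd (nat_lit 33306) (nat_lit 0) (nat_lit 0) (XT.nd (nat_lit 3042) (nat_lit 0) (nat_lit 0) xc16 xc17) (XT.nd (nat_lit 30108) (nat_lit 0) (nat_lit 0) xc18 xc19)) (XT.nd (nat_lit 32838) (nat_lit 0) (nat_lit 0) (XT.nd (nat_lit 3042) (nat_lit 0) (nat_lit 0) xc20 xc21) (XT.nd (nat_lit 29640) (nat_lit 0) (nat_lit 0) xc22 xc23))) (XT.nd (nat_lit 91884) (nat_lit 0) (nat_lit 0) (XT.nd (nat_lit 59046) (nat_lit 0) (nat_lit 0) (XT.nd (nat_lit 29484) (nat_lit 0) (nat_lit 0) xc24 xc25) (XT.nd (nat_lit 3042) (nat_lit 0) (nat_lit 0) xc26 xc27))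 (XT.nd (nat_lit 32838) (nat_lit 0) (nat_lit 0) (XT.nd (nat_lit 29796) (nat_lit 0) (nat_lit 0) xc28 xc29) (XT.nd (nat_lit 29874) (nat_lit 0) (nat_lit 0) xc30 xc31))))) (XT.nd (nat_lit 378846) (nat_lit 0) (nat_lit 0) (XT.nd (nat_lit 187746) (nat_lit 0) (nat_lit 0) (XT.nd (nat_lit 66222) (nat_lit 0) (nat_lit 0) (XT.nd (nat_lit 33072) (nat_lit 0) (nat_lit 0) (XT.nd (nat_lit 3042) (nat_lit 0) (nat_lit 0) xc32 xc33) (XT.nd (nat_lit 30108) (nat_lit 0) (nat_lit 0) xc34 xc35)) (XT.nd (nat_lit 60528) (nat_lit 0) (nat_lit 0) (XT.nd (nat_lit 30186) (nat_lit 0) (nat_lit 0) xc36 xc37) (XT.nd (nat_lit 30420) (nat_lit 0) (nat_lit 0) xc38 xc39))) (XT.nd (nat_lit 95082) (nat_lit 0) (nat_lit 0) (XT.nd (nat_lit 33618) (nat_lit 0) (nat_lit 0) (XT.nd (nat_lit 3042) (nat_lit 0) (nat_lit 0) xc40 xc41) (XT.nd (nat_lit 30654) (nat_lit 0) (nat_lit 0) xc42 xc43)) (XT.nd (nat_lit 61854) (nat_lit 0) (nat_lit 0)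 (XT.nd (nat_lit 30888) (nat_lit 0) (nat_lit 0) xc44 xc45) (XT.nd (nat_lit 3042) (nat_lit 0) (nat_lit 0) xc46 xc47)))) (XT.nd (nat_lit 280956) (nat_lit 0) (nat_lit 76) (XT.nd (nat_lit 153738) (nat_lit 0) (nat_lit 0) (XT.nd (nat_lit 62400) (nat_lit 0) (nat_lit 0) (XT.nd (nat_lit 31122) (nat_lit 0) (nat_lit 0) xc48 xc49) (XT.nd (nat_lit 31356) (nat_lit 0) (nat_lit 0) xc50 xc51)) (XT.nd (nat_lit 63414) (nat_lit 0) (nat_lit 0) (XT.nd (nat_lit 31668) (nat_lit 0) (nat_lit 0) xc52 xc53) (XT.nd (nat_lit 31824) (nat_lit 0) (nat_lit 0) xc54 xc55))) (XT.nd (nat_lit 187668) (nat_lit 0) (nat_lit 152) (XT.nd (nat_lit 93366) (nat_lit 0) (nat_lit 76) (XT.nd (nat_lit 61152) (nat_lit 0) (nat_lit 76) xc56 xc57) (XT.nd (nat_lit 61698) (nat_lit 0) (nat_lit 76) xc58 xc59)) (XT.nd (nat_lit 125190) (nat_lit 0) (nat_lit 228) (XT.nd (nat_lit 62400) (nat_lit 0) (nat_lit 76) xc60 xc61) (XT.nd (nat_lit 93444) (nat_lit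 0) (nat_lit 228) xc62 xc63)))))) XT.nil))

set_option maxRecDepth 10000000 in
noncomputable def Te : XT := XT.nil

set_option maxRecDepth 10000000 in
noncomputable def Tz : ZL := (ZL.cons (nat_lit 76) (nat_lit 3) (nat_lit 78765735570022635179) (ZL.cons (nat_lit 152) (nat_lit 6) (nat_lit 149220355840754279116) (ZL.cons (nat_lit 228) (nat_lit 6) (nat_lit 142376913062227355818) (ZL.cons (nat_lit 304) (nat_lit 3) (nat_lit 70557214713518860088) (ZL.cons (nat_lit 380) (nat_lit 6) (nat_lit 134506953866921394030) (ZL.cons (nat_lit 456) (nat_lit 6) (nat_lit 129268652464663894298) (ZL.cons (nat_lit 532) (nat_lit 3) (nat_lit 64085420303988627302) (ZL.cons (nat_lit 608) (nat_lit 6) (nat_lit 125297036714568878594) (ZL.cons (nat_lit 684) (nat_lit 6) (nat_lit 123244605852067769606) (ZL.cons (nat_lit 760) (nat_lit 6) (nat_lit 119631866745272970840) (ZL.cons (nat_lit 836) (nat_lit 3) (nat_lit 59338623869729250773)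 (ZL.cons (nat_lit 912) (nat_lit 6) (nat_lit 116088455254600033884) (ZL.cons (nat_lit 988) (nat_lit 6) (nat_lit 117261939261590351380) (ZL.cons (nat_lit 1064) (nat_lit 6) (nat_lit 115477216772458952262) (ZL.cons (nat_lit 1140) (nat_lit 3) (nat_lit 56477113078714884825) (ZL.cons (nat_lit 1216) (nat_lit 6) (nat_lit 113581903649540869704) (ZL.cons (nat_lit 1292) (nat_lit 3) (nat_lit 56375900083111969940) (ZL.cons (nat_lit 1368) (nat_lit 6) (nat_lit 111402293558185074764) (ZL.cons (nat_lit 1444) (nat_lit 1) (nat_lit 18446744073709551617) ZL.nil)))))))))))))))))))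

noncomputable def vl : XL := ⟨(nat_lit 0), (nat_lit 76), (nat_lit 335034215), (nat_lit 228), (nat_lit 115281847), (nat_lit 76), (nat_lit 335034215), (nat_lit 1), (nat_lit 5), (nat_lit 3), (nat_lit 4), (nat_lit 1), (nat_lit 4), (nat_lit 0), (nat_lit 0), (nat_lit 0)⟩

noncomputable def cp0 : Nat := (nat_lit 610595026527508897916625944280386338249756050438536571400730224744873866166143965507289450565094288796135370416185916429479937194465303581766471026666681286697885084840241513083821347379515830983085197404984055059335866826049554161373830945081037882216614695524739262725460010329927413671148739691576130973344194337994341180850530334966641731386221321550900013226834763974056561018013444751221646906654640585090433691866281297974659975930787176592179200)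

noncomputable def cp1 : Nat := (nat_lit 27322347292132413871773616671812585783519870530998110794422759283555513050992245533229575785115367822888178745234400690037193592058650751139785325207529736257293619022683811742094178651404429766732464628957773907446139010465218127576325900084868014385714824907588532324693745029004229444383660188054996512967083840139463341121755506402324006775911160637237236434656754787720908776321189025351934589215719730710644928117129649445627297086233534556479596626901921167814508522987045282131551244982929617064408531387378346701082135422611278476604394885380050283036556564211603057820885398831217723917859810201657579702559173551196899061759747734508766056272291541741657564805266860919442140259531905015058713022220170212069888428969299907927598586065738438204369238532631247012213066114071878062538434829909227749873841293742076844014545509248961972931889246455662098283079087662768071386120729472088301783634197875544636967564726089480338712478797795412971034564033213619588091991541135582835174681934897152329610380316124381184)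

noncomputable def rc0 : Nat := (nat_lit 27322347292132413871773616671812585783519870530998110794422759283555513050992245533229575785115367822888178745234400690037193592058650751139785325207529736257293619022683811742094178651404429766732464628957773907446139010465218127576325900084868014385714824907588532324693745029004229444383660188054996512967083840139463341121755506402324006775911160637237236434656754787720908776321189025351934589215719730710644928117129649445627297086233534556479596626901921167814508522987045282131551244982929617064408531387378346701082135422611278476604394885380050283036556564211603057820885398831217723917859810201657579702559173551196899061759747734508766056272291541741657564805266860919442140259531905015058713022220170212069888428969299907927598586065738438204369238532631247012213066114071878062538434829909227749873841293742076844014545509248961972931889246455662098283079087662768071386120729472088301783634197875544636967564726089480338712478797795412971034564033213619588091991541135582835174681934897152329610380316124381184)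

end Vale.Agent.Lib.P154.PChain.BY.S1
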