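import Vale.Agent.Lib.P154.PChain.BY.R1_0

set_option linter.all false

namespace Vale.Agent.Lib.P154.PChain.BY.S2

open Vale.Agent.Lib.P154.Chain

noncomputable def pc0 : PT := (PT.nd (nat_lit 4211532) (PT.nd (nat_lit 4061850) (PT.nd (nat_lit 3986736) (PT.nd (nat_lit 3911856) (PT.nd (nat_lit 3874416) (PT.nd (nat_lit 3874338) PT.nil (PT.lf (nat_lit 76) (nat_lit 6) (nat_lit 1) (nat_lit 3) (nat_lit 128) (nat_lit 103) (nat_lit 129))) (PT.nd (nat_lit 37362) (PT.lf (nat_lit 76) (nat_lit 6) (nat_lit 1) (nat_lit 1) (nat_lit 129) (nat_lit 103) (nat_lit 128)) (PT.lf (nat_lit 152) (nat_lit 6) (nat_lit 2) (nat_lit 3) (nat_lit 127) (nat_lit 104) (nat_lit 129)))) (PT.nd (nat_lit 37440) (PT.nd (nat_lit 78) (PT.lf (nat_lit 228) (nat_lit 3) (nat_lit 3) (nat_lit 1) (nat_lit 128) (nat_lit 104) (nat_lit 128)) (PT.lf (nat_lit 152) (nat_lit 6) (nat_lit 2) (nat_lit 1) (nat_lit 129) (nat_lit 104) (nat_lit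 127))) (PT.nd (nat_lit 78) (PT.lf (nat_lit 304) (nat_lit 6) (nat_lit 4) (nat_lit 3) (nat_lit 127) (nat_lit 105) (nat_lit 128)) (PT.lf (nat_lit 304) (nat_lit 6) (nat_lit 4) (nat_lit 1) (nat_lit 128) (nat_lit 105) (nat_lit 127))))) (PT.nd (nat_lit 37518) (PT.nd (nat_lit 78) (PT.lf (nat_lit 380) (nat_lit 6) (nat_lit 5) (nat_lit 3) (nat_lit 126) (nat_lit 106) (nat_lit 128)) (PT.nd (nat_lit 78) (PT.lf (nat_lit 456) (nat_lit 3) (nat_lit 6) (nat_lit 1) (nat_lit 127) (nat_lit 106) (nat_lit 127)) (PT.lf (nat_lit 380) (nat_lit 6) (nat_lit 5) (nat_lit 1) (nat_lit 128) (nat_lit 106) (nat_lit 126)))) (PT.nd (nat_lit 37440) (PT.nd (nat_lit 78) (PT.lf (nat_lit 532) (nat_lit 6) (nat_lit 7) (nat_lit 3) (nat_lit 126) (nat_lit 107) (nat_lit 127)) (PT.lf (nat_lit 532) (nat_lit 6) (nat_lit 7) (nat_lit 1) (nat_lit 127) (nat_lit 107) (nat_lit 126))) (PT.nd (nat_lit 78) (PT.lf (nat_lit 608) (nat_lit 6) (nat_lit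 8) (nat_lit 3) (nat_lit 125) (nat_lit 108) (nat_lit 127)) (PT.lf (nat_lit 684) (nat_lit 3) (nat_lit 9) (nat_lit 1) (nat_lit 126) (nat_lit 108) (nat_lit 126)))))) (PT.nd (nat_lit 74880) (PT.nd (nat_lit 37440) (PT.nd (nat_lit 37284) (PT.lf (nat_lit 608) (nat_lit 6) (nat_lit 8) (nat_lit 1) (nat_lit 127) (nat_lit 108) (nat_lit 125)) (PT.nd (nat_lit 78) (PT.lf (nat_lit 760) (nat_lit 6) (nat_lit 10) (nat_lit 3) (nat_lit 124) (nat_lit 109) (nat_lit 127)) (PT.lf (nat_lit 836) (nat_lit 6) (nat_lit 11) (nat_lit 3) (nat_lit 125) (nat_lit 109) (nat_lit 126)))) (PT.nd (nat_lit 37284) (PT.nd (nat_lit 78) (PT.lf (nat_lit 836) (nat_lit 6) (nat_lit 11) (nat_lit 1) (nat_lit 126) (nat_lit 109) (nat_lit 125)) (PT.lf (nat_lit 760) (nat_lit 6) (nat_lit 10) (nat_lit 1) (nat_lit 127) (nat_lit 109) (nat_lit 124))) (PT.nd (nat_lit 78) (PT.lf (nat_lit 912) (nat_lit 6) (nat_lit 12) (nat_lit 3) (nat_lit 123)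 (nat_lit 110) (nat_lit 127)) (PT.lf (nat_lit 988) (nat_lit 6) (nat_lit 13) (nat_lit 3) (nat_lit 124) (nat_lit 110) (nat_lit 126))))) (PT.nd (nat_lit 37362) (PT.nd (nat_lit 78) (PT.lf (nat_lit 1064) (nat_lit 3) (nat_lit 14) (nat_lit 1) (nat_lit 125) (nat_lit 110) (nat_lit 125)) (PT.nd (nat_lit 78) (PT.lf (nat_lit 988) (nat_lit 6) (nat_lit 13) (nat_lit 1) (nat_lit 126) (nat_lit 110) (nat_lit 124)) (PT.lf (nat_lit 912) (nat_lit 6) (nat_lit 12) (nat_lit 1) (nat_lit 127) (nat_lit 110) (nat_lit 123)))) (PT.nd (nat_lit 156) (PT.nd (nat_lit 78) (PT.lf (nat_lit 1140) (nat_lit 6) (nat_lit 15) (nat_lit 3) (nat_lit 123) (nat_lit 111) (nat_lit 126)) (PT.lf (nat_lit 1216) (nat_lit 6) (nat_lit 16) (nat_lit 3) (nat_lit 124) (nat_lit 111) (nat_lit 125))) (PT.nd (nat_lit 78) (PT.lf (nat_lit 1216) (nat_lit 6) (nat_lit 16) (nat_lit 1) (nat_lit 125) (nat_lit 111) (nat_lit 124)) (PT.lf (nat_lit 1140) (nat_lit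 6) (nat_lit 15) (nat_lit 1) (nat_lit 126) (nat_lit 111) (nat_lit 123))))))) (PT.nd (nat_lit 75114) (PT.nd (nat_lit 37596) (PT.nd (nat_lit 234) (PT.nd (nat_lit 78) (PT.lf (nat_lit 1292) (nat_lit 6) (nat_lit 17) (nat_lit 3) (nat_lit 122) (nat_lit 112) (nat_lit 126)) (PT.nd (nat_lit 78) (PT.lf (nat_lit 1368) (nat_lit 6) (nat_lit 18) (nat_lit 3) (nat_lit 123) (nat_lit 112) (nat_lit 125)) (PT.lf (nat_lit 1444) (nat_lit 3) (nat_lit 19) (nat_lit 1) (nat_lit 124) (nat_lit 112) (nat_lit 124)))) (PT.nd (nat_lit 37206) (PT.nd (nat_lit 78) (PT.lf (nat_lit 1368) (nat_lit 6) (nat_lit 18) (nat_lit 1) (nat_lit 125) (nat_lit 112) (nat_lit 123)) (PT.lf (nat_lit 1292) (nat_lit 6) (nat_lit 17) (nat_lit 1) (nat_lit 126) (nat_lit 112) (nat_lit 122))) (PT.nd (nat_lit 78) (PT.lf (nat_lit 1520) (nat_lit 6) (nat_lit 20) (nat_lit 3) (nat_lit 121) (nat_lit 113) (nat_lit 126)) (PT.lf (nat_lit 1596) (nat_lit 6)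 (nat_lit 21) (nat_lit 3) (nat_lit 122) (nat_lit 113) (nat_lit 125))))) (PT.nd (nat_lit 234) (PT.nd (nat_lit 78) (PT.lf (nat_lit 1672) (nat_lit 6) (nat_lit 22) (nat_lit 3) (nat_lit 123) (nat_lit 113) (nat_lit 124)) (PT.nd (nat_lit 78) (PT.lf (nat_lit 1672) (nat_lit 6) (nat_lit 22) (nat_lit 1) (nat_lit 124) (nat_lit 113) (nat_lit 123)) (PT.lf (nat_lit 1596) (nat_lit 6) (nat_lit 21) (nat_lit 1) (nat_lit 125) (nat_lit 113) (nat_lit 122)))) (PT.nd (nat_lit 37128) (PT.nd (nat_lit 37050) (PT.lf (nat_lit 1520) (nat_lit 6) (nat_lit 20) (nat_lit 1) (nat_lit 126) (nat_lit 113) (nat_lit 121)) (PT.lf (nat_lit 1748) (nat_lit 6) (nat_lit 23) (nat_lit 3) (nat_lit 120) (nat_lit 114) (nat_lit 126))) (PT.nd (nat_lit 78) (PT.lf (nat_lit 1824) (nat_lit 6) (nat_lit 24) (nat_lit 3) (nat_lit 121) (nat_lit 114) (nat_lit 125)) (PT.lf (nat_lit 1900) (nat_lit 6) (nat_lit 25) (nat_lit 3) (nat_lit 122) (nat_lit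 114) (nat_lit 124)))))) (PT.nd (nat_lit 37518) (PT.nd (nat_lit 234) (PT.nd (nat_lit 78) (PT.lf (nat_lit 1976) (nat_lit 3) (nat_lit 26) (nat_lit 1) (nat_lit 123) (nat_lit 114) (nat_lit 123)) (PT.nd (nat_lit 78) (PT.lf (nat_lit 1900) (nat_lit 6) (nat_lit 25) (nat_lit 1) (nat_lit 124) (nat_lit 114) (nat_lit 122)) (PT.lf (nat_lit 1824) (nat_lit 6) (nat_lit 24) (nat_lit 1) (nat_lit 125) (nat_lit 114) (nat_lit 121)))) (PT.nd (nat_lit 37128) (PT.nd (nat_lit 37050) (PT.lf (nat_lit 1748) (nat_lit 6) (nat_lit 23) (nat_lit 1) (nat_lit 126) (nat_lit 114) (nat_lit 120)) (PT.lf (nat_lit 2204) (nat_lit 6) (nat_lit 29) (nat_lit 3) (nat_lit 120) (nat_lit 115) (nat_lit 125))) (PT.nd (nat_lit 78) (PT.lf (nat_lit 2280) (nat_lit 6) (nat_lit 30) (nat_lit 3) (nat_lit 121) (nat_lit 115) (nat_lit 124)) (PT.lf (nat_lit 2356) (nat_lit 6) (nat_lit 31) (nat_lit 3) (nat_lit 122) (nat_lit 115) (nat_lit 123)))))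 (PT.nd (nat_lit 37284) (PT.nd (nat_lit 156) (PT.nd (nat_lit 78) (PT.lf (nat_lit 2356) (nat_lit 6) (nat_lit 31) (nat_lit 1) (nat_lit 123) (nat_lit 115) (nat_lit 122)) (PT.lf (nat_lit 2280) (nat_lit 6) (nat_lit 30) (nat_lit 1) (nat_lit 124) (nat_lit 115) (nat_lit 121))) (PT.nd (nat_lit 37050) (PT.lf (nat_lit 2204) (nat_lit 6) (nat_lit 29) (nat_lit 1) (nat_lit 125) (nat_lit 115) (nat_lit 120)) (PT.lf (nat_lit 2128) (nat_lit 6) (nat_lit 28) (nat_lit 3) (nat_lit 119) (nat_lit 116) (nat_lit 125)))) (PT.nd (nat_lit 156) (PT.nd (nat_lit 78) (PT.lf (nat_lit 2584) (nat_lit 6) (nat_lit 34) (nat_lit 3) (nat_lit 120) (nat_lit 116) (nat_lit 124)) (PT.lf (nat_lit 2660) (nat_lit 6) (nat_lit 35) (nat_lit 3) (nat_lit 121) (nat_lit 116) (nat_lit 123))) (PT.nd (nat_lit 78) (PT.lf (nat_lit 2736) (nat_lit 3) (nat_lit 36) (nat_lit 1) (nat_lit 122) (nat_lit 116) (nat_lit 122)) (PT.lf (nat_lit 2660) (nat_lit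 6) (nat_lit 35) (nat_lit 1) (nat_lit 123) (nat_lit 116) (nat_lit 121))))))))
noncomputable def pc1 : PT := (PT.nd (nat_lit 112632) (PT.nd (nat_lit 74802) (PT.nd (nat_lit 37440) (PT.nd (nat_lit 37128) (PT.nd (nat_lit 78) (PT.lf (nat_lit 2584) (nat_lit 6) (nat_lit 34) (nat_lit 1) (nat_lit 124) (nat_lit 116) (nat_lit 120)) (PT.nd (nat_lit 36972) (PT.lf (nat_lit 2128) (nat_lit 6) (nat_lit 28) (nat_lit 1) (nat_lit 125) (nat_lit 116) (nat_lit 119)) (PT.lf (nat_lit 2052) (nat_lit 6) (nat_lit 27) (nat_lit 3) (nat_lit 118) (nat_lit 117) (nat_lit 125)))) (PT.nd (nat_lit 156) (PT.nd (nat_lit 78) (PT.lf (nat_lit 2508) (nat_lit 6) (nat_lit 33) (nat_lit 3) (nat_lit 119) (nat_lit 117) (nat_lit 124)) (PT.lf (nat_lit 2888) (nat_lit 6) (nat_lit 38) (nat_lit 3) (nat_lit 120) (nat_lit 117) (nat_lit 123))) (PT.nd (nat_lit 78) (PT.lf (nat_lit 2964) (nat_lit 6) (nat_lit 39) (nat_lit 3) (nat_lit 121) (nat_lit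 117) (nat_lit 122)) (PT.lf (nat_lit 2964) (nat_lit 6) (nat_lit 39) (nat_lit 1) (nat_lit 122) (nat_lit 117) (nat_lit 121))))) (PT.nd (nat_lit 37050) (PT.nd (nat_lit 78) (PT.lf (nat_lit 2888) (nat_lit 6) (nat_lit 38) (nat_lit 1) (nat_lit 123) (nat_lit 117) (nat_lit 120)) (PT.nd (nat_lit 78) (PT.lf (nat_lit 2508) (nat_lit 6) (nat_lit 33) (nat_lit 1) (nat_lit 124) (nat_lit 117) (nat_lit 119)) (PT.lf (nat_lit 2052) (nat_lit 6) (nat_lit 27) (nat_lit 1) (nat_lit 125) (nat_lit 117) (nat_lit 118)))) (PT.nd (nat_lit 156) (PT.nd (nat_lit 78) (PT.lf (nat_lit 2052) (nat_lit 6) (nat_lit 27) (nat_lit 5) (nat_lit 117) (nat_lit 118) (nat_lit 125)) (PT.lf (nat_lit 2432) (nat_lit 3) (nat_lit 32) (nat_lit 3) (nat_lit 118) (nat_lit 118) (nat_lit 124))) (PT.nd (nat_lit 78) (PT.lf (nat_lit 2812) (nat_lit 6) (nat_lit 37) (nat_lit 3) (nat_lit 119) (nat_lit 118) (nat_lit 123)) (PT.lf (nat_lit 3116) (nat_lit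 6) (nat_lit 41) (nat_lit 3) (nat_lit 120) (nat_lit 118) (nat_lit 122)))))) (PT.nd (nat_lit 37284) (PT.nd (nat_lit 234) (PT.nd (nat_lit 78) (PT.lf (nat_lit 3192) (nat_lit 3) (nat_lit 42) (nat_lit 1) (nat_lit 121) (nat_lit 118) (nat_lit 121)) (PT.nd (nat_lit 78) (PT.lf (nat_lit 3116) (nat_lit 6) (nat_lit 41) (nat_lit 1) (nat_lit 122) (nat_lit 118) (nat_lit 120)) (PT.lf (nat_lit 2812) (nat_lit 6) (nat_lit 37) (nat_lit 1) (nat_lit 123) (nat_lit 118) (nat_lit 119)))) (PT.nd (nat_lit 36894) (PT.nd (nat_lit 78) (PT.lf (nat_lit 2432) (nat_lit 3) (nat_lit 32) (nat_lit 0) (nat_lit 124) (nat_lit 118) (nat_lit 118)) (PT.lf (nat_lit 2052) (nat_lit 6) (nat_lit 27) (nat_lit 0) (nat_lit 125) (nat_lit 118) (nat_lit 117))) (PT.nd (nat_lit 78) (PT.lf (nat_lit 2128) (nat_lit 6) (nat_lit 28) (nat_lit 5) (nat_lit 116) (nat_lit 119) (nat_lit 125)) (PT.lf (nat_lit 2508) (nat_lit 6) (nat_lit 33) (nat_lit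 5) (nat_lit 117) (nat_lit 119) (nat_lit 124))))) (PT.nd (nat_lit 234) (PT.nd (nat_lit 78) (PT.lf (nat_lit 2812) (nat_lit 6) (nat_lit 37) (nat_lit 5) (nat_lit 118) (nat_lit 119) (nat_lit 123)) (PT.nd (nat_lit 78) (PT.lf (nat_lit 3040) (nat_lit 3) (nat_lit 40) (nat_lit 3) (nat_lit 119) (nat_lit 119) (nat_lit 122)) (PT.lf (nat_lit 3268) (nat_lit 6) (nat_lit 43) (nat_lit 3) (nat_lit 120) (nat_lit 119) (nat_lit 121)))) (PT.nd (nat_lit 156) (PT.nd (nat_lit 78) (PT.lf (nat_lit 3268) (nat_lit 6) (nat_lit 43) (nat_lit 1) (nat_lit 121) (nat_lit 119) (nat_lit 120)) (PT.lf (nat_lit 3040) (nat_lit 3) (nat_lit 40) (nat_lit 0) (nat_lit 122) (nat_lit 119) (nat_lit 119))) (PT.nd (nat_lit 78) (PT.lf (nat_lit 2812) (nat_lit 6) (nat_lit 37) (nat_lit 0) (nat_lit 123) (nat_lit 119) (nat_lit 118)) (PT.lf (nat_lit 2508) (nat_lit 6) (nat_lit 33) (nat_lit 0) (nat_lit 124) (nat_lit 119) (nat_lit 117)))))))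 (PT.nd (nat_lit 74100) (PT.nd (nat_lit 37128) (PT.nd (nat_lit 36816) (PT.nd (nat_lit 36660) (PT.lf (nat_lit 2128) (nat_lit 6) (nat_lit 28) (nat_lit 0) (nat_lit 125) (nat_lit 119) (nat_lit 116)) (PT.nd (nat_lit 78) (PT.lf (nat_lit 1748) (nat_lit 6) (nat_lit 23) (nat_lit 5) (nat_lit 114) (nat_lit 120) (nat_lit 126)) (PT.lf (nat_lit 2204) (nat_lit 6) (nat_lit 29) (nat_lit 5) (nat_lit 115) (nat_lit 120) (nat_lit 125)))) (PT.nd (nat_lit 156) (PT.nd (nat_lit 78) (PT.lf (nat_lit 2584) (nat_lit 6) (nat_lit 34) (nat_lit 5) (nat_lit 116) (nat_lit 120) (nat_lit 124)) (PT.lf (nat_lit 2888) (nat_lit 6) (nat_lit 38) (nat_lit 5) (nat_lit 117) (nat_lit 120) (nat_lit 123))) (PT.nd (nat_lit 78) (PT.lf (nat_lit 3116) (nat_lit 6) (nat_lit 41) (nat_lit 5) (nat_lit 118) (nat_lit 120) (nat_lit 122)) (PT.lf (nat_lit 3268) (nat_lit 6) (nat_lit 43) (nat_lit 5) (nat_lit 119) (nat_lit 120) (nat_lit 121)))))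 (PT.nd (nat_lit 234) (PT.nd (nat_lit 78) (PT.lf (nat_lit 3344) (nat_lit 1) (nat_lit 44) (nat_lit 0) (nat_lit 120) (nat_lit 120) (nat_lit 120)) (PT.nd (nat_lit 78) (PT.lf (nat_lit 3268) (nat_lit 6) (nat_lit 43) (nat_lit 0) (nat_lit 121) (nat_lit 120) (nat_lit 119)) (PT.lf (nat_lit 3116) (nat_lit 6) (nat_lit 41) (nat_lit 0) (nat_lit 122) (nat_lit 120) (nat_lit 118)))) (PT.nd (nat_lit 156) (PT.nd (nat_lit 78) (PT.lf (nat_lit 2888) (nat_lit 6) (nat_lit 38) (nat_lit 0) (nat_lit 123) (nat_lit 120) (nat_lit 117)) (PT.lf (nat_lit 2584) (nat_lit 6) (nat_lit 34) (nat_lit 0) (nat_lit 124) (nat_lit 120) (nat_lit 116))) (PT.nd (nat_lit 78) (PT.lf (nat_lit 2204) (nat_lit 6) (nat_lit 29) (nat_lit 0) (nat_lit 125) (nat_lit 120) (nat_lit 115)) (PT.lf (nat_lit 1748) (nat_lit 6) (nat_lit 23) (nat_lit 0) (nat_lit 126) (nat_lit 120) (nat_lit 114)))))) (PT.nd (nat_lit 546) (PT.nd (nat_lit 234) (PT.nd (nat_lit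 78) (PT.lf (nat_lit 1520) (nat_lit 6) (nat_lit 20) (nat_lit 5) (nat_lit 113) (nat_lit 121) (nat_lit 126)) (PT.nd (nat_lit 78) (PT.lf (nat_lit 1824) (nat_lit 6) (nat_lit 24) (nat_lit 5) (nat_lit 114) (nat_lit 121) (nat_lit 125)) (PT.lf (nat_lit 2280) (nat_lit 6) (nat_lit 30) (nat_lit 5) (nat_lit 115) (nat_lit 121) (nat_lit 124)))) (PT.nd (nat_lit 156) (PT.nd (nat_lit 78) (PT.lf (nat_lit 2660) (nat_lit 6) (nat_lit 35) (nat_lit 5) (nat_lit 116) (nat_lit 121) (nat_lit 123)) (PT.lf (nat_lit 2964) (nat_lit 6) (nat_lit 39) (nat_lit 5) (nat_lit 117) (nat_lit 121) (nat_lit 122))) (PT.nd (nat_lit 78) (PT.lf (nat_lit 3192) (nat_lit 3) (nat_lit 42) (nat_lit 4) (nat_lit 118) (nat_lit 121) (nat_lit 121)) (PT.lf (nat_lit 3268) (nat_lit 6) (nat_lit 43) (nat_lit 4) (nat_lit 119) (nat_lit 121) (nat_lit 120))))) (PT.nd (nat_lit 312) (PT.nd (nat_lit 156) (PT.nd (nat_lit 78) (PT.lf (nat_lit 3268) (nat_lit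 6) (nat_lit 43) (nat_lit 2) (nat_lit 120) (nat_lit 121) (nat_lit 119)) (PT.lf (nat_lit 3192) (nat_lit 3) (nat_lit 42) (nat_lit 0) (nat_lit 121) (nat_lit 121) (nat_lit 118))) (PT.nd (nat_lit 78) (PT.lf (nat_lit 2964) (nat_lit 6) (nat_lit 39) (nat_lit 0) (nat_lit 122) (nat_lit 121) (nat_lit 117)) (PT.lf (nat_lit 2660) (nat_lit 6) (nat_lit 35) (nat_lit 0) (nat_lit 123) (nat_lit 121) (nat_lit 116)))) (PT.nd (nat_lit 156) (PT.nd (nat_lit 78) (PT.lf (nat_lit 2280) (nat_lit 6) (nat_lit 30) (nat_lit 0) (nat_lit 124) (nat_lit 121) (nat_lit 115)) (PT.lf (nat_lit 1824) (nat_lit 6) (nat_lit 24) (nat_lit 0) (nat_lit 125) (nat_lit 121) (nat_lit 114))) (PT.nd (nat_lit 36426) (PT.lf (nat_lit 1520) (nat_lit 6) (nat_lit 20) (nat_lit 0) (nat_lit 126) (nat_lit 121) (nat_lit 113)) (PT.lf (nat_lit 1292) (nat_lit 6) (nat_lit 17) (nat_lit 5) (nat_lit 112) (nat_lit 122) (nat_lit 126))))))))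
noncomputable def pc2 : PT := (PT.nd (nat_lit 38376) (PT.nd (nat_lit 37284) (PT.nd (nat_lit 546) (PT.nd (nat_lit 234) (PT.nd (nat_lit 78) (PT.lf (nat_lit 1596) (nat_lit 6) (nat_lit 21) (nat_lit 5) (nat_lit 113) (nat_lit 122) (nat_lit 125)) (PT.nd (nat_lit 78) (PT.lf (nat_lit 1900) (nat_lit 6) (nat_lit 25) (nat_lit 5) (nat_lit 114) (nat_lit 122) (nat_lit 124)) (PT.lf (nat_lit 2356) (nat_lit 6) (nat_lit 31) (nat_lit 5) (nat_lit 115) (nat_lit 122) (nat_lit 123)))) (PT.nd (nat_lit 156) (PT.nd (nat_lit 78) (PT.lf (nat_lit 2736) (nat_lit 3) (nat_lit 36) (nat_lit 4) (nat_lit 116) (nat_lit 122) (nat_lit 122)) (PT.lf (nat_lit 2964) (nat_lit 6) (nat_lit 39) (nat_lit 4) (nat_lit 117) (nat_lit 122) (nat_lit 121))) (PT.nd (nat_lit 78) (PT.lf (nat_lit 3116) (nat_lit 6) (nat_lit 41) (nat_lit 4) (nat_lit 118) (nat_lit 122) (nat_lit 120)) (PT.lf (nat_lit 3040) (nat_lit 3) (nat_lit 40) (nat_lit 2)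 (nat_lit 119) (nat_lit 122) (nat_lit 119))))) (PT.nd (nat_lit 234) (PT.nd (nat_lit 78) (PT.lf (nat_lit 3116) (nat_lit 6) (nat_lit 41) (nat_lit 2) (nat_lit 120) (nat_lit 122) (nat_lit 118)) (PT.nd (nat_lit 78) (PT.lf (nat_lit 2964) (nat_lit 6) (nat_lit 39) (nat_lit 2) (nat_lit 121) (nat_lit 122) (nat_lit 117)) (PT.lf (nat_lit 2736) (nat_lit 3) (nat_lit 36) (nat_lit 0) (nat_lit 122) (nat_lit 122) (nat_lit 116)))) (PT.nd (nat_lit 156) (PT.nd (nat_lit 78) (PT.lf (nat_lit 2356) (nat_lit 6) (nat_lit 31) (nat_lit 0) (nat_lit 123) (nat_lit 122) (nat_lit 115)) (PT.lf (nat_lit 1900) (nat_lit 6) (nat_lit 25) (nat_lit 0) (nat_lit 124) (nat_lit 122) (nat_lit 114))) (PT.nd (nat_lit 78) (PT.lf (nat_lit 1596) (nat_lit 6) (nat_lit 21) (nat_lit 0) (nat_lit 125) (nat_lit 122) (nat_lit 113)) (PT.lf (nat_lit 1292) (nat_lit 6) (nat_lit 17) (nat_lit 0) (nat_lit 126) (nat_lit 122) (nat_lit 112)))))) (PT.nd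 (nat_lit 546) (PT.nd (nat_lit 234) (PT.nd (nat_lit 78) (PT.lf (nat_lit 912) (nat_lit 6) (nat_lit 12) (nat_lit 5) (nat_lit 110) (nat_lit 123) (nat_lit 127)) (PT.nd (nat_lit 78) (PT.lf (nat_lit 1140) (nat_lit 6) (nat_lit 15) (nat_lit 5) (nat_lit 111) (nat_lit 123) (nat_lit 126)) (PT.lf (nat_lit 1368) (nat_lit 6) (nat_lit 18) (nat_lit 5) (nat_lit 112) (nat_lit 123) (nat_lit 125)))) (PT.nd (nat_lit 156) (PT.nd (nat_lit 78) (PT.lf (nat_lit 1672) (nat_lit 6) (nat_lit 22) (nat_lit 5) (nat_lit 113) (nat_lit 123) (nat_lit 124)) (PT.lf (nat_lit 1976) (nat_lit 3) (nat_lit 26) (nat_lit 4) (nat_lit 114) (nat_lit 123) (nat_lit 123))) (PT.nd (nat_lit 78) (PT.lf (nat_lit 2356) (nat_lit 6) (nat_lit 31) (nat_lit 4) (nat_lit 115) (nat_lit 123) (nat_lit 122)) (PT.lf (nat_lit 2660) (nat_lit 6) (nat_lit 35) (nat_lit 4) (nat_lit 116) (nat_lit 123) (nat_lit 121))))) (PT.nd (nat_lit 234) (PT.nd (nat_lit 78)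 (PT.lf (nat_lit 2888) (nat_lit 6) (nat_lit 38) (nat_lit 4) (nat_lit 117) (nat_lit 123) (nat_lit 120)) (PT.nd (nat_lit 78) (PT.lf (nat_lit 2812) (nat_lit 6) (nat_lit 37) (nat_lit 4) (nat_lit 118) (nat_lit 123) (nat_lit 119)) (PT.lf (nat_lit 2812) (nat_lit 6) (nat_lit 37) (nat_lit 2) (nat_lit 119) (nat_lit 123) (nat_lit 118)))) (PT.nd (nat_lit 156) (PT.nd (nat_lit 78) (PT.lf (nat_lit 2888) (nat_lit 6) (nat_lit 38) (nat_lit 2) (nat_lit 120) (nat_lit 123) (nat_lit 117)) (PT.lf (nat_lit 2660) (nat_lit 6) (nat_lit 35) (nat_lit 2) (nat_lit 121) (nat_lit 123) (nat_lit 116))) (PT.nd (nat_lit 78) (PT.lf (nat_lit 2356) (nat_lit 6) (nat_lit 31) (nat_lit 2) (nat_lit 122) (nat_lit 123) (nat_lit 115)) (PT.lf (nat_lit 1976) (nat_lit 3) (nat_lit 26) (nat_lit 0) (nat_lit 123) (nat_lit 123) (nat_lit 114))))))) (PT.nd (nat_lit 37128) (PT.nd (nat_lit 36582) (PT.nd (nat_lit 234) (PT.nd (nat_lit 78) (PT.lf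 (nat_lit 1672) (nat_lit 6) (nat_lit 22) (nat_lit 0) (nat_lit 124) (nat_lit 123) (nat_lit 113)) (PT.nd (nat_lit 78) (PT.lf (nat_lit 1368) (nat_lit 6) (nat_lit 18) (nat_lit 0) (nat_lit 125) (nat_lit 123) (nat_lit 112)) (PT.lf (nat_lit 1140) (nat_lit 6) (nat_lit 15) (nat_lit 0) (nat_lit 126) (nat_lit 123) (nat_lit 111)))) (PT.nd (nat_lit 36192) (PT.nd (nat_lit 36114) (PT.lf (nat_lit 912) (nat_lit 6) (nat_lit 12) (nat_lit 0) (nat_lit 127) (nat_lit 123) (nat_lit 110)) (PT.lf (nat_lit 760) (nat_lit 6) (nat_lit 10) (nat_lit 5) (nat_lit 109) (nat_lit 124) (nat_lit 127))) (PT.nd (nat_lit 78) (PT.lf (nat_lit 988) (nat_lit 6) (nat_lit 13) (nat_lit 5) (nat_lit 110) (nat_lit 124) (nat_lit 126)) (PT.lf (nat_lit 1216) (nat_lit 6) (nat_lit 16) (nat_lit 5) (nat_lit 111) (nat_lit 124) (nat_lit 125))))) (PT.nd (nat_lit 234) (PT.nd (nat_lit 78) (PT.lf (nat_lit 1444) (nat_lit 3) (nat_lit 19) (nat_lit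 4) (nat_lit 112) (nat_lit 124) (nat_lit 124)) (PT.nd (nat_lit 78) (PT.lf (nat_lit 1672) (nat_lit 6) (nat_lit 22) (nat_lit 4) (nat_lit 113) (nat_lit 124) (nat_lit 123)) (PT.lf (nat_lit 1900) (nat_lit 6) (nat_lit 25) (nat_lit 4) (nat_lit 114) (nat_lit 124) (nat_lit 122)))) (PT.nd (nat_lit 156) (PT.nd (nat_lit 78) (PT.lf (nat_lit 2280) (nat_lit 6) (nat_lit 30) (nat_lit 4) (nat_lit 115) (nat_lit 124) (nat_lit 121)) (PT.lf (nat_lit 2584) (nat_lit 6) (nat_lit 34) (nat_lit 4) (nat_lit 116) (nat_lit 124) (nat_lit 120))) (PT.nd (nat_lit 78) (PT.lf (nat_lit 2508) (nat_lit 6) (nat_lit 33) (nat_lit 4) (nat_lit 117) (nat_lit 124) (nat_lit 119)) (PT.lf (nat_lit 2432) (nat_lit 3) (nat_lit 32) (nat_lit 2) (nat_lit 118) (nat_lit 124) (nat_lit 118)))))) (PT.nd (nat_lit 546) (PT.nd (nat_lit 234) (PT.nd (nat_lit 78) (PT.lf (nat_lit 2508) (nat_lit 6) (nat_lit 33) (nat_lit 2) (nat_lit 119) (nat_lit 124)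 (nat_lit 117)) (PT.nd (nat_lit 78) (PT.lf (nat_lit 2584) (nat_lit 6) (nat_lit 34) (nat_lit 2) (nat_lit 120) (nat_lit 124) (nat_lit 116)) (PT.lf (nat_lit 2280) (nat_lit 6) (nat_lit 30) (nat_lit 2) (nat_lit 121) (nat_lit 124) (nat_lit 115)))) (PT.nd (nat_lit 156) (PT.nd (nat_lit 78) (PT.lf (nat_lit 1900) (nat_lit 6) (nat_lit 25) (nat_lit 2) (nat_lit 122) (nat_lit 124) (nat_lit 114)) (PT.lf (nat_lit 1672) (nat_lit 6) (nat_lit 22) (nat_lit 2) (nat_lit 123) (nat_lit 124) (nat_lit 113))) (PT.nd (nat_lit 78) (PT.lf (nat_lit 1444) (nat_lit 3) (nat_lit 19) (nat_lit 0) (nat_lit 124) (nat_lit 124) (nat_lit 112)) (PT.lf (nat_lit 1216) (nat_lit 6) (nat_lit 16) (nat_lit 0) (nat_lit 125) (nat_lit 124) (nat_lit 111))))) (PT.nd (nat_lit 36270) (PT.nd (nat_lit 36114) (PT.nd (nat_lit 78) (PT.lf (nat_lit 988) (nat_lit 6) (nat_lit 13) (nat_lit 0) (nat_lit 126) (nat_lit 124) (nat_lit 110)) (PT.lf (nat_lit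 760) (nat_lit 6) (nat_lit 10) (nat_lit 0) (nat_lit 127) (nat_lit 124) (nat_lit 109))) (PT.nd (nat_lit 78) (PT.lf (nat_lit 608) (nat_lit 6) (nat_lit 8) (nat_lit 5) (nat_lit 108) (nat_lit 125) (nat_lit 127)) (PT.lf (nat_lit 836) (nat_lit 6) (nat_lit 11) (nat_lit 5) (nat_lit 109) (nat_lit 125) (nat_lit 126)))) (PT.nd (nat_lit 156) (PT.nd (nat_lit 78) (PT.lf (nat_lit 1064) (nat_lit 3) (nat_lit 14) (nat_lit 4) (nat_lit 110) (nat_lit 125) (nat_lit 125)) (PT.lf (nat_lit 1216) (nat_lit 6) (nat_lit 16) (nat_lit 4) (nat_lit 111) (nat_lit 125) (nat_lit 124))) (PT.nd (nat_lit 78) (PT.lf (nat_lit 1368) (nat_lit 6) (nat_lit 18) (nat_lit 4) (nat_lit 112) (nat_lit 125) (nat_lit 123)) (PT.lf (nat_lit 1596) (nat_lit 6) (nat_lit 21) (nat_lit 4) (nat_lit 113) (nat_lit 125) (nat_lit 122))))))))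
noncomputable def pc3 : PT := (PT.nd (nat_lit 38454) (PT.nd (nat_lit 36894) (PT.nd (nat_lit 546) (PT.nd (nat_lit 234) (PT.nd (nat_lit 78) (PT.lf (nat_lit 1824) (nat_lit 6) (nat_lit 24) (nat_lit 4) (nat_lit 114) (nat_lit 125) (nat_lit 121)) (PT.nd (nat_lit 78) (PT.lf (nat_lit 2204) (nat_lit 6) (nat_lit 29) (nat_lit 4) (nat_lit 115) (nat_lit 125) (nat_lit 120)) (PT.lf (nat_lit 2128) (nat_lit 6) (nat_lit 28) (nat_lit 4) (nat_lit 116) (nat_lit 125) (nat_lit 119)))) (PT.nd (nat_lit 156) (PT.nd (nat_lit 78) (PT.lf (nat_lit 2052) (nat_lit 6) (nat_lit 27) (nat_lit 4) (nat_lit 117) (nat_lit 125) (nat_lit 118)) (PT.lf (nat_lit 2052) (nat_lit 6) (nat_lit 27) (nat_lit 2) (nat_lit 118) (nat_lit 125) (nat_lit 117))) (PT.nd (nat_lit 78) (PT.lf (nat_lit 2128) (nat_lit 6) (nat_lit 28) (nat_lit 2) (nat_lit 119) (nat_lit 125) (nat_lit 116)) (PT.lf (nat_lit 2204) (nat_lit 6) (nat_lit 29) (nat_lit 2)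 (nat_lit 120) (nat_lit 125) (nat_lit 115))))) (PT.nd (nat_lit 234) (PT.nd (nat_lit 78) (PT.lf (nat_lit 1824) (nat_lit 6) (nat_lit 24) (nat_lit 2) (nat_lit 121) (nat_lit 125) (nat_lit 114)) (PT.nd (nat_lit 78) (PT.lf (nat_lit 1596) (nat_lit 6) (nat_lit 21) (nat_lit 2) (nat_lit 122) (nat_lit 125) (nat_lit 113)) (PT.lf (nat_lit 1368) (nat_lit 6) (nat_lit 18) (nat_lit 2) (nat_lit 123) (nat_lit 125) (nat_lit 112)))) (PT.nd (nat_lit 156) (PT.nd (nat_lit 78) (PT.lf (nat_lit 1216) (nat_lit 6) (nat_lit 16) (nat_lit 2) (nat_lit 124) (nat_lit 125) (nat_lit 111)) (PT.lf (nat_lit 1064) (nat_lit 3) (nat_lit 14) (nat_lit 0) (nat_lit 125) (nat_lit 125) (nat_lit 110))) (PT.nd (nat_lit 78) (PT.lf (nat_lit 836) (nat_lit 6) (nat_lit 11) (nat_lit 0) (nat_lit 126) (nat_lit 125) (nat_lit 109)) (PT.lf (nat_lit 608) (nat_lit 6) (nat_lit 8) (nat_lit 0) (nat_lit 127) (nat_lit 125) (nat_lit 108)))))) (PT.nd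 (nat_lit 546) (PT.nd (nat_lit 234) (PT.nd (nat_lit 78) (PT.lf (nat_lit 380) (nat_lit 6) (nat_lit 5) (nat_lit 5) (nat_lit 106) (nat_lit 126) (nat_lit 128)) (PT.nd (nat_lit 78) (PT.lf (nat_lit 532) (nat_lit 6) (nat_lit 7) (nat_lit 5) (nat_lit 107) (nat_lit 126) (nat_lit 127)) (PT.lf (nat_lit 684) (nat_lit 3) (nat_lit 9) (nat_lit 4) (nat_lit 108) (nat_lit 126) (nat_lit 126)))) (PT.nd (nat_lit 156) (PT.nd (nat_lit 78) (PT.lf (nat_lit 836) (nat_lit 6) (nat_lit 11) (nat_lit 4) (nat_lit 109) (nat_lit 126) (nat_lit 125)) (PT.lf (nat_lit 988) (nat_lit 6) (nat_lit 13) (nat_lit 4) (nat_lit 110) (nat_lit 126) (nat_lit 124))) (PT.nd (nat_lit 78) (PT.lf (nat_lit 1140) (nat_lit 6) (nat_lit 15) (nat_lit 4) (nat_lit 111) (nat_lit 126) (nat_lit 123)) (PT.lf (nat_lit 1292) (nat_lit 6) (nat_lit 17) (nat_lit 4) (nat_lit 112) (nat_lit 126) (nat_lit 122))))) (PT.nd (nat_lit 702) (PT.nd (nat_lit 546) (PT.nd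 (nat_lit 78) (PT.lf (nat_lit 1520) (nat_lit 6) (nat_lit 20) (nat_lit 4) (nat_lit 113) (nat_lit 126) (nat_lit 121)) (PT.lf (nat_lit 1748) (nat_lit 6) (nat_lit 23) (nat_lit 4) (nat_lit 114) (nat_lit 126) (nat_lit 120))) (PT.nd (nat_lit 78) (PT.lf (nat_lit 1748) (nat_lit 6) (nat_lit 23) (nat_lit 2) (nat_lit 120) (nat_lit 126) (nat_lit 114)) (PT.lf (nat_lit 1520) (nat_lit 6) (nat_lit 20) (nat_lit 2) (nat_lit 121) (nat_lit 126) (nat_lit 113)))) (PT.nd (nat_lit 156) (PT.nd (nat_lit 78) (PT.lf (nat_lit 1292) (nat_lit 6) (nat_lit 17) (nat_lit 2) (nat_lit 122) (nat_lit 126) (nat_lit 112)) (PT.lf (nat_lit 1140) (nat_lit 6) (nat_lit 15) (nat_lit 2) (nat_lit 123) (nat_lit 126) (nat_lit 111))) (PT.nd (nat_lit 78) (PT.lf (nat_lit 988) (nat_lit 6) (nat_lit 13) (nat_lit 2) (nat_lit 124) (nat_lit 126) (nat_lit 110)) (PT.lf (nat_lit 836) (nat_lit 6) (nat_lit 11) (nat_lit 2) (nat_lit 125) (nat_lit 126)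 (nat_lit 109))))))) (PT.nd (nat_lit 37596) (PT.nd (nat_lit 36114) (PT.nd (nat_lit 35802) (PT.nd (nat_lit 78) (PT.lf (nat_lit 684) (nat_lit 3) (nat_lit 9) (nat_lit 0) (nat_lit 126) (nat_lit 126) (nat_lit 108)) (PT.nd (nat_lit 78) (PT.lf (nat_lit 532) (nat_lit 6) (nat_lit 7) (nat_lit 0) (nat_lit 127) (nat_lit 126) (nat_lit 107)) (PT.lf (nat_lit 380) (nat_lit 6) (nat_lit 5) (nat_lit 0) (nat_lit 128) (nat_lit 126) (nat_lit 106)))) (PT.nd (nat_lit 156) (PT.nd (nat_lit 78) (PT.lf (nat_lit 152) (nat_lit 6) (nat_lit 2) (nat_lit 5) (nat_lit 104) (nat_lit 127) (nat_lit 129)) (PT.lf (nat_lit 304) (nat_lit 6) (nat_lit 4) (nat_lit 5) (nat_lit 105) (nat_lit 127) (nat_lit 128))) (PT.nd (nat_lit 78) (PT.lf (nat_lit 456) (nat_lit 3) (nat_lit 6) (nat_lit 4) (nat_lit 106) (nat_lit 127) (nat_lit 127)) (PT.lf (nat_lit 532) (nat_lit 6) (nat_lit 7) (nat_lit 4) (nat_lit 107) (nat_lit 127) (nat_lit 126)))))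 (PT.nd (nat_lit 1170) (PT.nd (nat_lit 78) (PT.lf (nat_lit 608) (nat_lit 6) (nat_lit 8) (nat_lit 4) (nat_lit 108) (nat_lit 127) (nat_lit 125)) (PT.nd (nat_lit 78) (PT.lf (nat_lit 760) (nat_lit 6) (nat_lit 10) (nat_lit 4) (nat_lit 109) (nat_lit 127) (nat_lit 124)) (PT.lf (nat_lit 912) (nat_lit 6) (nat_lit 12) (nat_lit 4) (nat_lit 110) (nat_lit 127) (nat_lit 123)))) (PT.nd (nat_lit 156) (PT.nd (nat_lit 78) (PT.lf (nat_lit 912) (nat_lit 6) (nat_lit 12) (nat_lit 2) (nat_lit 123) (nat_lit 127) (nat_lit 110)) (PT.lf (nat_lit 760) (nat_lit 6) (nat_lit 10) (nat_lit 2) (nat_lit 124) (nat_lit 127) (nat_lit 109))) (PT.nd (nat_lit 78) (PT.lf (nat_lit 608) (nat_lit 6) (nat_lit 8) (nat_lit 2) (nat_lit 125) (nat_lit 127) (nat_lit 108)) (PT.lf (nat_lit 532) (nat_lit 6) (nat_lit 7) (nat_lit 2) (nat_lit 126) (nat_lit 127) (nat_lit 107)))))) (PT.nd (nat_lit 37440) (PT.nd (nat_lit 35646) (PT.nd (nat_lit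 78) (PT.lf (nat_lit 456) (nat_lit 3) (nat_lit 6) (nat_lit 0) (nat_lit 127) (nat_lit 127) (nat_lit 106)) (PT.nd (nat_lit 78) (PT.lf (nat_lit 304) (nat_lit 6) (nat_lit 4) (nat_lit 0) (nat_lit 128) (nat_lit 127) (nat_lit 105)) (PT.lf (nat_lit 152) (nat_lit 6) (nat_lit 2) (nat_lit 0) (nat_lit 129) (nat_lit 127) (nat_lit 104)))) (PT.nd (nat_lit 156) (PT.nd (nat_lit 78) (PT.lf (nat_lit 76) (nat_lit 6) (nat_lit 1) (nat_lit 5) (nat_lit 103) (nat_lit 128) (nat_lit 129)) (PT.lf (nat_lit 228) (nat_lit 3) (nat_lit 3) (nat_lit 4) (nat_lit 104) (nat_lit 128) (nat_lit 128))) (PT.nd (nat_lit 78) (PT.lf (nat_lit 304) (nat_lit 6) (nat_lit 4) (nat_lit 4) (nat_lit 105) (nat_lit 128) (nat_lit 127)) (PT.lf (nat_lit 380) (nat_lit 6) (nat_lit 5) (nat_lit 4) (nat_lit 106) (nat_lit 128) (nat_lit 126))))) (PT.nd (nat_lit 35724) (PT.nd (nat_lit 156) (PT.nd (nat_lit 78) (PT.lf (nat_lit 380) (nat_lit 6) (nat_lit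 5) (nat_lit 2) (nat_lit 126) (nat_lit 128) (nat_lit 106)) (PT.lf (nat_lit 304) (nat_lit 6) (nat_lit 4) (nat_lit 2) (nat_lit 127) (nat_lit 128) (nat_lit 105))) (PT.nd (nat_lit 78) (PT.lf (nat_lit 228) (nat_lit 3) (nat_lit 3) (nat_lit 0) (nat_lit 128) (nat_lit 128) (nat_lit 104)) (PT.lf (nat_lit 76) (nat_lit 6) (nat_lit 1) (nat_lit 0) (nat_lit 129) (nat_lit 128) (nat_lit 103)))) (PT.nd (nat_lit 1872) (PT.nd (nat_lit 78) (PT.lf (nat_lit 76) (nat_lit 6) (nat_lit 1) (nat_lit 4) (nat_lit 103) (nat_lit 129) (nat_lit 128)) (PT.lf (nat_lit 152) (nat_lit 6) (nat_lit 2) (nat_lit 4) (nat_lit 104) (nat_lit 129) (nat_lit 127))) (PT.nd (nat_lit 78) (PT.lf (nat_lit 152) (nat_lit 6) (nat_lit 2) (nat_lit 2) (nat_lit 127) (nat_lit 129) (nat_lit 104)) (PT.lf (nat_lit 76) (nat_lit 6) (nat_lit 1) (nat_lit 2) (nat_lit 128) (nat_lit 129) (nat_lit 103))))))))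
noncomputable def xc0 : XT := (XT.nd (nat_lit 149916) (nat_lit 0) (nat_lit 0) (XT.nd (nat_lit 112164) (nat_lit 0) (nat_lit 0) (XT.nd (nat_lit 74724) (nat_lit 0) (nat_lit 0) (XT.nd (nat_lit 37440) (nat_lit 0) (nat_lit 0) (XT.nd (nat_lit 78) (nat_lit 0) (nat_lit 0) (XT.lf (nat_lit 0) (nat_lit 1168823635527) (nat_lit 152) (nat_lit 403881348673) (nat_lit 0) (nat_lit 1168823635527) (nat_lit 1) (nat_lit 5) (nat_lit 3) (nat_lit 4) (nat_lit 1) (nat_lit 4) (nat_lit 346) (nat_lit 187) (nat_lit 187)) (XT.nd (nat_lit 37284) (nat_lit 0) (nat_lit 0) (XT.lf (nat_lit 0) (nat_lit 2524832705334) (nat_lit 152) (nat_lit 872041530418) (nat_lit 0) (nat_lit 2524810886162) (nat_lit 1) (nat_lit 5) (nat_lit 3) (nat_lit 4) (nat_lit 1) (nat_lit 4) (nat_lit 347) (nat_lit 187) (nat_lit 186)) (XT.lf (nat_lit 0) (nat_lit 1001923068776) (nat_lit 152) (nat_lit 346588657715) (nat_lit 0) (nat_lit 1001923068776) (nat_lit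 1) (nat_lit 5) (nat_lit 3) (nat_lit 4) (nat_lit 1) (nat_lit 4) (nat_lit 344) (nat_lit 188) (nat_lit 188)))) (XT.nd (nat_lit 78) (nat_lit 0) (nat_lit 0) (XT.lf (nat_lit 0) (nat_lit 2164341373360) (nat_lit 152) (nat_lit 748261943332) (nat_lit 0) (nat_lit 2164317808654) (nat_lit 1) (nat_lit 5) (nat_lit 3) (nat_lit 4) (nat_lit 1) (nat_lit 4) (nat_lit 345) (nat_lit 188) (nat_lit 187)) (XT.nd (nat_lit 78) (nat_lit 0) (nat_lit 0) (XT.lf (nat_lit 0) (nat_lit 2337665842918) (nat_lit 152) (nat_lit 807771360200) (nat_lit 0) (nat_lit 2337620459040) (nat_lit 1) (nat_lit 5) (nat_lit 3) (nat_lit 4) (nat_lit 1) (nat_lit 4) (nat_lit 346) (nat_lit 188) (nat_lit 186)) (XT.lf (nat_lit 0) (nat_lit 2524846654195) (nat_lit 152) (nat_lit 872058214432) (nat_lit 0) (nat_lit 2524781067379) (nat_lit 1) (nat_lit 5) (nat_lit 3) (nat_lit 4) (nat_lit 1) (nat_lit 4) (nat_lit 347) (nat_lit 188) (nat_lit 185))))) (XT.nd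 (nat_lit 234) (nat_lit 0) (nat_lit 0) (XT.nd (nat_lit 78) (nat_lit 0) (nat_lit 0) (XT.lf (nat_lit 0) (nat_lit 858820349126) (nat_lit 152) (nat_lit 297495449534) (nat_lit 0) (nat_lit 858820349126) (nat_lit 1) (nat_lit 5) (nat_lit 3) (nat_lit 4) (nat_lit 1) (nat_lit 4) (nat_lit 342) (nat_lit 189) (nat_lit 189)) (XT.nd (nat_lit 78) (nat_lit 0) (nat_lit 0) (XT.lf (nat_lit 0) (nat_lit 1855254502501) (nat_lit 152) (nat_lit 642191049074) (nat_lit 0) (nat_lit 1855229052618) (nat_lit 1) (nat_lit 5) (nat_lit 3) (nat_lit 4) (nat_lit 1) (nat_lit 4) (nat_lit 343) (nat_lit 189) (nat_lit 188)) (XT.lf (nat_lit 0) (nat_lit 2003866195165) (nat_lit 152) (nat_lit 693186671313) (nat_lit 0) (nat_lit 2003817180576) (nat_lit 1) (nat_lit 5) (nat_lit 3) (nat_lit 4) (nat_lit 1) (nat_lit 4) (nat_lit 344) (nat_lit 189) (nat_lit 187)))) (XT.nd (nat_lit 156) (nat_lit 0) (nat_lit 0) (XT.nd (nat_lit 78) (nat_lit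 0) (nat_lit 0) (XT.lf (nat_lit 0) (nat_lit 2164356438129) (nat_lit 152) (nat_lit 748279962067) (nat_lit 0) (nat_lit 2164285604368) (nat_lit 1) (nat_lit 5) (nat_lit 3) (nat_lit 4) (nat_lit 1) (nat_lit 4) (nat_lit 345) (nat_lit 189) (nat_lit 186)) (XT.lf (nat_lit 0) (nat_lit 2337676284684) (nat_lit 152) (nat_lit 807797400096) (nat_lit 0) (nat_lit 2337585247986) (nat_lit 1) (nat_lit 5) (nat_lit 3) (nat_lit 4) (nat_lit 1) (nat_lit 4) (nat_lit 346) (nat_lit 189) (nat_lit 185))) (XT.nd (nat_lit 36972) (nat_lit 0) (nat_lit 0) (XT.lf (nat_lit 0) (nat_lit 2524852815403) (nat_lit 152) (nat_lit 872091681329) (nat_lit 0) (nat_lit 2524743072281) (nat_lit 1) (nat_lit 5) (nat_lit 3) (nat_lit 4) (nat_lit 1) (nat_lit 4) (nat_lit 347) (nat_lit 189) (nat_lit 184)) (XT.lf (nat_lit 0) (nat_lit 736119456865) (nat_lit 152) (nat_lit 255434059435) (nat_lit 0) (nat_lit 736119456865) (nat_lit 1) (nat_lit 5)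 (nat_lit 3) (nat_lit 4) (nat_lit 1) (nat_lit 4) (nat_lit 340) (nat_lit 190) (nat_lit 190)))))) (XT.nd (nat_lit 468) (nat_lit 0) (nat_lit 0) (XT.nd (nat_lit 234) (nat_lit 0) (nat_lit 0) (XT.nd (nat_lit 78) (nat_lit 0) (nat_lit 0) (XT.lf (nat_lit 0) (nat_lit 1590236779086) (nat_lit 152) (nat_lit 551306516706) (nat_lit 0) (nat_lit 1590209293213) (nat_lit 1) (nat_lit 5) (nat_lit 3) (nat_lit 4) (nat_lit 1) (nat_lit 4) (nat_lit 341) (nat_lit 190) (nat_lit 189)) (XT.nd (nat_lit 78) (nat_lit 0) (nat_lit 0) (XT.lf (nat_lit 0) (nat_lit 1717662360474) (nat_lit 152) (nat_lit 595001003421) (nat_lit 0) (nat_lit 1717609424719) (nat_lit 1) (nat_lit 5) (nat_lit 3) (nat_lit 4) (nat_lit 1) (nat_lit 4) (nat_lit 342) (nat_lit 190) (nat_lit 188)) (XT.lf (nat_lit 0) (nat_lit 1855270772451) (nat_lit 152) (nat_lit 642210509308) (nat_lit 0) (nat_lit 1855194271989) (nat_lit 1) (nat_lit 5) (nat_lit 3) (nat_lit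 4) (nat_lit 1) (nat_lit 4) (nat_lit 343) (nat_lit 190) (nat_lit 187)))) (XT.nd (nat_lit 78) (nat_lit 0) (nat_lit 0) (XT.lf (nat_lit 0) (nat_lit 2003877472272) (nat_lit 152) (nat_lit 693214794401) (nat_lit 0) (nat_lit 2003779152638) (nat_lit 1) (nat_lit 5) (nat_lit 3) (nat_lit 4) (nat_lit 1) (nat_lit 4) (nat_lit 344) (nat_lit 190) (nat_lit 186)) (XT.nd (nat_lit 78) (nat_lit 0) (nat_lit 0) (XT.lf (nat_lit 0) (nat_lit 2164363092233) (nat_lit 152) (nat_lit 748316106316) (nat_lit 0) (nat_lit 2164244569662) (nat_lit 1) (nat_lit 5) (nat_lit 3) (nat_lit 4) (nat_lit 1) (nat_lit 4) (nat_lit 345) (nat_lit 190) (nat_lit 185)) (XT.lf (nat_lit 0) (nat_lit 2337678658230) (nat_lit 152) (nat_lit 807840971346) (nat_lit 0) (nat_lit 2337541429236) (nat_lit 1) (nat_lit 5) (nat_lit 3) (nat_lit 4) (nat_lit 1) (nat_lit 4) (nat_lit 346) (nat_lit 190) (nat_lit 184))))) (XT.nd (nat_lit 36972) (nat_lit 0) (nat_lit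 0) (XT.nd (nat_lit 36816) (nat_lit 0) (nat_lit 0) (XT.lf (nat_lit 0) (nat_lit 2524851225469) (nat_lit 152) (nat_lit 872142129431) (nat_lit 0) (nat_lit 2524696675712) (nat_lit 1) (nat_lit 5) (nat_lit 3) (nat_lit 4) (nat_lit 1) (nat_lit 4) (nat_lit 347) (nat_lit 190) (nat_lit 183)) (XT.nd (nat_lit 78) (nat_lit 0) (nat_lit 0) (XT.lf (nat_lit 0) (nat_lit 630908773194) (nat_lit 152) (nat_lit 219403569802) (nat_lit 0) (nat_lit 630908773194) (nat_lit 1) (nat_lit 5) (nat_lit 3) (nat_lit 4) (nat_lit 1) (nat_lit 4) (nat_lit 338) (nat_lit 191) (nat_lit 191)) (XT.lf (nat_lit 0) (nat_lit 1362999202539) (nat_lit 152) (nat_lit 473446174965) (nat_lit 0) (nat_lit 1362969517796) (nat_lit 1) (nat_lit 5) (nat_lit 3) (nat_lit 4) (nat_lit 1) (nat_lit 4) (nat_lit 339) (nat_lit 191) (nat_lit 190)))) (XT.nd (nat_lit 156) (nat_lit 0) (nat_lit 0) (XT.nd (nat_lit 78) (nat_lit 0) (nat_lit 0) (XT.lf (nat_lit 0)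 (nat_lit 1472262308928) (nat_lit 152) (nat_lit 510879031571) (nat_lit 0) (nat_lit 1472205138312) (nat_lit 1) (nat_lit 5) (nat_lit 3) (nat_lit 4) (nat_lit 1) (nat_lit 4) (nat_lit 340) (nat_lit 191) (nat_lit 189)) (XT.lf (nat_lit 0) (nat_lit 1590254350632) (nat_lit 152) (nat_lit 551327533759) (nat_lit 0) (nat_lit 1590171730134) (nat_lit 1) (nat_lit 5) (nat_lit 3) (nat_lit 4) (nat_lit 1) (nat_lit 4) (nat_lit 341) (nat_lit 191) (nat_lit 188))) (XT.nd (nat_lit 78) (nat_lit 0) (nat_lit 0) (XT.lf (nat_lit 0) (nat_lit 1717674539750) (nat_lit 152) (nat_lit 595031376356) (nat_lit 0) (nat_lit 1717568354546) (nat_lit 1) (nat_lit 5) (nat_lit 3) (nat_lit 4) (nat_lit 1) (nat_lit 4) (nat_lit 342) (nat_lit 191) (nat_lit 187)) (XT.lf (nat_lit 0) (nat_lit 1855277958884) (nat_lit 152) (nat_lit 642249545096) (nat_lit 0) (nat_lit 1855149954507) (nat_lit 1) (nat_lit 5) (nat_lit 3) (nat_lit 4) (nat_lit 1)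 (nat_lit 4) (nat_lit 343) (nat_lit 191) (nat_lit 186))))))) (XT.nd (nat_lit 37596) (nat_lit 0) (nat_lit 0) (XT.nd (nat_lit 37050) (nat_lit 0) (nat_lit 0) (XT.nd (nat_lit 234) (nat_lit 0) (nat_lit 0) (XT.nd (nat_lit 78) (nat_lit 0) (nat_lit 0) (XT.lf (nat_lit 0) (nat_lit 2003880035702) (nat_lit 152) (nat_lit 693261851350) (nat_lit 0) (nat_lit 2003731828388) (nat_lit 1) (nat_lit 5) (nat_lit 3) (nat_lit 4) (nat_lit 1) (nat_lit 4) (nat_lit 344) (nat_lit 191) (nat_lit 185)) (XT.nd (nat_lit 78) (nat_lit 0) (nat_lit 0) (XT.lf (nat_lit 0) (nat_lit 2164361375105) (nat_lit 152) (nat_lit 748370590266) (nat_lit 0) (nat_lit 2164194461368) (nat_lit 1) (nat_lit 5) (nat_lit 3) (nat_lit 4) (nat_lit 1) (nat_lit 4) (nat_lit 345) (nat_lit 191) (nat_lit 184)) (XT.lf (nat_lit 0) (nat_lit 2337672977623) (nat_lit 152) (nat_lit 807902332148) (nat_lit 0) (nat_lit 2337488743122) (nat_lit 1) (nat_lit 5) (nat_lit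 3) (nat_lit 4) (nat_lit 1) (nat_lit 4) (nat_lit 346) (nat_lit 191) (nat_lit 183)))) (XT.nd (nat_lit 36660) (nat_lit 0) (nat_lit 0) (XT.lf (nat_lit 0) (nat_lit 2524841874973) (nat_lit 152) (nat_lit 872209857689) (nat_lit 0) (nat_lit 2524641602729) (nat_lit 1) (nat_lit 5) (nat_lit 3) (nat_lit 4) (nat_lit 1) (nat_lit 4) (nat_lit 347) (nat_lit 191) (nat_lit 182)) (XT.nd (nat_lit 78) (nat_lit 0) (nat_lit 0) (XT.lf (nat_lit 0) (nat_lit 540691968689) (nat_lit 152) (nat_lit 188546035095) (nat_lit 0) (nat_lit 540691968689) (nat_lit 1) (nat_lit 5) (nat_lit 3) (nat_lit 4) (nat_lit 1) (nat_lit 4) (nat_lit 336) (nat_lit 192) (nat_lit 192)) (XT.lf (nat_lit 0) (nat_lit 1168149805002) (nat_lit 152) (nat_lit 406756657133) (nat_lit 0) (nat_lit 1168117745480) (nat_lit 1) (nat_lit 5) (nat_lit 3) (nat_lit 4) (nat_lit 1) (nat_lit 4) (nat_lit 337) (nat_lit 192) (nat_lit 191))))) (XT.nd (nat_lit 234) (nat_lit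 0) (nat_lit 0) (XT.nd (nat_lit 78) (nat_lit 0) (nat_lit 0) (XT.lf (nat_lit 0) (nat_lit 1261842813204) (nat_lit 152) (nat_lit 438818925321) (nat_lit 0) (nat_lit 1261781068938) (nat_lit 1) (nat_lit 5) (nat_lit 3) (nat_lit 4) (nat_lit 1) (nat_lit 4) (nat_lit 338) (nat_lit 192) (nat_lit 190)) (XT.nd (nat_lit 78) (nat_lit 0) (nat_lit 0) (XT.lf (nat_lit 0) (nat_lit 1363018179809) (nat_lit 152) (nat_lit 473468873382) (nat_lit 0) (nat_lit 1362928949670) (nat_lit 1) (nat_lit 5) (nat_lit 3) (nat_lit 4) (nat_lit 1) (nat_lit 4) (nat_lit 339) (nat_lit 192) (nat_lit 189)) (XT.lf (nat_lit 0) (nat_lit 1472275462546) (nat_lit 152) (nat_lit 510911834341) (nat_lit 0) (nat_lit 1472160782525) (nat_lit 1) (nat_lit 5) (nat_lit 3) (nat_lit 4) (nat_lit 1) (nat_lit 4) (nat_lit 340) (nat_lit 192) (nat_lit 188)))) (XT.nd (nat_lit 156) (nat_lit 0) (nat_lit 0) (XT.nd (nat_lit 78) (nat_lit 0) (nat_lit 0) (XT.lf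 (nat_lit 0) (nat_lit 1590262111980) (nat_lit 152) (nat_lit 551369692410) (nat_lit 0) (nat_lit 1590123867253) (nat_lit 1) (nat_lit 5) (nat_lit 3) (nat_lit 4) (nat_lit 1) (nat_lit 4) (nat_lit 341) (nat_lit 192) (nat_lit 187)) (XT.lf (nat_lit 0) (nat_lit 1717677308255) (nat_lit 152) (nat_lit 595082197861) (nat_lit 0) (nat_lit 1717517244355) (nat_lit 1) (nat_lit 5) (nat_lit 3) (nat_lit 4) (nat_lit 1) (nat_lit 4) (nat_lit 342) (nat_lit 192) (nat_lit 186))) (XT.nd (nat_lit 78) (nat_lit 0) (nat_lit 0) (XT.lf (nat_lit 0) (nat_lit 1855276104386) (nat_lit 152) (nat_lit 642308387762) (nat_lit 0) (nat_lit 1855095837549) (nat_lit 1) (nat_lit 5) (nat_lit 3) (nat_lit 4) (nat_lit 1) (nat_lit 4) (nat_lit 343) (nat_lit 192) (nat_lit 185)) (XT.lf (nat_lit 0) (nat_lit 2003873900646) (nat_lit 152) (nat_lit 693328121017) (nat_lit 0) (nat_lit 2003674927386) (nat_lit 1) (nat_lit 5) (nat_lit 3) (nat_lit 4)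 (nat_lit 1) (nat_lit 4) (nat_lit 344) (nat_lit 192) (nat_lit 184)))))) (XT.nd (nat_lit 36972) (nat_lit 0) (nat_lit 0) (XT.nd (nat_lit 36660) (nat_lit 0) (nat_lit 0) (XT.nd (nat_lit 78) (nat_lit 0) (nat_lit 0) (XT.lf (nat_lit 0) (nat_lit 2164351276569) (nat_lit 152) (nat_lit 748443736785) (nat_lit 0) (nat_lit 2164134982546) (nat_lit 1) (nat_lit 5) (nat_lit 3) (nat_lit 4) (nat_lit 1) (nat_lit 4) (nat_lit 345) (nat_lit 192) (nat_lit 183)) (XT.nd (nat_lit 78) (nat_lit 0) (nat_lit 0) (XT.lf (nat_lit 0) (nat_lit 2337659209198) (nat_lit 152) (nat_lit 807981846123) (nat_lit 0) (nat_lit 2337426877432) (nat_lit 1) (nat_lit 5) (nat_lit 3) (nat_lit 4) (nat_lit 1) (nat_lit 4) (nat_lit 346) (nat_lit 192) (nat_lit 182)) (XT.lf (nat_lit 0) (nat_lit 2524824708502) (nat_lit 152) (nat_lit 872295267457) (nat_lit 0) (nat_lit 2524577526975) (nat_lit 1) (nat_lit 5) (nat_lit 3) (nat_lit 4) (nat_lit 1) (nat_lit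 4) (nat_lit 347) (nat_lit 192) (nat_lit 181)))) (XT.nd (nat_lit 156) (nat_lit 0) (nat_lit 0) (XT.nd (nat_lit 78) (nat_lit 0) (nat_lit 0) (XT.lf (nat_lit 0) (nat_lit 463328750772) (nat_lit 152) (nat_lit 162126099683) (nat_lit 0) (nat_lit 463328750772) (nat_lit 1) (nat_lit 5) (nat_lit 3) (nat_lit 4) (nat_lit 1) (nat_lit 4) (nat_lit 334) (nat_lit 193) (nat_lit 193)) (XT.lf (nat_lit 0) (nat_lit 1001065666512) (nat_lit 152) (nat_lit 349649374349) (nat_lit 0) (nat_lit 1001031042227) (nat_lit 1) (nat_lit 5) (nat_lit 3) (nat_lit 4) (nat_lit 1) (nat_lit 4) (nat_lit 335) (nat_lit 193) (nat_lit 192))) (XT.nd (nat_lit 78) (nat_lit 0) (nat_lit 0) (XT.lf (nat_lit 0) (nat_lit 1081411225538) (nat_lit 152) (nat_lit 377104798764) (nat_lit 0) (nat_lit 1081344541731) (nat_lit 1) (nat_lit 5) (nat_lit 3) (nat_lit 4) (nat_lit 1) (nat_lit 4) (nat_lit 336) (nat_lit 193) (nat_lit 191)) (XT.lf (nat_lit 0) (nat_lit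 1168170300454) (nat_lit 152) (nat_lit 406781171423) (nat_lit 0) (nat_lit 1168073931904) (nat_lit 1) (nat_lit 5) (nat_lit 3) (nat_lit 4) (nat_lit 1) (nat_lit 4) (nat_lit 337) (nat_lit 193) (nat_lit 190))))) (XT.nd (nat_lit 234) (nat_lit 0) (nat_lit 0) (XT.nd (nat_lit 78) (nat_lit 0) (nat_lit 0) (XT.lf (nat_lit 0) (nat_lit 1261857019111) (nat_lit 152) (nat_lit 438854352312) (nat_lit 0) (nat_lit 1261733164688) (nat_lit 1) (nat_lit 5) (nat_lit 3) (nat_lit 4) (nat_lit 1) (nat_lit 4) (nat_lit 338) (nat_lit 193) (nat_lit 189)) (XT.nd (nat_lit 78) (nat_lit 0) (nat_lit 0) (XT.lf (nat_lit 0) (nat_lit 1363026562064) (nat_lit 152) (nat_lit 473514404726) (nat_lit 0) (nat_lit 1362877257759) (nat_lit 1) (nat_lit 5) (nat_lit 3) (nat_lit 4) (nat_lit 1) (nat_lit 4) (nat_lit 339) (nat_lit 193) (nat_lit 188)) (XT.lf (nat_lit 0) (nat_lit 1472278452531) (nat_lit 152) (nat_lit 510966721566) (nat_lit 0)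 (nat_lit 1472105583520) (nat_lit 1) (nat_lit 5) (nat_lit 3) (nat_lit 4) (nat_lit 1) (nat_lit 4) (nat_lit 340) (nat_lit 193) (nat_lit 187)))) (XT.nd (nat_lit 156) (nat_lit 0) (nat_lit 0) (XT.nd (nat_lit 78) (nat_lit 0) (nat_lit 0) (XT.lf (nat_lit 0) (nat_lit 1590260109122) (nat_lit 152) (nat_lit 551433242489) (nat_lit 0) (nat_lit 1590065420938) (nat_lit 1) (nat_lit 5) (nat_lit 3) (nat_lit 4) (nat_lit 1) (nat_lit 4) (nat_lit 341) (nat_lit 193) (nat_lit 186)) (XT.lf (nat_lit 0) (nat_lit 1717670682394) (nat_lit 152) (nat_lit 595153769101) (nat_lit 0) (nat_lit 1717455791273) (nat_lit 1) (nat_lit 5) (nat_lit 3) (nat_lit 4) (nat_lit 1) (nat_lit 4) (nat_lit 342) (nat_lit 193) (nat_lit 185))) (XT.nd (nat_lit 78) (nat_lit 0) (nat_lit 0) (XT.lf (nat_lit 0) (nat_lit 1855265197966) (nat_lit 152) (nat_lit 642387386003) (nat_lit 0) (nat_lit 1855031600422) (nat_lit 1) (nat_lit 5) (nat_lit 3) (nat_lit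 4) (nat_lit 1) (nat_lit 4) (nat_lit 343) (nat_lit 193) (nat_lit 184)) (XT.lf (nat_lit 0) (nat_lit 2003859030747) (nat_lit 152) (nat_lit 693413996110) (nat_lit 0) (nat_lit 2003608112440) (nat_lit 1) (nat_lit 5) (nat_lit 3) (nat_lit 4) (nat_lit 1) (nat_lit 4) (nat_lit 344) (nat_lit 193) (nat_lit 183))))))))
noncomputable def xc1 : XT := (XT.nd (nat_lit 74490) (nat_lit 0) (nat_lit 0) (XT.nd (nat_lit 37284) (nat_lit 0) (nat_lit 0) (XT.nd (nat_lit 36738) (nat_lit 0) (nat_lit 0) (XT.nd (nat_lit 36504) (nat_lit 0) (nat_lit 0) (XT.nd (nat_lit 78) (nat_lit 0) (nat_lit 0) (XT.lf (nat_lit 0) (nat_lit 2164332736781) (nat_lit 152) (nat_lit 748535979334) (nat_lit 0) (nat_lit 2164065780731) (nat_lit 1) (nat_lit 5) (nat_lit 3) (nat_lit 4) (nat_lit 1) (nat_lit 4) (nat_lit 345) (nat_lit 193) (nat_lit 182)) (XT.nd (nat_lit 78) (nat_lit 0) (nat_lit 0) (XT.lf (nat_lit 0) (nat_lit 2337637271365) (nat_lit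 152) (nat_lit 808079984465) (nat_lit 0) (nat_lit 2337355465553) (nat_lit 1) (nat_lit 5) (nat_lit 3) (nat_lit 4) (nat_lit 1) (nat_lit 4) (nat_lit 346) (nat_lit 193) (nat_lit 181)) (XT.lf (nat_lit 0) (nat_lit 2524799624332) (nat_lit 152) (nat_lit 872398864865) (nat_lit 0) (nat_lit 2524504068740) (nat_lit 1) (nat_lit 5) (nat_lit 3) (nat_lit 4) (nat_lit 1) (nat_lit 4) (nat_lit 347) (nat_lit 193) (nat_lit 180)))) (XT.nd (nat_lit 78) (nat_lit 0) (nat_lit 0) (XT.lf (nat_lit 0) (nat_lit 396984063683) (nat_lit 152) (nat_lit 139513524575) (nat_lit 0) (nat_lit 396984063683) (nat_lit 1) (nat_lit 5) (nat_lit 3) (nat_lit 4) (nat_lit 1) (nat_lit 4) (nat_lit 332) (nat_lit 194) (nat_lit 194)) (XT.nd (nat_lit 78) (nat_lit 0) (nat_lit 0) (XT.lf (nat_lit 0) (nat_lit 857783187587) (nat_lit 152) (nat_lit 300762772038) (nat_lit 0) (nat_lit 857745793360) (nat_lit 1) (nat_lit 5) (nat_lit 3) (nat_lit 4) (nat_lit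 1) (nat_lit 4) (nat_lit 333) (nat_lit 194) (nat_lit 193)) (XT.lf (nat_lit 0) (nat_lit 926686972756) (nat_lit 152) (nat_lit 324265946226) (nat_lit 0) (nat_lit 926614954245) (nat_lit 1) (nat_lit 5) (nat_lit 3) (nat_lit 4) (nat_lit 1) (nat_lit 4) (nat_lit 334) (nat_lit 194) (nat_lit 192))))) (XT.nd (nat_lit 234) (nat_lit 0) (nat_lit 0) (XT.nd (nat_lit 78) (nat_lit 0) (nat_lit 0) (XT.lf (nat_lit 0) (nat_lit 1001087801600) (nat_lit 152) (nat_lit 349675849783) (nat_lit 0) (nat_lit 1000983723566) (nat_lit 1) (nat_lit 5) (nat_lit 3) (nat_lit 4) (nat_lit 1) (nat_lit 4) (nat_lit 335) (nat_lit 194) (nat_lit 191)) (XT.nd (nat_lit 78) (nat_lit 0) (nat_lit 0) (XT.lf (nat_lit 0) (nat_lit 1081426567918) (nat_lit 152) (nat_lit 377143059915) (nat_lit 0) (nat_lit 1081292805141) (nat_lit 1) (nat_lit 5) (nat_lit 3) (nat_lit 4) (nat_lit 1) (nat_lit 4) (nat_lit 336) (nat_lit 194) (nat_lit 190)) (XT.lf (nat_lit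 0) (nat_lit 1168179353290) (nat_lit 152) (nat_lit 406830345274) (nat_lit 0) (nat_lit 1168018104640) (nat_lit 1) (nat_lit 5) (nat_lit 3) (nat_lit 4) (nat_lit 1) (nat_lit 4) (nat_lit 337) (nat_lit 194) (nat_lit 189)))) (XT.nd (nat_lit 156) (nat_lit 0) (nat_lit 0) (XT.nd (nat_lit 78) (nat_lit 0) (nat_lit 0) (XT.lf (nat_lit 0) (nat_lit 1261860248295) (nat_lit 152) (nat_lit 438913630516) (nat_lit 0) (nat_lit 1261673549762) (nat_lit 1) (nat_lit 5) (nat_lit 3) (nat_lit 4) (nat_lit 1) (nat_lit 4) (nat_lit 338) (nat_lit 194) (nat_lit 188)) (XT.lf (nat_lit 0) (nat_lit 1363024398978) (nat_lit 152) (nat_lit 473583038811) (nat_lit 0) (nat_lit 1362814135739) (nat_lit 1) (nat_lit 5) (nat_lit 3) (nat_lit 4) (nat_lit 1) (nat_lit 4) (nat_lit 339) (nat_lit 194) (nat_lit 187))) (XT.nd (nat_lit 78) (nat_lit 0) (nat_lit 0) (XT.lf (nat_lit 0) (nat_lit 1472271296601) (nat_lit 152) (nat_lit 511044018505)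 (nat_lit 0) (nat_lit 1472039214191) (nat_lit 1) (nat_lit 5) (nat_lit 3) (nat_lit 4) (nat_lit 1) (nat_lit 4) (nat_lit 340) (nat_lit 194) (nat_lit 186)) (XT.lf (nat_lit 0) (nat_lit 1590248330189) (nat_lit 152) (nat_lit 551518560589) (nat_lit 0) (nat_lit 1589996044841) (nat_lit 1) (nat_lit 5) (nat_lit 3) (nat_lit 4) (nat_lit 1) (nat_lit 4) (nat_lit 341) (nat_lit 194) (nat_lit 185)))))) (XT.nd (nat_lit 36660) (nat_lit 0) (nat_lit 0) (XT.nd (nat_lit 234) (nat_lit 0) (nat_lit 0) (XT.nd (nat_lit 78) (nat_lit 0) (nat_lit 0) (XT.lf (nat_lit 0) (nat_lit 1717654622903) (nat_lit 152) (nat_lit 595246514201) (nat_lit 0) (nat_lit 1717383631131) (nat_lit 1) (nat_lit 5) (nat_lit 3) (nat_lit 4) (nat_lit 1) (nat_lit 4) (nat_lit 342) (nat_lit 194) (nat_lit 184)) (XT.nd (nat_lit 78) (nat_lit 0) (nat_lit 0) (XT.lf (nat_lit 0) (nat_lit 1855245174996) (nat_lit 152) (nat_lit 642487007956) (nat_lit 0) (nat_lit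 1854956862462) (nat_lit 1) (nat_lit 5) (nat_lit 3) (nat_lit 4) (nat_lit 1) (nat_lit 4) (nat_lit 343) (nat_lit 194) (nat_lit 183)) (XT.lf (nat_lit 0) (nat_lit 2003835337887) (nat_lit 152) (nat_lit 693519985519) (nat_lit 0) (nat_lit 2003530987611) (nat_lit 1) (nat_lit 5) (nat_lit 3) (nat_lit 4) (nat_lit 1) (nat_lit 4) (nat_lit 344) (nat_lit 194) (nat_lit 182)))) (XT.nd (nat_lit 156) (nat_lit 0) (nat_lit 0) (XT.nd (nat_lit 78) (nat_lit 0) (nat_lit 0) (XT.lf (nat_lit 0) (nat_lit 2164305645877) (nat_lit 152) (nat_lit 748647864535) (nat_lit 0) (nat_lit 2163986445838) (nat_lit 1) (nat_lit 5) (nat_lit 3) (nat_lit 4) (nat_lit 1) (nat_lit 4) (nat_lit 345) (nat_lit 194) (nat_lit 181)) (XT.lf (nat_lit 0) (nat_lit 2337607034122) (nat_lit 152) (nat_lit 808197328733) (nat_lit 0) (nat_lit 2337274084304) (nat_lit 1) (nat_lit 5) (nat_lit 3) (nat_lit 4) (nat_lit 1) (nat_lit 4) (nat_lit 346) (nat_lit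 194) (nat_lit 180))) (XT.nd (nat_lit 36192) (nat_lit 0) (nat_lit 0) (XT.lf (nat_lit 0) (nat_lit 2524766473813) (nat_lit 152) (nat_lit 872521263826) (nat_lit 0) (nat_lit 2524420792717) (nat_lit 1) (nat_lit 5) (nat_lit 3) (nat_lit 4) (nat_lit 1) (nat_lit 4) (nat_lit 347) (nat_lit 194) (nat_lit 179)) (XT.lf (nat_lit 0) (nat_lit 340084535048) (nat_lit 152) (nat_lit 120168208150) (nat_lit 0) (nat_lit 340084535048) (nat_lit 1) (nat_lit 5) (nat_lit 3) (nat_lit 4) (nat_lit 1) (nat_lit 4) (nat_lit 330) (nat_lit 195) (nat_lit 195))))) (XT.nd (nat_lit 234) (nat_lit 0) (nat_lit 0) (XT.nd (nat_lit 78) (nat_lit 0) (nat_lit 0) (XT.lf (nat_lit 0) (nat_lit 734904014538) (nat_lit 152) (nat_lit 258929973278) (nat_lit 0) (nat_lit 734863628773) (nat_lit 1) (nat_lit 5) (nat_lit 3) (nat_lit 4) (nat_lit 1) (nat_lit 4) (nat_lit 331) (nat_lit 195) (nat_lit 194)) (XT.nd (nat_lit 78) (nat_lit 0) (nat_lit 0)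 (XT.lf (nat_lit 0) (nat_lit 793999956276) (nat_lit 152) (nat_lit 279041895759) (nat_lit 0) (nat_lit 793922176284) (nat_lit 1) (nat_lit 5) (nat_lit 3) (nat_lit 4) (nat_lit 1) (nat_lit 4) (nat_lit 332) (nat_lit 195) (nat_lit 193)) (XT.lf (nat_lit 0) (nat_lit 857807093482) (nat_lit 152) (nat_lit 300791365507) (nat_lit 0) (nat_lit 857694689206) (nat_lit 1) (nat_lit 5) (nat_lit 3) (nat_lit 4) (nat_lit 1) (nat_lit 4) (nat_lit 333) (nat_lit 195) (nat_lit 192)))) (XT.nd (nat_lit 156) (nat_lit 0) (nat_lit 0) (XT.nd (nat_lit 78) (nat_lit 0) (nat_lit 0) (XT.lf (nat_lit 0) (nat_lit 926703542527) (nat_lit 152) (nat_lit 324307268269) (nat_lit 0) (nat_lit 926559078728) (nat_lit 1) (nat_lit 5) (nat_lit 3) (nat_lit 4) (nat_lit 1) (nat_lit 4) (nat_lit 334) (nat_lit 195) (nat_lit 191)) (XT.lf (nat_lit 0) (nat_lit 1001097578662) (nat_lit 152) (nat_lit 349728957542) (nat_lit 0) (nat_lit 1000923430120)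 (nat_lit 1) (nat_lit 5) (nat_lit 3) (nat_lit 4) (nat_lit 1) (nat_lit 4) (nat_lit 335) (nat_lit 195) (nat_lit 190))) (XT.nd (nat_lit 78) (nat_lit 0) (nat_lit 0) (XT.lf (nat_lit 0) (nat_lit 1081430055436) (nat_lit 152) (nat_lit 377207080375) (nat_lit 0) (nat_lit 1081228421021) (nat_lit 1) (nat_lit 5) (nat_lit 3) (nat_lit 4) (nat_lit 1) (nat_lit 4) (nat_lit 336) (nat_lit 195) (nat_lit 189)) (XT.lf (nat_lit 0) (nat_lit 1168177017156) (nat_lit 152) (nat_lit 406904470087) (nat_lit 0) (nat_lit 1167949932858) (nat_lit 1) (nat_lit 5) (nat_lit 3) (nat_lit 4) (nat_lit 1) (nat_lit 4) (nat_lit 337) (nat_lit 195) (nat_lit 188))))))) (XT.nd (nat_lit 36972) (nat_lit 0) (nat_lit 0) (XT.nd (nat_lit 468) (nat_lit 0) (nat_lit 0) (XT.nd (nat_lit 234) (nat_lit 0) (nat_lit 0) (XT.nd (nat_lit 78) (nat_lit 0) (nat_lit 0) (XT.lf (nat_lit 0) (nat_lit 1261852519890) (nat_lit 152) (nat_lit 438997111210) (nat_lit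 0) (nat_lit 1261601870887) (nat_lit 1) (nat_lit 5) (nat_lit 3) (nat_lit 4) (nat_lit 1) (nat_lit 4) (nat_lit 338) (nat_lit 195) (nat_lit 187)) (XT.nd (nat_lit 78) (nat_lit 0) (nat_lit 0) (XT.lf (nat_lit 0) (nat_lit 1363011677730) (nat_lit 152) (nat_lit 473675182359) (nat_lit 0) (nat_lit 1362739209554) (nat_lit 1) (nat_lit 5) (nat_lit 3) (nat_lit 4) (nat_lit 1) (nat_lit 4) (nat_lit 339) (nat_lit 195) (nat_lit 186)) (XT.lf (nat_lit 0) (nat_lit 1472253952351) (nat_lit 152) (nat_lit 511144183214) (nat_lit 0) (nat_lit 1471961281238) (nat_lit 1) (nat_lit 5) (nat_lit 3) (nat_lit 4) (nat_lit 1) (nat_lit 4) (nat_lit 340) (nat_lit 195) (nat_lit 185)))) (XT.nd (nat_lit 78) (nat_lit 0) (nat_lit 0) (XT.lf (nat_lit 0) (nat_lit 1590226705381) (nat_lit 152) (nat_lit 551626152298) (nat_lit 0) (nat_lit 1589915327844) (nat_lit 1) (nat_lit 5) (nat_lit 3) (nat_lit 4) (nat_lit 1) (nat_lit 4) (nat_lit 341)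 (nat_lit 195) (nat_lit 184)) (XT.nd (nat_lit 78) (nat_lit 0) (nat_lit 0) (XT.lf (nat_lit 0) (nat_lit 1717629034615) (nat_lit 152) (nat_lit 595360982763) (nat_lit 0) (nat_lit 1717300336316) (nat_lit 1) (nat_lit 5) (nat_lit 3) (nat_lit 4) (nat_lit 1) (nat_lit 4) (nat_lit 342) (nat_lit 195) (nat_lit 183)) (XT.lf (nat_lit 0) (nat_lit 1855215916819) (nat_lit 152) (nat_lit 642607843973) (nat_lit 0) (nat_lit 1854871180777) (nat_lit 1) (nat_lit 5) (nat_lit 3) (nat_lit 4) (nat_lit 1) (nat_lit 4) (nat_lit 343) (nat_lit 195) (nat_lit 182))))) (XT.nd (nat_lit 234) (nat_lit 0) (nat_lit 0) (XT.nd (nat_lit 78) (nat_lit 0) (nat_lit 0) (XT.lf (nat_lit 0) (nat_lit 2003802681665) (nat_lit 152) (nat_lit 693646717329) (nat_lit 0) (nat_lit 2003443095861) (nat_lit 1) (nat_lit 5) (nat_lit 3) (nat_lit 4) (nat_lit 1) (nat_lit 4) (nat_lit 344) (nat_lit 195) (nat_lit 181)) (XT.nd (nat_lit 78) (nat_lit 0) (nat_lit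 0) (XT.lf (nat_lit 0) (nat_lit 2164269843317) (nat_lit 152) (nat_lit 748780055413) (nat_lit 0) (nat_lit 2163896507733) (nat_lit 1) (nat_lit 5) (nat_lit 3) (nat_lit 4) (nat_lit 1) (nat_lit 4) (nat_lit 345) (nat_lit 195) (nat_lit 180)) (XT.lf (nat_lit 0) (nat_lit 2337568318286) (nat_lit 152) (nat_lit 808334574303) (nat_lit 0) (nat_lit 2337182251425) (nat_lit 1) (nat_lit 5) (nat_lit 3) (nat_lit 4) (nat_lit 1) (nat_lit 4) (nat_lit 346) (nat_lit 195) (nat_lit 179)))) (XT.nd (nat_lit 36114) (nat_lit 0) (nat_lit 0) (XT.nd (nat_lit 36036) (nat_lit 0) (nat_lit 0) (XT.lf (nat_lit 0) (nat_lit 2524725060499) (nat_lit 152) (nat_lit 872663189666) (nat_lit 0) (nat_lit 2524327205418) (nat_lit 1) (nat_lit 5) (nat_lit 3) (nat_lit 4) (nat_lit 1) (nat_lit 4) (nat_lit 347) (nat_lit 195) (nat_lit 178)) (XT.lf (nat_lit 0) (nat_lit 291281135189) (nat_lit 152) (nat_lit 103627345195) (nat_lit 0) (nat_lit 291281135189)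 (nat_lit 1) (nat_lit 5) (nat_lit 3) (nat_lit 4) (nat_lit 1) (nat_lit 4) (nat_lit 328) (nat_lit 196) (nat_lit 196))) (XT.nd (nat_lit 78) (nat_lit 0) (nat_lit 0) (XT.lf (nat_lit 0) (nat_lit 629514384349) (nat_lit 152) (nat_lit 223151040788) (nat_lit 0) (nat_lit 629470767723) (nat_lit 1) (nat_lit 5) (nat_lit 3) (nat_lit 4) (nat_lit 1) (nat_lit 4) (nat_lit 329) (nat_lit 196) (nat_lit 195)) (XT.lf (nat_lit 0) (nat_lit 680203445318) (nat_lit 152) (nat_lit 240352450639) (nat_lit 0) (nat_lit 680119442927) (nat_lit 1) (nat_lit 5) (nat_lit 3) (nat_lit 4) (nat_lit 1) (nat_lit 4) (nat_lit 330) (nat_lit 196) (nat_lit 194)))))) (XT.nd (nat_lit 546) (nat_lit 0) (nat_lit 0) (XT.nd (nat_lit 234) (nat_lit 0) (nat_lit 0) (XT.nd (nat_lit 78) (nat_lit 0) (nat_lit 0) (XT.lf (nat_lit 0) (nat_lit 734929832905) (nat_lit 152) (nat_lit 258960854224) (nat_lit 0) (nat_lit 734808436286) (nat_lit 1) (nat_lit 5)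 (nat_lit 3) (nat_lit 4) (nat_lit 1) (nat_lit 4) (nat_lit 331) (nat_lit 196) (nat_lit 193)) (XT.nd (nat_lit 78) (nat_lit 0) (nat_lit 0) (XT.lf (nat_lit 0) (nat_lit 794017851628) (nat_lit 152) (nat_lit 279086523565) (nat_lit 0) (nat_lit 793861830725) (nat_lit 1) (nat_lit 5) (nat_lit 3) (nat_lit 4) (nat_lit 1) (nat_lit 4) (nat_lit 332) (nat_lit 196) (nat_lit 192)) (XT.lf (nat_lit 0) (nat_lit 857817652710) (nat_lit 152) (nat_lit 300848721887) (nat_lit 0) (nat_lit 857629572285) (nat_lit 1) (nat_lit 5) (nat_lit 3) (nat_lit 4) (nat_lit 1) (nat_lit 4) (nat_lit 333) (nat_lit 196) (nat_lit 191)))) (XT.nd (nat_lit 156) (nat_lit 0) (nat_lit 0) (XT.nd (nat_lit 78) (nat_lit 0) (nat_lit 0) (XT.lf (nat_lit 0) (nat_lit 926707309047) (nat_lit 152) (nat_lit 324376410365) (nat_lit 0) (nat_lit 926489543878) (nat_lit 1) (nat_lit 5) (nat_lit 3) (nat_lit 4) (nat_lit 1) (nat_lit 4) (nat_lit 334) (nat_lit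 196) (nat_lit 190)) (XT.lf (nat_lit 0) (nat_lit 1001095055638) (nat_lit 152) (nat_lit 349809012339) (nat_lit 0) (nat_lit 1000849804596) (nat_lit 1) (nat_lit 5) (nat_lit 3) (nat_lit 4) (nat_lit 1) (nat_lit 4) (nat_lit 335) (nat_lit 196) (nat_lit 189))) (XT.nd (nat_lit 78) (nat_lit 0) (nat_lit 0) (XT.lf (nat_lit 0) (nat_lit 1081421708760) (nat_lit 152) (nat_lit 377297239524) (nat_lit 0) (nat_lit 1081151007836) (nat_lit 1) (nat_lit 5) (nat_lit 3) (nat_lit 4) (nat_lit 1) (nat_lit 4) (nat_lit 336) (nat_lit 196) (nat_lit 188)) (XT.lf (nat_lit 0) (nat_lit 1168163278209) (nat_lit 152) (nat_lit 407003985118) (nat_lit 0) (nat_lit 1167869012579) (nat_lit 1) (nat_lit 5) (nat_lit 3) (nat_lit 4) (nat_lit 1) (nat_lit 4) (nat_lit 337) (nat_lit 196) (nat_lit 187))))) (XT.nd (nat_lit 234) (nat_lit 0) (nat_lit 0) (XT.nd (nat_lit 78) (nat_lit 0) (nat_lit 0) (XT.lf (nat_lit 0) (nat_lit 1261833788100)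 (nat_lit 152) (nat_lit 439105289095) (nat_lit 0) (nat_lit 1261517703298) (nat_lit 1) (nat_lit 5) (nat_lit 3) (nat_lit 4) (nat_lit 1) (nat_lit 4) (nat_lit 338) (nat_lit 196) (nat_lit 186)) (XT.nd (nat_lit 78) (nat_lit 0) (nat_lit 0) (XT.lf (nat_lit 0) (nat_lit 1362988322937) (nat_lit 152) (nat_lit 473791381405) (nat_lit 0) (nat_lit 1362652035198) (nat_lit 1) (nat_lit 5) (nat_lit 3) (nat_lit 4) (nat_lit 1) (nat_lit 4) (nat_lit 339) (nat_lit 196) (nat_lit 185)) (XT.lf (nat_lit 0) (nat_lit 1472226317000) (nat_lit 152) (nat_lit 511267809260) (nat_lit 0) (nat_lit 1471871322837) (nat_lit 1) (nat_lit 5) (nat_lit 3) (nat_lit 4) (nat_lit 1) (nat_lit 4) (nat_lit 340) (nat_lit 196) (nat_lit 184)))) (XT.nd (nat_lit 156) (nat_lit 0) (nat_lit 0) (XT.nd (nat_lit 78) (nat_lit 0) (nat_lit 0) (XT.lf (nat_lit 0) (nat_lit 1590195106550) (nat_lit 152) (nat_lit 551756655197) (nat_lit 0) (nat_lit 1589822791624)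 (nat_lit 1) (nat_lit 5) (nat_lit 3) (nat_lit 4) (nat_lit 1) (nat_lit 4) (nat_lit 341) (nat_lit 196) (nat_lit 183)) (XT.lf (nat_lit 0) (nat_lit 1717593765895) (nat_lit 152) (nat_lit 595497853118) (nat_lit 0) (nat_lit 1717205413226) (nat_lit 1) (nat_lit 5) (nat_lit 3) (nat_lit 4) (nat_lit 1) (nat_lit 4) (nat_lit 342) (nat_lit 196) (nat_lit 182))) (XT.nd (nat_lit 78) (nat_lit 0) (nat_lit 0) (XT.lf (nat_lit 0) (nat_lit 1855177250054) (nat_lit 152) (nat_lit 642750610121) (nat_lit 0) (nat_lit 1854774047623) (nat_lit 1) (nat_lit 5) (nat_lit 3) (nat_lit 4) (nat_lit 1) (nat_lit 4) (nat_lit 343) (nat_lit 196) (nat_lit 181)) (XT.lf (nat_lit 0) (nat_lit 2003760868562) (nat_lit 152) (nat_lit 693794942544) (nat_lit 0) (nat_lit 2003343916352) (nat_lit 1) (nat_lit 5) (nat_lit 3) (nat_lit 4) (nat_lit 1) (nat_lit 4) (nat_lit 344) (nat_lit 196) (nat_lit 180))))))))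
noncomputable def xc2 : XT := (XT.nd (nat_lit 73476) (nat_lit 0) (nat_lit 0) (XT.nd (nat_lit 36816) (nat_lit 0) (nat_lit 0) (XT.nd (nat_lit 36270) (nat_lit 0) (nat_lit 0) (XT.nd (nat_lit 36036) (nat_lit 0) (nat_lit 0) (XT.nd (nat_lit 78) (nat_lit 0) (nat_lit 0) (XT.lf (nat_lit 0) (nat_lit 2164225116938) (nat_lit 152) (nat_lit 748933335320) (nat_lit 0) (nat_lit 2163795433450) (nat_lit 1) (nat_lit 5) (nat_lit 3) (nat_lit 4) (nat_lit 1) (nat_lit 4) (nat_lit 345) (nat_lit 196) (nat_lit 179)) (XT.nd (nat_lit 78) (nat_lit 0) (nat_lit 0) (XT.lf (nat_lit 0) (nat_lit 2337520894429) (nat_lit 152) (nat_lit 808492534479) (nat_lit 0) (nat_lit 2337079422722) (nat_lit 1) (nat_lit 5) (nat_lit 3) (nat_lit 4) (nat_lit 1) (nat_lit 4) (nat_lit 346) (nat_lit 196) (nat_lit 178)) (XT.lf (nat_lit 0) (nat_lit 2524675138978) (nat_lit 152) (nat_lit 872825483426) (nat_lit 0) (nat_lit 2524222752252) (nat_lit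 1) (nat_lit 5) (nat_lit 3) (nat_lit 4) (nat_lit 1) (nat_lit 4) (nat_lit 347) (nat_lit 196) (nat_lit 177)))) (XT.nd (nat_lit 78) (nat_lit 0) (nat_lit 0) (XT.lf (nat_lit 0) (nat_lit 249417162816) (nat_lit 152) (nat_lit 89494419292) (nat_lit 0) (nat_lit 249417162816) (nat_lit 1) (nat_lit 5) (nat_lit 3) (nat_lit 4) (nat_lit 1) (nat_lit 4) (nat_lit 326) (nat_lit 197) (nat_lit 197)) (XT.nd (nat_lit 78) (nat_lit 0) (nat_lit 0) (XT.lf (nat_lit 0) (nat_lit 539115974611) (nat_lit 152) (nat_lit 192569198851) (nat_lit 0) (nat_lit 539068868654) (nat_lit 1) (nat_lit 5) (nat_lit 3) (nat_lit 4) (nat_lit 1) (nat_lit 4) (nat_lit 327) (nat_lit 197) (nat_lit 196)) (XT.lf (nat_lit 0) (nat_lit 582599395618) (nat_lit 152) (nat_lit 207272007475) (nat_lit 0) (nat_lit 582508673035) (nat_lit 1) (nat_lit 5) (nat_lit 3) (nat_lit 4) (nat_lit 1) (nat_lit 4) (nat_lit 328) (nat_lit 197) (nat_lit 195))))) (XT.nd (nat_lit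 234) (nat_lit 0) (nat_lit 0) (XT.nd (nat_lit 78) (nat_lit 0) (nat_lit 0) (XT.lf (nat_lit 0) (nat_lit 629542268185) (nat_lit 152) (nat_lit 223184392210) (nat_lit 0) (nat_lit 629411159837) (nat_lit 1) (nat_lit 5) (nat_lit 3) (nat_lit 4) (nat_lit 1) (nat_lit 4) (nat_lit 329) (nat_lit 197) (nat_lit 194)) (XT.nd (nat_lit 78) (nat_lit 0) (nat_lit 0) (XT.lf (nat_lit 0) (nat_lit 680222772298) (nat_lit 152) (nat_lit 240400648669) (nat_lit 0) (nat_lit 680054269723) (nat_lit 1) (nat_lit 5) (nat_lit 3) (nat_lit 4) (nat_lit 1) (nat_lit 4) (nat_lit 330) (nat_lit 197) (nat_lit 193)) (XT.lf (nat_lit 0) (nat_lit 734941236870) (nat_lit 152) (nat_lit 259022799115) (nat_lit 0) (nat_lit 734738110011) (nat_lit 1) (nat_lit 5) (nat_lit 3) (nat_lit 4) (nat_lit 1) (nat_lit 4) (nat_lit 331) (nat_lit 197) (nat_lit 192)))) (XT.nd (nat_lit 156) (nat_lit 0) (nat_lit 0) (XT.nd (nat_lit 78) (nat_lit 0) (nat_lit 0)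 (XT.lf (nat_lit 0) (nat_lit 794021919469) (nat_lit 152) (nat_lit 279161197029) (nat_lit 0) (nat_lit 793786733088) (nat_lit 1) (nat_lit 5) (nat_lit 3) (nat_lit 4) (nat_lit 1) (nat_lit 4) (nat_lit 332) (nat_lit 197) (nat_lit 191)) (XT.lf (nat_lit 0) (nat_lit 857814927844) (nat_lit 152) (nat_lit 300935181068) (nat_lit 0) (nat_lit 857550056719) (nat_lit 1) (nat_lit 5) (nat_lit 3) (nat_lit 4) (nat_lit 1) (nat_lit 4) (nat_lit 333) (nat_lit 197) (nat_lit 190))) (XT.nd (nat_lit 78) (nat_lit 0) (nat_lit 0) (XT.lf (nat_lit 0) (nat_lit 926698294636) (nat_lit 152) (nat_lit 324473782247) (nat_lit 0) (nat_lit 926405937638) (nat_lit 1) (nat_lit 5) (nat_lit 3) (nat_lit 4) (nat_lit 1) (nat_lit 4) (nat_lit 334) (nat_lit 197) (nat_lit 189)) (XT.lf (nat_lit 0) (nat_lit 1001080217575) (nat_lit 152) (nat_lit 349916488574) (nat_lit 0) (nat_lit 1000762410694) (nat_lit 1) (nat_lit 5) (nat_lit 3) (nat_lit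 4) (nat_lit 1) (nat_lit 4) (nat_lit 335) (nat_lit 197) (nat_lit 188)))))) (XT.nd (nat_lit 468) (nat_lit 0) (nat_lit 0) (XT.nd (nat_lit 234) (nat_lit 0) (nat_lit 0) (XT.nd (nat_lit 78) (nat_lit 0) (nat_lit 0) (XT.lf (nat_lit 0) (nat_lit 1081401478426) (nat_lit 152) (nat_lit 377414071640) (nat_lit 0) (nat_lit 1081060106840) (nat_lit 1) (nat_lit 5) (nat_lit 3) (nat_lit 4) (nat_lit 1) (nat_lit 4) (nat_lit 336) (nat_lit 197) (nat_lit 187)) (XT.nd (nat_lit 78) (nat_lit 0) (nat_lit 0) (XT.lf (nat_lit 0) (nat_lit 1168138055032) (nat_lit 152) (nat_lit 407129480088) (nat_lit 0) (nat_lit 1167774864274) (nat_lit 1) (nat_lit 5) (nat_lit 3) (nat_lit 4) (nat_lit 1) (nat_lit 4) (nat_lit 337) (nat_lit 197) (nat_lit 186)) (XT.lf (nat_lit 0) (nat_lit 1261803941921) (nat_lit 152) (nat_lit 439238805226) (nat_lit 0) (nat_lit 1261420548225) (nat_lit 1) (nat_lit 5) (nat_lit 3) (nat_lit 4) (nat_lit 1) (nat_lit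 4) (nat_lit 338) (nat_lit 197) (nat_lit 185)))) (XT.nd (nat_lit 78) (nat_lit 0) (nat_lit 0) (XT.lf (nat_lit 0) (nat_lit 1362954196199) (nat_lit 152) (nat_lit 473932324536) (nat_lit 0) (nat_lit 1362552096080) (nat_lit 1) (nat_lit 5) (nat_lit 3) (nat_lit 4) (nat_lit 1) (nat_lit 4) (nat_lit 339) (nat_lit 197) (nat_lit 184)) (XT.nd (nat_lit 78) (nat_lit 0) (nat_lit 0) (XT.lf (nat_lit 0) (nat_lit 1472188226782) (nat_lit 152) (nat_lit 511415629244) (nat_lit 0) (nat_lit 1471768805901) (nat_lit 1) (nat_lit 5) (nat_lit 3) (nat_lit 4) (nat_lit 1) (nat_lit 4) (nat_lit 340) (nat_lit 197) (nat_lit 183)) (XT.lf (nat_lit 0) (nat_lit 1590153346443) (nat_lit 152) (nat_lit 551910842637) (nat_lit 0) (nat_lit 1589717887819) (nat_lit 1) (nat_lit 5) (nat_lit 3) (nat_lit 4) (nat_lit 1) (nat_lit 4) (nat_lit 341) (nat_lit 197) (nat_lit 182))))) (XT.nd (nat_lit 234) (nat_lit 0) (nat_lit 0) (XT.nd (nat_lit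 78) (nat_lit 0) (nat_lit 0) (XT.lf (nat_lit 0) (nat_lit 1717548607744) (nat_lit 152) (nat_lit 595657936350) (nat_lit 0) (nat_lit 1717098299357) (nat_lit 1) (nat_lit 5) (nat_lit 3) (nat_lit 4) (nat_lit 1) (nat_lit 4) (nat_lit 342) (nat_lit 197) (nat_lit 181)) (XT.nd (nat_lit 78) (nat_lit 0) (nat_lit 0) (XT.lf (nat_lit 0) (nat_lit 1855128945565) (nat_lit 152) (nat_lit 642916152420) (nat_lit 0) (nat_lit 1854664887398) (nat_lit 1) (nat_lit 5) (nat_lit 3) (nat_lit 4) (nat_lit 1) (nat_lit 4) (nat_lit 343) (nat_lit 197) (nat_lit 180)) (XT.lf (nat_lit 0) (nat_lit 2003709650797) (nat_lit 152) (nat_lit 693965539535) (nat_lit 0) (nat_lit 2003232861353) (nat_lit 1) (nat_lit 5) (nat_lit 3) (nat_lit 4) (nat_lit 1) (nat_lit 4) (nat_lit 344) (nat_lit 197) (nat_lit 179)))) (XT.nd (nat_lit 156) (nat_lit 0) (nat_lit 0) (XT.nd (nat_lit 78) (nat_lit 0) (nat_lit 0) (XT.lf (nat_lit 0) (nat_lit 2164171201695)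 (nat_lit 152) (nat_lit 749108612581) (nat_lit 0) (nat_lit 2163682624031) (nat_lit 1) (nat_lit 5) (nat_lit 3) (nat_lit 4) (nat_lit 1) (nat_lit 4) (nat_lit 345) (nat_lit 197) (nat_lit 178)) (XT.lf (nat_lit 0) (nat_lit 2337464481522) (nat_lit 152) (nat_lit 808672145324) (nat_lit 0) (nat_lit 2336964988840) (nat_lit 1) (nat_lit 5) (nat_lit 3) (nat_lit 4) (nat_lit 1) (nat_lit 4) (nat_lit 346) (nat_lit 197) (nat_lit 177))) (XT.nd (nat_lit 35724) (nat_lit 0) (nat_lit 0) (XT.lf (nat_lit 0) (nat_lit 2524616413418) (nat_lit 152) (nat_lit 873009106848) (nat_lit 0) (nat_lit 2524106814237) (nat_lit 1) (nat_lit 5) (nat_lit 3) (nat_lit 4) (nat_lit 1) (nat_lit 4) (nat_lit 347) (nat_lit 197) (nat_lit 176)) (XT.lf (nat_lit 0) (nat_lit 213500797168) (nat_lit 152) (nat_lit 77429767144) (nat_lit 0) (nat_lit 213500797168) (nat_lit 1) (nat_lit 5) (nat_lit 3) (nat_lit 4) (nat_lit 1) (nat_lit 4) (nat_lit 324)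 (nat_lit 198) (nat_lit 198))))))) (XT.nd (nat_lit 1014) (nat_lit 0) (nat_lit 0) (XT.nd (nat_lit 468) (nat_lit 0) (nat_lit 0) (XT.nd (nat_lit 234) (nat_lit 0) (nat_lit 0) (XT.nd (nat_lit 78) (nat_lit 0) (nat_lit 0) (XT.lf (nat_lit 0) (nat_lit 461566617046) (nat_lit 152) (nat_lit 166450450466) (nat_lit 0) (nat_lit 461515742613) (nat_lit 1) (nat_lit 5) (nat_lit 3) (nat_lit 4) (nat_lit 1) (nat_lit 4) (nat_lit 325) (nat_lit 198) (nat_lit 197)) (XT.nd (nat_lit 78) (nat_lit 0) (nat_lit 0) (XT.lf (nat_lit 0) (nat_lit 498874420891) (nat_lit 152) (nat_lit 179007541036) (nat_lit 0) (nat_lit 498776440501) (nat_lit 1) (nat_lit 5) (nat_lit 3) (nat_lit 4) (nat_lit 1) (nat_lit 4) (nat_lit 326) (nat_lit 198) (nat_lit 196)) (XT.lf (nat_lit 0) (nat_lit 539146089153) (nat_lit 152) (nat_lit 192605218387) (nat_lit 0) (nat_lit 539004492138) (nat_lit 1) (nat_lit 5) (nat_lit 3) (nat_lit 4) (nat_lit 1) (nat_lit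 4) (nat_lit 327) (nat_lit 198) (nat_lit 195)))) (XT.nd (nat_lit 78) (nat_lit 0) (nat_lit 0) (XT.lf (nat_lit 0) (nat_lit 582620268757) (nat_lit 152) (nat_lit 207324061348) (nat_lit 0) (nat_lit 582438285976) (nat_lit 1) (nat_lit 5) (nat_lit 3) (nat_lit 4) (nat_lit 1) (nat_lit 4) (nat_lit 328) (nat_lit 198) (nat_lit 194)) (XT.nd (nat_lit 78) (nat_lit 0) (nat_lit 0) (XT.lf (nat_lit 0) (nat_lit 629554584468) (nat_lit 152) (nat_lit 223251292691) (nat_lit 0) (nat_lit 629335207461) (nat_lit 1) (nat_lit 5) (nat_lit 3) (nat_lit 4) (nat_lit 1) (nat_lit 4) (nat_lit 329) (nat_lit 198) (nat_lit 193)) (XT.lf (nat_lit 0) (nat_lit 680227165567) (nat_lit 152) (nat_lit 240481296011) (nat_lit 0) (nat_lit 679973164275) (nat_lit 1) (nat_lit 5) (nat_lit 3) (nat_lit 4) (nat_lit 1) (nat_lit 4) (nat_lit 330) (nat_lit 198) (nat_lit 192))))) (XT.nd (nat_lit 234) (nat_lit 0) (nat_lit 0) (XT.nd (nat_lit 78) (nat_lit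 0) (nat_lit 0) (XT.lf (nat_lit 0) (nat_lit 734938294015) (nat_lit 152) (nat_lit 259116175030) (nat_lit 0) (nat_lit 734652233200) (nat_lit 1) (nat_lit 5) (nat_lit 3) (nat_lit 4) (nat_lit 1) (nat_lit 4) (nat_lit 331) (nat_lit 198) (nat_lit 191)) (XT.nd (nat_lit 78) (nat_lit 0) (nat_lit 0) (XT.lf (nat_lit 0) (nat_lit 794012183906) (nat_lit 152) (nat_lit 279266358662) (nat_lit 0) (nat_lit 793696438348) (nat_lit 1) (nat_lit 5) (nat_lit 3) (nat_lit 4) (nat_lit 1) (nat_lit 4) (nat_lit 332) (nat_lit 198) (nat_lit 190)) (XT.lf (nat_lit 0) (nat_lit 857798902736) (nat_lit 152) (nat_lit 301051255401) (nat_lit 0) (nat_lit 857455671305) (nat_lit 1) (nat_lit 5) (nat_lit 3) (nat_lit 4) (nat_lit 1) (nat_lit 4) (nat_lit 333) (nat_lit 198) (nat_lit 189)))) (XT.nd (nat_lit 156) (nat_lit 0) (nat_lit 0) (XT.nd (nat_lit 78) (nat_lit 0) (nat_lit 0) (XT.lf (nat_lit 0) (nat_lit 926676445876) (nat_lit 152)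 (nat_lit 324599960932) (nat_lit 0) (nat_lit 926307764562) (nat_lit 1) (nat_lit 5) (nat_lit 3) (nat_lit 4) (nat_lit 1) (nat_lit 4) (nat_lit 334) (nat_lit 198) (nat_lit 188)) (XT.lf (nat_lit 0) (nat_lit 1001052976544) (nat_lit 152) (nat_lit 350052023141) (nat_lit 0) (nat_lit 1000660730525) (nat_lit 1) (nat_lit 5) (nat_lit 3) (nat_lit 4) (nat_lit 1) (nat_lit 4) (nat_lit 335) (nat_lit 198) (nat_lit 187))) (XT.nd (nat_lit 78) (nat_lit 0) (nat_lit 0) (XT.lf (nat_lit 0) (nat_lit 1081369244553) (nat_lit 152) (nat_lit 377558269061) (nat_lit 0) (nat_lit 1080955179361) (nat_lit 1) (nat_lit 5) (nat_lit 3) (nat_lit 4) (nat_lit 1) (nat_lit 4) (nat_lit 336) (nat_lit 198) (nat_lit 186)) (XT.lf (nat_lit 0) (nat_lit 1168101198156) (nat_lit 152) (nat_lit 407281698669) (nat_lit 0) (nat_lit 1167666930027) (nat_lit 1) (nat_lit 5) (nat_lit 3) (nat_lit 4) (nat_lit 1) (nat_lit 4) (nat_lit 337) (nat_lit 198)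 (nat_lit 185)))))) (XT.nd (nat_lit 546) (nat_lit 0) (nat_lit 0) (XT.nd (nat_lit 234) (nat_lit 0) (nat_lit 0) (XT.nd (nat_lit 78) (nat_lit 0) (nat_lit 0) (XT.lf (nat_lit 0) (nat_lit 1261762804486) (nat_lit 152) (nat_lit 439398450808) (nat_lit 0) (nat_lit 1261309829934) (nat_lit 1) (nat_lit 5) (nat_lit 3) (nat_lit 4) (nat_lit 1) (nat_lit 4) (nat_lit 338) (nat_lit 198) (nat_lit 184)) (XT.nd (nat_lit 78) (nat_lit 0) (nat_lit 0) (XT.lf (nat_lit 0) (nat_lit 1362909095285) (nat_lit 152) (nat_lit 474098846970) (nat_lit 0) (nat_lit 1362438799970) (nat_lit 1) (nat_lit 5) (nat_lit 3) (nat_lit 4) (nat_lit 1) (nat_lit 4) (nat_lit 339) (nat_lit 198) (nat_lit 183)) (XT.lf (nat_lit 0) (nat_lit 1472139455979) (nat_lit 152) (nat_lit 511588519134) (nat_lit 0) (nat_lit 1471653122921) (nat_lit 1) (nat_lit 5) (nat_lit 3) (nat_lit 4) (nat_lit 1) (nat_lit 4) (nat_lit 340) (nat_lit 198) (nat_lit 182)))) (XT.nd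 (nat_lit 156) (nat_lit 0) (nat_lit 0) (XT.nd (nat_lit 78) (nat_lit 0) (nat_lit 0) (XT.lf (nat_lit 0) (nat_lit 1590101177595) (nat_lit 152) (nat_lit 552089628320) (nat_lit 0) (nat_lit 1589599994775) (nat_lit 1) (nat_lit 5) (nat_lit 3) (nat_lit 4) (nat_lit 1) (nat_lit 4) (nat_lit 341) (nat_lit 198) (nat_lit 181)) (XT.lf (nat_lit 0) (nat_lit 1717493292557) (nat_lit 152) (nat_lit 595842181100) (nat_lit 0) (nat_lit 1716978359958) (nat_lit 1) (nat_lit 5) (nat_lit 3) (nat_lit 4) (nat_lit 1) (nat_lit 4) (nat_lit 342) (nat_lit 198) (nat_lit 180))) (XT.nd (nat_lit 78) (nat_lit 0) (nat_lit 0) (XT.lf (nat_lit 0) (nat_lit 1855070717102) (nat_lit 152) (nat_lit 643105451862) (nat_lit 0) (nat_lit 1854543053225) (nat_lit 1) (nat_lit 5) (nat_lit 3) (nat_lit 4) (nat_lit 1) (nat_lit 4) (nat_lit 343) (nat_lit 198) (nat_lit 179)) (XT.lf (nat_lit 0) (nat_lit 2003648724857) (nat_lit 152) (nat_lit 694159519247)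 (nat_lit 0) (nat_lit 2003109272760) (nat_lit 1) (nat_lit 5) (nat_lit 3) (nat_lit 4) (nat_lit 1) (nat_lit 4) (nat_lit 344) (nat_lit 198) (nat_lit 178))))) (XT.nd (nat_lit 35724) (nat_lit 0) (nat_lit 0) (XT.nd (nat_lit 78) (nat_lit 0) (nat_lit 0) (XT.lf (nat_lit 0) (nat_lit 2164107778090) (nat_lit 152) (nat_lit 749306925877) (nat_lit 0) (nat_lit 2163557410975) (nat_lit 1) (nat_lit 5) (nat_lit 3) (nat_lit 4) (nat_lit 1) (nat_lit 4) (nat_lit 345) (nat_lit 198) (nat_lit 177)) (XT.nd (nat_lit 78) (nat_lit 0) (nat_lit 0) (XT.lf (nat_lit 0) (nat_lit 2337398745265) (nat_lit 152) (nat_lit 808874471198) (nat_lit 0) (nat_lit 2336838271651) (nat_lit 1) (nat_lit 5) (nat_lit 3) (nat_lit 4) (nat_lit 1) (nat_lit 4) (nat_lit 346) (nat_lit 198) (nat_lit 176)) (XT.lf (nat_lit 0) (nat_lit 2524548535816) (nat_lit 152) (nat_lit 873215148071) (nat_lit 0) (nat_lit 2523978704333) (nat_lit 1) (nat_lit 5) (nat_lit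 3) (nat_lit 4) (nat_lit 1) (nat_lit 4) (nat_lit 347) (nat_lit 198) (nat_lit 175)))) (XT.nd (nat_lit 156) (nat_lit 0) (nat_lit 0) (XT.nd (nat_lit 78) (nat_lit 0) (nat_lit 0) (XT.lf (nat_lit 0) (nat_lit 182681565097) (nat_lit 152) (nat_lit 67142490687) (nat_lit 0) (nat_lit 182681565097) (nat_lit 1) (nat_lit 5) (nat_lit 3) (nat_lit 4) (nat_lit 1) (nat_lit 4) (nat_lit 322) (nat_lit 199) (nat_lit 199)) (XT.lf (nat_lit 0) (nat_lit 395029467385) (nat_lit 152) (nat_lit 144166105594) (nat_lit 0) (nat_lit 394974522998) (nat_lit 1) (nat_lit 5) (nat_lit 3) (nat_lit 4) (nat_lit 1) (nat_lit 4) (nat_lit 323) (nat_lit 199) (nat_lit 198))) (XT.nd (nat_lit 78) (nat_lit 0) (nat_lit 0) (XT.lf (nat_lit 0) (nat_lit 427044897216) (nat_lit 152) (nat_lit 154879732936) (nat_lit 0) (nat_lit 426939078395) (nat_lit 1) (nat_lit 5) (nat_lit 3) (nat_lit 4) (nat_lit 1) (nat_lit 4) (nat_lit 324) (nat_lit 199) (nat_lit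 197)) (XT.lf (nat_lit 0) (nat_lit 461599140752) (nat_lit 152) (nat_lit 166489351565) (nat_lit 0) (nat_lit 461446215975) (nat_lit 1) (nat_lit 5) (nat_lit 3) (nat_lit 4) (nat_lit 1) (nat_lit 4) (nat_lit 325) (nat_lit 199) (nat_lit 196))))))))
noncomputable def xc3 : XT := (XT.nd (nat_lit 37440) (nat_lit 0) (nat_lit 0) (XT.nd (nat_lit 1014) (nat_lit 0) (nat_lit 0) (XT.nd (nat_lit 468) (nat_lit 0) (nat_lit 0) (XT.nd (nat_lit 234) (nat_lit 0) (nat_lit 0) (XT.nd (nat_lit 78) (nat_lit 0) (nat_lit 0) (XT.lf (nat_lit 0) (nat_lit 498896963881) (nat_lit 152) (nat_lit 179063759219) (nat_lit 0) (nat_lit 498700422477) (nat_lit 1) (nat_lit 5) (nat_lit 3) (nat_lit 4) (nat_lit 1) (nat_lit 4) (nat_lit 326) (nat_lit 199) (nat_lit 195)) (XT.nd (nat_lit 78) (nat_lit 0) (nat_lit 0) (XT.lf (nat_lit 0) (nat_lit 539159390739) (nat_lit 152) (nat_lit 192677470907) (nat_lit 0) (nat_lit 538922463571) (nat_lit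 1) (nat_lit 5) (nat_lit 3) (nat_lit 4) (nat_lit 1) (nat_lit 4) (nat_lit 327) (nat_lit 199) (nat_lit 194)) (XT.lf (nat_lit 0) (nat_lit 582625013487) (nat_lit 152) (nat_lit 207411160476) (nat_lit 0) (nat_lit 582350692091) (nat_lit 1) (nat_lit 5) (nat_lit 3) (nat_lit 4) (nat_lit 1) (nat_lit 4) (nat_lit 328) (nat_lit 199) (nat_lit 193)))) (XT.nd (nat_lit 78) (nat_lit 0) (nat_lit 0) (XT.lf (nat_lit 0) (nat_lit 629551406184) (nat_lit 152) (nat_lit 223352138680) (nat_lit 0) (nat_lit 629242460504) (nat_lit 1) (nat_lit 5) (nat_lit 3) (nat_lit 4) (nat_lit 1) (nat_lit 4) (nat_lit 329) (nat_lit 199) (nat_lit 192)) (XT.nd (nat_lit 78) (nat_lit 0) (nat_lit 0) (XT.lf (nat_lit 0) (nat_lit 680216651158) (nat_lit 152) (nat_lit 240594870574) (nat_lit 0) (nat_lit 679875645956) (nat_lit 1) (nat_lit 5) (nat_lit 3) (nat_lit 4) (nat_lit 1) (nat_lit 4) (nat_lit 330) (nat_lit 199) (nat_lit 191)) (XT.lf (nat_lit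 0) (nat_lit 734920986898) (nat_lit 152) (nat_lit 259241535310) (nat_lit 0) (nat_lit 734550296953) (nat_lit 1) (nat_lit 5) (nat_lit 3) (nat_lit 4) (nat_lit 1) (nat_lit 4) (nat_lit 331) (nat_lit 199) (nat_lit 190))))) (XT.nd (nat_lit 234) (nat_lit 0) (nat_lit 0) (XT.nd (nat_lit 78) (nat_lit 0) (nat_lit 0) (XT.lf (nat_lit 0) (nat_lit 793988587245) (nat_lit 152) (nat_lit 279402631642) (nat_lit 0) (nat_lit 793590411426) (nat_lit 1) (nat_lit 5) (nat_lit 3) (nat_lit 4) (nat_lit 1) (nat_lit 4) (nat_lit 332) (nat_lit 199) (nat_lit 189)) (XT.nd (nat_lit 78) (nat_lit 0) (nat_lit 0) (XT.lf (nat_lit 0) (nat_lit 857769482423) (nat_lit 152) (nat_lit 301197632734) (nat_lit 0) (nat_lit 857345856722) (nat_lit 1) (nat_lit 5) (nat_lit 3) (nat_lit 4) (nat_lit 1) (nat_lit 4) (nat_lit 333) (nat_lit 199) (nat_lit 188)) (XT.lf (nat_lit 0) (nat_lit 926641633292) (nat_lit 152) (nat_lit 324755694147) (nat_lit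 0) (nat_lit 926194442885) (nat_lit 1) (nat_lit 5) (nat_lit 3) (nat_lit 4) (nat_lit 1) (nat_lit 4) (nat_lit 334) (nat_lit 199) (nat_lit 187)))) (XT.nd (nat_lit 156) (nat_lit 0) (nat_lit 0) (XT.nd (nat_lit 78) (nat_lit 0) (nat_lit 0) (XT.lf (nat_lit 0) (nat_lit 1001013171117) (nat_lit 152) (nat_lit 350216419209) (nat_lit 0) (nat_lit 1000544161538) (nat_lit 1) (nat_lit 5) (nat_lit 3) (nat_lit 4) (nat_lit 1) (nat_lit 4) (nat_lit 335) (nat_lit 199) (nat_lit 186)) (XT.lf (nat_lit 0) (nat_lit 1081324816123) (nat_lit 152) (nat_lit 377730686290) (nat_lit 0) (nat_lit 1080835603606) (nat_lit 1) (nat_lit 5) (nat_lit 3) (nat_lit 4) (nat_lit 1) (nat_lit 4) (nat_lit 336) (nat_lit 199) (nat_lit 185))) (XT.nd (nat_lit 78) (nat_lit 0) (nat_lit 0) (XT.lf (nat_lit 0) (nat_lit 1168052489168) (nat_lit 152) (nat_lit 407461542899) (nat_lit 0) (nat_lit 1167544570228) (nat_lit 1) (nat_lit 5) (nat_lit 3) (nat_lit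 4) (nat_lit 1) (nat_lit 4) (nat_lit 337) (nat_lit 199) (nat_lit 184)) (XT.lf (nat_lit 0) (nat_lit 1261710132019) (nat_lit 152) (nat_lit 439585171890) (nat_lit 0) (nat_lit 1261184892316) (nat_lit 1) (nat_lit 5) (nat_lit 3) (nat_lit 4) (nat_lit 1) (nat_lit 4) (nat_lit 338) (nat_lit 199) (nat_lit 183)))))) (XT.nd (nat_lit 546) (nat_lit 0) (nat_lit 0) (XT.nd (nat_lit 234) (nat_lit 0) (nat_lit 0) (XT.nd (nat_lit 78) (nat_lit 0) (nat_lit 0) (XT.lf (nat_lit 0) (nat_lit 1362852752929) (nat_lit 152) (nat_lit 474291935508) (nat_lit 0) (nat_lit 1362311475483) (nat_lit 1) (nat_lit 5) (nat_lit 3) (nat_lit 4) (nat_lit 1) (nat_lit 4) (nat_lit 339) (nat_lit 199) (nat_lit 182)) (XT.nd (nat_lit 78) (nat_lit 0) (nat_lit 0) (XT.lf (nat_lit 0) (nat_lit 1472079715578) (nat_lit 152) (nat_lit 511787503465) (nat_lit 0) (nat_lit 1471523588370) (nat_lit 1) (nat_lit 5) (nat_lit 3) (nat_lit 4) (nat_lit 1) (nat_lit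 4) (nat_lit 340) (nat_lit 199) (nat_lit 181)) (XT.lf (nat_lit 0) (nat_lit 1590038290856) (nat_lit 152) (nat_lit 552294071718) (nat_lit 0) (nat_lit 1589468413869) (nat_lit 1) (nat_lit 5) (nat_lit 3) (nat_lit 4) (nat_lit 1) (nat_lit 4) (nat_lit 341) (nat_lit 199) (nat_lit 180)))) (XT.nd (nat_lit 156) (nat_lit 0) (nat_lit 0) (XT.nd (nat_lit 78) (nat_lit 0) (nat_lit 0) (XT.lf (nat_lit 0) (nat_lit 1717427492542) (nat_lit 152) (nat_lit 596051679190) (nat_lit 0) (nat_lit 1716844884277) (nat_lit 1) (nat_lit 5) (nat_lit 3) (nat_lit 4) (nat_lit 1) (nat_lit 4) (nat_lit 342) (nat_lit 199) (nat_lit 179)) (XT.lf (nat_lit 0) (nat_lit 1855002219609) (nat_lit 152) (nat_lit 643319630222) (nat_lit 0) (nat_lit 1854407823125) (nat_lit 1) (nat_lit 5) (nat_lit 3) (nat_lit 4) (nat_lit 1) (nat_lit 4) (nat_lit 343) (nat_lit 199) (nat_lit 178))) (XT.nd (nat_lit 78) (nat_lit 0) (nat_lit 0) (XT.lf (nat_lit 0)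 (nat_lit 2003577729699) (nat_lit 152) (nat_lit 694378031191) (nat_lit 0) (nat_lit 2002972418197) (nat_lit 1) (nat_lit 5) (nat_lit 3) (nat_lit 4) (nat_lit 1) (nat_lit 4) (nat_lit 344) (nat_lit 199) (nat_lit 177)) (XT.lf (nat_lit 0) (nat_lit 2164034470280) (nat_lit 152) (nat_lit 749529450398) (nat_lit 0) (nat_lit 2163419052279) (nat_lit 1) (nat_lit 5) (nat_lit 3) (nat_lit 4) (nat_lit 1) (nat_lit 4) (nat_lit 345) (nat_lit 199) (nat_lit 176))))) (XT.nd (nat_lit 35568) (nat_lit 0) (nat_lit 0) (XT.nd (nat_lit 78) (nat_lit 0) (nat_lit 0) (XT.lf (nat_lit 0) (nat_lit 2337323296110) (nat_lit 152) (nat_lit 809100711068) (nat_lit 0) (nat_lit 2336698520239) (nat_lit 1) (nat_lit 5) (nat_lit 3) (nat_lit 4) (nat_lit 1) (nat_lit 4) (nat_lit 346) (nat_lit 199) (nat_lit 175)) (XT.nd (nat_lit 35412) (nat_lit 0) (nat_lit 0) (XT.lf (nat_lit 0) (nat_lit 2524471103934) (nat_lit 152) (nat_lit 873444828080)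 (nat_lit 0) (nat_lit 2523837663371) (nat_lit 1) (nat_lit 5) (nat_lit 3) (nat_lit 4) (nat_lit 1) (nat_lit 4) (nat_lit 347) (nat_lit 199) (nat_lit 174)) (XT.lf (nat_lit 0) (nat_lit 156230164512) (nat_lit 152) (nat_lit 58383524863) (nat_lit 0) (nat_lit 156230164512) (nat_lit 1) (nat_lit 5) (nat_lit 3) (nat_lit 4) (nat_lit 1) (nat_lit 4) (nat_lit 320) (nat_lit 200) (nat_lit 200)))) (XT.nd (nat_lit 156) (nat_lit 0) (nat_lit 0) (XT.nd (nat_lit 78) (nat_lit 0) (nat_lit 0) (XT.lf (nat_lit 0) (nat_lit 337929425064) (nat_lit 152) (nat_lit 125177805470) (nat_lit 0) (nat_lit 337870085125) (nat_lit 1) (nat_lit 5) (nat_lit 3) (nat_lit 4) (nat_lit 1) (nat_lit 4) (nat_lit 321) (nat_lit 200) (nat_lit 199)) (XT.lf (nat_lit 0) (nat_lit 365409897304) (nat_lit 152) (nat_lit 134306795914) (nat_lit 0) (nat_lit 365295612978) (nat_lit 1) (nat_lit 5) (nat_lit 3) (nat_lit 4) (nat_lit 1) (nat_lit 4) (nat_lit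 322) (nat_lit 200) (nat_lit 198))) (XT.nd (nat_lit 78) (nat_lit 0) (nat_lit 0) (XT.lf (nat_lit 0) (nat_lit 395064592988) (nat_lit 152) (nat_lit 144208118780) (nat_lit 0) (nat_lit 394899434229) (nat_lit 1) (nat_lit 5) (nat_lit 3) (nat_lit 4) (nat_lit 1) (nat_lit 4) (nat_lit 323) (nat_lit 200) (nat_lit 197)) (XT.lf (nat_lit 0) (nat_lit 427069243645) (nat_lit 152) (nat_lit 154940448574) (nat_lit 0) (nat_lit 426856978929) (nat_lit 1) (nat_lit 5) (nat_lit 3) (nat_lit 4) (nat_lit 1) (nat_lit 4) (nat_lit 324) (nat_lit 200) (nat_lit 196))))))) (XT.nd (nat_lit 1014) (nat_lit 0) (nat_lit 0) (XT.nd (nat_lit 468) (nat_lit 0) (nat_lit 0) (XT.nd (nat_lit 234) (nat_lit 0) (nat_lit 0) (XT.nd (nat_lit 78) (nat_lit 0) (nat_lit 0) (XT.lf (nat_lit 0) (nat_lit 461613506465) (nat_lit 152) (nat_lit 166567384287) (nat_lit 0) (nat_lit 461357625123) (nat_lit 1) (nat_lit 5) (nat_lit 3) (nat_lit 4) (nat_lit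 1) (nat_lit 4) (nat_lit 325) (nat_lit 200) (nat_lit 195)) (XT.nd (nat_lit 78) (nat_lit 0) (nat_lit 0) (XT.lf (nat_lit 0) (nat_lit 498902088189) (nat_lit 152) (nat_lit 179157826278) (nat_lit 0) (nat_lit 498605821082) (nat_lit 1) (nat_lit 5) (nat_lit 3) (nat_lit 4) (nat_lit 1) (nat_lit 4) (nat_lit 326) (nat_lit 200) (nat_lit 194)) (XT.lf (nat_lit 0) (nat_lit 539155958192) (nat_lit 152) (nat_lit 192786384575) (nat_lit 0) (nat_lit 538822296858) (nat_lit 1) (nat_lit 5) (nat_lit 3) (nat_lit 4) (nat_lit 1) (nat_lit 4) (nat_lit 327) (nat_lit 200) (nat_lit 193)))) (XT.nd (nat_lit 78) (nat_lit 0) (nat_lit 0) (XT.lf (nat_lit 0) (nat_lit 582613657925) (nat_lit 152) (nat_lit 207533821004) (nat_lit 0) (nat_lit 582245372307) (nat_lit 1) (nat_lit 5) (nat_lit 3) (nat_lit 4) (nat_lit 1) (nat_lit 4) (nat_lit 328) (nat_lit 200) (nat_lit 192)) (XT.nd (nat_lit 78) (nat_lit 0) (nat_lit 0) (XT.lf (nat_lit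 0) (nat_lit 629532714498) (nat_lit 152) (nat_lit 223487527782) (nat_lit 0) (nat_lit 629132369357) (nat_lit 1) (nat_lit 5) (nat_lit 3) (nat_lit 4) (nat_lit 1) (nat_lit 4) (nat_lit 329) (nat_lit 200) (nat_lit 191)) (XT.lf (nat_lit 0) (nat_lit 680191166764) (nat_lit 152) (nat_lit 240742045392) (nat_lit 0) (nat_lit 679761136881) (nat_lit 1) (nat_lit 5) (nat_lit 3) (nat_lit 4) (nat_lit 1) (nat_lit 4) (nat_lit 330) (nat_lit 200) (nat_lit 190))))) (XT.nd (nat_lit 234) (nat_lit 0) (nat_lit 0) (XT.nd (nat_lit 78) (nat_lit 0) (nat_lit 0) (XT.lf (nat_lit 0) (nat_lit 734889212960) (nat_lit 152) (nat_lit 259399622829) (nat_lit 0) (nat_lit 734431697203) (nat_lit 1) (nat_lit 5) (nat_lit 3) (nat_lit 4) (nat_lit 1) (nat_lit 4) (nat_lit 331) (nat_lit 200) (nat_lit 189)) (XT.nd (nat_lit 78) (nat_lit 0) (nat_lit 0) (XT.lf (nat_lit 0) (nat_lit 793950989654) (nat_lit 152) (nat_lit 279570823513) (nat_lit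 0) (nat_lit 793468024015) (nat_lit 1) (nat_lit 5) (nat_lit 3) (nat_lit 4) (nat_lit 1) (nat_lit 4) (nat_lit 332) (nat_lit 200) (nat_lit 188)) (XT.lf (nat_lit 0) (nat_lit 857726492562) (nat_lit 152) (nat_lit 301375180487) (nat_lit 0) (nat_lit 857219962216) (nat_lit 1) (nat_lit 5) (nat_lit 3) (nat_lit 4) (nat_lit 1) (nat_lit 4) (nat_lit 333) (nat_lit 200) (nat_lit 187)))) (XT.nd (nat_lit 156) (nat_lit 0) (nat_lit 0) (XT.nd (nat_lit 78) (nat_lit 0) (nat_lit 0) (XT.lf (nat_lit 0) (nat_lit 926593650588) (nat_lit 152) (nat_lit 324941904754) (nat_lit 0) (nat_lit 926065301070) (nat_lit 1) (nat_lit 5) (nat_lit 3) (nat_lit 4) (nat_lit 1) (nat_lit 4) (nat_lit 334) (nat_lit 200) (nat_lit 186)) (XT.lf (nat_lit 0) (nat_lit 1000960565411) (nat_lit 152) (nat_lit 350410650976) (nat_lit 0) (nat_lit 1000412012956) (nat_lit 1) (nat_lit 5) (nat_lit 3) (nat_lit 4) (nat_lit 1) (nat_lit 4) (nat_lit 335) (nat_lit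 200) (nat_lit 185))) (XT.nd (nat_lit 78) (nat_lit 0) (nat_lit 0) (XT.lf (nat_lit 0) (nat_lit 1081267929858) (nat_lit 152) (nat_lit 377932345058) (nat_lit 0) (nat_lit 1080700670979) (nat_lit 1) (nat_lit 5) (nat_lit 3) (nat_lit 4) (nat_lit 1) (nat_lit 4) (nat_lit 336) (nat_lit 200) (nat_lit 184)) (XT.lf (nat_lit 0) (nat_lit 1167991639423) (nat_lit 152) (nat_lit 407670078520) (nat_lit 0) (nat_lit 1167407059782) (nat_lit 1) (nat_lit 5) (nat_lit 3) (nat_lit 4) (nat_lit 1) (nat_lit 4) (nat_lit 337) (nat_lit 200) (nat_lit 183)))))) (XT.nd (nat_lit 546) (nat_lit 0) (nat_lit 0) (XT.nd (nat_lit 234) (nat_lit 0) (nat_lit 0) (XT.nd (nat_lit 78) (nat_lit 0) (nat_lit 0) (XT.lf (nat_lit 0) (nat_lit 1261645612385) (nat_lit 152) (nat_lit 439800074966) (nat_lit 0) (nat_lit 1261044995001) (nat_lit 1) (nat_lit 5) (nat_lit 3) (nat_lit 4) (nat_lit 1) (nat_lit 4) (nat_lit 338) (nat_lit 200) (nat_lit 182))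 (XT.nd (nat_lit 78) (nat_lit 0) (nat_lit 0) (XT.lf (nat_lit 0) (nat_lit 1362784835250) (nat_lit 152) (nat_lit 474512734378) (nat_lit 0) (nat_lit 1362169368104) (nat_lit 1) (nat_lit 5) (nat_lit 3) (nat_lit 4) (nat_lit 1) (nat_lit 4) (nat_lit 339) (nat_lit 200) (nat_lit 181)) (XT.lf (nat_lit 0) (nat_lit 1472008651561) (nat_lit 152) (nat_lit 512013761401) (nat_lit 0) (nat_lit 1471379434636) (nat_lit 1) (nat_lit 5) (nat_lit 3) (nat_lit 4) (nat_lit 1) (nat_lit 4) (nat_lit 340) (nat_lit 200) (nat_lit 180)))) (XT.nd (nat_lit 156) (nat_lit 0) (nat_lit 0) (XT.nd (nat_lit 78) (nat_lit 0) (nat_lit 0) (XT.lf (nat_lit 0) (nat_lit 1589964313563) (nat_lit 152) (nat_lit 552525384346) (nat_lit 0) (nat_lit 1589322365360) (nat_lit 1) (nat_lit 5) (nat_lit 3) (nat_lit 4) (nat_lit 1) (nat_lit 4) (nat_lit 341) (nat_lit 200) (nat_lit 179)) (XT.lf (nat_lit 0) (nat_lit 1717350817772) (nat_lit 152) (nat_lit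 596287672089) (nat_lit 0) (nat_lit 1716697081349) (nat_lit 1) (nat_lit 5) (nat_lit 3) (nat_lit 4) (nat_lit 1) (nat_lit 4) (nat_lit 342) (nat_lit 200) (nat_lit 178))) (XT.nd (nat_lit 78) (nat_lit 0) (nat_lit 0) (XT.lf (nat_lit 0) (nat_lit 1854923047174) (nat_lit 152) (nat_lit 643559956704) (nat_lit 0) (nat_lit 1854258395733) (nat_lit 1) (nat_lit 5) (nat_lit 3) (nat_lit 4) (nat_lit 1) (nat_lit 4) (nat_lit 343) (nat_lit 200) (nat_lit 177)) (XT.lf (nat_lit 0) (nat_lit 2003496244612) (nat_lit 152) (nat_lit 694622370250) (nat_lit 0) (nat_lit 2002821486672) (nat_lit 1) (nat_lit 5) (nat_lit 3) (nat_lit 4) (nat_lit 1) (nat_lit 4) (nat_lit 344) (nat_lit 200) (nat_lit 176))))) (XT.nd (nat_lit 35412) (nat_lit 0) (nat_lit 0) (XT.nd (nat_lit 78) (nat_lit 0) (nat_lit 0) (XT.lf (nat_lit 0) (nat_lit 2163950843848) (nat_lit 152) (nat_lit 749777504807) (nat_lit 0) (nat_lit 2163266728039) (nat_lit 1)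 (nat_lit 5) (nat_lit 3) (nat_lit 4) (nat_lit 1) (nat_lit 4) (nat_lit 345) (nat_lit 200) (nat_lit 175)) (XT.nd (nat_lit 78) (nat_lit 0) (nat_lit 0) (XT.lf (nat_lit 0) (nat_lit 2337237686951) (nat_lit 152) (nat_lit 809352205615) (nat_lit 0) (nat_lit 2336544906449) (nat_lit 1) (nat_lit 5) (nat_lit 3) (nat_lit 4) (nat_lit 1) (nat_lit 4) (nat_lit 346) (nat_lit 200) (nat_lit 174)) (XT.lf (nat_lit 0) (nat_lit 2524383658918) (nat_lit 152) (nat_lit 873699507940) (nat_lit 0) (nat_lit 2523682855551) (nat_lit 1) (nat_lit 5) (nat_lit 3) (nat_lit 4) (nat_lit 1) (nat_lit 4) (nat_lit 347) (nat_lit 200) (nat_lit 173)))) (XT.nd (nat_lit 156) (nat_lit 0) (nat_lit 0) (XT.nd (nat_lit 78) (nat_lit 0) (nat_lit 0) (XT.lf (nat_lit 0) (nat_lit 133521165299) (nat_lit 152) (nat_lit 50939696325) (nat_lit 0) (nat_lit 133521165299) (nat_lit 1) (nat_lit 5) (nat_lit 3) (nat_lit 4) (nat_lit 1) (nat_lit 4) (nat_lit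 318) (nat_lit 201) (nat_lit 201)) (XT.lf (nat_lit 0) (nat_lit 288915768342) (nat_lit 152) (nat_lit 109024687168) (nat_lit 0) (nat_lit 288851681208) (nat_lit 1) (nat_lit 5) (nat_lit 3) (nat_lit 4) (nat_lit 1) (nat_lit 4) (nat_lit 319) (nat_lit 201) (nat_lit 200))) (XT.nd (nat_lit 78) (nat_lit 0) (nat_lit 0) (XT.lf (nat_lit 0) (nat_lit 312510837503) (nat_lit 152) (nat_lit 116790609429) (nat_lit 0) (nat_lit 312387410431) (nat_lit 1) (nat_lit 5) (nat_lit 3) (nat_lit 4) (nat_lit 1) (nat_lit 4) (nat_lit 320) (nat_lit 201) (nat_lit 199)) (XT.lf (nat_lit 0) (nat_lit 337967360715) (nat_lit 152) (nat_lit 125223179711) (nat_lit 0) (nat_lit 337788989255) (nat_lit 1) (nat_lit 5) (nat_lit 3) (nat_lit 4) (nat_lit 1) (nat_lit 4) (nat_lit 321) (nat_lit 201) (nat_lit 198))))))))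
noncomputable def xc4 : XT := (XT.nd (nat_lit 37050) (nat_lit 0) (nat_lit 0) (XT.nd (nat_lit 1014) (nat_lit 0) (nat_lit 0) (XT.nd (nat_lit 468) (nat_lit 0) (nat_lit 0) (XT.nd (nat_lit 234) (nat_lit 0) (nat_lit 0) (XT.nd (nat_lit 78) (nat_lit 0) (nat_lit 0) (XT.lf (nat_lit 0) (nat_lit 365436191448) (nat_lit 152) (nat_lit 134372368803) (nat_lit 0) (nat_lit 365206945555) (nat_lit 1) (nat_lit 5) (nat_lit 3) (nat_lit 4) (nat_lit 1) (nat_lit 4) (nat_lit 322) (nat_lit 201) (nat_lit 197)) (XT.nd (nat_lit 78) (nat_lit 0) (nat_lit 0) (XT.lf (nat_lit 0) (nat_lit 395080107958) (nat_lit 152) (nat_lit 144292394120) (nat_lit 0) (nat_lit 394803756108) (nat_lit 1) (nat_lit 5) (nat_lit 3) (nat_lit 4) (nat_lit 1) (nat_lit 4) (nat_lit 323) (nat_lit 201) (nat_lit 196)) (XT.lf (nat_lit 0) (nat_lit 427074777898) (nat_lit 152) (nat_lit 155042040998) (nat_lit 0) (nat_lit 426754809423) (nat_lit 1) (nat_lit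 5) (nat_lit 3) (nat_lit 4) (nat_lit 1) (nat_lit 4) (nat_lit 324) (nat_lit 201) (nat_lit 195)))) (XT.nd (nat_lit 78) (nat_lit 0) (nat_lit 0) (XT.lf (nat_lit 0) (nat_lit 461609799314) (nat_lit 152) (nat_lit 166685011048) (nat_lit 0) (nat_lit 461249445073) (nat_lit 1) (nat_lit 5) (nat_lit 3) (nat_lit 4) (nat_lit 1) (nat_lit 4) (nat_lit 325) (nat_lit 201) (nat_lit 194)) (XT.nd (nat_lit 78) (nat_lit 0) (nat_lit 0) (XT.lf (nat_lit 0) (nat_lit 498889824183) (nat_lit 152) (nat_lit 179290299648) (nat_lit 0) (nat_lit 498492075715) (nat_lit 1) (nat_lit 5) (nat_lit 3) (nat_lit 4) (nat_lit 1) (nat_lit 4) (nat_lit 326) (nat_lit 201) (nat_lit 193)) (XT.lf (nat_lit 0) (nat_lit 539135771171) (nat_lit 152) (nat_lit 192932604805) (nat_lit 0) (nat_lit 538703398419) (nat_lit 1) (nat_lit 5) (nat_lit 3) (nat_lit 4) (nat_lit 1) (nat_lit 4) (nat_lit 327) (nat_lit 201) (nat_lit 192))))) (XT.nd (nat_lit 234)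 (nat_lit 0) (nat_lit 0) (XT.nd (nat_lit 78) (nat_lit 0) (nat_lit 0) (XT.lf (nat_lit 0) (nat_lit 582586134780) (nat_lit 152) (nat_lit 207692769808) (nat_lit 0) (nat_lit 582121702506) (nat_lit 1) (nat_lit 5) (nat_lit 3) (nat_lit 4) (nat_lit 1) (nat_lit 4) (nat_lit 328) (nat_lit 201) (nat_lit 191)) (XT.nd (nat_lit 78) (nat_lit 0) (nat_lit 0) (XT.lf (nat_lit 0) (nat_lit 629498398645) (nat_lit 152) (nat_lit 223658262303) (nat_lit 0) (nat_lit 629004281627) (nat_lit 1) (nat_lit 5) (nat_lit 3) (nat_lit 4) (nat_lit 1) (nat_lit 4) (nat_lit 329) (nat_lit 201) (nat_lit 190)) (XT.lf (nat_lit 0) (nat_lit 680150561367) (nat_lit 152) (nat_lit 240923692614) (nat_lit 0) (nat_lit 679628958476) (nat_lit 1) (nat_lit 5) (nat_lit 3) (nat_lit 4) (nat_lit 1) (nat_lit 4) (nat_lit 330) (nat_lit 201) (nat_lit 189)))) (XT.nd (nat_lit 156) (nat_lit 0) (nat_lit 0) (XT.nd (nat_lit 78) (nat_lit 0) (nat_lit 0) (XT.lf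 (nat_lit 0) (nat_lit 734842783910) (nat_lit 152) (nat_lit 259591374403) (nat_lit 0) (nat_lit 734295731137) (nat_lit 1) (nat_lit 5) (nat_lit 3) (nat_lit 4) (nat_lit 1) (nat_lit 4) (nat_lit 331) (nat_lit 201) (nat_lit 188)) (XT.lf (nat_lit 0) (nat_lit 793899168334) (nat_lit 152) (nat_lit 279771930969) (nat_lit 0) (nat_lit 793328550855) (nat_lit 1) (nat_lit 5) (nat_lit 3) (nat_lit 4) (nat_lit 1) (nat_lit 4) (nat_lit 332) (nat_lit 201) (nat_lit 187))) (XT.nd (nat_lit 78) (nat_lit 0) (nat_lit 0) (XT.lf (nat_lit 0) (nat_lit 857669678398) (nat_lit 152) (nat_lit 301584950796) (nat_lit 0) (nat_lit 857077241747) (nat_lit 1) (nat_lit 5) (nat_lit 3) (nat_lit 4) (nat_lit 1) (nat_lit 4) (nat_lit 333) (nat_lit 201) (nat_lit 186)) (XT.lf (nat_lit 0) (nat_lit 926532213422) (nat_lit 152) (nat_lit 325159696224) (nat_lit 0) (nat_lit 925919573833) (nat_lit 1) (nat_lit 5) (nat_lit 3) (nat_lit 4) (nat_lit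 1) (nat_lit 4) (nat_lit 334) (nat_lit 201) (nat_lit 185)))))) (XT.nd (nat_lit 468) (nat_lit 0) (nat_lit 0) (XT.nd (nat_lit 234) (nat_lit 0) (nat_lit 0) (XT.nd (nat_lit 78) (nat_lit 0) (nat_lit 0) (XT.lf (nat_lit 0) (nat_lit 1000894847686) (nat_lit 152) (nat_lit 350635869447) (nat_lit 0) (nat_lit 1000263501674) (nat_lit 1) (nat_lit 5) (nat_lit 3) (nat_lit 4) (nat_lit 1) (nat_lit 4) (nat_lit 335) (nat_lit 201) (nat_lit 184)) (XT.nd (nat_lit 78) (nat_lit 0) (nat_lit 0) (XT.lf (nat_lit 0) (nat_lit 1081198248654) (nat_lit 152) (nat_lit 378164440381) (nat_lit 0) (nat_lit 1080549581879) (nat_lit 1) (nat_lit 5) (nat_lit 3) (nat_lit 4) (nat_lit 1) (nat_lit 4) (nat_lit 336) (nat_lit 201) (nat_lit 183)) (XT.lf (nat_lit 0) (nat_lit 1167918288330) (nat_lit 152) (nat_lit 407908541299) (nat_lit 0) (nat_lit 1167253583813) (nat_lit 1) (nat_lit 5) (nat_lit 3) (nat_lit 4) (nat_lit 1) (nat_lit 4) (nat_lit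 337) (nat_lit 201) (nat_lit 182)))) (XT.nd (nat_lit 78) (nat_lit 0) (nat_lit 0) (XT.lf (nat_lit 0) (nat_lit 1261568863247) (nat_lit 152) (nat_lit 440044433538) (nat_lit 0) (nat_lit 1260889308967) (nat_lit 1) (nat_lit 5) (nat_lit 3) (nat_lit 4) (nat_lit 1) (nat_lit 4) (nat_lit 338) (nat_lit 201) (nat_lit 181)) (XT.nd (nat_lit 78) (nat_lit 0) (nat_lit 0) (XT.lf (nat_lit 0) (nat_lit 1362704939774) (nat_lit 152) (nat_lit 474762552016) (nat_lit 0) (nat_lit 1362011635715) (nat_lit 1) (nat_lit 5) (nat_lit 3) (nat_lit 4) (nat_lit 1) (nat_lit 4) (nat_lit 339) (nat_lit 201) (nat_lit 180)) (XT.lf (nat_lit 0) (nat_lit 1471925842809) (nat_lit 152) (nat_lit 512268633732) (nat_lit 0) (nat_lit 1471219807472) (nat_lit 1) (nat_lit 5) (nat_lit 3) (nat_lit 4) (nat_lit 1) (nat_lit 4) (nat_lit 340) (nat_lit 201) (nat_lit 179))))) (XT.nd (nat_lit 234) (nat_lit 0) (nat_lit 0) (XT.nd (nat_lit 78) (nat_lit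 0) (nat_lit 0) (XT.lf (nat_lit 0) (nat_lit 1589878807333) (nat_lit 152) (nat_lit 552784936947) (nat_lit 0) (nat_lit 1589160983777) (nat_lit 1) (nat_lit 5) (nat_lit 3) (nat_lit 4) (nat_lit 1) (nat_lit 4) (nat_lit 341) (nat_lit 201) (nat_lit 178)) (XT.nd (nat_lit 78) (nat_lit 0) (nat_lit 0) (XT.lf (nat_lit 0) (nat_lit 1717262813877) (nat_lit 152) (nat_lit 596551558273) (nat_lit 0) (nat_lit 1716534075302) (nat_lit 1) (nat_lit 5) (nat_lit 3) (nat_lit 4) (nat_lit 1) (nat_lit 4) (nat_lit 342) (nat_lit 201) (nat_lit 177)) (XT.lf (nat_lit 0) (nat_lit 1854832730628) (nat_lit 152) (nat_lit 643827855466) (nat_lit 0) (nat_lit 1854093885554) (nat_lit 1) (nat_lit 5) (nat_lit 3) (nat_lit 4) (nat_lit 1) (nat_lit 4) (nat_lit 343) (nat_lit 201) (nat_lit 176)))) (XT.nd (nat_lit 156) (nat_lit 0) (nat_lit 0) (XT.nd (nat_lit 78) (nat_lit 0) (nat_lit 0) (XT.lf (nat_lit 0) (nat_lit 2003403786721) (nat_lit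 152) (nat_lit 694893984362) (nat_lit 0) (nat_lit 2002655583778) (nat_lit 1) (nat_lit 5) (nat_lit 3) (nat_lit 4) (nat_lit 1) (nat_lit 4) (nat_lit 344) (nat_lit 201) (nat_lit 175)) (XT.lf (nat_lit 0) (nat_lit 2163856403230) (nat_lit 152) (nat_lit 750052559056) (nat_lit 0) (nat_lit 2163099535594) (nat_lit 1) (nat_lit 5) (nat_lit 3) (nat_lit 4) (nat_lit 1) (nat_lit 4) (nat_lit 345) (nat_lit 201) (nat_lit 174))) (XT.nd (nat_lit 78) (nat_lit 0) (nat_lit 0) (XT.lf (nat_lit 0) (nat_lit 2337141410475) (nat_lit 152) (nat_lit 809630445178) (nat_lit 0) (nat_lit 2336376519974) (nat_lit 1) (nat_lit 5) (nat_lit 3) (nat_lit 4) (nat_lit 1) (nat_lit 4) (nat_lit 346) (nat_lit 201) (nat_lit 173)) (XT.lf (nat_lit 0) (nat_lit 2524285682573) (nat_lit 152) (nat_lit 873980696867) (nat_lit 0) (nat_lit 2523513363494) (nat_lit 1) (nat_lit 5) (nat_lit 3) (nat_lit 4) (nat_lit 1) (nat_lit 4) (nat_lit 347) (nat_lit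 201) (nat_lit 172))))))) (XT.nd (nat_lit 1014) (nat_lit 0) (nat_lit 0) (XT.nd (nat_lit 468) (nat_lit 0) (nat_lit 0) (XT.nd (nat_lit 234) (nat_lit 0) (nat_lit 0) (XT.nd (nat_lit 78) (nat_lit 0) (nat_lit 0) (XT.lf (nat_lit 0) (nat_lit 114018177133) (nat_lit 152) (nat_lit 44628631866) (nat_lit 0) (nat_lit 114018177133) (nat_lit 1) (nat_lit 5) (nat_lit 3) (nat_lit 4) (nat_lit 1) (nat_lit 4) (nat_lit 316) (nat_lit 202) (nat_lit 202)) (XT.nd (nat_lit 78) (nat_lit 0) (nat_lit 0) (XT.lf (nat_lit 0) (nat_lit 246830118006) (nat_lit 152) (nat_lit 95312383387) (nat_lit 0) (nat_lit 246760903902) (nat_lit 1) (nat_lit 5) (nat_lit 3) (nat_lit 4) (nat_lit 1) (nat_lit 4) (nat_lit 317) (nat_lit 202) (nat_lit 201)) (XT.lf (nat_lit 0) (nat_lit 267096879756) (nat_lit 152) (nat_lit 101904837128) (nat_lit 0) (nat_lit 266963578518) (nat_lit 1) (nat_lit 5) (nat_lit 3) (nat_lit 4) (nat_lit 1) (nat_lit 4) (nat_lit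 318) (nat_lit 202) (nat_lit 200)))) (XT.nd (nat_lit 78) (nat_lit 0) (nat_lit 0) (XT.lf (nat_lit 0) (nat_lit 288956738845) (nat_lit 152) (nat_lit 109073691349) (nat_lit 0) (nat_lit 288764097668) (nat_lit 1) (nat_lit 5) (nat_lit 3) (nat_lit 4) (nat_lit 1) (nat_lit 4) (nat_lit 319) (nat_lit 202) (nat_lit 199)) (XT.nd (nat_lit 78) (nat_lit 0) (nat_lit 0) (XT.lf (nat_lit 0) (nat_lit 312539235178) (nat_lit 152) (nat_lit 116861428148) (nat_lit 0) (nat_lit 312291649614) (nat_lit 1) (nat_lit 5) (nat_lit 3) (nat_lit 4) (nat_lit 1) (nat_lit 4) (nat_lit 320) (nat_lit 202) (nat_lit 198)) (XT.lf (nat_lit 0) (nat_lit 337984116882) (nat_lit 152) (nat_lit 125314197078) (nat_lit 0) (nat_lit 337685656885) (nat_lit 1) (nat_lit 5) (nat_lit 3) (nat_lit 4) (nat_lit 1) (nat_lit 4) (nat_lit 321) (nat_lit 202) (nat_lit 197))))) (XT.nd (nat_lit 234) (nat_lit 0) (nat_lit 0) (XT.nd (nat_lit 78) (nat_lit 0) (nat_lit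 0) (XT.lf (nat_lit 0) (nat_lit 365442168441) (nat_lit 152) (nat_lit 134482088621) (nat_lit 0) (nat_lit 365096602487) (nat_lit 1) (nat_lit 5) (nat_lit 3) (nat_lit 4) (nat_lit 1) (nat_lit 4) (nat_lit 322) (nat_lit 202) (nat_lit 196)) (XT.nd (nat_lit 78) (nat_lit 0) (nat_lit 0) (XT.lf (nat_lit 0) (nat_lit 395076104235) (nat_lit 152) (nat_lit 144419431022) (nat_lit 0) (nat_lit 394686921655) (nat_lit 1) (nat_lit 5) (nat_lit 3) (nat_lit 4) (nat_lit 1) (nat_lit 4) (nat_lit 323) (nat_lit 202) (nat_lit 195)) (XT.lf (nat_lit 0) (nat_lit 427061532772) (nat_lit 152) (nat_lit 155185112237) (nat_lit 0) (nat_lit 426631964426) (nat_lit 1) (nat_lit 5) (nat_lit 3) (nat_lit 4) (nat_lit 1) (nat_lit 4) (nat_lit 324) (nat_lit 202) (nat_lit 194)))) (XT.nd (nat_lit 156) (nat_lit 0) (nat_lit 0) (XT.nd (nat_lit 78) (nat_lit 0) (nat_lit 0) (XT.lf (nat_lit 0) (nat_lit 461587997331) (nat_lit 152) (nat_lit 166842928896)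 (nat_lit 0) (nat_lit 461121034759) (nat_lit 1) (nat_lit 5) (nat_lit 3) (nat_lit 4) (nat_lit 1) (nat_lit 4) (nat_lit 325) (nat_lit 202) (nat_lit 193)) (XT.lf (nat_lit 0) (nat_lit 498860099186) (nat_lit 152) (nat_lit 179461964356) (nat_lit 0) (nat_lit 498358512330) (nat_lit 1) (nat_lit 5) (nat_lit 3) (nat_lit 4) (nat_lit 1) (nat_lit 4) (nat_lit 326) (nat_lit 202) (nat_lit 192))) (XT.nd (nat_lit 78) (nat_lit 0) (nat_lit 0) (XT.lf (nat_lit 0) (nat_lit 539098710050) (nat_lit 152) (nat_lit 193116998087) (nat_lit 0) (nat_lit 538565063671) (nat_lit 1) (nat_lit 5) (nat_lit 3) (nat_lit 4) (nat_lit 1) (nat_lit 4) (nat_lit 327) (nat_lit 202) (nat_lit 191)) (XT.lf (nat_lit 0) (nat_lit 582542280951) (nat_lit 152) (nat_lit 207888948807) (nat_lit 0) (nat_lit 581978949829) (nat_lit 1) (nat_lit 5) (nat_lit 3) (nat_lit 4) (nat_lit 1) (nat_lit 4) (nat_lit 328) (nat_lit 202) (nat_lit 190)))))) (XT.nd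 (nat_lit 546) (nat_lit 0) (nat_lit 0) (XT.nd (nat_lit 234) (nat_lit 0) (nat_lit 0) (XT.nd (nat_lit 78) (nat_lit 0) (nat_lit 0) (XT.lf (nat_lit 0) (nat_lit 629448255271) (nat_lit 152) (nat_lit 223865354002) (nat_lit 0) (nat_lit 628857438276) (nat_lit 1) (nat_lit 5) (nat_lit 3) (nat_lit 4) (nat_lit 1) (nat_lit 4) (nat_lit 329) (nat_lit 202) (nat_lit 189)) (XT.nd (nat_lit 78) (nat_lit 0) (nat_lit 0) (XT.lf (nat_lit 0) (nat_lit 680094594341) (nat_lit 152) (nat_lit 241140888666) (nat_lit 0) (nat_lit 679478327463) (nat_lit 1) (nat_lit 5) (nat_lit 3) (nat_lit 4) (nat_lit 1) (nat_lit 4) (nat_lit 330) (nat_lit 202) (nat_lit 188)) (XT.lf (nat_lit 0) (nat_lit 734781424614) (nat_lit 152) (nat_lit 259817926336) (nat_lit 0) (nat_lit 734141593030) (nat_lit 1) (nat_lit 5) (nat_lit 3) (nat_lit 4) (nat_lit 1) (nat_lit 4) (nat_lit 331) (nat_lit 202) (nat_lit 187)))) (XT.nd (nat_lit 156) (nat_lit 0)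 (nat_lit 0) (XT.nd (nat_lit 78) (nat_lit 0) (nat_lit 0) (XT.lf (nat_lit 0) (nat_lit 793832816195) (nat_lit 152) (nat_lit 280007145756) (nat_lit 0) (nat_lit 793171165439) (nat_lit 1) (nat_lit 5) (nat_lit 3) (nat_lit 4) (nat_lit 1) (nat_lit 4) (nat_lit 332) (nat_lit 202) (nat_lit 186)) (XT.lf (nat_lit 0) (nat_lit 857598703256) (nat_lit 152) (nat_lit 301828186744) (nat_lit 0) (nat_lit 856916849563) (nat_lit 1) (nat_lit 5) (nat_lit 3) (nat_lit 4) (nat_lit 1) (nat_lit 4) (nat_lit 333) (nat_lit 202) (nat_lit 185))) (XT.nd (nat_lit 78) (nat_lit 0) (nat_lit 0) (XT.lf (nat_lit 0) (nat_lit 926456957722) (nat_lit 152) (nat_lit 325410359172) (nat_lit 0) (nat_lit 925756397605) (nat_lit 1) (nat_lit 5) (nat_lit 3) (nat_lit 4) (nat_lit 1) (nat_lit 4) (nat_lit 334) (nat_lit 202) (nat_lit 184)) (XT.lf (nat_lit 0) (nat_lit 1000815628506) (nat_lit 152) (nat_lit 350893409248) (nat_lit 0) (nat_lit 1000097747627)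 (nat_lit 1) (nat_lit 5) (nat_lit 3) (nat_lit 4) (nat_lit 1) (nat_lit 4) (nat_lit 335) (nat_lit 202) (nat_lit 183))))) (XT.nd (nat_lit 234) (nat_lit 0) (nat_lit 0) (XT.nd (nat_lit 78) (nat_lit 0) (nat_lit 0) (XT.lf (nat_lit 0) (nat_lit 1081115359585) (nat_lit 152) (nat_lit 378428347638) (nat_lit 0) (nat_lit 1080381440963) (nat_lit 1) (nat_lit 5) (nat_lit 3) (nat_lit 4) (nat_lit 1) (nat_lit 4) (nat_lit 336) (nat_lit 202) (nat_lit 182)) (XT.nd (nat_lit 78) (nat_lit 0) (nat_lit 0) (XT.lf (nat_lit 0) (nat_lit 1167832001216) (nat_lit 152) (nat_lit 408178344348) (nat_lit 0) (nat_lit 1167083232832) (nat_lit 1) (nat_lit 5) (nat_lit 3) (nat_lit 4) (nat_lit 1) (nat_lit 4) (nat_lit 337) (nat_lit 202) (nat_lit 181)) (XT.lf (nat_lit 0) (nat_lit 1261479429795) (nat_lit 152) (nat_lit 440319695655) (nat_lit 0) (nat_lit 1260716911631) (nat_lit 1) (nat_lit 5) (nat_lit 3) (nat_lit 4) (nat_lit 1) (nat_lit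 4) (nat_lit 338) (nat_lit 202) (nat_lit 180)))) (XT.nd (nat_lit 156) (nat_lit 0) (nat_lit 0) (XT.nd (nat_lit 78) (nat_lit 0) (nat_lit 0) (XT.lf (nat_lit 0) (nat_lit 1362612593046) (nat_lit 152) (nat_lit 475042868825) (nat_lit 0) (nat_lit 1361837343605) (nat_lit 1) (nat_lit 5) (nat_lit 3) (nat_lit 4) (nat_lit 1) (nat_lit 4) (nat_lit 339) (nat_lit 202) (nat_lit 179)) (XT.lf (nat_lit 0) (nat_lit 1471830798603) (nat_lit 152) (nat_lit 512553630811) (nat_lit 0) (nat_lit 1471043760942) (nat_lit 1) (nat_lit 5) (nat_lit 3) (nat_lit 4) (nat_lit 1) (nat_lit 4) (nat_lit 340) (nat_lit 202) (nat_lit 178))) (XT.nd (nat_lit 78) (nat_lit 0) (nat_lit 0) (XT.lf (nat_lit 0) (nat_lit 1589781265463) (nat_lit 152) (nat_lit 553074267610) (nat_lit 0) (nat_lit 1588983312784) (nat_lit 1) (nat_lit 5) (nat_lit 3) (nat_lit 4) (nat_lit 1) (nat_lit 4) (nat_lit 341) (nat_lit 202) (nat_lit 177)) (XT.lf (nat_lit 0)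 (nat_lit 1717162959354) (nat_lit 152) (nat_lit 596844901513) (nat_lit 0) (nat_lit 1716354900176) (nat_lit 1) (nat_lit 5) (nat_lit 3) (nat_lit 4) (nat_lit 1) (nat_lit 4) (nat_lit 342) (nat_lit 202) (nat_lit 176))))))))
noncomputable def xc5 : XT := (XT.nd (nat_lit 37050) (nat_lit 0) (nat_lit 0) (XT.nd (nat_lit 35958) (nat_lit 0) (nat_lit 0) (XT.nd (nat_lit 35412) (nat_lit 0) (nat_lit 0) (XT.nd (nat_lit 234) (nat_lit 0) (nat_lit 0) (XT.nd (nat_lit 78) (nat_lit 0) (nat_lit 0) (XT.lf (nat_lit 0) (nat_lit 1854730734760) (nat_lit 152) (nat_lit 644124914056) (nat_lit 0) (nat_lit 1853913317713) (nat_lit 1) (nat_lit 5) (nat_lit 3) (nat_lit 4) (nat_lit 1) (nat_lit 4) (nat_lit 343) (nat_lit 202) (nat_lit 175)) (XT.nd (nat_lit 78) (nat_lit 0) (nat_lit 0) (XT.lf (nat_lit 0) (nat_lit 2003299808126) (nat_lit 152) (nat_lit 695194483089) (nat_lit 0) (nat_lit 2002473726386) (nat_lit 1) (nat_lit 5)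 (nat_lit 3) (nat_lit 4) (nat_lit 1) (nat_lit 4) (nat_lit 344) (nat_lit 202) (nat_lit 174)) (XT.lf (nat_lit 0) (nat_lit 2163750588777) (nat_lit 152) (nat_lit 750356243097) (nat_lit 0) (nat_lit 2162916484172) (nat_lit 1) (nat_lit 5) (nat_lit 3) (nat_lit 4) (nat_lit 1) (nat_lit 4) (nat_lit 345) (nat_lit 202) (nat_lit 173)))) (XT.nd (nat_lit 35022) (nat_lit 0) (nat_lit 0) (XT.lf (nat_lit 0) (nat_lit 2337033896154) (nat_lit 152) (nat_lit 809937078584) (nat_lit 0) (nat_lit 2336192362971) (nat_lit 1) (nat_lit 5) (nat_lit 3) (nat_lit 4) (nat_lit 1) (nat_lit 4) (nat_lit 346) (nat_lit 202) (nat_lit 172)) (XT.nd (nat_lit 78) (nat_lit 0) (nat_lit 0) (XT.lf (nat_lit 0) (nat_lit 97261132169) (nat_lit 152) (nat_lit 39294395526) (nat_lit 0) (nat_lit 97261132169) (nat_lit 1) (nat_lit 5) (nat_lit 3) (nat_lit 4) (nat_lit 1) (nat_lit 4) (nat_lit 314) (nat_lit 203) (nat_lit 203)) (XT.lf (nat_lit 0) (nat_lit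 210678969317) (nat_lit 152) (nat_lit 83703595976) (nat_lit 0) (nat_lit 210604218084) (nat_lit 1) (nat_lit 5) (nat_lit 3) (nat_lit 4) (nat_lit 1) (nat_lit 4) (nat_lit 315) (nat_lit 203) (nat_lit 202))))) (XT.nd (nat_lit 234) (nat_lit 0) (nat_lit 0) (XT.nd (nat_lit 78) (nat_lit 0) (nat_lit 0) (XT.lf (nat_lit 0) (nat_lit 228095267356) (nat_lit 152) (nat_lit 89284743770) (nat_lit 0) (nat_lit 227951302019) (nat_lit 1) (nat_lit 5) (nat_lit 3) (nat_lit 4) (nat_lit 1) (nat_lit 4) (nat_lit 316) (nat_lit 203) (nat_lit 201)) (XT.nd (nat_lit 78) (nat_lit 0) (nat_lit 0) (XT.lf (nat_lit 0) (nat_lit 246874366150) (nat_lit 152) (nat_lit 95365307902) (nat_lit 0) (nat_lit 246666313679) (nat_lit 1) (nat_lit 5) (nat_lit 3) (nat_lit 4) (nat_lit 1) (nat_lit 4) (nat_lit 317) (nat_lit 203) (nat_lit 200)) (XT.lf (nat_lit 0) (nat_lit 267127549245) (nat_lit 152) (nat_lit 101981321345) (nat_lit 0) (nat_lit 266860156836)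 (nat_lit 1) (nat_lit 5) (nat_lit 3) (nat_lit 4) (nat_lit 1) (nat_lit 4) (nat_lit 318) (nat_lit 203) (nat_lit 199)))) (XT.nd (nat_lit 156) (nat_lit 0) (nat_lit 0) (XT.nd (nat_lit 78) (nat_lit 0) (nat_lit 0) (XT.lf (nat_lit 0) (nat_lit 288974835506) (nat_lit 152) (nat_lit 109171990105) (nat_lit 0) (nat_lit 288652498709) (nat_lit 1) (nat_lit 5) (nat_lit 3) (nat_lit 4) (nat_lit 1) (nat_lit 4) (nat_lit 319) (nat_lit 203) (nat_lit 198)) (XT.lf (nat_lit 0) (nat_lit 312545690331) (nat_lit 152) (nat_lit 116979925551) (nat_lit 0) (nat_lit 312172479101) (nat_lit 1) (nat_lit 5) (nat_lit 3) (nat_lit 4) (nat_lit 1) (nat_lit 4) (nat_lit 320) (nat_lit 203) (nat_lit 197))) (XT.nd (nat_lit 78) (nat_lit 0) (nat_lit 0) (XT.lf (nat_lit 0) (nat_lit 337979792862) (nat_lit 152) (nat_lit 125451396932) (nat_lit 0) (nat_lit 337559475675) (nat_lit 1) (nat_lit 5) (nat_lit 3) (nat_lit 4) (nat_lit 1) (nat_lit 4)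 (nat_lit 321) (nat_lit 203) (nat_lit 196)) (XT.lf (nat_lit 0) (nat_lit 365427863704) (nat_lit 152) (nat_lit 134636605559) (nat_lit 0) (nat_lit 364963929891) (nat_lit 1) (nat_lit 5) (nat_lit 3) (nat_lit 4) (nat_lit 1) (nat_lit 4) (nat_lit 322) (nat_lit 203) (nat_lit 195)))))) (XT.nd (nat_lit 546) (nat_lit 0) (nat_lit 0) (XT.nd (nat_lit 234) (nat_lit 0) (nat_lit 0) (XT.nd (nat_lit 78) (nat_lit 0) (nat_lit 0) (XT.lf (nat_lit 0) (nat_lit 395052558094) (nat_lit 152) (nat_lit 144589982298) (nat_lit 0) (nat_lit 394548238516) (nat_lit 1) (nat_lit 5) (nat_lit 3) (nat_lit 4) (nat_lit 1) (nat_lit 4) (nat_lit 323) (nat_lit 203) (nat_lit 194)) (XT.nd (nat_lit 78) (nat_lit 0) (nat_lit 0) (XT.lf (nat_lit 0) (nat_lit 427029429775) (nat_lit 152) (nat_lit 155370510122) (nat_lit 0) (nat_lit 426487715970) (nat_lit 1) (nat_lit 5) (nat_lit 3) (nat_lit 4) (nat_lit 1) (nat_lit 4) (nat_lit 324) (nat_lit 203)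 (nat_lit 193)) (XT.lf (nat_lit 0) (nat_lit 461547971320) (nat_lit 152) (nat_lit 167042073641) (nat_lit 0) (nat_lit 460971633231) (nat_lit 1) (nat_lit 5) (nat_lit 3) (nat_lit 4) (nat_lit 1) (nat_lit 4) (nat_lit 325) (nat_lit 203) (nat_lit 192)))) (XT.nd (nat_lit 156) (nat_lit 0) (nat_lit 0) (XT.nd (nat_lit 78) (nat_lit 0) (nat_lit 0) (XT.lf (nat_lit 0) (nat_lit 498812737050) (nat_lit 152) (nat_lit 179673837675) (nat_lit 0) (nat_lit 498204339439) (nat_lit 1) (nat_lit 5) (nat_lit 3) (nat_lit 4) (nat_lit 1) (nat_lit 4) (nat_lit 326) (nat_lit 203) (nat_lit 191)) (XT.lf (nat_lit 0) (nat_lit 539044555206) (nat_lit 152) (nat_lit 193340657123) (nat_lit 0) (nat_lit 538406472852) (nat_lit 1) (nat_lit 5) (nat_lit 3) (nat_lit 4) (nat_lit 1) (nat_lit 4) (nat_lit 327) (nat_lit 203) (nat_lit 190))) (XT.nd (nat_lit 78) (nat_lit 0) (nat_lit 0) (XT.lf (nat_lit 0) (nat_lit 582481836563) (nat_lit 152)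 (nat_lit 208123520543) (nat_lit 0) (nat_lit 581816268335) (nat_lit 1) (nat_lit 5) (nat_lit 3) (nat_lit 4) (nat_lit 1) (nat_lit 4) (nat_lit 328) (nat_lit 203) (nat_lit 189)) (XT.lf (nat_lit 0) (nat_lit 629381987231) (nat_lit 152) (nat_lit 224110030091) (nat_lit 0) (nat_lit 628690969121) (nat_lit 1) (nat_lit 5) (nat_lit 3) (nat_lit 4) (nat_lit 1) (nat_lit 4) (nat_lit 329) (nat_lit 203) (nat_lit 188))))) (XT.nd (nat_lit 234) (nat_lit 0) (nat_lit 0) (XT.nd (nat_lit 78) (nat_lit 0) (nat_lit 0) (XT.lf (nat_lit 0) (nat_lit 680022934031) (nat_lit 152) (nat_lit 241394920636) (nat_lit 0) (nat_lit 679308351214) (nat_lit 1) (nat_lit 5) (nat_lit 3) (nat_lit 4) (nat_lit 1) (nat_lit 4) (nat_lit 330) (nat_lit 203) (nat_lit 187)) (XT.nd (nat_lit 78) (nat_lit 0) (nat_lit 0) (XT.lf (nat_lit 0) (nat_lit 734704771460) (nat_lit 152) (nat_lit 260080621160) (nat_lit 0) (nat_lit 733968369471) (nat_lit 1)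 (nat_lit 5) (nat_lit 3) (nat_lit 4) (nat_lit 1) (nat_lit 4) (nat_lit 331) (nat_lit 203) (nat_lit 186)) (XT.lf (nat_lit 0) (nat_lit 793751540038) (nat_lit 152) (nat_lit 280277861741) (nat_lit 0) (nat_lit 792994935112) (nat_lit 1) (nat_lit 5) (nat_lit 3) (nat_lit 4) (nat_lit 1) (nat_lit 4) (nat_lit 332) (nat_lit 203) (nat_lit 185)))) (XT.nd (nat_lit 156) (nat_lit 0) (nat_lit 0) (XT.nd (nat_lit 78) (nat_lit 0) (nat_lit 0) (XT.lf (nat_lit 0) (nat_lit 857513146542) (nat_lit 152) (nat_lit 302106329730) (nat_lit 0) (nat_lit 856737835192) (nat_lit 1) (nat_lit 5) (nat_lit 3) (nat_lit 4) (nat_lit 1) (nat_lit 4) (nat_lit 333) (nat_lit 203) (nat_lit 184)) (XT.lf (nat_lit 0) (nat_lit 926367437527) (nat_lit 152) (nat_lit 325695379010) (nat_lit 0) (nat_lit 925574805415) (nat_lit 1) (nat_lit 5) (nat_lit 3) (nat_lit 4) (nat_lit 1) (nat_lit 4) (nat_lit 334) (nat_lit 203) (nat_lit 183))) (XT.nd (nat_lit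 78) (nat_lit 0) (nat_lit 0) (XT.lf (nat_lit 0) (nat_lit 1000722438423) (nat_lit 152) (nat_lit 351184796542) (nat_lit 0) (nat_lit 999913768568) (nat_lit 1) (nat_lit 5) (nat_lit 3) (nat_lit 4) (nat_lit 1) (nat_lit 4) (nat_lit 335) (nat_lit 203) (nat_lit 182)) (XT.lf (nat_lit 0) (nat_lit 1081018771457) (nat_lit 152) (nat_lit 378725630725) (nat_lit 0) (nat_lit 1080195251840) (nat_lit 1) (nat_lit 5) (nat_lit 3) (nat_lit 4) (nat_lit 1) (nat_lit 4) (nat_lit 336) (nat_lit 203) (nat_lit 181))))))) (XT.nd (nat_lit 35802) (nat_lit 0) (nat_lit 0) (XT.nd (nat_lit 468) (nat_lit 0) (nat_lit 0) (XT.nd (nat_lit 234) (nat_lit 0) (nat_lit 0) (XT.nd (nat_lit 78) (nat_lit 0) (nat_lit 0) (XT.lf (nat_lit 0) (nat_lit 1167732266750) (nat_lit 152) (nat_lit 408481086502) (nat_lit 0) (nat_lit 1166894997353) (nat_lit 1) (nat_lit 5) (nat_lit 3) (nat_lit 4) (nat_lit 1) (nat_lit 4) (nat_lit 337) (nat_lit 203) (nat_lit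 180)) (XT.nd (nat_lit 78) (nat_lit 0) (nat_lit 0) (XT.lf (nat_lit 0) (nat_lit 1261376782053) (nat_lit 152) (nat_lit 440627492501) (nat_lit 0) (nat_lit 1260526781379) (nat_lit 1) (nat_lit 5) (nat_lit 3) (nat_lit 4) (nat_lit 1) (nat_lit 4) (nat_lit 338) (nat_lit 203) (nat_lit 179)) (XT.lf (nat_lit 0) (nat_lit 1362507247826) (nat_lit 152) (nat_lit 475355345941) (nat_lit 0) (nat_lit 1361645458932) (nat_lit 1) (nat_lit 5) (nat_lit 3) (nat_lit 4) (nat_lit 1) (nat_lit 4) (nat_lit 339) (nat_lit 203) (nat_lit 178)))) (XT.nd (nat_lit 78) (nat_lit 0) (nat_lit 0) (XT.lf (nat_lit 0) (nat_lit 1471722955719) (nat_lit 152) (nat_lit 512870441511) (nat_lit 0) (nat_lit 1470850251807) (nat_lit 1) (nat_lit 5) (nat_lit 3) (nat_lit 4) (nat_lit 1) (nat_lit 4) (nat_lit 340) (nat_lit 203) (nat_lit 177)) (XT.nd (nat_lit 78) (nat_lit 0) (nat_lit 0) (XT.lf (nat_lit 0) (nat_lit 1589671109926) (nat_lit 152) (nat_lit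 553395090887) (nat_lit 0) (nat_lit 1588788299515) (nat_lit 1) (nat_lit 5) (nat_lit 3) (nat_lit 4) (nat_lit 1) (nat_lit 4) (nat_lit 341) (nat_lit 203) (nat_lit 176)) (XT.lf (nat_lit 0) (nat_lit 1717050662473) (nat_lit 152) (nat_lit 597169440139) (nat_lit 0) (nat_lit 1716158494193) (nat_lit 1) (nat_lit 5) (nat_lit 3) (nat_lit 4) (nat_lit 1) (nat_lit 4) (nat_lit 342) (nat_lit 203) (nat_lit 175))))) (XT.nd (nat_lit 234) (nat_lit 0) (nat_lit 0) (XT.nd (nat_lit 78) (nat_lit 0) (nat_lit 0) (XT.lf (nat_lit 0) (nat_lit 1854616455151) (nat_lit 152) (nat_lit 644452892820) (nat_lit 0) (nat_lit 1853715622178) (nat_lit 1) (nat_lit 5) (nat_lit 3) (nat_lit 4) (nat_lit 1) (nat_lit 4) (nat_lit 343) (nat_lit 203) (nat_lit 174)) (XT.nd (nat_lit 78) (nat_lit 0) (nat_lit 0) (XT.lf (nat_lit 0) (nat_lit 2003183692660) (nat_lit 152) (nat_lit 695525647167) (nat_lit 0) (nat_lit 2002274836822) (nat_lit 1) (nat_lit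 5) (nat_lit 3) (nat_lit 4) (nat_lit 1) (nat_lit 4) (nat_lit 344) (nat_lit 203) (nat_lit 173)) (XT.lf (nat_lit 0) (nat_lit 2163632773442) (nat_lit 152) (nat_lit 750690356539) (nat_lit 0) (nat_lit 2162716489026) (nat_lit 1) (nat_lit 5) (nat_lit 3) (nat_lit 4) (nat_lit 1) (nat_lit 4) (nat_lit 345) (nat_lit 203) (nat_lit 172)))) (XT.nd (nat_lit 34944) (nat_lit 0) (nat_lit 0) (XT.nd (nat_lit 34866) (nat_lit 0) (nat_lit 0) (XT.lf (nat_lit 0) (nat_lit 2336914506866) (nat_lit 152) (nat_lit 810273922918) (nat_lit 0) (nat_lit 2335991344138) (nat_lit 1) (nat_lit 5) (nat_lit 3) (nat_lit 4) (nat_lit 1) (nat_lit 4) (nat_lit 346) (nat_lit 203) (nat_lit 171)) (XT.lf (nat_lit 0) (nat_lit 82855380824) (nat_lit 152) (nat_lit 34803750589) (nat_lit 0) (nat_lit 82855380824) (nat_lit 1) (nat_lit 5) (nat_lit 3) (nat_lit 4) (nat_lit 1) (nat_lit 4) (nat_lit 312) (nat_lit 204) (nat_lit 204))) (XT.nd (nat_lit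 78) (nat_lit 0) (nat_lit 0) (XT.lf (nat_lit 0) (nat_lit 179610140317) (nat_lit 152) (nat_lit 73910019043) (nat_lit 0) (nat_lit 179529408985) (nat_lit 1) (nat_lit 5) (nat_lit 3) (nat_lit 4) (nat_lit 1) (nat_lit 4) (nat_lit 313) (nat_lit 204) (nat_lit 203)) (XT.lf (nat_lit 0) (nat_lit 194585890476) (nat_lit 152) (nat_lit 78618469492) (nat_lit 0) (nat_lit 194430407912) (nat_lit 1) (nat_lit 5) (nat_lit 3) (nat_lit 4) (nat_lit 1) (nat_lit 4) (nat_lit 314) (nat_lit 204) (nat_lit 202)))))) (XT.nd (nat_lit 546) (nat_lit 0) (nat_lit 0) (XT.nd (nat_lit 234) (nat_lit 0) (nat_lit 0) (XT.nd (nat_lit 78) (nat_lit 0) (nat_lit 0) (XT.lf (nat_lit 0) (nat_lit 210726757311) (nat_lit 152) (nat_lit 83760754452) (nat_lit 0) (nat_lit 210502060643) (nat_lit 1) (nat_lit 5) (nat_lit 3) (nat_lit 4) (nat_lit 1) (nat_lit 4) (nat_lit 315) (nat_lit 204) (nat_lit 201)) (XT.nd (nat_lit 78) (nat_lit 0) (nat_lit 0)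 (XT.lf (nat_lit 0) (nat_lit 228128390404) (nat_lit 152) (nat_lit 89367346724) (nat_lit 0) (nat_lit 227839606602) (nat_lit 1) (nat_lit 5) (nat_lit 3) (nat_lit 4) (nat_lit 1) (nat_lit 4) (nat_lit 316) (nat_lit 204) (nat_lit 200)) (XT.lf (nat_lit 0) (nat_lit 246893910543) (nat_lit 152) (nat_lit 95471470558) (nat_lit 0) (nat_lit 246545786802) (nat_lit 1) (nat_lit 5) (nat_lit 3) (nat_lit 4) (nat_lit 1) (nat_lit 4) (nat_lit 317) (nat_lit 204) (nat_lit 199)))) (XT.nd (nat_lit 156) (nat_lit 0) (nat_lit 0) (XT.nd (nat_lit 78) (nat_lit 0) (nat_lit 0) (XT.lf (nat_lit 0) (nat_lit 267134520811) (nat_lit 152) (nat_lit 102109298540) (nat_lit 0) (nat_lit 266731452682) (nat_lit 1) (nat_lit 5) (nat_lit 3) (nat_lit 4) (nat_lit 1) (nat_lit 4) (nat_lit 318) (nat_lit 204) (nat_lit 198)) (XT.lf (nat_lit 0) (nat_lit 288970165563) (nat_lit 152) (nat_lit 109320165947) (nat_lit 0) (nat_lit 288516223002) (nat_lit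 1) (nat_lit 5) (nat_lit 3) (nat_lit 4) (nat_lit 1) (nat_lit 4) (nat_lit 319) (nat_lit 204) (nat_lit 197))) (XT.nd (nat_lit 78) (nat_lit 0) (nat_lit 0) (XT.lf (nat_lit 0) (nat_lit 312530241215) (nat_lit 152) (nat_lit 117146803845) (nat_lit 0) (nat_lit 312029192697) (nat_lit 1) (nat_lit 5) (nat_lit 3) (nat_lit 4) (nat_lit 1) (nat_lit 4) (nat_lit 320) (nat_lit 204) (nat_lit 196)) (XT.lf (nat_lit 0) (nat_lit 337954363029) (nat_lit 152) (nat_lit 125635592311) (nat_lit 0) (nat_lit 337409697885) (nat_lit 1) (nat_lit 5) (nat_lit 3) (nat_lit 4) (nat_lit 1) (nat_lit 4) (nat_lit 321) (nat_lit 204) (nat_lit 195))))) (XT.nd (nat_lit 234) (nat_lit 0) (nat_lit 0) (XT.nd (nat_lit 78) (nat_lit 0) (nat_lit 0) (XT.lf (nat_lit 0) (nat_lit 365393192468) (nat_lit 152) (nat_lit 134836835275) (nat_lit 0) (nat_lit 364808141558) (nat_lit 1) (nat_lit 5) (nat_lit 3) (nat_lit 4) (nat_lit 1) (nat_lit 4) (nat_lit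 322) (nat_lit 204) (nat_lit 194)) (XT.nd (nat_lit 78) (nat_lit 0) (nat_lit 0) (XT.lf (nat_lit 0) (nat_lit 395009330002) (nat_lit 152) (nat_lit 144805058623) (nat_lit 0) (nat_lit 394386884865) (nat_lit 1) (nat_lit 5) (nat_lit 3) (nat_lit 4) (nat_lit 1) (nat_lit 4) (nat_lit 323) (nat_lit 204) (nat_lit 193)) (XT.lf (nat_lit 0) (nat_lit 426978278668) (nat_lit 152) (nat_lit 155599333307) (nat_lit 0) (nat_lit 426321209248) (nat_lit 1) (nat_lit 5) (nat_lit 3) (nat_lit 4) (nat_lit 1) (nat_lit 4) (nat_lit 324) (nat_lit 204) (nat_lit 192)))) (XT.nd (nat_lit 156) (nat_lit 0) (nat_lit 0) (XT.nd (nat_lit 78) (nat_lit 0) (nat_lit 0) (XT.lf (nat_lit 0) (nat_lit 461489484089) (nat_lit 152) (nat_lit 167283625400) (nat_lit 0) (nat_lit 460800355146) (nat_lit 1) (nat_lit 5) (nat_lit 3) (nat_lit 4) (nat_lit 1) (nat_lit 4) (nat_lit 325) (nat_lit 204) (nat_lit 191)) (XT.lf (nat_lit 0) (nat_lit 498747457111)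 (nat_lit 152) (nat_lit 179927175150) (nat_lit 0) (nat_lit 498028643425) (nat_lit 1) (nat_lit 5) (nat_lit 3) (nat_lit 4) (nat_lit 1) (nat_lit 4) (nat_lit 326) (nat_lit 204) (nat_lit 190))) (XT.nd (nat_lit 78) (nat_lit 0) (nat_lit 0) (XT.lf (nat_lit 0) (nat_lit 538972985723) (nat_lit 152) (nat_lit 193604907298) (nat_lit 0) (nat_lit 538226686164) (nat_lit 1) (nat_lit 5) (nat_lit 3) (nat_lit 4) (nat_lit 1) (nat_lit 4) (nat_lit 327) (nat_lit 204) (nat_lit 189)) (XT.lf (nat_lit 0) (nat_lit 582404443427) (nat_lit 152) (nat_lit 208397875071) (nat_lit 0) (nat_lit 581632693986) (nat_lit 1) (nat_lit 5) (nat_lit 3) (nat_lit 4) (nat_lit 1) (nat_lit 4) (nat_lit 328) (nat_lit 204) (nat_lit 188))))))))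
noncomputable def xc6 : XT := (XT.nd (nat_lit 36738) (nat_lit 0) (nat_lit 0) (XT.nd (nat_lit 1014) (nat_lit 0) (nat_lit 0) (XT.nd (nat_lit 468) (nat_lit 0) (nat_lit 0) (XT.nd (nat_lit 234) (nat_lit 0) (nat_lit 0) (XT.nd (nat_lit 78) (nat_lit 0) (nat_lit 0) (XT.lf (nat_lit 0) (nat_lit 629299201825) (nat_lit 152) (nat_lit 224393740501) (nat_lit 0) (nat_lit 628503887678) (nat_lit 1) (nat_lit 5) (nat_lit 3) (nat_lit 4) (nat_lit 1) (nat_lit 4) (nat_lit 329) (nat_lit 204) (nat_lit 187)) (XT.nd (nat_lit 78) (nat_lit 0) (nat_lit 0) (XT.lf (nat_lit 0) (nat_lit 679935155782) (nat_lit 152) (nat_lit 241687293900) (nat_lit 0) (nat_lit 679118022461) (nat_lit 1) (nat_lit 5) (nat_lit 3) (nat_lit 4) (nat_lit 1) (nat_lit 4) (nat_lit 330) (nat_lit 204) (nat_lit 186)) (XT.lf (nat_lit 0) (nat_lit 734612370208) (nat_lit 152) (nat_lit 260381015585) (nat_lit 0) (nat_lit 733775033951) (nat_lit 1) (nat_lit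 5) (nat_lit 3) (nat_lit 4) (nat_lit 1) (nat_lit 4) (nat_lit 331) (nat_lit 204) (nat_lit 185)))) (XT.nd (nat_lit 78) (nat_lit 0) (nat_lit 0) (XT.lf (nat_lit 0) (nat_lit 793654858228) (nat_lit 152) (nat_lit 280585683166) (nat_lit 0) (nat_lit 792798815547) (nat_lit 1) (nat_lit 5) (nat_lit 3) (nat_lit 4) (nat_lit 1) (nat_lit 4) (nat_lit 332) (nat_lit 204) (nat_lit 184)) (XT.nd (nat_lit 78) (nat_lit 0) (nat_lit 0) (XT.lf (nat_lit 0) (nat_lit 857412501252) (nat_lit 152) (nat_lit 302421028007) (nat_lit 0) (nat_lit 856539137808) (nat_lit 1) (nat_lit 5) (nat_lit 3) (nat_lit 4) (nat_lit 1) (nat_lit 4) (nat_lit 333) (nat_lit 204) (nat_lit 183)) (XT.lf (nat_lit 0) (nat_lit 926263122349) (nat_lit 152) (nat_lit 326016444744) (nat_lit 0) (nat_lit 925373721162) (nat_lit 1) (nat_lit 5) (nat_lit 3) (nat_lit 4) (nat_lit 1) (nat_lit 4) (nat_lit 334) (nat_lit 204) (nat_lit 182))))) (XT.nd (nat_lit 234)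 (nat_lit 0) (nat_lit 0) (XT.nd (nat_lit 78) (nat_lit 0) (nat_lit 0) (XT.lf (nat_lit 0) (nat_lit 1000614725199) (nat_lit 152) (nat_lit 351511758068) (nat_lit 0) (nat_lit 999710474251) (nat_lit 1) (nat_lit 5) (nat_lit 3) (nat_lit 4) (nat_lit 1) (nat_lit 4) (nat_lit 335) (nat_lit 204) (nat_lit 181)) (XT.nd (nat_lit 78) (nat_lit 0) (nat_lit 0) (XT.lf (nat_lit 0) (nat_lit 1080907911895) (nat_lit 152) (nat_lit 379058051318) (nat_lit 0) (nat_lit 1079989911167) (nat_lit 1) (nat_lit 5) (nat_lit 3) (nat_lit 4) (nat_lit 1) (nat_lit 4) (nat_lit 336) (nat_lit 204) (nat_lit 180)) (XT.lf (nat_lit 0) (nat_lit 1167618493912) (nat_lit 152) (nat_lit 408818561787) (nat_lit 0) (nat_lit 1166687761907) (nat_lit 1) (nat_lit 5) (nat_lit 3) (nat_lit 4) (nat_lit 1) (nat_lit 4) (nat_lit 337) (nat_lit 204) (nat_lit 179)))) (XT.nd (nat_lit 156) (nat_lit 0) (nat_lit 0) (XT.nd (nat_lit 78) (nat_lit 0) (nat_lit 0)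 (XT.lf (nat_lit 0) (nat_lit 1261260311737) (nat_lit 152) (nat_lit 440969648056) (nat_lit 0) (nat_lit 1260317791512) (nat_lit 1) (nat_lit 5) (nat_lit 3) (nat_lit 4) (nat_lit 1) (nat_lit 4) (nat_lit 338) (nat_lit 204) (nat_lit 178)) (XT.lf (nat_lit 0) (nat_lit 1362388279846) (nat_lit 152) (nat_lit 475701835080) (nat_lit 0) (nat_lit 1361434844602) (nat_lit 1) (nat_lit 5) (nat_lit 3) (nat_lit 4) (nat_lit 1) (nat_lit 4) (nat_lit 339) (nat_lit 204) (nat_lit 177))) (XT.nd (nat_lit 78) (nat_lit 0) (nat_lit 0) (XT.lf (nat_lit 0) (nat_lit 1471601675086) (nat_lit 152) (nat_lit 513220943227) (nat_lit 0) (nat_lit 1470638133344) (nat_lit 1) (nat_lit 5) (nat_lit 3) (nat_lit 4) (nat_lit 1) (nat_lit 4) (nat_lit 340) (nat_lit 204) (nat_lit 176)) (XT.lf (nat_lit 0) (nat_lit 1589547687949) (nat_lit 152) (nat_lit 553749307952) (nat_lit 0) (nat_lit 1588574788338) (nat_lit 1) (nat_lit 5) (nat_lit 3) (nat_lit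 4) (nat_lit 1) (nat_lit 4) (nat_lit 341) (nat_lit 204) (nat_lit 175)))))) (XT.nd (nat_lit 35178) (nat_lit 0) (nat_lit 0) (XT.nd (nat_lit 234) (nat_lit 0) (nat_lit 0) (XT.nd (nat_lit 78) (nat_lit 0) (nat_lit 0) (XT.lf (nat_lit 0) (nat_lit 1716925257769) (nat_lit 152) (nat_lit 597527097343) (nat_lit 0) (nat_lit 1715943693464) (nat_lit 1) (nat_lit 5) (nat_lit 3) (nat_lit 4) (nat_lit 1) (nat_lit 4) (nat_lit 342) (nat_lit 204) (nat_lit 174)) (XT.nd (nat_lit 78) (nat_lit 0) (nat_lit 0) (XT.lf (nat_lit 0) (nat_lit 1854489214589) (nat_lit 152) (nat_lit 644813735338) (nat_lit 0) (nat_lit 1853499627420) (nat_lit 1) (nat_lit 5) (nat_lit 3) (nat_lit 4) (nat_lit 1) (nat_lit 4) (nat_lit 343) (nat_lit 204) (nat_lit 173)) (XT.lf (nat_lit 0) (nat_lit 2003054752229) (nat_lit 152) (nat_lit 695889439049) (nat_lit 0) (nat_lit 2002057736482) (nat_lit 1) (nat_lit 5) (nat_lit 3) (nat_lit 4) (nat_lit 1) (nat_lit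 4) (nat_lit 344) (nat_lit 204) (nat_lit 172)))) (XT.nd (nat_lit 34788) (nat_lit 0) (nat_lit 0) (XT.nd (nat_lit 78) (nat_lit 0) (nat_lit 0) (XT.lf (nat_lit 0) (nat_lit 2163502259059) (nat_lit 152) (nat_lit 751056879314) (nat_lit 0) (nat_lit 2162498364999) (nat_lit 1) (nat_lit 5) (nat_lit 3) (nat_lit 4) (nat_lit 1) (nat_lit 4) (nat_lit 345) (nat_lit 204) (nat_lit 171)) (XT.lf (nat_lit 0) (nat_lit 2336782535120) (nat_lit 152) (nat_lit 810642974297) (nat_lit 0) (nat_lit 2335772272252) (nat_lit 1) (nat_lit 5) (nat_lit 3) (nat_lit 4) (nat_lit 1) (nat_lit 4) (nat_lit 346) (nat_lit 204) (nat_lit 170))) (XT.nd (nat_lit 78) (nat_lit 0) (nat_lit 0) (XT.lf (nat_lit 0) (nat_lit 70462341880) (nat_lit 152) (nat_lit 31042957547) (nat_lit 0) (nat_lit 70462341880) (nat_lit 1) (nat_lit 5) (nat_lit 3) (nat_lit 4) (nat_lit 1) (nat_lit 4) (nat_lit 310) (nat_lit 205) (nat_lit 205)) (XT.lf (nat_lit 0) (nat_lit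 152892577618) (nat_lit 152) (nat_lit 65685419494) (nat_lit 0) (nat_lit 152805387780) (nat_lit 1) (nat_lit 5) (nat_lit 3) (nat_lit 4) (nat_lit 1) (nat_lit 4) (nat_lit 311) (nat_lit 205) (nat_lit 204))))) (XT.nd (nat_lit 234) (nat_lit 0) (nat_lit 0) (XT.nd (nat_lit 78) (nat_lit 0) (nat_lit 0) (XT.lf (nat_lit 0) (nat_lit 165779477876) (nat_lit 152) (nat_lit 69639553893) (nat_lit 0) (nat_lit 165611556707) (nat_lit 1) (nat_lit 5) (nat_lit 3) (nat_lit 4) (nat_lit 1) (nat_lit 4) (nat_lit 312) (nat_lit 205) (nat_lit 203)) (XT.nd (nat_lit 78) (nat_lit 0) (nat_lit 0) (XT.lf (nat_lit 0) (nat_lit 179661751351) (nat_lit 152) (nat_lit 73971750197) (nat_lit 0) (nat_lit 179419078949) (nat_lit 1) (nat_lit 5) (nat_lit 3) (nat_lit 4) (nat_lit 1) (nat_lit 4) (nat_lit 313) (nat_lit 205) (nat_lit 202)) (XT.lf (nat_lit 0) (nat_lit 194621663368) (nat_lit 152) (nat_lit 78707680682) (nat_lit 0) (nat_lit 194309776861)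 (nat_lit 1) (nat_lit 5) (nat_lit 3) (nat_lit 4) (nat_lit 1) (nat_lit 4) (nat_lit 314) (nat_lit 205) (nat_lit 201)))) (XT.nd (nat_lit 156) (nat_lit 0) (nat_lit 0) (XT.nd (nat_lit 78) (nat_lit 0) (nat_lit 0) (XT.lf (nat_lit 0) (nat_lit 210747865256) (nat_lit 152) (nat_lit 83875410121) (nat_lit 0) (nat_lit 210371891616) (nat_lit 1) (nat_lit 5) (nat_lit 3) (nat_lit 4) (nat_lit 1) (nat_lit 4) (nat_lit 315) (nat_lit 205) (nat_lit 200)) (XT.lf (nat_lit 0) (nat_lit 228135919695) (nat_lit 152) (nat_lit 89505562095) (nat_lit 0) (nat_lit 227700606116) (nat_lit 1) (nat_lit 5) (nat_lit 3) (nat_lit 4) (nat_lit 1) (nat_lit 4) (nat_lit 316) (nat_lit 205) (nat_lit 199))) (XT.nd (nat_lit 78) (nat_lit 0) (nat_lit 0) (XT.lf (nat_lit 0) (nat_lit 246888867005) (nat_lit 152) (nat_lit 95631500468) (nat_lit 0) (nat_lit 246398609039) (nat_lit 1) (nat_lit 5) (nat_lit 3) (nat_lit 4) (nat_lit 1) (nat_lit 4) (nat_lit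 317) (nat_lit 205) (nat_lit 198)) (XT.lf (nat_lit 0) (nat_lit 267117835765) (nat_lit 152) (nat_lit 102289527098) (nat_lit 0) (nat_lit 266576703366) (nat_lit 1) (nat_lit 5) (nat_lit 3) (nat_lit 4) (nat_lit 1) (nat_lit 4) (nat_lit 318) (nat_lit 205) (nat_lit 197))))))) (XT.nd (nat_lit 1014) (nat_lit 0) (nat_lit 0) (XT.nd (nat_lit 468) (nat_lit 0) (nat_lit 0) (XT.nd (nat_lit 234) (nat_lit 0) (nat_lit 0) (XT.nd (nat_lit 78) (nat_lit 0) (nat_lit 0) (XT.lf (nat_lit 0) (nat_lit 288942701344) (nat_lit 152) (nat_lit 109519096956) (nat_lit 0) (nat_lit 288354462989) (nat_lit 1) (nat_lit 5) (nat_lit 3) (nat_lit 4) (nat_lit 1) (nat_lit 4) (nat_lit 319) (nat_lit 205) (nat_lit 196)) (XT.nd (nat_lit 78) (nat_lit 0) (nat_lit 0) (XT.lf (nat_lit 0) (nat_lit 312492796280) (nat_lit 152) (nat_lit 117363051938) (nat_lit 0) (nat_lit 311860941298) (nat_lit 1) (nat_lit 5) (nat_lit 3) (nat_lit 4) (nat_lit 1)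 (nat_lit 4) (nat_lit 320) (nat_lit 205) (nat_lit 195)) (XT.lf (nat_lit 0) (nat_lit 337907676690) (nat_lit 152) (nat_lit 125867874741) (nat_lit 0) (nat_lit 337235435942) (nat_lit 1) (nat_lit 5) (nat_lit 3) (nat_lit 4) (nat_lit 1) (nat_lit 4) (nat_lit 321) (nat_lit 205) (nat_lit 194)))) (XT.nd (nat_lit 78) (nat_lit 0) (nat_lit 0) (XT.lf (nat_lit 0) (nat_lit 365337949273) (nat_lit 152) (nat_lit 135083964314) (nat_lit 0) (nat_lit 364628314298) (nat_lit 1) (nat_lit 5) (nat_lit 3) (nat_lit 4) (nat_lit 1) (nat_lit 4) (nat_lit 322) (nat_lit 205) (nat_lit 193)) (XT.nd (nat_lit 78) (nat_lit 0) (nat_lit 0) (XT.lf (nat_lit 0) (nat_lit 394946163792) (nat_lit 152) (nat_lit 145065934522) (nat_lit 0) (nat_lit 394201904534) (nat_lit 1) (nat_lit 5) (nat_lit 3) (nat_lit 4) (nat_lit 1) (nat_lit 4) (nat_lit 323) (nat_lit 205) (nat_lit 192)) (XT.lf (nat_lit 0) (nat_lit 426907776334) (nat_lit 152) (nat_lit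 155872937780) (nat_lit 0) (nat_lit 426131457553) (nat_lit 1) (nat_lit 5) (nat_lit 3) (nat_lit 4) (nat_lit 1) (nat_lit 4) (nat_lit 324) (nat_lit 205) (nat_lit 191))))) (XT.nd (nat_lit 234) (nat_lit 0) (nat_lit 0) (XT.nd (nat_lit 78) (nat_lit 0) (nat_lit 0) (XT.lf (nat_lit 0) (nat_lit 461412189047) (nat_lit 152) (nat_lit 167569015589) (nat_lit 0) (nat_lit 460606185523) (nat_lit 1) (nat_lit 5) (nat_lit 3) (nat_lit 4) (nat_lit 1) (nat_lit 4) (nat_lit 325) (nat_lit 205) (nat_lit 190)) (XT.nd (nat_lit 78) (nat_lit 0) (nat_lit 0) (XT.lf (nat_lit 0) (nat_lit 498663872525) (nat_lit 152) (nat_lit 180223478041) (nat_lit 0) (nat_lit 497830383128) (nat_lit 1) (nat_lit 5) (nat_lit 3) (nat_lit 4) (nat_lit 1) (nat_lit 4) (nat_lit 326) (nat_lit 205) (nat_lit 189)) (XT.lf (nat_lit 0) (nat_lit 538883577485) (nat_lit 152) (nat_lit 193911314541) (nat_lit 0) (nat_lit 538024638205) (nat_lit 1) (nat_lit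 5) (nat_lit 3) (nat_lit 4) (nat_lit 1) (nat_lit 4) (nat_lit 327) (nat_lit 205) (nat_lit 188)))) (XT.nd (nat_lit 156) (nat_lit 0) (nat_lit 0) (XT.nd (nat_lit 78) (nat_lit 0) (nat_lit 0) (XT.lf (nat_lit 0) (nat_lit 582309642919) (nat_lit 152) (nat_lit 208713638196) (nat_lit 0) (nat_lit 581427138933) (nat_lit 1) (nat_lit 5) (nat_lit 3) (nat_lit 4) (nat_lit 1) (nat_lit 4) (nat_lit 328) (nat_lit 205) (nat_lit 187)) (XT.lf (nat_lit 0) (nat_lit 629199408473) (nat_lit 152) (nat_lit 224718166479) (nat_lit 0) (nat_lit 628295085315) (nat_lit 1) (nat_lit 5) (nat_lit 3) (nat_lit 4) (nat_lit 1) (nat_lit 4) (nat_lit 329) (nat_lit 205) (nat_lit 186))) (XT.nd (nat_lit 78) (nat_lit 0) (nat_lit 0) (XT.lf (nat_lit 0) (nat_lit 679830739427) (nat_lit 152) (nat_lit 242019741038) (nat_lit 0) (nat_lit 678906213331) (nat_lit 1) (nat_lit 5) (nat_lit 3) (nat_lit 4) (nat_lit 1) (nat_lit 4) (nat_lit 330) (nat_lit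 205) (nat_lit 185)) (XT.lf (nat_lit 0) (nat_lit 734503673295) (nat_lit 152) (nat_lit 260720889724) (nat_lit 0) (nat_lit 733560440777) (nat_lit 1) (nat_lit 5) (nat_lit 3) (nat_lit 4) (nat_lit 1) (nat_lit 4) (nat_lit 331) (nat_lit 205) (nat_lit 184)))))) (XT.nd (nat_lit 546) (nat_lit 0) (nat_lit 0) (XT.nd (nat_lit 234) (nat_lit 0) (nat_lit 0) (XT.nd (nat_lit 78) (nat_lit 0) (nat_lit 0) (XT.lf (nat_lit 0) (nat_lit 793542197835) (nat_lit 152) (nat_lit 280932434158) (nat_lit 0) (nat_lit 792581644554) (nat_lit 1) (nat_lit 5) (nat_lit 3) (nat_lit 4) (nat_lit 1) (nat_lit 4) (nat_lit 332) (nat_lit 205) (nat_lit 183)) (XT.nd (nat_lit 78) (nat_lit 0) (nat_lit 0) (XT.lf (nat_lit 0) (nat_lit 857296170970) (nat_lit 152) (nat_lit 302774146455) (nat_lit 0) (nat_lit 856319579946) (nat_lit 1) (nat_lit 5) (nat_lit 3) (nat_lit 4) (nat_lit 1) (nat_lit 4) (nat_lit 333) (nat_lit 205) (nat_lit 182)) (XT.lf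 (nat_lit 0) (nat_lit 926143394022) (nat_lit 152) (nat_lit 326375458984) (nat_lit 0) (nat_lit 925151953236) (nat_lit 1) (nat_lit 5) (nat_lit 3) (nat_lit 4) (nat_lit 1) (nat_lit 4) (nat_lit 334) (nat_lit 205) (nat_lit 181)))) (XT.nd (nat_lit 156) (nat_lit 0) (nat_lit 0) (XT.nd (nat_lit 78) (nat_lit 0) (nat_lit 0) (XT.lf (nat_lit 0) (nat_lit 1000491850535) (nat_lit 152) (nat_lit 351876231376) (nat_lit 0) (nat_lit 999486659969) (nat_lit 1) (nat_lit 5) (nat_lit 3) (nat_lit 4) (nat_lit 1) (nat_lit 4) (nat_lit 335) (nat_lit 205) (nat_lit 180)) (XT.lf (nat_lit 0) (nat_lit 1080782123954) (nat_lit 152) (nat_lit 379427579318) (nat_lit 0) (nat_lit 1079764202111) (nat_lit 1) (nat_lit 5) (nat_lit 3) (nat_lit 4) (nat_lit 1) (nat_lit 4) (nat_lit 336) (nat_lit 205) (nat_lit 179))) (XT.nd (nat_lit 78) (nat_lit 0) (nat_lit 0) (XT.lf (nat_lit 0) (nat_lit 1167490008494) (nat_lit 152) (nat_lit 409192770057)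 (nat_lit 0) (nat_lit 1166460298431) (nat_lit 1) (nat_lit 5) (nat_lit 3) (nat_lit 4) (nat_lit 1) (nat_lit 4) (nat_lit 337) (nat_lit 205) (nat_lit 178)) (XT.lf (nat_lit 0) (nat_lit 1261129328654) (nat_lit 152) (nat_lit 441348189909) (nat_lit 0) (nat_lit 1260088703573) (nat_lit 1) (nat_lit 5) (nat_lit 3) (nat_lit 4) (nat_lit 1) (nat_lit 4) (nat_lit 338) (nat_lit 205) (nat_lit 177))))) (XT.nd (nat_lit 234) (nat_lit 0) (nat_lit 0) (XT.nd (nat_lit 78) (nat_lit 0) (nat_lit 0) (XT.lf (nat_lit 0) (nat_lit 1362254984111) (nat_lit 152) (nat_lit 476084389511) (nat_lit 0) (nat_lit 1361204252531) (nat_lit 1) (nat_lit 5) (nat_lit 3) (nat_lit 4) (nat_lit 1) (nat_lit 4) (nat_lit 339) (nat_lit 205) (nat_lit 176)) (XT.nd (nat_lit 78) (nat_lit 0) (nat_lit 0) (XT.lf (nat_lit 0) (nat_lit 1471466238006) (nat_lit 152) (nat_lit 513607213007) (nat_lit 0) (nat_lit 1470406148557) (nat_lit 1) (nat_lit 5) (nat_lit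 3) (nat_lit 4) (nat_lit 1) (nat_lit 4) (nat_lit 340) (nat_lit 205) (nat_lit 175)) (XT.lf (nat_lit 0) (nat_lit 1589410268142) (nat_lit 152) (nat_lit 554139017871) (nat_lit 0) (nat_lit 1588341513999) (nat_lit 1) (nat_lit 5) (nat_lit 3) (nat_lit 4) (nat_lit 1) (nat_lit 4) (nat_lit 341) (nat_lit 205) (nat_lit 174)))) (XT.nd (nat_lit 156) (nat_lit 0) (nat_lit 0) (XT.nd (nat_lit 78) (nat_lit 0) (nat_lit 0) (XT.lf (nat_lit 0) (nat_lit 1716786002104) (nat_lit 152) (nat_lit 597919992575) (nat_lit 0) (nat_lit 1715709225097) (nat_lit 1) (nat_lit 5) (nat_lit 3) (nat_lit 4) (nat_lit 1) (nat_lit 4) (nat_lit 342) (nat_lit 205) (nat_lit 173)) (XT.lf (nat_lit 0) (nat_lit 1854348259056) (nat_lit 152) (nat_lit 645209579934) (nat_lit 0) (nat_lit 1853264053471) (nat_lit 1) (nat_lit 5) (nat_lit 3) (nat_lit 4) (nat_lit 1) (nat_lit 4) (nat_lit 343) (nat_lit 205) (nat_lit 172))) (XT.nd (nat_lit 78) (nat_lit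 0) (nat_lit 0) (XT.lf (nat_lit 0) (nat_lit 2002912222744) (nat_lit 152) (nat_lit 696288014537) (nat_lit 0) (nat_lit 2001821138845) (nat_lit 1) (nat_lit 5) (nat_lit 3) (nat_lit 4) (nat_lit 1) (nat_lit 4) (nat_lit 344) (nat_lit 205) (nat_lit 171)) (XT.lf (nat_lit 0) (nat_lit 2163358272210) (nat_lit 152) (nat_lit 751457983407) (nat_lit 0) (nat_lit 2162260819504) (nat_lit 1) (nat_lit 5) (nat_lit 3) (nat_lit 4) (nat_lit 1) (nat_lit 4) (nat_lit 345) (nat_lit 205) (nat_lit 170))))))))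
noncomputable def xc7 : XT := (XT.nd (nat_lit 36582) (nat_lit 0) (nat_lit 0) (XT.nd (nat_lit 35490) (nat_lit 0) (nat_lit 0) (XT.nd (nat_lit 34944) (nat_lit 0) (nat_lit 0) (XT.nd (nat_lit 34710) (nat_lit 0) (nat_lit 0) (XT.nd (nat_lit 34554) (nat_lit 0) (nat_lit 0) (XT.lf (nat_lit 0) (nat_lit 2336637198861) (nat_lit 152) (nat_lit 811046419690) (nat_lit 0) (nat_lit 2335533849109) (nat_lit 1) (nat_lit 5) (nat_lit 3) (nat_lit 4) (nat_lit 1) (nat_lit 4) (nat_lit 346) (nat_lit 205) (nat_lit 169)) (XT.nd (nat_lit 78) (nat_lit 0) (nat_lit 0) (XT.lf (nat_lit 0) (nat_lit 59791485087) (nat_lit 152) (nat_lit 27915031763) (nat_lit 0) (nat_lit 59791485087) (nat_lit 1) (nat_lit 5) (nat_lit 3) (nat_lit 4) (nat_lit 1) (nat_lit 4) (nat_lit 308) (nat_lit 206) (nat_lit 206)) (XT.lf (nat_lit 0) (nat_lit 129899040477) (nat_lit 152) (nat_lit 58819710297) (nat_lit 0) (nat_lit 129804875452) (nat_lit 1) (nat_lit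 5) (nat_lit 3) (nat_lit 4) (nat_lit 1) (nat_lit 4) (nat_lit 309) (nat_lit 206) (nat_lit 205)))) (XT.nd (nat_lit 78) (nat_lit 0) (nat_lit 0) (XT.lf (nat_lit 0) (nat_lit 140998897288) (nat_lit 152) (nat_lit 62120532026) (nat_lit 0) (nat_lit 140817542425) (nat_lit 1) (nat_lit 5) (nat_lit 3) (nat_lit 4) (nat_lit 1) (nat_lit 4) (nat_lit 310) (nat_lit 206) (nat_lit 204)) (XT.nd (nat_lit 78) (nat_lit 0) (nat_lit 0) (XT.lf (nat_lit 0) (nat_lit 152948317535) (nat_lit 152) (nat_lit 65752089141) (nat_lit 0) (nat_lit 152686231341) (nat_lit 1) (nat_lit 5) (nat_lit 3) (nat_lit 4) (nat_lit 1) (nat_lit 4) (nat_lit 311) (nat_lit 206) (nat_lit 203)) (XT.lf (nat_lit 0) (nat_lit 165818112599) (nat_lit 152) (nat_lit 69735901979) (nat_lit 0) (nat_lit 165481275172) (nat_lit 1) (nat_lit 5) (nat_lit 3) (nat_lit 4) (nat_lit 1) (nat_lit 4) (nat_lit 312) (nat_lit 206) (nat_lit 202))))) (XT.nd (nat_lit 234) (nat_lit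 0) (nat_lit 0) (XT.nd (nat_lit 78) (nat_lit 0) (nat_lit 0) (XT.lf (nat_lit 0) (nat_lit 179684547932) (nat_lit 152) (nat_lit 74095578320) (nat_lit 0) (nat_lit 179278496401) (nat_lit 1) (nat_lit 5) (nat_lit 3) (nat_lit 4) (nat_lit 1) (nat_lit 4) (nat_lit 313) (nat_lit 206) (nat_lit 201)) (XT.nd (nat_lit 78) (nat_lit 0) (nat_lit 0) (XT.lf (nat_lit 0) (nat_lit 194629795002) (nat_lit 152) (nat_lit 78856953283) (nat_lit 0) (nat_lit 194159656337) (nat_lit 1) (nat_lit 5) (nat_lit 3) (nat_lit 4) (nat_lit 1) (nat_lit 4) (nat_lit 314) (nat_lit 206) (nat_lit 200)) (XT.lf (nat_lit 0) (nat_lit 210742418236) (nat_lit 152) (nat_lit 84048242424) (nat_lit 0) (nat_lit 210212939632) (nat_lit 1) (nat_lit 5) (nat_lit 3) (nat_lit 4) (nat_lit 1) (nat_lit 4) (nat_lit 315) (nat_lit 206) (nat_lit 199)))) (XT.nd (nat_lit 156) (nat_lit 0) (nat_lit 0) (XT.nd (nat_lit 78) (nat_lit 0) (nat_lit 0) (XT.lf (nat_lit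 0) (nat_lit 228117899846) (nat_lit 152) (nat_lit 89700208937) (nat_lit 0) (nat_lit 227533476855) (nat_lit 1) (nat_lit 5) (nat_lit 3) (nat_lit 4) (nat_lit 1) (nat_lit 4) (nat_lit 316) (nat_lit 206) (nat_lit 198)) (XT.lf (nat_lit 0) (nat_lit 246859205649) (nat_lit 152) (nat_lit 95846345958) (nat_lit 0) (nat_lit 246223908225) (nat_lit 1) (nat_lit 5) (nat_lit 3) (nat_lit 4) (nat_lit 1) (nat_lit 4) (nat_lit 317) (nat_lit 206) (nat_lit 197))) (XT.nd (nat_lit 78) (nat_lit 0) (nat_lit 0) (XT.lf (nat_lit 0) (nat_lit 267077395235) (nat_lit 152) (nat_lit 102523075038) (nat_lit 0) (nat_lit 266394991854) (nat_lit 1) (nat_lit 5) (nat_lit 3) (nat_lit 4) (nat_lit 1) (nat_lit 4) (nat_lit 318) (nat_lit 206) (nat_lit 196)) (XT.lf (nat_lit 0) (nat_lit 288892280098) (nat_lit 152) (nat_lit 109769961981) (nat_lit 0) (nat_lit 288166260091) (nat_lit 1) (nat_lit 5) (nat_lit 3) (nat_lit 4) (nat_lit 1) (nat_lit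 4) (nat_lit 319) (nat_lit 206) (nat_lit 195)))))) (XT.nd (nat_lit 546) (nat_lit 0) (nat_lit 0) (XT.nd (nat_lit 234) (nat_lit 0) (nat_lit 0) (XT.nd (nat_lit 78) (nat_lit 0) (nat_lit 0) (XT.lf (nat_lit 0) (nat_lit 312433133629) (nat_lit 152) (nat_lit 117629951301) (nat_lit 0) (nat_lit 311666727857) (nat_lit 1) (nat_lit 5) (nat_lit 3) (nat_lit 4) (nat_lit 1) (nat_lit 4) (nat_lit 320) (nat_lit 206) (nat_lit 194)) (XT.nd (nat_lit 78) (nat_lit 0) (nat_lit 0) (XT.lf (nat_lit 0) (nat_lit 337839457183) (nat_lit 152) (nat_lit 126149620712) (nat_lit 0) (nat_lit 337035657184) (nat_lit 1) (nat_lit 5) (nat_lit 3) (nat_lit 4) (nat_lit 1) (nat_lit 4) (nat_lit 321) (nat_lit 206) (nat_lit 193)) (XT.lf (nat_lit 0) (nat_lit 365261806752) (nat_lit 152) (nat_lit 135379457145) (nat_lit 0) (nat_lit 364423382468) (nat_lit 1) (nat_lit 5) (nat_lit 3) (nat_lit 4) (nat_lit 1) (nat_lit 4) (nat_lit 322) (nat_lit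 206) (nat_lit 192)))) (XT.nd (nat_lit 156) (nat_lit 0) (nat_lit 0) (XT.nd (nat_lit 78) (nat_lit 0) (nat_lit 0) (XT.lf (nat_lit 0) (nat_lit 394862685147) (nat_lit 152) (nat_lit 145374155927) (nat_lit 0) (nat_lit 393992201341) (nat_lit 1) (nat_lit 5) (nat_lit 3) (nat_lit 4) (nat_lit 1) (nat_lit 4) (nat_lit 323) (nat_lit 206) (nat_lit 191)) (XT.lf (nat_lit 0) (nat_lit 426817504981) (nat_lit 152) (nat_lit 156192944901) (nat_lit 0) (nat_lit 425917336432) (nat_lit 1) (nat_lit 5) (nat_lit 3) (nat_lit 4) (nat_lit 1) (nat_lit 4) (nat_lit 324) (nat_lit 206) (nat_lit 190))) (XT.nd (nat_lit 78) (nat_lit 0) (nat_lit 0) (XT.lf (nat_lit 0) (nat_lit 461315628150) (nat_lit 152) (nat_lit 167899935411) (nat_lit 0) (nat_lit 460387973728) (nat_lit 1) (nat_lit 5) (nat_lit 3) (nat_lit 4) (nat_lit 1) (nat_lit 4) (nat_lit 325) (nat_lit 206) (nat_lit 189)) (XT.lf (nat_lit 0) (nat_lit 498561487976) (nat_lit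 152) (nat_lit 180564502215) (nat_lit 0) (nat_lit 497608383671) (nat_lit 1) (nat_lit 5) (nat_lit 3) (nat_lit 4) (nat_lit 1) (nat_lit 4) (nat_lit 326) (nat_lit 206) (nat_lit 188))))) (XT.nd (nat_lit 234) (nat_lit 0) (nat_lit 0) (XT.nd (nat_lit 78) (nat_lit 0) (nat_lit 0) (XT.lf (nat_lit 0) (nat_lit 538775800665) (nat_lit 152) (nat_lit 194261694598) (nat_lit 0) (nat_lit 537799131654) (nat_lit 1) (nat_lit 5) (nat_lit 3) (nat_lit 4) (nat_lit 1) (nat_lit 4) (nat_lit 327) (nat_lit 206) (nat_lit 187)) (XT.nd (nat_lit 78) (nat_lit 0) (nat_lit 0) (XT.lf (nat_lit 0) (nat_lit 582196873255) (nat_lit 152) (nat_lit 209072681106) (nat_lit 0) (nat_lit 581198385072) (nat_lit 1) (nat_lit 5) (nat_lit 3) (nat_lit 4) (nat_lit 1) (nat_lit 4) (nat_lit 328) (nat_lit 206) (nat_lit 186)) (XT.lf (nat_lit 0) (nat_lit 629082015807) (nat_lit 152) (nat_lit 225085230550) (nat_lit 0) (nat_lit 628063324687) (nat_lit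 1) (nat_lit 5) (nat_lit 3) (nat_lit 4) (nat_lit 1) (nat_lit 4) (nat_lit 329) (nat_lit 206) (nat_lit 185)))) (XT.nd (nat_lit 156) (nat_lit 0) (nat_lit 0) (XT.nd (nat_lit 78) (nat_lit 0) (nat_lit 0) (XT.lf (nat_lit 0) (nat_lit 679709066203) (nat_lit 152) (nat_lit 242394232110) (nat_lit 0) (nat_lit 678671668659) (nat_lit 1) (nat_lit 5) (nat_lit 3) (nat_lit 4) (nat_lit 1) (nat_lit 4) (nat_lit 330) (nat_lit 206) (nat_lit 184)) (XT.lf (nat_lit 0) (nat_lit 734378036591) (nat_lit 152) (nat_lit 261102257648) (nat_lit 0) (nat_lit 733323318285) (nat_lit 1) (nat_lit 5) (nat_lit 3) (nat_lit 4) (nat_lit 1) (nat_lit 4) (nat_lit 331) (nat_lit 206) (nat_lit 183))) (XT.nd (nat_lit 78) (nat_lit 0) (nat_lit 0) (XT.lf (nat_lit 0) (nat_lit 793412891243) (nat_lit 152) (nat_lit 281320169538) (nat_lit 0) (nat_lit 792342135194) (nat_lit 1) (nat_lit 5) (nat_lit 3) (nat_lit 4) (nat_lit 1) (nat_lit 4) (nat_lit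 332) (nat_lit 206) (nat_lit 182)) (XT.lf (nat_lit 0) (nat_lit 857163466332) (nat_lit 152) (nat_lit 303167777628) (nat_lit 0) (nat_lit 856077860521) (nat_lit 1) (nat_lit 5) (nat_lit 3) (nat_lit 4) (nat_lit 1) (nat_lit 4) (nat_lit 333) (nat_lit 206) (nat_lit 181))))))) (XT.nd (nat_lit 35334) (nat_lit 0) (nat_lit 0) (XT.nd (nat_lit 468) (nat_lit 0) (nat_lit 0) (XT.nd (nat_lit 234) (nat_lit 0) (nat_lit 0) (XT.nd (nat_lit 78) (nat_lit 0) (nat_lit 0) (XT.lf (nat_lit 0) (nat_lit 926007543046) (nat_lit 152) (nat_lit 326774549224) (nat_lit 0) (nat_lit 924908187455) (nat_lit 1) (nat_lit 5) (nat_lit 3) (nat_lit 4) (nat_lit 1) (nat_lit 4) (nat_lit 334) (nat_lit 206) (nat_lit 180)) (XT.nd (nat_lit 78) (nat_lit 0) (nat_lit 0) (XT.lf (nat_lit 0) (nat_lit 1000353086283) (nat_lit 152) (nat_lit 352280376307) (nat_lit 0) (nat_lit 999240999415) (nat_lit 1) (nat_lit 5) (nat_lit 3) (nat_lit 4) (nat_lit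 1) (nat_lit 4) (nat_lit 335) (nat_lit 206) (nat_lit 179)) (XT.lf (nat_lit 0) (nat_lit 1080640662225) (nat_lit 152) (nat_lit 379836404520) (nat_lit 0) (nat_lit 1079516787137) (nat_lit 1) (nat_lit 5) (nat_lit 3) (nat_lit 4) (nat_lit 1) (nat_lit 4) (nat_lit 336) (nat_lit 206) (nat_lit 178)))) (XT.nd (nat_lit 78) (nat_lit 0) (nat_lit 0) (XT.lf (nat_lit 0) (nat_lit 1167346049100) (nat_lit 152) (nat_lit 409605928842) (nat_lit 0) (nat_lit 1166211258993) (nat_lit 1) (nat_lit 5) (nat_lit 3) (nat_lit 4) (nat_lit 1) (nat_lit 4) (nat_lit 337) (nat_lit 206) (nat_lit 177)) (XT.nd (nat_lit 78) (nat_lit 0) (nat_lit 0) (XT.lf (nat_lit 0) (nat_lit 1260983056608) (nat_lit 152) (nat_lit 441765361272) (nat_lit 0) (nat_lit 1259838160003) (nat_lit 1) (nat_lit 5) (nat_lit 3) (nat_lit 4) (nat_lit 1) (nat_lit 4) (nat_lit 338) (nat_lit 206) (nat_lit 176)) (XT.lf (nat_lit 0) (nat_lit 1362106570719) (nat_lit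 152) (nat_lit 476505276223) (nat_lit 0) (nat_lit 1360952316245) (nat_lit 1) (nat_lit 5) (nat_lit 3) (nat_lit 4) (nat_lit 1) (nat_lit 4) (nat_lit 339) (nat_lit 206) (nat_lit 175))))) (XT.nd (nat_lit 234) (nat_lit 0) (nat_lit 0) (XT.nd (nat_lit 78) (nat_lit 0) (nat_lit 0) (XT.lf (nat_lit 0) (nat_lit 1471315841888) (nat_lit 152) (nat_lit 514031539858) (nat_lit 0) (nat_lit 1470152922721) (nat_lit 1) (nat_lit 5) (nat_lit 3) (nat_lit 4) (nat_lit 1) (nat_lit 4) (nat_lit 340) (nat_lit 206) (nat_lit 174)) (XT.nd (nat_lit 78) (nat_lit 0) (nat_lit 0) (XT.lf (nat_lit 0) (nat_lit 1589258036166) (nat_lit 152) (nat_lit 554566530035) (nat_lit 0) (nat_lit 1588087094134) (nat_lit 1) (nat_lit 5) (nat_lit 3) (nat_lit 4) (nat_lit 1) (nat_lit 4) (nat_lit 341) (nat_lit 206) (nat_lit 173)) (XT.lf (nat_lit 0) (nat_lit 1716632070259) (nat_lit 152) (nat_lit 598350454103) (nat_lit 0) (nat_lit 1715453699649)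 (nat_lit 1) (nat_lit 5) (nat_lit 3) (nat_lit 4) (nat_lit 1) (nat_lit 4) (nat_lit 342) (nat_lit 206) (nat_lit 172)))) (XT.nd (nat_lit 156) (nat_lit 0) (nat_lit 0) (XT.nd (nat_lit 78) (nat_lit 0) (nat_lit 0) (XT.lf (nat_lit 0) (nat_lit 1854192753259) (nat_lit 152) (nat_lit 645642772354) (nat_lit 0) (nat_lit 1853007504336) (nat_lit 1) (nat_lit 5) (nat_lit 3) (nat_lit 4) (nat_lit 1) (nat_lit 4) (nat_lit 343) (nat_lit 206) (nat_lit 171)) (XT.lf (nat_lit 0) (nat_lit 2002755259583) (nat_lit 152) (nat_lit 696723735563) (nat_lit 0) (nat_lit 2001563641852) (nat_lit 1) (nat_lit 5) (nat_lit 3) (nat_lit 4) (nat_lit 1) (nat_lit 4) (nat_lit 344) (nat_lit 206) (nat_lit 170))) (XT.nd (nat_lit 78) (nat_lit 0) (nat_lit 0) (XT.lf (nat_lit 0) (nat_lit 2163199959640) (nat_lit 152) (nat_lit 751896045732) (nat_lit 0) (nat_lit 2162002444863) (nat_lit 1) (nat_lit 5) (nat_lit 3) (nat_lit 4) (nat_lit 1) (nat_lit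 4) (nat_lit 345) (nat_lit 206) (nat_lit 169)) (XT.lf (nat_lit 0) (nat_lit 2336477636836) (nat_lit 152) (nat_lit 811486649886) (nat_lit 0) (nat_lit 2335274661833) (nat_lit 1) (nat_lit 5) (nat_lit 3) (nat_lit 4) (nat_lit 1) (nat_lit 4) (nat_lit 346) (nat_lit 206) (nat_lit 168)))))) (XT.nd (nat_lit 546) (nat_lit 0) (nat_lit 0) (XT.nd (nat_lit 234) (nat_lit 0) (nat_lit 0) (XT.nd (nat_lit 78) (nat_lit 0) (nat_lit 0) (XT.lf (nat_lit 0) (nat_lit 50593456034) (nat_lit 152) (nat_lit 25337395494) (nat_lit 0) (nat_lit 50593456034) (nat_lit 1) (nat_lit 5) (nat_lit 3) (nat_lit 4) (nat_lit 1) (nat_lit 4) (nat_lit 306) (nat_lit 207) (nat_lit 207)) (XT.nd (nat_lit 78) (nat_lit 0) (nat_lit 0) (XT.lf (nat_lit 0) (nat_lit 110091252338) (nat_lit 152) (nat_lit 53133875291) (nat_lit 0) (nat_lit 109989554111) (nat_lit 1) (nat_lit 5) (nat_lit 3) (nat_lit 4) (nat_lit 1) (nat_lit 4) (nat_lit 307) (nat_lit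 207) (nat_lit 206)) (XT.lf (nat_lit 0) (nat_lit 119663120783) (nat_lit 152) (nat_lit 55867449813) (nat_lit 0) (nat_lit 119467257531) (nat_lit 1) (nat_lit 5) (nat_lit 3) (nat_lit 4) (nat_lit 1) (nat_lit 4) (nat_lit 308) (nat_lit 207) (nat_lit 205)))) (XT.nd (nat_lit 156) (nat_lit 0) (nat_lit 0) (XT.nd (nat_lit 78) (nat_lit 0) (nat_lit 0) (XT.lf (nat_lit 0) (nat_lit 129959239588) (nat_lit 152) (nat_lit 58891713515) (nat_lit 0) (nat_lit 129676186498) (nat_lit 1) (nat_lit 5) (nat_lit 3) (nat_lit 4) (nat_lit 1) (nat_lit 4) (nat_lit 309) (nat_lit 207) (nat_lit 204)) (XT.lf (nat_lit 0) (nat_lit 141040622789) (nat_lit 152) (nat_lit 62224587959) (nat_lit 0) (nat_lit 140676838368) (nat_lit 1) (nat_lit 5) (nat_lit 3) (nat_lit 4) (nat_lit 1) (nat_lit 4) (nat_lit 310) (nat_lit 207) (nat_lit 203))) (XT.nd (nat_lit 78) (nat_lit 0) (nat_lit 0) (XT.lf (nat_lit 0) (nat_lit 152972937842) (nat_lit 152)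 (nat_lit 65885823513) (nat_lit 0) (nat_lit 152534402188) (nat_lit 1) (nat_lit 5) (nat_lit 3) (nat_lit 4) (nat_lit 1) (nat_lit 4) (nat_lit 311) (nat_lit 207) (nat_lit 202)) (XT.lf (nat_lit 0) (nat_lit 165826894764) (nat_lit 152) (nat_lit 69897116388) (nat_lit 0) (nat_lit 165319145005) (nat_lit 1) (nat_lit 5) (nat_lit 3) (nat_lit 4) (nat_lit 1) (nat_lit 4) (nat_lit 312) (nat_lit 207) (nat_lit 201))))) (XT.nd (nat_lit 234) (nat_lit 0) (nat_lit 0) (XT.nd (nat_lit 78) (nat_lit 0) (nat_lit 0) (XT.lf (nat_lit 0) (nat_lit 179678665150) (nat_lit 152) (nat_lit 74282237207) (nat_lit 0) (nat_lit 179106828258) (nat_lit 1) (nat_lit 5) (nat_lit 3) (nat_lit 4) (nat_lit 1) (nat_lit 4) (nat_lit 313) (nat_lit 207) (nat_lit 200)) (XT.nd (nat_lit 78) (nat_lit 0) (nat_lit 0) (XT.lf (nat_lit 0) (nat_lit 194610333565) (nat_lit 152) (nat_lit 79067171873) (nat_lit 0) (nat_lit 193979156734) (nat_lit 1) (nat_lit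 5) (nat_lit 3) (nat_lit 4) (nat_lit 1) (nat_lit 4) (nat_lit 314) (nat_lit 207) (nat_lit 199)) (XT.lf (nat_lit 0) (nat_lit 210710383971) (nat_lit 152) (nat_lit 84280275552) (nat_lit 0) (nat_lit 210024262752) (nat_lit 1) (nat_lit 5) (nat_lit 3) (nat_lit 4) (nat_lit 1) (nat_lit 4) (nat_lit 315) (nat_lit 207) (nat_lit 198)))) (XT.nd (nat_lit 156) (nat_lit 0) (nat_lit 0) (XT.nd (nat_lit 78) (nat_lit 0) (nat_lit 0) (XT.lf (nat_lit 0) (nat_lit 228074224073) (nat_lit 152) (nat_lit 89952440713) (nat_lit 0) (nat_lit 227337228422) (nat_lit 1) (nat_lit 5) (nat_lit 3) (nat_lit 4) (nat_lit 1) (nat_lit 4) (nat_lit 316) (nat_lit 207) (nat_lit 197)) (XT.lf (nat_lit 0) (nat_lit 246804750703) (nat_lit 152) (nat_lit 96117280185) (nat_lit 0) (nat_lit 246020649095) (nat_lit 1) (nat_lit 5) (nat_lit 3) (nat_lit 4) (nat_lit 1) (nat_lit 4) (nat_lit 317) (nat_lit 207) (nat_lit 196))) (XT.nd (nat_lit 78) (nat_lit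 0) (nat_lit 0) (XT.lf (nat_lit 0) (nat_lit 267012959572) (nat_lit 152) (nat_lit 102811326350) (nat_lit 0) (nat_lit 266185241338) (nat_lit 1) (nat_lit 5) (nat_lit 3) (nat_lit 4) (nat_lit 1) (nat_lit 4) (nat_lit 318) (nat_lit 207) (nat_lit 195)) (XT.lf (nat_lit 0) (nat_lit 288818603031) (nat_lit 152) (nat_lit 110074247630) (nat_lit 0) (nat_lit 287950499032) (nat_lit 1) (nat_lit 5) (nat_lit 3) (nat_lit 4) (nat_lit 1) (nat_lit 4) (nat_lit 319) (nat_lit 207) (nat_lit 194))))))))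
noncomputable def xc8 : XT := (XT.nd (nat_lit 2028) (nat_lit 0) (nat_lit 0) (XT.nd (nat_lit 1014) (nat_lit 0) (nat_lit 0) (XT.nd (nat_lit 468) (nat_lit 0) (nat_lit 0) (XT.nd (nat_lit 234) (nat_lit 0) (nat_lit 0) (XT.nd (nat_lit 78) (nat_lit 0) (nat_lit 0) (XT.lf (nat_lit 0) (nat_lit 312350899707) (nat_lit 152) (nat_lit 117949083558) (nat_lit 0) (nat_lit 311445401481) (nat_lit 1) (nat_lit 5) (nat_lit 3) (nat_lit 4) (nat_lit 1) (nat_lit 4) (nat_lit 320) (nat_lit 207) (nat_lit 193)) (XT.nd (nat_lit 78) (nat_lit 0) (nat_lit 0) (XT.lf (nat_lit 0) (nat_lit 337749300247) (nat_lit 152) (nat_lit 126482499829) (nat_lit 0) (nat_lit 336809177736) (nat_lit 1) (nat_lit 5) (nat_lit 3) (nat_lit 4) (nat_lit 1) (nat_lit 4) (nat_lit 321) (nat_lit 207) (nat_lit 192)) (XT.lf (nat_lit 0) (nat_lit 365164313691) (nat_lit 152) (nat_lit 135725064836) (nat_lit 0) (nat_lit 364192131658) (nat_lit 1) (nat_lit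 5) (nat_lit 3) (nat_lit 4) (nat_lit 1) (nat_lit 4) (nat_lit 322) (nat_lit 207) (nat_lit 191)))) (XT.nd (nat_lit 78) (nat_lit 0) (nat_lit 0) (XT.lf (nat_lit 0) (nat_lit 394758399378) (nat_lit 152) (nat_lit 145731549335) (nat_lit 0) (nat_lit 393756532602) (nat_lit 1) (nat_lit 5) (nat_lit 3) (nat_lit 4) (nat_lit 1) (nat_lit 4) (nat_lit 323) (nat_lit 207) (nat_lit 190)) (XT.nd (nat_lit 78) (nat_lit 0) (nat_lit 0) (XT.lf (nat_lit 0) (nat_lit 426706929667) (nat_lit 152) (nat_lit 156561251010) (nat_lit 0) (nat_lit 425677577019) (nat_lit 1) (nat_lit 5) (nat_lit 3) (nat_lit 4) (nat_lit 1) (nat_lit 4) (nat_lit 324) (nat_lit 207) (nat_lit 189)) (XT.lf (nat_lit 0) (nat_lit 461199229184) (nat_lit 152) (nat_lit 168278345872) (nat_lit 0) (nat_lit 460144426653) (nat_lit 1) (nat_lit 5) (nat_lit 3) (nat_lit 4) (nat_lit 1) (nat_lit 4) (nat_lit 325) (nat_lit 207) (nat_lit 188))))) (XT.nd (nat_lit 234)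 (nat_lit 0) (nat_lit 0) (XT.nd (nat_lit 78) (nat_lit 0) (nat_lit 0) (XT.lf (nat_lit 0) (nat_lit 498439696739) (nat_lit 152) (nat_lit 180952268558) (nat_lit 0) (nat_lit 497361329502) (nat_lit 1) (nat_lit 5) (nat_lit 3) (nat_lit 4) (nat_lit 1) (nat_lit 4) (nat_lit 326) (nat_lit 207) (nat_lit 187)) (XT.nd (nat_lit 78) (nat_lit 0) (nat_lit 0) (XT.lf (nat_lit 0) (nat_lit 538649016585) (nat_lit 152) (nat_lit 194658123794) (nat_lit 0) (nat_lit 537548830175) (nat_lit 1) (nat_lit 5) (nat_lit 3) (nat_lit 4) (nat_lit 1) (nat_lit 4) (nat_lit 327) (nat_lit 207) (nat_lit 186)) (XT.lf (nat_lit 0) (nat_lit 582065466173) (nat_lit 152) (nat_lit 209477131463) (nat_lit 0) (nat_lit 580945076826) (nat_lit 1) (nat_lit 5) (nat_lit 3) (nat_lit 4) (nat_lit 1) (nat_lit 4) (nat_lit 328) (nat_lit 207) (nat_lit 185)))) (XT.nd (nat_lit 156) (nat_lit 0) (nat_lit 0) (XT.nd (nat_lit 78) (nat_lit 0) (nat_lit 0) (XT.lf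 (nat_lit 0) (nat_lit 628946328167) (nat_lit 152) (nat_lit 225497107907) (nat_lit 0) (nat_lit 627807232396) (nat_lit 1) (nat_lit 5) (nat_lit 3) (nat_lit 4) (nat_lit 1) (nat_lit 4) (nat_lit 329) (nat_lit 207) (nat_lit 184)) (XT.lf (nat_lit 0) (nat_lit 679569415082) (nat_lit 152) (nat_lit 242812986320) (nat_lit 0) (nat_lit 678412998549) (nat_lit 1) (nat_lit 5) (nat_lit 3) (nat_lit 4) (nat_lit 1) (nat_lit 4) (nat_lit 330) (nat_lit 207) (nat_lit 183))) (XT.nd (nat_lit 78) (nat_lit 0) (nat_lit 0) (XT.lf (nat_lit 0) (nat_lit 734234715582) (nat_lit 152) (nat_lit 261527379314) (nat_lit 0) (nat_lit 733062261306) (nat_lit 1) (nat_lit 5) (nat_lit 3) (nat_lit 4) (nat_lit 1) (nat_lit 4) (nat_lit 331) (nat_lit 207) (nat_lit 182)) (XT.lf (nat_lit 0) (nat_lit 793266172189) (nat_lit 152) (nat_lit 281751186997) (nat_lit 0) (nat_lit 792078868151) (nat_lit 1) (nat_lit 5) (nat_lit 3) (nat_lit 4) (nat_lit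 1) (nat_lit 4) (nat_lit 332) (nat_lit 207) (nat_lit 181)))))) (XT.nd (nat_lit 468) (nat_lit 0) (nat_lit 0) (XT.nd (nat_lit 234) (nat_lit 0) (nat_lit 0) (XT.nd (nat_lit 78) (nat_lit 0) (nat_lit 0) (XT.lf (nat_lit 0) (nat_lit 857013600940) (nat_lit 152) (nat_lit 303604254154) (nat_lit 0) (nat_lit 855812547123) (nat_lit 1) (nat_lit 5) (nat_lit 3) (nat_lit 4) (nat_lit 1) (nat_lit 4) (nat_lit 333) (nat_lit 207) (nat_lit 180)) (XT.nd (nat_lit 78) (nat_lit 0) (nat_lit 0) (XT.lf (nat_lit 0) (nat_lit 925854764378) (nat_lit 152) (nat_lit 327216080442) (nat_lit 0) (nat_lit 924640979283) (nat_lit 1) (nat_lit 5) (nat_lit 3) (nat_lit 4) (nat_lit 1) (nat_lit 4) (nat_lit 334) (nat_lit 207) (nat_lit 179)) (XT.lf (nat_lit 0) (nat_lit 1000197610137) (nat_lit 152) (nat_lit 352726587796) (nat_lit 0) (nat_lit 998972036822) (nat_lit 1) (nat_lit 5) (nat_lit 3) (nat_lit 4) (nat_lit 1) (nat_lit 4) (nat_lit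 335) (nat_lit 207) (nat_lit 178)))) (XT.nd (nat_lit 78) (nat_lit 0) (nat_lit 0) (XT.lf (nat_lit 0) (nat_lit 1080482688414) (nat_lit 152) (nat_lit 380286949591) (nat_lit 0) (nat_lit 1079246200081) (nat_lit 1) (nat_lit 5) (nat_lit 3) (nat_lit 4) (nat_lit 1) (nat_lit 4) (nat_lit 336) (nat_lit 207) (nat_lit 177)) (XT.nd (nat_lit 78) (nat_lit 0) (nat_lit 0) (XT.lf (nat_lit 0) (nat_lit 1167185762637) (nat_lit 152) (nat_lit 410060486492) (nat_lit 0) (nat_lit 1165939167805) (nat_lit 1) (nat_lit 5) (nat_lit 3) (nat_lit 4) (nat_lit 1) (nat_lit 4) (nat_lit 337) (nat_lit 207) (nat_lit 176)) (XT.lf (nat_lit 0) (nat_lit 1260820628800) (nat_lit 152) (nat_lit 442223634271) (nat_lit 0) (nat_lit 1259564676099) (nat_lit 1) (nat_lit 5) (nat_lit 3) (nat_lit 4) (nat_lit 1) (nat_lit 4) (nat_lit 338) (nat_lit 207) (nat_lit 175))))) (XT.nd (nat_lit 234) (nat_lit 0) (nat_lit 0) (XT.nd (nat_lit 78) (nat_lit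 0) (nat_lit 0) (XT.lf (nat_lit 0) (nat_lit 1361942160185) (nat_lit 152) (nat_lit 476966989360) (nat_lit 0) (nat_lit 1360677542791) (nat_lit 1) (nat_lit 5) (nat_lit 3) (nat_lit 4) (nat_lit 1) (nat_lit 4) (nat_lit 339) (nat_lit 207) (nat_lit 174)) (XT.nd (nat_lit 78) (nat_lit 0) (nat_lit 0) (XT.lf (nat_lit 0) (nat_lit 1471149595496) (nat_lit 152) (nat_lit 514496438308) (nat_lit 0) (nat_lit 1469876955237) (nat_lit 1) (nat_lit 5) (nat_lit 3) (nat_lit 4) (nat_lit 1) (nat_lit 4) (nat_lit 340) (nat_lit 207) (nat_lit 173)) (XT.lf (nat_lit 0) (nat_lit 1589090089905) (nat_lit 152) (nat_lit 555034377849) (nat_lit 0) (nat_lit 1587810021068) (nat_lit 1) (nat_lit 5) (nat_lit 3) (nat_lit 4) (nat_lit 1) (nat_lit 4) (nat_lit 341) (nat_lit 207) (nat_lit 172)))) (XT.nd (nat_lit 156) (nat_lit 0) (nat_lit 0) (XT.nd (nat_lit 78) (nat_lit 0) (nat_lit 0) (XT.lf (nat_lit 0) (nat_lit 1716462550046) (nat_lit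 152) (nat_lit 598821032810) (nat_lit 0) (nat_lit 1715175602896) (nat_lit 1) (nat_lit 5) (nat_lit 3) (nat_lit 4) (nat_lit 1) (nat_lit 4) (nat_lit 342) (nat_lit 207) (nat_lit 171)) (XT.lf (nat_lit 0) (nat_lit 1854021775683) (nat_lit 152) (nat_lit 646115879666) (nat_lit 0) (nat_lit 1852728459724) (nat_lit 1) (nat_lit 5) (nat_lit 3) (nat_lit 4) (nat_lit 1) (nat_lit 4) (nat_lit 343) (nat_lit 207) (nat_lit 170))) (XT.nd (nat_lit 78) (nat_lit 0) (nat_lit 0) (XT.lf (nat_lit 0) (nat_lit 2002582932596) (nat_lit 152) (nat_lit 697199184174) (nat_lit 0) (nat_lit 2001283719593) (nat_lit 1) (nat_lit 5) (nat_lit 3) (nat_lit 4) (nat_lit 1) (nat_lit 4) (nat_lit 344) (nat_lit 207) (nat_lit 169)) (XT.lf (nat_lit 0) (nat_lit 2163026383198) (nat_lit 152) (nat_lit 752373662215) (nat_lit 0) (nat_lit 2161721709969) (nat_lit 1) (nat_lit 5) (nat_lit 3) (nat_lit 4) (nat_lit 1) (nat_lit 4) (nat_lit 345) (nat_lit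 207) (nat_lit 168))))))) (XT.nd (nat_lit 35178) (nat_lit 0) (nat_lit 0) (XT.nd (nat_lit 34632) (nat_lit 0) (nat_lit 0) (XT.nd (nat_lit 34398) (nat_lit 0) (nat_lit 0) (XT.nd (nat_lit 34242) (nat_lit 0) (nat_lit 0) (XT.lf (nat_lit 0) (nat_lit 2336302903493) (nat_lit 152) (nat_lit 811966273657) (nat_lit 0) (nat_lit 2334993174497) (nat_lit 1) (nat_lit 5) (nat_lit 3) (nat_lit 4) (nat_lit 1) (nat_lit 4) (nat_lit 346) (nat_lit 207) (nat_lit 167)) (XT.nd (nat_lit 78) (nat_lit 0) (nat_lit 0) (XT.lf (nat_lit 0) (nat_lit 42654180236) (nat_lit 152) (nat_lit 23239868264) (nat_lit 0) (nat_lit 42654180236) (nat_lit 1) (nat_lit 5) (nat_lit 3) (nat_lit 4) (nat_lit 1) (nat_lit 4) (nat_lit 304) (nat_lit 208) (nat_lit 208)) (XT.lf (nat_lit 0) (nat_lit 93007167599) (nat_lit 152) (nat_lit 48475624556) (nat_lit 0) (nat_lit 92897333514) (nat_lit 1) (nat_lit 5) (nat_lit 3) (nat_lit 4) (nat_lit 1) (nat_lit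 4) (nat_lit 305) (nat_lit 208) (nat_lit 207)))) (XT.nd (nat_lit 78) (nat_lit 0) (nat_lit 0) (XT.lf (nat_lit 0) (nat_lit 101273474726) (nat_lit 152) (nat_lit 50715168179) (nat_lit 0) (nat_lit 101061942414) (nat_lit 1) (nat_lit 5) (nat_lit 3) (nat_lit 4) (nat_lit 1) (nat_lit 4) (nat_lit 306) (nat_lit 208) (nat_lit 206)) (XT.nd (nat_lit 78) (nat_lit 0) (nat_lit 0) (XT.lf (nat_lit 0) (nat_lit 110156267377) (nat_lit 152) (nat_lit 53211638767) (nat_lit 0) (nat_lit 109850570040) (nat_lit 1) (nat_lit 5) (nat_lit 3) (nat_lit 4) (nat_lit 1) (nat_lit 4) (nat_lit 307) (nat_lit 208) (nat_lit 205)) (XT.lf (nat_lit 0) (nat_lit 119708184324) (nat_lit 152) (nat_lit 55979830221) (nat_lit 0) (nat_lit 119315297149) (nat_lit 1) (nat_lit 5) (nat_lit 3) (nat_lit 4) (nat_lit 1) (nat_lit 4) (nat_lit 308) (nat_lit 208) (nat_lit 204))))) (XT.nd (nat_lit 234) (nat_lit 0) (nat_lit 0) (XT.nd (nat_lit 78) (nat_lit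 0) (nat_lit 0) (XT.lf (nat_lit 0) (nat_lit 129985829519) (nat_lit 152) (nat_lit 59036146637) (nat_lit 0) (nat_lit 129512211013) (nat_lit 1) (nat_lit 5) (nat_lit 3) (nat_lit 4) (nat_lit 1) (nat_lit 4) (nat_lit 309) (nat_lit 208) (nat_lit 203)) (XT.nd (nat_lit 78) (nat_lit 0) (nat_lit 0) (XT.lf (nat_lit 0) (nat_lit 141050107526) (nat_lit 152) (nat_lit 62398699521) (nat_lit 0) (nat_lit 140501737787) (nat_lit 1) (nat_lit 5) (nat_lit 3) (nat_lit 4) (nat_lit 1) (nat_lit 4) (nat_lit 310) (nat_lit 208) (nat_lit 202)) (XT.lf (nat_lit 0) (nat_lit 152966584437) (nat_lit 152) (nat_lit 66087415112) (nat_lit 0) (nat_lit 152349000594) (nat_lit 1) (nat_lit 5) (nat_lit 3) (nat_lit 4) (nat_lit 1) (nat_lit 4) (nat_lit 311) (nat_lit 208) (nat_lit 201)))) (XT.nd (nat_lit 156) (nat_lit 0) (nat_lit 0) (XT.nd (nat_lit 78) (nat_lit 0) (nat_lit 0) (XT.lf (nat_lit 0) (nat_lit 165805876412) (nat_lit 152) (nat_lit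 70124152464) (nat_lit 0) (nat_lit 165124205435) (nat_lit 1) (nat_lit 5) (nat_lit 3) (nat_lit 4) (nat_lit 1) (nat_lit 4) (nat_lit 312) (nat_lit 208) (nat_lit 200)) (XT.lf (nat_lit 0) (nat_lit 179644068143) (nat_lit 152) (nat_lit 74532832986) (nat_lit 0) (nat_lit 178903057228) (nat_lit 1) (nat_lit 5) (nat_lit 3) (nat_lit 4) (nat_lit 1) (nat_lit 4) (nat_lit 313) (nat_lit 208) (nat_lit 199))) (XT.nd (nat_lit 78) (nat_lit 0) (nat_lit 0) (XT.lf (nat_lit 0) (nat_lit 194563163730) (nat_lit 152) (nat_lit 79339582190) (nat_lit 0) (nat_lit 193767208427) (nat_lit 1) (nat_lit 5) (nat_lit 3) (nat_lit 4) (nat_lit 1) (nat_lit 4) (nat_lit 314) (nat_lit 208) (nat_lit 198)) (XT.lf (nat_lit 0) (nat_lit 210651572629) (nat_lit 152) (nat_lit 84572884517) (nat_lit 0) (nat_lit 209804742892) (nat_lit 1) (nat_lit 5) (nat_lit 3) (nat_lit 4) (nat_lit 1) (nat_lit 4) (nat_lit 315) (nat_lit 208) (nat_lit 197))))))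 (XT.nd (nat_lit 546) (nat_lit 0) (nat_lit 0) (XT.nd (nat_lit 234) (nat_lit 0) (nat_lit 0) (XT.nd (nat_lit 78) (nat_lit 0) (nat_lit 0) (XT.lf (nat_lit 0) (nat_lit 228004633557) (nat_lit 152) (nat_lit 90263752129) (nat_lit 0) (nat_lit 227110697865) (nat_lit 1) (nat_lit 5) (nat_lit 3) (nat_lit 4) (nat_lit 1) (nat_lit 4) (nat_lit 316) (nat_lit 208) (nat_lit 196)) (XT.nd (nat_lit 78) (nat_lit 0) (nat_lit 0) (XT.lf (nat_lit 0) (nat_lit 246725179470) (nat_lit 152) (nat_lit 96445908685) (nat_lit 0) (nat_lit 245787627151) (nat_lit 1) (nat_lit 5) (nat_lit 3) (nat_lit 4) (nat_lit 1) (nat_lit 4) (nat_lit 317) (nat_lit 208) (nat_lit 195)) (XT.lf (nat_lit 0) (nat_lit 266924146936) (nat_lit 152) (nat_lit 103155989188) (nat_lit 0) (nat_lit 265946208852) (nat_lit 1) (nat_lit 5) (nat_lit 3) (nat_lit 4) (nat_lit 1) (nat_lit 4) (nat_lit 318) (nat_lit 208) (nat_lit 194)))) (XT.nd (nat_lit 156) (nat_lit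 0) (nat_lit 0) (XT.nd (nat_lit 78) (nat_lit 0) (nat_lit 0) (XT.lf (nat_lit 0) (nat_lit 288721233539) (nat_lit 152) (nat_lit 110433757076) (nat_lit 0) (nat_lit 287705901228) (nat_lit 1) (nat_lit 5) (nat_lit 3) (nat_lit 4) (nat_lit 1) (nat_lit 4) (nat_lit 319) (nat_lit 208) (nat_lit 193)) (XT.lf (nat_lit 0) (nat_lit 312245607201) (nat_lit 152) (nat_lit 118322339865) (nat_lit 0) (nat_lit 311195650605) (nat_lit 1) (nat_lit 5) (nat_lit 3) (nat_lit 4) (nat_lit 1) (nat_lit 4) (nat_lit 320) (nat_lit 208) (nat_lit 192))) (XT.nd (nat_lit 78) (nat_lit 0) (nat_lit 0) (XT.lf (nat_lit 0) (nat_lit 337636671616) (nat_lit 152) (nat_lit 126868484710) (nat_lit 0) (nat_lit 336554655498) (nat_lit 1) (nat_lit 5) (nat_lit 3) (nat_lit 4) (nat_lit 1) (nat_lit 4) (nat_lit 321) (nat_lit 208) (nat_lit 191)) (XT.lf (nat_lit 0) (nat_lit 365044892352) (nat_lit 152) (nat_lit 136122835434) (nat_lit 0) (nat_lit 363933191491)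 (nat_lit 1) (nat_lit 5) (nat_lit 3) (nat_lit 4) (nat_lit 1) (nat_lit 4) (nat_lit 322) (nat_lit 208) (nat_lit 190))))) (XT.nd (nat_lit 234) (nat_lit 0) (nat_lit 0) (XT.nd (nat_lit 78) (nat_lit 0) (nat_lit 0) (XT.lf (nat_lit 0) (nat_lit 394632688495) (nat_lit 152) (nat_lit 146140232632) (nat_lit 0) (nat_lit 393493501761) (nat_lit 1) (nat_lit 5) (nat_lit 3) (nat_lit 4) (nat_lit 1) (nat_lit 4) (nat_lit 323) (nat_lit 208) (nat_lit 189)) (XT.nd (nat_lit 78) (nat_lit 0) (nat_lit 0) (XT.lf (nat_lit 0) (nat_lit 426575395132) (nat_lit 152) (nat_lit 156980038660) (nat_lit 0) (nat_lit 425410758516) (nat_lit 1) (nat_lit 5) (nat_lit 3) (nat_lit 4) (nat_lit 1) (nat_lit 4) (nat_lit 324) (nat_lit 208) (nat_lit 188)) (XT.lf (nat_lit 0) (nat_lit 461062302378) (nat_lit 152) (nat_lit 168706489404) (nat_lit 0) (nat_lit 459874101056) (nat_lit 1) (nat_lit 5) (nat_lit 3) (nat_lit 4) (nat_lit 1) (nat_lit 4)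 (nat_lit 325) (nat_lit 208) (nat_lit 187)))) (XT.nd (nat_lit 156) (nat_lit 0) (nat_lit 0) (XT.nd (nat_lit 78) (nat_lit 0) (nat_lit 0) (XT.lf (nat_lit 0) (nat_lit 498297777091) (nat_lit 152) (nat_lit 181389074944) (nat_lit 0) (nat_lit 497087756596) (nat_lit 1) (nat_lit 5) (nat_lit 3) (nat_lit 4) (nat_lit 1) (nat_lit 4) (nat_lit 326) (nat_lit 208) (nat_lit 186)) (XT.lf (nat_lit 0) (nat_lit 538502473934) (nat_lit 152) (nat_lit 195102951340) (nat_lit 0) (nat_lit 537272250502) (nat_lit 1) (nat_lit 5) (nat_lit 3) (nat_lit 4) (nat_lit 1) (nat_lit 4) (nat_lit 327) (nat_lit 208) (nat_lit 185))) (XT.nd (nat_lit 78) (nat_lit 0) (nat_lit 0) (XT.lf (nat_lit 0) (nat_lit 581914642963) (nat_lit 152) (nat_lit 209929386010) (nat_lit 0) (nat_lit 580665713108) (nat_lit 1) (nat_lit 5) (nat_lit 3) (nat_lit 4) (nat_lit 1) (nat_lit 4) (nat_lit 328) (nat_lit 208) (nat_lit 184)) (XT.lf (nat_lit 0) (nat_lit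 628791541477) (nat_lit 152) (nat_lit 225956239307) (nat_lit 0) (nat_lit 627525290859) (nat_lit 1) (nat_lit 5) (nat_lit 3) (nat_lit 4) (nat_lit 1) (nat_lit 4) (nat_lit 329) (nat_lit 208) (nat_lit 183))))))))
noncomputable def xc9 : XT := (XT.nd (nat_lit 36114) (nat_lit 0) (nat_lit 0) (XT.nd (nat_lit 1014) (nat_lit 0) (nat_lit 0) (XT.nd (nat_lit 468) (nat_lit 0) (nat_lit 0) (XT.nd (nat_lit 234) (nat_lit 0) (nat_lit 0) (XT.nd (nat_lit 78) (nat_lit 0) (nat_lit 0) (XT.lf (nat_lit 0) (nat_lit 679410958504) (nat_lit 152) (nat_lit 243278485176) (nat_lit 0) (nat_lit 678128670143) (nat_lit 1) (nat_lit 5) (nat_lit 3) (nat_lit 4) (nat_lit 1) (nat_lit 4) (nat_lit 330) (nat_lit 208) (nat_lit 182)) (XT.nd (nat_lit 78) (nat_lit 0) (nat_lit 0) (XT.lf (nat_lit 0) (nat_lit 734072860959) (nat_lit 152) (nat_lit 261998773963) (nat_lit 0) (nat_lit 732775722836) (nat_lit 1) (nat_lit 5) (nat_lit 3) (nat_lit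 4) (nat_lit 1) (nat_lit 4) (nat_lit 331) (nat_lit 208) (nat_lit 181)) (XT.lf (nat_lit 0) (nat_lit 793101171227) (nat_lit 152) (nat_lit 282228040712) (nat_lit 0) (nat_lit 791790283325) (nat_lit 1) (nat_lit 5) (nat_lit 3) (nat_lit 4) (nat_lit 1) (nat_lit 4) (nat_lit 332) (nat_lit 208) (nat_lit 180)))) (XT.nd (nat_lit 78) (nat_lit 0) (nat_lit 0) (XT.lf (nat_lit 0) (nat_lit 856845686703) (nat_lit 152) (nat_lit 304086162561) (nat_lit 0) (nat_lit 855522067523) (nat_lit 1) (nat_lit 5) (nat_lit 3) (nat_lit 4) (nat_lit 1) (nat_lit 4) (nat_lit 333) (nat_lit 208) (nat_lit 179)) (XT.nd (nat_lit 78) (nat_lit 0) (nat_lit 0) (XT.lf (nat_lit 0) (nat_lit 925684152663) (nat_lit 152) (nat_lit 327702669120) (nat_lit 0) (nat_lit 924348745263) (nat_lit 1) (nat_lit 5) (nat_lit 3) (nat_lit 4) (nat_lit 1) (nat_lit 4) (nat_lit 334) (nat_lit 208) (nat_lit 178)) (XT.lf (nat_lit 0) (nat_lit 1000024500757) (nat_lit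 152) (nat_lit 353217510057) (nat_lit 0) (nat_lit 998678178339) (nat_lit 1) (nat_lit 5) (nat_lit 3) (nat_lit 4) (nat_lit 1) (nat_lit 4) (nat_lit 335) (nat_lit 208) (nat_lit 177))))) (XT.nd (nat_lit 234) (nat_lit 0) (nat_lit 0) (XT.nd (nat_lit 78) (nat_lit 0) (nat_lit 0) (XT.lf (nat_lit 0) (nat_lit 1080307266382) (nat_lit 152) (nat_lit 380781884430) (nat_lit 0) (nat_lit 1078950837465) (nat_lit 1) (nat_lit 5) (nat_lit 3) (nat_lit 4) (nat_lit 1) (nat_lit 4) (nat_lit 336) (nat_lit 208) (nat_lit 176)) (XT.nd (nat_lit 78) (nat_lit 0) (nat_lit 0) (XT.lf (nat_lit 0) (nat_lit 1167008199260) (nat_lit 152) (nat_lit 410559136679) (nat_lit 0) (nat_lit 1165642412474) (nat_lit 1) (nat_lit 5) (nat_lit 3) (nat_lit 4) (nat_lit 1) (nat_lit 4) (nat_lit 337) (nat_lit 208) (nat_lit 175)) (XT.lf (nat_lit 0) (nat_lit 1260641082697) (nat_lit 152) (nat_lit 442725724597) (nat_lit 0) (nat_lit 1259266631217) (nat_lit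 1) (nat_lit 5) (nat_lit 3) (nat_lit 4) (nat_lit 1) (nat_lit 4) (nat_lit 338) (nat_lit 208) (nat_lit 174)))) (XT.nd (nat_lit 156) (nat_lit 0) (nat_lit 0) (XT.nd (nat_lit 78) (nat_lit 0) (nat_lit 0) (XT.lf (nat_lit 0) (nat_lit 1361760778223) (nat_lit 152) (nat_lit 477472264999) (nat_lit 0) (nat_lit 1360378303880) (nat_lit 1) (nat_lit 5) (nat_lit 3) (nat_lit 4) (nat_lit 1) (nat_lit 4) (nat_lit 339) (nat_lit 208) (nat_lit 173)) (XT.lf (nat_lit 0) (nat_lit 1470966513666) (nat_lit 152) (nat_lit 515004663311) (nat_lit 0) (nat_lit 1469576610744) (nat_lit 1) (nat_lit 5) (nat_lit 3) (nat_lit 4) (nat_lit 1) (nat_lit 4) (nat_lit 340) (nat_lit 208) (nat_lit 172))) (XT.nd (nat_lit 78) (nat_lit 0) (nat_lit 0) (XT.lf (nat_lit 0) (nat_lit 1588905434122) (nat_lit 152) (nat_lit 555545333745) (nat_lit 0) (nat_lit 1587508652887) (nat_lit 1) (nat_lit 5) (nat_lit 3) (nat_lit 4) (nat_lit 1) (nat_lit 4) (nat_lit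 341) (nat_lit 208) (nat_lit 171)) (XT.lf (nat_lit 0) (nat_lit 1716276436900) (nat_lit 152) (nat_lit 599334517311) (nat_lit 0) (nat_lit 1714873286857) (nat_lit 1) (nat_lit 5) (nat_lit 3) (nat_lit 4) (nat_lit 1) (nat_lit 4) (nat_lit 342) (nat_lit 208) (nat_lit 170)))))) (XT.nd (nat_lit 34554) (nat_lit 0) (nat_lit 0) (XT.nd (nat_lit 234) (nat_lit 0) (nat_lit 0) (XT.nd (nat_lit 78) (nat_lit 0) (nat_lit 0) (XT.lf (nat_lit 0) (nat_lit 1853834313126) (nat_lit 152) (nat_lit 646631705467) (nat_lit 0) (nat_lit 1852425266038) (nat_lit 1) (nat_lit 5) (nat_lit 3) (nat_lit 4) (nat_lit 1) (nat_lit 4) (nat_lit 343) (nat_lit 208) (nat_lit 169)) (XT.nd (nat_lit 78) (nat_lit 0) (nat_lit 0) (XT.lf (nat_lit 0) (nat_lit 2002394220586) (nat_lit 152) (nat_lit 697717177846) (nat_lit 0) (nat_lit 2000979713271) (nat_lit 1) (nat_lit 5) (nat_lit 3) (nat_lit 4) (nat_lit 1) (nat_lit 4) (nat_lit 344) (nat_lit 208)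 (nat_lit 168)) (XT.lf (nat_lit 0) (nat_lit 2162836514286) (nat_lit 152) (nat_lit 752893663174) (nat_lit 0) (nat_lit 2161416951206) (nat_lit 1) (nat_lit 5) (nat_lit 3) (nat_lit 4) (nat_lit 1) (nat_lit 4) (nat_lit 345) (nat_lit 208) (nat_lit 167)))) (XT.nd (nat_lit 34164) (nat_lit 0) (nat_lit 0) (XT.nd (nat_lit 34086) (nat_lit 0) (nat_lit 0) (XT.lf (nat_lit 0) (nat_lit 2336111963375) (nat_lit 152) (nat_lit 812488133216) (nat_lit 0) (nat_lit 2334687719030) (nat_lit 1) (nat_lit 5) (nat_lit 3) (nat_lit 4) (nat_lit 1) (nat_lit 4) (nat_lit 346) (nat_lit 208) (nat_lit 166)) (XT.lf (nat_lit 0) (nat_lit 35789806596) (nat_lit 152) (nat_lit 21562947583) (nat_lit 0) (nat_lit 35789806596) (nat_lit 1) (nat_lit 5) (nat_lit 3) (nat_lit 4) (nat_lit 1) (nat_lit 4) (nat_lit 302) (nat_lit 209) (nat_lit 209))) (XT.nd (nat_lit 78) (nat_lit 0) (nat_lit 0) (XT.lf (nat_lit 0) (nat_lit 78250051599) (nat_lit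 152) (nat_lit 44715676613) (nat_lit 0) (nat_lit 78131430787) (nat_lit 1) (nat_lit 5) (nat_lit 3) (nat_lit 4) (nat_lit 1) (nat_lit 4) (nat_lit 303) (nat_lit 209) (nat_lit 208)) (XT.lf (nat_lit 0) (nat_lit 85401848143) (nat_lit 152) (nat_lit 46523343893) (nat_lit 0) (nat_lit 85173393246) (nat_lit 1) (nat_lit 5) (nat_lit 3) (nat_lit 4) (nat_lit 1) (nat_lit 4) (nat_lit 304) (nat_lit 209) (nat_lit 207))))) (XT.nd (nat_lit 234) (nat_lit 0) (nat_lit 0) (XT.nd (nat_lit 78) (nat_lit 0) (nat_lit 0) (XT.lf (nat_lit 0) (nat_lit 93077383842) (nat_lit 152) (nat_lit 48559609109) (nat_lit 0) (nat_lit 92747230718) (nat_lit 1) (nat_lit 5) (nat_lit 3) (nat_lit 4) (nat_lit 1) (nat_lit 4) (nat_lit 305) (nat_lit 209) (nat_lit 206)) (XT.nd (nat_lit 78) (nat_lit 0) (nat_lit 0) (XT.lf (nat_lit 0) (nat_lit 101322143350) (nat_lit 152) (nat_lit 50836539019) (nat_lit 0) (nat_lit 100897825202) (nat_lit 1) (nat_lit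 5) (nat_lit 3) (nat_lit 4) (nat_lit 1) (nat_lit 4) (nat_lit 306) (nat_lit 209) (nat_lit 205)) (XT.lf (nat_lit 0) (nat_lit 110184984503) (nat_lit 152) (nat_lit 53367626539) (nat_lit 0) (nat_lit 109673476517) (nat_lit 1) (nat_lit 5) (nat_lit 3) (nat_lit 4) (nat_lit 1) (nat_lit 4) (nat_lit 307) (nat_lit 209) (nat_lit 204)))) (XT.nd (nat_lit 156) (nat_lit 0) (nat_lit 0) (XT.nd (nat_lit 78) (nat_lit 0) (nat_lit 0) (XT.lf (nat_lit 0) (nat_lit 119718427841) (nat_lit 152) (nat_lit 56167870707) (nat_lit 0) (nat_lit 119126188523) (nat_lit 1) (nat_lit 5) (nat_lit 3) (nat_lit 4) (nat_lit 1) (nat_lit 4) (nat_lit 308) (nat_lit 209) (nat_lit 203)) (XT.lf (nat_lit 0) (nat_lit 129978967842) (nat_lit 152) (nat_lit 59253865563) (nat_lit 0) (nat_lit 129311977291) (nat_lit 1) (nat_lit 5) (nat_lit 3) (nat_lit 4) (nat_lit 1) (nat_lit 4) (nat_lit 309) (nat_lit 209) (nat_lit 202))) (XT.nd (nat_lit 78) (nat_lit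 0) (nat_lit 0) (XT.lf (nat_lit 0) (nat_lit 141027407706) (nat_lit 152) (nat_lit 62643898484) (nat_lit 0) (nat_lit 140291203051) (nat_lit 1) (nat_lit 5) (nat_lit 3) (nat_lit 4) (nat_lit 1) (nat_lit 4) (nat_lit 310) (nat_lit 209) (nat_lit 201)) (XT.lf (nat_lit 0) (nat_lit 152929219671) (nat_lit 152) (nat_lit 66358058553) (nat_lit 0) (nat_lit 152128927882) (nat_lit 1) (nat_lit 5) (nat_lit 3) (nat_lit 4) (nat_lit 1) (nat_lit 4) (nat_lit 311) (nat_lit 209) (nat_lit 200))))))) (XT.nd (nat_lit 1014) (nat_lit 0) (nat_lit 0) (XT.nd (nat_lit 468) (nat_lit 0) (nat_lit 0) (XT.nd (nat_lit 234) (nat_lit 0) (nat_lit 0) (XT.nd (nat_lit 78) (nat_lit 0) (nat_lit 0) (XT.lf (nat_lit 0) (nat_lit 165754932991) (nat_lit 152) (nat_lit 70418355608) (nat_lit 0) (nat_lit 164895301263) (nat_lit 1) (nat_lit 5) (nat_lit 3) (nat_lit 4) (nat_lit 1) (nat_lit 4) (nat_lit 312) (nat_lit 209) (nat_lit 199)) (XT.nd (nat_lit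 78) (nat_lit 0) (nat_lit 0) (XT.lf (nat_lit 0) (nat_lit 179580551894) (nat_lit 152) (nat_lit 74848850668) (nat_lit 0) (nat_lit 178665975779) (nat_lit 1) (nat_lit 5) (nat_lit 3) (nat_lit 4) (nat_lit 1) (nat_lit 4) (nat_lit 313) (nat_lit 209) (nat_lit 198)) (XT.lf (nat_lit 0) (nat_lit 194488005973) (nat_lit 152) (nat_lit 79675798520) (nat_lit 0) (nat_lit 193522555425) (nat_lit 1) (nat_lit 5) (nat_lit 3) (nat_lit 4) (nat_lit 1) (nat_lit 4) (nat_lit 314) (nat_lit 209) (nat_lit 197)))) (XT.nd (nat_lit 78) (nat_lit 0) (nat_lit 0) (XT.lf (nat_lit 0) (nat_lit 210565635698) (nat_lit 152) (nat_lit 84927803298) (nat_lit 0) (nat_lit 209553079193) (nat_lit 1) (nat_lit 5) (nat_lit 3) (nat_lit 4) (nat_lit 1) (nat_lit 4) (nat_lit 315) (nat_lit 209) (nat_lit 196)) (XT.nd (nat_lit 78) (nat_lit 0) (nat_lit 0) (XT.lf (nat_lit 0) (nat_lit 227908715910) (nat_lit 152) (nat_lit 90635987994) (nat_lit 0) (nat_lit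 226852542779) (nat_lit 1) (nat_lit 5) (nat_lit 3) (nat_lit 4) (nat_lit 1) (nat_lit 4) (nat_lit 316) (nat_lit 209) (nat_lit 195)) (XT.lf (nat_lit 0) (nat_lit 246620020419) (nat_lit 152) (nat_lit 96834178888) (nat_lit 0) (nat_lit 245523461523) (nat_lit 1) (nat_lit 5) (nat_lit 3) (nat_lit 4) (nat_lit 1) (nat_lit 4) (nat_lit 317) (nat_lit 209) (nat_lit 194))))) (XT.nd (nat_lit 234) (nat_lit 0) (nat_lit 0) (XT.nd (nat_lit 78) (nat_lit 0) (nat_lit 0) (XT.lf (nat_lit 0) (nat_lit 266810431029) (nat_lit 152) (nat_lit 103559105999) (nat_lit 0) (nat_lit 265676477906) (nat_lit 1) (nat_lit 5) (nat_lit 3) (nat_lit 4) (nat_lit 1) (nat_lit 4) (nat_lit 318) (nat_lit 209) (nat_lit 193)) (XT.nd (nat_lit 78) (nat_lit 0) (nat_lit 0) (XT.lf (nat_lit 0) (nat_lit 288599594618) (nat_lit 152) (nat_lit 110850620747) (nat_lit 0) (nat_lit 287431017211) (nat_lit 1) (nat_lit 5) (nat_lit 3) (nat_lit 4) (nat_lit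 1) (nat_lit 4) (nat_lit 319) (nat_lit 209) (nat_lit 192)) (XT.lf (nat_lit 0) (nat_lit 312116632155) (nat_lit 152) (nat_lit 118751932110) (nat_lit 0) (nat_lit 310915995225) (nat_lit 1) (nat_lit 5) (nat_lit 3) (nat_lit 4) (nat_lit 1) (nat_lit 4) (nat_lit 320) (nat_lit 209) (nat_lit 191)))) (XT.nd (nat_lit 156) (nat_lit 0) (nat_lit 0) (XT.nd (nat_lit 78) (nat_lit 0) (nat_lit 0) (XT.lf (nat_lit 0) (nat_lit 337500903862) (nat_lit 152) (nat_lit 127309862672) (nat_lit 0) (nat_lit 336270582189) (nat_lit 1) (nat_lit 5) (nat_lit 3) (nat_lit 4) (nat_lit 1) (nat_lit 4) (nat_lit 321) (nat_lit 209) (nat_lit 190)) (XT.lf (nat_lit 0) (nat_lit 364902835054) (nat_lit 152) (nat_lit 136575126096) (nat_lit 0) (nat_lit 363645027508) (nat_lit 1) (nat_lit 5) (nat_lit 3) (nat_lit 4) (nat_lit 1) (nat_lit 4) (nat_lit 322) (nat_lit 209) (nat_lit 189))) (XT.nd (nat_lit 78) (nat_lit 0) (nat_lit 0) (XT.lf (nat_lit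 0) (nat_lit 394484807544) (nat_lit 152) (nat_lit 146602627647) (nat_lit 0) (nat_lit 393201550116) (nat_lit 1) (nat_lit 5) (nat_lit 3) (nat_lit 4) (nat_lit 1) (nat_lit 4) (nat_lit 323) (nat_lit 209) (nat_lit 188)) (XT.lf (nat_lit 0) (nat_lit 426422121912) (nat_lit 152) (nat_lit 157451789557) (nat_lit 0) (nat_lit 425115299777) (nat_lit 1) (nat_lit 5) (nat_lit 3) (nat_lit 4) (nat_lit 1) (nat_lit 4) (nat_lit 324) (nat_lit 209) (nat_lit 187)))))) (XT.nd (nat_lit 546) (nat_lit 0) (nat_lit 0) (XT.nd (nat_lit 234) (nat_lit 0) (nat_lit 0) (XT.nd (nat_lit 78) (nat_lit 0) (nat_lit 0) (XT.lf (nat_lit 0) (nat_lit 460904036315) (nat_lit 152) (nat_lit 169186903155) (nat_lit 0) (nat_lit 459575395008) (nat_lit 1) (nat_lit 5) (nat_lit 3) (nat_lit 4) (nat_lit 1) (nat_lit 4) (nat_lit 325) (nat_lit 209) (nat_lit 186)) (XT.nd (nat_lit 78) (nat_lit 0) (nat_lit 0) (XT.lf (nat_lit 0) (nat_lit 498134888024)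 (nat_lit 152) (nat_lit 181877509855) (nat_lit 0) (nat_lit 496786043780) (nat_lit 1) (nat_lit 5) (nat_lit 3) (nat_lit 4) (nat_lit 1) (nat_lit 4) (nat_lit 326) (nat_lit 209) (nat_lit 185)) (XT.lf (nat_lit 0) (nat_lit 538335304309) (nat_lit 152) (nat_lit 195598813252) (nat_lit 0) (nat_lit 536967753641) (nat_lit 1) (nat_lit 5) (nat_lit 3) (nat_lit 4) (nat_lit 1) (nat_lit 4) (nat_lit 327) (nat_lit 209) (nat_lit 184)))) (XT.nd (nat_lit 156) (nat_lit 0) (nat_lit 0) (XT.nd (nat_lit 78) (nat_lit 0) (nat_lit 0) (XT.lf (nat_lit 0) (nat_lit 581743509859) (nat_lit 152) (nat_lit 210432124774) (nat_lit 0) (nat_lit 580358638429) (nat_lit 1) (nat_lit 5) (nat_lit 3) (nat_lit 4) (nat_lit 1) (nat_lit 4) (nat_lit 328) (nat_lit 209) (nat_lit 183)) (XT.lf (nat_lit 0) (nat_lit 628616738484) (nat_lit 152) (nat_lit 226465345527) (nat_lit 0) (nat_lit 627215829311) (nat_lit 1) (nat_lit 5) (nat_lit 3) (nat_lit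 4) (nat_lit 1) (nat_lit 4) (nat_lit 329) (nat_lit 209) (nat_lit 182))) (XT.nd (nat_lit 78) (nat_lit 0) (nat_lit 0) (XT.lf (nat_lit 0) (nat_lit 679232757466) (nat_lit 152) (nat_lit 243793487188) (nat_lit 0) (nat_lit 677816998531) (nat_lit 1) (nat_lit 5) (nat_lit 3) (nat_lit 4) (nat_lit 1) (nat_lit 4) (nat_lit 330) (nat_lit 209) (nat_lit 181)) (XT.lf (nat_lit 0) (nat_lit 733891513583) (nat_lit 152) (nat_lit 262519235042) (nat_lit 0) (nat_lit 732462004868) (nat_lit 1) (nat_lit 5) (nat_lit 3) (nat_lit 4) (nat_lit 1) (nat_lit 4) (nat_lit 331) (nat_lit 209) (nat_lit 180))))) (XT.nd (nat_lit 234) (nat_lit 0) (nat_lit 0) (XT.nd (nat_lit 78) (nat_lit 0) (nat_lit 0) (XT.lf (nat_lit 0) (nat_lit 792916910575) (nat_lit 152) (nat_lit 282753556484) (nat_lit 0) (nat_lit 791474670583) (nat_lit 1) (nat_lit 5) (nat_lit 3) (nat_lit 4) (nat_lit 1) (nat_lit 4) (nat_lit 332) (nat_lit 209) (nat_lit 179))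 (XT.nd (nat_lit 78) (nat_lit 0) (nat_lit 0) (XT.lf (nat_lit 0) (nat_lit 856658728573) (nat_lit 152) (nat_lit 304616358603) (nat_lit 0) (nat_lit 855204700361) (nat_lit 1) (nat_lit 5) (nat_lit 3) (nat_lit 4) (nat_lit 1) (nat_lit 4) (nat_lit 333) (nat_lit 209) (nat_lit 178)) (XT.lf (nat_lit 0) (nat_lit 925494696868) (nat_lit 152) (nat_lit 328237198745) (nat_lit 0) (nat_lit 924029753638) (nat_lit 1) (nat_lit 5) (nat_lit 3) (nat_lit 4) (nat_lit 1) (nat_lit 4) (nat_lit 334) (nat_lit 209) (nat_lit 177)))) (XT.nd (nat_lit 156) (nat_lit 0) (nat_lit 0) (XT.nd (nat_lit 78) (nat_lit 0) (nat_lit 0) (XT.lf (nat_lit 0) (nat_lit 999832732310) (nat_lit 152) (nat_lit 353756052260) (nat_lit 0) (nat_lit 998357682581) (nat_lit 1) (nat_lit 5) (nat_lit 3) (nat_lit 4) (nat_lit 1) (nat_lit 4) (nat_lit 335) (nat_lit 209) (nat_lit 176)) (XT.lf (nat_lit 0) (nat_lit 1080113356590) (nat_lit 152) (nat_lit 381324141982)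 (nat_lit 0) (nat_lit 1078628948993) (nat_lit 1) (nat_lit 5) (nat_lit 3) (nat_lit 4) (nat_lit 1) (nat_lit 4) (nat_lit 336) (nat_lit 209) (nat_lit 175))) (XT.nd (nat_lit 78) (nat_lit 0) (nat_lit 0) (XT.lf (nat_lit 0) (nat_lit 1166812306742) (nat_lit 152) (nat_lit 411104834370) (nat_lit 0) (nat_lit 1165319234450) (nat_lit 1) (nat_lit 5) (nat_lit 3) (nat_lit 4) (nat_lit 1) (nat_lit 4) (nat_lit 337) (nat_lit 209) (nat_lit 174)) (XT.lf (nat_lit 0) (nat_lit 1260443354320) (nat_lit 152) (nat_lit 443274607601) (nat_lit 0) (nat_lit 1258942259164) (nat_lit 1) (nat_lit 5) (nat_lit 3) (nat_lit 4) (nat_lit 1) (nat_lit 4) (nat_lit 338) (nat_lit 209) (nat_lit 173))))))))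
noncomputable def xc10 : XT := (XT.nd (nat_lit 35958) (nat_lit 0) (nat_lit 0) (XT.nd (nat_lit 34866) (nat_lit 0) (nat_lit 0) (XT.nd (nat_lit 468) (nat_lit 0) (nat_lit 0) (XT.nd (nat_lit 234) (nat_lit 0) (nat_lit 0) (XT.nd (nat_lit 78) (nat_lit 0) (nat_lit 0) (XT.lf (nat_lit 0) (nat_lit 1361561349978) (nat_lit 152) (nat_lit 478024097367) (nat_lit 0) (nat_lit 1360052826244) (nat_lit 1) (nat_lit 5) (nat_lit 3) (nat_lit 4) (nat_lit 1) (nat_lit 4) (nat_lit 339) (nat_lit 209) (nat_lit 172)) (XT.nd (nat_lit 78) (nat_lit 0) (nat_lit 0) (XT.lf (nat_lit 0) (nat_lit 1470765511468) (nat_lit 152) (nat_lit 515559226572) (nat_lit 0) (nat_lit 1469250109421) (nat_lit 1) (nat_lit 5) (nat_lit 3) (nat_lit 4) (nat_lit 1) (nat_lit 4) (nat_lit 340) (nat_lit 209) (nat_lit 171)) (XT.lf (nat_lit 0) (nat_lit 1588702974562) (nat_lit 152) (nat_lit 556102425610) (nat_lit 0) (nat_lit 1587181203706) (nat_lit 1)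 (nat_lit 5) (nat_lit 3) (nat_lit 4) (nat_lit 1) (nat_lit 4) (nat_lit 341) (nat_lit 209) (nat_lit 170)))) (XT.nd (nat_lit 78) (nat_lit 0) (nat_lit 0) (XT.lf (nat_lit 0) (nat_lit 1716072627929) (nat_lit 152) (nat_lit 599893950477) (nat_lit 0) (nat_lit 1714544960029) (nat_lit 1) (nat_lit 5) (nat_lit 3) (nat_lit 4) (nat_lit 1) (nat_lit 4) (nat_lit 342) (nat_lit 209) (nat_lit 169)) (XT.nd (nat_lit 78) (nat_lit 0) (nat_lit 0) (XT.lf (nat_lit 0) (nat_lit 1853629254701) (nat_lit 152) (nat_lit 647193306503) (nat_lit 0) (nat_lit 1852096126574) (nat_lit 1) (nat_lit 5) (nat_lit 3) (nat_lit 4) (nat_lit 1) (nat_lit 4) (nat_lit 343) (nat_lit 209) (nat_lit 168)) (XT.lf (nat_lit 0) (nat_lit 2002188005258) (nat_lit 152) (nat_lit 698280786170) (nat_lit 0) (nat_lit 2000649821366) (nat_lit 1) (nat_lit 5) (nat_lit 3) (nat_lit 4) (nat_lit 1) (nat_lit 4) (nat_lit 344) (nat_lit 209) (nat_lit 167))))) (XT.nd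 (nat_lit 34086) (nat_lit 0) (nat_lit 0) (XT.nd (nat_lit 78) (nat_lit 0) (nat_lit 0) (XT.lf (nat_lit 0) (nat_lit 2162629227753) (nat_lit 152) (nat_lit 753459130098) (nat_lit 0) (nat_lit 2161086362597) (nat_lit 1) (nat_lit 5) (nat_lit 3) (nat_lit 4) (nat_lit 1) (nat_lit 4) (nat_lit 345) (nat_lit 209) (nat_lit 166)) (XT.nd (nat_lit 33930) (nat_lit 0) (nat_lit 0) (XT.lf (nat_lit 0) (nat_lit 2335903684985) (nat_lit 152) (nat_lit 813055321065) (nat_lit 0) (nat_lit 2334356485324) (nat_lit 1) (nat_lit 5) (nat_lit 3) (nat_lit 4) (nat_lit 1) (nat_lit 4) (nat_lit 346) (nat_lit 209) (nat_lit 165)) (XT.lf (nat_lit 0) (nat_lit 29842370359) (nat_lit 152) (nat_lit 20256338892) (nat_lit 0) (nat_lit 29842370359) (nat_lit 1) (nat_lit 5) (nat_lit 3) (nat_lit 4) (nat_lit 1) (nat_lit 4) (nat_lit 300) (nat_lit 210) (nat_lit 210)))) (XT.nd (nat_lit 156) (nat_lit 0) (nat_lit 0) (XT.nd (nat_lit 78) (nat_lit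 0) (nat_lit 0) (XT.lf (nat_lit 0) (nat_lit 65479114876) (nat_lit 152) (nat_lit 41744578627) (nat_lit 0) (nat_lit 65351004399) (nat_lit 1) (nat_lit 5) (nat_lit 3) (nat_lit 4) (nat_lit 1) (nat_lit 4) (nat_lit 301) (nat_lit 210) (nat_lit 209)) (XT.lf (nat_lit 0) (nat_lit 71680579876) (nat_lit 152) (nat_lit 43172991120) (nat_lit 0) (nat_lit 71433848587) (nat_lit 1) (nat_lit 5) (nat_lit 3) (nat_lit 4) (nat_lit 1) (nat_lit 4) (nat_lit 302) (nat_lit 210) (nat_lit 208))) (XT.nd (nat_lit 78) (nat_lit 0) (nat_lit 0) (XT.lf (nat_lit 0) (nat_lit 78325885141) (nat_lit 152) (nat_lit 44806379931) (nat_lit 0) (nat_lit 77969319767) (nat_lit 1) (nat_lit 5) (nat_lit 3) (nat_lit 4) (nat_lit 1) (nat_lit 4) (nat_lit 303) (nat_lit 210) (nat_lit 207)) (XT.lf (nat_lit 0) (nat_lit 85454410258) (nat_lit 152) (nat_lit 46654424401) (nat_lit 0) (nat_lit 84996146657) (nat_lit 1) (nat_lit 5) (nat_lit 3) (nat_lit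 4) (nat_lit 1) (nat_lit 4) (nat_lit 304) (nat_lit 210) (nat_lit 206)))))) (XT.nd (nat_lit 546) (nat_lit 0) (nat_lit 0) (XT.nd (nat_lit 234) (nat_lit 0) (nat_lit 0) (XT.nd (nat_lit 78) (nat_lit 0) (nat_lit 0) (XT.lf (nat_lit 0) (nat_lit 93108398338) (nat_lit 152) (nat_lit 48728075903) (nat_lit 0) (nat_lit 92555969712) (nat_lit 1) (nat_lit 5) (nat_lit 3) (nat_lit 4) (nat_lit 1) (nat_lit 4) (nat_lit 305) (nat_lit 210) (nat_lit 205)) (XT.nd (nat_lit 78) (nat_lit 0) (nat_lit 0) (XT.lf (nat_lit 0) (nat_lit 101333206348) (nat_lit 152) (nat_lit 51039622744) (nat_lit 0) (nat_lit 100693587885) (nat_lit 1) (nat_lit 5) (nat_lit 3) (nat_lit 4) (nat_lit 1) (nat_lit 4) (nat_lit 306) (nat_lit 210) (nat_lit 204)) (XT.lf (nat_lit 0) (nat_lit 110177573892) (nat_lit 152) (nat_lit 53602762979) (nat_lit 0) (nat_lit 109457224097) (nat_lit 1) (nat_lit 5) (nat_lit 3) (nat_lit 4) (nat_lit 1) (nat_lit 4) (nat_lit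 307) (nat_lit 210) (nat_lit 203)))) (XT.nd (nat_lit 156) (nat_lit 0) (nat_lit 0) (XT.nd (nat_lit 78) (nat_lit 0) (nat_lit 0) (XT.lf (nat_lit 0) (nat_lit 119693912035) (nat_lit 152) (nat_lit 56432685587) (nat_lit 0) (nat_lit 118898811008) (nat_lit 1) (nat_lit 5) (nat_lit 3) (nat_lit 4) (nat_lit 1) (nat_lit 4) (nat_lit 308) (nat_lit 210) (nat_lit 202)) (XT.lf (nat_lit 0) (nat_lit 129938613894) (nat_lit 152) (nat_lit 59546160479) (nat_lit 0) (nat_lit 129074298762) (nat_lit 1) (nat_lit 5) (nat_lit 3) (nat_lit 4) (nat_lit 1) (nat_lit 4) (nat_lit 309) (nat_lit 210) (nat_lit 201))) (XT.nd (nat_lit 78) (nat_lit 0) (nat_lit 0) (XT.lf (nat_lit 0) (nat_lit 140972388811) (nat_lit 152) (nat_lit 62961637878) (nat_lit 0) (nat_lit 140043986546) (nat_lit 1) (nat_lit 5) (nat_lit 3) (nat_lit 4) (nat_lit 1) (nat_lit 4) (nat_lit 310) (nat_lit 210) (nat_lit 200)) (XT.lf (nat_lit 0) (nat_lit 152860622121)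 (nat_lit 152) (nat_lit 66699357649) (nat_lit 0) (nat_lit 151872879917) (nat_lit 1) (nat_lit 5) (nat_lit 3) (nat_lit 4) (nat_lit 1) (nat_lit 4) (nat_lit 311) (nat_lit 210) (nat_lit 199))))) (XT.nd (nat_lit 234) (nat_lit 0) (nat_lit 0) (XT.nd (nat_lit 78) (nat_lit 0) (nat_lit 0) (XT.lf (nat_lit 0) (nat_lit 165673762613) (nat_lit 152) (nat_lit 70781469243) (nat_lit 0) (nat_lit 164631076021) (nat_lit 1) (nat_lit 5) (nat_lit 3) (nat_lit 4) (nat_lit 1) (nat_lit 4) (nat_lit 312) (nat_lit 210) (nat_lit 198)) (XT.nd (nat_lit 78) (nat_lit 0) (nat_lit 0) (XT.lf (nat_lit 0) (nat_lit 179487740009) (nat_lit 152) (nat_lit 75232162951) (nat_lit 0) (nat_lit 178394178984) (nat_lit 1) (nat_lit 5) (nat_lit 3) (nat_lit 4) (nat_lit 1) (nat_lit 4) (nat_lit 313) (nat_lit 210) (nat_lit 197)) (XT.lf (nat_lit 0) (nat_lit 194384414915) (nat_lit 152) (nat_lit 80077813254) (nat_lit 0) (nat_lit 193243747933) (nat_lit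 1) (nat_lit 5) (nat_lit 3) (nat_lit 4) (nat_lit 1) (nat_lit 4) (nat_lit 314) (nat_lit 210) (nat_lit 196)))) (XT.nd (nat_lit 156) (nat_lit 0) (nat_lit 0) (XT.nd (nat_lit 78) (nat_lit 0) (nat_lit 0) (XT.lf (nat_lit 0) (nat_lit 210452063923) (nat_lit 152) (nat_lit 85347135117) (nat_lit 0) (nat_lit 209267780315) (nat_lit 1) (nat_lit 5) (nat_lit 3) (nat_lit 4) (nat_lit 1) (nat_lit 4) (nat_lit 315) (nat_lit 210) (nat_lit 195)) (XT.lf (nat_lit 0) (nat_lit 227785902731) (nat_lit 152) (nat_lit 91071354150) (nat_lit 0) (nat_lit 226561233358) (nat_lit 1) (nat_lit 5) (nat_lit 3) (nat_lit 4) (nat_lit 1) (nat_lit 4) (nat_lit 316) (nat_lit 210) (nat_lit 194))) (XT.nd (nat_lit 78) (nat_lit 0) (nat_lit 0) (XT.lf (nat_lit 0) (nat_lit 246488650384) (nat_lit 152) (nat_lit 97284391652) (nat_lit 0) (nat_lit 245226586784) (nat_lit 1) (nat_lit 5) (nat_lit 3) (nat_lit 4) (nat_lit 1) (nat_lit 4) (nat_lit 317)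 (nat_lit 210) (nat_lit 193)) (XT.lf (nat_lit 0) (nat_lit 266671137980) (nat_lit 152) (nat_lit 104023065623) (nat_lit 0) (nat_lit 265374450096) (nat_lit 1) (nat_lit 5) (nat_lit 3) (nat_lit 4) (nat_lit 1) (nat_lit 4) (nat_lit 318) (nat_lit 210) (nat_lit 192))))))) (XT.nd (nat_lit 1014) (nat_lit 0) (nat_lit 0) (XT.nd (nat_lit 468) (nat_lit 0) (nat_lit 0) (XT.nd (nat_lit 234) (nat_lit 0) (nat_lit 0) (XT.nd (nat_lit 78) (nat_lit 0) (nat_lit 0) (XT.lf (nat_lit 0) (nat_lit 288452965444) (nat_lit 152) (nat_lit 111327308946) (nat_lit 0) (nat_lit 287124218037) (nat_lit 1) (nat_lit 5) (nat_lit 3) (nat_lit 4) (nat_lit 1) (nat_lit 4) (nat_lit 319) (nat_lit 210) (nat_lit 191)) (XT.nd (nat_lit 78) (nat_lit 0) (nat_lit 0) (XT.lf (nat_lit 0) (nat_lit 311963210273) (nat_lit 152) (nat_lit 119240406025) (nat_lit 0) (nat_lit 310604778123) (nat_lit 1) (nat_lit 5) (nat_lit 3) (nat_lit 4) (nat_lit 1) (nat_lit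 4) (nat_lit 320) (nat_lit 210) (nat_lit 190)) (XT.lf (nat_lit 0) (nat_lit 337341192436) (nat_lit 152) (nat_lit 127809249287) (nat_lit 0) (nat_lit 335955274413) (nat_lit 1) (nat_lit 5) (nat_lit 3) (nat_lit 4) (nat_lit 1) (nat_lit 4) (nat_lit 321) (nat_lit 210) (nat_lit 189)))) (XT.nd (nat_lit 78) (nat_lit 0) (nat_lit 0) (XT.lf (nat_lit 0) (nat_lit 364737299976) (nat_lit 152) (nat_lit 137084617064) (nat_lit 0) (nat_lit 363325932070) (nat_lit 1) (nat_lit 5) (nat_lit 3) (nat_lit 4) (nat_lit 1) (nat_lit 4) (nat_lit 322) (nat_lit 210) (nat_lit 188)) (XT.nd (nat_lit 78) (nat_lit 0) (nat_lit 0) (XT.lf (nat_lit 0) (nat_lit 394313880196) (nat_lit 152) (nat_lit 147121474497) (nat_lit 0) (nat_lit 392878947584) (nat_lit 1) (nat_lit 5) (nat_lit 3) (nat_lit 4) (nat_lit 1) (nat_lit 4) (nat_lit 323) (nat_lit 210) (nat_lit 187)) (XT.lf (nat_lit 0) (nat_lit 426246201720) (nat_lit 152) (nat_lit 157979299261)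 (nat_lit 0) (nat_lit 424789449936) (nat_lit 1) (nat_lit 5) (nat_lit 3) (nat_lit 4) (nat_lit 1) (nat_lit 4) (nat_lit 324) (nat_lit 210) (nat_lit 186))))) (XT.nd (nat_lit 234) (nat_lit 0) (nat_lit 0) (XT.nd (nat_lit 78) (nat_lit 0) (nat_lit 0) (XT.lf (nat_lit 0) (nat_lit 460723493120) (nat_lit 152) (nat_lit 169722434019) (nat_lit 0) (nat_lit 459246538399) (nat_lit 1) (nat_lit 5) (nat_lit 3) (nat_lit 4) (nat_lit 1) (nat_lit 4) (nat_lit 325) (nat_lit 210) (nat_lit 185)) (XT.nd (nat_lit 78) (nat_lit 0) (nat_lit 0) (XT.lf (nat_lit 0) (nat_lit 497950064271) (nat_lit 152) (nat_lit 182420467720) (nat_lit 0) (nat_lit 496454403127) (nat_lit 1) (nat_lit 5) (nat_lit 3) (nat_lit 4) (nat_lit 1) (nat_lit 4) (nat_lit 326) (nat_lit 210) (nat_lit 184)) (XT.lf (nat_lit 0) (nat_lit 538146517076) (nat_lit 152) (nat_lit 196148647970) (nat_lit 0) (nat_lit 536633535170) (nat_lit 1) (nat_lit 5) (nat_lit 3)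 (nat_lit 4) (nat_lit 1) (nat_lit 4) (nat_lit 327) (nat_lit 210) (nat_lit 183)))) (XT.nd (nat_lit 156) (nat_lit 0) (nat_lit 0) (XT.nd (nat_lit 78) (nat_lit 0) (nat_lit 0) (XT.lf (nat_lit 0) (nat_lit 581551052737) (nat_lit 152) (nat_lit 210988326948) (nat_lit 0) (nat_lit 580022033088) (nat_lit 1) (nat_lit 5) (nat_lit 3) (nat_lit 4) (nat_lit 1) (nat_lit 4) (nat_lit 328) (nat_lit 210) (nat_lit 182)) (XT.lf (nat_lit 0) (nat_lit 628420883318) (nat_lit 152) (nat_lit 227027443493) (nat_lit 0) (nat_lit 626877013906) (nat_lit 1) (nat_lit 5) (nat_lit 3) (nat_lit 4) (nat_lit 1) (nat_lit 4) (nat_lit 329) (nat_lit 210) (nat_lit 181))) (XT.nd (nat_lit 78) (nat_lit 0) (nat_lit 0) (XT.lf (nat_lit 0) (nat_lit 679033755961) (nat_lit 152) (nat_lit 244361044222) (nat_lit 0) (nat_lit 677476136770) (nat_lit 1) (nat_lit 5) (nat_lit 3) (nat_lit 4) (nat_lit 1) (nat_lit 4) (nat_lit 330) (nat_lit 210) (nat_lit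 180)) (XT.lf (nat_lit 0) (nat_lit 733689598802) (nat_lit 152) (nat_lit 263091846768) (nat_lit 0) (nat_lit 732119248333) (nat_lit 1) (nat_lit 5) (nat_lit 3) (nat_lit 4) (nat_lit 1) (nat_lit 4) (nat_lit 331) (nat_lit 210) (nat_lit 179)))))) (XT.nd (nat_lit 546) (nat_lit 0) (nat_lit 0) (XT.nd (nat_lit 234) (nat_lit 0) (nat_lit 0) (XT.nd (nat_lit 78) (nat_lit 0) (nat_lit 0) (XT.lf (nat_lit 0) (nat_lit 792712298317) (nat_lit 152) (nat_lit 283330848479) (nat_lit 0) (nat_lit 791130159628) (nat_lit 1) (nat_lit 5) (nat_lit 3) (nat_lit 4) (nat_lit 1) (nat_lit 4) (nat_lit 332) (nat_lit 210) (nat_lit 178)) (XT.nd (nat_lit 78) (nat_lit 0) (nat_lit 0) (XT.lf (nat_lit 0) (nat_lit 856451618650) (nat_lit 152) (nat_lit 305197984182) (nat_lit 0) (nat_lit 854858564943) (nat_lit 1) (nat_lit 5) (nat_lit 3) (nat_lit 4) (nat_lit 1) (nat_lit 4) (nat_lit 333) (nat_lit 210) (nat_lit 177)) (XT.lf (nat_lit 0)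 (nat_lit 925285274293) (nat_lit 152) (nat_lit 328822836901) (nat_lit 0) (nat_lit 923682114087) (nat_lit 1) (nat_lit 5) (nat_lit 3) (nat_lit 4) (nat_lit 1) (nat_lit 4) (nat_lit 334) (nat_lit 210) (nat_lit 176)))) (XT.nd (nat_lit 156) (nat_lit 0) (nat_lit 0) (XT.nd (nat_lit 78) (nat_lit 0) (nat_lit 0) (XT.lf (nat_lit 0) (nat_lit 999621168390) (nat_lit 152) (nat_lit 354345405765) (nat_lit 0) (nat_lit 998008650315) (nat_lit 1) (nat_lit 5) (nat_lit 3) (nat_lit 4) (nat_lit 1) (nat_lit 4) (nat_lit 335) (nat_lit 210) (nat_lit 175)) (XT.lf (nat_lit 0) (nat_lit 1079899809944) (nat_lit 152) (nat_lit 381916935626) (nat_lit 0) (nat_lit 1078278627175) (nat_lit 1) (nat_lit 5) (nat_lit 3) (nat_lit 4) (nat_lit 1) (nat_lit 4) (nat_lit 336) (nat_lit 210) (nat_lit 174))) (XT.nd (nat_lit 78) (nat_lit 0) (nat_lit 0) (XT.lf (nat_lit 0) (nat_lit 1166596924237) (nat_lit 152) (nat_lit 411700813328) (nat_lit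 0) (nat_lit 1164967718604) (nat_lit 1) (nat_lit 5) (nat_lit 3) (nat_lit 4) (nat_lit 1) (nat_lit 4) (nat_lit 337) (nat_lit 210) (nat_lit 173)) (XT.lf (nat_lit 0) (nat_lit 1260226271947) (nat_lit 152) (nat_lit 443873535922) (nat_lit 0) (nat_lit 1258589637736) (nat_lit 1) (nat_lit 5) (nat_lit 3) (nat_lit 4) (nat_lit 1) (nat_lit 4) (nat_lit 338) (nat_lit 210) (nat_lit 172))))) (XT.nd (nat_lit 234) (nat_lit 0) (nat_lit 0) (XT.nd (nat_lit 78) (nat_lit 0) (nat_lit 0) (XT.lf (nat_lit 0) (nat_lit 1361342693652) (nat_lit 152) (nat_lit 478625756582) (nat_lit 0) (nat_lit 1359699181129) (nat_lit 1) (nat_lit 5) (nat_lit 3) (nat_lit 4) (nat_lit 1) (nat_lit 4) (nat_lit 339) (nat_lit 210) (nat_lit 171)) (XT.nd (nat_lit 78) (nat_lit 0) (nat_lit 0) (XT.lf (nat_lit 0) (nat_lit 1470545397779) (nat_lit 152) (nat_lit 516163414391) (nat_lit 0) (nat_lit 1468895516447) (nat_lit 1) (nat_lit 5) (nat_lit 3) (nat_lit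 4) (nat_lit 1) (nat_lit 4) (nat_lit 340) (nat_lit 210) (nat_lit 170)) (XT.lf (nat_lit 0) (nat_lit 1588481511462) (nat_lit 152) (nat_lit 556708954730) (nat_lit 0) (nat_lit 1586825733085) (nat_lit 1) (nat_lit 5) (nat_lit 3) (nat_lit 4) (nat_lit 1) (nat_lit 4) (nat_lit 341) (nat_lit 210) (nat_lit 169)))) (XT.nd (nat_lit 156) (nat_lit 0) (nat_lit 0) (XT.nd (nat_lit 78) (nat_lit 0) (nat_lit 0) (XT.lf (nat_lit 0) (nat_lit 1715849915375) (nat_lit 152) (nat_lit 600502647466) (nat_lit 0) (nat_lit 1714188676772) (nat_lit 1) (nat_lit 5) (nat_lit 3) (nat_lit 4) (nat_lit 1) (nat_lit 4) (nat_lit 342) (nat_lit 210) (nat_lit 168)) (XT.lf (nat_lit 0) (nat_lit 1853405385245) (nat_lit 152) (nat_lit 647804010781) (nat_lit 0) (nat_lit 1851739090876) (nat_lit 1) (nat_lit 5) (nat_lit 3) (nat_lit 4) (nat_lit 1) (nat_lit 4) (nat_lit 343) (nat_lit 210) (nat_lit 167))) (XT.nd (nat_lit 78) (nat_lit 0) (nat_lit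 0) (XT.lf (nat_lit 0) (nat_lit 2001963064597) (nat_lit 152) (nat_lit 698893349047) (nat_lit 0) (nat_lit 2000292088964) (nat_lit 1) (nat_lit 5) (nat_lit 3) (nat_lit 4) (nat_lit 1) (nat_lit 4) (nat_lit 344) (nat_lit 210) (nat_lit 166)) (XT.lf (nat_lit 0) (nat_lit 2162403295235) (nat_lit 152) (nat_lit 754073413901) (nat_lit 0) (nat_lit 2160727985098) (nat_lit 1) (nat_lit 5) (nat_lit 3) (nat_lit 4) (nat_lit 1) (nat_lit 4) (nat_lit 345) (nat_lit 210) (nat_lit 165))))))))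
noncomputable def xc11 : XT := (XT.nd (nat_lit 35802) (nat_lit 0) (nat_lit 0) (XT.nd (nat_lit 34710) (nat_lit 0) (nat_lit 0) (XT.nd (nat_lit 34164) (nat_lit 0) (nat_lit 0) (XT.nd (nat_lit 33930) (nat_lit 0) (nat_lit 0) (XT.nd (nat_lit 33774) (nat_lit 0) (nat_lit 0) (XT.lf (nat_lit 0) (nat_lit 2335676834081) (nat_lit 152) (nat_lit 813671198317) (nat_lit 0) (nat_lit 2333997510514) (nat_lit 1) (nat_lit 5) (nat_lit 3) (nat_lit 4) (nat_lit 1) (nat_lit 4) (nat_lit 346) (nat_lit 210) (nat_lit 164)) (XT.nd (nat_lit 78) (nat_lit 0) (nat_lit 0) (XT.lf (nat_lit 0) (nat_lit 24676072776) (nat_lit 152) (nat_lit 19277699486) (nat_lit 0) (nat_lit 24676072776) (nat_lit 1) (nat_lit 5) (nat_lit 3) (nat_lit 4) (nat_lit 1) (nat_lit 4) (nat_lit 298) (nat_lit 211) (nat_lit 211)) (XT.lf (nat_lit 0) (nat_lit 54401479688) (nat_lit 152) (nat_lit 39469988440) (nat_lit 0) (nat_lit 54263120373) (nat_lit 1) (nat_lit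 5) (nat_lit 3) (nat_lit 4) (nat_lit 1) (nat_lit 4) (nat_lit 299) (nat_lit 211) (nat_lit 210)))) (XT.nd (nat_lit 78) (nat_lit 0) (nat_lit 0) (XT.lf (nat_lit 0) (nat_lit 59793784738) (nat_lit 152) (nat_lit 40563541415) (nat_lit 0) (nat_lit 59527314946) (nat_lit 1) (nat_lit 5) (nat_lit 3) (nat_lit 4) (nat_lit 1) (nat_lit 4) (nat_lit 300) (nat_lit 211) (nat_lit 209)) (XT.nd (nat_lit 78) (nat_lit 0) (nat_lit 0) (XT.lf (nat_lit 0) (nat_lit 65561015101) (nat_lit 152) (nat_lit 41842538211) (nat_lit 0) (nat_lit 65175924498) (nat_lit 1) (nat_lit 5) (nat_lit 3) (nat_lit 4) (nat_lit 1) (nat_lit 4) (nat_lit 301) (nat_lit 211) (nat_lit 208)) (XT.lf (nat_lit 0) (nat_lit 71737346959) (nat_lit 152) (nat_lit 43314558068) (nat_lit 0) (nat_lit 71242422271) (nat_lit 1) (nat_lit 5) (nat_lit 3) (nat_lit 4) (nat_lit 1) (nat_lit 4) (nat_lit 302) (nat_lit 211) (nat_lit 207))))) (XT.nd (nat_lit 234) (nat_lit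 0) (nat_lit 0) (XT.nd (nat_lit 78) (nat_lit 0) (nat_lit 0) (XT.lf (nat_lit 0) (nat_lit 78359380797) (nat_lit 152) (nat_lit 44988324068) (nat_lit 0) (nat_lit 77762757881) (nat_lit 1) (nat_lit 5) (nat_lit 3) (nat_lit 4) (nat_lit 1) (nat_lit 4) (nat_lit 303) (nat_lit 211) (nat_lit 206)) (XT.nd (nat_lit 78) (nat_lit 0) (nat_lit 0) (XT.lf (nat_lit 0) (nat_lit 85466358295) (nat_lit 152) (nat_lit 46873754824) (nat_lit 0) (nat_lit 84775570355) (nat_lit 1) (nat_lit 5) (nat_lit 3) (nat_lit 4) (nat_lit 1) (nat_lit 4) (nat_lit 304) (nat_lit 211) (nat_lit 205)) (XT.lf (nat_lit 0) (nat_lit 93100394877) (nat_lit 152) (nat_lit 48982023259) (nat_lit 0) (nat_lit 92322417099) (nat_lit 1) (nat_lit 5) (nat_lit 3) (nat_lit 4) (nat_lit 1) (nat_lit 4) (nat_lit 305) (nat_lit 211) (nat_lit 204)))) (XT.nd (nat_lit 156) (nat_lit 0) (nat_lit 0) (XT.nd (nat_lit 78) (nat_lit 0) (nat_lit 0) (XT.lf (nat_lit 0) (nat_lit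 101306729278) (nat_lit 152) (nat_lit 51325622814) (nat_lit 0) (nat_lit 100448020169) (nat_lit 1) (nat_lit 5) (nat_lit 3) (nat_lit 4) (nat_lit 1) (nat_lit 4) (nat_lit 306) (nat_lit 211) (nat_lit 203)) (XT.lf (nat_lit 0) (nat_lit 110133991628) (nat_lit 152) (nat_lit 53918441489) (nat_lit 0) (nat_lit 109200531285) (nat_lit 1) (nat_lit 5) (nat_lit 3) (nat_lit 4) (nat_lit 1) (nat_lit 4) (nat_lit 307) (nat_lit 211) (nat_lit 202))) (XT.nd (nat_lit 78) (nat_lit 0) (nat_lit 0) (XT.lf (nat_lit 0) (nat_lit 119634491629) (nat_lit 152) (nat_lit 56775844133) (nat_lit 0) (nat_lit 118631817182) (nat_lit 1) (nat_lit 5) (nat_lit 3) (nat_lit 4) (nat_lit 1) (nat_lit 4) (nat_lit 308) (nat_lit 211) (nat_lit 201)) (XT.lf (nat_lit 0) (nat_lit 129864528540) (nat_lit 152) (nat_lit 59914763504) (nat_lit 0) (nat_lit 128797766960) (nat_lit 1) (nat_lit 5) (nat_lit 3) (nat_lit 4) (nat_lit 1) (nat_lit 4) (nat_lit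 309) (nat_lit 211) (nat_lit 200)))))) (XT.nd (nat_lit 546) (nat_lit 0) (nat_lit 0) (XT.nd (nat_lit 234) (nat_lit 0) (nat_lit 0) (XT.nd (nat_lit 78) (nat_lit 0) (nat_lit 0) (XT.lf (nat_lit 0) (nat_lit 140884724804) (nat_lit 152) (nat_lit 63353800605) (nat_lit 0) (nat_lit 139758623284) (nat_lit 1) (nat_lit 5) (nat_lit 3) (nat_lit 4) (nat_lit 1) (nat_lit 4) (nat_lit 310) (nat_lit 211) (nat_lit 199)) (XT.nd (nat_lit 78) (nat_lit 0) (nat_lit 0) (XT.lf (nat_lit 0) (nat_lit 152760385285) (nat_lit 152) (nat_lit 67113334915) (nat_lit 0) (nat_lit 151579339378) (nat_lit 1) (nat_lit 5) (nat_lit 3) (nat_lit 4) (nat_lit 1) (nat_lit 4) (nat_lit 311) (nat_lit 211) (nat_lit 198)) (XT.lf (nat_lit 0) (nat_lit 165561884270) (nat_lit 152) (nat_lit 71215645156) (nat_lit 0) (nat_lit 164329963930) (nat_lit 1) (nat_lit 5) (nat_lit 3) (nat_lit 4) (nat_lit 1) (nat_lit 4) (nat_lit 312) (nat_lit 211) (nat_lit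 197)))) (XT.nd (nat_lit 156) (nat_lit 0) (nat_lit 0) (XT.nd (nat_lit 78) (nat_lit 0) (nat_lit 0) (XT.lf (nat_lit 0) (nat_lit 179365082491) (nat_lit 152) (nat_lit 75685041315) (nat_lit 0) (nat_lit 178086056195) (nat_lit 1) (nat_lit 5) (nat_lit 3) (nat_lit 4) (nat_lit 1) (nat_lit 4) (nat_lit 313) (nat_lit 211) (nat_lit 196)) (XT.lf (nat_lit 0) (nat_lit 194251776681) (nat_lit 152) (nat_lit 80548008703) (nat_lit 0) (nat_lit 192929133758) (nat_lit 1) (nat_lit 5) (nat_lit 3) (nat_lit 4) (nat_lit 1) (nat_lit 4) (nat_lit 314) (nat_lit 211) (nat_lit 195))) (XT.nd (nat_lit 78) (nat_lit 0) (nat_lit 0) (XT.lf (nat_lit 0) (nat_lit 210310184285) (nat_lit 152) (nat_lit 85833364903) (nat_lit 0) (nat_lit 208947155597) (nat_lit 1) (nat_lit 5) (nat_lit 3) (nat_lit 4) (nat_lit 1) (nat_lit 4) (nat_lit 315) (nat_lit 211) (nat_lit 194)) (XT.lf (nat_lit 0) (nat_lit 227635466238) (nat_lit 152) (nat_lit 91572430545)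 (nat_lit 0) (nat_lit 226235043323) (nat_lit 1) (nat_lit 5) (nat_lit 3) (nat_lit 4) (nat_lit 1) (nat_lit 4) (nat_lit 316) (nat_lit 211) (nat_lit 193))))) (XT.nd (nat_lit 234) (nat_lit 0) (nat_lit 0) (XT.nd (nat_lit 78) (nat_lit 0) (nat_lit 0) (XT.lf (nat_lit 0) (nat_lit 246330290876) (nat_lit 152) (nat_lit 97799214907) (nat_lit 0) (nat_lit 244895243677) (nat_lit 1) (nat_lit 5) (nat_lit 3) (nat_lit 4) (nat_lit 1) (nat_lit 4) (nat_lit 317) (nat_lit 211) (nat_lit 192)) (XT.nd (nat_lit 78) (nat_lit 0) (nat_lit 0) (XT.lf (nat_lit 0) (nat_lit 266505442347) (nat_lit 152) (nat_lit 104550617452) (nat_lit 0) (nat_lit 265038335626) (nat_lit 1) (nat_lit 5) (nat_lit 3) (nat_lit 4) (nat_lit 1) (nat_lit 4) (nat_lit 318) (nat_lit 211) (nat_lit 191)) (XT.lf (nat_lit 0) (nat_lit 288280477104) (nat_lit 152) (nat_lit 111866646491) (nat_lit 0) (nat_lit 286783685639) (nat_lit 1) (nat_lit 5) (nat_lit 3)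 (nat_lit 4) (nat_lit 1) (nat_lit 4) (nat_lit 319) (nat_lit 211) (nat_lit 190)))) (XT.nd (nat_lit 156) (nat_lit 0) (nat_lit 0) (XT.nd (nat_lit 78) (nat_lit 0) (nat_lit 0) (XT.lf (nat_lit 0) (nat_lit 311784432388) (nat_lit 152) (nat_lit 119790656271) (nat_lit 0) (nat_lit 310260155051) (nat_lit 1) (nat_lit 5) (nat_lit 3) (nat_lit 4) (nat_lit 1) (nat_lit 4) (nat_lit 320) (nat_lit 211) (nat_lit 189)) (XT.lf (nat_lit 0) (nat_lit 337156590899) (nat_lit 152) (nat_lit 128369603886) (nat_lit 0) (nat_lit 335606863679) (nat_lit 1) (nat_lit 5) (nat_lit 3) (nat_lit 4) (nat_lit 1) (nat_lit 4) (nat_lit 321) (nat_lit 211) (nat_lit 188))) (XT.nd (nat_lit 78) (nat_lit 0) (nat_lit 0) (XT.lf (nat_lit 0) (nat_lit 364547306168) (nat_lit 152) (nat_lit 137654327544) (nat_lit 0) (nat_lit 362974014242) (nat_lit 1) (nat_lit 5) (nat_lit 3) (nat_lit 4) (nat_lit 1) (nat_lit 4) (nat_lit 322) (nat_lit 211) (nat_lit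 187)) (XT.lf (nat_lit 0) (nat_lit 394118893545) (nat_lit 152) (nat_lit 147699847831) (nat_lit 0) (nat_lit 392523782447) (nat_lit 1) (nat_lit 5) (nat_lit 3) (nat_lit 4) (nat_lit 1) (nat_lit 4) (nat_lit 323) (nat_lit 211) (nat_lit 186))))))) (XT.nd (nat_lit 1014) (nat_lit 0) (nat_lit 0) (XT.nd (nat_lit 468) (nat_lit 0) (nat_lit 0) (XT.nd (nat_lit 234) (nat_lit 0) (nat_lit 0) (XT.nd (nat_lit 78) (nat_lit 0) (nat_lit 0) (XT.lf (nat_lit 0) (nat_lit 426046592067) (nat_lit 152) (nat_lit 158565693755) (nat_lit 0) (nat_lit 424431278031) (nat_lit 1) (nat_lit 5) (nat_lit 3) (nat_lit 4) (nat_lit 1) (nat_lit 4) (nat_lit 324) (nat_lit 211) (nat_lit 185)) (XT.nd (nat_lit 78) (nat_lit 0) (nat_lit 0) (XT.lf (nat_lit 0) (nat_lit 460519602909) (nat_lit 152) (nat_lit 170316255514) (nat_lit 0) (nat_lit 458885582449) (nat_lit 1) (nat_lit 5) (nat_lit 3) (nat_lit 4) (nat_lit 1) (nat_lit 4) (nat_lit 325)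 (nat_lit 211) (nat_lit 184)) (XT.lf (nat_lit 0) (nat_lit 497742210580) (nat_lit 152) (nat_lit 183021166067) (nat_lit 0) (nat_lit 496090869358) (nat_lit 1) (nat_lit 5) (nat_lit 3) (nat_lit 4) (nat_lit 1) (nat_lit 4) (nat_lit 326) (nat_lit 211) (nat_lit 183)))) (XT.nd (nat_lit 78) (nat_lit 0) (nat_lit 0) (XT.lf (nat_lit 0) (nat_lit 537934993496) (nat_lit 152) (nat_lit 196755713773) (nat_lit 0) (nat_lit 536267614532) (nat_lit 1) (nat_lit 5) (nat_lit 3) (nat_lit 4) (nat_lit 1) (nat_lit 4) (nat_lit 327) (nat_lit 211) (nat_lit 182)) (XT.nd (nat_lit 78) (nat_lit 0) (nat_lit 0) (XT.lf (nat_lit 0) (nat_lit 581336131113) (nat_lit 152) (nat_lit 211601288544) (nat_lit 0) (nat_lit 579653902386) (nat_lit 1) (nat_lit 5) (nat_lit 3) (nat_lit 4) (nat_lit 1) (nat_lit 4) (nat_lit 328) (nat_lit 211) (nat_lit 181)) (XT.lf (nat_lit 0) (nat_lit 628202815355) (nat_lit 152) (nat_lit 227645864156) (nat_lit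 0) (nat_lit 626506836848) (nat_lit 1) (nat_lit 5) (nat_lit 3) (nat_lit 4) (nat_lit 1) (nat_lit 4) (nat_lit 329) (nat_lit 211) (nat_lit 180))))) (XT.nd (nat_lit 234) (nat_lit 0) (nat_lit 0) (XT.nd (nat_lit 78) (nat_lit 0) (nat_lit 0) (XT.lf (nat_lit 0) (nat_lit 678812774722) (nat_lit 152) (nat_lit 244984519577) (nat_lit 0) (nat_lit 677104064938) (nat_lit 1) (nat_lit 5) (nat_lit 3) (nat_lit 4) (nat_lit 1) (nat_lit 4) (nat_lit 330) (nat_lit 211) (nat_lit 179)) (XT.nd (nat_lit 78) (nat_lit 0) (nat_lit 0) (XT.lf (nat_lit 0) (nat_lit 733465920085) (nat_lit 152) (nat_lit 263720002393) (nat_lit 0) (nat_lit 731745422082) (nat_lit 1) (nat_lit 5) (nat_lit 3) (nat_lit 4) (nat_lit 1) (nat_lit 4) (nat_lit 331) (nat_lit 211) (nat_lit 178)) (XT.lf (nat_lit 0) (nat_lit 792486121935) (nat_lit 152) (nat_lit 283963337688) (nat_lit 0) (nat_lit 790754708913) (nat_lit 1) (nat_lit 5) (nat_lit 3) (nat_lit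 4) (nat_lit 1) (nat_lit 4) (nat_lit 332) (nat_lit 211) (nat_lit 177)))) (XT.nd (nat_lit 156) (nat_lit 0) (nat_lit 0) (XT.nd (nat_lit 78) (nat_lit 0) (nat_lit 0) (XT.lf (nat_lit 0) (nat_lit 856223129616) (nat_lit 152) (nat_lit 305834485968) (nat_lit 0) (nat_lit 854481610096) (nat_lit 1) (nat_lit 5) (nat_lit 3) (nat_lit 4) (nat_lit 1) (nat_lit 4) (nat_lit 333) (nat_lit 211) (nat_lit 176)) (XT.lf (nat_lit 0) (nat_lit 925054643914) (nat_lit 152) (nat_lit 329463054037) (nat_lit 0) (nat_lit 923303766525) (nat_lit 1) (nat_lit 5) (nat_lit 3) (nat_lit 4) (nat_lit 1) (nat_lit 4) (nat_lit 334) (nat_lit 211) (nat_lit 175))) (XT.nd (nat_lit 78) (nat_lit 0) (nat_lit 0) (XT.lf (nat_lit 0) (nat_lit 999388555285) (nat_lit 152) (nat_lit 354989063039) (nat_lit 0) (nat_lit 997629013202) (nat_lit 1) (nat_lit 5) (nat_lit 3) (nat_lit 4) (nat_lit 1) (nat_lit 4) (nat_lit 335) (nat_lit 211) (nat_lit 174))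 (XT.lf (nat_lit 0) (nat_lit 1079665360980) (nat_lit 152) (nat_lit 382563778214) (nat_lit 0) (nat_lit 1077897796033) (nat_lit 1) (nat_lit 5) (nat_lit 3) (nat_lit 4) (nat_lit 1) (nat_lit 4) (nat_lit 336) (nat_lit 211) (nat_lit 173)))))) (XT.nd (nat_lit 546) (nat_lit 0) (nat_lit 0) (XT.nd (nat_lit 234) (nat_lit 0) (nat_lit 0) (XT.nd (nat_lit 78) (nat_lit 0) (nat_lit 0) (XT.lf (nat_lit 0) (nat_lit 1166360775405) (nat_lit 152) (nat_lit 412350605279) (nat_lit 0) (nat_lit 1164585781879) (nat_lit 1) (nat_lit 5) (nat_lit 3) (nat_lit 4) (nat_lit 1) (nat_lit 4) (nat_lit 337) (nat_lit 211) (nat_lit 172)) (XT.nd (nat_lit 78) (nat_lit 0) (nat_lit 0) (XT.lf (nat_lit 0) (nat_lit 1259988549163) (nat_lit 152) (nat_lit 444526058767) (nat_lit 0) (nat_lit 1258206677324) (nat_lit 1) (nat_lit 5) (nat_lit 3) (nat_lit 4) (nat_lit 1) (nat_lit 4) (nat_lit 338) (nat_lit 211) (nat_lit 171)) (XT.lf (nat_lit 0)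 (nat_lit 1361103513505) (nat_lit 152) (nat_lit 479280808030) (nat_lit 0) (nat_lit 1359315272858) (nat_lit 1) (nat_lit 5) (nat_lit 3) (nat_lit 4) (nat_lit 1) (nat_lit 4) (nat_lit 339) (nat_lit 211) (nat_lit 170)))) (XT.nd (nat_lit 156) (nat_lit 0) (nat_lit 0) (XT.nd (nat_lit 78) (nat_lit 0) (nat_lit 0) (XT.lf (nat_lit 0) (nat_lit 1470304868221) (nat_lit 152) (nat_lit 516820807140) (nat_lit 0) (nat_lit 1468510730529) (nat_lit 1) (nat_lit 5) (nat_lit 3) (nat_lit 4) (nat_lit 1) (nat_lit 4) (nat_lit 340) (nat_lit 211) (nat_lit 169)) (XT.lf (nat_lit 0) (nat_lit 1588239732450) (nat_lit 152) (nat_lit 557368515349) (nat_lit 0) (nat_lit 1586440134531) (nat_lit 1) (nat_lit 5) (nat_lit 3) (nat_lit 4) (nat_lit 1) (nat_lit 4) (nat_lit 341) (nat_lit 211) (nat_lit 168))) (XT.nd (nat_lit 78) (nat_lit 0) (nat_lit 0) (XT.lf (nat_lit 0) (nat_lit 1715606979461) (nat_lit 152) (nat_lit 601164215374) (nat_lit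 0) (nat_lit 1713802325777) (nat_lit 1) (nat_lit 5) (nat_lit 3) (nat_lit 4) (nat_lit 1) (nat_lit 4) (nat_lit 342) (nat_lit 211) (nat_lit 167)) (XT.lf (nat_lit 0) (nat_lit 1853161378126) (nat_lit 152) (nat_lit 648467437288) (nat_lit 0) (nat_lit 1851352043177) (nat_lit 1) (nat_lit 5) (nat_lit 3) (nat_lit 4) (nat_lit 1) (nat_lit 4) (nat_lit 343) (nat_lit 211) (nat_lit 166))))) (XT.nd (nat_lit 33774) (nat_lit 0) (nat_lit 0) (XT.nd (nat_lit 78) (nat_lit 0) (nat_lit 0) (XT.lf (nat_lit 0) (nat_lit 2001718065621) (nat_lit 152) (nat_lit 699558496480) (nat_lit 0) (nat_lit 1999904396168) (nat_lit 1) (nat_lit 5) (nat_lit 3) (nat_lit 4) (nat_lit 1) (nat_lit 4) (nat_lit 344) (nat_lit 211) (nat_lit 165)) (XT.nd (nat_lit 78) (nat_lit 0) (nat_lit 0) (XT.lf (nat_lit 0) (nat_lit 2162157377872) (nat_lit 152) (nat_lit 754740154783) (nat_lit 0) (nat_lit 2160339694990) (nat_lit 1) (nat_lit 5) (nat_lit 3)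 (nat_lit 4) (nat_lit 1) (nat_lit 4) (nat_lit 345) (nat_lit 211) (nat_lit 164)) (XT.lf (nat_lit 0) (nat_lit 2335430066361) (nat_lit 152) (nat_lit 814339414616) (nat_lit 0) (nat_lit 2333608667340) (nat_lit 1) (nat_lit 5) (nat_lit 3) (nat_lit 4) (nat_lit 1) (nat_lit 4) (nat_lit 346) (nat_lit 211) (nat_lit 163)))) (XT.nd (nat_lit 156) (nat_lit 0) (nat_lit 0) (XT.nd (nat_lit 78) (nat_lit 0) (nat_lit 0) (XT.lf (nat_lit 0) (nat_lit 20174089315) (nat_lit 152) (nat_lit 18591566236) (nat_lit 0) (nat_lit 20174089315) (nat_lit 1) (nat_lit 5) (nat_lit 3) (nat_lit 4) (nat_lit 1) (nat_lit 4) (nat_lit 296) (nat_lit 212) (nat_lit 212)) (XT.lf (nat_lit 0) (nat_lit 44765288411) (nat_lit 152) (nat_lit 37814353224) (nat_lit 0) (nat_lit 44615860351) (nat_lit 1) (nat_lit 5) (nat_lit 3) (nat_lit 4) (nat_lit 1) (nat_lit 4) (nat_lit 297) (nat_lit 212) (nat_lit 211))) (XT.nd (nat_lit 78) (nat_lit 0) (nat_lit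 0) (XT.lf (nat_lit 0) (nat_lit 49469913092) (nat_lit 152) (nat_lit 38610331693) (nat_lit 0) (nat_lit 49182125717) (nat_lit 1) (nat_lit 5) (nat_lit 3) (nat_lit 4) (nat_lit 1) (nat_lit 4) (nat_lit 298) (nat_lit 212) (nat_lit 210)) (XT.lf (nat_lit 0) (nat_lit 54489931931) (nat_lit 152) (nat_lit 39575784790) (nat_lit 0) (nat_lit 54074034079) (nat_lit 1) (nat_lit 5) (nat_lit 3) (nat_lit 4) (nat_lit 1) (nat_lit 4) (nat_lit 299) (nat_lit 212) (nat_lit 209))))))))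
noncomputable def xc12 : XT := (XT.nd (nat_lit 2028) (nat_lit 0) (nat_lit 0) (XT.nd (nat_lit 1014) (nat_lit 0) (nat_lit 0) (XT.nd (nat_lit 468) (nat_lit 0) (nat_lit 0) (XT.nd (nat_lit 234) (nat_lit 0) (nat_lit 0) (XT.nd (nat_lit 78) (nat_lit 0) (nat_lit 0) (XT.lf (nat_lit 0) (nat_lit 59855093188) (nat_lit 152) (nat_lit 40716433718) (nat_lit 0) (nat_lit 59320574524) (nat_lit 1) (nat_lit 5) (nat_lit 3) (nat_lit 4) (nat_lit 1) (nat_lit 4) (nat_lit 300) (nat_lit 212) (nat_lit 208)) (XT.nd (nat_lit 78) (nat_lit 0) (nat_lit 0) (XT.lf (nat_lit 0) (nat_lit 65597190410) (nat_lit 152) (nat_lit 42039037879) (nat_lit 0) (nat_lit 64952837661) (nat_lit 1) (nat_lit 5) (nat_lit 3) (nat_lit 4) (nat_lit 1) (nat_lit 4) (nat_lit 301) (nat_lit 212) (nat_lit 207)) (XT.lf (nat_lit 0) (nat_lit 71750250840) (nat_lit 152) (nat_lit 43551434926) (nat_lit 0) (nat_lit 71004199864) (nat_lit 1) (nat_lit 5) (nat_lit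 3) (nat_lit 4) (nat_lit 1) (nat_lit 4) (nat_lit 302) (nat_lit 212) (nat_lit 206)))) (XT.nd (nat_lit 78) (nat_lit 0) (nat_lit 0) (XT.lf (nat_lit 0) (nat_lit 78350737059) (nat_lit 152) (nat_lit 45262587212) (nat_lit 0) (nat_lit 77510521059) (nat_lit 1) (nat_lit 5) (nat_lit 3) (nat_lit 4) (nat_lit 1) (nat_lit 4) (nat_lit 303) (nat_lit 212) (nat_lit 205)) (XT.nd (nat_lit 78) (nat_lit 0) (nat_lit 0) (XT.lf (nat_lit 0) (nat_lit 85437763060) (nat_lit 152) (nat_lit 47182634900) (nat_lit 0) (nat_lit 84510357221) (nat_lit 1) (nat_lit 5) (nat_lit 3) (nat_lit 4) (nat_lit 1) (nat_lit 4) (nat_lit 304) (nat_lit 212) (nat_lit 204)) (XT.lf (nat_lit 0) (nat_lit 93053326032) (nat_lit 152) (nat_lit 49322956049) (nat_lit 0) (nat_lit 92045188862) (nat_lit 1) (nat_lit 5) (nat_lit 3) (nat_lit 4) (nat_lit 1) (nat_lit 4) (nat_lit 305) (nat_lit 212) (nat_lit 203))))) (XT.nd (nat_lit 234) (nat_lit 0) (nat_lit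 0) (XT.nd (nat_lit 78) (nat_lit 0) (nat_lit 0) (XT.lf (nat_lit 0) (nat_lit 101242555239) (nat_lit 152) (nat_lit 51696234044) (nat_lit 0) (nat_lit 100159666837) (nat_lit 1) (nat_lit 5) (nat_lit 3) (nat_lit 4) (nat_lit 1) (nat_lit 4) (nat_lit 306) (nat_lit 212) (nat_lit 202)) (XT.nd (nat_lit 78) (nat_lit 0) (nat_lit 0) (XT.lf (nat_lit 0) (nat_lit 110053979446) (nat_lit 152) (nat_lit 54316532755) (nat_lit 0) (nat_lit 108901876939) (nat_lit 1) (nat_lit 5) (nat_lit 3) (nat_lit 4) (nat_lit 1) (nat_lit 4) (nat_lit 307) (nat_lit 212) (nat_lit 201)) (XT.lf (nat_lit 0) (nat_lit 119539814500) (nat_lit 152) (nat_lit 57199379878) (nat_lit 0) (nat_lit 118323624860) (nat_lit 1) (nat_lit 5) (nat_lit 3) (nat_lit 4) (nat_lit 1) (nat_lit 4) (nat_lit 308) (nat_lit 212) (nat_lit 200)))) (XT.nd (nat_lit 156) (nat_lit 0) (nat_lit 0) (XT.nd (nat_lit 78) (nat_lit 0) (nat_lit 0) (XT.lf (nat_lit 0) (nat_lit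 129756272758) (nat_lit 152) (nat_lit 60361858951) (nat_lit 0) (nat_lit 128480743178) (nat_lit 1) (nat_lit 5) (nat_lit 3) (nat_lit 4) (nat_lit 1) (nat_lit 4) (nat_lit 309) (nat_lit 212) (nat_lit 199)) (XT.lf (nat_lit 0) (nat_lit 140763896193) (nat_lit 152) (nat_lit 63822710591) (nat_lit 0) (nat_lit 139433422225) (nat_lit 1) (nat_lit 5) (nat_lit 3) (nat_lit 4) (nat_lit 1) (nat_lit 4) (nat_lit 310) (nat_lit 212) (nat_lit 198))) (XT.nd (nat_lit 78) (nat_lit 0) (nat_lit 0) (XT.lf (nat_lit 0) (nat_lit 152627915167) (nat_lit 152) (nat_lit 67602443548) (nat_lit 0) (nat_lit 151246566767) (nat_lit 1) (nat_lit 5) (nat_lit 3) (nat_lit 4) (nat_lit 1) (nat_lit 4) (nat_lit 311) (nat_lit 212) (nat_lit 197)) (XT.lf (nat_lit 0) (nat_lit 165418634977) (nat_lit 152) (nat_lit 71723456241) (nat_lit 0) (nat_lit 163990180621) (nat_lit 1) (nat_lit 5) (nat_lit 3) (nat_lit 4) (nat_lit 1) (nat_lit 4) (nat_lit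 312) (nat_lit 212) (nat_lit 196)))))) (XT.nd (nat_lit 468) (nat_lit 0) (nat_lit 0) (XT.nd (nat_lit 234) (nat_lit 0) (nat_lit 0) (XT.nd (nat_lit 78) (nat_lit 0) (nat_lit 0) (XT.lf (nat_lit 0) (nat_lit 179211852483) (nat_lit 152) (nat_lit 76210169484) (nat_lit 0) (nat_lit 177739781500) (nat_lit 1) (nat_lit 5) (nat_lit 3) (nat_lit 4) (nat_lit 1) (nat_lit 4) (nat_lit 313) (nat_lit 212) (nat_lit 195)) (XT.nd (nat_lit 78) (nat_lit 0) (nat_lit 0) (XT.lf (nat_lit 0) (nat_lit 194089305268) (nat_lit 152) (nat_lit 81089171209) (nat_lit 0) (nat_lit 192576848520) (nat_lit 1) (nat_lit 5) (nat_lit 3) (nat_lit 4) (nat_lit 1) (nat_lit 4) (nat_lit 314) (nat_lit 212) (nat_lit 194)) (XT.lf (nat_lit 0) (nat_lit 210139156016) (nat_lit 152) (nat_lit 86389374017) (nat_lit 0) (nat_lit 208589305041) (nat_lit 1) (nat_lit 5) (nat_lit 3) (nat_lit 4) (nat_lit 1) (nat_lit 4) (nat_lit 315) (nat_lit 212) (nat_lit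 193)))) (XT.nd (nat_lit 78) (nat_lit 0) (nat_lit 0) (XT.lf (nat_lit 0) (nat_lit 227456514955) (nat_lit 152) (nat_lit 92142186519) (nat_lit 0) (nat_lit 225872039695) (nat_lit 1) (nat_lit 5) (nat_lit 3) (nat_lit 4) (nat_lit 1) (nat_lit 4) (nat_lit 316) (nat_lit 212) (nat_lit 192)) (XT.nd (nat_lit 78) (nat_lit 0) (nat_lit 0) (XT.lf (nat_lit 0) (nat_lit 246144003469) (nat_lit 152) (nat_lit 98381699455) (nat_lit 0) (nat_lit 244527468687) (nat_lit 1) (nat_lit 5) (nat_lit 3) (nat_lit 4) (nat_lit 1) (nat_lit 4) (nat_lit 317) (nat_lit 212) (nat_lit 191)) (XT.lf (nat_lit 0) (nat_lit 266312362232) (nat_lit 152) (nat_lit 105144887717) (nat_lit 0) (nat_lit 264666142707) (nat_lit 1) (nat_lit 5) (nat_lit 3) (nat_lit 4) (nat_lit 1) (nat_lit 4) (nat_lit 318) (nat_lit 212) (nat_lit 190))))) (XT.nd (nat_lit 234) (nat_lit 0) (nat_lit 0) (XT.nd (nat_lit 78) (nat_lit 0) (nat_lit 0) (XT.lf (nat_lit 0) (nat_lit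 288081107444) (nat_lit 152) (nat_lit 112471829457) (nat_lit 0) (nat_lit 286407402046) (nat_lit 1) (nat_lit 5) (nat_lit 3) (nat_lit 4) (nat_lit 1) (nat_lit 4) (nat_lit 319) (nat_lit 212) (nat_lit 189)) (XT.nd (nat_lit 78) (nat_lit 0) (nat_lit 0) (XT.lf (nat_lit 0) (nat_lit 311579239077) (nat_lit 152) (nat_lit 120405943589) (nat_lit 0) (nat_lit 309880083796) (nat_lit 1) (nat_lit 5) (nat_lit 3) (nat_lit 4) (nat_lit 1) (nat_lit 4) (nat_lit 320) (nat_lit 212) (nat_lit 188)) (XT.lf (nat_lit 0) (nat_lit 336946005317) (nat_lit 152) (nat_lit 128994247086) (nat_lit 0) (nat_lit 335223285330) (nat_lit 1) (nat_lit 5) (nat_lit 3) (nat_lit 4) (nat_lit 1) (nat_lit 4) (nat_lit 321) (nat_lit 212) (nat_lit 187)))) (XT.nd (nat_lit 156) (nat_lit 0) (nat_lit 0) (XT.nd (nat_lit 78) (nat_lit 0) (nat_lit 0) (XT.lf (nat_lit 0) (nat_lit 364331727743) (nat_lit 152) (nat_lit 138287633598) (nat_lit 0) (nat_lit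 362587188584) (nat_lit 1) (nat_lit 5) (nat_lit 3) (nat_lit 4) (nat_lit 1) (nat_lit 4) (nat_lit 322) (nat_lit 212) (nat_lit 186)) (XT.lf (nat_lit 0) (nat_lit 393898692117) (nat_lit 152) (nat_lit 148341175046) (nat_lit 0) (nat_lit 392133950021) (nat_lit 1) (nat_lit 5) (nat_lit 3) (nat_lit 4) (nat_lit 1) (nat_lit 4) (nat_lit 323) (nat_lit 212) (nat_lit 185))) (XT.nd (nat_lit 78) (nat_lit 0) (nat_lit 0) (XT.lf (nat_lit 0) (nat_lit 425822110080) (nat_lit 152) (nat_lit 159214447970) (nat_lit 0) (nat_lit 424038661561) (nat_lit 1) (nat_lit 5) (nat_lit 3) (nat_lit 4) (nat_lit 1) (nat_lit 4) (nat_lit 324) (nat_lit 212) (nat_lit 184)) (XT.lf (nat_lit 0) (nat_lit 460291157442) (nat_lit 152) (nat_lit 170971886582) (nat_lit 0) (nat_lit 458490388160) (nat_lit 1) (nat_lit 5) (nat_lit 3) (nat_lit 4) (nat_lit 1) (nat_lit 4) (nat_lit 325) (nat_lit 212) (nat_lit 183))))))) (XT.nd (nat_lit 1014) (nat_lit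 0) (nat_lit 0) (XT.nd (nat_lit 468) (nat_lit 0) (nat_lit 0) (XT.nd (nat_lit 234) (nat_lit 0) (nat_lit 0) (XT.nd (nat_lit 78) (nat_lit 0) (nat_lit 0) (XT.lf (nat_lit 0) (nat_lit 497510095225) (nat_lit 152) (nat_lit 183683164591) (nat_lit 0) (nat_lit 495693288200) (nat_lit 1) (nat_lit 5) (nat_lit 3) (nat_lit 4) (nat_lit 1) (nat_lit 4) (nat_lit 326) (nat_lit 212) (nat_lit 182)) (XT.nd (nat_lit 78) (nat_lit 0) (nat_lit 0) (XT.lf (nat_lit 0) (nat_lit 537699480096) (nat_lit 152) (nat_lit 197423608090) (nat_lit 0) (nat_lit 535867823310) (nat_lit 1) (nat_lit 5) (nat_lit 3) (nat_lit 4) (nat_lit 1) (nat_lit 4) (nat_lit 327) (nat_lit 212) (nat_lit 181)) (XT.lf (nat_lit 0) (nat_lit 581097471374) (nat_lit 152) (nat_lit 212274641928) (nat_lit 0) (nat_lit 579252064808) (nat_lit 1) (nat_lit 5) (nat_lit 3) (nat_lit 4) (nat_lit 1) (nat_lit 4) (nat_lit 328) (nat_lit 212) (nat_lit 180)))) (XT.nd (nat_lit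 78) (nat_lit 0) (nat_lit 0) (XT.lf (nat_lit 0) (nat_lit 627961242341) (nat_lit 152) (nat_lit 228324272232) (nat_lit 0) (nat_lit 626103104497) (nat_lit 1) (nat_lit 5) (nat_lit 3) (nat_lit 4) (nat_lit 1) (nat_lit 4) (nat_lit 329) (nat_lit 212) (nat_lit 179)) (XT.nd (nat_lit 78) (nat_lit 0) (nat_lit 0) (XT.lf (nat_lit 0) (nat_lit 678568504230) (nat_lit 152) (nat_lit 245667607923) (nat_lit 0) (nat_lit 676698578166) (nat_lit 1) (nat_lit 5) (nat_lit 3) (nat_lit 4) (nat_lit 1) (nat_lit 4) (nat_lit 330) (nat_lit 212) (nat_lit 178)) (XT.lf (nat_lit 0) (nat_lit 733219151929) (nat_lit 152) (nat_lit 264407424322) (nat_lit 0) (nat_lit 731338310847) (nat_lit 1) (nat_lit 5) (nat_lit 3) (nat_lit 4) (nat_lit 1) (nat_lit 4) (nat_lit 331) (nat_lit 212) (nat_lit 177))))) (XT.nd (nat_lit 234) (nat_lit 0) (nat_lit 0) (XT.nd (nat_lit 78) (nat_lit 0) (nat_lit 0) (XT.lf (nat_lit 0) (nat_lit 792237041127)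 (nat_lit 152) (nat_lit 284654772195) (nat_lit 0) (nat_lit 790346093546) (nat_lit 1) (nat_lit 5) (nat_lit 3) (nat_lit 4) (nat_lit 1) (nat_lit 4) (nat_lit 332) (nat_lit 212) (nat_lit 176)) (XT.nd (nat_lit 78) (nat_lit 0) (nat_lit 0) (XT.lf (nat_lit 0) (nat_lit 855971907463) (nat_lit 152) (nat_lit 306529635824) (nat_lit 0) (nat_lit 854071602013) (nat_lit 1) (nat_lit 5) (nat_lit 3) (nat_lit 4) (nat_lit 1) (nat_lit 4) (nat_lit 333) (nat_lit 212) (nat_lit 175)) (XT.lf (nat_lit 0) (nat_lit 924801439034) (nat_lit 152) (nat_lit 330161644032) (nat_lit 0) (nat_lit 922892468891) (nat_lit 1) (nat_lit 5) (nat_lit 3) (nat_lit 4) (nat_lit 1) (nat_lit 4) (nat_lit 334) (nat_lit 212) (nat_lit 174)))) (XT.nd (nat_lit 156) (nat_lit 0) (nat_lit 0) (XT.nd (nat_lit 78) (nat_lit 0) (nat_lit 0) (XT.lf (nat_lit 0) (nat_lit 999133514547) (nat_lit 152) (nat_lit 355690838347) (nat_lit 0) (nat_lit 997216521539)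 (nat_lit 1) (nat_lit 5) (nat_lit 3) (nat_lit 4) (nat_lit 1) (nat_lit 4) (nat_lit 335) (nat_lit 212) (nat_lit 173)) (XT.lf (nat_lit 0) (nat_lit 1079408620374) (nat_lit 152) (nat_lit 383268502885) (nat_lit 0) (nat_lit 1077484198788) (nat_lit 1) (nat_lit 5) (nat_lit 3) (nat_lit 4) (nat_lit 1) (nat_lit 4) (nat_lit 336) (nat_lit 212) (nat_lit 172))) (XT.nd (nat_lit 78) (nat_lit 0) (nat_lit 0) (XT.lf (nat_lit 0) (nat_lit 1166102460846) (nat_lit 152) (nat_lit 413058060844) (nat_lit 0) (nat_lit 1164171160947) (nat_lit 1) (nat_lit 5) (nat_lit 3) (nat_lit 4) (nat_lit 1) (nat_lit 4) (nat_lit 337) (nat_lit 212) (nat_lit 171)) (XT.lf (nat_lit 0) (nat_lit 1259728777240) (nat_lit 152) (nat_lit 445236042936) (nat_lit 0) (nat_lit 1257791108533) (nat_lit 1) (nat_lit 5) (nat_lit 3) (nat_lit 4) (nat_lit 1) (nat_lit 4) (nat_lit 338) (nat_lit 212) (nat_lit 170)))))) (XT.nd (nat_lit 546) (nat_lit 0) (nat_lit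 0) (XT.nd (nat_lit 234) (nat_lit 0) (nat_lit 0) (XT.nd (nat_lit 78) (nat_lit 0) (nat_lit 0) (XT.lf (nat_lit 0) (nat_lit 1360842392172) (nat_lit 152) (nat_lit 479993133500) (nat_lit 0) (nat_lit 1358898826420) (nat_lit 1) (nat_lit 5) (nat_lit 3) (nat_lit 4) (nat_lit 1) (nat_lit 4) (nat_lit 339) (nat_lit 212) (nat_lit 169)) (XT.nd (nat_lit 78) (nat_lit 0) (nat_lit 0) (XT.lf (nat_lit 0) (nat_lit 1470042497434) (nat_lit 152) (nat_lit 517535300480) (nat_lit 0) (nat_lit 1468093471455) (nat_lit 1) (nat_lit 5) (nat_lit 3) (nat_lit 4) (nat_lit 1) (nat_lit 4) (nat_lit 340) (nat_lit 212) (nat_lit 168)) (XT.lf (nat_lit 0) (nat_lit 1587976204761) (nat_lit 152) (nat_lit 558085015977) (nat_lit 0) (nat_lit 1586022123017) (nat_lit 1) (nat_lit 5) (nat_lit 3) (nat_lit 4) (nat_lit 1) (nat_lit 4) (nat_lit 341) (nat_lit 212) (nat_lit 167)))) (XT.nd (nat_lit 156) (nat_lit 0) (nat_lit 0) (XT.nd (nat_lit 78)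 (nat_lit 0) (nat_lit 0) (XT.lf (nat_lit 0) (nat_lit 1715342380567) (nat_lit 152) (nat_lit 601882574601) (nat_lit 0) (nat_lit 1713383617558) (nat_lit 1) (nat_lit 5) (nat_lit 3) (nat_lit 4) (nat_lit 1) (nat_lit 4) (nat_lit 342) (nat_lit 212) (nat_lit 166)) (XT.lf (nat_lit 0) (nat_lit 1852895787374) (nat_lit 152) (nat_lit 649187517441) (nat_lit 0) (nat_lit 1850932689862) (nat_lit 1) (nat_lit 5) (nat_lit 3) (nat_lit 4) (nat_lit 1) (nat_lit 4) (nat_lit 343) (nat_lit 212) (nat_lit 165))) (XT.nd (nat_lit 78) (nat_lit 0) (nat_lit 0) (XT.lf (nat_lit 0) (nat_lit 2001451556483) (nat_lit 152) (nat_lit 700280170083) (nat_lit 0) (nat_lit 1999484445541) (nat_lit 1) (nat_lit 5) (nat_lit 3) (nat_lit 4) (nat_lit 1) (nat_lit 4) (nat_lit 344) (nat_lit 212) (nat_lit 164)) (XT.lf (nat_lit 0) (nat_lit 2161890018377) (nat_lit 152) (nat_lit 755463303802) (nat_lit 0) (nat_lit 2159919191297) (nat_lit 1) (nat_lit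 5) (nat_lit 3) (nat_lit 4) (nat_lit 1) (nat_lit 4) (nat_lit 345) (nat_lit 212) (nat_lit 163))))) (XT.nd (nat_lit 33618) (nat_lit 0) (nat_lit 0) (XT.nd (nat_lit 33462) (nat_lit 0) (nat_lit 0) (XT.lf (nat_lit 0) (nat_lit 2335161919497) (nat_lit 152) (nat_lit 815063929762) (nat_lit 0) (nat_lit 2333187651548) (nat_lit 1) (nat_lit 5) (nat_lit 3) (nat_lit 4) (nat_lit 1) (nat_lit 4) (nat_lit 346) (nat_lit 212) (nat_lit 162)) (XT.nd (nat_lit 78) (nat_lit 0) (nat_lit 0) (XT.lf (nat_lit 0) (nat_lit 16235830860) (nat_lit 152) (nat_lit 18168441253) (nat_lit 0) (nat_lit 16235830860) (nat_lit 1) (nat_lit 5) (nat_lit 3) (nat_lit 4) (nat_lit 1) (nat_lit 4) (nat_lit 294) (nat_lit 213) (nat_lit 213)) (XT.lf (nat_lit 0) (nat_lit 36353790589) (nat_lit 152) (nat_lit 36712928873) (nat_lit 0) (nat_lit 36192408284) (nat_lit 1) (nat_lit 5) (nat_lit 3) (nat_lit 4) (nat_lit 1) (nat_lit 4) (nat_lit 295) (nat_lit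 213) (nat_lit 212)))) (XT.nd (nat_lit 156) (nat_lit 0) (nat_lit 0) (XT.nd (nat_lit 78) (nat_lit 0) (nat_lit 0) (XT.lf (nat_lit 0) (nat_lit 40475367573) (nat_lit 152) (nat_lit 37242459811) (nat_lit 0) (nat_lit 40164557208) (nat_lit 1) (nat_lit 5) (nat_lit 3) (nat_lit 4) (nat_lit 1) (nat_lit 4) (nat_lit 296) (nat_lit 213) (nat_lit 211)) (XT.lf (nat_lit 0) (nat_lit 44860816834) (nat_lit 152) (nat_lit 37928613282) (nat_lit 0) (nat_lit 44411647154) (nat_lit 1) (nat_lit 5) (nat_lit 3) (nat_lit 4) (nat_lit 1) (nat_lit 4) (nat_lit 297) (nat_lit 213) (nat_lit 210))) (XT.nd (nat_lit 78) (nat_lit 0) (nat_lit 0) (XT.lf (nat_lit 0) (nat_lit 49536126219) (nat_lit 152) (nat_lit 38775455381) (nat_lit 0) (nat_lit 48958846062) (nat_lit 1) (nat_lit 5) (nat_lit 3) (nat_lit 4) (nat_lit 1) (nat_lit 4) (nat_lit 298) (nat_lit 213) (nat_lit 209)) (XT.lf (nat_lit 0) (nat_lit 54529001265) (nat_lit 152) (nat_lit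 39788004432) (nat_lit 0) (nat_lit 53833100296) (nat_lit 1) (nat_lit 5) (nat_lit 3) (nat_lit 4) (nat_lit 1) (nat_lit 4) (nat_lit 299) (nat_lit 213) (nat_lit 208))))))))
noncomputable def xc13 : XT := (XT.nd (nat_lit 2106) (nat_lit 0) (nat_lit 0) (XT.nd (nat_lit 1014) (nat_lit 0) (nat_lit 0) (XT.nd (nat_lit 468) (nat_lit 0) (nat_lit 0) (XT.nd (nat_lit 234) (nat_lit 0) (nat_lit 0) (XT.nd (nat_lit 78) (nat_lit 0) (nat_lit 0) (XT.lf (nat_lit 0) (nat_lit 59869029379) (nat_lit 152) (nat_lit 40972260724) (nat_lit 0) (nat_lit 59063294325) (nat_lit 1) (nat_lit 5) (nat_lit 3) (nat_lit 4) (nat_lit 1) (nat_lit 4) (nat_lit 300) (nat_lit 213) (nat_lit 207)) (XT.nd (nat_lit 78) (nat_lit 0) (nat_lit 0) (XT.lf (nat_lit 0) (nat_lit 65587855174) (nat_lit 152) (nat_lit 42335242074) (nat_lit 0) (nat_lit 64680421893) (nat_lit 1) (nat_lit 5) (nat_lit 3) (nat_lit 4) (nat_lit 1) (nat_lit 4) (nat_lit 301) (nat_lit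 213) (nat_lit 206)) (XT.lf (nat_lit 0) (nat_lit 71719367986) (nat_lit 152) (nat_lit 43885025408) (nat_lit 0) (nat_lit 70717769680) (nat_lit 1) (nat_lit 5) (nat_lit 3) (nat_lit 4) (nat_lit 1) (nat_lit 4) (nat_lit 302) (nat_lit 213) (nat_lit 205)))) (XT.nd (nat_lit 78) (nat_lit 0) (nat_lit 0) (XT.lf (nat_lit 0) (nat_lit 78299902707) (nat_lit 152) (nat_lit 45630794626) (nat_lit 0) (nat_lit 77211114563) (nat_lit 1) (nat_lit 5) (nat_lit 3) (nat_lit 4) (nat_lit 1) (nat_lit 4) (nat_lit 303) (nat_lit 213) (nat_lit 204)) (XT.nd (nat_lit 78) (nat_lit 0) (nat_lit 0) (XT.lf (nat_lit 0) (nat_lit 85368455098) (nat_lit 152) (nat_lit 47582895028) (nat_lit 0) (nat_lit 84198935623) (nat_lit 1) (nat_lit 5) (nat_lit 3) (nat_lit 4) (nat_lit 1) (nat_lit 4) (nat_lit 304) (nat_lit 213) (nat_lit 203)) (XT.lf (nat_lit 0) (nat_lit 92966912876) (nat_lit 152) (nat_lit 49752894617) (nat_lit 0) (nat_lit 91722642169)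 (nat_lit 1) (nat_lit 5) (nat_lit 3) (nat_lit 4) (nat_lit 1) (nat_lit 4) (nat_lit 305) (nat_lit 213) (nat_lit 202))))) (XT.nd (nat_lit 234) (nat_lit 0) (nat_lit 0) (XT.nd (nat_lit 78) (nat_lit 0) (nat_lit 0) (XT.lf (nat_lit 0) (nat_lit 101140303941) (nat_lit 152) (nat_lit 52153652649) (nat_lit 0) (nat_lit 99826819129) (nat_lit 1) (nat_lit 5) (nat_lit 3) (nat_lit 4) (nat_lit 1) (nat_lit 4) (nat_lit 306) (nat_lit 213) (nat_lit 201)) (XT.nd (nat_lit 78) (nat_lit 0) (nat_lit 0) (XT.lf (nat_lit 0) (nat_lit 109937063201) (nat_lit 152) (nat_lit 54799395838) (nat_lit 0) (nat_lit 108559491255) (nat_lit 1) (nat_lit 5) (nat_lit 3) (nat_lit 4) (nat_lit 1) (nat_lit 4) (nat_lit 307) (nat_lit 213) (nat_lit 200)) (XT.lf (nat_lit 0) (nat_lit 119409319601) (nat_lit 152) (nat_lit 57705802663) (nat_lit 0) (nat_lit 117972407716) (nat_lit 1) (nat_lit 5) (nat_lit 3) (nat_lit 4) (nat_lit 1) (nat_lit 4) (nat_lit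 308) (nat_lit 213) (nat_lit 199)))) (XT.nd (nat_lit 156) (nat_lit 0) (nat_lit 0) (XT.nd (nat_lit 78) (nat_lit 0) (nat_lit 0) (XT.lf (nat_lit 0) (nat_lit 129613205029) (nat_lit 152) (nat_lit 60890096275) (nat_lit 0) (nat_lit 128121348757) (nat_lit 1) (nat_lit 5) (nat_lit 3) (nat_lit 4) (nat_lit 1) (nat_lit 4) (nat_lit 309) (nat_lit 213) (nat_lit 198)) (XT.lf (nat_lit 0) (nat_lit 140609186957) (nat_lit 152) (nat_lit 64371146562) (nat_lit 0) (nat_lit 139066456252) (nat_lit 1) (nat_lit 5) (nat_lit 3) (nat_lit 4) (nat_lit 1) (nat_lit 4) (nat_lit 310) (nat_lit 213) (nat_lit 197))) (XT.nd (nat_lit 78) (nat_lit 0) (nat_lit 0) (XT.lf (nat_lit 0) (nat_lit 152462426757) (nat_lit 152) (nat_lit 68169581970) (nat_lit 0) (nat_lit 150872590096) (nat_lit 1) (nat_lit 5) (nat_lit 3) (nat_lit 4) (nat_lit 1) (nat_lit 4) (nat_lit 311) (nat_lit 213) (nat_lit 196)) (XT.lf (nat_lit 0) (nat_lit 165243165851)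 (nat_lit 152) (nat_lit 72307911747) (nat_lit 0) (nat_lit 163609712563) (nat_lit 1) (nat_lit 5) (nat_lit 3) (nat_lit 4) (nat_lit 1) (nat_lit 4) (nat_lit 312) (nat_lit 213) (nat_lit 195)))))) (XT.nd (nat_lit 546) (nat_lit 0) (nat_lit 0) (XT.nd (nat_lit 234) (nat_lit 0) (nat_lit 0) (XT.nd (nat_lit 78) (nat_lit 0) (nat_lit 0) (XT.lf (nat_lit 0) (nat_lit 179027141953) (nat_lit 152) (nat_lit 76810659328) (nat_lit 0) (nat_lit 177353302900) (nat_lit 1) (nat_lit 5) (nat_lit 3) (nat_lit 4) (nat_lit 1) (nat_lit 4) (nat_lit 313) (nat_lit 213) (nat_lit 194)) (XT.nd (nat_lit 78) (nat_lit 0) (nat_lit 0) (XT.lf (nat_lit 0) (nat_lit 193896037882) (nat_lit 152) (nat_lit 81704507661) (nat_lit 0) (nat_lit 192184804602) (nat_lit 1) (nat_lit 5) (nat_lit 3) (nat_lit 4) (nat_lit 1) (nat_lit 4) (nat_lit 314) (nat_lit 213) (nat_lit 193)) (XT.lf (nat_lit 0) (nat_lit 209937965616) (nat_lit 152) (nat_lit 87018457330)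 (nat_lit 0) (nat_lit 208192108052) (nat_lit 1) (nat_lit 5) (nat_lit 3) (nat_lit 4) (nat_lit 1) (nat_lit 4) (nat_lit 315) (nat_lit 213) (nat_lit 192)))) (XT.nd (nat_lit 156) (nat_lit 0) (nat_lit 0) (XT.nd (nat_lit 78) (nat_lit 0) (nat_lit 0) (XT.lf (nat_lit 0) (nat_lit 227247988430) (nat_lit 152) (nat_lit 92783998406) (nat_lit 0) (nat_lit 225470071343) (nat_lit 1) (nat_lit 5) (nat_lit 3) (nat_lit 4) (nat_lit 1) (nat_lit 4) (nat_lit 316) (nat_lit 213) (nat_lit 191)) (XT.lf (nat_lit 0) (nat_lit 245928684237) (nat_lit 152) (nat_lit 99035297059) (nat_lit 0) (nat_lit 244121082407) (nat_lit 1) (nat_lit 5) (nat_lit 3) (nat_lit 4) (nat_lit 1) (nat_lit 4) (nat_lit 317) (nat_lit 213) (nat_lit 190))) (XT.nd (nat_lit 78) (nat_lit 0) (nat_lit 0) (XT.lf (nat_lit 0) (nat_lit 266090753455) (nat_lit 152) (nat_lit 105809398021) (nat_lit 0) (nat_lit 264255665753) (nat_lit 1) (nat_lit 5) (nat_lit 3) (nat_lit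 4) (nat_lit 1) (nat_lit 4) (nat_lit 318) (nat_lit 213) (nat_lit 189)) (XT.lf (nat_lit 0) (nat_lit 287853675015) (nat_lit 152) (nat_lit 113146444113) (nat_lit 0) (nat_lit 285993137430) (nat_lit 1) (nat_lit 5) (nat_lit 3) (nat_lit 4) (nat_lit 1) (nat_lit 4) (nat_lit 319) (nat_lit 213) (nat_lit 188))))) (XT.nd (nat_lit 234) (nat_lit 0) (nat_lit 0) (XT.nd (nat_lit 78) (nat_lit 0) (nat_lit 0) (XT.lf (nat_lit 0) (nat_lit 311346414377) (nat_lit 152) (nat_lit 121089914127) (nat_lit 0) (nat_lit 309462312086) (nat_lit 1) (nat_lit 5) (nat_lit 3) (nat_lit 4) (nat_lit 1) (nat_lit 4) (nat_lit 320) (nat_lit 213) (nat_lit 187)) (XT.nd (nat_lit 78) (nat_lit 0) (nat_lit 0) (XT.lf (nat_lit 0) (nat_lit 336708187774) (nat_lit 152) (nat_lit 129686880478) (nat_lit 0) (nat_lit 334802266311) (nat_lit 1) (nat_lit 5) (nat_lit 3) (nat_lit 4) (nat_lit 1) (nat_lit 4) (nat_lit 321) (nat_lit 213) (nat_lit 186))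 (XT.lf (nat_lit 0) (nat_lit 364089287198) (nat_lit 152) (nat_lit 138988288151) (nat_lit 0) (nat_lit 362163162797) (nat_lit 1) (nat_lit 5) (nat_lit 3) (nat_lit 4) (nat_lit 1) (nat_lit 4) (nat_lit 322) (nat_lit 213) (nat_lit 185)))) (XT.nd (nat_lit 156) (nat_lit 0) (nat_lit 0) (XT.nd (nat_lit 78) (nat_lit 0) (nat_lit 0) (XT.lf (nat_lit 0) (nat_lit 393651971014) (nat_lit 152) (nat_lit 149049256599) (nat_lit 0) (nat_lit 391707140189) (nat_lit 1) (nat_lit 5) (nat_lit 3) (nat_lit 4) (nat_lit 1) (nat_lit 4) (nat_lit 323) (nat_lit 213) (nat_lit 184)) (XT.lf (nat_lit 0) (nat_lit 425571425497) (nat_lit 152) (nat_lit 159929406376) (nat_lit 0) (nat_lit 423609273910) (nat_lit 1) (nat_lit 5) (nat_lit 3) (nat_lit 4) (nat_lit 1) (nat_lit 4) (nat_lit 324) (nat_lit 213) (nat_lit 183))) (XT.nd (nat_lit 78) (nat_lit 0) (nat_lit 0) (XT.lf (nat_lit 0) (nat_lit 460036802970) (nat_lit 152) (nat_lit 171693212444)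 (nat_lit 0) (nat_lit 458058613640) (nat_lit 1) (nat_lit 5) (nat_lit 3) (nat_lit 4) (nat_lit 1) (nat_lit 4) (nat_lit 325) (nat_lit 213) (nat_lit 182)) (XT.lf (nat_lit 0) (nat_lit 497252342708) (nat_lit 152) (nat_lit 184410386245) (nat_lit 0) (nat_lit 495259303616) (nat_lit 1) (nat_lit 5) (nat_lit 3) (nat_lit 4) (nat_lit 1) (nat_lit 4) (nat_lit 326) (nat_lit 213) (nat_lit 181))))))) (XT.nd (nat_lit 1014) (nat_lit 0) (nat_lit 0) (XT.nd (nat_lit 468) (nat_lit 0) (nat_lit 0) (XT.nd (nat_lit 234) (nat_lit 0) (nat_lit 0) (XT.nd (nat_lit 78) (nat_lit 0) (nat_lit 0) (XT.lf (nat_lit 0) (nat_lit 537438581241) (nat_lit 152) (nat_lit 198156288811) (nat_lit 0) (nat_lit 535431792370) (nat_lit 1) (nat_lit 5) (nat_lit 3) (nat_lit 4) (nat_lit 1) (nat_lit 4) (nat_lit 327) (nat_lit 213) (nat_lit 180)) (XT.nd (nat_lit 78) (nat_lit 0) (nat_lit 0) (XT.lf (nat_lit 0) (nat_lit 580833659243) (nat_lit 152)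 (nat_lit 213012377341) (nat_lit 0) (nat_lit 578814139094) (nat_lit 1) (nat_lit 5) (nat_lit 3) (nat_lit 4) (nat_lit 1) (nat_lit 4) (nat_lit 328) (nat_lit 213) (nat_lit 179)) (XT.lf (nat_lit 0) (nat_lit 627694732732) (nat_lit 152) (nat_lit 229066687915) (nat_lit 0) (nat_lit 625663424363) (nat_lit 1) (nat_lit 5) (nat_lit 3) (nat_lit 4) (nat_lit 1) (nat_lit 4) (nat_lit 329) (nat_lit 213) (nat_lit 178)))) (XT.nd (nat_lit 78) (nat_lit 0) (nat_lit 0) (XT.lf (nat_lit 0) (nat_lit 678299496957) (nat_lit 152) (nat_lit 246414357190) (nat_lit 0) (nat_lit 676257273570) (nat_lit 1) (nat_lit 5) (nat_lit 3) (nat_lit 4) (nat_lit 1) (nat_lit 4) (nat_lit 330) (nat_lit 213) (nat_lit 177)) (XT.nd (nat_lit 78) (nat_lit 0) (nat_lit 0) (XT.lf (nat_lit 0) (nat_lit 732947832003) (nat_lit 152) (nat_lit 265158186167) (nat_lit 0) (nat_lit 730895502117) (nat_lit 1) (nat_lit 5) (nat_lit 3) (nat_lit 4) (nat_lit 1)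 (nat_lit 4) (nat_lit 331) (nat_lit 213) (nat_lit 176)) (XT.lf (nat_lit 0) (nat_lit 791963579856) (nat_lit 152) (nat_lit 285409249389) (nat_lit 0) (nat_lit 789901892101) (nat_lit 1) (nat_lit 5) (nat_lit 3) (nat_lit 4) (nat_lit 1) (nat_lit 4) (nat_lit 332) (nat_lit 213) (nat_lit 175))))) (XT.nd (nat_lit 234) (nat_lit 0) (nat_lit 0) (XT.nd (nat_lit 78) (nat_lit 0) (nat_lit 0) (XT.lf (nat_lit 0) (nat_lit 855696463465) (nat_lit 152) (nat_lit 307287553156) (nat_lit 0) (nat_lit 853626111017) (nat_lit 1) (nat_lit 5) (nat_lit 3) (nat_lit 4) (nat_lit 1) (nat_lit 4) (nat_lit 333) (nat_lit 213) (nat_lit 174)) (XT.nd (nat_lit 78) (nat_lit 0) (nat_lit 0) (XT.lf (nat_lit 0) (nat_lit 924524159179) (nat_lit 152) (nat_lit 330922746677) (nat_lit 0) (nat_lit 922445783866) (nat_lit 1) (nat_lit 5) (nat_lit 3) (nat_lit 4) (nat_lit 1) (nat_lit 4) (nat_lit 334) (nat_lit 213) (nat_lit 173)) (XT.lf (nat_lit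 0) (nat_lit 998854534823) (nat_lit 152) (nat_lit 356454890357) (nat_lit 0) (nat_lit 996768730932) (nat_lit 1) (nat_lit 5) (nat_lit 3) (nat_lit 4) (nat_lit 1) (nat_lit 4) (nat_lit 335) (nat_lit 213) (nat_lit 172)))) (XT.nd (nat_lit 156) (nat_lit 0) (nat_lit 0) (XT.nd (nat_lit 78) (nat_lit 0) (nat_lit 0) (XT.lf (nat_lit 0) (nat_lit 1079128066697) (nat_lit 152) (nat_lit 384035285788) (nat_lit 0) (nat_lit 1077035384493) (nat_lit 1) (nat_lit 5) (nat_lit 3) (nat_lit 4) (nat_lit 1) (nat_lit 4) (nat_lit 336) (nat_lit 213) (nat_lit 171)) (XT.lf (nat_lit 0) (nat_lit 1165820449806) (nat_lit 152) (nat_lit 413827372350) (nat_lit 0) (nat_lit 1163721398794) (nat_lit 1) (nat_lit 5) (nat_lit 3) (nat_lit 4) (nat_lit 1) (nat_lit 4) (nat_lit 337) (nat_lit 213) (nat_lit 170))) (XT.nd (nat_lit 78) (nat_lit 0) (nat_lit 0) (XT.lf (nat_lit 0) (nat_lit 1259445416790) (nat_lit 152) (nat_lit 446007695743) (nat_lit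 0) (nat_lit 1257340468733) (nat_lit 1) (nat_lit 5) (nat_lit 3) (nat_lit 4) (nat_lit 1) (nat_lit 4) (nat_lit 338) (nat_lit 213) (nat_lit 169)) (XT.lf (nat_lit 0) (nat_lit 1360557782268) (nat_lit 152) (nat_lit 480766954177) (nat_lit 0) (nat_lit 1358447373984) (nat_lit 1) (nat_lit 5) (nat_lit 3) (nat_lit 4) (nat_lit 1) (nat_lit 4) (nat_lit 339) (nat_lit 213) (nat_lit 168)))))) (XT.nd (nat_lit 33774) (nat_lit 0) (nat_lit 0) (XT.nd (nat_lit 234) (nat_lit 0) (nat_lit 0) (XT.nd (nat_lit 78) (nat_lit 0) (nat_lit 0) (XT.lf (nat_lit 0) (nat_lit 1469756730628) (nat_lit 152) (nat_lit 518311128445) (nat_lit 0) (nat_lit 1467641266579) (nat_lit 1) (nat_lit 5) (nat_lit 3) (nat_lit 4) (nat_lit 1) (nat_lit 4) (nat_lit 340) (nat_lit 213) (nat_lit 167)) (XT.nd (nat_lit 78) (nat_lit 0) (nat_lit 0) (XT.lf (nat_lit 0) (nat_lit 1587689366749) (nat_lit 152) (nat_lit 558862702542) (nat_lit 0) (nat_lit 1585569221436)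 (nat_lit 1) (nat_lit 5) (nat_lit 3) (nat_lit 4) (nat_lit 1) (nat_lit 4) (nat_lit 341) (nat_lit 213) (nat_lit 166)) (XT.lf (nat_lit 0) (nat_lit 1715054550698) (nat_lit 152) (nat_lit 602661982092) (nat_lit 0) (nat_lit 1712930070880) (nat_lit 1) (nat_lit 5) (nat_lit 3) (nat_lit 4) (nat_lit 1) (nat_lit 4) (nat_lit 342) (nat_lit 213) (nat_lit 165)))) (XT.nd (nat_lit 156) (nat_lit 0) (nat_lit 0) (XT.nd (nat_lit 78) (nat_lit 0) (nat_lit 0) (XT.lf (nat_lit 0) (nat_lit 1852607039119) (nat_lit 152) (nat_lit 649968518381) (nat_lit 0) (nat_lit 1850478545872) (nat_lit 1) (nat_lit 5) (nat_lit 3) (nat_lit 4) (nat_lit 1) (nat_lit 4) (nat_lit 343) (nat_lit 213) (nat_lit 164)) (XT.lf (nat_lit 0) (nat_lit 2001161957871) (nat_lit 152) (nat_lit 701062646440) (nat_lit 0) (nat_lit 1999029748485) (nat_lit 1) (nat_lit 5) (nat_lit 3) (nat_lit 4) (nat_lit 1) (nat_lit 4) (nat_lit 344) (nat_lit 213) (nat_lit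 163))) (XT.nd (nat_lit 78) (nat_lit 0) (nat_lit 0) (XT.lf (nat_lit 0) (nat_lit 2161599632397) (nat_lit 152) (nat_lit 756247146285) (nat_lit 0) (nat_lit 2159463982142) (nat_lit 1) (nat_lit 5) (nat_lit 3) (nat_lit 4) (nat_lit 1) (nat_lit 4) (nat_lit 345) (nat_lit 213) (nat_lit 162)) (XT.lf (nat_lit 0) (nat_lit 2334870804473) (nat_lit 152) (nat_lit 815849037177) (nat_lit 0) (nat_lit 2332731968228) (nat_lit 1) (nat_lit 5) (nat_lit 3) (nat_lit 4) (nat_lit 1) (nat_lit 4) (nat_lit 346) (nat_lit 213) (nat_lit 161))))) (XT.nd (nat_lit 234) (nat_lit 0) (nat_lit 0) (XT.nd (nat_lit 78) (nat_lit 0) (nat_lit 0) (XT.lf (nat_lit 0) (nat_lit 12774593077) (nat_lit 152) (nat_lit 17984013363) (nat_lit 0) (nat_lit 12774593077) (nat_lit 1) (nat_lit 5) (nat_lit 3) (nat_lit 4) (nat_lit 1) (nat_lit 4) (nat_lit 292) (nat_lit 214) (nat_lit 214)) (XT.nd (nat_lit 78) (nat_lit 0) (nat_lit 0) (XT.lf (nat_lit 0)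 (nat_lit 28980268652) (nat_lit 152) (nat_lit 36112092290) (nat_lit 0) (nat_lit 28805975762) (nat_lit 1) (nat_lit 5) (nat_lit 3) (nat_lit 4) (nat_lit 1) (nat_lit 4) (nat_lit 293) (nat_lit 214) (nat_lit 213)) (XT.lf (nat_lit 0) (nat_lit 32609025780) (nat_lit 152) (nat_lit 36400956032) (nat_lit 0) (nat_lit 32273350586) (nat_lit 1) (nat_lit 5) (nat_lit 3) (nat_lit 4) (nat_lit 1) (nat_lit 4) (nat_lit 294) (nat_lit 214) (nat_lit 212)))) (XT.nd (nat_lit 156) (nat_lit 0) (nat_lit 0) (XT.nd (nat_lit 78) (nat_lit 0) (nat_lit 0) (XT.lf (nat_lit 0) (nat_lit 36456961286) (nat_lit 152) (nat_lit 36836329736) (nat_lit 0) (nat_lit 35971858031) (nat_lit 1) (nat_lit 5) (nat_lit 3) (nat_lit 4) (nat_lit 1) (nat_lit 4) (nat_lit 295) (nat_lit 214) (nat_lit 211)) (XT.lf (nat_lit 0) (nat_lit 40546877750) (nat_lit 152) (nat_lit 37420793394) (nat_lit 0) (nat_lit 39923415180) (nat_lit 1) (nat_lit 5) (nat_lit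 3) (nat_lit 4) (nat_lit 1) (nat_lit 4) (nat_lit 296) (nat_lit 214) (nat_lit 210))) (XT.nd (nat_lit 78) (nat_lit 0) (nat_lit 0) (XT.lf (nat_lit 0) (nat_lit 44903011714) (nat_lit 152) (nat_lit 38157810495) (nat_lit 0) (nat_lit 44151438667) (nat_lit 1) (nat_lit 5) (nat_lit 3) (nat_lit 4) (nat_lit 1) (nat_lit 4) (nat_lit 297) (nat_lit 214) (nat_lit 209)) (XT.lf (nat_lit 0) (nat_lit 49551177305) (nat_lit 152) (nat_lit 39051748548) (nat_lit 0) (nat_lit 48680983447) (nat_lit 1) (nat_lit 5) (nat_lit 3) (nat_lit 4) (nat_lit 1) (nat_lit 4) (nat_lit 298) (nat_lit 214) (nat_lit 208))))))))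
noncomputable def xc14 : XT := (XT.nd (nat_lit 2106) (nat_lit 0) (nat_lit 0) (XT.nd (nat_lit 1014) (nat_lit 0) (nat_lit 0) (XT.nd (nat_lit 468) (nat_lit 0) (nat_lit 0) (XT.nd (nat_lit 234) (nat_lit 0) (nat_lit 0) (XT.nd (nat_lit 78) (nat_lit 0) (nat_lit 0) (XT.lf (nat_lit 0) (nat_lit 54518919209) (nat_lit 152) (nat_lit 40107904963) (nat_lit 0) (nat_lit 53538891266) (nat_lit 1) (nat_lit 5) (nat_lit 3) (nat_lit 4) (nat_lit 1) (nat_lit 4) (nat_lit 299) (nat_lit 214) (nat_lit 207)) (XT.nd (nat_lit 78) (nat_lit 0) (nat_lit 0) (XT.lf (nat_lit 0) (nat_lit 59835675896) (nat_lit 152) (nat_lit 41332538445) (nat_lit 0) (nat_lit 58753949726) (nat_lit 1) (nat_lit 5) (nat_lit 3) (nat_lit 4) (nat_lit 1) (nat_lit 4) (nat_lit 300) (nat_lit 214) (nat_lit 206)) (XT.lf (nat_lit 0) (nat_lit 65532954073) (nat_lit 152) (nat_lit 42732906081) (nat_lit 0) (nat_lit 64357062878) (nat_lit 1) (nat_lit 5) (nat_lit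 3) (nat_lit 4) (nat_lit 1) (nat_lit 4) (nat_lit 301) (nat_lit 214) (nat_lit 205)))) (XT.nd (nat_lit 78) (nat_lit 0) (nat_lit 0) (XT.lf (nat_lit 0) (nat_lit 71644515387) (nat_lit 152) (nat_lit 44317306346) (nat_lit 0) (nat_lit 70381434354) (nat_lit 1) (nat_lit 5) (nat_lit 3) (nat_lit 4) (nat_lit 1) (nat_lit 4) (nat_lit 302) (nat_lit 214) (nat_lit 204)) (XT.nd (nat_lit 78) (nat_lit 0) (nat_lit 0) (XT.lf (nat_lit 0) (nat_lit 78206576498) (nat_lit 152) (nat_lit 46095128279) (nat_lit 0) (nat_lit 76862764134) (nat_lit 1) (nat_lit 5) (nat_lit 3) (nat_lit 4) (nat_lit 1) (nat_lit 4) (nat_lit 303) (nat_lit 214) (nat_lit 203)) (XT.lf (nat_lit 0) (nat_lit 85258023695) (nat_lit 152) (nat_lit 48076907121) (nat_lit 0) (nat_lit 83839460098) (nat_lit 1) (nat_lit 5) (nat_lit 3) (nat_lit 4) (nat_lit 1) (nat_lit 4) (nat_lit 304) (nat_lit 214) (nat_lit 202))))) (XT.nd (nat_lit 234) (nat_lit 0) (nat_lit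 0) (XT.nd (nat_lit 78) (nat_lit 0) (nat_lit 0) (XT.lf (nat_lit 0) (nat_lit 92840643331) (nat_lit 152) (nat_lit 50274386746) (nat_lit 0) (nat_lit 91352865630) (nat_lit 1) (nat_lit 5) (nat_lit 3) (nat_lit 4) (nat_lit 1) (nat_lit 4) (nat_lit 305) (nat_lit 214) (nat_lit 201)) (XT.nd (nat_lit 78) (nat_lit 0) (nat_lit 0) (XT.lf (nat_lit 0) (nat_lit 100999369449) (nat_lit 152) (nat_lit 52700589256) (nat_lit 0) (nat_lit 99447504614) (nat_lit 1) (nat_lit 5) (nat_lit 3) (nat_lit 4) (nat_lit 1) (nat_lit 4) (nat_lit 306) (nat_lit 214) (nat_lit 200)) (XT.lf (nat_lit 0) (nat_lit 109782550054) (nat_lit 152) (nat_lit 55369892148) (nat_lit 0) (nat_lit 108171345281) (nat_lit 1) (nat_lit 5) (nat_lit 3) (nat_lit 4) (nat_lit 1) (nat_lit 4) (nat_lit 307) (nat_lit 214) (nat_lit 199)))) (XT.nd (nat_lit 156) (nat_lit 0) (nat_lit 0) (XT.nd (nat_lit 78) (nat_lit 0) (nat_lit 0) (XT.lf (nat_lit 0) (nat_lit 119242233626)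 (nat_lit 152) (nat_lit 58298113511) (nat_lit 0) (nat_lit 117576084464) (nat_lit 1) (nat_lit 5) (nat_lit 3) (nat_lit 4) (nat_lit 1) (nat_lit 4) (nat_lit 308) (nat_lit 214) (nat_lit 198)) (XT.lf (nat_lit 0) (nat_lit 129434477547) (nat_lit 152) (nat_lit 61502605771) (nat_lit 0) (nat_lit 127717453953) (nat_lit 1) (nat_lit 5) (nat_lit 3) (nat_lit 4) (nat_lit 1) (nat_lit 4) (nat_lit 309) (nat_lit 214) (nat_lit 197))) (XT.nd (nat_lit 78) (nat_lit 0) (nat_lit 0) (XT.lf (nat_lit 0) (nat_lit 140419680301) (nat_lit 152) (nat_lit 65002358509) (nat_lit 0) (nat_lit 138655550750) (nat_lit 1) (nat_lit 5) (nat_lit 3) (nat_lit 4) (nat_lit 1) (nat_lit 4) (nat_lit 310) (nat_lit 214) (nat_lit 196)) (XT.lf (nat_lit 0) (nat_lit 152262939385) (nat_lit 152) (nat_lit 68818111002) (nat_lit 0) (nat_lit 150455193208) (nat_lit 1) (nat_lit 5) (nat_lit 3) (nat_lit 4) (nat_lit 1) (nat_lit 4) (nat_lit 311) (nat_lit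 214) (nat_lit 195)))))) (XT.nd (nat_lit 546) (nat_lit 0) (nat_lit 0) (XT.nd (nat_lit 234) (nat_lit 0) (nat_lit 0) (XT.nd (nat_lit 78) (nat_lit 0) (nat_lit 0) (XT.lf (nat_lit 0) (nat_lit 165034437075) (nat_lit 152) (nat_lit 72972475116) (nat_lit 0) (nat_lit 163186305133) (nat_lit 1) (nat_lit 5) (nat_lit 3) (nat_lit 4) (nat_lit 1) (nat_lit 4) (nat_lit 312) (nat_lit 214) (nat_lit 194)) (XT.nd (nat_lit 78) (nat_lit 0) (nat_lit 0) (XT.lf (nat_lit 0) (nat_lit 178809856321) (nat_lit 152) (nat_lit 77490069306) (nat_lit 0) (nat_lit 176924330151) (nat_lit 1) (nat_lit 5) (nat_lit 3) (nat_lit 4) (nat_lit 1) (nat_lit 4) (nat_lit 313) (nat_lit 214) (nat_lit 193)) (XT.lf (nat_lit 0) (nat_lit 193670829236) (nat_lit 152) (nat_lit 82397664499) (nat_lit 0) (nat_lit 191750678782) (nat_lit 1) (nat_lit 5) (nat_lit 3) (nat_lit 4) (nat_lit 1) (nat_lit 4) (nat_lit 314) (nat_lit 214) (nat_lit 192)))) (XT.nd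 (nat_lit 156) (nat_lit 0) (nat_lit 0) (XT.nd (nat_lit 78) (nat_lit 0) (nat_lit 0) (XT.lf (nat_lit 0) (nat_lit 209705420845) (nat_lit 152) (nat_lit 87724342742) (nat_lit 0) (nat_lit 207753210869) (nat_lit 1) (nat_lit 5) (nat_lit 3) (nat_lit 4) (nat_lit 1) (nat_lit 4) (nat_lit 315) (nat_lit 214) (nat_lit 191)) (XT.lf (nat_lit 0) (nat_lit 227008650951) (nat_lit 152) (nat_lit 93501669534) (nat_lit 0) (nat_lit 225026756232) (nat_lit 1) (nat_lit 5) (nat_lit 3) (nat_lit 4) (nat_lit 1) (nat_lit 4) (nat_lit 316) (nat_lit 214) (nat_lit 190))) (XT.nd (nat_lit 78) (nat_lit 0) (nat_lit 0) (XT.lf (nat_lit 0) (nat_lit 245683057213) (nat_lit 152) (nat_lit 99763880888) (nat_lit 0) (nat_lit 243673676621) (nat_lit 1) (nat_lit 5) (nat_lit 3) (nat_lit 4) (nat_lit 1) (nat_lit 4) (nat_lit 317) (nat_lit 214) (nat_lit 189)) (XT.lf (nat_lit 0) (nat_lit 265839302780) (nat_lit 152) (nat_lit 106548086202) (nat_lit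 0) (nat_lit 263804472305) (nat_lit 1) (nat_lit 5) (nat_lit 3) (nat_lit 4) (nat_lit 1) (nat_lit 4) (nat_lit 318) (nat_lit 214) (nat_lit 188))))) (XT.nd (nat_lit 234) (nat_lit 0) (nat_lit 0) (XT.nd (nat_lit 78) (nat_lit 0) (nat_lit 0) (XT.lf (nat_lit 0) (nat_lit 287596832069) (nat_lit 152) (nat_lit 113894488176) (nat_lit 0) (nat_lit 285538436888) (nat_lit 1) (nat_lit 5) (nat_lit 3) (nat_lit 4) (nat_lit 1) (nat_lit 4) (nat_lit 319) (nat_lit 214) (nat_lit 187)) (XT.nd (nat_lit 78) (nat_lit 0) (nat_lit 0) (XT.lf (nat_lit 0) (nat_lit 311084578588) (nat_lit 152) (nat_lit 121846621044) (nat_lit 0) (nat_lit 309004364235) (nat_lit 1) (nat_lit 5) (nat_lit 3) (nat_lit 4) (nat_lit 1) (nat_lit 4) (nat_lit 320) (nat_lit 214) (nat_lit 186)) (XT.lf (nat_lit 0) (nat_lit 336441728983) (nat_lit 152) (nat_lit 130451608555) (nat_lit 0) (nat_lit 334341311692) (nat_lit 1) (nat_lit 5) (nat_lit 3) (nat_lit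 4) (nat_lit 1) (nat_lit 4) (nat_lit 321) (nat_lit 214) (nat_lit 185)))) (XT.nd (nat_lit 156) (nat_lit 0) (nat_lit 0) (XT.nd (nat_lit 78) (nat_lit 0) (nat_lit 0) (XT.lf (nat_lit 0) (nat_lit 363818547848) (nat_lit 152) (nat_lit 139760443229) (nat_lit 0) (nat_lit 361699424134) (nat_lit 1) (nat_lit 5) (nat_lit 3) (nat_lit 4) (nat_lit 1) (nat_lit 4) (nat_lit 322) (nat_lit 214) (nat_lit 184)) (XT.lf (nat_lit 0) (nat_lit 393377268184) (nat_lit 152) (nat_lit 149828288529) (nat_lit 0) (nat_lit 391240823708) (nat_lit 1) (nat_lit 5) (nat_lit 3) (nat_lit 4) (nat_lit 1) (nat_lit 4) (nat_lit 323) (nat_lit 214) (nat_lit 183))) (XT.nd (nat_lit 78) (nat_lit 0) (nat_lit 0) (XT.lf (nat_lit 0) (nat_lit 425293052778) (nat_lit 152) (nat_lit 160714805762) (nat_lit 0) (nat_lit 423140570559) (nat_lit 1) (nat_lit 5) (nat_lit 3) (nat_lit 4) (nat_lit 1) (nat_lit 4) (nat_lit 324) (nat_lit 214) (nat_lit 182))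 (XT.lf (nat_lit 0) (nat_lit 459755032207) (nat_lit 152) (nat_lit 172484507623) (nat_lit 0) (nat_lit 457587700225) (nat_lit 1) (nat_lit 5) (nat_lit 3) (nat_lit 4) (nat_lit 1) (nat_lit 4) (nat_lit 325) (nat_lit 214) (nat_lit 181))))))) (XT.nd (nat_lit 1014) (nat_lit 0) (nat_lit 0) (XT.nd (nat_lit 468) (nat_lit 0) (nat_lit 0) (XT.nd (nat_lit 234) (nat_lit 0) (nat_lit 0) (XT.nd (nat_lit 78) (nat_lit 0) (nat_lit 0) (XT.lf (nat_lit 0) (nat_lit 496967425606) (nat_lit 152) (nat_lit 185207140492) (nat_lit 0) (nat_lit 494786343845) (nat_lit 1) (nat_lit 5) (nat_lit 3) (nat_lit 4) (nat_lit 1) (nat_lit 4) (nat_lit 326) (nat_lit 214) (nat_lit 180)) (XT.nd (nat_lit 78) (nat_lit 0) (nat_lit 0) (XT.lf (nat_lit 0) (nat_lit 537150750864) (nat_lit 152) (nat_lit 198958097749) (nat_lit 0) (nat_lit 534956937825) (nat_lit 1) (nat_lit 5) (nat_lit 3) (nat_lit 4) (nat_lit 1) (nat_lit 4) (nat_lit 327) (nat_lit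 214) (nat_lit 179)) (XT.lf (nat_lit 0) (nat_lit 580543131388) (nat_lit 152) (nat_lit 213818866549) (nat_lit 0) (nat_lit 578337530130) (nat_lit 1) (nat_lit 5) (nat_lit 3) (nat_lit 4) (nat_lit 1) (nat_lit 4) (nat_lit 328) (nat_lit 214) (nat_lit 178)))) (XT.nd (nat_lit 78) (nat_lit 0) (nat_lit 0) (XT.lf (nat_lit 0) (nat_lit 627401707212) (nat_lit 152) (nat_lit 229877510708) (nat_lit 0) (nat_lit 625185190935) (nat_lit 1) (nat_lit 5) (nat_lit 3) (nat_lit 4) (nat_lit 1) (nat_lit 4) (nat_lit 329) (nat_lit 214) (nat_lit 177)) (XT.nd (nat_lit 78) (nat_lit 0) (nat_lit 0) (XT.lf (nat_lit 0) (nat_lit 678004158785) (nat_lit 152) (nat_lit 247229192559) (nat_lit 0) (nat_lit 675777536009) (nat_lit 1) (nat_lit 5) (nat_lit 3) (nat_lit 4) (nat_lit 1) (nat_lit 4) (nat_lit 330) (nat_lit 214) (nat_lit 176)) (XT.lf (nat_lit 0) (nat_lit 732650352486) (nat_lit 152) (nat_lit 265976736886) (nat_lit 0) (nat_lit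 730414371842) (nat_lit 1) (nat_lit 5) (nat_lit 3) (nat_lit 4) (nat_lit 1) (nat_lit 4) (nat_lit 331) (nat_lit 214) (nat_lit 175))))) (XT.nd (nat_lit 234) (nat_lit 0) (nat_lit 0) (XT.nd (nat_lit 78) (nat_lit 0) (nat_lit 0) (XT.lf (nat_lit 0) (nat_lit 791664117612) (nat_lit 152) (nat_lit 286231240246) (nat_lit 0) (nat_lit 789419472274) (nat_lit 1) (nat_lit 5) (nat_lit 3) (nat_lit 4) (nat_lit 1) (nat_lit 4) (nat_lit 332) (nat_lit 214) (nat_lit 174)) (XT.nd (nat_lit 78) (nat_lit 0) (nat_lit 0) (XT.lf (nat_lit 0) (nat_lit 855395165363) (nat_lit 152) (nat_lit 308112729327) (nat_lit 0) (nat_lit 853142497161) (nat_lit 1) (nat_lit 5) (nat_lit 3) (nat_lit 4) (nat_lit 1) (nat_lit 4) (nat_lit 333) (nat_lit 214) (nat_lit 173)) (XT.lf (nat_lit 0) (nat_lit 924221161208) (nat_lit 152) (nat_lit 331750872212) (nat_lit 0) (nat_lit 921961064428) (nat_lit 1) (nat_lit 5) (nat_lit 3) (nat_lit 4) (nat_lit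 1) (nat_lit 4) (nat_lit 334) (nat_lit 214) (nat_lit 172)))) (XT.nd (nat_lit 156) (nat_lit 0) (nat_lit 0) (XT.nd (nat_lit 78) (nat_lit 0) (nat_lit 0) (XT.lf (nat_lit 0) (nat_lit 998549962900) (nat_lit 152) (nat_lit 357285746784) (nat_lit 0) (nat_lit 996282987807) (nat_lit 1) (nat_lit 5) (nat_lit 3) (nat_lit 4) (nat_lit 1) (nat_lit 4) (nat_lit 335) (nat_lit 214) (nat_lit 171)) (XT.lf (nat_lit 0) (nat_lit 1078822037411) (nat_lit 152) (nat_lit 384868670820) (nat_lit 0) (nat_lit 1076548693509) (nat_lit 1) (nat_lit 5) (nat_lit 3) (nat_lit 4) (nat_lit 1) (nat_lit 4) (nat_lit 336) (nat_lit 214) (nat_lit 170))) (XT.nd (nat_lit 78) (nat_lit 0) (nat_lit 0) (XT.lf (nat_lit 0) (nat_lit 1165513071110) (nat_lit 152) (nat_lit 414663098682) (nat_lit 0) (nat_lit 1163233830163) (nat_lit 1) (nat_lit 5) (nat_lit 3) (nat_lit 4) (nat_lit 1) (nat_lit 4) (nat_lit 337) (nat_lit 214) (nat_lit 169)) (XT.lf (nat_lit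 0) (nat_lit 1259136788639) (nat_lit 152) (nat_lit 446845589946) (nat_lit 0) (nat_lit 1256852087466) (nat_lit 1) (nat_lit 5) (nat_lit 3) (nat_lit 4) (nat_lit 1) (nat_lit 4) (nat_lit 338) (nat_lit 214) (nat_lit 168)))))) (XT.nd (nat_lit 546) (nat_lit 0) (nat_lit 0) (XT.nd (nat_lit 234) (nat_lit 0) (nat_lit 0) (XT.nd (nat_lit 78) (nat_lit 0) (nat_lit 0) (XT.lf (nat_lit 0) (nat_lit 1360247997215) (nat_lit 152) (nat_lit 481606855668) (nat_lit 0) (nat_lit 1357958240277) (nat_lit 1) (nat_lit 5) (nat_lit 3) (nat_lit 4) (nat_lit 1) (nat_lit 4) (nat_lit 339) (nat_lit 214) (nat_lit 167)) (XT.nd (nat_lit 78) (nat_lit 0) (nat_lit 0) (XT.lf (nat_lit 0) (nat_lit 1469445874370) (nat_lit 152) (nat_lit 519152888536) (nat_lit 0) (nat_lit 1467151436167) (nat_lit 1) (nat_lit 5) (nat_lit 3) (nat_lit 4) (nat_lit 1) (nat_lit 4) (nat_lit 340) (nat_lit 214) (nat_lit 166)) (XT.lf (nat_lit 0) (nat_lit 1587377518634)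 (nat_lit 152) (nat_lit 559706183558) (nat_lit 0) (nat_lit 1585078745927) (nat_lit 1) (nat_lit 5) (nat_lit 3) (nat_lit 4) (nat_lit 1) (nat_lit 4) (nat_lit 341) (nat_lit 214) (nat_lit 165)))) (XT.nd (nat_lit 156) (nat_lit 0) (nat_lit 0) (XT.nd (nat_lit 78) (nat_lit 0) (nat_lit 0) (XT.lf (nat_lit 0) (nat_lit 1714741784197) (nat_lit 152) (nat_lit 603507056558) (nat_lit 0) (nat_lit 1712438998060) (nat_lit 1) (nat_lit 5) (nat_lit 3) (nat_lit 4) (nat_lit 1) (nat_lit 4) (nat_lit 342) (nat_lit 214) (nat_lit 164)) (XT.lf (nat_lit 0) (nat_lit 1852293422261) (nat_lit 152) (nat_lit 650815068263) (nat_lit 0) (nat_lit 1849986919986) (nat_lit 1) (nat_lit 5) (nat_lit 3) (nat_lit 4) (nat_lit 1) (nat_lit 4) (nat_lit 343) (nat_lit 214) (nat_lit 163))) (XT.nd (nat_lit 78) (nat_lit 0) (nat_lit 0) (XT.lf (nat_lit 0) (nat_lit 2000847553644) (nat_lit 152) (nat_lit 701910562448) (nat_lit 0) (nat_lit 1998537610500)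 (nat_lit 1) (nat_lit 5) (nat_lit 3) (nat_lit 4) (nat_lit 1) (nat_lit 4) (nat_lit 344) (nat_lit 214) (nat_lit 162)) (XT.lf (nat_lit 0) (nat_lit 2161284499126) (nat_lit 152) (nat_lit 757096327225) (nat_lit 0) (nat_lit 2158971369992) (nat_lit 1) (nat_lit 5) (nat_lit 3) (nat_lit 4) (nat_lit 1) (nat_lit 4) (nat_lit 345) (nat_lit 214) (nat_lit 161))))) (XT.nd (nat_lit 33306) (nat_lit 0) (nat_lit 0) (XT.nd (nat_lit 33150) (nat_lit 0) (nat_lit 0) (XT.lf (nat_lit 0) (nat_lit 2334554996160) (nat_lit 152) (nat_lit 816699389350) (nat_lit 0) (nat_lit 2332238917036) (nat_lit 1) (nat_lit 5) (nat_lit 3) (nat_lit 4) (nat_lit 1) (nat_lit 4) (nat_lit 346) (nat_lit 214) (nat_lit 160)) (XT.nd (nat_lit 78) (nat_lit 0) (nat_lit 0) (XT.lf (nat_lit 0) (nat_lit 9715538360) (nat_lit 152) (nat_lit 18018496442) (nat_lit 0) (nat_lit 9715538360) (nat_lit 1) (nat_lit 5) (nat_lit 3) (nat_lit 4) (nat_lit 1) (nat_lit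 4) (nat_lit 290) (nat_lit 215) (nat_lit 215)) (XT.lf (nat_lit 0) (nat_lit 22483682270) (nat_lit 152) (nat_lit 35967905616) (nat_lit 0) (nat_lit 22295445949) (nat_lit 1) (nat_lit 5) (nat_lit 3) (nat_lit 4) (nat_lit 1) (nat_lit 4) (nat_lit 291) (nat_lit 215) (nat_lit 214)))) (XT.nd (nat_lit 156) (nat_lit 0) (nat_lit 0) (XT.nd (nat_lit 78) (nat_lit 0) (nat_lit 0) (XT.lf (nat_lit 0) (nat_lit 25697539338) (nat_lit 152) (nat_lit 36037226132) (nat_lit 0) (nat_lit 25335010128) (nat_lit 1) (nat_lit 5) (nat_lit 3) (nat_lit 4) (nat_lit 1) (nat_lit 4) (nat_lit 292) (nat_lit 215) (nat_lit 213)) (XT.lf (nat_lit 0) (nat_lit 29091693004) (nat_lit 152) (nat_lit 36245365222) (nat_lit 0) (nat_lit 28567781489) (nat_lit 1) (nat_lit 5) (nat_lit 3) (nat_lit 4) (nat_lit 1) (nat_lit 4) (nat_lit 293) (nat_lit 215) (nat_lit 212))) (XT.nd (nat_lit 78) (nat_lit 0) (nat_lit 0) (XT.lf (nat_lit 0) (nat_lit 32686256770)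 (nat_lit 152) (nat_lit 36593556302) (nat_lit 0) (nat_lit 32012917195) (nat_lit 1) (nat_lit 5) (nat_lit 3) (nat_lit 4) (nat_lit 1) (nat_lit 4) (nat_lit 294) (nat_lit 215) (nat_lit 211)) (XT.lf (nat_lit 0) (nat_lit 36502531756) (nat_lit 152) (nat_lit 37083862726) (nat_lit 0) (nat_lit 35690832866) (nat_lit 1) (nat_lit 5) (nat_lit 3) (nat_lit 4) (nat_lit 1) (nat_lit 4) (nat_lit 295) (nat_lit 215) (nat_lit 210))))))))
noncomputable def xc15 : XT := (XT.nd (nat_lit 2106) (nat_lit 0) (nat_lit 0) (XT.nd (nat_lit 1014) (nat_lit 0) (nat_lit 0) (XT.nd (nat_lit 468) (nat_lit 0) (nat_lit 0) (XT.nd (nat_lit 234) (nat_lit 0) (nat_lit 0) (XT.nd (nat_lit 78) (nat_lit 0) (nat_lit 0) (XT.lf (nat_lit 0) (nat_lit 40563132923) (nat_lit 152) (nat_lit 37719190014) (nat_lit 0) (nat_lit 39623323556) (nat_lit 1) (nat_lit 5) (nat_lit 3) (nat_lit 4) (nat_lit 1) (nat_lit 4) (nat_lit 296) (nat_lit 215) (nat_lit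 209)) (XT.nd (nat_lit 78) (nat_lit 0) (nat_lit 0) (XT.lf (nat_lit 0) (nat_lit 44892123094) (nat_lit 152) (nat_lit 38503303069) (nat_lit 0) (nat_lit 43833692915) (nat_lit 1) (nat_lit 5) (nat_lit 3) (nat_lit 4) (nat_lit 1) (nat_lit 4) (nat_lit 297) (nat_lit 215) (nat_lit 208)) (XT.lf (nat_lit 0) (nat_lit 49515155544) (nat_lit 152) (nat_lit 39440848486) (nat_lit 0) (nat_lit 48346891280) (nat_lit 1) (nat_lit 5) (nat_lit 3) (nat_lit 4) (nat_lit 1) (nat_lit 4) (nat_lit 298) (nat_lit 215) (nat_lit 207)))) (XT.nd (nat_lit 78) (nat_lit 0) (nat_lit 0) (XT.lf (nat_lit 0) (nat_lit 54459626021) (nat_lit 152) (nat_lit 40537382090) (nat_lit 0) (nat_lit 53189663530) (nat_lit 1) (nat_lit 5) (nat_lit 3) (nat_lit 4) (nat_lit 1) (nat_lit 4) (nat_lit 299) (nat_lit 215) (nat_lit 206)) (XT.nd (nat_lit 78) (nat_lit 0) (nat_lit 0) (XT.lf (nat_lit 0) (nat_lit 59754835089) (nat_lit 152) (nat_lit 41799401858)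 (nat_lit 0) (nat_lit 58390707574) (nat_lit 1) (nat_lit 5) (nat_lit 3) (nat_lit 4) (nat_lit 1) (nat_lit 4) (nat_lit 300) (nat_lit 215) (nat_lit 205)) (XT.lf (nat_lit 0) (nat_lit 65432161768) (nat_lit 152) (nat_lit 43234386426) (nat_lit 0) (nat_lit 63980844414) (nat_lit 1) (nat_lit 5) (nat_lit 3) (nat_lit 4) (nat_lit 1) (nat_lit 4) (nat_lit 301) (nat_lit 215) (nat_lit 204))))) (XT.nd (nat_lit 234) (nat_lit 0) (nat_lit 0) (XT.nd (nat_lit 78) (nat_lit 0) (nat_lit 0) (XT.lf (nat_lit 0) (nat_lit 71525249472) (nat_lit 152) (nat_lit 44850839406) (nat_lit 0) (nat_lit 69993200787) (nat_lit 1) (nat_lit 5) (nat_lit 3) (nat_lit 4) (nat_lit 1) (nat_lit 4) (nat_lit 302) (nat_lit 215) (nat_lit 203)) (XT.nd (nat_lit 78) (nat_lit 0) (nat_lit 0) (XT.lf (nat_lit 0) (nat_lit 78070205390) (nat_lit 152) (nat_lit 46658339779) (nat_lit 0) (nat_lit 76463405472) (nat_lit 1) (nat_lit 5) (nat_lit 3) (nat_lit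 4) (nat_lit 1) (nat_lit 4) (nat_lit 303) (nat_lit 215) (nat_lit 202)) (XT.lf (nat_lit 0) (nat_lit 85105814444) (nat_lit 152) (nat_lit 48667598657) (nat_lit 0) (nat_lit 83429800422) (nat_lit 1) (nat_lit 5) (nat_lit 3) (nat_lit 4) (nat_lit 1) (nat_lit 4) (nat_lit 304) (nat_lit 215) (nat_lit 201)))) (XT.nd (nat_lit 156) (nat_lit 0) (nat_lit 0) (XT.nd (nat_lit 78) (nat_lit 0) (nat_lit 0) (XT.lf (nat_lit 0) (nat_lit 92673769133) (nat_lit 152) (nat_lit 50890522761) (nat_lit 0) (nat_lit 90933667977) (nat_lit 1) (nat_lit 5) (nat_lit 3) (nat_lit 4) (nat_lit 1) (nat_lit 4) (nat_lit 305) (nat_lit 215) (nat_lit 200)) (XT.lf (nat_lit 0) (nat_lit 100818916596) (nat_lit 152) (nat_lit 53340284973) (nat_lit 0) (nat_lit 99019475502) (nat_lit 1) (nat_lit 5) (nat_lit 3) (nat_lit 4) (nat_lit 1) (nat_lit 4) (nat_lit 306) (nat_lit 215) (nat_lit 199))) (XT.nd (nat_lit 78) (nat_lit 0) (nat_lit 0) (XT.lf (nat_lit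 0) (nat_lit 109589524374) (nat_lit 152) (nat_lit 56031402403) (nat_lit 0) (nat_lit 107735138892) (nat_lit 1) (nat_lit 5) (nat_lit 3) (nat_lit 4) (nat_lit 1) (nat_lit 4) (nat_lit 307) (nat_lit 215) (nat_lit 198)) (XT.lf (nat_lit 0) (nat_lit 119037566437) (nat_lit 152) (nat_lit 58979822414) (nat_lit 0) (nat_lit 117132306522) (nat_lit 1) (nat_lit 5) (nat_lit 3) (nat_lit 4) (nat_lit 1) (nat_lit 4) (nat_lit 308) (nat_lit 215) (nat_lit 197)))))) (XT.nd (nat_lit 546) (nat_lit 0) (nat_lit 0) (XT.nd (nat_lit 234) (nat_lit 0) (nat_lit 0) (XT.nd (nat_lit 78) (nat_lit 0) (nat_lit 0) (XT.lf (nat_lit 0) (nat_lit 129219031185) (nat_lit 152) (nat_lit 62203017125) (nat_lit 0) (nat_lit 127266665314) (nat_lit 1) (nat_lit 5) (nat_lit 3) (nat_lit 4) (nat_lit 1) (nat_lit 4) (nat_lit 309) (nat_lit 215) (nat_lit 196)) (XT.nd (nat_lit 78) (nat_lit 0) (nat_lit 0) (XT.lf (nat_lit 0) (nat_lit 140194253222) (nat_lit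 152) (nat_lit 65720086948) (nat_lit 0) (nat_lit 138198270725) (nat_lit 1) (nat_lit 5) (nat_lit 3) (nat_lit 4) (nat_lit 1) (nat_lit 4) (nat_lit 310) (nat_lit 215) (nat_lit 195)) (XT.lf (nat_lit 0) (nat_lit 152028270902) (nat_lit 152) (nat_lit 69551873778) (nat_lit 0) (nat_lit 149991902639) (nat_lit 1) (nat_lit 5) (nat_lit 3) (nat_lit 4) (nat_lit 1) (nat_lit 4) (nat_lit 311) (nat_lit 215) (nat_lit 194)))) (XT.nd (nat_lit 156) (nat_lit 0) (nat_lit 0) (XT.nd (nat_lit 78) (nat_lit 0) (nat_lit 0) (XT.lf (nat_lit 0) (nat_lit 164791211737) (nat_lit 152) (nat_lit 73721084501) (nat_lit 0) (nat_lit 162717449247) (nat_lit 1) (nat_lit 5) (nat_lit 3) (nat_lit 4) (nat_lit 1) (nat_lit 4) (nat_lit 312) (nat_lit 215) (nat_lit 193)) (XT.lf (nat_lit 0) (nat_lit 178558707968) (nat_lit 152) (nat_lit 78252425550) (nat_lit 0) (nat_lit 176450321194) (nat_lit 1) (nat_lit 5) (nat_lit 3) (nat_lit 4) (nat_lit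 1) (nat_lit 4) (nat_lit 313) (nat_lit 215) (nat_lit 192))) (XT.nd (nat_lit 78) (nat_lit 0) (nat_lit 0) (XT.lf (nat_lit 0) (nat_lit 193412344759) (nat_lit 152) (nat_lit 83172749317) (nat_lit 0) (nat_lit 191271898462) (nat_lit 1) (nat_lit 5) (nat_lit 3) (nat_lit 4) (nat_lit 1) (nat_lit 4) (nat_lit 314) (nat_lit 215) (nat_lit 191)) (XT.lf (nat_lit 0) (nat_lit 209440143660) (nat_lit 152) (nat_lit 88511213277) (nat_lit 0) (nat_lit 207270012621) (nat_lit 1) (nat_lit 5) (nat_lit 3) (nat_lit 4) (nat_lit 1) (nat_lit 4) (nat_lit 315) (nat_lit 215) (nat_lit 190))))) (XT.nd (nat_lit 234) (nat_lit 0) (nat_lit 0) (XT.nd (nat_lit 78) (nat_lit 0) (nat_lit 0) (XT.lf (nat_lit 0) (nat_lit 226737084222) (nat_lit 152) (nat_lit 94299452770) (nat_lit 0) (nat_lit 224539467309) (nat_lit 1) (nat_lit 5) (nat_lit 3) (nat_lit 4) (nat_lit 1) (nat_lit 4) (nat_lit 316) (nat_lit 215) (nat_lit 189)) (XT.nd (nat_lit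 78) (nat_lit 0) (nat_lit 0) (XT.lf (nat_lit 0) (nat_lit 245405666832) (nat_lit 152) (nat_lit 100571768476) (nat_lit 0) (nat_lit 243182600037) (nat_lit 1) (nat_lit 5) (nat_lit 3) (nat_lit 4) (nat_lit 1) (nat_lit 4) (nat_lit 317) (nat_lit 215) (nat_lit 188)) (XT.lf (nat_lit 0) (nat_lit 265556520128) (nat_lit 152) (nat_lit 107365329672) (nat_lit 0) (nat_lit 263309888627) (nat_lit 1) (nat_lit 5) (nat_lit 3) (nat_lit 4) (nat_lit 1) (nat_lit 4) (nat_lit 318) (nat_lit 215) (nat_lit 187)))) (XT.nd (nat_lit 156) (nat_lit 0) (nat_lit 0) (XT.nd (nat_lit 78) (nat_lit 0) (nat_lit 0) (XT.lf (nat_lit 0) (nat_lit 287309056574) (nat_lit 152) (nat_lit 114720394500) (nat_lit 0) (nat_lit 285040605901) (nat_lit 1) (nat_lit 5) (nat_lit 3) (nat_lit 4) (nat_lit 1) (nat_lit 4) (nat_lit 319) (nat_lit 215) (nat_lit 186)) (XT.lf (nat_lit 0) (nat_lit 310792180090) (nat_lit 152) (nat_lit 122680548528) (nat_lit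 0) (nat_lit 308503526479) (nat_lit 1) (nat_lit 5) (nat_lit 3) (nat_lit 4) (nat_lit 1) (nat_lit 4) (nat_lit 320) (nat_lit 215) (nat_lit 185))) (XT.nd (nat_lit 78) (nat_lit 0) (nat_lit 0) (XT.lf (nat_lit 0) (nat_lit 336145049927) (nat_lit 152) (nat_lit 131292963040) (nat_lit 0) (nat_lit 333837689892) (nat_lit 1) (nat_lit 5) (nat_lit 3) (nat_lit 4) (nat_lit 1) (nat_lit 4) (nat_lit 321) (nat_lit 215) (nat_lit 184)) (XT.lf (nat_lit 0) (nat_lit 363517905312) (nat_lit 152) (nat_lit 140608674566) (nat_lit 0) (nat_lit 361193224515) (nat_lit 1) (nat_lit 5) (nat_lit 3) (nat_lit 4) (nat_lit 1) (nat_lit 4) (nat_lit 322) (nat_lit 215) (nat_lit 183))))))) (XT.nd (nat_lit 1014) (nat_lit 0) (nat_lit 0) (XT.nd (nat_lit 468) (nat_lit 0) (nat_lit 0) (XT.nd (nat_lit 234) (nat_lit 0) (nat_lit 0) (XT.nd (nat_lit 78) (nat_lit 0) (nat_lit 0) (XT.lf (nat_lit 0) (nat_lit 393072955759) (nat_lit 152) (nat_lit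 150682887323) (nat_lit 0) (nat_lit 390732237219) (nat_lit 1) (nat_lit 5) (nat_lit 3) (nat_lit 4) (nat_lit 1) (nat_lit 4) (nat_lit 323) (nat_lit 215) (nat_lit 182)) (XT.nd (nat_lit 78) (nat_lit 0) (nat_lit 0) (XT.lf (nat_lit 0) (nat_lit 424985342309) (nat_lit 152) (nat_lit 161575300349) (nat_lit 0) (nat_lit 422629774007) (nat_lit 1) (nat_lit 5) (nat_lit 3) (nat_lit 4) (nat_lit 1) (nat_lit 4) (nat_lit 324) (nat_lit 215) (nat_lit 181)) (XT.lf (nat_lit 0) (nat_lit 459444175399) (nat_lit 152) (nat_lit 173350461276) (nat_lit 0) (nat_lit 457074857317) (nat_lit 1) (nat_lit 5) (nat_lit 3) (nat_lit 4) (nat_lit 1) (nat_lit 4) (nat_lit 325) (nat_lit 215) (nat_lit 180)))) (XT.nd (nat_lit 78) (nat_lit 0) (nat_lit 0) (XT.lf (nat_lit 0) (nat_lit 496653655522) (nat_lit 152) (nat_lit 186078148837) (nat_lit 0) (nat_lit 494271606164) (nat_lit 1) (nat_lit 5) (nat_lit 3) (nat_lit 4) (nat_lit 1) (nat_lit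 4) (nat_lit 326) (nat_lit 215) (nat_lit 179)) (XT.nd (nat_lit 78) (nat_lit 0) (nat_lit 0) (XT.lf (nat_lit 0) (nat_lit 536834283302) (nat_lit 152) (nat_lit 199833786365) (nat_lit 0) (nat_lit 534440445723) (nat_lit 1) (nat_lit 5) (nat_lit 3) (nat_lit 4) (nat_lit 1) (nat_lit 4) (nat_lit 327) (nat_lit 215) (nat_lit 178)) (XT.lf (nat_lit 0) (nat_lit 580224166162) (nat_lit 152) (nat_lit 214698888748) (nat_lit 0) (nat_lit 577819413565) (nat_lit 1) (nat_lit 5) (nat_lit 3) (nat_lit 4) (nat_lit 1) (nat_lit 4) (nat_lit 328) (nat_lit 215) (nat_lit 177))))) (XT.nd (nat_lit 234) (nat_lit 0) (nat_lit 0) (XT.nd (nat_lit 78) (nat_lit 0) (nat_lit 0) (XT.lf (nat_lit 0) (nat_lit 627080429333) (nat_lit 152) (nat_lit 230761545484) (nat_lit 0) (nat_lit 624665570238) (nat_lit 1) (nat_lit 5) (nat_lit 3) (nat_lit 4) (nat_lit 1) (nat_lit 4) (nat_lit 329) (nat_lit 215) (nat_lit 176)) (XT.nd (nat_lit 78) (nat_lit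 0) (nat_lit 0) (XT.lf (nat_lit 0) (nat_lit 677680739561) (nat_lit 152) (nat_lit 248116942685) (nat_lit 0) (nat_lit 675256522596) (nat_lit 1) (nat_lit 5) (nat_lit 3) (nat_lit 4) (nat_lit 1) (nat_lit 4) (nat_lit 330) (nat_lit 215) (nat_lit 175)) (XT.lf (nat_lit 0) (nat_lit 732324950536) (nat_lit 152) (nat_lit 266867927150) (nat_lit 0) (nat_lit 729892068878) (nat_lit 1) (nat_lit 5) (nat_lit 3) (nat_lit 4) (nat_lit 1) (nat_lit 4) (nat_lit 331) (nat_lit 215) (nat_lit 174)))) (XT.nd (nat_lit 156) (nat_lit 0) (nat_lit 0) (XT.nd (nat_lit 78) (nat_lit 0) (nat_lit 0) (XT.lf (nat_lit 0) (nat_lit 791336879804) (nat_lit 152) (nat_lit 287125615823) (nat_lit 0) (nat_lit 788895975281) (nat_lit 1) (nat_lit 5) (nat_lit 3) (nat_lit 4) (nat_lit 1) (nat_lit 4) (nat_lit 332) (nat_lit 215) (nat_lit 173)) (XT.lf (nat_lit 0) (nat_lit 855066227687) (nat_lit 152) (nat_lit 309010054268) (nat_lit 0) (nat_lit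 852617894586) (nat_lit 1) (nat_lit 5) (nat_lit 3) (nat_lit 4) (nat_lit 1) (nat_lit 4) (nat_lit 333) (nat_lit 215) (nat_lit 172))) (XT.nd (nat_lit 78) (nat_lit 0) (nat_lit 0) (XT.lf (nat_lit 0) (nat_lit 923890649579) (nat_lit 152) (nat_lit 332650928046) (nat_lit 0) (nat_lit 921435438166) (nat_lit 1) (nat_lit 5) (nat_lit 3) (nat_lit 4) (nat_lit 1) (nat_lit 4) (nat_lit 334) (nat_lit 215) (nat_lit 171)) (XT.lf (nat_lit 0) (nat_lit 998217993908) (nat_lit 152) (nat_lit 358188331223) (nat_lit 0) (nat_lit 995756413685) (nat_lit 1) (nat_lit 5) (nat_lit 3) (nat_lit 4) (nat_lit 1) (nat_lit 4) (nat_lit 335) (nat_lit 215) (nat_lit 170)))))) (XT.nd (nat_lit 546) (nat_lit 0) (nat_lit 0) (XT.nd (nat_lit 234) (nat_lit 0) (nat_lit 0) (XT.nd (nat_lit 78) (nat_lit 0) (nat_lit 0) (XT.lf (nat_lit 0) (nat_lit 1078488719008) (nat_lit 152) (nat_lit 385773596559) (nat_lit 0) (nat_lit 1076021241741) (nat_lit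 1) (nat_lit 5) (nat_lit 3) (nat_lit 4) (nat_lit 1) (nat_lit 4) (nat_lit 336) (nat_lit 215) (nat_lit 169)) (XT.nd (nat_lit 78) (nat_lit 0) (nat_lit 0) (XT.lf (nat_lit 0) (nat_lit 1165178503253) (nat_lit 152) (nat_lit 415570192292) (nat_lit 0) (nat_lit 1162705565759) (nat_lit 1) (nat_lit 5) (nat_lit 3) (nat_lit 4) (nat_lit 1) (nat_lit 4) (nat_lit 337) (nat_lit 215) (nat_lit 168)) (XT.lf (nat_lit 0) (nat_lit 1258801063880) (nat_lit 152) (nat_lit 447754690843) (nat_lit 0) (nat_lit 1256323070621) (nat_lit 1) (nat_lit 5) (nat_lit 3) (nat_lit 4) (nat_lit 1) (nat_lit 4) (nat_lit 338) (nat_lit 215) (nat_lit 167)))) (XT.nd (nat_lit 156) (nat_lit 0) (nat_lit 0) (XT.nd (nat_lit 78) (nat_lit 0) (nat_lit 0) (XT.lf (nat_lit 0) (nat_lit 1359911201251) (nat_lit 152) (nat_lit 482517815165) (nat_lit 0) (nat_lit 1357428526727) (nat_lit 1) (nat_lit 5) (nat_lit 3) (nat_lit 4) (nat_lit 1) (nat_lit 4) (nat_lit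 339) (nat_lit 215) (nat_lit 166)) (XT.lf (nat_lit 0) (nat_lit 1469108086548) (nat_lit 152) (nat_lit 520065568958) (nat_lit 0) (nat_lit 1466621077521) (nat_lit 1) (nat_lit 5) (nat_lit 3) (nat_lit 4) (nat_lit 1) (nat_lit 4) (nat_lit 340) (nat_lit 215) (nat_lit 165))) (XT.nd (nat_lit 78) (nat_lit 0) (nat_lit 0) (XT.lf (nat_lit 0) (nat_lit 1587038812427) (nat_lit 152) (nat_lit 560620457430) (nat_lit 0) (nat_lit 1584547789970) (nat_lit 1) (nat_lit 5) (nat_lit 3) (nat_lit 4) (nat_lit 1) (nat_lit 4) (nat_lit 341) (nat_lit 215) (nat_lit 164)) (XT.lf (nat_lit 0) (nat_lit 1714402227632) (nat_lit 152) (nat_lit 604422805846) (nat_lit 0) (nat_lit 1711907489036) (nat_lit 1) (nat_lit 5) (nat_lit 3) (nat_lit 4) (nat_lit 1) (nat_lit 4) (nat_lit 342) (nat_lit 215) (nat_lit 163))))) (XT.nd (nat_lit 234) (nat_lit 0) (nat_lit 0) (XT.nd (nat_lit 78) (nat_lit 0) (nat_lit 0) (XT.lf (nat_lit 0) (nat_lit 1851953078328)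 (nat_lit 152) (nat_lit 651732183678) (nat_lit 0) (nat_lit 1849454898863) (nat_lit 1) (nat_lit 5) (nat_lit 3) (nat_lit 4) (nat_lit 1) (nat_lit 4) (nat_lit 343) (nat_lit 215) (nat_lit 162)) (XT.nd (nat_lit 78) (nat_lit 0) (nat_lit 0) (XT.lf (nat_lit 0) (nat_lit 2000506480667) (nat_lit 152) (nat_lit 702828942795) (nat_lit 0) (nat_lit 1998005115212) (nat_lit 1) (nat_lit 5) (nat_lit 3) (nat_lit 4) (nat_lit 1) (nat_lit 4) (nat_lit 344) (nat_lit 215) (nat_lit 161)) (XT.lf (nat_lit 0) (nat_lit 2160942751107) (nat_lit 152) (nat_lit 758015878805) (nat_lit 0) (nat_lit 2158438435662) (nat_lit 1) (nat_lit 5) (nat_lit 3) (nat_lit 4) (nat_lit 1) (nat_lit 4) (nat_lit 345) (nat_lit 215) (nat_lit 160)))) (XT.nd (nat_lit 33072) (nat_lit 0) (nat_lit 0) (XT.nd (nat_lit 32994) (nat_lit 0) (nat_lit 0) (XT.lf (nat_lit 0) (nat_lit 2334212623103) (nat_lit 152) (nat_lit 817620025405) (nat_lit 0) (nat_lit 2331705576186)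 (nat_lit 1) (nat_lit 5) (nat_lit 3) (nat_lit 4) (nat_lit 1) (nat_lit 4) (nat_lit 346) (nat_lit 215) (nat_lit 159)) (XT.lf (nat_lit 0) (nat_lit 6993962701) (nat_lit 152) (nat_lit 18256068416) (nat_lit 0) (nat_lit 6993962701) (nat_lit 1) (nat_lit 5) (nat_lit 3) (nat_lit 4) (nat_lit 1) (nat_lit 4) (nat_lit 288) (nat_lit 216) (nat_lit 216))) (XT.nd (nat_lit 78) (nat_lit 0) (nat_lit 0) (XT.lf (nat_lit 0) (nat_lit 16724928400) (nat_lit 152) (nat_lit 36244897344) (nat_lit 0) (nat_lit 16521633173) (nat_lit 1) (nat_lit 5) (nat_lit 3) (nat_lit 4) (nat_lit 1) (nat_lit 4) (nat_lit 289) (nat_lit 216) (nat_lit 215)) (XT.lf (nat_lit 0) (nat_lit 19591298157) (nat_lit 152) (nat_lit 36111728244) (nat_lit 0) (nat_lit 19199766611) (nat_lit 1) (nat_lit 5) (nat_lit 3) (nat_lit 4) (nat_lit 1) (nat_lit 4) (nat_lit 290) (nat_lit 216) (nat_lit 214))))))))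
noncomputable def xc16 : XT := (XT.nd (nat_lit 2028) (nat_lit 0) (nat_lit 0) (XT.nd (nat_lit 1014) (nat_lit 0) (nat_lit 0) (XT.nd (nat_lit 468) (nat_lit 0) (nat_lit 0) (XT.nd (nat_lit 234) (nat_lit 0) (nat_lit 0) (XT.nd (nat_lit 78) (nat_lit 0) (nat_lit 0) (XT.lf (nat_lit 0) (nat_lit 22604020570) (nat_lit 152) (nat_lit 36111840382) (nat_lit 0) (nat_lit 22038196134) (nat_lit 1) (nat_lit 5) (nat_lit 3) (nat_lit 4) (nat_lit 1) (nat_lit 4) (nat_lit 291) (nat_lit 216) (nat_lit 213)) (XT.nd (nat_lit 78) (nat_lit 0) (nat_lit 0) (XT.lf (nat_lit 0) (nat_lit 25780948808) (nat_lit 152) (nat_lit 36245234424) (nat_lit 0) (nat_lit 25053742067) (nat_lit 1) (nat_lit 5) (nat_lit 3) (nat_lit 4) (nat_lit 1) (nat_lit 4) (nat_lit 292) (nat_lit 216) (nat_lit 212)) (XT.lf (nat_lit 0) (nat_lit 29140909112) (nat_lit 152) (nat_lit 36512700851) (nat_lit 0) (nat_lit 28264274311) (nat_lit 1) (nat_lit 5) (nat_lit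 3) (nat_lit 4) (nat_lit 1) (nat_lit 4) (nat_lit 293) (nat_lit 216) (nat_lit 211)))) (XT.nd (nat_lit 78) (nat_lit 0) (nat_lit 0) (XT.lf (nat_lit 0) (nat_lit 32703812358) (nat_lit 152) (nat_lit 36915824651) (nat_lit 0) (nat_lit 31688818242) (nat_lit 1) (nat_lit 5) (nat_lit 3) (nat_lit 4) (nat_lit 1) (nat_lit 4) (nat_lit 294) (nat_lit 216) (nat_lit 210)) (XT.nd (nat_lit 78) (nat_lit 0) (nat_lit 0) (XT.lf (nat_lit 0) (nat_lit 36490772047) (nat_lit 152) (nat_lit 37456994705) (nat_lit 0) (nat_lit 35347667454) (nat_lit 1) (nat_lit 5) (nat_lit 3) (nat_lit 4) (nat_lit 1) (nat_lit 4) (nat_lit 295) (nat_lit 216) (nat_lit 209)) (XT.lf (nat_lit 0) (nat_lit 40524229421) (nat_lit 152) (nat_lit 38139417947) (nat_lit 0) (nat_lit 39262504016) (nat_lit 1) (nat_lit 5) (nat_lit 3) (nat_lit 4) (nat_lit 1) (nat_lit 4) (nat_lit 296) (nat_lit 216) (nat_lit 208))))) (XT.nd (nat_lit 234) (nat_lit 0) (nat_lit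 0) (XT.nd (nat_lit 78) (nat_lit 0) (nat_lit 0) (XT.lf (nat_lit 0) (nat_lit 44828086450) (nat_lit 152) (nat_lit 38967138366) (nat_lit 0) (nat_lit 43456526960) (nat_lit 1) (nat_lit 5) (nat_lit 3) (nat_lit 4) (nat_lit 1) (nat_lit 4) (nat_lit 297) (nat_lit 216) (nat_lit 207)) (XT.nd (nat_lit 78) (nat_lit 0) (nat_lit 0) (XT.lf (nat_lit 0) (nat_lit 49427847472) (nat_lit 152) (nat_lit 39945060973) (nat_lit 0) (nat_lit 47954589756) (nat_lit 1) (nat_lit 5) (nat_lit 3) (nat_lit 4) (nat_lit 1) (nat_lit 4) (nat_lit 298) (nat_lit 216) (nat_lit 206)) (XT.lf (nat_lit 0) (nat_lit 54350770331) (nat_lit 152) (nat_lit 41078980863) (nat_lit 0) (nat_lit 52783347589) (nat_lit 1) (nat_lit 5) (nat_lit 3) (nat_lit 4) (nat_lit 1) (nat_lit 4) (nat_lit 299) (nat_lit 216) (nat_lit 205)))) (XT.nd (nat_lit 156) (nat_lit 0) (nat_lit 0) (XT.nd (nat_lit 78) (nat_lit 0) (nat_lit 0) (XT.lf (nat_lit 0) (nat_lit 59626027901)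 (nat_lit 152) (nat_lit 42375617563) (nat_lit 0) (nat_lit 57971415322) (nat_lit 1) (nat_lit 5) (nat_lit 3) (nat_lit 4) (nat_lit 1) (nat_lit 4) (nat_lit 300) (nat_lit 216) (nat_lit 204)) (XT.lf (nat_lit 0) (nat_lit 65284880970) (nat_lit 152) (nat_lit 43842654846) (nat_lit 0) (nat_lit 63549537059) (nat_lit 1) (nat_lit 5) (nat_lit 3) (nat_lit 4) (nat_lit 1) (nat_lit 4) (nat_lit 301) (nat_lit 216) (nat_lit 203))) (XT.nd (nat_lit 78) (nat_lit 0) (nat_lit 0) (XT.lf (nat_lit 0) (nat_lit 71360863481) (nat_lit 152) (nat_lit 45488786265) (nat_lit 0) (nat_lit 69550768337) (nat_lit 1) (nat_lit 5) (nat_lit 3) (nat_lit 4) (nat_lit 1) (nat_lit 4) (nat_lit 302) (nat_lit 216) (nat_lit 202)) (XT.lf (nat_lit 0) (nat_lit 77889981256) (nat_lit 152) (nat_lit 47323766674) (nat_lit 0) (nat_lit 76010672007) (nat_lit 1) (nat_lit 5) (nat_lit 3) (nat_lit 4) (nat_lit 1) (nat_lit 4) (nat_lit 303) (nat_lit 216)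 (nat_lit 201)))))) (XT.nd (nat_lit 468) (nat_lit 0) (nat_lit 0) (XT.nd (nat_lit 234) (nat_lit 0) (nat_lit 0) (XT.nd (nat_lit 78) (nat_lit 0) (nat_lit 0) (XT.lf (nat_lit 0) (nat_lit 84910925363) (nat_lit 152) (nat_lit 49358470031) (nat_lit 0) (nat_lit 82967528981) (nat_lit 1) (nat_lit 5) (nat_lit 3) (nat_lit 4) (nat_lit 1) (nat_lit 4) (nat_lit 304) (nat_lit 216) (nat_lit 200)) (XT.nd (nat_lit 78) (nat_lit 0) (nat_lit 0) (XT.lf (nat_lit 0) (nat_lit 92465301398) (nat_lit 152) (nat_lit 51604953837) (nat_lit 0) (nat_lit 90462565077) (nat_lit 1) (nat_lit 5) (nat_lit 3) (nat_lit 4) (nat_lit 1) (nat_lit 4) (nat_lit 305) (nat_lit 216) (nat_lit 199)) (XT.lf (nat_lit 0) (nat_lit 100597876033) (nat_lit 152) (nat_lit 54076530588) (nat_lit 0) (nat_lit 98540195324) (nat_lit 1) (nat_lit 5) (nat_lit 3) (nat_lit 4) (nat_lit 1) (nat_lit 4) (nat_lit 306) (nat_lit 216) (nat_lit 198)))) (XT.nd (nat_lit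 78) (nat_lit 0) (nat_lit 0) (XT.lf (nat_lit 0) (nat_lit 109356842302) (nat_lit 152) (nat_lit 56787846666) (nat_lit 0) (nat_lit 107248287161) (nat_lit 1) (nat_lit 5) (nat_lit 3) (nat_lit 4) (nat_lit 1) (nat_lit 4) (nat_lit 307) (nat_lit 216) (nat_lit 197)) (XT.nd (nat_lit 78) (nat_lit 0) (nat_lit 0) (XT.lf (nat_lit 0) (nat_lit 118794105193) (nat_lit 152) (nat_lit 59754969128) (nat_lit 0) (nat_lit 116638444095) (nat_lit 1) (nat_lit 5) (nat_lit 3) (nat_lit 4) (nat_lit 1) (nat_lit 4) (nat_lit 308) (nat_lit 216) (nat_lit 196)) (XT.lf (nat_lit 0) (nat_lit 128965589224) (nat_lit 152) (nat_lit 62995480923) (nat_lit 0) (nat_lit 126766311500) (nat_lit 1) (nat_lit 5) (nat_lit 3) (nat_lit 4) (nat_lit 1) (nat_lit 4) (nat_lit 309) (nat_lit 216) (nat_lit 195))))) (XT.nd (nat_lit 234) (nat_lit 0) (nat_lit 0) (XT.nd (nat_lit 78) (nat_lit 0) (nat_lit 0) (XT.lf (nat_lit 0) (nat_lit 139931569857) (nat_lit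 152) (nat_lit 66528585083) (nat_lit 0) (nat_lit 137691906368) (nat_lit 1) (nat_lit 5) (nat_lit 3) (nat_lit 4) (nat_lit 1) (nat_lit 4) (nat_lit 310) (nat_lit 216) (nat_lit 194)) (XT.nd (nat_lit 78) (nat_lit 0) (nat_lit 0) (XT.lf (nat_lit 0) (nat_lit 151757030681) (nat_lit 152) (nat_lit 70375218522) (nat_lit 0) (nat_lit 149479972965) (nat_lit 1) (nat_lit 5) (nat_lit 3) (nat_lit 4) (nat_lit 1) (nat_lit 4) (nat_lit 311) (nat_lit 216) (nat_lit 193)) (XT.lf (nat_lit 0) (nat_lit 164512048501) (nat_lit 152) (nat_lit 74558176105) (nat_lit 0) (nat_lit 162200366501) (nat_lit 1) (nat_lit 5) (nat_lit 3) (nat_lit 4) (nat_lit 1) (nat_lit 4) (nat_lit 312) (nat_lit 216) (nat_lit 192)))) (XT.nd (nat_lit 156) (nat_lit 0) (nat_lit 0) (XT.nd (nat_lit 78) (nat_lit 0) (nat_lit 0) (XT.lf (nat_lit 0) (nat_lit 178272208608) (nat_lit 152) (nat_lit 79102245728) (nat_lit 0) (nat_lit 175928467085) (nat_lit 1)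 (nat_lit 5) (nat_lit 3) (nat_lit 4) (nat_lit 1) (nat_lit 4) (nat_lit 313) (nat_lit 216) (nat_lit 191)) (XT.lf (nat_lit 0) (nat_lit 193119052691) (nat_lit 152) (nat_lit 84034355212) (nat_lit 0) (nat_lit 190745626425) (nat_lit 1) (nat_lit 5) (nat_lit 3) (nat_lit 4) (nat_lit 1) (nat_lit 4) (nat_lit 314) (nat_lit 216) (nat_lit 190))) (XT.nd (nat_lit 78) (nat_lit 0) (nat_lit 0) (XT.lf (nat_lit 0) (nat_lit 209140562048) (nat_lit 152) (nat_lit 89383731872) (nat_lit 0) (nat_lit 206739649909) (nat_lit 1) (nat_lit 5) (nat_lit 3) (nat_lit 4) (nat_lit 1) (nat_lit 4) (nat_lit 315) (nat_lit 216) (nat_lit 189)) (XT.lf (nat_lit 0) (nat_lit 226431678958) (nat_lit 152) (nat_lit 95182075718) (nat_lit 0) (nat_lit 224005316936) (nat_lit 1) (nat_lit 5) (nat_lit 3) (nat_lit 4) (nat_lit 1) (nat_lit 4) (nat_lit 316) (nat_lit 216) (nat_lit 188))))))) (XT.nd (nat_lit 1014) (nat_lit 0) (nat_lit 0) (XT.nd (nat_lit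 468) (nat_lit 0) (nat_lit 0) (XT.nd (nat_lit 234) (nat_lit 0) (nat_lit 0) (XT.nd (nat_lit 78) (nat_lit 0) (nat_lit 0) (XT.lf (nat_lit 0) (nat_lit 245094869297) (nat_lit 152) (nat_lit 101463747305) (nat_lit 0) (nat_lit 242644942570) (nat_lit 1) (nat_lit 5) (nat_lit 3) (nat_lit 4) (nat_lit 1) (nat_lit 4) (nat_lit 317) (nat_lit 216) (nat_lit 187)) (XT.nd (nat_lit 78) (nat_lit 0) (nat_lit 0) (XT.lf (nat_lit 0) (nat_lit 265240729750) (nat_lit 152) (nat_lit 108265971356) (nat_lit 0) (nat_lit 262768983850) (nat_lit 1) (nat_lit 5) (nat_lit 3) (nat_lit 4) (nat_lit 1) (nat_lit 4) (nat_lit 318) (nat_lit 216) (nat_lit 186)) (XT.lf (nat_lit 0) (nat_lit 286988643194) (nat_lit 152) (nat_lit 115629057344) (nat_lit 0) (nat_lit 284496694356) (nat_lit 1) (nat_lit 5) (nat_lit 3) (nat_lit 4) (nat_lit 1) (nat_lit 4) (nat_lit 319) (nat_lit 216) (nat_lit 185)))) (XT.nd (nat_lit 78) (nat_lit 0) (nat_lit 0)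 (XT.lf (nat_lit 0) (nat_lit 310467486151) (nat_lit 152) (nat_lit 123596638373) (nat_lit 0) (nat_lit 307956830891) (nat_lit 1) (nat_lit 5) (nat_lit 3) (nat_lit 4) (nat_lit 1) (nat_lit 4) (nat_lit 320) (nat_lit 216) (nat_lit 184)) (XT.nd (nat_lit 78) (nat_lit 0) (nat_lit 0) (XT.lf (nat_lit 0) (nat_lit 335816392508) (nat_lit 152) (nat_lit 132215929737) (nat_lit 0) (nat_lit 333288416485) (nat_lit 1) (nat_lit 5) (nat_lit 3) (nat_lit 4) (nat_lit 1) (nat_lit 4) (nat_lit 321) (nat_lit 216) (nat_lit 183)) (XT.lf (nat_lit 0) (nat_lit 363185578004) (nat_lit 152) (nat_lit 141538008719) (nat_lit 0) (nat_lit 360641564238) (nat_lit 1) (nat_lit 5) (nat_lit 3) (nat_lit 4) (nat_lit 1) (nat_lit 4) (nat_lit 322) (nat_lit 216) (nat_lit 182))))) (XT.nd (nat_lit 234) (nat_lit 0) (nat_lit 0) (XT.nd (nat_lit 78) (nat_lit 0) (nat_lit 0) (XT.lf (nat_lit 0) (nat_lit 392737230407) (nat_lit 152) (nat_lit 151618117268)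 (nat_lit 0) (nat_lit 390178366879) (nat_lit 1) (nat_lit 5) (nat_lit 3) (nat_lit 4) (nat_lit 1) (nat_lit 4) (nat_lit 323) (nat_lit 216) (nat_lit 181)) (XT.nd (nat_lit 78) (nat_lit 0) (nat_lit 0) (XT.lf (nat_lit 0) (nat_lit 424646470618) (nat_lit 152) (nat_lit 162515989361) (nat_lit 0) (nat_lit 422073857310) (nat_lit 1) (nat_lit 5) (nat_lit 3) (nat_lit 4) (nat_lit 1) (nat_lit 4) (nat_lit 324) (nat_lit 216) (nat_lit 180)) (XT.lf (nat_lit 0) (nat_lit 459102390433) (nat_lit 152) (nat_lit 174296204981) (nat_lit 0) (nat_lit 456517045847) (nat_lit 1) (nat_lit 5) (nat_lit 3) (nat_lit 4) (nat_lit 1) (nat_lit 4) (nat_lit 325) (nat_lit 216) (nat_lit 179)))) (XT.nd (nat_lit 156) (nat_lit 0) (nat_lit 0) (XT.nd (nat_lit 78) (nat_lit 0) (nat_lit 0) (XT.lf (nat_lit 0) (nat_lit 496309173078) (nat_lit 152) (nat_lit 187028572812) (nat_lit 0) (nat_lit 493712040273) (nat_lit 1) (nat_lit 5) (nat_lit 3)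 (nat_lit 4) (nat_lit 1) (nat_lit 4) (nat_lit 326) (nat_lit 216) (nat_lit 178)) (XT.lf (nat_lit 0) (nat_lit 536487303193) (nat_lit 152) (nat_lit 200788543923) (nat_lit 0) (nat_lit 533879255370) (nat_lit 1) (nat_lit 5) (nat_lit 3) (nat_lit 4) (nat_lit 1) (nat_lit 4) (nat_lit 327) (nat_lit 216) (nat_lit 177))) (XT.nd (nat_lit 78) (nat_lit 0) (nat_lit 0) (XT.lf (nat_lit 0) (nat_lit 579874873401) (nat_lit 152) (nat_lit 215657658884) (nat_lit 0) (nat_lit 577256719079) (nat_lit 1) (nat_lit 5) (nat_lit 3) (nat_lit 4) (nat_lit 1) (nat_lit 4) (nat_lit 328) (nat_lit 216) (nat_lit 176)) (XT.lf (nat_lit 0) (nat_lit 626728995227) (nat_lit 152) (nat_lit 231724030969) (nat_lit 0) (nat_lit 624101483036) (nat_lit 1) (nat_lit 5) (nat_lit 3) (nat_lit 4) (nat_lit 1) (nat_lit 4) (nat_lit 329) (nat_lit 216) (nat_lit 175)))))) (XT.nd (nat_lit 546) (nat_lit 0) (nat_lit 0) (XT.nd (nat_lit 234) (nat_lit 0)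 (nat_lit 0) (XT.nd (nat_lit 78) (nat_lit 0) (nat_lit 0) (XT.lf (nat_lit 0) (nat_lit 677327322729) (nat_lit 152) (nat_lit 249082868308) (nat_lit 0) (nat_lit 674691145844) (nat_lit 1) (nat_lit 5) (nat_lit 3) (nat_lit 4) (nat_lit 1) (nat_lit 4) (nat_lit 330) (nat_lit 216) (nat_lit 174)) (XT.nd (nat_lit 78) (nat_lit 0) (nat_lit 0) (XT.lf (nat_lit 0) (nat_lit 731969697845) (nat_lit 152) (nat_lit 267837038087) (nat_lit 0) (nat_lit 729325498096) (nat_lit 1) (nat_lit 5) (nat_lit 3) (nat_lit 4) (nat_lit 1) (nat_lit 4) (nat_lit 331) (nat_lit 216) (nat_lit 173)) (XT.lf (nat_lit 0) (nat_lit 790979927245) (nat_lit 152) (nat_lit 288097676124) (nat_lit 0) (nat_lit 788328298918) (nat_lit 1) (nat_lit 5) (nat_lit 3) (nat_lit 4) (nat_lit 1) (nat_lit 4) (nat_lit 332) (nat_lit 216) (nat_lit 172)))) (XT.nd (nat_lit 156) (nat_lit 0) (nat_lit 0) (XT.nd (nat_lit 78) (nat_lit 0) (nat_lit 0) (XT.lf (nat_lit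 0) (nat_lit 854707701175) (nat_lit 152) (nat_lit 309984845462) (nat_lit 0) (nat_lit 852049194535) (nat_lit 1) (nat_lit 5) (nat_lit 3) (nat_lit 4) (nat_lit 1) (nat_lit 4) (nat_lit 333) (nat_lit 216) (nat_lit 171)) (XT.lf (nat_lit 0) (nat_lit 923530665704) (nat_lit 152) (nat_lit 333628247844) (nat_lit 0) (nat_lit 920865790256) (nat_lit 1) (nat_lit 5) (nat_lit 3) (nat_lit 4) (nat_lit 1) (nat_lit 4) (nat_lit 334) (nat_lit 216) (nat_lit 170))) (XT.nd (nat_lit 78) (nat_lit 0) (nat_lit 0) (XT.lf (nat_lit 0) (nat_lit 997856660622) (nat_lit 152) (nat_lit 359167992321) (nat_lit 0) (nat_lit 995185888129) (nat_lit 1) (nat_lit 5) (nat_lit 3) (nat_lit 4) (nat_lit 1) (nat_lit 4) (nat_lit 335) (nat_lit 216) (nat_lit 169)) (XT.lf (nat_lit 0) (nat_lit 1078126136269) (nat_lit 152) (nat_lit 386755425528) (nat_lit 0) (nat_lit 1075449903549) (nat_lit 1) (nat_lit 5) (nat_lit 3) (nat_lit 4) (nat_lit 1) (nat_lit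 4) (nat_lit 336) (nat_lit 216) (nat_lit 168))))) (XT.nd (nat_lit 234) (nat_lit 0) (nat_lit 0) (XT.nd (nat_lit 78) (nat_lit 0) (nat_lit 0) (XT.lf (nat_lit 0) (nat_lit 1164814763611) (nat_lit 152) (nat_lit 416554028549) (nat_lit 0) (nat_lit 1162133475126) (nat_lit 1) (nat_lit 5) (nat_lit 3) (nat_lit 4) (nat_lit 1) (nat_lit 4) (nat_lit 337) (nat_lit 216) (nat_lit 167)) (XT.nd (nat_lit 78) (nat_lit 0) (nat_lit 0) (XT.lf (nat_lit 0) (nat_lit 1258436253033) (nat_lit 152) (nat_lit 448740385700) (nat_lit 0) (nat_lit 1255750283284) (nat_lit 1) (nat_lit 5) (nat_lit 3) (nat_lit 4) (nat_lit 1) (nat_lit 4) (nat_lit 338) (nat_lit 216) (nat_lit 166)) (XT.lf (nat_lit 0) (nat_lit 1359545398547) (nat_lit 152) (nat_lit 483505230947) (nat_lit 0) (nat_lit 1356855094293) (nat_lit 1) (nat_lit 5) (nat_lit 3) (nat_lit 4) (nat_lit 1) (nat_lit 4) (nat_lit 339) (nat_lit 216) (nat_lit 165)))) (XT.nd (nat_lit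 156) (nat_lit 0) (nat_lit 0) (XT.nd (nat_lit 78) (nat_lit 0) (nat_lit 0) (XT.lf (nat_lit 0) (nat_lit 1468741365458) (nat_lit 152) (nat_lit 521054578190) (nat_lit 0) (nat_lit 1466047047775) (nat_lit 1) (nat_lit 5) (nat_lit 3) (nat_lit 4) (nat_lit 1) (nat_lit 4) (nat_lit 340) (nat_lit 216) (nat_lit 164)) (XT.lf (nat_lit 0) (nat_lit 1586671240979) (nat_lit 152) (nat_lit 561610942079) (nat_lit 0) (nat_lit 1583973207157) (nat_lit 1) (nat_lit 5) (nat_lit 3) (nat_lit 4) (nat_lit 1) (nat_lit 4) (nat_lit 341) (nat_lit 216) (nat_lit 163))) (XT.nd (nat_lit 78) (nat_lit 0) (nat_lit 0) (XT.lf (nat_lit 0) (nat_lit 1714033868816) (nat_lit 152) (nat_lit 605414656621) (nat_lit 0) (nat_lit 1711332394125) (nat_lit 1) (nat_lit 5) (nat_lit 3) (nat_lit 4) (nat_lit 1) (nat_lit 4) (nat_lit 342) (nat_lit 216) (nat_lit 162)) (XT.lf (nat_lit 0) (nat_lit 1851583990467) (nat_lit 152) (nat_lit 652725299384) (nat_lit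 0) (nat_lit 1848879329787) (nat_lit 1) (nat_lit 5) (nat_lit 3) (nat_lit 4) (nat_lit 1) (nat_lit 4) (nat_lit 343) (nat_lit 216) (nat_lit 161))))))))
noncomputable def xc17 : XT := (XT.nd (nat_lit 34866) (nat_lit 0) (nat_lit 0) (XT.nd (nat_lit 33774) (nat_lit 0) (nat_lit 0) (XT.nd (nat_lit 33228) (nat_lit 0) (nat_lit 0) (XT.nd (nat_lit 32994) (nat_lit 0) (nat_lit 0) (XT.nd (nat_lit 78) (nat_lit 0) (nat_lit 0) (XT.lf (nat_lit 0) (nat_lit 2000136717765) (nat_lit 152) (nat_lit 703823229734) (nat_lit 0) (nat_lit 1997429107094) (nat_lit 1) (nat_lit 5) (nat_lit 3) (nat_lit 4) (nat_lit 1) (nat_lit 4) (nat_lit 344) (nat_lit 216) (nat_lit 160)) (XT.nd (nat_lit 78) (nat_lit 0) (nat_lit 0) (XT.lf (nat_lit 0) (nat_lit 2160572363168) (nat_lit 152) (nat_lit 759011250219) (nat_lit 0) (nat_lit 2157862021024) (nat_lit 1) (nat_lit 5) (nat_lit 3) (nat_lit 4) (nat_lit 1) (nat_lit 4) (nat_lit 345) (nat_lit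 216) (nat_lit 159)) (XT.lf (nat_lit 0) (nat_lit 2333841656425) (nat_lit 152) (nat_lit 818616400963) (nat_lit 0) (nat_lit 2331128785140) (nat_lit 1) (nat_lit 5) (nat_lit 3) (nat_lit 4) (nat_lit 1) (nat_lit 4) (nat_lit 346) (nat_lit 216) (nat_lit 158)))) (XT.nd (nat_lit 78) (nat_lit 0) (nat_lit 0) (XT.lf (nat_lit 0) (nat_lit 4553806596) (nat_lit 152) (nat_lit 18684397047) (nat_lit 0) (nat_lit 4553806596) (nat_lit 1) (nat_lit 5) (nat_lit 3) (nat_lit 4) (nat_lit 1) (nat_lit 4) (nat_lit 286) (nat_lit 217) (nat_lit 217)) (XT.nd (nat_lit 78) (nat_lit 0) (nat_lit 0) (XT.lf (nat_lit 0) (nat_lit 11583628731) (nat_lit 152) (nat_lit 36915030351) (nat_lit 0) (nat_lit 11364069887) (nat_lit 1) (nat_lit 5) (nat_lit 3) (nat_lit 4) (nat_lit 1) (nat_lit 4) (nat_lit 287) (nat_lit 217) (nat_lit 216)) (XT.lf (nat_lit 0) (nat_lit 14160964555) (nat_lit 152) (nat_lit 36592851021) (nat_lit 0) (nat_lit 13738110484)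 (nat_lit 1) (nat_lit 5) (nat_lit 3) (nat_lit 4) (nat_lit 1) (nat_lit 4) (nat_lit 288) (nat_lit 217) (nat_lit 215))))) (XT.nd (nat_lit 234) (nat_lit 0) (nat_lit 0) (XT.nd (nat_lit 78) (nat_lit 0) (nat_lit 0) (XT.lf (nat_lit 0) (nat_lit 16854893764) (nat_lit 152) (nat_lit 36400346892) (nat_lit 0) (nat_lit 16243803373) (nat_lit 1) (nat_lit 5) (nat_lit 3) (nat_lit 4) (nat_lit 1) (nat_lit 4) (nat_lit 289) (nat_lit 217) (nat_lit 214)) (XT.nd (nat_lit 78) (nat_lit 0) (nat_lit 0) (XT.lf (nat_lit 0) (nat_lit 19681380385) (nat_lit 152) (nat_lit 36336377199) (nat_lit 0) (nat_lit 18895997104) (nat_lit 1) (nat_lit 5) (nat_lit 3) (nat_lit 4) (nat_lit 1) (nat_lit 4) (nat_lit 290) (nat_lit 217) (nat_lit 213)) (XT.lf (nat_lit 0) (nat_lit 22657173967) (nat_lit 152) (nat_lit 36400562862) (nat_lit 0) (nat_lit 21710408381) (nat_lit 1) (nat_lit 5) (nat_lit 3) (nat_lit 4) (nat_lit 1) (nat_lit 4) (nat_lit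 291) (nat_lit 217) (nat_lit 212)))) (XT.nd (nat_lit 156) (nat_lit 0) (nat_lit 0) (XT.nd (nat_lit 78) (nat_lit 0) (nat_lit 0) (XT.lf (nat_lit 0) (nat_lit 25799908842) (nat_lit 152) (nat_lit 36593284241) (nat_lit 0) (nat_lit 24703715197) (nat_lit 1) (nat_lit 5) (nat_lit 3) (nat_lit 4) (nat_lit 1) (nat_lit 4) (nat_lit 292) (nat_lit 217) (nat_lit 211)) (XT.lf (nat_lit 0) (nat_lit 29128208626) (nat_lit 152) (nat_lit 36915683389) (nat_lit 0) (nat_lit 27893655665) (nat_lit 1) (nat_lit 5) (nat_lit 3) (nat_lit 4) (nat_lit 1) (nat_lit 4) (nat_lit 293) (nat_lit 217) (nat_lit 210))) (XT.nd (nat_lit 78) (nat_lit 0) (nat_lit 0) (XT.lf (nat_lit 0) (nat_lit 32661796575) (nat_lit 152) (nat_lit 37369670819) (nat_lit 0) (nat_lit 31299133138) (nat_lit 1) (nat_lit 5) (nat_lit 3) (nat_lit 4) (nat_lit 1) (nat_lit 4) (nat_lit 294) (nat_lit 217) (nat_lit 209)) (XT.lf (nat_lit 0) (nat_lit 36421612471) (nat_lit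 152) (nat_lit 37957936826) (nat_lit 0) (nat_lit 34940328222) (nat_lit 1) (nat_lit 5) (nat_lit 3) (nat_lit 4) (nat_lit 1) (nat_lit 4) (nat_lit 295) (nat_lit 217) (nat_lit 208)))))) (XT.nd (nat_lit 546) (nat_lit 0) (nat_lit 0) (XT.nd (nat_lit 234) (nat_lit 0) (nat_lit 0) (XT.nd (nat_lit 78) (nat_lit 0) (nat_lit 0) (XT.lf (nat_lit 0) (nat_lit 40429936704) (nat_lit 152) (nat_lit 38683967433) (nat_lit 0) (nat_lit 38838818369) (nat_lit 1) (nat_lit 5) (nat_lit 3) (nat_lit 4) (nat_lit 1) (nat_lit 4) (nat_lit 296) (nat_lit 217) (nat_lit 207)) (XT.nd (nat_lit 78) (nat_lit 0) (nat_lit 0) (XT.lf (nat_lit 0) (nat_lit 44710522305) (nat_lit 152) (nat_lit 39552065041) (nat_lit 0) (nat_lit 43017705744) (nat_lit 1) (nat_lit 5) (nat_lit 3) (nat_lit 4) (nat_lit 1) (nat_lit 4) (nat_lit 297) (nat_lit 217) (nat_lit 206)) (XT.lf (nat_lit 0) (nat_lit 49288735709) (nat_lit 152) (nat_lit 40567373934) (nat_lit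 0) (nat_lit 47501754123) (nat_lit 1) (nat_lit 5) (nat_lit 3) (nat_lit 4) (nat_lit 1) (nat_lit 4) (nat_lit 298) (nat_lit 217) (nat_lit 205)))) (XT.nd (nat_lit 156) (nat_lit 0) (nat_lit 0) (XT.nd (nat_lit 78) (nat_lit 0) (nat_lit 0) (XT.lf (nat_lit 0) (nat_lit 54191707070) (nat_lit 152) (nat_lit 41735910756) (nat_lit 0) (nat_lit 52317535646) (nat_lit 1) (nat_lit 5) (nat_lit 3) (nat_lit 4) (nat_lit 1) (nat_lit 4) (nat_lit 299) (nat_lit 217) (nat_lit 204)) (XT.lf (nat_lit 0) (nat_lit 59448491031) (nat_lit 152) (nat_lit 43064600171) (nat_lit 0) (nat_lit 57493588275) (nat_lit 1) (nat_lit 5) (nat_lit 3) (nat_lit 4) (nat_lit 1) (nat_lit 4) (nat_lit 300) (nat_lit 217) (nat_lit 203))) (XT.nd (nat_lit 78) (nat_lit 0) (nat_lit 0) (XT.lf (nat_lit 0) (nat_lit 65090238905) (nat_lit 152) (nat_lit 44561315893) (nat_lit 0) (nat_lit 63060584917) (nat_lit 1) (nat_lit 5) (nat_lit 3) (nat_lit 4) (nat_lit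 1) (nat_lit 4) (nat_lit 301) (nat_lit 217) (nat_lit 202)) (XT.lf (nat_lit 0) (nat_lit 71150383273) (nat_lit 152) (nat_lit 46234927349) (nat_lit 0) (nat_lit 69051515181) (nat_lit 1) (nat_lit 5) (nat_lit 3) (nat_lit 4) (nat_lit 1) (nat_lit 4) (nat_lit 302) (nat_lit 217) (nat_lit 201))))) (XT.nd (nat_lit 234) (nat_lit 0) (nat_lit 0) (XT.nd (nat_lit 78) (nat_lit 0) (nat_lit 0) (XT.lf (nat_lit 0) (nat_lit 77664836101) (nat_lit 152) (nat_lit 48095352237) (nat_lit 0) (nat_lit 75501880875) (nat_lit 1) (nat_lit 5) (nat_lit 3) (nat_lit 4) (nat_lit 1) (nat_lit 4) (nat_lit 303) (nat_lit 217) (nat_lit 200)) (XT.nd (nat_lit 78) (nat_lit 0) (nat_lit 0) (XT.lf (nat_lit 0) (nat_lit 84672201554) (nat_lit 152) (nat_lit 50153615296) (nat_lit 0) (nat_lit 82449906390) (nat_lit 1) (nat_lit 5) (nat_lit 3) (nat_lit 4) (nat_lit 1) (nat_lit 4) (nat_lit 304) (nat_lit 217) (nat_lit 199)) (XT.lf (nat_lit 0) (nat_lit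 92214004761) (nat_lit 152) (nat_lit 52421913640) (nat_lit 0) (nat_lit 89936765208) (nat_lit 1) (nat_lit 5) (nat_lit 3) (nat_lit 4) (nat_lit 1) (nat_lit 4) (nat_lit 305) (nat_lit 217) (nat_lit 198)))) (XT.nd (nat_lit 156) (nat_lit 0) (nat_lit 0) (XT.nd (nat_lit 78) (nat_lit 0) (nat_lit 0) (XT.lf (nat_lit 0) (nat_lit 100334937888) (nat_lit 152) (nat_lit 54913689039) (nat_lit 0) (nat_lit 98006823903) (nat_lit 1) (nat_lit 5) (nat_lit 3) (nat_lit 4) (nat_lit 1) (nat_lit 4) (nat_lit 306) (nat_lit 217) (nat_lit 197)) (XT.lf (nat_lit 0) (nat_lit 109083124984) (nat_lit 152) (nat_lit 57643707568) (nat_lit 0) (nat_lit 106707905042) (nat_lit 1) (nat_lit 5) (nat_lit 3) (nat_lit 4) (nat_lit 1) (nat_lit 4) (nat_lit 307) (nat_lit 217) (nat_lit 196))) (XT.nd (nat_lit 78) (nat_lit 0) (nat_lit 0) (XT.lf (nat_lit 0) (nat_lit 118510407158) (nat_lit 152) (nat_lit 60628147114) (nat_lit 0) (nat_lit 116091570590)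 (nat_lit 1) (nat_lit 5) (nat_lit 3) (nat_lit 4) (nat_lit 1) (nat_lit 4) (nat_lit 308) (nat_lit 217) (nat_lit 195)) (XT.lf (nat_lit 0) (nat_lit 128672649785) (nat_lit 152) (nat_lit 63884693246) (nat_lit 0) (nat_lit 126213427452) (nat_lit 1) (nat_lit 5) (nat_lit 3) (nat_lit 4) (nat_lit 1) (nat_lit 4) (nat_lit 309) (nat_lit 217) (nat_lit 194))))))) (XT.nd (nat_lit 1014) (nat_lit 0) (nat_lit 0) (XT.nd (nat_lit 468) (nat_lit 0) (nat_lit 0) (XT.nd (nat_lit 234) (nat_lit 0) (nat_lit 0) (XT.nd (nat_lit 78) (nat_lit 0) (nat_lit 0) (XT.lf (nat_lit 0) (nat_lit 139630073563) (nat_lit 152) (nat_lit 67432644015) (nat_lit 0) (nat_lit 137133457002) (nat_lit 1) (nat_lit 5) (nat_lit 3) (nat_lit 4) (nat_lit 1) (nat_lit 4) (nat_lit 310) (nat_lit 217) (nat_lit 193)) (XT.nd (nat_lit 78) (nat_lit 0) (nat_lit 0) (XT.lf (nat_lit 0) (nat_lit 151447611373) (nat_lit 152) (nat_lit 71293024314) (nat_lit 0) (nat_lit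 148916370528) (nat_lit 1) (nat_lit 5) (nat_lit 3) (nat_lit 4) (nat_lit 1) (nat_lit 4) (nat_lit 311) (nat_lit 217) (nat_lit 192)) (XT.lf (nat_lit 0) (nat_lit 164195293068) (nat_lit 152) (nat_lit 75488710471) (nat_lit 0) (nat_lit 161631992701) (nat_lit 1) (nat_lit 5) (nat_lit 3) (nat_lit 4) (nat_lit 1) (nat_lit 4) (nat_lit 312) (nat_lit 217) (nat_lit 191)))) (XT.nd (nat_lit 78) (nat_lit 0) (nat_lit 0) (XT.lf (nat_lit 0) (nat_lit 177948660467) (nat_lit 152) (nat_lit 80044565811) (nat_lit 0) (nat_lit 175355675357) (nat_lit 1) (nat_lit 5) (nat_lit 3) (nat_lit 4) (nat_lit 1) (nat_lit 4) (nat_lit 313) (nat_lit 217) (nat_lit 190)) (XT.nd (nat_lit 78) (nat_lit 0) (nat_lit 0) (XT.lf (nat_lit 0) (nat_lit 192789215006) (nat_lit 152) (nat_lit 84987587996) (nat_lit 0) (nat_lit 190168744022) (nat_lit 1) (nat_lit 5) (nat_lit 3) (nat_lit 4) (nat_lit 1) (nat_lit 4) (nat_lit 314) (nat_lit 217) (nat_lit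 189)) (XT.lf (nat_lit 0) (nat_lit 208804900711) (nat_lit 152) (nat_lit 90347069008) (nat_lit 0) (nat_lit 206158979845) (nat_lit 1) (nat_lit 5) (nat_lit 3) (nat_lit 4) (nat_lit 1) (nat_lit 4) (nat_lit 315) (nat_lit 217) (nat_lit 188))))) (XT.nd (nat_lit 234) (nat_lit 0) (nat_lit 0) (XT.nd (nat_lit 78) (nat_lit 0) (nat_lit 0) (XT.lf (nat_lit 0) (nat_lit 226090625350) (nat_lit 152) (nat_lit 96154768736) (nat_lit 0) (nat_lit 223421139778) (nat_lit 1) (nat_lit 5) (nat_lit 3) (nat_lit 4) (nat_lit 1) (nat_lit 4) (nat_lit 316) (nat_lit 217) (nat_lit 187)) (XT.nd (nat_lit 78) (nat_lit 0) (nat_lit 0) (XT.lf (nat_lit 0) (nat_lit 244748822846) (nat_lit 152) (nat_lit 102445103177) (nat_lit 0) (nat_lit 242057518102) (nat_lit 1) (nat_lit 5) (nat_lit 3) (nat_lit 4) (nat_lit 1) (nat_lit 4) (nat_lit 317) (nat_lit 217) (nat_lit 186)) (XT.lf (nat_lit 0) (nat_lit 264890060296) (nat_lit 152) (nat_lit 109255348388)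 (nat_lit 0) (nat_lit 262178552615) (nat_lit 1) (nat_lit 5) (nat_lit 3) (nat_lit 4) (nat_lit 1) (nat_lit 4) (nat_lit 318) (nat_lit 217) (nat_lit 185)))) (XT.nd (nat_lit 156) (nat_lit 0) (nat_lit 0) (XT.nd (nat_lit 78) (nat_lit 0) (nat_lit 0) (XT.lf (nat_lit 0) (nat_lit 286633693181) (nat_lit 152) (nat_lit 116625861377) (nat_lit 0) (nat_lit 283903479077) (nat_lit 1) (nat_lit 5) (nat_lit 3) (nat_lit 4) (nat_lit 1) (nat_lit 4) (nat_lit 319) (nat_lit 217) (nat_lit 184)) (XT.lf (nat_lit 0) (nat_lit 310108572659) (nat_lit 152) (nat_lit 124600319258) (nat_lit 0) (nat_lit 307361037792) (nat_lit 1) (nat_lit 5) (nat_lit 3) (nat_lit 4) (nat_lit 1) (nat_lit 4) (nat_lit 320) (nat_lit 217) (nat_lit 183))) (XT.nd (nat_lit 78) (nat_lit 0) (nat_lit 0) (XT.lf (nat_lit 0) (nat_lit 335453809127) (nat_lit 152) (nat_lit 133225978079) (nat_lit 0) (nat_lit 332690236517) (nat_lit 1) (nat_lit 5) (nat_lit 3)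 (nat_lit 4) (nat_lit 1) (nat_lit 4) (nat_lit 321) (nat_lit 217) (nat_lit 182)) (XT.lf (nat_lit 0) (nat_lit 362819596579) (nat_lit 152) (nat_lit 142553952853) (nat_lit 0) (nat_lit 360041174206) (nat_lit 1) (nat_lit 5) (nat_lit 3) (nat_lit 4) (nat_lit 1) (nat_lit 4) (nat_lit 322) (nat_lit 217) (nat_lit 181)))))) (XT.nd (nat_lit 546) (nat_lit 0) (nat_lit 0) (XT.nd (nat_lit 234) (nat_lit 0) (nat_lit 0) (XT.nd (nat_lit 78) (nat_lit 0) (nat_lit 0) (XT.lf (nat_lit 0) (nat_lit 392368102643) (nat_lit 152) (nat_lit 152639520470) (nat_lit 0) (nat_lit 389575930491) (nat_lit 1) (nat_lit 5) (nat_lit 3) (nat_lit 4) (nat_lit 1) (nat_lit 4) (nat_lit 323) (nat_lit 217) (nat_lit 180)) (XT.nd (nat_lit 78) (nat_lit 0) (nat_lit 0) (XT.lf (nat_lit 0) (nat_lit 424274429578) (nat_lit 152) (nat_lit 163542447254) (nat_lit 0) (nat_lit 421469526149) (nat_lit 1) (nat_lit 5) (nat_lit 3) (nat_lit 4) (nat_lit 1)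 (nat_lit 4) (nat_lit 324) (nat_lit 217) (nat_lit 179)) (XT.lf (nat_lit 0) (nat_lit 458727651915) (nat_lit 152) (nat_lit 175327343144) (nat_lit 0) (nat_lit 455910960266) (nat_lit 1) (nat_lit 5) (nat_lit 3) (nat_lit 4) (nat_lit 1) (nat_lit 4) (nat_lit 325) (nat_lit 217) (nat_lit 178)))) (XT.nd (nat_lit 156) (nat_lit 0) (nat_lit 0) (XT.nd (nat_lit 78) (nat_lit 0) (nat_lit 0) (XT.lf (nat_lit 0) (nat_lit 495931936896) (nat_lit 152) (nat_lit 188064044558) (nat_lit 0) (nat_lit 493104330228) (nat_lit 1) (nat_lit 5) (nat_lit 3) (nat_lit 4) (nat_lit 1) (nat_lit 4) (nat_lit 326) (nat_lit 217) (nat_lit 177)) (XT.lf (nat_lit 0) (nat_lit 536107754359) (nat_lit 152) (nat_lit 201828028247) (nat_lit 0) (nat_lit 533270041193) (nat_lit 1) (nat_lit 5) (nat_lit 3) (nat_lit 4) (nat_lit 1) (nat_lit 4) (nat_lit 327) (nat_lit 217) (nat_lit 176))) (XT.nd (nat_lit 78) (nat_lit 0) (nat_lit 0) (XT.lf (nat_lit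 0) (nat_lit 579493183221) (nat_lit 152) (nat_lit 216700858558) (nat_lit 0) (nat_lit 576646112186) (nat_lit 1) (nat_lit 5) (nat_lit 3) (nat_lit 4) (nat_lit 1) (nat_lit 4) (nat_lit 328) (nat_lit 217) (nat_lit 175)) (XT.lf (nat_lit 0) (nat_lit 626345322321) (nat_lit 152) (nat_lit 232770670781) (nat_lit 0) (nat_lit 623489586593) (nat_lit 1) (nat_lit 5) (nat_lit 3) (nat_lit 4) (nat_lit 1) (nat_lit 4) (nat_lit 329) (nat_lit 217) (nat_lit 174))))) (XT.nd (nat_lit 234) (nat_lit 0) (nat_lit 0) (XT.nd (nat_lit 78) (nat_lit 0) (nat_lit 0) (XT.lf (nat_lit 0) (nat_lit 676941813964) (nat_lit 152) (nat_lit 250132693434) (nat_lit 0) (nat_lit 674078055371) (nat_lit 1) (nat_lit 5) (nat_lit 3) (nat_lit 4) (nat_lit 1) (nat_lit 4) (nat_lit 330) (nat_lit 217) (nat_lit 173)) (XT.nd (nat_lit 78) (nat_lit 0) (nat_lit 0) (XT.lf (nat_lit 0) (nat_lit 731582489213) (nat_lit 152) (nat_lit 268889812576) (nat_lit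 0) (nat_lit 728711302041) (nat_lit 1) (nat_lit 5) (nat_lit 3) (nat_lit 4) (nat_lit 1) (nat_lit 4) (nat_lit 331) (nat_lit 217) (nat_lit 172)) (XT.lf (nat_lit 0) (nat_lit 790591144660) (nat_lit 152) (nat_lit 289153181506) (nat_lit 0) (nat_lit 787713079175) (nat_lit 1) (nat_lit 5) (nat_lit 3) (nat_lit 4) (nat_lit 1) (nat_lit 4) (nat_lit 332) (nat_lit 217) (nat_lit 171)))) (XT.nd (nat_lit 156) (nat_lit 0) (nat_lit 0) (XT.nd (nat_lit 78) (nat_lit 0) (nat_lit 0) (XT.lf (nat_lit 0) (nat_lit 854317461227) (nat_lit 152) (nat_lit 311042879449) (nat_lit 0) (nat_lit 851433026934) (nat_lit 1) (nat_lit 5) (nat_lit 3) (nat_lit 4) (nat_lit 1) (nat_lit 4) (nat_lit 333) (nat_lit 217) (nat_lit 170)) (XT.lf (nat_lit 0) (nat_lit 923139076346) (nat_lit 152) (nat_lit 334688623131) (nat_lit 0) (nat_lit 920248745008) (nat_lit 1) (nat_lit 5) (nat_lit 3) (nat_lit 4) (nat_lit 1) (nat_lit 4) (nat_lit 334) (nat_lit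 217) (nat_lit 169))) (XT.nd (nat_lit 78) (nat_lit 0) (nat_lit 0) (XT.lf (nat_lit 0) (nat_lit 997463821809) (nat_lit 152) (nat_lit 360230535479) (nat_lit 0) (nat_lit 994568030245) (nat_lit 1) (nat_lit 5) (nat_lit 3) (nat_lit 4) (nat_lit 1) (nat_lit 4) (nat_lit 335) (nat_lit 217) (nat_lit 168)) (XT.lf (nat_lit 0) (nat_lit 1077732140554) (nat_lit 152) (nat_lit 387819975973) (nat_lit 0) (nat_lit 1074831293224) (nat_lit 1) (nat_lit 5) (nat_lit 3) (nat_lit 4) (nat_lit 1) (nat_lit 4) (nat_lit 336) (nat_lit 217) (nat_lit 167))))))))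
noncomputable def xc18 : XT := (XT.nd (nat_lit 34632) (nat_lit 0) (nat_lit 0) (XT.nd (nat_lit 33618) (nat_lit 0) (nat_lit 0) (XT.nd (nat_lit 468) (nat_lit 0) (nat_lit 0) (XT.nd (nat_lit 234) (nat_lit 0) (nat_lit 0) (XT.nd (nat_lit 78) (nat_lit 0) (nat_lit 0) (XT.lf (nat_lit 0) (nat_lit 1164419696691) (nat_lit 152) (nat_lit 417620437594) (nat_lit 0) (nat_lit 1161514168097) (nat_lit 1) (nat_lit 5) (nat_lit 3) (nat_lit 4) (nat_lit 1) (nat_lit 4) (nat_lit 337) (nat_lit 217) (nat_lit 166)) (XT.nd (nat_lit 78) (nat_lit 0) (nat_lit 0) (XT.lf (nat_lit 0) (nat_lit 1258040194256) (nat_lit 152) (nat_lit 449808515670) (nat_lit 0) (nat_lit 1255130331158) (nat_lit 1) (nat_lit 5) (nat_lit 3) (nat_lit 4) (nat_lit 1) (nat_lit 4) (nat_lit 338) (nat_lit 217) (nat_lit 165)) (XT.lf (nat_lit 0) (nat_lit 1359148421383) (nat_lit 152) (nat_lit 484574954367) (nat_lit 0) (nat_lit 1356234544856) (nat_lit 1)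 (nat_lit 5) (nat_lit 3) (nat_lit 4) (nat_lit 1) (nat_lit 4) (nat_lit 339) (nat_lit 217) (nat_lit 164)))) (XT.nd (nat_lit 78) (nat_lit 0) (nat_lit 0) (XT.lf (nat_lit 0) (nat_lit 1468343537937) (nat_lit 152) (nat_lit 522125777027) (nat_lit 0) (nat_lit 1465425945271) (nat_lit 1) (nat_lit 5) (nat_lit 3) (nat_lit 4) (nat_lit 1) (nat_lit 4) (nat_lit 340) (nat_lit 217) (nat_lit 163)) (XT.nd (nat_lit 78) (nat_lit 0) (nat_lit 0) (XT.lf (nat_lit 0) (nat_lit 1586272626090) (nat_lit 152) (nat_lit 562683507042) (nat_lit 0) (nat_lit 1583351592555) (nat_lit 1) (nat_lit 5) (nat_lit 3) (nat_lit 4) (nat_lit 1) (nat_lit 4) (nat_lit 341) (nat_lit 217) (nat_lit 162)) (XT.lf (nat_lit 0) (nat_lit 1713634524883) (nat_lit 152) (nat_lit 606488486515) (nat_lit 0) (nat_lit 1710710305358) (nat_lit 1) (nat_lit 5) (nat_lit 3) (nat_lit 4) (nat_lit 1) (nat_lit 4) (nat_lit 342) (nat_lit 217) (nat_lit 161))))) (XT.nd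 (nat_lit 234) (nat_lit 0) (nat_lit 0) (XT.nd (nat_lit 78) (nat_lit 0) (nat_lit 0) (XT.lf (nat_lit 0) (nat_lit 1851183971493) (nat_lit 152) (nat_lit 653800300512) (nat_lit 0) (nat_lit 1848256801977) (nat_lit 1) (nat_lit 5) (nat_lit 3) (nat_lit 4) (nat_lit 1) (nat_lit 4) (nat_lit 343) (nat_lit 217) (nat_lit 160)) (XT.nd (nat_lit 78) (nat_lit 0) (nat_lit 0) (XT.lf (nat_lit 0) (nat_lit 1999736073753) (nat_lit 152) (nat_lit 704899315337) (nat_lit 0) (nat_lit 1996806172764) (nat_lit 1) (nat_lit 5) (nat_lit 3) (nat_lit 4) (nat_lit 1) (nat_lit 4) (nat_lit 344) (nat_lit 217) (nat_lit 159)) (XT.lf (nat_lit 0) (nat_lit 2160171140416) (nat_lit 152) (nat_lit 760088339966) (nat_lit 0) (nat_lit 2157238710286) (nat_lit 1) (nat_lit 5) (nat_lit 3) (nat_lit 4) (nat_lit 1) (nat_lit 4) (nat_lit 345) (nat_lit 217) (nat_lit 158)))) (XT.nd (nat_lit 32760) (nat_lit 0) (nat_lit 0) (XT.nd (nat_lit 32682) (nat_lit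 0) (nat_lit 0) (XT.lf (nat_lit 0) (nat_lit 2333439897804) (nat_lit 152) (nat_lit 819694420471) (nat_lit 0) (nat_lit 2330505125877) (nat_lit 1) (nat_lit 5) (nat_lit 3) (nat_lit 4) (nat_lit 1) (nat_lit 4) (nat_lit 346) (nat_lit 217) (nat_lit 157)) (XT.lf (nat_lit 0) (nat_lit 2346374910) (nat_lit 152) (nat_lit 19294240680) (nat_lit 0) (nat_lit 2346374910) (nat_lit 1) (nat_lit 5) (nat_lit 3) (nat_lit 4) (nat_lit 1) (nat_lit 4) (nat_lit 284) (nat_lit 218) (nat_lit 218))) (XT.nd (nat_lit 78) (nat_lit 0) (nat_lit 0) (XT.lf (nat_lit 0) (nat_lit 6955368807) (nat_lit 152) (nat_lit 37956831219) (nat_lit 0) (nat_lit 6718245255) (nat_lit 1) (nat_lit 5) (nat_lit 3) (nat_lit 4) (nat_lit 1) (nat_lit 4) (nat_lit 285) (nat_lit 218) (nat_lit 217)) (XT.lf (nat_lit 0) (nat_lit 9294495478) (nat_lit 152) (nat_lit 37455965417) (nat_lit 0) (nat_lit 8837813082) (nat_lit 1) (nat_lit 5) (nat_lit 3) (nat_lit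 4) (nat_lit 1) (nat_lit 4) (nat_lit 286) (nat_lit 218) (nat_lit 216)))))) (XT.nd (nat_lit 468) (nat_lit 0) (nat_lit 0) (XT.nd (nat_lit 234) (nat_lit 0) (nat_lit 0) (XT.nd (nat_lit 78) (nat_lit 0) (nat_lit 0) (XT.lf (nat_lit 0) (nat_lit 11723991325) (nat_lit 152) (nat_lit 37082915863) (nat_lit 0) (nat_lit 11064013703) (nat_lit 1) (nat_lit 5) (nat_lit 3) (nat_lit 4) (nat_lit 1) (nat_lit 4) (nat_lit 287) (nat_lit 218) (nat_lit 215)) (XT.nd (nat_lit 78) (nat_lit 0) (nat_lit 0) (XT.lf (nat_lit 0) (nat_lit 14258253360) (nat_lit 152) (nat_lit 36835471892) (nat_lit 0) (nat_lit 13410039417) (nat_lit 1) (nat_lit 5) (nat_lit 3) (nat_lit 4) (nat_lit 1) (nat_lit 4) (nat_lit 288) (nat_lit 218) (nat_lit 214)) (XT.lf (nat_lit 0) (nat_lit 16912299432) (nat_lit 152) (nat_lit 36712167170) (nat_lit 0) (nat_lit 15889792600) (nat_lit 1) (nat_lit 5) (nat_lit 3) (nat_lit 4) (nat_lit 1) (nat_lit 4) (nat_lit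 289) (nat_lit 218) (nat_lit 213)))) (XT.nd (nat_lit 78) (nat_lit 0) (nat_lit 0) (XT.lf (nat_lit 0) (nat_lit 19701857222) (nat_lit 152) (nat_lit 36712271002) (nat_lit 0) (nat_lit 18517968085) (nat_lit 1) (nat_lit 5) (nat_lit 3) (nat_lit 4) (nat_lit 1) (nat_lit 4) (nat_lit 290) (nat_lit 218) (nat_lit 212)) (XT.nd (nat_lit 78) (nat_lit 0) (nat_lit 0) (XT.lf (nat_lit 0) (nat_lit 22643457442) (nat_lit 152) (nat_lit 36835784003) (nat_lit 0) (nat_lit 21310140245) (nat_lit 1) (nat_lit 5) (nat_lit 3) (nat_lit 4) (nat_lit 1) (nat_lit 4) (nat_lit 291) (nat_lit 218) (nat_lit 211)) (XT.lf (nat_lit 0) (nat_lit 25754531797) (nat_lit 152) (nat_lit 37083438102) (nat_lit 0) (nat_lit 24282855285) (nat_lit 1) (nat_lit 5) (nat_lit 3) (nat_lit 4) (nat_lit 1) (nat_lit 4) (nat_lit 292) (nat_lit 218) (nat_lit 210))))) (XT.nd (nat_lit 234) (nat_lit 0) (nat_lit 0) (XT.nd (nat_lit 78) (nat_lit 0) (nat_lit 0)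 (XT.lf (nat_lit 0) (nat_lit 29053516284) (nat_lit 152) (nat_lit 37456700880) (nat_lit 0) (nat_lit 27453729295) (nat_lit 1) (nat_lit 5) (nat_lit 3) (nat_lit 4) (nat_lit 1) (nat_lit 4) (nat_lit 293) (nat_lit 218) (nat_lit 209)) (XT.nd (nat_lit 78) (nat_lit 0) (nat_lit 0) (XT.lf (nat_lit 0) (nat_lit 32559960441) (nat_lit 152) (nat_lit 37957784263) (nat_lit 0) (nat_lit 30841552640) (nat_lit 1) (nat_lit 5) (nat_lit 3) (nat_lit 4) (nat_lit 1) (nat_lit 4) (nat_lit 294) (nat_lit 218) (nat_lit 208)) (XT.lf (nat_lit 0) (nat_lit 36294643195) (nat_lit 152) (nat_lit 38589657635) (nat_lit 0) (nat_lit 34466401309) (nat_lit 1) (nat_lit 5) (nat_lit 3) (nat_lit 4) (nat_lit 1) (nat_lit 4) (nat_lit 295) (nat_lit 218) (nat_lit 207)))) (XT.nd (nat_lit 156) (nat_lit 0) (nat_lit 0) (XT.nd (nat_lit 78) (nat_lit 0) (nat_lit 0) (XT.lf (nat_lit 0) (nat_lit 40279696000) (nat_lit 152) (nat_lit 39356065431) (nat_lit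 0) (nat_lit 38349755887) (nat_lit 1) (nat_lit 5) (nat_lit 3) (nat_lit 4) (nat_lit 1) (nat_lit 4) (nat_lit 296) (nat_lit 218) (nat_lit 206)) (XT.lf (nat_lit 0) (nat_lit 44538733983) (nat_lit 152) (nat_lit 40261549326) (nat_lit 0) (nat_lit 42514628845) (nat_lit 1) (nat_lit 5) (nat_lit 3) (nat_lit 4) (nat_lit 1) (nat_lit 4) (nat_lit 297) (nat_lit 218) (nat_lit 205))) (XT.nd (nat_lit 78) (nat_lit 0) (nat_lit 0) (XT.lf (nat_lit 0) (nat_lit 49096995889) (nat_lit 152) (nat_lit 41311475150) (nat_lit 0) (nat_lit 46985700913) (nat_lit 1) (nat_lit 5) (nat_lit 3) (nat_lit 4) (nat_lit 1) (nat_lit 4) (nat_lit 298) (nat_lit 218) (nat_lit 204)) (XT.lf (nat_lit 0) (nat_lit 53981493640) (nat_lit 152) (nat_lit 42512064688) (nat_lit 0) (nat_lit 51789467332) (nat_lit 1) (nat_lit 5) (nat_lit 3) (nat_lit 4) (nat_lit 1) (nat_lit 4) (nat_lit 299) (nat_lit 218) (nat_lit 203))))))) (XT.nd (nat_lit 1014) (nat_lit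 0) (nat_lit 0) (XT.nd (nat_lit 468) (nat_lit 0) (nat_lit 0) (XT.nd (nat_lit 234) (nat_lit 0) (nat_lit 0) (XT.nd (nat_lit 78) (nat_lit 0) (nat_lit 0) (XT.lf (nat_lit 0) (nat_lit 59221172407) (nat_lit 152) (nat_lit 43870432542) (nat_lit 0) (nat_lit 56954394867) (nat_lit 1) (nat_lit 5) (nat_lit 3) (nat_lit 4) (nat_lit 1) (nat_lit 4) (nat_lit 300) (nat_lit 218) (nat_lit 202)) (XT.nd (nat_lit 78) (nat_lit 0) (nat_lit 0) (XT.lf (nat_lit 0) (nat_lit 64847082139) (nat_lit 152) (nat_lit 45394628301) (nat_lit 0) (nat_lit 62511090495) (nat_lit 1) (nat_lit 5) (nat_lit 3) (nat_lit 4) (nat_lit 1) (nat_lit 4) (nat_lit 301) (nat_lit 218) (nat_lit 201)) (XT.lf (nat_lit 0) (nat_lit 70892561560) (nat_lit 152) (nat_lit 47093684235) (nat_lit 0) (nat_lit 68492482782) (nat_lit 1) (nat_lit 5) (nat_lit 3) (nat_lit 4) (nat_lit 1) (nat_lit 4) (nat_lit 302) (nat_lit 218) (nat_lit 200)))) (XT.nd (nat_lit 78)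 (nat_lit 0) (nat_lit 0) (XT.lf (nat_lit 0) (nat_lit 77393435734) (nat_lit 152) (nat_lit 48977668824) (nat_lit 0) (nat_lit 74934017017) (nat_lit 1) (nat_lit 5) (nat_lit 3) (nat_lit 4) (nat_lit 1) (nat_lit 4) (nat_lit 303) (nat_lit 218) (nat_lit 199)) (XT.nd (nat_lit 78) (nat_lit 0) (nat_lit 0) (XT.lf (nat_lit 0) (nat_lit 84388228358) (nat_lit 152) (nat_lit 51057746422) (nat_lit 0) (nat_lit 81873865254) (nat_lit 1) (nat_lit 5) (nat_lit 3) (nat_lit 4) (nat_lit 1) (nat_lit 4) (nat_lit 304) (nat_lit 218) (nat_lit 198)) (XT.lf (nat_lit 0) (nat_lit 91918390057) (nat_lit 152) (nat_lit 53346243414) (nat_lit 0) (nat_lit 89353152520) (nat_lit 1) (nat_lit 5) (nat_lit 3) (nat_lit 4) (nat_lit 1) (nat_lit 4) (nat_lit 305) (nat_lit 218) (nat_lit 197))))) (XT.nd (nat_lit 234) (nat_lit 0) (nat_lit 0) (XT.nd (nat_lit 78) (nat_lit 0) (nat_lit 0) (XT.lf (nat_lit 0) (nat_lit 100028544011) (nat_lit 152)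 (nat_lit 55856721264) (nat_lit 0) (nat_lit 97416200517) (nat_lit 1) (nat_lit 5) (nat_lit 3) (nat_lit 4) (nat_lit 1) (nat_lit 4) (nat_lit 306) (nat_lit 218) (nat_lit 196)) (XT.nd (nat_lit 78) (nat_lit 0) (nat_lit 0) (XT.lf (nat_lit 0) (nat_lit 108766750391) (nat_lit 152) (nat_lit 58604056877) (nat_lit 0) (nat_lit 106110790271) (nat_lit 1) (nat_lit 5) (nat_lit 3) (nat_lit 4) (nat_lit 1) (nat_lit 4) (nat_lit 307) (nat_lit 218) (nat_lit 195)) (XT.lf (nat_lit 0) (nat_lit 118184791160) (nat_lit 152) (nat_lit 61604530761) (nat_lit 0) (nat_lit 115488445275) (nat_lit 1) (nat_lit 5) (nat_lit 3) (nat_lit 4) (nat_lit 1) (nat_lit 4) (nat_lit 308) (nat_lit 218) (nat_lit 194)))) (XT.nd (nat_lit 156) (nat_lit 0) (nat_lit 0) (XT.nd (nat_lit 78) (nat_lit 0) (nat_lit 0) (XT.lf (nat_lit 0) (nat_lit 128338476932) (nat_lit 152) (nat_lit 64875923502) (nat_lit 0) (nat_lit 125604736820) (nat_lit 1) (nat_lit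 5) (nat_lit 3) (nat_lit 4) (nat_lit 1) (nat_lit 4) (nat_lit 309) (nat_lit 218) (nat_lit 193)) (XT.lf (nat_lit 0) (nat_lit 139287977695) (nat_lit 152) (nat_lit 68437621131) (nat_lit 0) (nat_lit 136519613299) (nat_lit 1) (nat_lit 5) (nat_lit 3) (nat_lit 4) (nat_lit 1) (nat_lit 4) (nat_lit 310) (nat_lit 218) (nat_lit 192))) (XT.nd (nat_lit 78) (nat_lit 0) (nat_lit 0) (XT.lf (nat_lit 0) (nat_lit 151098179380) (nat_lit 152) (nat_lit 72310730004) (nat_lit 0) (nat_lit 148297755461) (nat_lit 1) (nat_lit 5) (nat_lit 3) (nat_lit 4) (nat_lit 1) (nat_lit 4) (nat_lit 311) (nat_lit 218) (nat_lit 191)) (XT.lf (nat_lit 0) (nat_lit 163839068368) (nat_lit 152) (nat_lit 76518201877) (nat_lit 0) (nat_lit 161008959706) (nat_lit 1) (nat_lit 5) (nat_lit 3) (nat_lit 4) (nat_lit 1) (nat_lit 4) (nat_lit 312) (nat_lit 218) (nat_lit 190)))))) (XT.nd (nat_lit 546) (nat_lit 0) (nat_lit 0) (XT.nd (nat_lit 234)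 (nat_lit 0) (nat_lit 0) (XT.nd (nat_lit 78) (nat_lit 0) (nat_lit 0) (XT.lf (nat_lit 0) (nat_lit 177586146222) (nat_lit 152) (nat_lit 81084969918) (nat_lit 0) (nat_lit 174728551687) (nat_lit 1) (nat_lit 5) (nat_lit 3) (nat_lit 4) (nat_lit 1) (nat_lit 4) (nat_lit 313) (nat_lit 218) (nat_lit 189)) (XT.nd (nat_lit 78) (nat_lit 0) (nat_lit 0) (XT.lf (nat_lit 0) (nat_lit 192420877109) (nat_lit 152) (nat_lit 86038096455) (nat_lit 0) (nat_lit 189537832691) (nat_lit 1) (nat_lit 5) (nat_lit 3) (nat_lit 4) (nat_lit 1) (nat_lit 4) (nat_lit 314) (nat_lit 218) (nat_lit 188)) (XT.lf (nat_lit 0) (nat_lit 208431170543) (nat_lit 152) (nat_lit 91406933349) (nat_lit 0) (nat_lit 205524561420) (nat_lit 1) (nat_lit 5) (nat_lit 3) (nat_lit 4) (nat_lit 1) (nat_lit 4) (nat_lit 315) (nat_lit 218) (nat_lit 187)))) (XT.nd (nat_lit 156) (nat_lit 0) (nat_lit 0) (XT.nd (nat_lit 78) (nat_lit 0) (nat_lit 0) (XT.lf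 (nat_lit 0) (nat_lit 225711902339) (nat_lit 152) (nat_lit 97223295930) (nat_lit 0) (nat_lit 222783474043) (nat_lit 1) (nat_lit 5) (nat_lit 3) (nat_lit 4) (nat_lit 1) (nat_lit 4) (nat_lit 316) (nat_lit 218) (nat_lit 186)) (XT.lf (nat_lit 0) (nat_lit 244365476833) (nat_lit 152) (nat_lit 103521651532) (nat_lit 0) (nat_lit 241416845600) (nat_lit 1) (nat_lit 5) (nat_lit 3) (nat_lit 4) (nat_lit 1) (nat_lit 4) (nat_lit 317) (nat_lit 218) (nat_lit 185))) (XT.nd (nat_lit 78) (nat_lit 0) (nat_lit 0) (XT.lf (nat_lit 0) (nat_lit 264502433725) (nat_lit 152) (nat_lit 110339323744) (nat_lit 0) (nat_lit 261535096068) (nat_lit 1) (nat_lit 5) (nat_lit 3) (nat_lit 4) (nat_lit 1) (nat_lit 4) (nat_lit 318) (nat_lit 218) (nat_lit 184)) (XT.lf (nat_lit 0) (nat_lit 286242103130) (nat_lit 152) (nat_lit 117716713585) (nat_lit 0) (nat_lit 283257444711) (nat_lit 1) (nat_lit 5) (nat_lit 3) (nat_lit 4) (nat_lit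 1) (nat_lit 4) (nat_lit 319) (nat_lit 218) (nat_lit 183))))) (XT.nd (nat_lit 234) (nat_lit 0) (nat_lit 0) (XT.nd (nat_lit 78) (nat_lit 0) (nat_lit 0) (XT.lf (nat_lit 0) (nat_lit 309713312720) (nat_lit 152) (nat_lit 125697538923) (nat_lit 0) (nat_lit 306712616558) (nat_lit 1) (nat_lit 5) (nat_lit 3) (nat_lit 4) (nat_lit 1) (nat_lit 4) (nat_lit 320) (nat_lit 218) (nat_lit 182)) (XT.nd (nat_lit 78) (nat_lit 0) (nat_lit 0) (XT.lf (nat_lit 0) (nat_lit 335055151142) (nat_lit 152) (nat_lit 134329093536) (nat_lit 0) (nat_lit 332039605218) (nat_lit 1) (nat_lit 5) (nat_lit 3) (nat_lit 4) (nat_lit 1) (nat_lit 4) (nat_lit 321) (nat_lit 218) (nat_lit 181)) (XT.lf (nat_lit 0) (nat_lit 362417792256) (nat_lit 152) (nat_lit 143662527377) (nat_lit 0) (nat_lit 359388496552) (nat_lit 1) (nat_lit 5) (nat_lit 3) (nat_lit 4) (nat_lit 1) (nat_lit 4) (nat_lit 322) (nat_lit 218) (nat_lit 180)))) (XT.nd (nat_lit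 156) (nat_lit 0) (nat_lit 0) (XT.nd (nat_lit 78) (nat_lit 0) (nat_lit 0) (XT.lf (nat_lit 0) (nat_lit 391963385044) (nat_lit 152) (nat_lit 153753149686) (nat_lit 0) (nat_lit 388921358063) (nat_lit 1) (nat_lit 5) (nat_lit 3) (nat_lit 4) (nat_lit 1) (nat_lit 4) (nat_lit 323) (nat_lit 218) (nat_lit 179)) (XT.lf (nat_lit 0) (nat_lit 423867014502) (nat_lit 152) (nat_lit 164660756741) (nat_lit 0) (nat_lit 420813199301) (nat_lit 1) (nat_lit 5) (nat_lit 3) (nat_lit 4) (nat_lit 1) (nat_lit 4) (nat_lit 324) (nat_lit 218) (nat_lit 178))) (XT.nd (nat_lit 78) (nat_lit 0) (nat_lit 0) (XT.lf (nat_lit 0) (nat_lit 458317739174) (nat_lit 152) (nat_lit 176449986214) (nat_lit 0) (nat_lit 455253008954) (nat_lit 1) (nat_lit 5) (nat_lit 3) (nat_lit 4) (nat_lit 1) (nat_lit 4) (nat_lit 325) (nat_lit 218) (nat_lit 177)) (XT.lf (nat_lit 0) (nat_lit 495519711502) (nat_lit 152) (nat_lit 189190700206) (nat_lit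 0) (nat_lit 492444874784) (nat_lit 1) (nat_lit 5) (nat_lit 3) (nat_lit 4) (nat_lit 1) (nat_lit 4) (nat_lit 326) (nat_lit 218) (nat_lit 176))))))))
noncomputable def xc19 : XT := (XT.nd (nat_lit 34554) (nat_lit 0) (nat_lit 0) (XT.nd (nat_lit 1014) (nat_lit 0) (nat_lit 0) (XT.nd (nat_lit 468) (nat_lit 0) (nat_lit 0) (XT.nd (nat_lit 234) (nat_lit 0) (nat_lit 0) (XT.nd (nat_lit 78) (nat_lit 0) (nat_lit 0) (XT.lf (nat_lit 0) (nat_lit 535693387620) (nat_lit 152) (nat_lit 202958399244) (nat_lit 0) (nat_lit 532609193033) (nat_lit 1) (nat_lit 5) (nat_lit 3) (nat_lit 4) (nat_lit 1) (nat_lit 4) (nat_lit 327) (nat_lit 218) (nat_lit 175)) (XT.nd (nat_lit 78) (nat_lit 0) (nat_lit 0) (XT.lf (nat_lit 0) (nat_lit 579076833756) (nat_lit 152) (nat_lit 217834669693) (nat_lit 0) (nat_lit 575983974476) (nat_lit 1) (nat_lit 5) (nat_lit 3) (nat_lit 4) (nat_lit 1) (nat_lit 4) (nat_lit 328) (nat_lit 218) (nat_lit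 174)) (XT.lf (nat_lit 0) (nat_lit 625927136998) (nat_lit 152) (nat_lit 233907667229) (nat_lit 0) (nat_lit 622826254853) (nat_lit 1) (nat_lit 5) (nat_lit 3) (nat_lit 4) (nat_lit 1) (nat_lit 4) (nat_lit 329) (nat_lit 218) (nat_lit 173)))) (XT.nd (nat_lit 78) (nat_lit 0) (nat_lit 0) (XT.lf (nat_lit 0) (nat_lit 676521928773) (nat_lit 152) (nat_lit 251272639246) (nat_lit 0) (nat_lit 673413618050) (nat_lit 1) (nat_lit 5) (nat_lit 3) (nat_lit 4) (nat_lit 1) (nat_lit 4) (nat_lit 330) (nat_lit 218) (nat_lit 172)) (XT.nd (nat_lit 78) (nat_lit 0) (nat_lit 0) (XT.lf (nat_lit 0) (nat_lit 731161030069) (nat_lit 152) (nat_lit 270032489281) (nat_lit 0) (nat_lit 728045841032) (nat_lit 1) (nat_lit 5) (nat_lit 3) (nat_lit 4) (nat_lit 1) (nat_lit 4) (nat_lit 331) (nat_lit 218) (nat_lit 171)) (XT.lf (nat_lit 0) (nat_lit 790168228152) (nat_lit 152) (nat_lit 290298386816) (nat_lit 0) (nat_lit 787046670308)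 (nat_lit 1) (nat_lit 5) (nat_lit 3) (nat_lit 4) (nat_lit 1) (nat_lit 4) (nat_lit 332) (nat_lit 218) (nat_lit 170))))) (XT.nd (nat_lit 234) (nat_lit 0) (nat_lit 0) (XT.nd (nat_lit 78) (nat_lit 0) (nat_lit 0) (XT.lf (nat_lit 0) (nat_lit 853893195309) (nat_lit 152) (nat_lit 312190426059) (nat_lit 0) (nat_lit 850765740420) (nat_lit 1) (nat_lit 5) (nat_lit 3) (nat_lit 4) (nat_lit 1) (nat_lit 4) (nat_lit 333) (nat_lit 218) (nat_lit 169)) (XT.nd (nat_lit 78) (nat_lit 0) (nat_lit 0) (XT.lf (nat_lit 0) (nat_lit 922713560974) (nat_lit 152) (nat_lit 335838337612) (nat_lit 0) (nat_lit 919580645858) (nat_lit 1) (nat_lit 5) (nat_lit 3) (nat_lit 4) (nat_lit 1) (nat_lit 4) (nat_lit 334) (nat_lit 218) (nat_lit 168)) (XT.lf (nat_lit 0) (nat_lit 997037149535) (nat_lit 152) (nat_lit 361382257247) (nat_lit 0) (nat_lit 993899178654) (nat_lit 1) (nat_lit 5) (nat_lit 3) (nat_lit 4) (nat_lit 1) (nat_lit 4)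 (nat_lit 335) (nat_lit 218) (nat_lit 167)))) (XT.nd (nat_lit 156) (nat_lit 0) (nat_lit 0) (XT.nd (nat_lit 78) (nat_lit 0) (nat_lit 0) (XT.lf (nat_lit 0) (nat_lit 1077304397075) (nat_lit 152) (nat_lit 388973556341) (nat_lit 0) (nat_lit 1074161744929) (nat_lit 1) (nat_lit 5) (nat_lit 3) (nat_lit 4) (nat_lit 1) (nat_lit 4) (nat_lit 336) (nat_lit 218) (nat_lit 166)) (XT.lf (nat_lit 0) (nat_lit 1163990961354) (nat_lit 152) (nat_lit 418775738888) (nat_lit 0) (nat_lit 1160843974705) (nat_lit 1) (nat_lit 5) (nat_lit 3) (nat_lit 4) (nat_lit 1) (nat_lit 4) (nat_lit 337) (nat_lit 218) (nat_lit 165))) (XT.nd (nat_lit 78) (nat_lit 0) (nat_lit 0) (XT.lf (nat_lit 0) (nat_lit 1257610540534) (nat_lit 152) (nat_lit 450965410413) (nat_lit 0) (nat_lit 1254459540454) (nat_lit 1) (nat_lit 5) (nat_lit 3) (nat_lit 4) (nat_lit 1) (nat_lit 4) (nat_lit 338) (nat_lit 218) (nat_lit 164)) (XT.lf (nat_lit 0) (nat_lit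 1358717917303) (nat_lit 152) (nat_lit 485733324527) (nat_lit 0) (nat_lit 1355563201086) (nat_lit 1) (nat_lit 5) (nat_lit 3) (nat_lit 4) (nat_lit 1) (nat_lit 4) (nat_lit 339) (nat_lit 218) (nat_lit 163)))))) (XT.nd (nat_lit 32994) (nat_lit 0) (nat_lit 0) (XT.nd (nat_lit 234) (nat_lit 0) (nat_lit 0) (XT.nd (nat_lit 78) (nat_lit 0) (nat_lit 0) (XT.lf (nat_lit 0) (nat_lit 1467912246489) (nat_lit 152) (nat_lit 523285513313) (nat_lit 0) (nat_lit 1464754089403) (nat_lit 1) (nat_lit 5) (nat_lit 3) (nat_lit 4) (nat_lit 1) (nat_lit 4) (nat_lit 340) (nat_lit 218) (nat_lit 162)) (XT.nd (nat_lit 78) (nat_lit 0) (nat_lit 0) (XT.lf (nat_lit 0) (nat_lit 1585840605598) (nat_lit 152) (nat_lit 563844508259) (nat_lit 0) (nat_lit 1582679262521) (nat_lit 1) (nat_lit 5) (nat_lit 3) (nat_lit 4) (nat_lit 1) (nat_lit 4) (nat_lit 341) (nat_lit 218) (nat_lit 161)) (XT.lf (nat_lit 0) (nat_lit 1713201829349) (nat_lit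 152) (nat_lit 607650658966) (nat_lit 0) (nat_lit 1710037536282) (nat_lit 1) (nat_lit 5) (nat_lit 3) (nat_lit 4) (nat_lit 1) (nat_lit 4) (nat_lit 342) (nat_lit 218) (nat_lit 160)))) (XT.nd (nat_lit 156) (nat_lit 0) (nat_lit 0) (XT.nd (nat_lit 78) (nat_lit 0) (nat_lit 0) (XT.lf (nat_lit 0) (nat_lit 1850750650921) (nat_lit 152) (nat_lit 654963557438) (nat_lit 0) (nat_lit 1847583626381) (nat_lit 1) (nat_lit 5) (nat_lit 3) (nat_lit 4) (nat_lit 1) (nat_lit 4) (nat_lit 343) (nat_lit 218) (nat_lit 159)) (XT.lf (nat_lit 0) (nat_lit 1999302174442) (nat_lit 152) (nat_lit 706063576406) (nat_lit 0) (nat_lit 1996132620760) (nat_lit 1) (nat_lit 5) (nat_lit 3) (nat_lit 4) (nat_lit 1) (nat_lit 4) (nat_lit 344) (nat_lit 218) (nat_lit 158))) (XT.nd (nat_lit 78) (nat_lit 0) (nat_lit 0) (XT.lf (nat_lit 0) (nat_lit 2159736705236) (nat_lit 152) (nat_lit 761253530798) (nat_lit 0) (nat_lit 2156564809756)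 (nat_lit 1) (nat_lit 5) (nat_lit 3) (nat_lit 4) (nat_lit 1) (nat_lit 4) (nat_lit 345) (nat_lit 218) (nat_lit 157)) (XT.lf (nat_lit 0) (nat_lit 2333004966448) (nat_lit 152) (nat_lit 820860472195) (nat_lit 0) (nat_lit 2329830902638) (nat_lit 1) (nat_lit 5) (nat_lit 3) (nat_lit 4) (nat_lit 1) (nat_lit 4) (nat_lit 346) (nat_lit 218) (nat_lit 156))))) (XT.nd (nat_lit 234) (nat_lit 0) (nat_lit 0) (XT.nd (nat_lit 78) (nat_lit 0) (nat_lit 0) (XT.lf (nat_lit 0) (nat_lit 329235610) (nat_lit 152) (nat_lit 20079113843) (nat_lit 0) (nat_lit 329235610) (nat_lit 1) (nat_lit 5) (nat_lit 3) (nat_lit 4) (nat_lit 1) (nat_lit 4) (nat_lit 282) (nat_lit 219) (nat_lit 219)) (XT.nd (nat_lit 78) (nat_lit 0) (nat_lit 0) (XT.lf (nat_lit 0) (nat_lit 2749323841) (nat_lit 152) (nat_lit 39354658957) (nat_lit 0) (nat_lit 2493230405) (nat_lit 1) (nat_lit 5) (nat_lit 3) (nat_lit 4) (nat_lit 1) (nat_lit 4) (nat_lit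 283) (nat_lit 219) (nat_lit 218)) (XT.lf (nat_lit 0) (nat_lit 4894582688) (nat_lit 152) (nat_lit 38682626391) (nat_lit 0) (nat_lit 4401365700) (nat_lit 1) (nat_lit 5) (nat_lit 3) (nat_lit 4) (nat_lit 1) (nat_lit 4) (nat_lit 284) (nat_lit 219) (nat_lit 217)))) (XT.nd (nat_lit 156) (nat_lit 0) (nat_lit 0) (XT.nd (nat_lit 78) (nat_lit 0) (nat_lit 0) (XT.lf (nat_lit 0) (nat_lit 7106960408) (nat_lit 152) (nat_lit 38138147571) (nat_lit 0) (nat_lit 6394184576) (nat_lit 1) (nat_lit 5) (nat_lit 3) (nat_lit 4) (nat_lit 1) (nat_lit 4) (nat_lit 285) (nat_lit 219) (nat_lit 216)) (XT.lf (nat_lit 0) (nat_lit 9399567388) (nat_lit 152) (nat_lit 37717995958) (nat_lit 0) (nat_lit 8483496330) (nat_lit 1) (nat_lit 5) (nat_lit 3) (nat_lit 4) (nat_lit 1) (nat_lit 4) (nat_lit 286) (nat_lit 219) (nat_lit 215))) (XT.nd (nat_lit 78) (nat_lit 0) (nat_lit 0) (XT.lf (nat_lit 0) (nat_lit 11785989447) (nat_lit 152)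 (nat_lit 37419681763) (nat_lit 0) (nat_lit 10681682068) (nat_lit 1) (nat_lit 5) (nat_lit 3) (nat_lit 4) (nat_lit 1) (nat_lit 4) (nat_lit 287) (nat_lit 219) (nat_lit 214)) (XT.lf (nat_lit 0) (nat_lit 14280368344) (nat_lit 152) (nat_lit 37241437199) (nat_lit 0) (nat_lit 13001768076) (nat_lit 1) (nat_lit 5) (nat_lit 3) (nat_lit 4) (nat_lit 1) (nat_lit 4) (nat_lit 288) (nat_lit 219) (nat_lit 213))))))) (XT.nd (nat_lit 1014) (nat_lit 0) (nat_lit 0) (XT.nd (nat_lit 468) (nat_lit 0) (nat_lit 0) (XT.nd (nat_lit 234) (nat_lit 0) (nat_lit 0) (XT.nd (nat_lit 78) (nat_lit 0) (nat_lit 0) (XT.lf (nat_lit 0) (nat_lit 16897485586) (nat_lit 152) (nat_lit 37182206002) (nat_lit 0) (nat_lit 15457503012) (nat_lit 1) (nat_lit 5) (nat_lit 3) (nat_lit 4) (nat_lit 1) (nat_lit 4) (nat_lit 289) (nat_lit 219) (nat_lit 212)) (XT.nd (nat_lit 78) (nat_lit 0) (nat_lit 0) (XT.lf (nat_lit 0) (nat_lit 19652850013)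 (nat_lit 152) (nat_lit 37241637171) (nat_lit 0) (nat_lit 18063439380) (nat_lit 1) (nat_lit 5) (nat_lit 3) (nat_lit 4) (nat_lit 1) (nat_lit 4) (nat_lit 290) (nat_lit 219) (nat_lit 211)) (XT.lf (nat_lit 0) (nat_lit 22562789713) (nat_lit 152) (nat_lit 37420082893) (nat_lit 0) (nat_lit 20835019765) (nat_lit 1) (nat_lit 5) (nat_lit 3) (nat_lit 4) (nat_lit 1) (nat_lit 4) (nat_lit 291) (nat_lit 219) (nat_lit 210)))) (XT.nd (nat_lit 78) (nat_lit 0) (nat_lit 0) (XT.lf (nat_lit 0) (nat_lit 25644548772) (nat_lit 152) (nat_lit 37718600622) (nat_lit 0) (nat_lit 23788668347) (nat_lit 1) (nat_lit 5) (nat_lit 3) (nat_lit 4) (nat_lit 1) (nat_lit 4) (nat_lit 292) (nat_lit 219) (nat_lit 209)) (XT.nd (nat_lit 78) (nat_lit 0) (nat_lit 0) (XT.lf (nat_lit 0) (nat_lit 28916389466) (nat_lit 152) (nat_lit 38138959354) (nat_lit 0) (nat_lit 26941888229) (nat_lit 1) (nat_lit 5) (nat_lit 3) (nat_lit 4) (nat_lit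 1) (nat_lit 4) (nat_lit 293) (nat_lit 219) (nat_lit 208)) (XT.lf (nat_lit 0) (nat_lit 32397700480) (nat_lit 152) (nat_lit 38683650101) (nat_lit 0) (nat_lit 30313365158) (nat_lit 1) (nat_lit 5) (nat_lit 3) (nat_lit 4) (nat_lit 1) (nat_lit 4) (nat_lit 294) (nat_lit 219) (nat_lit 207))))) (XT.nd (nat_lit 234) (nat_lit 0) (nat_lit 0) (XT.nd (nat_lit 78) (nat_lit 0) (nat_lit 0) (XT.lf (nat_lit 0) (nat_lit 36109111807) (nat_lit 152) (nat_lit 39355900663) (nat_lit 0) (nat_lit 33923078258) (nat_lit 1) (nat_lit 5) (nat_lit 3) (nat_lit 4) (nat_lit 1) (nat_lit 4) (nat_lit 295) (nat_lit 219) (nat_lit 206)) (XT.nd (nat_lit 78) (nat_lit 0) (nat_lit 0) (XT.lf (nat_lit 0) (nat_lit 40072616994) (nat_lit 152) (nat_lit 40159694745) (nat_lit 0) (nat_lit 37792418420) (nat_lit 1) (nat_lit 5) (nat_lit 3) (nat_lit 4) (nat_lit 1) (nat_lit 4) (nat_lit 296) (nat_lit 219) (nat_lit 205)) (XT.lf (nat_lit 0) (nat_lit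 44311703479) (nat_lit 152) (nat_lit 41099795571) (nat_lit 0) (nat_lit 41944315067) (nat_lit 1) (nat_lit 5) (nat_lit 3) (nat_lit 4) (nat_lit 1) (nat_lit 4) (nat_lit 297) (nat_lit 219) (nat_lit 204)))) (XT.nd (nat_lit 156) (nat_lit 0) (nat_lit 0) (XT.nd (nat_lit 78) (nat_lit 0) (nat_lit 0) (XT.lf (nat_lit 0) (nat_lit 48851491775) (nat_lit 152) (nat_lit 42181774111) (nat_lit 0) (nat_lit 46403372032) (nat_lit 1) (nat_lit 5) (nat_lit 3) (nat_lit 4) (nat_lit 1) (nat_lit 4) (nat_lit 298) (nat_lit 219) (nat_lit 203)) (XT.lf (nat_lit 0) (nat_lit 53718884332) (nat_lit 152) (nat_lit 43412042087) (nat_lit 0) (nat_lit 51196013356) (nat_lit 1) (nat_lit 5) (nat_lit 3) (nat_lit 4) (nat_lit 1) (nat_lit 4) (nat_lit 299) (nat_lit 219) (nat_lit 202))) (XT.nd (nat_lit 78) (nat_lit 0) (nat_lit 0) (XT.lf (nat_lit 0) (nat_lit 58942724957) (nat_lit 152) (nat_lit 44797889978) (nat_lit 0) (nat_lit 56350639876)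 (nat_lit 1) (nat_lit 5) (nat_lit 3) (nat_lit 4) (nat_lit 1) (nat_lit 4) (nat_lit 300) (nat_lit 219) (nat_lit 201)) (XT.lf (nat_lit 0) (nat_lit 64553969742) (nat_lit 152) (nat_lit 46347530215) (nat_lit 0) (nat_lit 61897797528) (nat_lit 1) (nat_lit 5) (nat_lit 3) (nat_lit 4) (nat_lit 1) (nat_lit 4) (nat_lit 301) (nat_lit 219) (nat_lit 200)))))) (XT.nd (nat_lit 546) (nat_lit 0) (nat_lit 0) (XT.nd (nat_lit 234) (nat_lit 0) (nat_lit 0) (XT.nd (nat_lit 78) (nat_lit 0) (nat_lit 0) (XT.lf (nat_lit 0) (nat_lit 70585870508) (nat_lit 152) (nat_lit 48070145852) (nat_lit 0) (nat_lit 67870358356) (nat_lit 1) (nat_lit 5) (nat_lit 3) (nat_lit 4) (nat_lit 1) (nat_lit 4) (nat_lit 302) (nat_lit 219) (nat_lit 199)) (XT.nd (nat_lit 78) (nat_lit 0) (nat_lit 0) (XT.lf (nat_lit 0) (nat_lit 77074171854) (nat_lit 152) (nat_lit 49975944980) (nat_lit 0) (nat_lit 74303715314) (nat_lit 1) (nat_lit 5) (nat_lit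 3) (nat_lit 4) (nat_lit 1) (nat_lit 4) (nat_lit 303) (nat_lit 219) (nat_lit 198)) (XT.lf (nat_lit 0) (nat_lit 84057322971) (nat_lit 152) (nat_lit 52076221225) (nat_lit 0) (nat_lit 81235991998) (nat_lit 1) (nat_lit 5) (nat_lit 3) (nat_lit 4) (nat_lit 1) (nat_lit 4) (nat_lit 304) (nat_lit 219) (nat_lit 197)))) (XT.nd (nat_lit 156) (nat_lit 0) (nat_lit 0) (XT.nd (nat_lit 78) (nat_lit 0) (nat_lit 0) (XT.lf (nat_lit 0) (nat_lit 91576705496) (nat_lit 152) (nat_lit 54383420668) (nat_lit 0) (nat_lit 88708268567) (nat_lit 1) (nat_lit 5) (nat_lit 3) (nat_lit 4) (nat_lit 1) (nat_lit 4) (nat_lit 305) (nat_lit 219) (nat_lit 196)) (XT.lf (nat_lit 0) (nat_lit 99676878733) (nat_lit 152) (nat_lit 56911215602) (nat_lit 0) (nat_lit 96764825177) (nat_lit 1) (nat_lit 5) (nat_lit 3) (nat_lit 4) (nat_lit 1) (nat_lit 4) (nat_lit 306) (nat_lit 219) (nat_lit 195))) (XT.nd (nat_lit 78) (nat_lit 0) (nat_lit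 0) (XT.lf (nat_lit 0) (nat_lit 108405843709) (nat_lit 152) (nat_lit 59674585553) (nat_lit 0) (nat_lit 105453404388) (nat_lit 1) (nat_lit 5) (nat_lit 3) (nat_lit 4) (nat_lit 1) (nat_lit 4) (nat_lit 307) (nat_lit 219) (nat_lit 194)) (XT.lf (nat_lit 0) (nat_lit 117815327623) (nat_lit 152) (nat_lit 62689906046) (nat_lit 0) (nat_lit 114825494075) (nat_lit 1) (nat_lit 5) (nat_lit 3) (nat_lit 4) (nat_lit 1) (nat_lit 4) (nat_lit 308) (nat_lit 219) (nat_lit 193))))) (XT.nd (nat_lit 234) (nat_lit 0) (nat_lit 0) (XT.nd (nat_lit 78) (nat_lit 0) (nat_lit 0) (XT.lf (nat_lit 0) (nat_lit 127961090380) (nat_lit 152) (nat_lit 65975045647) (nat_lit 0) (nat_lit 124936632548) (nat_lit 1) (nat_lit 5) (nat_lit 3) (nat_lit 4) (nat_lit 1) (nat_lit 4) (nat_lit 309) (nat_lit 219) (nat_lit 192)) (XT.nd (nat_lit 78) (nat_lit 0) (nat_lit 0) (XT.lf (nat_lit 0) (nat_lit 138903255019) (nat_lit 152) (nat_lit 69549471849)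 (nat_lit 0) (nat_lit 135846737664) (nat_lit 1) (nat_lit 5) (nat_lit 3) (nat_lit 4) (nat_lit 1) (nat_lit 4) (nat_lit 310) (nat_lit 219) (nat_lit 191)) (XT.lf (nat_lit 0) (nat_lit 150706663996) (nat_lit 152) (nat_lit 73434366439) (nat_lit 0) (nat_lit 147620461898) (nat_lit 1) (nat_lit 5) (nat_lit 3) (nat_lit 4) (nat_lit 1) (nat_lit 4) (nat_lit 311) (nat_lit 219) (nat_lit 190)))) (XT.nd (nat_lit 156) (nat_lit 0) (nat_lit 0) (XT.nd (nat_lit 78) (nat_lit 0) (nat_lit 0) (XT.lf (nat_lit 0) (nat_lit 163441263440) (nat_lit 152) (nat_lit 77652751013) (nat_lit 0) (nat_lit 160327575469) (nat_lit 1) (nat_lit 5) (nat_lit 3) (nat_lit 4) (nat_lit 1) (nat_lit 4) (nat_lit 312) (nat_lit 219) (nat_lit 189)) (XT.lf (nat_lit 0) (nat_lit 177182517642) (nat_lit 152) (nat_lit 82229623406) (nat_lit 0) (nat_lit 174043379788) (nat_lit 1) (nat_lit 5) (nat_lit 3) (nat_lit 4) (nat_lit 1) (nat_lit 4) (nat_lit 313)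 (nat_lit 219) (nat_lit 188))) (XT.nd (nat_lit 78) (nat_lit 0) (nat_lit 0) (XT.lf (nat_lit 0) (nat_lit 192011856258) (nat_lit 152) (nat_lit 87192105825) (nat_lit 0) (nat_lit 188849153698) (nat_lit 1) (nat_lit 5) (nat_lit 3) (nat_lit 4) (nat_lit 1) (nat_lit 4) (nat_lit 314) (nat_lit 219) (nat_lit 187)) (XT.lf (nat_lit 0) (nat_lit 208017156849) (nat_lit 152) (nat_lit 92569605573) (nat_lit 0) (nat_lit 204832635117) (nat_lit 1) (nat_lit 5) (nat_lit 3) (nat_lit 4) (nat_lit 1) (nat_lit 4) (nat_lit 315) (nat_lit 219) (nat_lit 186))))))))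
noncomputable def xc20 : XT := (XT.nd (nat_lit 2028) (nat_lit 0) (nat_lit 0) (XT.nd (nat_lit 1014) (nat_lit 0) (nat_lit 0) (XT.nd (nat_lit 468) (nat_lit 0) (nat_lit 0) (XT.nd (nat_lit 234) (nat_lit 0) (nat_lit 0) (XT.nd (nat_lit 78) (nat_lit 0) (nat_lit 0) (XT.lf (nat_lit 0) (nat_lit 225293265642) (nat_lit 152) (nat_lit 98393989315) (nat_lit 0) (nat_lit 222088540973) (nat_lit 1) (nat_lit 5) (nat_lit 3) (nat_lit 4) (nat_lit 1) (nat_lit 4) (nat_lit 316) (nat_lit 219) (nat_lit 185)) (XT.nd (nat_lit 78) (nat_lit 0) (nat_lit 0) (XT.lf (nat_lit 0) (nat_lit 243942559578) (nat_lit 152) (nat_lit 104699771917) (nat_lit 0) (nat_lit 240719128485) (nat_lit 1) (nat_lit 5) (nat_lit 3) (nat_lit 4) (nat_lit 1) (nat_lit 4) (nat_lit 317) (nat_lit 219) (nat_lit 184)) (XT.lf (nat_lit 0) (nat_lit 264075552990) (nat_lit 152) (nat_lit 111524320981) (nat_lit 0) (nat_lit 260834801135) (nat_lit 1) (nat_lit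 5) (nat_lit 3) (nat_lit 4) (nat_lit 1) (nat_lit 4) (nat_lit 318) (nat_lit 219) (nat_lit 183)))) (XT.nd (nat_lit 78) (nat_lit 0) (nat_lit 0) (XT.lf (nat_lit 0) (nat_lit 285811552507) (nat_lit 152) (nat_lit 118908078279) (nat_lit 0) (nat_lit 282554762909) (nat_lit 1) (nat_lit 5) (nat_lit 3) (nat_lit 4) (nat_lit 1) (nat_lit 4) (nat_lit 319) (nat_lit 219) (nat_lit 182)) (XT.nd (nat_lit 78) (nat_lit 0) (nat_lit 0) (XT.lf (nat_lit 0) (nat_lit 309279364051) (nat_lit 152) (nat_lit 126894799409) (nat_lit 0) (nat_lit 306007724691) (nat_lit 1) (nat_lit 5) (nat_lit 3) (nat_lit 4) (nat_lit 1) (nat_lit 4) (nat_lit 320) (nat_lit 219) (nat_lit 181)) (XT.lf (nat_lit 0) (nat_lit 334618056135) (nat_lit 152) (nat_lit 135531813089) (nat_lit 0) (nat_lit 331332666996) (nat_lit 1) (nat_lit 5) (nat_lit 3) (nat_lit 4) (nat_lit 1) (nat_lit 4) (nat_lit 321) (nat_lit 219) (nat_lit 180))))) (XT.nd (nat_lit 234)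 (nat_lit 0) (nat_lit 0) (XT.nd (nat_lit 78) (nat_lit 0) (nat_lit 0) (XT.lf (nat_lit 0) (nat_lit 361977783973) (nat_lit 152) (nat_lit 144870301623) (nat_lit 0) (nat_lit 358679663556) (nat_lit 1) (nat_lit 5) (nat_lit 3) (nat_lit 4) (nat_lit 1) (nat_lit 4) (nat_lit 322) (nat_lit 219) (nat_lit 179)) (XT.nd (nat_lit 78) (nat_lit 0) (nat_lit 0) (XT.lf (nat_lit 0) (nat_lit 391520679283) (nat_lit 152) (nat_lit 154965604201) (nat_lit 0) (nat_lit 388210770646) (nat_lit 1) (nat_lit 5) (nat_lit 3) (nat_lit 4) (nat_lit 1) (nat_lit 4) (nat_lit 323) (nat_lit 219) (nat_lit 178)) (XT.lf (nat_lit 0) (nat_lit 423421811077) (nat_lit 152) (nat_lit 165877544840) (nat_lit 0) (nat_lit 420100987421) (nat_lit 1) (nat_lit 5) (nat_lit 3) (nat_lit 4) (nat_lit 1) (nat_lit 4) (nat_lit 324) (nat_lit 219) (nat_lit 177)))) (XT.nd (nat_lit 156) (nat_lit 0) (nat_lit 0) (XT.nd (nat_lit 78) (nat_lit 0) (nat_lit 0) (XT.lf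 (nat_lit 0) (nat_lit 457870223096) (nat_lit 152) (nat_lit 177670786890) (nat_lit 0) (nat_lit 454539292942) (nat_lit 1) (nat_lit 5) (nat_lit 3) (nat_lit 4) (nat_lit 1) (nat_lit 4) (nat_lit 325) (nat_lit 219) (nat_lit 176)) (XT.lf (nat_lit 0) (nat_lit 495070054080) (nat_lit 152) (nat_lit 190415216232) (nat_lit 0) (nat_lit 491729766057) (nat_lit 1) (nat_lit 5) (nat_lit 3) (nat_lit 4) (nat_lit 1) (nat_lit 4) (nat_lit 326) (nat_lit 219) (nat_lit 175))) (XT.nd (nat_lit 78) (nat_lit 0) (nat_lit 0) (XT.lf (nat_lit 0) (nat_lit 535241747471) (nat_lit 152) (nat_lit 204186355408) (nat_lit 0) (nat_lit 531892794755) (nat_lit 1) (nat_lit 5) (nat_lit 3) (nat_lit 4) (nat_lit 1) (nat_lit 4) (nat_lit 327) (nat_lit 219) (nat_lit 174)) (XT.lf (nat_lit 0) (nat_lit 578623357749) (nat_lit 152) (nat_lit 219065811170) (nat_lit 0) (nat_lit 575266382168) (nat_lit 1) (nat_lit 5) (nat_lit 3) (nat_lit 4) (nat_lit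 1) (nat_lit 4) (nat_lit 328) (nat_lit 219) (nat_lit 173)))))) (XT.nd (nat_lit 468) (nat_lit 0) (nat_lit 0) (XT.nd (nat_lit 234) (nat_lit 0) (nat_lit 0) (XT.nd (nat_lit 78) (nat_lit 0) (nat_lit 0) (XT.lf (nat_lit 0) (nat_lit 625471961122) (nat_lit 152) (nat_lit 235141758071) (nat_lit 0) (nat_lit 622107556963) (nat_lit 1) (nat_lit 5) (nat_lit 3) (nat_lit 4) (nat_lit 1) (nat_lit 4) (nat_lit 329) (nat_lit 219) (nat_lit 172)) (XT.nd (nat_lit 78) (nat_lit 0) (nat_lit 0) (XT.lf (nat_lit 0) (nat_lit 676065178945) (nat_lit 152) (nat_lit 252509460981) (nat_lit 0) (nat_lit 672693896473) (nat_lit 1) (nat_lit 5) (nat_lit 3) (nat_lit 4) (nat_lit 1) (nat_lit 4) (nat_lit 330) (nat_lit 219) (nat_lit 171)) (XT.lf (nat_lit 0) (nat_lit 730702822877) (nat_lit 152) (nat_lit 271271839620) (nat_lit 0) (nat_lit 727325171597) (nat_lit 1) (nat_lit 5) (nat_lit 3) (nat_lit 4) (nat_lit 1) (nat_lit 4) (nat_lit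 331) (nat_lit 219) (nat_lit 170)))) (XT.nd (nat_lit 78) (nat_lit 0) (nat_lit 0) (XT.lf (nat_lit 0) (nat_lit 789708671551) (nat_lit 152) (nat_lit 291540078455) (nat_lit 0) (nat_lit 786325123225) (nat_lit 1) (nat_lit 5) (nat_lit 3) (nat_lit 4) (nat_lit 1) (nat_lit 4) (nat_lit 332) (nat_lit 219) (nat_lit 169)) (XT.nd (nat_lit 78) (nat_lit 0) (nat_lit 0) (XT.lf (nat_lit 0) (nat_lit 853432389253) (nat_lit 152) (nat_lit 313434285569) (nat_lit 0) (nat_lit 850043380701) (nat_lit 1) (nat_lit 5) (nat_lit 3) (nat_lit 4) (nat_lit 1) (nat_lit 4) (nat_lit 333) (nat_lit 219) (nat_lit 168)) (XT.lf (nat_lit 0) (nat_lit 922251598016) (nat_lit 152) (nat_lit 337084204409) (nat_lit 0) (nat_lit 918857533698) (nat_lit 1) (nat_lit 5) (nat_lit 3) (nat_lit 4) (nat_lit 1) (nat_lit 4) (nat_lit 334) (nat_lit 219) (nat_lit 167))))) (XT.nd (nat_lit 234) (nat_lit 0) (nat_lit 0) (XT.nd (nat_lit 78) (nat_lit 0) (nat_lit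 0) (XT.lf (nat_lit 0) (nat_lit 996574115372) (nat_lit 152) (nat_lit 362629982644) (nat_lit 0) (nat_lit 993175369790) (nat_lit 1) (nat_lit 5) (nat_lit 3) (nat_lit 4) (nat_lit 1) (nat_lit 4) (nat_lit 335) (nat_lit 219) (nat_lit 166)) (XT.nd (nat_lit 78) (nat_lit 0) (nat_lit 0) (XT.lf (nat_lit 0) (nat_lit 1076840371054) (nat_lit 152) (nat_lit 390223002664) (nat_lit 0) (nat_lit 1073437290969) (nat_lit 1) (nat_lit 5) (nat_lit 3) (nat_lit 4) (nat_lit 1) (nat_lit 4) (nat_lit 336) (nat_lit 219) (nat_lit 165)) (XT.lf (nat_lit 0) (nat_lit 1163526016948) (nat_lit 152) (nat_lit 420026778660) (nat_lit 0) (nat_lit 1160118923433) (nat_lit 1) (nat_lit 5) (nat_lit 3) (nat_lit 4) (nat_lit 1) (nat_lit 4) (nat_lit 337) (nat_lit 219) (nat_lit 164)))) (XT.nd (nat_lit 156) (nat_lit 0) (nat_lit 0) (XT.nd (nat_lit 78) (nat_lit 0) (nat_lit 0) (XT.lf (nat_lit 0) (nat_lit 1257144745770) (nat_lit 152) (nat_lit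 452217925602) (nat_lit 0) (nat_lit 1253733936116) (nat_lit 1) (nat_lit 5) (nat_lit 3) (nat_lit 4) (nat_lit 1) (nat_lit 4) (nat_lit 338) (nat_lit 219) (nat_lit 163)) (XT.lf (nat_lit 0) (nat_lit 1358251335171) (nat_lit 152) (nat_lit 486987205843) (nat_lit 0) (nat_lit 1354837084649) (nat_lit 1) (nat_lit 5) (nat_lit 3) (nat_lit 4) (nat_lit 1) (nat_lit 4) (nat_lit 339) (nat_lit 219) (nat_lit 162))) (XT.nd (nat_lit 78) (nat_lit 0) (nat_lit 0) (XT.lf (nat_lit 0) (nat_lit 1467444935313) (nat_lit 152) (nat_lit 524540659560) (nat_lit 0) (nat_lit 1464027498800) (nat_lit 1) (nat_lit 5) (nat_lit 3) (nat_lit 4) (nat_lit 1) (nat_lit 4) (nat_lit 340) (nat_lit 219) (nat_lit 161)) (XT.lf (nat_lit 0) (nat_lit 1585372619380) (nat_lit 152) (nat_lit 565100825739) (nat_lit 0) (nat_lit 1581952232877) (nat_lit 1) (nat_lit 5) (nat_lit 3) (nat_lit 4) (nat_lit 1) (nat_lit 4) (nat_lit 341) (nat_lit 219) (nat_lit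 160))))))) (XT.nd (nat_lit 33306) (nat_lit 0) (nat_lit 0) (XT.nd (nat_lit 32760) (nat_lit 0) (nat_lit 0) (XT.nd (nat_lit 234) (nat_lit 0) (nat_lit 0) (XT.nd (nat_lit 78) (nat_lit 0) (nat_lit 0) (XT.lf (nat_lit 0) (nat_lit 1712733218093) (nat_lit 152) (nat_lit 608908060921) (nat_lit 0) (nat_lit 1709310100117) (nat_lit 1) (nat_lit 5) (nat_lit 3) (nat_lit 4) (nat_lit 1) (nat_lit 4) (nat_lit 342) (nat_lit 219) (nat_lit 159)) (XT.nd (nat_lit 78) (nat_lit 0) (nat_lit 0) (XT.lf (nat_lit 0) (nat_lit 1850281460926) (nat_lit 152) (nat_lit 656221963537) (nat_lit 0) (nat_lit 1846855813809) (nat_lit 1) (nat_lit 5) (nat_lit 3) (nat_lit 4) (nat_lit 1) (nat_lit 4) (nat_lit 343) (nat_lit 219) (nat_lit 158)) (XT.lf (nat_lit 0) (nat_lit 1998832448577) (nat_lit 152) (nat_lit 707322912267) (nat_lit 0) (nat_lit 1995404459662) (nat_lit 1) (nat_lit 5) (nat_lit 3) (nat_lit 4) (nat_lit 1) (nat_lit 4) (nat_lit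 344) (nat_lit 219) (nat_lit 157)))) (XT.nd (nat_lit 78) (nat_lit 0) (nat_lit 0) (XT.lf (nat_lit 0) (nat_lit 2159266483196) (nat_lit 152) (nat_lit 762513727551) (nat_lit 0) (nat_lit 2155836325950) (nat_lit 1) (nat_lit 5) (nat_lit 3) (nat_lit 4) (nat_lit 1) (nat_lit 4) (nat_lit 345) (nat_lit 219) (nat_lit 156)) (XT.nd (nat_lit 32370) (nat_lit 0) (nat_lit 152) (XT.lf (nat_lit 0) (nat_lit 2332534284987) (nat_lit 152) (nat_lit 822121466069) (nat_lit 0) (nat_lit 2329102120026) (nat_lit 1) (nat_lit 5) (nat_lit 3) (nat_lit 4) (nat_lit 1) (nat_lit 4) (nat_lit 346) (nat_lit 219) (nat_lit 155)) (XT.lf (nat_lit 0) (nat_lit 14961830349) (nat_lit 76) (nat_lit 1495874546) (nat_lit 76) (nat_lit 1495874546) (nat_lit 3) (nat_lit 4) (nat_lit 4) (nat_lit 5) (nat_lit 4) (nat_lit 4) (nat_lit 280) (nat_lit 220) (nat_lit 220))))) (XT.nd (nat_lit 234) (nat_lit 0) (nat_lit 0) (XT.nd (nat_lit 78) (nat_lit 152)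 (nat_lit 0) (XT.lf (nat_lit 0) (nat_lit 36143423148) (nat_lit 76) (nat_lit 1369730543) (nat_lit 76) (nat_lit 1071023159) (nat_lit 3) (nat_lit 4) (nat_lit 4) (nat_lit 5) (nat_lit 4) (nat_lit 4) (nat_lit 281) (nat_lit 220) (nat_lit 219)) (XT.nd (nat_lit 78) (nat_lit 0) (nat_lit 0) (XT.lf (nat_lit 0) (nat_lit 876450719) (nat_lit 152) (nat_lit 40259904318) (nat_lit 0) (nat_lit 343776372) (nat_lit 1) (nat_lit 5) (nat_lit 3) (nat_lit 4) (nat_lit 1) (nat_lit 4) (nat_lit 282) (nat_lit 220) (nat_lit 218)) (XT.lf (nat_lit 0) (nat_lit 2913042770) (nat_lit 152) (nat_lit 39550480618) (nat_lit 0) (nat_lit 2143244871) (nat_lit 1) (nat_lit 5) (nat_lit 3) (nat_lit 4) (nat_lit 1) (nat_lit 4) (nat_lit 283) (nat_lit 220) (nat_lit 217)))) (XT.nd (nat_lit 156) (nat_lit 0) (nat_lit 0) (XT.nd (nat_lit 78) (nat_lit 0) (nat_lit 0) (XT.lf (nat_lit 0) (nat_lit 5008060350) (nat_lit 152) (nat_lit 38965619375)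 (nat_lit 0) (nat_lit 4018703608) (nat_lit 1) (nat_lit 5) (nat_lit 3) (nat_lit 4) (nat_lit 1) (nat_lit 4) (nat_lit 284) (nat_lit 220) (nat_lit 216)) (XT.lf (nat_lit 0) (nat_lit 7173918379) (nat_lit 152) (nat_lit 38501854743) (nat_lit 0) (nat_lit 5981266410) (nat_lit 1) (nat_lit 5) (nat_lit 3) (nat_lit 4) (nat_lit 1) (nat_lit 4) (nat_lit 285) (nat_lit 220) (nat_lit 215))) (XT.nd (nat_lit 78) (nat_lit 0) (nat_lit 0) (XT.lf (nat_lit 0) (nat_lit 9423451571) (nat_lit 152) (nat_lit 38156438489) (nat_lit 0) (nat_lit 8042563281) (nat_lit 1) (nat_lit 5) (nat_lit 3) (nat_lit 4) (nat_lit 1) (nat_lit 4) (nat_lit 286) (nat_lit 220) (nat_lit 214)) (XT.lf (nat_lit 0) (nat_lit 11769990492) (nat_lit 152) (nat_lit 37927323702) (nat_lit 0) (nat_lit 10214809313) (nat_lit 1) (nat_lit 5) (nat_lit 3) (nat_lit 4) (nat_lit 1) (nat_lit 4) (nat_lit 287) (nat_lit 220) (nat_lit 213)))))) (XT.nd (nat_lit 546) (nat_lit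 0) (nat_lit 0) (XT.nd (nat_lit 234) (nat_lit 0) (nat_lit 0) (XT.nd (nat_lit 78) (nat_lit 0) (nat_lit 0) (XT.lf (nat_lit 0) (nat_lit 14227440559) (nat_lit 152) (nat_lit 37813152662) (nat_lit 0) (nat_lit 12510877075) (nat_lit 1) (nat_lit 5) (nat_lit 3) (nat_lit 4) (nat_lit 1) (nat_lit 4) (nat_lit 288) (nat_lit 220) (nat_lit 212)) (XT.nd (nat_lit 78) (nat_lit 0) (nat_lit 0) (XT.lf (nat_lit 0) (nat_lit 16810364438) (nat_lit 152) (nat_lit 37813248803) (nat_lit 0) (nat_lit 14944372894) (nat_lit 1) (nat_lit 5) (nat_lit 3) (nat_lit 4) (nat_lit 1) (nat_lit 4) (nat_lit 289) (nat_lit 220) (nat_lit 211)) (XT.lf (nat_lit 0) (nat_lit 19534068346) (nat_lit 152) (nat_lit 37927612693) (nat_lit 0) (nat_lit 17529717487) (nat_lit 1) (nat_lit 5) (nat_lit 3) (nat_lit 4) (nat_lit 1) (nat_lit 4) (nat_lit 290) (nat_lit 220) (nat_lit 210)))) (XT.nd (nat_lit 156) (nat_lit 0) (nat_lit 0) (XT.nd (nat_lit 78)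 (nat_lit 0) (nat_lit 0) (XT.lf (nat_lit 0) (nat_lit 22414692749) (nat_lit 152) (nat_lit 38156922045) (nat_lit 0) (nat_lit 20282231413) (nat_lit 1) (nat_lit 5) (nat_lit 3) (nat_lit 4) (nat_lit 1) (nat_lit 4) (nat_lit 291) (nat_lit 220) (nat_lit 209)) (XT.lf (nat_lit 0) (nat_lit 25469308015) (nat_lit 152) (nat_lit 38502535728) (nat_lit 0) (nat_lit 23218225867) (nat_lit 1) (nat_lit 5) (nat_lit 3) (nat_lit 4) (nat_lit 1) (nat_lit 4) (nat_lit 292) (nat_lit 220) (nat_lit 208))) (XT.nd (nat_lit 78) (nat_lit 0) (nat_lit 0) (XT.lf (nat_lit 0) (nat_lit 28716015567) (nat_lit 152) (nat_lit 38966501823) (nat_lit 0) (nat_lit 26355099334) (nat_lit 1) (nat_lit 5) (nat_lit 3) (nat_lit 4) (nat_lit 1) (nat_lit 4) (nat_lit 293) (nat_lit 220) (nat_lit 207)) (XT.lf (nat_lit 0) (nat_lit 32174055154) (nat_lit 152) (nat_lit 39551569760) (nat_lit 0) (nat_lit 29711440694) (nat_lit 1) (nat_lit 5) (nat_lit 3)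 (nat_lit 4) (nat_lit 1) (nat_lit 4) (nat_lit 294) (nat_lit 220) (nat_lit 206))))) (XT.nd (nat_lit 234) (nat_lit 0) (nat_lit 0) (XT.nd (nat_lit 78) (nat_lit 0) (nat_lit 0) (XT.lf (nat_lit 0) (nat_lit 35863918862) (nat_lit 152) (nat_lit 40261206608) (nat_lit 0) (nat_lit 33307139377) (nat_lit 1) (nat_lit 5) (nat_lit 3) (nat_lit 4) (nat_lit 1) (nat_lit 4) (nat_lit 295) (nat_lit 220) (nat_lit 205)) (XT.nd (nat_lit 78) (nat_lit 0) (nat_lit 0) (XT.lf (nat_lit 0) (nat_lit 39807472551) (nat_lit 152) (nat_lit 41099617622) (nat_lit 0) (nat_lit 37163503228) (nat_lit 1) (nat_lit 5) (nat_lit 3) (nat_lit 4) (nat_lit 1) (nat_lit 4) (nat_lit 296) (nat_lit 220) (nat_lit 204)) (XT.lf (nat_lit 0) (nat_lit 44028085426) (nat_lit 152) (nat_lit 42071771163) (nat_lit 0) (nat_lit 41303384772) (nat_lit 1) (nat_lit 5) (nat_lit 3) (nat_lit 4) (nat_lit 1) (nat_lit 4) (nat_lit 297) (nat_lit 220) (nat_lit 203))))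 (XT.nd (nat_lit 156) (nat_lit 0) (nat_lit 0) (XT.nd (nat_lit 78) (nat_lit 0) (nat_lit 0) (XT.lf (nat_lit 0) (nat_lit 48550768529) (nat_lit 152) (nat_lit 43183428142) (nat_lit 0) (nat_lit 45751316642) (nat_lit 1) (nat_lit 5) (nat_lit 3) (nat_lit 4) (nat_lit 1) (nat_lit 4) (nat_lit 298) (nat_lit 220) (nat_lit 202)) (XT.lf (nat_lit 0) (nat_lit 53402322943) (nat_lit 152) (nat_lit 44441176155) (nat_lit 0) (nat_lit 50533656952) (nat_lit 1) (nat_lit 5) (nat_lit 3) (nat_lit 4) (nat_lit 1) (nat_lit 4) (nat_lit 299) (nat_lit 220) (nat_lit 201))) (XT.nd (nat_lit 78) (nat_lit 0) (nat_lit 0) (XT.lf (nat_lit 0) (nat_lit 58611498621) (nat_lit 152) (nat_lit 45852468524) (nat_lit 0) (nat_lit 55678745496) (nat_lit 1) (nat_lit 5) (nat_lit 3) (nat_lit 4) (nat_lit 1) (nat_lit 4) (nat_lit 300) (nat_lit 220) (nat_lit 200)) (XT.lf (nat_lit 0) (nat_lit 64209164751) (nat_lit 152) (nat_lit 47425668464) (nat_lit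 0) (nat_lit 61217071688) (nat_lit 1) (nat_lit 5) (nat_lit 3) (nat_lit 4) (nat_lit 1) (nat_lit 4) (nat_lit 301) (nat_lit 220) (nat_lit 199))))))))
noncomputable def xc21 : XT := (XT.nd (nat_lit 2106) (nat_lit 0) (nat_lit 0) (XT.nd (nat_lit 1014) (nat_lit 0) (nat_lit 0) (XT.nd (nat_lit 468) (nat_lit 0) (nat_lit 0) (XT.nd (nat_lit 234) (nat_lit 0) (nat_lit 0) (XT.nd (nat_lit 78) (nat_lit 0) (nat_lit 0) (XT.lf (nat_lit 0) (nat_lit 70228492690) (nat_lit 152) (nat_lit 49170098639) (nat_lit 0) (nat_lit 67181455239) (nat_lit 1) (nat_lit 5) (nat_lit 3) (nat_lit 4) (nat_lit 1) (nat_lit 4) (nat_lit 302) (nat_lit 220) (nat_lit 198)) (XT.nd (nat_lit 78) (nat_lit 0) (nat_lit 0) (XT.lf (nat_lit 0) (nat_lit 76705152528) (nat_lit 152) (nat_lit 51096096415) (nat_lit 0) (nat_lit 73607240644) (nat_lit 1) (nat_lit 5) (nat_lit 3) (nat_lit 4) (nat_lit 1) (nat_lit 4) (nat_lit 303) (nat_lit 220) (nat_lit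 197)) (XT.lf (nat_lit 0) (nat_lit 83677524471) (nat_lit 152) (nat_lit 53215075111) (nat_lit 0) (nat_lit 80532506631) (nat_lit 1) (nat_lit 5) (nat_lit 3) (nat_lit 4) (nat_lit 1) (nat_lit 4) (nat_lit 304) (nat_lit 220) (nat_lit 196)))) (XT.nd (nat_lit 78) (nat_lit 0) (nat_lit 0) (XT.lf (nat_lit 0) (nat_lit 91186926280) (nat_lit 152) (nat_lit 55539591638) (nat_lit 0) (nat_lit 87998291813) (nat_lit 1) (nat_lit 5) (nat_lit 3) (nat_lit 4) (nat_lit 1) (nat_lit 4) (nat_lit 305) (nat_lit 220) (nat_lit 195)) (XT.nd (nat_lit 78) (nat_lit 0) (nat_lit 0) (XT.lf (nat_lit 0) (nat_lit 99277858113) (nat_lit 152) (nat_lit 58083420910) (nat_lit 0) (nat_lit 96048837881) (nat_lit 1) (nat_lit 5) (nat_lit 3) (nat_lit 4) (nat_lit 1) (nat_lit 4) (nat_lit 306) (nat_lit 220) (nat_lit 194)) (XT.lf (nat_lit 0) (nat_lit 107998266233) (nat_lit 152) (nat_lit 60861637469) (nat_lit 0) (nat_lit 104731851774) (nat_lit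 1) (nat_lit 5) (nat_lit 3) (nat_lit 4) (nat_lit 1) (nat_lit 4) (nat_lit 307) (nat_lit 220) (nat_lit 193))))) (XT.nd (nat_lit 234) (nat_lit 0) (nat_lit 0) (XT.nd (nat_lit 78) (nat_lit 0) (nat_lit 0) (XT.lf (nat_lit 0) (nat_lit 117399827133) (nat_lit 152) (nat_lit 63890704822) (nat_lit 0) (nat_lit 114098788390) (nat_lit 1) (nat_lit 5) (nat_lit 3) (nat_lit 4) (nat_lit 1) (nat_lit 4) (nat_lit 308) (nat_lit 220) (nat_lit 192)) (XT.nd (nat_lit 78) (nat_lit 0) (nat_lit 0) (XT.lf (nat_lit 0) (nat_lit 127538253765) (nat_lit 152) (nat_lit 67188572997) (nat_lit 0) (nat_lit 124205155500) (nat_lit 1) (nat_lit 5) (nat_lit 3) (nat_lit 4) (nat_lit 1) (nat_lit 4) (nat_lit 309) (nat_lit 220) (nat_lit 191)) (XT.lf (nat_lit 0) (nat_lit 138473625696) (nat_lit 152) (nat_lit 70774784916) (nat_lit 0) (nat_lit 135110842687) (nat_lit 1) (nat_lit 5) (nat_lit 3) (nat_lit 4) (nat_lit 1) (nat_lit 4) (nat_lit 310)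 (nat_lit 220) (nat_lit 190)))) (XT.nd (nat_lit 156) (nat_lit 0) (nat_lit 0) (XT.nd (nat_lit 78) (nat_lit 0) (nat_lit 0) (XT.lf (nat_lit 0) (nat_lit 150270745129) (nat_lit 152) (nat_lit 74670592206) (nat_lit 0) (nat_lit 146880476247) (nat_lit 1) (nat_lit 5) (nat_lit 3) (nat_lit 4) (nat_lit 1) (nat_lit 4) (nat_lit 311) (nat_lit 220) (nat_lit 189)) (XT.lf (nat_lit 0) (nat_lit 162999520920) (nat_lit 152) (nat_lit 78899081133) (nat_lit 0) (nat_lit 159583802156) (nat_lit 1) (nat_lit 5) (nat_lit 3) (nat_lit 4) (nat_lit 1) (nat_lit 4) (nat_lit 312) (nat_lit 220) (nat_lit 188))) (XT.nd (nat_lit 78) (nat_lit 0) (nat_lit 0) (XT.lf (nat_lit 0) (nat_lit 176735382852) (nat_lit 152) (nat_lit 83485309408) (nat_lit 0) (nat_lit 173296099382) (nat_lit 1) (nat_lit 5) (nat_lit 3) (nat_lit 4) (nat_lit 1) (nat_lit 4) (nat_lit 313) (nat_lit 220) (nat_lit 187)) (XT.lf (nat_lit 0) (nat_lit 191559728625) (nat_lit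 152) (nat_lit 88456454680) (nat_lit 0) (nat_lit 188098625982) (nat_lit 1) (nat_lit 5) (nat_lit 3) (nat_lit 4) (nat_lit 1) (nat_lit 4) (nat_lit 314) (nat_lit 220) (nat_lit 186)))))) (XT.nd (nat_lit 546) (nat_lit 0) (nat_lit 0) (XT.nd (nat_lit 234) (nat_lit 0) (nat_lit 0) (XT.nd (nat_lit 78) (nat_lit 0) (nat_lit 0) (XT.lf (nat_lit 0) (nat_lit 207560406214) (nat_lit 152) (nat_lit 93841975589) (nat_lit 0) (nat_lit 204079100634) (nat_lit 1) (nat_lit 5) (nat_lit 3) (nat_lit 4) (nat_lit 1) (nat_lit 4) (nat_lit 315) (nat_lit 220) (nat_lit 185)) (XT.nd (nat_lit 78) (nat_lit 0) (nat_lit 0) (XT.lf (nat_lit 0) (nat_lit 224832234449) (nat_lit 152) (nat_lit 99673786331) (nat_lit 0) (nat_lit 221332222445) (nat_lit 1) (nat_lit 5) (nat_lit 3) (nat_lit 4) (nat_lit 1) (nat_lit 4) (nat_lit 316) (nat_lit 220) (nat_lit 184)) (XT.lf (nat_lit 0) (nat_lit 243477564904) (nat_lit 152) (nat_lit 105986445787)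 (nat_lit 0) (nat_lit 239960232138) (nat_lit 1) (nat_lit 5) (nat_lit 3) (nat_lit 4) (nat_lit 1) (nat_lit 4) (nat_lit 317) (nat_lit 220) (nat_lit 183)))) (XT.nd (nat_lit 156) (nat_lit 0) (nat_lit 0) (XT.nd (nat_lit 78) (nat_lit 0) (nat_lit 0) (XT.lf (nat_lit 0) (nat_lit 263606888428) (nat_lit 152) (nat_lit 112817362307) (nat_lit 0) (nat_lit 260073517919) (nat_lit 1) (nat_lit 5) (nat_lit 3) (nat_lit 4) (nat_lit 1) (nat_lit 4) (nat_lit 318) (nat_lit 220) (nat_lit 182)) (XT.lf (nat_lit 0) (nat_lit 285339489899) (nat_lit 152) (nat_lit 120207015397) (nat_lit 0) (nat_lit 281791269628) (nat_lit 1) (nat_lit 5) (nat_lit 3) (nat_lit 4) (nat_lit 1) (nat_lit 4) (nat_lit 319) (nat_lit 220) (nat_lit 181))) (XT.nd (nat_lit 78) (nat_lit 0) (nat_lit 0) (XT.lf (nat_lit 0) (nat_lit 308804155105) (nat_lit 152) (nat_lit 128199195594) (nat_lit 0) (nat_lit 305242185055) (nat_lit 1) (nat_lit 5) (nat_lit 3)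 (nat_lit 4) (nat_lit 1) (nat_lit 4) (nat_lit 320) (nat_lit 220) (nat_lit 180)) (XT.lf (nat_lit 0) (nat_lit 334139933914) (nat_lit 152) (nat_lit 136841263966) (nat_lit 0) (nat_lit 330565232586) (nat_lit 1) (nat_lit 5) (nat_lit 3) (nat_lit 4) (nat_lit 1) (nat_lit 4) (nat_lit 321) (nat_lit 220) (nat_lit 179))))) (XT.nd (nat_lit 234) (nat_lit 0) (nat_lit 0) (XT.nd (nat_lit 78) (nat_lit 0) (nat_lit 0) (XT.lf (nat_lit 0) (nat_lit 361496964274) (nat_lit 152) (nat_lit 146184432770) (nat_lit 0) (nat_lit 357910474726) (nat_lit 1) (nat_lit 5) (nat_lit 3) (nat_lit 4) (nat_lit 1) (nat_lit 4) (nat_lit 322) (nat_lit 220) (nat_lit 178)) (XT.nd (nat_lit 78) (nat_lit 0) (nat_lit 0) (XT.lf (nat_lit 0) (nat_lit 391037361920) (nat_lit 152) (nat_lit 156284068932) (nat_lit 0) (nat_lit 387439957353) (nat_lit 1) (nat_lit 5) (nat_lit 3) (nat_lit 4) (nat_lit 1) (nat_lit 4) (nat_lit 323) (nat_lit 220) (nat_lit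 177)) (XT.lf (nat_lit 0) (nat_lit 422936181060) (nat_lit 152) (nat_lit 167200022148) (nat_lit 0) (nat_lit 419328669996) (nat_lit 1) (nat_lit 5) (nat_lit 3) (nat_lit 4) (nat_lit 1) (nat_lit 4) (nat_lit 324) (nat_lit 220) (nat_lit 176)))) (XT.nd (nat_lit 156) (nat_lit 0) (nat_lit 0) (XT.nd (nat_lit 78) (nat_lit 0) (nat_lit 0) (XT.lf (nat_lit 0) (nat_lit 457382451735) (nat_lit 152) (nat_lit 178996979548) (nat_lit 0) (nat_lit 453765582801) (nat_lit 1) (nat_lit 5) (nat_lit 3) (nat_lit 4) (nat_lit 1) (nat_lit 4) (nat_lit 325) (nat_lit 220) (nat_lit 175)) (XT.lf (nat_lit 0) (nat_lit 494580299992) (nat_lit 152) (nat_lit 191744849028) (nat_lit 0) (nat_lit 490954766365) (nat_lit 1) (nat_lit 5) (nat_lit 3) (nat_lit 4) (nat_lit 1) (nat_lit 4) (nat_lit 326) (nat_lit 220) (nat_lit 174))) (XT.nd (nat_lit 78) (nat_lit 0) (nat_lit 0) (XT.lf (nat_lit 0) (nat_lit 534750157526) (nat_lit 152) (nat_lit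 205519173517) (nat_lit 0) (nat_lit 531116601034) (nat_lit 1) (nat_lit 5) (nat_lit 3) (nat_lit 4) (nat_lit 1) (nat_lit 4) (nat_lit 327) (nat_lit 220) (nat_lit 173)) (XT.lf (nat_lit 0) (nat_lit 578130067935) (nat_lit 152) (nat_lit 220401578644) (nat_lit 0) (nat_lit 574489082865) (nat_lit 1) (nat_lit 5) (nat_lit 3) (nat_lit 4) (nat_lit 1) (nat_lit 4) (nat_lit 328) (nat_lit 220) (nat_lit 172))))))) (XT.nd (nat_lit 1014) (nat_lit 0) (nat_lit 0) (XT.nd (nat_lit 468) (nat_lit 0) (nat_lit 0) (XT.nd (nat_lit 234) (nat_lit 0) (nat_lit 0) (XT.nd (nat_lit 78) (nat_lit 0) (nat_lit 0) (XT.lf (nat_lit 0) (nat_lit 624977097356) (nat_lit 152) (nat_lit 236480256437) (nat_lit 0) (nat_lit 621329233973) (nat_lit 1) (nat_lit 5) (nat_lit 3) (nat_lit 4) (nat_lit 1) (nat_lit 4) (nat_lit 329) (nat_lit 220) (nat_lit 171)) (XT.nd (nat_lit 78) (nat_lit 0) (nat_lit 0) (XT.lf (nat_lit 0) (nat_lit 675568857815)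 (nat_lit 152) (nat_lit 253850487951) (nat_lit 0) (nat_lit 671914625624) (nat_lit 1) (nat_lit 5) (nat_lit 3) (nat_lit 4) (nat_lit 1) (nat_lit 4) (nat_lit 330) (nat_lit 220) (nat_lit 170)) (XT.lf (nat_lit 0) (nat_lit 730205152337) (nat_lit 152) (nat_lit 272615207891) (nat_lit 0) (nat_lit 726545023101) (nat_lit 1) (nat_lit 5) (nat_lit 3) (nat_lit 4) (nat_lit 1) (nat_lit 4) (nat_lit 331) (nat_lit 220) (nat_lit 169)))) (XT.nd (nat_lit 78) (nat_lit 0) (nat_lit 0) (XT.lf (nat_lit 0) (nat_lit 789209751556) (nat_lit 152) (nat_lit 292885614597) (nat_lit 0) (nat_lit 785544162093) (nat_lit 1) (nat_lit 5) (nat_lit 3) (nat_lit 4) (nat_lit 1) (nat_lit 4) (nat_lit 332) (nat_lit 220) (nat_lit 168)) (XT.nd (nat_lit 78) (nat_lit 0) (nat_lit 0) (XT.lf (nat_lit 0) (nat_lit 852932312357) (nat_lit 152) (nat_lit 314781828998) (nat_lit 0) (nat_lit 849261667128) (nat_lit 1) (nat_lit 5) (nat_lit 3) (nat_lit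 4) (nat_lit 1) (nat_lit 4) (nat_lit 333) (nat_lit 220) (nat_lit 167)) (XT.lf (nat_lit 0) (nat_lit 921750449914) (nat_lit 152) (nat_lit 338433606438) (nat_lit 0) (nat_lit 918075123421) (nat_lit 1) (nat_lit 5) (nat_lit 3) (nat_lit 4) (nat_lit 1) (nat_lit 4) (nat_lit 334) (nat_lit 220) (nat_lit 166))))) (XT.nd (nat_lit 234) (nat_lit 0) (nat_lit 0) (XT.nd (nat_lit 78) (nat_lit 0) (nat_lit 0) (XT.lf (nat_lit 0) (nat_lit 996071975413) (nat_lit 152) (nat_lit 363981105599) (nat_lit 0) (nat_lit 992392314417) (nat_lit 1) (nat_lit 5) (nat_lit 3) (nat_lit 4) (nat_lit 1) (nat_lit 4) (nat_lit 335) (nat_lit 220) (nat_lit 165)) (XT.nd (nat_lit 78) (nat_lit 0) (nat_lit 0) (XT.lf (nat_lit 0) (nat_lit 1076337312709) (nat_lit 152) (nat_lit 391575719068) (nat_lit 0) (nat_lit 1072653638283) (nat_lit 1) (nat_lit 5) (nat_lit 3) (nat_lit 4) (nat_lit 1) (nat_lit 4) (nat_lit 336) (nat_lit 220) (nat_lit 164))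 (XT.lf (nat_lit 0) (nat_lit 1163022108245) (nat_lit 152) (nat_lit 421380970481) (nat_lit 0) (nat_lit 1159334717681) (nat_lit 1) (nat_lit 5) (nat_lit 3) (nat_lit 4) (nat_lit 1) (nat_lit 4) (nat_lit 337) (nat_lit 220) (nat_lit 163)))) (XT.nd (nat_lit 156) (nat_lit 0) (nat_lit 0) (XT.nd (nat_lit 78) (nat_lit 0) (nat_lit 0) (XT.lf (nat_lit 0) (nat_lit 1256640049699) (nat_lit 152) (nat_lit 453573483549) (nat_lit 0) (nat_lit 1252949218265) (nat_lit 1) (nat_lit 5) (nat_lit 3) (nat_lit 4) (nat_lit 1) (nat_lit 4) (nat_lit 338) (nat_lit 220) (nat_lit 162)) (XT.lf (nat_lit 0) (nat_lit 1357745910056) (nat_lit 152) (nat_lit 488344028721) (nat_lit 0) (nat_lit 1354051892633) (nat_lit 1) (nat_lit 5) (nat_lit 3) (nat_lit 4) (nat_lit 1) (nat_lit 4) (nat_lit 339) (nat_lit 220) (nat_lit 161))) (XT.nd (nat_lit 78) (nat_lit 0) (nat_lit 0) (XT.lf (nat_lit 0) (nat_lit 1466938835157) (nat_lit 152) (nat_lit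 525898653671) (nat_lit 0) (nat_lit 1463241867743) (nat_lit 1) (nat_lit 5) (nat_lit 3) (nat_lit 4) (nat_lit 1) (nat_lit 4) (nat_lit 340) (nat_lit 220) (nat_lit 160)) (XT.lf (nat_lit 0) (nat_lit 1584865894186) (nat_lit 152) (nat_lit 566459904326) (nat_lit 0) (nat_lit 1581166195299) (nat_lit 1) (nat_lit 5) (nat_lit 3) (nat_lit 4) (nat_lit 1) (nat_lit 4) (nat_lit 341) (nat_lit 220) (nat_lit 159)))))) (XT.nd (nat_lit 32682) (nat_lit 0) (nat_lit 0) (XT.nd (nat_lit 234) (nat_lit 0) (nat_lit 0) (XT.nd (nat_lit 78) (nat_lit 0) (nat_lit 0) (XT.lf (nat_lit 0) (nat_lit 1712225914160) (nat_lit 152) (nat_lit 610268143652) (nat_lit 0) (nat_lit 1708523686132) (nat_lit 1) (nat_lit 5) (nat_lit 3) (nat_lit 4) (nat_lit 1) (nat_lit 4) (nat_lit 342) (nat_lit 220) (nat_lit 158)) (XT.nd (nat_lit 78) (nat_lit 0) (nat_lit 0) (XT.lf (nat_lit 0) (nat_lit 1849773621123) (nat_lit 152) (nat_lit 657582976030) (nat_lit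 0) (nat_lit 1846069051297) (nat_lit 1) (nat_lit 5) (nat_lit 3) (nat_lit 4) (nat_lit 1) (nat_lit 4) (nat_lit 343) (nat_lit 220) (nat_lit 157)) (XT.lf (nat_lit 0) (nat_lit 1998324112599) (nat_lit 152) (nat_lit 708684785652) (nat_lit 0) (nat_lit 1994617374442) (nat_lit 1) (nat_lit 5) (nat_lit 3) (nat_lit 4) (nat_lit 1) (nat_lit 4) (nat_lit 344) (nat_lit 220) (nat_lit 156)))) (XT.nd (nat_lit 32292) (nat_lit 0) (nat_lit 152) (XT.nd (nat_lit 78) (nat_lit 0) (nat_lit 0) (XT.lf (nat_lit 0) (nat_lit 2158757687796) (nat_lit 152) (nat_lit 763876398056) (nat_lit 0) (nat_lit 2155048941925) (nat_lit 1) (nat_lit 5) (nat_lit 3) (nat_lit 4) (nat_lit 1) (nat_lit 4) (nat_lit 345) (nat_lit 220) (nat_lit 155)) (XT.lf (nat_lit 0) (nat_lit 2332025064196) (nat_lit 152) (nat_lit 823484874650) (nat_lit 0) (nat_lit 2328314459331) (nat_lit 1) (nat_lit 5) (nat_lit 3) (nat_lit 4) (nat_lit 1) (nat_lit 4) (nat_lit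 346) (nat_lit 220) (nat_lit 154))) (XT.nd (nat_lit 78) (nat_lit 0) (nat_lit 0) (XT.lf (nat_lit 0) (nat_lit 9188028676) (nat_lit 76) (nat_lit 3195145952) (nat_lit 76) (nat_lit 3195145952) (nat_lit 3) (nat_lit 4) (nat_lit 4) (nat_lit 5) (nat_lit 4) (nat_lit 4) (nat_lit 278) (nat_lit 221) (nat_lit 221)) (XT.lf (nat_lit 0) (nat_lit 23978081102) (nat_lit 76) (nat_lit 4891248101) (nat_lit 76) (nat_lit 4568644126) (nat_lit 3) (nat_lit 4) (nat_lit 4) (nat_lit 5) (nat_lit 4) (nat_lit 4) (nat_lit 279) (nat_lit 221) (nat_lit 220))))) (XT.nd (nat_lit 234) (nat_lit 0) (nat_lit 0) (XT.nd (nat_lit 78) (nat_lit 152) (nat_lit 0) (XT.lf (nat_lit 0) (nat_lit 29826803240) (nat_lit 76) (nat_lit 3353308878) (nat_lit 76) (nat_lit 2731997520) (nat_lit 3) (nat_lit 4) (nat_lit 4) (nat_lit 5) (nat_lit 4) (nat_lit 4) (nat_lit 280) (nat_lit 221) (nat_lit 219)) (XT.nd (nat_lit 78) (nat_lit 152) (nat_lit 0) (XT.lf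 (nat_lit 0) (nat_lit 35956882858) (nat_lit 76) (nat_lit 1767360522) (nat_lit 76) (nat_lit 869468253) (nat_lit 3) (nat_lit 4) (nat_lit 4) (nat_lit 5) (nat_lit 4) (nat_lit 4) (nat_lit 281) (nat_lit 221) (nat_lit 218)) (XT.lf (nat_lit 0) (nat_lit 927607689) (nat_lit 76) (nat_lit 73158365) (nat_lit 152) (nat_lit 40494137835) (nat_lit 1) (nat_lit 5) (nat_lit 2) (nat_lit 5) (nat_lit 3) (nat_lit 4) (nat_lit 282) (nat_lit 221) (nat_lit 217)))) (XT.nd (nat_lit 156) (nat_lit 0) (nat_lit 0) (XT.nd (nat_lit 78) (nat_lit 0) (nat_lit 0) (XT.lf (nat_lit 0) (nat_lit 2985357379) (nat_lit 152) (nat_lit 39943284364) (nat_lit 0) (nat_lit 1697293252) (nat_lit 1) (nat_lit 5) (nat_lit 3) (nat_lit 4) (nat_lit 1) (nat_lit 4) (nat_lit 283) (nat_lit 221) (nat_lit 216)) (XT.lf (nat_lit 0) (nat_lit 5033855268) (nat_lit 152) (nat_lit 39439137309) (nat_lit 0) (nat_lit 3542495915) (nat_lit 1) (nat_lit 5) (nat_lit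 3) (nat_lit 4) (nat_lit 1) (nat_lit 4) (nat_lit 284) (nat_lit 221) (nat_lit 215))) (XT.nd (nat_lit 78) (nat_lit 0) (nat_lit 0) (XT.lf (nat_lit 0) (nat_lit 7156639509) (nat_lit 152) (nat_lit 39050108037) (nat_lit 0) (nat_lit 5477043835) (nat_lit 1) (nat_lit 5) (nat_lit 3) (nat_lit 4) (nat_lit 1) (nat_lit 4) (nat_lit 285) (nat_lit 221) (nat_lit 214)) (XT.lf (nat_lit 0) (nat_lit 9366289563) (nat_lit 152) (nat_lit 38773891190) (nat_lit 0) (nat_lit 7512401000) (nat_lit 1) (nat_lit 5) (nat_lit 3) (nat_lit 4) (nat_lit 1) (nat_lit 4) (nat_lit 286) (nat_lit 221) (nat_lit 213))))))))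
noncomputable def xc22 : XT := (XT.nd (nat_lit 2106) (nat_lit 0) (nat_lit 0) (XT.nd (nat_lit 1014) (nat_lit 0) (nat_lit 0) (XT.nd (nat_lit 468) (nat_lit 0) (nat_lit 0) (XT.nd (nat_lit 234) (nat_lit 0) (nat_lit 0) (XT.nd (nat_lit 78) (nat_lit 0) (nat_lit 0) (XT.lf (nat_lit 0) (nat_lit 11675899653) (nat_lit 152) (nat_lit 38608849927) (nat_lit 0) (nat_lit 9660628786) (nat_lit 1) (nat_lit 5) (nat_lit 3) (nat_lit 4) (nat_lit 1) (nat_lit 4) (nat_lit 287) (nat_lit 221) (nat_lit 212)) (XT.nd (nat_lit 78) (nat_lit 0) (nat_lit 0) (XT.lf (nat_lit 0) (nat_lit 14099156358) (nat_lit 152) (nat_lit 38554006226) (nat_lit 0) (nat_lit 11934457430) (nat_lit 1) (nat_lit 5) (nat_lit 3) (nat_lit 4) (nat_lit 1) (nat_lit 4) (nat_lit 288) (nat_lit 221) (nat_lit 211)) (XT.lf (nat_lit 0) (nat_lit 16650419717) (nat_lit 152) (nat_lit 38609035087) (nat_lit 0) (nat_lit 14347361474) (nat_lit 1) (nat_lit 5) (nat_lit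 3) (nat_lit 4) (nat_lit 1) (nat_lit 4) (nat_lit 289) (nat_lit 221) (nat_lit 210)))) (XT.nd (nat_lit 78) (nat_lit 0) (nat_lit 0) (XT.lf (nat_lit 0) (nat_lit 19344808328) (nat_lit 152) (nat_lit 38774262607) (nat_lit 0) (nat_lit 16913639608) (nat_lit 1) (nat_lit 5) (nat_lit 3) (nat_lit 4) (nat_lit 1) (nat_lit 4) (nat_lit 290) (nat_lit 221) (nat_lit 209)) (XT.nd (nat_lit 78) (nat_lit 0) (nat_lit 0) (XT.lf (nat_lit 0) (nat_lit 22198288938) (nat_lit 152) (nat_lit 39050667912) (nat_lit 0) (nat_lit 19648499407) (nat_lit 1) (nat_lit 5) (nat_lit 3) (nat_lit 4) (nat_lit 1) (nat_lit 4) (nat_lit 291) (nat_lit 221) (nat_lit 208)) (XT.lf (nat_lit 0) (nat_lit 25227771062) (nat_lit 152) (nat_lit 39439888959) (nat_lit 0) (nat_lit 22568147446) (nat_lit 1) (nat_lit 5) (nat_lit 3) (nat_lit 4) (nat_lit 1) (nat_lit 4) (nat_lit 292) (nat_lit 221) (nat_lit 207))))) (XT.nd (nat_lit 234) (nat_lit 0) (nat_lit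 0) (XT.nd (nat_lit 78) (nat_lit 0) (nat_lit 0) (XT.lf (nat_lit 0) (nat_lit 28451207187) (nat_lit 152) (nat_lit 39944232244) (nat_lit 0) (nat_lit 25689885343) (nat_lit 1) (nat_lit 5) (nat_lit 3) (nat_lit 4) (nat_lit 1) (nat_lit 4) (nat_lit 293) (nat_lit 221) (nat_lit 206)) (XT.nd (nat_lit 78) (nat_lit 0) (nat_lit 0) (XT.lf (nat_lit 0) (nat_lit 31887699156) (nat_lit 152) (nat_lit 40566686468) (nat_lit 0) (nat_lit 29032212287) (nat_lit 1) (nat_lit 5) (nat_lit 3) (nat_lit 4) (nat_lit 1) (nat_lit 4) (nat_lit 294) (nat_lit 221) (nat_lit 205)) (XT.lf (nat_lit 0) (nat_lit 35557611366) (nat_lit 152) (nat_lit 41310940247) (nat_lit 0) (nat_lit 32614934659) (nat_lit 1) (nat_lit 5) (nat_lit 3) (nat_lit 4) (nat_lit 1) (nat_lit 4) (nat_lit 295) (nat_lit 221) (nat_lit 204)))) (XT.nd (nat_lit 156) (nat_lit 0) (nat_lit 0) (XT.nd (nat_lit 78) (nat_lit 0) (nat_lit 0) (XT.lf (nat_lit 0) (nat_lit 39482691445)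 (nat_lit 152) (nat_lit 42181403976) (nat_lit 0) (nat_lit 36459283407) (nat_lit 1) (nat_lit 5) (nat_lit 3) (nat_lit 4) (nat_lit 1) (nat_lit 4) (nat_lit 296) (nat_lit 221) (nat_lit 203)) (XT.lf (nat_lit 0) (nat_lit 43686199126) (nat_lit 152) (nat_lit 43183235956) (nat_lit 0) (nat_lit 40588039856) (nat_lit 1) (nat_lit 5) (nat_lit 3) (nat_lit 4) (nat_lit 1) (nat_lit 4) (nat_lit 297) (nat_lit 221) (nat_lit 202))) (XT.nd (nat_lit 78) (nat_lit 0) (nat_lit 0) (XT.lf (nat_lit 0) (nat_lit 48193044086) (nat_lit 152) (nat_lit 44322372972) (nat_lit 0) (nat_lit 45025670711) (nat_lit 1) (nat_lit 5) (nat_lit 3) (nat_lit 4) (nat_lit 1) (nat_lit 4) (nat_lit 298) (nat_lit 221) (nat_lit 201)) (XT.lf (nat_lit 0) (nat_lit 53029933554) (nat_lit 152) (nat_lit 45605565463) (nat_lit 0) (nat_lit 49798473045) (nat_lit 1) (nat_lit 5) (nat_lit 3) (nat_lit 4) (nat_lit 1) (nat_lit 4) (nat_lit 299) (nat_lit 221)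 (nat_lit 200)))))) (XT.nd (nat_lit 546) (nat_lit 0) (nat_lit 0) (XT.nd (nat_lit 234) (nat_lit 0) (nat_lit 0) (XT.nd (nat_lit 78) (nat_lit 0) (nat_lit 0) (XT.lf (nat_lit 0) (nat_lit 58225530577) (nat_lit 152) (nat_lit 47040417535) (nat_lit 0) (nat_lit 54934730130) (nat_lit 1) (nat_lit 5) (nat_lit 3) (nat_lit 4) (nat_lit 1) (nat_lit 4) (nat_lit 300) (nat_lit 221) (nat_lit 199)) (XT.nd (nat_lit 78) (nat_lit 0) (nat_lit 0) (XT.lf (nat_lit 0) (nat_lit 63810623879) (nat_lit 152) (nat_lit 48635432013) (nat_lit 0) (nat_lit 60464879045) (nat_lit 1) (nat_lit 5) (nat_lit 3) (nat_lit 4) (nat_lit 1) (nat_lit 4) (nat_lit 301) (nat_lit 221) (nat_lit 198)) (XT.lf (nat_lit 0) (nat_lit 69818310310) (nat_lit 152) (nat_lit 50400060836) (nat_lit 0) (nat_lit 66421691042) (nat_lit 1) (nat_lit 5) (nat_lit 3) (nat_lit 4) (nat_lit 1) (nat_lit 4) (nat_lit 302) (nat_lit 221) (nat_lit 197)))) (XT.nd (nat_lit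 156) (nat_lit 0) (nat_lit 0) (XT.nd (nat_lit 78) (nat_lit 0) (nat_lit 0) (XT.lf (nat_lit 0) (nat_lit 76284190974) (nat_lit 152) (nat_lit 52344761063) (nat_lit 0) (nat_lit 72840465750) (nat_lit 1) (nat_lit 5) (nat_lit 3) (nat_lit 4) (nat_lit 1) (nat_lit 4) (nat_lit 303) (nat_lit 221) (nat_lit 196)) (XT.lf (nat_lit 0) (nat_lit 83246582201) (nat_lit 152) (nat_lit 54481056843) (nat_lit 0) (nat_lit 79759240351) (nat_lit 1) (nat_lit 5) (nat_lit 3) (nat_lit 4) (nat_lit 1) (nat_lit 4) (nat_lit 304) (nat_lit 221) (nat_lit 195))) (XT.nd (nat_lit 78) (nat_lit 0) (nat_lit 0) (XT.lf (nat_lit 0) (nat_lit 90746742606) (nat_lit 152) (nat_lit 56821607708) (nat_lit 0) (nat_lit 87219014990) (nat_lit 1) (nat_lit 5) (nat_lit 3) (nat_lit 4) (nat_lit 1) (nat_lit 4) (nat_lit 305) (nat_lit 221) (nat_lit 194)) (XT.lf (nat_lit 0) (nat_lit 98829117584) (nat_lit 152) (nat_lit 59380283588) (nat_lit 0) (nat_lit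 95263995741) (nat_lit 1) (nat_lit 5) (nat_lit 3) (nat_lit 4) (nat_lit 1) (nat_lit 4) (nat_lit 306) (nat_lit 221) (nat_lit 193))))) (XT.nd (nat_lit 234) (nat_lit 0) (nat_lit 0) (XT.nd (nat_lit 78) (nat_lit 0) (nat_lit 0) (XT.lf (nat_lit 0) (nat_lit 107541602689) (nat_lit 152) (nat_lit 62172247007) (nat_lit 0) (nat_lit 103941856562) (nat_lit 1) (nat_lit 5) (nat_lit 3) (nat_lit 4) (nat_lit 1) (nat_lit 4) (nat_lit 307) (nat_lit 221) (nat_lit 192)) (XT.nd (nat_lit 78) (nat_lit 0) (nat_lit 0) (XT.lf (nat_lit 0) (nat_lit 116935827464) (nat_lit 152) (nat_lit 65214042934) (nat_lit 0) (nat_lit 113304021815) (nat_lit 1) (nat_lit 5) (nat_lit 3) (nat_lit 4) (nat_lit 1) (nat_lit 4) (nat_lit 308) (nat_lit 221) (nat_lit 191)) (XT.lf (nat_lit 0) (nat_lit 127067461389) (nat_lit 152) (nat_lit 68523696826) (nat_lit 0) (nat_lit 123405970997) (nat_lit 1) (nat_lit 5) (nat_lit 3) (nat_lit 4) (nat_lit 1)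 (nat_lit 4) (nat_lit 309) (nat_lit 221) (nat_lit 190)))) (XT.nd (nat_lit 156) (nat_lit 0) (nat_lit 0) (XT.nd (nat_lit 78) (nat_lit 0) (nat_lit 0) (XT.lf (nat_lit 0) (nat_lit 137996543775) (nat_lit 152) (nat_lit 72120821446) (nat_lit 0) (nat_lit 134307567510) (nat_lit 1) (nat_lit 5) (nat_lit 3) (nat_lit 4) (nat_lit 1) (nat_lit 4) (nat_lit 310) (nat_lit 221) (nat_lit 189)) (XT.lf (nat_lit 0) (nat_lit 149787839556) (nat_lit 152) (nat_lit 76026733088) (nat_lit 0) (nat_lit 146073413408) (nat_lit 1) (nat_lit 5) (nat_lit 3) (nat_lit 4) (nat_lit 1) (nat_lit 4) (nat_lit 311) (nat_lit 221) (nat_lit 188))) (XT.nd (nat_lit 78) (nat_lit 0) (nat_lit 0) (XT.lf (nat_lit 0) (nat_lit 162511223077) (nat_lit 152) (nat_lit 80264577897) (nat_lit 0) (nat_lit 158773232223) (nat_lit 1) (nat_lit 5) (nat_lit 3) (nat_lit 4) (nat_lit 1) (nat_lit 4) (nat_lit 312) (nat_lit 221) (nat_lit 187)) (XT.lf (nat_lit 0)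 (nat_lit 176242092166) (nat_lit 152) (nat_lit 84859469025) (nat_lit 0) (nat_lit 172482282139) (nat_lit 1) (nat_lit 5) (nat_lit 3) (nat_lit 4) (nat_lit 1) (nat_lit 4) (nat_lit 313) (nat_lit 221) (nat_lit 186))))))) (XT.nd (nat_lit 1014) (nat_lit 0) (nat_lit 0) (XT.nd (nat_lit 468) (nat_lit 0) (nat_lit 0) (XT.nd (nat_lit 234) (nat_lit 0) (nat_lit 0) (XT.nd (nat_lit 78) (nat_lit 0) (nat_lit 0) (XT.lf (nat_lit 0) (nat_lit 191061814936) (nat_lit 152) (nat_lit 89838635458) (nat_lit 0) (nat_lit 187281801972) (nat_lit 1) (nat_lit 5) (nat_lit 3) (nat_lit 4) (nat_lit 1) (nat_lit 4) (nat_lit 314) (nat_lit 221) (nat_lit 185)) (XT.nd (nat_lit 78) (nat_lit 0) (nat_lit 0) (XT.lf (nat_lit 0) (nat_lit 207058211966) (nat_lit 152) (nat_lit 95231583368) (nat_lit 0) (nat_lit 203259492579) (nat_lit 1) (nat_lit 5) (nat_lit 3) (nat_lit 4) (nat_lit 1) (nat_lit 4) (nat_lit 315) (nat_lit 221) (nat_lit 184))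 (XT.lf (nat_lit 0) (nat_lit 224326076721) (nat_lit 152) (nat_lit 101070270963) (nat_lit 0) (nat_lit 220510036572) (nat_lit 1) (nat_lit 5) (nat_lit 3) (nat_lit 4) (nat_lit 1) (nat_lit 4) (nat_lit 316) (nat_lit 221) (nat_lit 183)))) (XT.nd (nat_lit 78) (nat_lit 0) (nat_lit 0) (XT.lf (nat_lit 0) (nat_lit 242967737288) (nat_lit 152) (nat_lit 107389297874) (nat_lit 0) (nat_lit 239135659396) (nat_lit 1) (nat_lit 5) (nat_lit 3) (nat_lit 4) (nat_lit 1) (nat_lit 4) (nat_lit 317) (nat_lit 221) (nat_lit 182)) (XT.nd (nat_lit 78) (nat_lit 0) (nat_lit 0) (XT.lf (nat_lit 0) (nat_lit 263093662767) (nat_lit 152) (nat_lit 114226110186) (nat_lit 0) (nat_lit 259246735112) (nat_lit 1) (nat_lit 5) (nat_lit 3) (nat_lit 4) (nat_lit 1) (nat_lit 4) (nat_lit 318) (nat_lit 221) (nat_lit 181)) (XT.lf (nat_lit 0) (nat_lit 284823117900) (nat_lit 152) (nat_lit 121621222344) (nat_lit 0) (nat_lit 280962440466) (nat_lit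 1) (nat_lit 5) (nat_lit 3) (nat_lit 4) (nat_lit 1) (nat_lit 4) (nat_lit 319) (nat_lit 221) (nat_lit 180))))) (XT.nd (nat_lit 234) (nat_lit 0) (nat_lit 0) (XT.nd (nat_lit 78) (nat_lit 0) (nat_lit 0) (XT.lf (nat_lit 0) (nat_lit 308284869830) (nat_lit 152) (nat_lit 129618457233) (nat_lit 0) (nat_lit 304411461119) (nat_lit 1) (nat_lit 5) (nat_lit 3) (nat_lit 4) (nat_lit 1) (nat_lit 4) (nat_lit 320) (nat_lit 221) (nat_lit 179)) (XT.nd (nat_lit 78) (nat_lit 0) (nat_lit 0) (XT.lf (nat_lit 0) (nat_lit 333617951161) (nat_lit 152) (nat_lit 138265205875) (nat_lit 0) (nat_lit 329732754230) (nat_lit 1) (nat_lit 5) (nat_lit 3) (nat_lit 4) (nat_lit 1) (nat_lit 4) (nat_lit 321) (nat_lit 221) (nat_lit 178)) (XT.lf (nat_lit 0) (nat_lit 360972483856) (nat_lit 152) (nat_lit 147612708263) (nat_lit 0) (nat_lit 357076371906) (nat_lit 1) (nat_lit 5) (nat_lit 3) (nat_lit 4) (nat_lit 1) (nat_lit 4) (nat_lit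 322) (nat_lit 221) (nat_lit 177)))) (XT.nd (nat_lit 156) (nat_lit 0) (nat_lit 0) (XT.nd (nat_lit 78) (nat_lit 0) (nat_lit 0) (XT.lf (nat_lit 0) (nat_lit 390510568850) (nat_lit 152) (nat_lit 157716357002) (nat_lit 0) (nat_lit 386604350401) (nat_lit 1) (nat_lit 5) (nat_lit 3) (nat_lit 4) (nat_lit 1) (nat_lit 4) (nat_lit 323) (nat_lit 221) (nat_lit 176)) (XT.lf (nat_lit 0) (nat_lit 422407246646) (nat_lit 152) (nat_lit 168636025567) (nat_lit 0) (nat_lit 418491670328) (nat_lit 1) (nat_lit 5) (nat_lit 3) (nat_lit 4) (nat_lit 1) (nat_lit 4) (nat_lit 324) (nat_lit 221) (nat_lit 175))) (XT.nd (nat_lit 78) (nat_lit 0) (nat_lit 0) (XT.lf (nat_lit 0) (nat_lit 456851534594) (nat_lit 152) (nat_lit 180436423106) (nat_lit 0) (nat_lit 452927293583) (nat_lit 1) (nat_lit 5) (nat_lit 3) (nat_lit 4) (nat_lit 1) (nat_lit 4) (nat_lit 325) (nat_lit 221) (nat_lit 174)) (XT.lf (nat_lit 0) (nat_lit 494047546993)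 (nat_lit 152) (nat_lit 193187477899) (nat_lit 0) (nat_lit 490115283118) (nat_lit 1) (nat_lit 5) (nat_lit 3) (nat_lit 4) (nat_lit 1) (nat_lit 4) (nat_lit 326) (nat_lit 221) (nat_lit 173)))))) (XT.nd (nat_lit 546) (nat_lit 0) (nat_lit 0) (XT.nd (nat_lit 234) (nat_lit 0) (nat_lit 0) (XT.nd (nat_lit 78) (nat_lit 0) (nat_lit 0) (XT.lf (nat_lit 0) (nat_lit 534215704658) (nat_lit 152) (nat_lit 206964751752) (nat_lit 0) (nat_lit 530276012204) (nat_lit 1) (nat_lit 5) (nat_lit 3) (nat_lit 4) (nat_lit 1) (nat_lit 4) (nat_lit 327) (nat_lit 221) (nat_lit 172)) (XT.nd (nat_lit 78) (nat_lit 0) (nat_lit 0) (XT.lf (nat_lit 0) (nat_lit 577594041114) (nat_lit 152) (nat_lit 221849887772) (nat_lit 0) (nat_lit 573647470348) (nat_lit 1) (nat_lit 5) (nat_lit 3) (nat_lit 4) (nat_lit 1) (nat_lit 4) (nat_lit 328) (nat_lit 221) (nat_lit 171)) (XT.lf (nat_lit 0) (nat_lit 624439613172) (nat_lit 152) (nat_lit 237931094169)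 (nat_lit 0) (nat_lit 620486673597) (nat_lit 1) (nat_lit 5) (nat_lit 3) (nat_lit 4) (nat_lit 1) (nat_lit 4) (nat_lit 329) (nat_lit 221) (nat_lit 170)))) (XT.nd (nat_lit 156) (nat_lit 0) (nat_lit 0) (XT.nd (nat_lit 78) (nat_lit 0) (nat_lit 0) (XT.lf (nat_lit 0) (nat_lit 675030024221) (nat_lit 152) (nat_lit 255303666984) (nat_lit 0) (nat_lit 671071187601) (nat_lit 1) (nat_lit 5) (nat_lit 3) (nat_lit 4) (nat_lit 1) (nat_lit 4) (nat_lit 330) (nat_lit 221) (nat_lit 169)) (XT.lf (nat_lit 0) (nat_lit 729665069289) (nat_lit 152) (nat_lit 274070554794) (nat_lit 0) (nat_lit 725700772442) (nat_lit 1) (nat_lit 5) (nat_lit 3) (nat_lit 4) (nat_lit 1) (nat_lit 4) (nat_lit 331) (nat_lit 221) (nat_lit 168))) (XT.nd (nat_lit 78) (nat_lit 0) (nat_lit 0) (XT.lf (nat_lit 0) (nat_lit 788668511606) (nat_lit 152) (nat_lit 294342968788) (nat_lit 0) (nat_lit 784699158994) (nat_lit 1) (nat_lit 5) (nat_lit 3)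 (nat_lit 4) (nat_lit 1) (nat_lit 4) (nat_lit 332) (nat_lit 221) (nat_lit 167)) (XT.lf (nat_lit 0) (nat_lit 852390001201) (nat_lit 152) (nat_lit 316241041788) (nat_lit 0) (nat_lit 848415967325) (nat_lit 1) (nat_lit 5) (nat_lit 3) (nat_lit 4) (nat_lit 1) (nat_lit 4) (nat_lit 333) (nat_lit 221) (nat_lit 166))))) (XT.nd (nat_lit 234) (nat_lit 0) (nat_lit 0) (XT.nd (nat_lit 78) (nat_lit 0) (nat_lit 0) (XT.lf (nat_lit 0) (nat_lit 921207146901) (nat_lit 152) (nat_lit 339894540154) (nat_lit 0) (nat_lit 917228778521) (nat_lit 1) (nat_lit 5) (nat_lit 3) (nat_lit 4) (nat_lit 1) (nat_lit 4) (nat_lit 334) (nat_lit 221) (nat_lit 165)) (XT.nd (nat_lit 78) (nat_lit 0) (nat_lit 0) (XT.lf (nat_lit 0) (nat_lit 995527754014) (nat_lit 152) (nat_lit 365443632765) (nat_lit 0) (nat_lit 991545372205) (nat_lit 1) (nat_lit 5) (nat_lit 3) (nat_lit 4) (nat_lit 1) (nat_lit 4) (nat_lit 335) (nat_lit 221) (nat_lit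 164)) (XT.lf (nat_lit 0) (nat_lit 1075792240953) (nat_lit 152) (nat_lit 393039721650) (nat_lit 0) (nat_lit 1071806143005) (nat_lit 1) (nat_lit 5) (nat_lit 3) (nat_lit 4) (nat_lit 1) (nat_lit 4) (nat_lit 336) (nat_lit 221) (nat_lit 163)))) (XT.nd (nat_lit 156) (nat_lit 0) (nat_lit 0) (XT.nd (nat_lit 78) (nat_lit 0) (nat_lit 0) (XT.lf (nat_lit 0) (nat_lit 1162476249121) (nat_lit 152) (nat_lit 422846339189) (nat_lit 0) (nat_lit 1158486710304) (nat_lit 1) (nat_lit 5) (nat_lit 3) (nat_lit 4) (nat_lit 1) (nat_lit 4) (nat_lit 337) (nat_lit 221) (nat_lit 162)) (XT.lf (nat_lit 0) (nat_lit 1256093461530) (nat_lit 152) (nat_lit 455040117190) (nat_lit 0) (nat_lit 1252100736723) (nat_lit 1) (nat_lit 5) (nat_lit 3) (nat_lit 4) (nat_lit 1) (nat_lit 4) (nat_lit 338) (nat_lit 221) (nat_lit 161))) (XT.nd (nat_lit 78) (nat_lit 0) (nat_lit 0) (XT.lf (nat_lit 0) (nat_lit 1357198646846) (nat_lit 152) (nat_lit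 489811833595) (nat_lit 0) (nat_lit 1353202972049) (nat_lit 1) (nat_lit 5) (nat_lit 3) (nat_lit 4) (nat_lit 1) (nat_lit 4) (nat_lit 339) (nat_lit 221) (nat_lit 160)) (XT.lf (nat_lit 0) (nat_lit 1466390946909) (nat_lit 152) (nat_lit 527367543020) (nat_lit 0) (nat_lit 1462392540638) (nat_lit 1) (nat_lit 5) (nat_lit 3) (nat_lit 4) (nat_lit 1) (nat_lit 4) (nat_lit 340) (nat_lit 221) (nat_lit 159))))))))
noncomputable def xc23 : XT := (XT.nd (nat_lit 34086) (nat_lit 0) (nat_lit 0) (XT.nd (nat_lit 32994) (nat_lit 0) (nat_lit 0) (XT.nd (nat_lit 32448) (nat_lit 0) (nat_lit 0) (XT.nd (nat_lit 234) (nat_lit 0) (nat_lit 0) (XT.nd (nat_lit 78) (nat_lit 0) (nat_lit 0) (XT.lf (nat_lit 0) (nat_lit 1584317427199) (nat_lit 152) (nat_lit 567929797818) (nat_lit 0) (nat_lit 1580316491787) (nat_lit 1) (nat_lit 5) (nat_lit 3) (nat_lit 4) (nat_lit 1) (nat_lit 4) (nat_lit 341) (nat_lit 221) (nat_lit 158))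 (XT.nd (nat_lit 78) (nat_lit 0) (nat_lit 0) (XT.lf (nat_lit 0) (nat_lit 1711676911303) (nat_lit 152) (nat_lit 611738966907) (nat_lit 0) (nat_lit 1707673634094) (nat_lit 1) (nat_lit 5) (nat_lit 3) (nat_lit 4) (nat_lit 1) (nat_lit 4) (nat_lit 342) (nat_lit 221) (nat_lit 157)) (XT.lf (nat_lit 0) (nat_lit 1849224122091) (nat_lit 152) (nat_lit 659054660176) (nat_lit 0) (nat_lit 1845218676551) (nat_lit 1) (nat_lit 5) (nat_lit 3) (nat_lit 4) (nat_lit 1) (nat_lit 4) (nat_lit 343) (nat_lit 221) (nat_lit 156)))) (XT.nd (nat_lit 78) (nat_lit 0) (nat_lit 0) (XT.lf (nat_lit 0) (nat_lit 1997774154145) (nat_lit 152) (nat_lit 710157266919) (nat_lit 0) (nat_lit 1993766700891) (nat_lit 1) (nat_lit 5) (nat_lit 3) (nat_lit 4) (nat_lit 1) (nat_lit 4) (nat_lit 344) (nat_lit 221) (nat_lit 155)) (XT.nd (nat_lit 78) (nat_lit 0) (nat_lit 0) (XT.lf (nat_lit 0) (nat_lit 2158207303952) (nat_lit 152) (nat_lit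 765349617399) (nat_lit 0) (nat_lit 2154197991703) (nat_lit 1) (nat_lit 5) (nat_lit 3) (nat_lit 4) (nat_lit 1) (nat_lit 4) (nat_lit 345) (nat_lit 221) (nat_lit 154)) (XT.lf (nat_lit 0) (nat_lit 2331474286472) (nat_lit 152) (nat_lit 824958777397) (nat_lit 0) (nat_lit 2327463252932) (nat_lit 1) (nat_lit 5) (nat_lit 3) (nat_lit 4) (nat_lit 1) (nat_lit 4) (nat_lit 346) (nat_lit 221) (nat_lit 153))))) (XT.nd (nat_lit 234) (nat_lit 152) (nat_lit 0) (XT.nd (nat_lit 78) (nat_lit 0) (nat_lit 0) (XT.lf (nat_lit 0) (nat_lit 3946778017) (nat_lit 76) (nat_lit 4805011265) (nat_lit 76) (nat_lit 4805011265) (nat_lit 3) (nat_lit 4) (nat_lit 4) (nat_lit 5) (nat_lit 4) (nat_lit 4) (nat_lit 276) (nat_lit 222) (nat_lit 222)) (XT.nd (nat_lit 78) (nat_lit 0) (nat_lit 0) (XT.lf (nat_lit 0) (nat_lit 12987534811) (nat_lit 76) (nat_lit 8207735804) (nat_lit 76) (nat_lit 7859323512) (nat_lit 3) (nat_lit 4) (nat_lit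 4) (nat_lit 5) (nat_lit 4) (nat_lit 4) (nat_lit 277) (nat_lit 222) (nat_lit 221)) (XT.lf (nat_lit 0) (nat_lit 18271451298) (nat_lit 76) (nat_lit 6780776472) (nat_lit 76) (nat_lit 6109760205) (nat_lit 3) (nat_lit 4) (nat_lit 4) (nat_lit 5) (nat_lit 4) (nat_lit 4) (nat_lit 278) (nat_lit 222) (nat_lit 220)))) (XT.nd (nat_lit 156) (nat_lit 152) (nat_lit 0) (XT.nd (nat_lit 78) (nat_lit 0) (nat_lit 0) (XT.lf (nat_lit 0) (nat_lit 23776617590) (nat_lit 76) (nat_lit 5320688478) (nat_lit 76) (nat_lit 4350964828) (nat_lit 3) (nat_lit 4) (nat_lit 4) (nat_lit 5) (nat_lit 4) (nat_lit 4) (nat_lit 279) (nat_lit 222) (nat_lit 219)) (XT.lf (nat_lit 0) (nat_lit 29535656895) (nat_lit 76) (nat_lit 3818819450) (nat_lit 76) (nat_lit 2572514889) (nat_lit 3) (nat_lit 4) (nat_lit 4) (nat_lit 5) (nat_lit 4) (nat_lit 4) (nat_lit 280) (nat_lit 222) (nat_lit 218))) (XT.nd (nat_lit 78) (nat_lit 152) (nat_lit 0)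 (XT.lf (nat_lit 0) (nat_lit 35582696855) (nat_lit 76) (nat_lit 2266269423) (nat_lit 76) (nat_lit 763871426) (nat_lit 3) (nat_lit 4) (nat_lit 4) (nat_lit 5) (nat_lit 4) (nat_lit 4) (nat_lit 281) (nat_lit 222) (nat_lit 217)) (XT.lf (nat_lit 0) (nat_lit 427099902) (nat_lit 76) (nat_lit 614545026) (nat_lit 152) (nat_lit 40477170905) (nat_lit 1) (nat_lit 5) (nat_lit 2) (nat_lit 5) (nat_lit 3) (nat_lit 4) (nat_lit 282) (nat_lit 222) (nat_lit 216)))))) (XT.nd (nat_lit 546) (nat_lit 0) (nat_lit 0) (XT.nd (nat_lit 234) (nat_lit 0) (nat_lit 0) (XT.nd (nat_lit 78) (nat_lit 0) (nat_lit 0) (XT.lf (nat_lit 0) (nat_lit 2966696198) (nat_lit 152) (nat_lit 40535397921) (nat_lit 0) (nat_lit 1152732871) (nat_lit 1) (nat_lit 5) (nat_lit 3) (nat_lit 4) (nat_lit 1) (nat_lit 4) (nat_lit 283) (nat_lit 222) (nat_lit 215)) (XT.nd (nat_lit 78) (nat_lit 0) (nat_lit 0) (XT.lf (nat_lit 0) (nat_lit 4972120299) (nat_lit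 152) (nat_lit 40105986225) (nat_lit 0) (nat_lit 2969920652) (nat_lit 1) (nat_lit 5) (nat_lit 3) (nat_lit 4) (nat_lit 1) (nat_lit 4) (nat_lit 284) (nat_lit 222) (nat_lit 214)) (XT.lf (nat_lit 0) (nat_lit 7055021403) (nat_lit 152) (nat_lit 39786156361) (nat_lit 0) (nat_lit 4878528866) (nat_lit 1) (nat_lit 5) (nat_lit 3) (nat_lit 4) (nat_lit 1) (nat_lit 4) (nat_lit 285) (nat_lit 222) (nat_lit 213)))) (XT.nd (nat_lit 156) (nat_lit 0) (nat_lit 0) (XT.nd (nat_lit 78) (nat_lit 0) (nat_lit 0) (XT.lf (nat_lit 0) (nat_lit 9227742626) (nat_lit 152) (nat_lit 39574013038) (nat_lit 0) (nat_lit 6889867784) (nat_lit 1) (nat_lit 5) (nat_lit 3) (nat_lit 4) (nat_lit 1) (nat_lit 4) (nat_lit 286) (nat_lit 222) (nat_lit 212)) (XT.lf (nat_lit 0) (nat_lit 11503159354) (nat_lit 152) (nat_lit 39468299113) (nat_lit 0) (nat_lit 9015856452) (nat_lit 1) (nat_lit 5) (nat_lit 3) (nat_lit 4) (nat_lit 1) (nat_lit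 4) (nat_lit 287) (nat_lit 222) (nat_lit 211))) (XT.nd (nat_lit 78) (nat_lit 0) (nat_lit 0) (XT.lf (nat_lit 0) (nat_lit 13894755539) (nat_lit 152) (nat_lit 39468388132) (nat_lit 0) (nat_lit 11269093322) (nat_lit 1) (nat_lit 5) (nat_lit 3) (nat_lit 4) (nat_lit 1) (nat_lit 4) (nat_lit 288) (nat_lit 222) (nat_lit 210)) (XT.lf (nat_lit 0) (nat_lit 16416703601) (nat_lit 152) (nat_lit 39574280623) (nat_lit 0) (nat_lit 13662930907) (nat_lit 1) (nat_lit 5) (nat_lit 3) (nat_lit 4) (nat_lit 1) (nat_lit 4) (nat_lit 289) (nat_lit 222) (nat_lit 209))))) (XT.nd (nat_lit 234) (nat_lit 0) (nat_lit 0) (XT.nd (nat_lit 78) (nat_lit 0) (nat_lit 0) (XT.lf (nat_lit 0) (nat_lit 19083948419) (nat_lit 152) (nat_lit 39786604097) (nat_lit 0) (nat_lit 16211554913) (nat_lit 1) (nat_lit 5) (nat_lit 3) (nat_lit 4) (nat_lit 1) (nat_lit 4) (nat_lit 290) (nat_lit 222) (nat_lit 208)) (XT.nd (nat_lit 78) (nat_lit 0)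 (nat_lit 0) (XT.lf (nat_lit 0) (nat_lit 21912295888) (nat_lit 152) (nat_lit 40106616766) (nat_lit 0) (nat_lit 18930068297) (nat_lit 1) (nat_lit 5) (nat_lit 3) (nat_lit 4) (nat_lit 1) (nat_lit 4) (nat_lit 291) (nat_lit 222) (nat_lit 207)) (XT.lf (nat_lit 0) (nat_lit 24918506584) (nat_lit 152) (nat_lit 40536215003) (nat_lit 0) (nat_lit 21834580766) (nat_lit 1) (nat_lit 5) (nat_lit 3) (nat_lit 4) (nat_lit 1) (nat_lit 4) (nat_lit 292) (nat_lit 222) (nat_lit 206)))) (XT.nd (nat_lit 156) (nat_lit 0) (nat_lit 0) (XT.nd (nat_lit 78) (nat_lit 0) (nat_lit 0) (XT.lf (nat_lit 0) (nat_lit 28120395090) (nat_lit 152) (nat_lit 41077944574) (nat_lit 0) (nat_lit 24942304248) (nat_lit 1) (nat_lit 5) (nat_lit 3) (nat_lit 4) (nat_lit 1) (nat_lit 4) (nat_lit 293) (nat_lit 222) (nat_lit 205)) (XT.lf (nat_lit 0) (nat_lit 31536935561) (nat_lit 152) (nat_lit 41735015730) (nat_lit 0) (nat_lit 28271654880) (nat_lit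 1) (nat_lit 5) (nat_lit 3) (nat_lit 4) (nat_lit 1) (nat_lit 4) (nat_lit 294) (nat_lit 222) (nat_lit 204))) (XT.nd (nat_lit 78) (nat_lit 0) (nat_lit 0) (XT.lf (nat_lit 0) (nat_lit 35188374161) (nat_lit 152) (nat_lit 42511322224) (nat_lit 0) (nat_lit 31842362149) (nat_lit 1) (nat_lit 5) (nat_lit 3) (nat_lit 4) (nat_lit 1) (nat_lit 4) (nat_lit 295) (nat_lit 222) (nat_lit 203)) (XT.lf (nat_lit 0) (nat_lit 39096349046) (nat_lit 152) (nat_lit 43411464392) (nat_lit 0) (nat_lit 35675585802) (nat_lit 1) (nat_lit 5) (nat_lit 3) (nat_lit 4) (nat_lit 1) (nat_lit 4) (nat_lit 296) (nat_lit 222) (nat_lit 202))))))) (XT.nd (nat_lit 1014) (nat_lit 0) (nat_lit 0) (XT.nd (nat_lit 468) (nat_lit 0) (nat_lit 0) (XT.nd (nat_lit 234) (nat_lit 0) (nat_lit 0) (XT.nd (nat_lit 78) (nat_lit 0) (nat_lit 0) (XT.lf (nat_lit 0) (nat_lit 43284018586) (nat_lit 152) (nat_lit 44440776409) (nat_lit 0) (nat_lit 39794041237)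 (nat_lit 1) (nat_lit 5) (nat_lit 3) (nat_lit 4) (nat_lit 1) (nat_lit 4) (nat_lit 297) (nat_lit 222) (nat_lit 201)) (XT.nd (nat_lit 78) (nat_lit 0) (nat_lit 0) (XT.lf (nat_lit 0) (nat_lit 47776198599) (nat_lit 152) (nat_lit 45605357903) (nat_lit 0) (nat_lit 44222134116) (nat_lit 1) (nat_lit 5) (nat_lit 3) (nat_lit 4) (nat_lit 1) (nat_lit 4) (nat_lit 298) (nat_lit 222) (nat_lit 200)) (XT.lf (nat_lit 0) (nat_lit 52599509412) (nat_lit 152) (nat_lit 46912110097) (nat_lit 0) (nat_lit 48986104990) (nat_lit 1) (nat_lit 5) (nat_lit 3) (nat_lit 4) (nat_lit 1) (nat_lit 4) (nat_lit 299) (nat_lit 222) (nat_lit 199)))) (XT.nd (nat_lit 78) (nat_lit 0) (nat_lit 0) (XT.lf (nat_lit 0) (nat_lit 57782533607) (nat_lit 152) (nat_lit 48368776707) (nat_lit 0) (nat_lit 54114184798) (nat_lit 1) (nat_lit 5) (nat_lit 3) (nat_lit 4) (nat_lit 1) (nat_lit 4) (nat_lit 300) (nat_lit 222) (nat_lit 198)) (XT.nd (nat_lit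 78) (nat_lit 0) (nat_lit 0) (XT.lf (nat_lit 0) (nat_lit 63355985402) (nat_lit 152) (nat_lit 49983989832) (nat_lit 0) (nat_lit 59636762159) (nat_lit 1) (nat_lit 5) (nat_lit 3) (nat_lit 4) (nat_lit 1) (nat_lit 4) (nat_lit 301) (nat_lit 222) (nat_lit 197)) (XT.lf (nat_lit 0) (nat_lit 69352892659) (nat_lit 152) (nat_lit 51767321106) (nat_lit 0) (nat_lit 65586563460) (nat_lit 1) (nat_lit 5) (nat_lit 3) (nat_lit 4) (nat_lit 1) (nat_lit 4) (nat_lit 302) (nat_lit 222) (nat_lit 196))))) (XT.nd (nat_lit 234) (nat_lit 0) (nat_lit 0) (XT.nd (nat_lit 78) (nat_lit 0) (nat_lit 0) (XT.lf (nat_lit 0) (nat_lit 75808792606) (nat_lit 152) (nat_lit 53729338418) (nat_lit 0) (nat_lit 71998846782) (nat_lit 1) (nat_lit 5) (nat_lit 3) (nat_lit 4) (nat_lit 1) (nat_lit 4) (nat_lit 303) (nat_lit 222) (nat_lit 195)) (XT.nd (nat_lit 78) (nat_lit 0) (nat_lit 0) (XT.lf (nat_lit 0) (nat_lit 82761942429) (nat_lit 152)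 (nat_lit 55881668536) (nat_lit 0) (nat_lit 78911610839) (nat_lit 1) (nat_lit 5) (nat_lit 3) (nat_lit 4) (nat_lit 1) (nat_lit 4) (nat_lit 304) (nat_lit 222) (nat_lit 194)) (XT.lf (nat_lit 0) (nat_lit 90253545979) (nat_lit 152) (nat_lit 58237066009) (nat_lit 0) (nat_lit 86365820162) (nat_lit 1) (nat_lit 5) (nat_lit 3) (nat_lit 4) (nat_lit 1) (nat_lit 4) (nat_lit 305) (nat_lit 222) (nat_lit 193)))) (XT.nd (nat_lit 156) (nat_lit 0) (nat_lit 0) (XT.nd (nat_lit 78) (nat_lit 0) (nat_lit 0) (XT.lf (nat_lit 0) (nat_lit 98327997942) (nat_lit 152) (nat_lit 60809488749) (nat_lit 0) (nat_lit 94405647840) (nat_lit 1) (nat_lit 5) (nat_lit 3) (nat_lit 4) (nat_lit 1) (nat_lit 4) (nat_lit 306) (nat_lit 222) (nat_lit 192)) (XT.lf (nat_lit 0) (nat_lit 107033146923) (nat_lit 152) (nat_lit 63614180743) (nat_lit 0) (nat_lit 103078737299) (nat_lit 1) (nat_lit 5) (nat_lit 3) (nat_lit 4) (nat_lit 1) (nat_lit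 4) (nat_lit 307) (nat_lit 222) (nat_lit 191))) (XT.nd (nat_lit 78) (nat_lit 0) (nat_lit 0) (XT.lf (nat_lit 0) (nat_lit 116420578990) (nat_lit 152) (nat_lit 66667762386) (nat_lit 0) (nat_lit 112436484623) (nat_lit 1) (nat_lit 5) (nat_lit 3) (nat_lit 4) (nat_lit 1) (nat_lit 4) (nat_lit 308) (nat_lit 222) (nat_lit 190)) (XT.lf (nat_lit 0) (nat_lit 126545923370) (nat_lit 152) (nat_lit 69988328978) (nat_lit 0) (nat_lit 122534343130) (nat_lit 1) (nat_lit 5) (nat_lit 3) (nat_lit 4) (nat_lit 1) (nat_lit 4) (nat_lit 309) (nat_lit 222) (nat_lit 189)))))) (XT.nd (nat_lit 546) (nat_lit 0) (nat_lit 0) (XT.nd (nat_lit 234) (nat_lit 0) (nat_lit 0) (XT.nd (nat_lit 78) (nat_lit 0) (nat_lit 0) (XT.lf (nat_lit 0) (nat_lit 137469182105) (nat_lit 152) (nat_lit 73595557950) (nat_lit 0) (nat_lit 133432151982) (nat_lit 1) (nat_lit 5) (nat_lit 3) (nat_lit 4) (nat_lit 1) (nat_lit 4) (nat_lit 310) (nat_lit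 222) (nat_lit 188)) (XT.nd (nat_lit 78) (nat_lit 0) (nat_lit 0) (XT.lf (nat_lit 0) (nat_lit 149255085615) (nat_lit 152) (nat_lit 77510825475) (nat_lit 0) (nat_lit 145194490786) (nat_lit 1) (nat_lit 5) (nat_lit 3) (nat_lit 4) (nat_lit 1) (nat_lit 4) (nat_lit 311) (nat_lit 222) (nat_lit 187)) (XT.lf (nat_lit 0) (nat_lit 161973476293) (nat_lit 152) (nat_lit 81757333137) (nat_lit 0) (nat_lit 157891062292) (nat_lit 1) (nat_lit 5) (nat_lit 3) (nat_lit 4) (nat_lit 1) (nat_lit 4) (nat_lit 312) (nat_lit 222) (nat_lit 186)))) (XT.nd (nat_lit 156) (nat_lit 0) (nat_lit 0) (XT.nd (nat_lit 78) (nat_lit 0) (nat_lit 0) (XT.lf (nat_lit 0) (nat_lit 175699722378) (nat_lit 152) (nat_lit 86360245426) (nat_lit 0) (nat_lit 171597105440) (nat_lit 1) (nat_lit 5) (nat_lit 3) (nat_lit 4) (nat_lit 1) (nat_lit 4) (nat_lit 313) (nat_lit 222) (nat_lit 185)) (XT.lf (nat_lit 0) (nat_lit 190515164590) (nat_lit 152)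 (nat_lit 91346838860) (nat_lit 0) (nat_lit 186393841229) (nat_lit 1) (nat_lit 5) (nat_lit 3) (nat_lit 4) (nat_lit 1) (nat_lit 4) (nat_lit 314) (nat_lit 222) (nat_lit 184))) (XT.nd (nat_lit 78) (nat_lit 0) (nat_lit 0) (XT.lf (nat_lit 0) (nat_lit 206507598141) (nat_lit 152) (nat_lit 96746663622) (nat_lit 0) (nat_lit 202368954017) (nat_lit 1) (nat_lit 5) (nat_lit 3) (nat_lit 4) (nat_lit 1) (nat_lit 4) (nat_lit 315) (nat_lit 222) (nat_lit 183)) (XT.lf (nat_lit 0) (nat_lit 223771793007) (nat_lit 152) (nat_lit 102591718673) (nat_lit 0) (nat_lit 219617111140) (nat_lit 1) (nat_lit 5) (nat_lit 3) (nat_lit 4) (nat_lit 1) (nat_lit 4) (nat_lit 316) (nat_lit 222) (nat_lit 182))))) (XT.nd (nat_lit 234) (nat_lit 0) (nat_lit 0) (XT.nd (nat_lit 78) (nat_lit 0) (nat_lit 0) (XT.lf (nat_lit 0) (nat_lit 242410055529) (nat_lit 152) (nat_lit 108916641376) (nat_lit 0) (nat_lit 238240523900) (nat_lit 1) (nat_lit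 5) (nat_lit 3) (nat_lit 4) (nat_lit 1) (nat_lit 4) (nat_lit 317) (nat_lit 222) (nat_lit 181)) (XT.nd (nat_lit 78) (nat_lit 0) (nat_lit 0) (XT.lf (nat_lit 0) (nat_lit 262532834669) (nat_lit 152) (nat_lit 115758912756) (nat_lit 0) (nat_lit 258349553261) (nat_lit 1) (nat_lit 5) (nat_lit 3) (nat_lit 4) (nat_lit 1) (nat_lit 4) (nat_lit 318) (nat_lit 222) (nat_lit 180)) (XT.lf (nat_lit 0) (nat_lit 284259376527) (nat_lit 152) (nat_lit 123159079605) (nat_lit 0) (nat_lit 280063363841) (nat_lit 1) (nat_lit 5) (nat_lit 3) (nat_lit 4) (nat_lit 1) (nat_lit 4) (nat_lit 319) (nat_lit 222) (nat_lit 179)))) (XT.nd (nat_lit 156) (nat_lit 0) (nat_lit 0) (XT.nd (nat_lit 78) (nat_lit 0) (nat_lit 0) (XT.lf (nat_lit 0) (nat_lit 307718430979) (nat_lit 152) (nat_lit 131160994765) (nat_lit 0) (nat_lit 303510630073) (nat_lit 1) (nat_lit 5) (nat_lit 3) (nat_lit 4) (nat_lit 1) (nat_lit 4) (nat_lit 320) (nat_lit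 222) (nat_lit 178)) (XT.lf (nat_lit 0) (nat_lit 333049014646) (nat_lit 152) (nat_lit 139812076991) (nat_lit 0) (nat_lit 328830298721) (nat_lit 1) (nat_lit 5) (nat_lit 3) (nat_lit 4) (nat_lit 1) (nat_lit 4) (nat_lit 321) (nat_lit 222) (nat_lit 177))) (XT.nd (nat_lit 78) (nat_lit 0) (nat_lit 0) (XT.lf (nat_lit 0) (nat_lit 360401234688) (nat_lit 152) (nat_lit 149163591955) (nat_lit 0) (nat_lit 356172412265) (nat_lit 1) (nat_lit 5) (nat_lit 3) (nat_lit 4) (nat_lit 1) (nat_lit 4) (nat_lit 322) (nat_lit 222) (nat_lit 176)) (XT.lf (nat_lit 0) (nat_lit 389937178337) (nat_lit 152) (nat_lit 159270956044) (nat_lit 0) (nat_lit 385698998045) (nat_lit 1) (nat_lit 5) (nat_lit 3) (nat_lit 4) (nat_lit 1) (nat_lit 4) (nat_lit 323) (nat_lit 222) (nat_lit 175))))))))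
noncomputable def xc24 : XT := (XT.nd (nat_lit 33930) (nat_lit 0) (nat_lit 0) (XT.nd (nat_lit 1014) (nat_lit 0) (nat_lit 0) (XT.nd (nat_lit 468) (nat_lit 0) (nat_lit 0) (XT.nd (nat_lit 234) (nat_lit 0) (nat_lit 0) (XT.nd (nat_lit 78) (nat_lit 0) (nat_lit 0) (XT.lf (nat_lit 0) (nat_lit 421831873406) (nat_lit 152) (nat_lit 170194064748) (nat_lit 0) (nat_lit 417585028421) (nat_lit 1) (nat_lit 5) (nat_lit 3) (nat_lit 4) (nat_lit 1) (nat_lit 4) (nat_lit 324) (nat_lit 222) (nat_lit 174)) (XT.nd (nat_lit 78) (nat_lit 0) (nat_lit 0) (XT.lf (nat_lit 0) (nat_lit 456274325496) (nat_lit 152) (nat_lit 181997647600) (nat_lit 0) (nat_lit 452019457647) (nat_lit 1) (nat_lit 5) (nat_lit 3) (nat_lit 4) (nat_lit 1) (nat_lit 4) (nat_lit 325) (nat_lit 222) (nat_lit 173)) (XT.lf (nat_lit 0) (nat_lit 493468638027) (nat_lit 152) (nat_lit 194751651757) (nat_lit 0) (nat_lit 489206341599) (nat_lit 1) (nat_lit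 5) (nat_lit 3) (nat_lit 4) (nat_lit 1) (nat_lit 4) (nat_lit 326) (nat_lit 222) (nat_lit 172)))) (XT.nd (nat_lit 78) (nat_lit 0) (nat_lit 0) (XT.lf (nat_lit 0) (nat_lit 533635221739) (nat_lit 152) (nat_lit 208531656503) (nat_lit 0) (nat_lit 529366046998) (nat_lit 1) (nat_lit 5) (nat_lit 3) (nat_lit 4) (nat_lit 1) (nat_lit 4) (nat_lit 327) (nat_lit 222) (nat_lit 171)) (XT.nd (nat_lit 78) (nat_lit 0) (nat_lit 0) (XT.lf (nat_lit 0) (nat_lit 577012100833) (nat_lit 152) (nat_lit 223419321127) (nat_lit 0) (nat_lit 572736557284) (nat_lit 1) (nat_lit 5) (nat_lit 3) (nat_lit 4) (nat_lit 1) (nat_lit 4) (nat_lit 328) (nat_lit 222) (nat_lit 170)) (XT.lf (nat_lit 0) (nat_lit 623856323480) (nat_lit 152) (nat_lit 239502868825) (nat_lit 0) (nat_lit 619574882886) (nat_lit 1) (nat_lit 5) (nat_lit 3) (nat_lit 4) (nat_lit 1) (nat_lit 4) (nat_lit 329) (nat_lit 222) (nat_lit 169))))) (XT.nd (nat_lit 234)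 (nat_lit 0) (nat_lit 0) (XT.nd (nat_lit 78) (nat_lit 0) (nat_lit 0) (XT.lf (nat_lit 0) (nat_lit 674445485075) (nat_lit 152) (nat_lit 256877609510) (nat_lit 0) (nat_lit 670158584254) (nat_lit 1) (nat_lit 5) (nat_lit 3) (nat_lit 4) (nat_lit 1) (nat_lit 4) (nat_lit 330) (nat_lit 222) (nat_lit 168)) (XT.nd (nat_lit 78) (nat_lit 0) (nat_lit 0) (XT.lf (nat_lit 0) (nat_lit 729079373241) (nat_lit 152) (nat_lit 275646504608) (nat_lit 0) (nat_lit 724787416654) (nat_lit 1) (nat_lit 5) (nat_lit 3) (nat_lit 4) (nat_lit 1) (nat_lit 4) (nat_lit 331) (nat_lit 222) (nat_lit 167)) (XT.lf (nat_lit 0) (nat_lit 788081744352) (nat_lit 152) (nat_lit 295920777201) (nat_lit 0) (nat_lit 783785106502) (nat_lit 1) (nat_lit 5) (nat_lit 3) (nat_lit 4) (nat_lit 1) (nat_lit 4) (nat_lit 332) (nat_lit 222) (nat_lit 166)))) (XT.nd (nat_lit 156) (nat_lit 0) (nat_lit 0) (XT.nd (nat_lit 78) (nat_lit 0) (nat_lit 0) (XT.lf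 (nat_lit 0) (nat_lit 851802242090) (nat_lit 152) (nat_lit 317820571128) (nat_lit 0) (nat_lit 847501269736) (nat_lit 1) (nat_lit 5) (nat_lit 3) (nat_lit 4) (nat_lit 1) (nat_lit 4) (nat_lit 333) (nat_lit 222) (nat_lit 165)) (XT.lf (nat_lit 0) (nat_lit 920618469404) (nat_lit 152) (nat_lit 341475662943) (nat_lit 0) (nat_lit 916313483620) (nat_lit 1) (nat_lit 5) (nat_lit 3) (nat_lit 4) (nat_lit 1) (nat_lit 4) (nat_lit 334) (nat_lit 222) (nat_lit 164))) (XT.nd (nat_lit 78) (nat_lit 0) (nat_lit 0) (XT.lf (nat_lit 0) (nat_lit 994938226160) (nat_lit 152) (nat_lit 367026230970) (nat_lit 0) (nat_lit 990629524237) (nat_lit 1) (nat_lit 5) (nat_lit 3) (nat_lit 4) (nat_lit 1) (nat_lit 4) (nat_lit 335) (nat_lit 222) (nat_lit 163)) (XT.lf (nat_lit 0) (nat_lit 1075201925731) (nat_lit 152) (nat_lit 394623685982) (nat_lit 0) (nat_lit 1070889782939) (nat_lit 1) (nat_lit 5) (nat_lit 3) (nat_lit 4) (nat_lit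 1) (nat_lit 4) (nat_lit 336) (nat_lit 222) (nat_lit 162)))))) (XT.nd (nat_lit 468) (nat_lit 0) (nat_lit 0) (XT.nd (nat_lit 234) (nat_lit 0) (nat_lit 0) (XT.nd (nat_lit 78) (nat_lit 0) (nat_lit 0) (XT.lf (nat_lit 0) (nat_lit 1161885204854) (nat_lit 152) (nat_lit 424431568453) (nat_lit 0) (nat_lit 1157569876073) (nat_lit 1) (nat_lit 5) (nat_lit 3) (nat_lit 4) (nat_lit 1) (nat_lit 4) (nat_lit 337) (nat_lit 222) (nat_lit 161)) (XT.nd (nat_lit 78) (nat_lit 0) (nat_lit 0) (XT.lf (nat_lit 0) (nat_lit 1255501742222) (nat_lit 152) (nat_lit 456626517686) (nat_lit 0) (nat_lit 1251183463450) (nat_lit 1) (nat_lit 5) (nat_lit 3) (nat_lit 4) (nat_lit 1) (nat_lit 4) (nat_lit 338) (nat_lit 222) (nat_lit 160)) (XT.lf (nat_lit 0) (nat_lit 1356606302500) (nat_lit 152) (nat_lit 491399318566) (nat_lit 0) (nat_lit 1352285292255) (nat_lit 1) (nat_lit 5) (nat_lit 3) (nat_lit 4) (nat_lit 1) (nat_lit 4) (nat_lit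 339) (nat_lit 222) (nat_lit 159)))) (XT.nd (nat_lit 78) (nat_lit 0) (nat_lit 0) (XT.lf (nat_lit 0) (nat_lit 1465798023823) (nat_lit 152) (nat_lit 528956032135) (nat_lit 0) (nat_lit 1461474484437) (nat_lit 1) (nat_lit 5) (nat_lit 3) (nat_lit 4) (nat_lit 1) (nat_lit 4) (nat_lit 340) (nat_lit 222) (nat_lit 158)) (XT.nd (nat_lit 78) (nat_lit 0) (nat_lit 0) (XT.lf (nat_lit 0) (nat_lit 1583723968244) (nat_lit 152) (nat_lit 569519216696) (nat_lit 0) (nat_lit 1579398087060) (nat_lit 1) (nat_lit 5) (nat_lit 3) (nat_lit 4) (nat_lit 1) (nat_lit 4) (nat_lit 341) (nat_lit 222) (nat_lit 157)) (XT.lf (nat_lit 0) (nat_lit 1711082956173) (nat_lit 152) (nat_lit 613329246676) (nat_lit 0) (nat_lit 1706754906658) (nat_lit 1) (nat_lit 5) (nat_lit 3) (nat_lit 4) (nat_lit 1) (nat_lit 4) (nat_lit 342) (nat_lit 222) (nat_lit 156))))) (XT.nd (nat_lit 32136) (nat_lit 0) (nat_lit 152) (XT.nd (nat_lit 78) (nat_lit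 0) (nat_lit 0) (XT.lf (nat_lit 0) (nat_lit 1848629707540) (nat_lit 152) (nat_lit 660645737066) (nat_lit 0) (nat_lit 1844299650311) (nat_lit 1) (nat_lit 5) (nat_lit 3) (nat_lit 4) (nat_lit 1) (nat_lit 4) (nat_lit 343) (nat_lit 222) (nat_lit 155)) (XT.nd (nat_lit 78) (nat_lit 0) (nat_lit 0) (XT.lf (nat_lit 0) (nat_lit 1997179314203) (nat_lit 152) (nat_lit 711749081885) (nat_lit 0) (nat_lit 1992847397980) (nat_lit 1) (nat_lit 5) (nat_lit 3) (nat_lit 4) (nat_lit 1) (nat_lit 4) (nat_lit 344) (nat_lit 222) (nat_lit 154)) (XT.lf (nat_lit 0) (nat_lit 2157612070130) (nat_lit 152) (nat_lit 766942115769) (nat_lit 0) (nat_lit 2153278432615) (nat_lit 1) (nat_lit 5) (nat_lit 3) (nat_lit 4) (nat_lit 1) (nat_lit 4) (nat_lit 345) (nat_lit 222) (nat_lit 153)))) (XT.nd (nat_lit 156) (nat_lit 0) (nat_lit 0) (XT.nd (nat_lit 78) (nat_lit 76) (nat_lit 0) (XT.lf (nat_lit 0) (nat_lit 5509990274) (nat_lit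 152) (nat_lit 818107595) (nat_lit 0) (nat_lit 5509990274) (nat_lit 4) (nat_lit 5) (nat_lit 6) (nat_lit 4) (nat_lit 4) (nat_lit 4) (nat_lit 274) (nat_lit 223) (nat_lit 223)) (XT.lf (nat_lit 0) (nat_lit 2959328424) (nat_lit 76) (nat_lit 11372231773) (nat_lit 76) (nat_lit 10995946498) (nat_lit 3) (nat_lit 4) (nat_lit 4) (nat_lit 5) (nat_lit 4) (nat_lit 4) (nat_lit 275) (nat_lit 223) (nat_lit 222))) (XT.nd (nat_lit 78) (nat_lit 0) (nat_lit 0) (XT.lf (nat_lit 0) (nat_lit 7780581495) (nat_lit 76) (nat_lit 10031745863) (nat_lit 76) (nat_lit 9307048295) (nat_lit 3) (nat_lit 4) (nat_lit 4) (nat_lit 5) (nat_lit 4) (nat_lit 4) (nat_lit 276) (nat_lit 223) (nat_lit 221)) (XT.lf (nat_lit 0) (nat_lit 12769954218) (nat_lit 76) (nat_lit 8671531412) (nat_lit 76) (nat_lit 7624229869) (nat_lit 3) (nat_lit 4) (nat_lit 4) (nat_lit 5) (nat_lit 4) (nat_lit 4) (nat_lit 277) (nat_lit 223) (nat_lit 220)))))))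 (XT.nd (nat_lit 1014) (nat_lit 0) (nat_lit 0) (XT.nd (nat_lit 468) (nat_lit 0) (nat_lit 0) (XT.nd (nat_lit 234) (nat_lit 152) (nat_lit 0) (XT.nd (nat_lit 78) (nat_lit 0) (nat_lit 0) (XT.lf (nat_lit 0) (nat_lit 17957013246) (nat_lit 76) (nat_lit 7283527890) (nat_lit 76) (nat_lit 5937518964) (nat_lit 3) (nat_lit 4) (nat_lit 4) (nat_lit 5) (nat_lit 4) (nat_lit 4) (nat_lit 278) (nat_lit 223) (nat_lit 219)) (XT.nd (nat_lit 78) (nat_lit 0) (nat_lit 0) (XT.lf (nat_lit 0) (nat_lit 23372496706) (nat_lit 76) (nat_lit 5859510091) (nat_lit 76) (nat_lit 4236920254) (nat_lit 3) (nat_lit 4) (nat_lit 4) (nat_lit 5) (nat_lit 4) (nat_lit 4) (nat_lit 279) (nat_lit 223) (nat_lit 218)) (XT.lf (nat_lit 0) (nat_lit 29048496353) (nat_lit 76) (nat_lit 4391039391) (nat_lit 76) (nat_lit 2512356118) (nat_lit 3) (nat_lit 4) (nat_lit 4) (nat_lit 5) (nat_lit 4) (nat_lit 4) (nat_lit 280) (nat_lit 223) (nat_lit 217))))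 (XT.nd (nat_lit 78) (nat_lit 152) (nat_lit 0) (XT.lf (nat_lit 0) (nat_lit 35018647740) (nat_lit 76) (nat_lit 2869413742) (nat_lit 76) (nat_lit 753606917) (nat_lit 3) (nat_lit 4) (nat_lit 4) (nat_lit 5) (nat_lit 4) (nat_lit 4) (nat_lit 281) (nat_lit 223) (nat_lit 216)) (XT.nd (nat_lit 78) (nat_lit 76) (nat_lit 0) (XT.lf (nat_lit 0) (nat_lit 997236841) (nat_lit 152) (nat_lit 261113039) (nat_lit 76) (nat_lit 40293826478) (nat_lit 2) (nat_lit 5) (nat_lit 4) (nat_lit 5) (nat_lit 3) (nat_lit 4) (nat_lit 282) (nat_lit 223) (nat_lit 215)) (XT.lf (nat_lit 0) (nat_lit 2856948644) (nat_lit 152) (nat_lit 41330330110) (nat_lit 0) (nat_lit 506336704) (nat_lit 1) (nat_lit 5) (nat_lit 3) (nat_lit 4) (nat_lit 1) (nat_lit 4) (nat_lit 283) (nat_lit 223) (nat_lit 214))))) (XT.nd (nat_lit 234) (nat_lit 0) (nat_lit 0) (XT.nd (nat_lit 78) (nat_lit 0) (nat_lit 0) (XT.lf (nat_lit 0) (nat_lit 4822489607) (nat_lit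 152) (nat_lit 40970117822) (nat_lit 0) (nat_lit 2297584778) (nat_lit 1) (nat_lit 5) (nat_lit 3) (nat_lit 4) (nat_lit 1) (nat_lit 4) (nat_lit 284) (nat_lit 223) (nat_lit 213)) (XT.nd (nat_lit 78) (nat_lit 0) (nat_lit 0) (XT.lf (nat_lit 0) (nat_lit 6868461880) (nat_lit 152) (nat_lit 40714361482) (nat_lit 0) (nat_lit 4182174745) (nat_lit 1) (nat_lit 5) (nat_lit 3) (nat_lit 4) (nat_lit 1) (nat_lit 4) (nat_lit 285) (nat_lit 223) (nat_lit 212)) (XT.lf (nat_lit 0) (nat_lit 9006989741) (nat_lit 152) (nat_lit 40561545498) (nat_lit 0) (nat_lit 6171274547) (nat_lit 1) (nat_lit 5) (nat_lit 3) (nat_lit 4) (nat_lit 1) (nat_lit 4) (nat_lit 286) (nat_lit 223) (nat_lit 211)))) (XT.nd (nat_lit 156) (nat_lit 0) (nat_lit 0) (XT.nd (nat_lit 78) (nat_lit 0) (nat_lit 0) (XT.lf (nat_lit 0) (nat_lit 11250745949) (nat_lit 152) (nat_lit 40510764293) (nat_lit 0) (nat_lit 8276671440) (nat_lit 1) (nat_lit 5) (nat_lit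 3) (nat_lit 4) (nat_lit 1) (nat_lit 4) (nat_lit 287) (nat_lit 223) (nat_lit 210)) (XT.lf (nat_lit 0) (nat_lit 13613026837) (nat_lit 152) (nat_lit 40561716942) (nat_lit 0) (nat_lit 10510841851) (nat_lit 1) (nat_lit 5) (nat_lit 3) (nat_lit 4) (nat_lit 1) (nat_lit 4) (nat_lit 288) (nat_lit 223) (nat_lit 209))) (XT.nd (nat_lit 78) (nat_lit 0) (nat_lit 0) (XT.lf (nat_lit 0) (nat_lit 16107831107) (nat_lit 152) (nat_lit 40714705386) (nat_lit 0) (nat_lit 12887025309) (nat_lit 1) (nat_lit 5) (nat_lit 3) (nat_lit 4) (nat_lit 1) (nat_lit 4) (nat_lit 289) (nat_lit 223) (nat_lit 208)) (XT.lf (nat_lit 0) (nat_lit 18749942783) (nat_lit 152) (nat_lit 40970636224) (nat_lit 0) (nat_lit 15419302899) (nat_lit 1) (nat_lit 5) (nat_lit 3) (nat_lit 4) (nat_lit 1) (nat_lit 4) (nat_lit 290) (nat_lit 223) (nat_lit 207)))))) (XT.nd (nat_lit 546) (nat_lit 0) (nat_lit 0) (XT.nd (nat_lit 234) (nat_lit 0) (nat_lit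 0) (XT.nd (nat_lit 78) (nat_lit 0) (nat_lit 0) (XT.lf (nat_lit 0) (nat_lit 21555018823) (nat_lit 152) (nat_lit 41331026083) (nat_lit 0) (nat_lit 18122680713) (nat_lit 1) (nat_lit 5) (nat_lit 3) (nat_lit 4) (nat_lit 1) (nat_lit 4) (nat_lit 291) (nat_lit 223) (nat_lit 206)) (XT.nd (nat_lit 78) (nat_lit 0) (nat_lit 0) (XT.lf (nat_lit 0) (nat_lit 24539681902) (nat_lit 152) (nat_lit 41798010606) (nat_lit 0) (nat_lit 21013178767) (nat_lit 1) (nat_lit 5) (nat_lit 3) (nat_lit 4) (nat_lit 1) (nat_lit 4) (nat_lit 292) (nat_lit 223) (nat_lit 205)) (XT.lf (nat_lit 0) (nat_lit 27721618910) (nat_lit 152) (nat_lit 42374357109) (nat_lit 0) (nat_lit 24107925937) (nat_lit 1) (nat_lit 5) (nat_lit 3) (nat_lit 4) (nat_lit 1) (nat_lit 4) (nat_lit 293) (nat_lit 223) (nat_lit 204)))) (XT.nd (nat_lit 156) (nat_lit 0) (nat_lit 0) (XT.nd (nat_lit 78) (nat_lit 0) (nat_lit 0) (XT.lf (nat_lit 0) (nat_lit 31119685771)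 (nat_lit 152) (nat_lit 43063480979) (nat_lit 0) (nat_lit 27425261467) (nat_lit 1) (nat_lit 5) (nat_lit 3) (nat_lit 4) (nat_lit 1) (nat_lit 4) (nat_lit 294) (nat_lit 223) (nat_lit 203)) (XT.lf (nat_lit 0) (nat_lit 34754019178) (nat_lit 152) (nat_lit 43869465913) (nat_lit 0) (nat_lit 30984843640) (nat_lit 1) (nat_lit 5) (nat_lit 3) (nat_lit 4) (nat_lit 1) (nat_lit 4) (nat_lit 295) (nat_lit 223) (nat_lit 202))) (XT.nd (nat_lit 78) (nat_lit 0) (nat_lit 0) (XT.lf (nat_lit 0) (nat_lit 38646155920) (nat_lit 152) (nat_lit 44797088117) (nat_lit 0) (nat_lit 34807766278) (nat_lit 1) (nat_lit 5) (nat_lit 3) (nat_lit 4) (nat_lit 1) (nat_lit 4) (nat_lit 296) (nat_lit 223) (nat_lit 201)) (XT.lf (nat_lit 0) (nat_lit 42819160513) (nat_lit 152) (nat_lit 45851844613) (nat_lit 0) (nat_lit 38916683737) (nat_lit 1) (nat_lit 5) (nat_lit 3) (nat_lit 4) (nat_lit 1) (nat_lit 4) (nat_lit 297) (nat_lit 223)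 (nat_lit 200))))) (XT.nd (nat_lit 234) (nat_lit 0) (nat_lit 0) (XT.nd (nat_lit 78) (nat_lit 0) (nat_lit 0) (XT.lf (nat_lit 0) (nat_lit 47297761871) (nat_lit 152) (nat_lit 47039985809) (nat_lit 0) (nat_lit 43335945157) (nat_lit 1) (nat_lit 5) (nat_lit 3) (nat_lit 4) (nat_lit 1) (nat_lit 4) (nat_lit 298) (nat_lit 223) (nat_lit 199)) (XT.nd (nat_lit 78) (nat_lit 0) (nat_lit 0) (XT.lf (nat_lit 0) (nat_lit 52108499856) (nat_lit 152) (nat_lit 48368552542) (nat_lit 0) (nat_lit 48091738754) (nat_lit 1) (nat_lit 5) (nat_lit 3) (nat_lit 4) (nat_lit 1) (nat_lit 4) (nat_lit 299) (nat_lit 223) (nat_lit 198)) (XT.lf (nat_lit 0) (nat_lit 57279882543) (nat_lit 152) (nat_lit 49845417799) (nat_lit 0) (nat_lit 53212247009) (nat_lit 1) (nat_lit 5) (nat_lit 3) (nat_lit 4) (nat_lit 1) (nat_lit 4) (nat_lit 300) (nat_lit 223) (nat_lit 197)))) (XT.nd (nat_lit 156) (nat_lit 0) (nat_lit 0) (XT.nd (nat_lit 78)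 (nat_lit 0) (nat_lit 0) (XT.lf (nat_lit 0) (nat_lit 62842555164) (nat_lit 152) (nat_lit 51479333376) (nat_lit 0) (nat_lit 58727813673) (nat_lit 1) (nat_lit 5) (nat_lit 3) (nat_lit 4) (nat_lit 1) (nat_lit 4) (nat_lit 301) (nat_lit 223) (nat_lit 196)) (XT.lf (nat_lit 0) (nat_lit 68829481705) (nat_lit 152) (nat_lit 53279981734) (nat_lit 0) (nat_lit 64671123588) (nat_lit 1) (nat_lit 5) (nat_lit 3) (nat_lit 4) (nat_lit 1) (nat_lit 4) (nat_lit 302) (nat_lit 223) (nat_lit 195))) (XT.nd (nat_lit 78) (nat_lit 0) (nat_lit 0) (XT.lf (nat_lit 0) (nat_lit 75276140249) (nat_lit 152) (nat_lit 55258033383) (nat_lit 0) (nat_lit 71077396366) (nat_lit 1) (nat_lit 5) (nat_lit 3) (nat_lit 4) (nat_lit 1) (nat_lit 4) (nat_lit 303) (nat_lit 223) (nat_lit 194)) (XT.lf (nat_lit 0) (nat_lit 82220733216) (nat_lit 152) (nat_lit 57425210110) (nat_lit 0) (nat_lit 77984595107) (nat_lit 1) (nat_lit 5) (nat_lit 3)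 (nat_lit 4) (nat_lit 1) (nat_lit 4) (nat_lit 304) (nat_lit 223) (nat_lit 193))))))))
noncomputable def xc25 : XT := (XT.nd (nat_lit 2106) (nat_lit 0) (nat_lit 0) (XT.nd (nat_lit 1014) (nat_lit 0) (nat_lit 0) (XT.nd (nat_lit 468) (nat_lit 0) (nat_lit 0) (XT.nd (nat_lit 234) (nat_lit 0) (nat_lit 0) (XT.nd (nat_lit 78) (nat_lit 0) (nat_lit 0) (XT.lf (nat_lit 0) (nat_lit 89704413751) (nat_lit 152) (nat_lit 59794354443) (nat_lit 0) (nat_lit 85433651357) (nat_lit 1) (nat_lit 5) (nat_lit 3) (nat_lit 4) (nat_lit 1) (nat_lit 4) (nat_lit 305) (nat_lit 223) (nat_lit 192)) (XT.nd (nat_lit 78) (nat_lit 0) (nat_lit 0) (XT.lf (nat_lit 0) (nat_lit 97771529589) (nat_lit 152) (nat_lit 62379505757) (nat_lit 0) (nat_lit 93468707673) (nat_lit 1) (nat_lit 5) (nat_lit 3) (nat_lit 4) (nat_lit 1) (nat_lit 4) (nat_lit 306) (nat_lit 223) (nat_lit 191)) (XT.lf (nat_lit 0) (nat_lit 106469885863) (nat_lit 152)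 (nat_lit 65195983467) (nat_lit 0) (nat_lit 102137379203) (nat_lit 1) (nat_lit 5) (nat_lit 3) (nat_lit 4) (nat_lit 1) (nat_lit 4) (nat_lit 307) (nat_lit 223) (nat_lit 190)))) (XT.nd (nat_lit 78) (nat_lit 0) (nat_lit 0) (XT.lf (nat_lit 0) (nat_lit 115851028385) (nat_lit 152) (nat_lit 68260477811) (nat_lit 0) (nat_lit 111491035853) (nat_lit 1) (nat_lit 5) (nat_lit 3) (nat_lit 4) (nat_lit 1) (nat_lit 4) (nat_lit 308) (nat_lit 223) (nat_lit 189)) (XT.nd (nat_lit 78) (nat_lit 0) (nat_lit 0) (XT.lf (nat_lit 0) (nat_lit 125970549114) (nat_lit 152) (nat_lit 71591148756) (nat_lit 0) (nat_lit 121585106699) (nat_lit 1) (nat_lit 5) (nat_lit 3) (nat_lit 4) (nat_lit 1) (nat_lit 4) (nat_lit 309) (nat_lit 223) (nat_lit 188)) (XT.lf (nat_lit 0) (nat_lit 136888415577) (nat_lit 152) (nat_lit 75207733610) (nat_lit 0) (nat_lit 132479408456) (nat_lit 1) (nat_lit 5) (nat_lit 3) (nat_lit 4) (nat_lit 1) (nat_lit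 4) (nat_lit 310) (nat_lit 223) (nat_lit 187))))) (XT.nd (nat_lit 234) (nat_lit 0) (nat_lit 0) (XT.nd (nat_lit 78) (nat_lit 0) (nat_lit 0) (XT.lf (nat_lit 0) (nat_lit 148669326245) (nat_lit 152) (nat_lit 79131663988) (nat_lit 0) (nat_lit 144238499952) (nat_lit 1) (nat_lit 5) (nat_lit 3) (nat_lit 4) (nat_lit 1) (nat_lit 4) (nat_lit 311) (nat_lit 223) (nat_lit 186)) (XT.nd (nat_lit 78) (nat_lit 0) (nat_lit 0) (XT.lf (nat_lit 0) (nat_lit 161383093919) (nat_lit 152) (nat_lit 83386192811) (nat_lit 0) (nat_lit 156932064689) (nat_lit 1) (nat_lit 5) (nat_lit 3) (nat_lit 4) (nat_lit 1) (nat_lit 4) (nat_lit 312) (nat_lit 223) (nat_lit 185)) (XT.lf (nat_lit 0) (nat_lit 175105059447) (nat_lit 152) (nat_lit 87996532101) (nat_lit 0) (nat_lit 170635323793) (nat_lit 1) (nat_lit 5) (nat_lit 3) (nat_lit 4) (nat_lit 1) (nat_lit 4) (nat_lit 313) (nat_lit 223) (nat_lit 184)))) (XT.nd (nat_lit 156) (nat_lit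 0) (nat_lit 0) (XT.nd (nat_lit 78) (nat_lit 0) (nat_lit 0) (XT.lf (nat_lit 0) (nat_lit 189916538179) (nat_lit 152) (nat_lit 92990002387) (nat_lit 0) (nat_lit 185429481763) (nat_lit 1) (nat_lit 5) (nat_lit 3) (nat_lit 4) (nat_lit 1) (nat_lit 4) (nat_lit 314) (nat_lit 223) (nat_lit 183)) (XT.lf (nat_lit 0) (nat_lit 205905301841) (nat_lit 152) (nat_lit 98396194605) (nat_lit 0) (nat_lit 201402207682) (nat_lit 1) (nat_lit 5) (nat_lit 3) (nat_lit 4) (nat_lit 1) (nat_lit 4) (nat_lit 315) (nat_lit 223) (nat_lit 182))) (XT.nd (nat_lit 78) (nat_lit 0) (nat_lit 0) (XT.lf (nat_lit 0) (nat_lit 223166098662) (nat_lit 152) (nat_lit 104247145448) (nat_lit 0) (nat_lit 218648154741) (nat_lit 1) (nat_lit 5) (nat_lit 3) (nat_lit 4) (nat_lit 1) (nat_lit 4) (nat_lit 316) (nat_lit 223) (nat_lit 181)) (XT.lf (nat_lit 0) (nat_lit 241801214846) (nat_lit 152) (nat_lit 110577527219) (nat_lit 0) (nat_lit 237269521145)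 (nat_lit 1) (nat_lit 5) (nat_lit 3) (nat_lit 4) (nat_lit 1) (nat_lit 4) (nat_lit 317) (nat_lit 223) (nat_lit 180)))))) (XT.nd (nat_lit 546) (nat_lit 0) (nat_lit 0) (XT.nd (nat_lit 234) (nat_lit 0) (nat_lit 0) (XT.nd (nat_lit 78) (nat_lit 0) (nat_lit 0) (XT.lf (nat_lit 0) (nat_lit 261921080711) (nat_lit 152) (nat_lit 117424853291) (nat_lit 0) (nat_lit 257376655732) (nat_lit 1) (nat_lit 5) (nat_lit 3) (nat_lit 4) (nat_lit 1) (nat_lit 4) (nat_lit 318) (nat_lit 223) (nat_lit 179)) (XT.nd (nat_lit 78) (nat_lit 0) (nat_lit 0) (XT.lf (nat_lit 0) (nat_lit 283644925090) (nat_lit 152) (nat_lit 124829700410) (nat_lit 0) (nat_lit 279088711892) (nat_lit 1) (nat_lit 5) (nat_lit 3) (nat_lit 4) (nat_lit 1) (nat_lit 4) (nat_lit 319) (nat_lit 223) (nat_lit 178)) (XT.lf (nat_lit 0) (nat_lit 307101481878) (nat_lit 152) (nat_lit 132835949153) (nat_lit 0) (nat_lit 302534353661) (nat_lit 1) (nat_lit 5)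 (nat_lit 3) (nat_lit 4) (nat_lit 1) (nat_lit 4) (nat_lit 320) (nat_lit 223) (nat_lit 177)))) (XT.nd (nat_lit 156) (nat_lit 0) (nat_lit 0) (XT.nd (nat_lit 78) (nat_lit 0) (nat_lit 0) (XT.lf (nat_lit 0) (nat_lit 332429752892) (nat_lit 152) (nat_lit 141491043956) (nat_lit 0) (nat_lit 327852518177) (nat_lit 1) (nat_lit 5) (nat_lit 3) (nat_lit 4) (nat_lit 1) (nat_lit 4) (nat_lit 321) (nat_lit 223) (nat_lit 176)) (XT.lf (nat_lit 0) (nat_lit 359779831590) (nat_lit 152) (nat_lit 150846274271) (nat_lit 0) (nat_lit 355193239006) (nat_lit 1) (nat_lit 5) (nat_lit 3) (nat_lit 4) (nat_lit 1) (nat_lit 4) (nat_lit 322) (nat_lit 223) (nat_lit 175))) (XT.nd (nat_lit 78) (nat_lit 0) (nat_lit 0) (XT.lf (nat_lit 0) (nat_lit 389313792512) (nat_lit 152) (nat_lit 160957078498) (nat_lit 0) (nat_lit 384718535234) (nat_lit 1) (nat_lit 5) (nat_lit 3) (nat_lit 4) (nat_lit 1) (nat_lit 4) (nat_lit 323) (nat_lit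 223) (nat_lit 174)) (XT.lf (nat_lit 0) (nat_lit 421206651723) (nat_lit 152) (nat_lit 171883372515) (nat_lit 0) (nat_lit 416603371581) (nat_lit 1) (nat_lit 5) (nat_lit 3) (nat_lit 4) (nat_lit 1) (nat_lit 4) (nat_lit 324) (nat_lit 223) (nat_lit 173))))) (XT.nd (nat_lit 234) (nat_lit 0) (nat_lit 0) (XT.nd (nat_lit 78) (nat_lit 0) (nat_lit 0) (XT.lf (nat_lit 0) (nat_lit 455647403945) (nat_lit 152) (nat_lit 183689904731) (nat_lit 0) (nat_lit 451036695225) (nat_lit 1) (nat_lit 5) (nat_lit 3) (nat_lit 4) (nat_lit 1) (nat_lit 4) (nat_lit 325) (nat_lit 223) (nat_lit 172)) (XT.nd (nat_lit 78) (nat_lit 0) (nat_lit 0) (XT.lf (nat_lit 0) (nat_lit 492840142523) (nat_lit 152) (nat_lit 196446639780) (nat_lit 0) (nat_lit 488222555490) (nat_lit 1) (nat_lit 5) (nat_lit 3) (nat_lit 4) (nat_lit 1) (nat_lit 4) (nat_lit 326) (nat_lit 223) (nat_lit 171)) (XT.lf (nat_lit 0) (nat_lit 533005268872) (nat_lit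 152) (nat_lit 210229173131) (nat_lit 0) (nat_lit 528381313030) (nat_lit 1) (nat_lit 5) (nat_lit 3) (nat_lit 4) (nat_lit 1) (nat_lit 4) (nat_lit 327) (nat_lit 223) (nat_lit 170)))) (XT.nd (nat_lit 156) (nat_lit 0) (nat_lit 0) (XT.nd (nat_lit 78) (nat_lit 0) (nat_lit 0) (XT.lf (nat_lit 0) (nat_lit 576380798555) (nat_lit 152) (nat_lit 225119179055) (nat_lit 0) (nat_lit 571750945669) (nat_lit 1) (nat_lit 5) (nat_lit 3) (nat_lit 4) (nat_lit 1) (nat_lit 4) (nat_lit 328) (nat_lit 223) (nat_lit 169)) (XT.lf (nat_lit 0) (nat_lit 623223771748) (nat_lit 152) (nat_lit 241204894624) (nat_lit 0) (nat_lit 618588458635) (nat_lit 1) (nat_lit 5) (nat_lit 3) (nat_lit 4) (nat_lit 1) (nat_lit 4) (nat_lit 329) (nat_lit 223) (nat_lit 168))) (XT.nd (nat_lit 78) (nat_lit 0) (nat_lit 0) (XT.lf (nat_lit 0) (nat_lit 673811776441) (nat_lit 152) (nat_lit 258581642597) (nat_lit 0) (nat_lit 669171407562) (nat_lit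 1) (nat_lit 5) (nat_lit 3) (nat_lit 4) (nat_lit 1) (nat_lit 4) (nat_lit 330) (nat_lit 223) (nat_lit 167)) (XT.lf (nat_lit 0) (nat_lit 728444593401) (nat_lit 152) (nat_lit 277352396295) (nat_lit 0) (nat_lit 723799543258) (nat_lit 1) (nat_lit 5) (nat_lit 3) (nat_lit 4) (nat_lit 1) (nat_lit 4) (nat_lit 331) (nat_lit 223) (nat_lit 166))))))) (XT.nd (nat_lit 1014) (nat_lit 0) (nat_lit 0) (XT.nd (nat_lit 468) (nat_lit 0) (nat_lit 0) (XT.nd (nat_lit 234) (nat_lit 0) (nat_lit 0) (XT.nd (nat_lit 78) (nat_lit 0) (nat_lit 0) (XT.lf (nat_lit 0) (nat_lit 787445972656) (nat_lit 152) (nat_lit 297628389814) (nat_lit 0) (nat_lit 782796588009) (nat_lit 1) (nat_lit 5) (nat_lit 3) (nat_lit 4) (nat_lit 1) (nat_lit 4) (nat_lit 332) (nat_lit 223) (nat_lit 165)) (XT.nd (nat_lit 78) (nat_lit 0) (nat_lit 0) (XT.lf (nat_lit 0) (nat_lit 851165552008) (nat_lit 152) (nat_lit 319529777190) (nat_lit 0) (nat_lit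 846512153931) (nat_lit 1) (nat_lit 5) (nat_lit 3) (nat_lit 4) (nat_lit 1) (nat_lit 4) (nat_lit 333) (nat_lit 223) (nat_lit 164)) (XT.lf (nat_lit 0) (nat_lit 919980928964) (nat_lit 152) (nat_lit 343186344422) (nat_lit 0) (nat_lit 915323814749) (nat_lit 1) (nat_lit 5) (nat_lit 3) (nat_lit 4) (nat_lit 1) (nat_lit 4) (nat_lit 334) (nat_lit 223) (nat_lit 163)))) (XT.nd (nat_lit 78) (nat_lit 0) (nat_lit 0) (XT.lf (nat_lit 0) (nat_lit 994299898352) (nat_lit 152) (nat_lit 368738278575) (nat_lit 0) (nat_lit 989639343268) (nat_lit 1) (nat_lit 5) (nat_lit 3) (nat_lit 4) (nat_lit 1) (nat_lit 4) (nat_lit 335) (nat_lit 223) (nat_lit 162)) (XT.nd (nat_lit 78) (nat_lit 0) (nat_lit 0) (XT.lf (nat_lit 0) (nat_lit 1074562868878) (nat_lit 152) (nat_lit 396336998518) (nat_lit 0) (nat_lit 1069899127804) (nat_lit 1) (nat_lit 5) (nat_lit 3) (nat_lit 4) (nat_lit 1) (nat_lit 4) (nat_lit 336) (nat_lit 223)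 (nat_lit 161)) (XT.lf (nat_lit 0) (nat_lit 1161245472961) (nat_lit 152) (nat_lit 426146052222) (nat_lit 0) (nat_lit 1156578781896) (nat_lit 1) (nat_lit 5) (nat_lit 3) (nat_lit 4) (nat_lit 1) (nat_lit 4) (nat_lit 337) (nat_lit 223) (nat_lit 160))))) (XT.nd (nat_lit 234) (nat_lit 0) (nat_lit 0) (XT.nd (nat_lit 78) (nat_lit 0) (nat_lit 0) (XT.lf (nat_lit 0) (nat_lit 1254861385290) (nat_lit 152) (nat_lit 458342085931) (nat_lit 0) (nat_lit 1250191962753) (nat_lit 1) (nat_lit 5) (nat_lit 3) (nat_lit 4) (nat_lit 1) (nat_lit 4) (nat_lit 338) (nat_lit 223) (nat_lit 159)) (XT.nd (nat_lit 78) (nat_lit 0) (nat_lit 0) (XT.lf (nat_lit 0) (nat_lit 1355965366829) (nat_lit 152) (nat_lit 493115890954) (nat_lit 0) (nat_lit 1351293415151) (nat_lit 1) (nat_lit 5) (nat_lit 3) (nat_lit 4) (nat_lit 1) (nat_lit 4) (nat_lit 339) (nat_lit 223) (nat_lit 158)) (XT.lf (nat_lit 0) (nat_lit 1465156552283) (nat_lit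 152) (nat_lit 530673534286) (nat_lit 0) (nat_lit 1460482258807) (nat_lit 1) (nat_lit 5) (nat_lit 3) (nat_lit 4) (nat_lit 1) (nat_lit 4) (nat_lit 340) (nat_lit 223) (nat_lit 157)))) (XT.nd (nat_lit 156) (nat_lit 0) (nat_lit 0) (XT.nd (nat_lit 78) (nat_lit 0) (nat_lit 0) (XT.lf (nat_lit 0) (nat_lit 1583082000528) (nat_lit 152) (nat_lit 571237579738) (nat_lit 0) (nat_lit 1578405538721) (nat_lit 1) (nat_lit 5) (nat_lit 3) (nat_lit 4) (nat_lit 1) (nat_lit 4) (nat_lit 341) (nat_lit 223) (nat_lit 156)) (XT.lf (nat_lit 0) (nat_lit 1710440529036) (nat_lit 152) (nat_lit 615048406839) (nat_lit 0) (nat_lit 1705762059514) (nat_lit 1) (nat_lit 5) (nat_lit 3) (nat_lit 4) (nat_lit 1) (nat_lit 4) (nat_lit 342) (nat_lit 223) (nat_lit 155))) (XT.nd (nat_lit 78) (nat_lit 0) (nat_lit 0) (XT.lf (nat_lit 0) (nat_lit 1847986855012) (nat_lit 152) (nat_lit 662365635305) (nat_lit 0) (nat_lit 1843306526496)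 (nat_lit 1) (nat_lit 5) (nat_lit 3) (nat_lit 4) (nat_lit 1) (nat_lit 4) (nat_lit 343) (nat_lit 223) (nat_lit 154)) (XT.lf (nat_lit 0) (nat_lit 1996536067795) (nat_lit 152) (nat_lit 713469663528) (nat_lit 0) (nat_lit 1991854017988) (nat_lit 1) (nat_lit 5) (nat_lit 3) (nat_lit 4) (nat_lit 1) (nat_lit 4) (nat_lit 344) (nat_lit 223) (nat_lit 153)))))) (XT.nd (nat_lit 32292) (nat_lit 0) (nat_lit 0) (XT.nd (nat_lit 31980) (nat_lit 0) (nat_lit 152) (XT.nd (nat_lit 31824) (nat_lit 0) (nat_lit 228) (XT.lf (nat_lit 0) (nat_lit 2156968459018) (nat_lit 152) (nat_lit 768663330192) (nat_lit 0) (nat_lit 2152284815423) (nat_lit 1) (nat_lit 5) (nat_lit 3) (nat_lit 4) (nat_lit 1) (nat_lit 4) (nat_lit 345) (nat_lit 223) (nat_lit 152)) (XT.nd (nat_lit 78) (nat_lit 0) (nat_lit 0) (XT.lf (nat_lit 0) (nat_lit 2659098450) (nat_lit 152) (nat_lit 5056566600) (nat_lit 0) (nat_lit 2659098450) (nat_lit 4) (nat_lit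 5) (nat_lit 6) (nat_lit 4) (nat_lit 4) (nat_lit 4) (nat_lit 272) (nat_lit 224) (nat_lit 224)) (XT.lf (nat_lit 0) (nat_lit 8291166681) (nat_lit 152) (nat_lit 5977508360) (nat_lit 0) (nat_lit 7884778583) (nat_lit 4) (nat_lit 5) (nat_lit 6) (nat_lit 4) (nat_lit 4) (nat_lit 4) (nat_lit 273) (nat_lit 224) (nat_lit 223)))) (XT.nd (nat_lit 156) (nat_lit 0) (nat_lit 0) (XT.nd (nat_lit 78) (nat_lit 76) (nat_lit 0) (XT.lf (nat_lit 0) (nat_lit 11356363650) (nat_lit 152) (nat_lit 1752124134) (nat_lit 0) (nat_lit 10573690276) (nat_lit 4) (nat_lit 5) (nat_lit 6) (nat_lit 4) (nat_lit 4) (nat_lit 4) (nat_lit 274) (nat_lit 224) (nat_lit 222)) (XT.lf (nat_lit 0) (nat_lit 2724341382) (nat_lit 76) (nat_lit 11873131030) (nat_lit 76) (nat_lit 10742045364) (nat_lit 3) (nat_lit 4) (nat_lit 4) (nat_lit 5) (nat_lit 4) (nat_lit 4) (nat_lit 275) (nat_lit 224) (nat_lit 221))) (XT.nd (nat_lit 78) (nat_lit 0) (nat_lit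 0) (XT.lf (nat_lit 0) (nat_lit 7440988399) (nat_lit 76) (nat_lit 10574717394) (nat_lit 76) (nat_lit 9121027754) (nat_lit 3) (nat_lit 4) (nat_lit 4) (nat_lit 5) (nat_lit 4) (nat_lit 4) (nat_lit 276) (nat_lit 224) (nat_lit 220)) (XT.lf (nat_lit 0) (nat_lit 12333503663) (nat_lit 76) (nat_lit 9253458754) (nat_lit 76) (nat_lit 7501061730) (nat_lit 3) (nat_lit 4) (nat_lit 4) (nat_lit 5) (nat_lit 4) (nat_lit 4) (nat_lit 277) (nat_lit 224) (nat_lit 219))))) (XT.nd (nat_lit 234) (nat_lit 152) (nat_lit 0) (XT.nd (nat_lit 78) (nat_lit 0) (nat_lit 0) (XT.lf (nat_lit 0) (nat_lit 17430879860) (nat_lit 76) (nat_lit 7901525426) (nat_lit 76) (nat_lit 5872547491) (nat_lit 3) (nat_lit 4) (nat_lit 4) (nat_lit 5) (nat_lit 4) (nat_lit 4) (nat_lit 278) (nat_lit 224) (nat_lit 218)) (XT.nd (nat_lit 78) (nat_lit 0) (nat_lit 0) (XT.lf (nat_lit 0) (nat_lit 22763323662) (nat_lit 76) (nat_lit 6510905956) (nat_lit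 76) (nat_lit 4225834585) (nat_lit 3) (nat_lit 4) (nat_lit 4) (nat_lit 5) (nat_lit 4) (nat_lit 4) (nat_lit 279) (nat_lit 224) (nat_lit 217)) (XT.lf (nat_lit 0) (nat_lit 28362434735) (nat_lit 76) (nat_lit 5073359634) (nat_lit 76) (nat_lit 2551164712) (nat_lit 3) (nat_lit 4) (nat_lit 4) (nat_lit 5) (nat_lit 4) (nat_lit 4) (nat_lit 280) (nat_lit 224) (nat_lit 216)))) (XT.nd (nat_lit 156) (nat_lit 76) (nat_lit 0) (XT.nd (nat_lit 78) (nat_lit 76) (nat_lit 0) (XT.lf (nat_lit 0) (nat_lit 34261392999) (nat_lit 76) (nat_lit 3580367668) (nat_lit 76) (nat_lit 838613902) (nat_lit 3) (nat_lit 4) (nat_lit 4) (nat_lit 5) (nat_lit 4) (nat_lit 4) (nat_lit 281) (nat_lit 224) (nat_lit 215)) (XT.lf (nat_lit 0) (nat_lit 875845805) (nat_lit 152) (nat_lit 1123289716) (nat_lit 76) (nat_lit 39595362260) (nat_lit 2) (nat_lit 5) (nat_lit 4) (nat_lit 5) (nat_lit 3) (nat_lit 4) (nat_lit 282) (nat_lit 224) (nat_lit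 214))) (XT.nd (nat_lit 78) (nat_lit 0) (nat_lit 0) (XT.lf (nat_lit 0) (nat_lit 2403020036) (nat_lit 76) (nat_lit 258665227) (nat_lit 152) (nat_lit 42080347319) (nat_lit 1) (nat_lit 5) (nat_lit 2) (nat_lit 5) (nat_lit 3) (nat_lit 4) (nat_lit 283) (nat_lit 224) (nat_lit 213)) (XT.lf (nat_lit 0) (nat_lit 4584076492) (nat_lit 152) (nat_lit 42036652878) (nat_lit 0) (nat_lit 1521504082) (nat_lit 1) (nat_lit 5) (nat_lit 3) (nat_lit 4) (nat_lit 1) (nat_lit 4) (nat_lit 284) (nat_lit 224) (nat_lit 212))))))))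
noncomputable def xc26 : XT := (XT.nd (nat_lit 2106) (nat_lit 0) (nat_lit 0) (XT.nd (nat_lit 1014) (nat_lit 0) (nat_lit 0) (XT.nd (nat_lit 468) (nat_lit 0) (nat_lit 0) (XT.nd (nat_lit 234) (nat_lit 0) (nat_lit 0) (XT.nd (nat_lit 78) (nat_lit 0) (nat_lit 0) (XT.lf (nat_lit 0) (nat_lit 6595855402) (nat_lit 152) (nat_lit 41840223876) (nat_lit 0) (nat_lit 3383854932) (nat_lit 1) (nat_lit 5) (nat_lit 3) (nat_lit 4) (nat_lit 1) (nat_lit 4) (nat_lit 285) (nat_lit 224) (nat_lit 211)) (XT.nd (nat_lit 78) (nat_lit 0) (nat_lit 0) (XT.lf (nat_lit 0) (nat_lit 8702722744) (nat_lit 152) (nat_lit 41742340612) (nat_lit 0) (nat_lit 5352362958) (nat_lit 1) (nat_lit 5) (nat_lit 3) (nat_lit 4) (nat_lit 1) (nat_lit 4) (nat_lit 286) (nat_lit 224) (nat_lit 210)) (XT.lf (nat_lit 0) (nat_lit 10917163655) (nat_lit 152) (nat_lit 41742423037) (nat_lit 0) (nat_lit 7438693393) (nat_lit 1) (nat_lit 5) (nat_lit 3)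 (nat_lit 4) (nat_lit 1) (nat_lit 4) (nat_lit 287) (nat_lit 224) (nat_lit 209)))) (XT.nd (nat_lit 78) (nat_lit 0) (nat_lit 0) (XT.lf (nat_lit 0) (nat_lit 13252300750) (nat_lit 152) (nat_lit 41840471639) (nat_lit 0) (nat_lit 9655209676) (nat_lit 1) (nat_lit 5) (nat_lit 3) (nat_lit 4) (nat_lit 1) (nat_lit 4) (nat_lit 288) (nat_lit 224) (nat_lit 208)) (XT.nd (nat_lit 78) (nat_lit 0) (nat_lit 0) (XT.lf (nat_lit 0) (nat_lit 15721971878) (nat_lit 152) (nat_lit 42037067448) (nat_lit 0) (nat_lit 12015046719) (nat_lit 1) (nat_lit 5) (nat_lit 3) (nat_lit 4) (nat_lit 1) (nat_lit 4) (nat_lit 289) (nat_lit 224) (nat_lit 207)) (XT.lf (nat_lit 0) (nat_lit 18340812126) (nat_lit 152) (nat_lit 42333375475) (nat_lit 0) (nat_lit 14532188740) (nat_lit 1) (nat_lit 5) (nat_lit 3) (nat_lit 4) (nat_lit 1) (nat_lit 4) (nat_lit 290) (nat_lit 224) (nat_lit 206))))) (XT.nd (nat_lit 234) (nat_lit 0) (nat_lit 0)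 (XT.nd (nat_lit 78) (nat_lit 0) (nat_lit 0) (XT.lf (nat_lit 0) (nat_lit 21124340549) (nat_lit 152) (nat_lit 42731151621) (nat_lit 0) (nat_lit 17221552138) (nat_lit 1) (nat_lit 5) (nat_lit 3) (nat_lit 4) (nat_lit 1) (nat_lit 4) (nat_lit 291) (nat_lit 224) (nat_lit 205)) (XT.nd (nat_lit 78) (nat_lit 0) (nat_lit 0) (XT.lf (nat_lit 0) (nat_lit 24089052129) (nat_lit 152) (nat_lit 43232753076) (nat_lit 0) (nat_lit 20099073880) (nat_lit 1) (nat_lit 5) (nat_lit 3) (nat_lit 4) (nat_lit 1) (nat_lit 4) (nat_lit 292) (nat_lit 224) (nat_lit 204)) (XT.lf (nat_lit 0) (nat_lit 27252515527) (nat_lit 152) (nat_lit 43841152293) (nat_lit 0) (nat_lit 23181805947) (nat_lit 1) (nat_lit 5) (nat_lit 3) (nat_lit 4) (nat_lit 1) (nat_lit 4) (nat_lit 293) (nat_lit 224) (nat_lit 203)))) (XT.nd (nat_lit 156) (nat_lit 0) (nat_lit 0) (XT.nd (nat_lit 78) (nat_lit 0) (nat_lit 0) (XT.lf (nat_lit 0) (nat_lit 30633477195)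 (nat_lit 152) (nat_lit 44559954603) (nat_lit 0) (nat_lit 26488016382) (nat_lit 1) (nat_lit 5) (nat_lit 3) (nat_lit 4) (nat_lit 1) (nat_lit 4) (nat_lit 294) (nat_lit 224) (nat_lit 202)) (XT.lf (nat_lit 0) (nat_lit 34251972458) (nat_lit 152) (nat_lit 45393419573) (nat_lit 0) (nat_lit 30037297541) (nat_lit 1) (nat_lit 5) (nat_lit 3) (nat_lit 4) (nat_lit 1) (nat_lit 4) (nat_lit 295) (nat_lit 224) (nat_lit 201))) (XT.nd (nat_lit 78) (nat_lit 0) (nat_lit 0) (XT.lf (nat_lit 0) (nat_lit 38129444254) (nat_lit 152) (nat_lit 46346486256) (nat_lit 0) (nat_lit 33850682203) (nat_lit 1) (nat_lit 5) (nat_lit 3) (nat_lit 4) (nat_lit 1) (nat_lit 4) (nat_lit 296) (nat_lit 224) (nat_lit 200)) (XT.lf (nat_lit 0) (nat_lit 42288870192) (nat_lit 152) (nat_lit 47424802454) (nat_lit 0) (nat_lit 37950768202) (nat_lit 1) (nat_lit 5) (nat_lit 3) (nat_lit 4) (nat_lit 1) (nat_lit 4) (nat_lit 297) (nat_lit 224)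 (nat_lit 199)))))) (XT.nd (nat_lit 546) (nat_lit 0) (nat_lit 0) (XT.nd (nat_lit 234) (nat_lit 0) (nat_lit 0) (XT.nd (nat_lit 78) (nat_lit 0) (nat_lit 0) (XT.lf (nat_lit 0) (nat_lit 46754898722) (nat_lit 152) (nat_lit 48634758189) (nat_lit 0) (nat_lit 42361852345) (nat_lit 1) (nat_lit 5) (nat_lit 3) (nat_lit 4) (nat_lit 1) (nat_lit 4) (nat_lit 298) (nat_lit 224) (nat_lit 198)) (XT.nd (nat_lit 78) (nat_lit 0) (nat_lit 0) (XT.lf (nat_lit 0) (nat_lit 51553995199) (nat_lit 152) (nat_lit 49983523569) (nat_lit 0) (nat_lit 47110074389) (nat_lit 1) (nat_lit 5) (nat_lit 3) (nat_lit 4) (nat_lit 1) (nat_lit 4) (nat_lit 299) (nat_lit 224) (nat_lit 197)) (XT.lf (nat_lit 0) (nat_lit 56714598713) (nat_lit 152) (nat_lit 51479091277) (nat_lit 0) (nat_lit 52223571947) (nat_lit 1) (nat_lit 5) (nat_lit 3) (nat_lit 4) (nat_lit 1) (nat_lit 4) (nat_lit 300) (nat_lit 224) (nat_lit 196)))) (XT.nd (nat_lit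 156) (nat_lit 0) (nat_lit 0) (XT.nd (nat_lit 78) (nat_lit 0) (nat_lit 0) (XT.lf (nat_lit 0) (nat_lit 62267290618) (nat_lit 152) (nat_lit 53130323938) (nat_lit 0) (nat_lit 57732647225) (nat_lit 1) (nat_lit 5) (nat_lit 3) (nat_lit 4) (nat_lit 1) (nat_lit 4) (nat_lit 301) (nat_lit 224) (nat_lit 195)) (XT.lf (nat_lit 0) (nat_lit 68244975755) (nat_lit 152) (nat_lit 54947006634) (nat_lit 0) (nat_lit 63669946597) (nat_lit 1) (nat_lit 5) (nat_lit 3) (nat_lit 4) (nat_lit 1) (nat_lit 4) (nat_lit 302) (nat_lit 224) (nat_lit 194))) (XT.nd (nat_lit 78) (nat_lit 0) (nat_lit 0) (XT.lf (nat_lit 0) (nat_lit 74683077443) (nat_lit 152) (nat_lit 56939904892) (nat_lit 0) (nat_lit 70070654058) (nat_lit 1) (nat_lit 5) (nat_lit 3) (nat_lit 4) (nat_lit 1) (nat_lit 4) (nat_lit 303) (nat_lit 224) (nat_lit 193)) (XT.lf (nat_lit 0) (nat_lit 81619747396) (nat_lit 152) (nat_lit 59120828478) (nat_lit 0) (nat_lit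 76972699726) (nat_lit 1) (nat_lit 5) (nat_lit 3) (nat_lit 4) (nat_lit 1) (nat_lit 4) (nat_lit 304) (nat_lit 224) (nat_lit 192))))) (XT.nd (nat_lit 234) (nat_lit 0) (nat_lit 0) (XT.nd (nat_lit 78) (nat_lit 0) (nat_lit 0) (XT.lf (nat_lit 0) (nat_lit 89096091806) (nat_lit 152) (nat_lit 61502701386) (nat_lit 0) (nat_lit 84416984614) (nat_lit 1) (nat_lit 5) (nat_lit 3) (nat_lit 4) (nat_lit 1) (nat_lit 4) (nat_lit 305) (nat_lit 224) (nat_lit 191)) (XT.nd (nat_lit 78) (nat_lit 0) (nat_lit 0) (XT.lf (nat_lit 0) (nat_lit 97156414936) (nat_lit 152) (nat_lit 64099638417) (nat_lit 0) (nat_lit 92447623002) (nat_lit 1) (nat_lit 5) (nat_lit 3) (nat_lit 4) (nat_lit 1) (nat_lit 4) (nat_lit 306) (nat_lit 224) (nat_lit 190)) (XT.lf (nat_lit 0) (nat_lit 105848481665) (nat_lit 152) (nat_lit 66927028827) (nat_lit 0) (nat_lit 101112203857) (nat_lit 1) (nat_lit 5) (nat_lit 3) (nat_lit 4) (nat_lit 1) (nat_lit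 4) (nat_lit 307) (nat_lit 224) (nat_lit 189)))) (XT.nd (nat_lit 156) (nat_lit 0) (nat_lit 0) (XT.nd (nat_lit 78) (nat_lit 0) (nat_lit 0) (XT.lf (nat_lit 0) (nat_lit 115223800536) (nat_lit 152) (nat_lit 70001627523) (nat_lit 0) (nat_lit 110462072845) (nat_lit 1) (nat_lit 5) (nat_lit 3) (nat_lit 4) (nat_lit 1) (nat_lit 4) (nat_lit 308) (nat_lit 224) (nat_lit 188)) (XT.lf (nat_lit 0) (nat_lit 125337928994) (nat_lit 152) (nat_lit 73341654350) (nat_lit 0) (nat_lit 120552636597) (nat_lit 1) (nat_lit 5) (nat_lit 3) (nat_lit 4) (nat_lit 1) (nat_lit 4) (nat_lit 309) (nat_lit 224) (nat_lit 187))) (XT.nd (nat_lit 78) (nat_lit 0) (nat_lit 0) (XT.lf (nat_lit 0) (nat_lit 136250802614) (nat_lit 152) (nat_lit 76966902058) (nat_lit 0) (nat_lit 131443691046) (nat_lit 1) (nat_lit 5) (nat_lit 3) (nat_lit 4) (nat_lit 1) (nat_lit 4) (nat_lit 310) (nat_lit 224) (nat_lit 186)) (XT.lf (nat_lit 0) (nat_lit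 148027090279) (nat_lit 152) (nat_lit 80898853597) (nat_lit 0) (nat_lit 143199775773) (nat_lit 1) (nat_lit 5) (nat_lit 3) (nat_lit 4) (nat_lit 1) (nat_lit 4) (nat_lit 311) (nat_lit 224) (nat_lit 185))))))) (XT.nd (nat_lit 1014) (nat_lit 0) (nat_lit 0) (XT.nd (nat_lit 468) (nat_lit 0) (nat_lit 0) (XT.nd (nat_lit 234) (nat_lit 0) (nat_lit 0) (XT.nd (nat_lit 78) (nat_lit 0) (nat_lit 0) (XT.lf (nat_lit 0) (nat_lit 160736577395) (nat_lit 152) (nat_lit 85160809420) (nat_lit 0) (nat_lit 155890556466) (nat_lit 1) (nat_lit 5) (nat_lit 3) (nat_lit 4) (nat_lit 1) (nat_lit 4) (nat_lit 312) (nat_lit 224) (nat_lit 184)) (XT.nd (nat_lit 78) (nat_lit 0) (nat_lit 0) (XT.lf (nat_lit 0) (nat_lit 174454579443) (nat_lit 152) (nat_lit 89778025562) (nat_lit 0) (nat_lit 169591237751) (nat_lit 1) (nat_lit 5) (nat_lit 3) (nat_lit 4) (nat_lit 1) (nat_lit 4) (nat_lit 313) (nat_lit 224) (nat_lit 183)) (XT.lf (nat_lit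 0) (nat_lit 189262388287) (nat_lit 152) (nat_lit 94777863305) (nat_lit 0) (nat_lit 184383008852) (nat_lit 1) (nat_lit 5) (nat_lit 3) (nat_lit 4) (nat_lit 1) (nat_lit 4) (nat_lit 314) (nat_lit 224) (nat_lit 182)))) (XT.nd (nat_lit 78) (nat_lit 0) (nat_lit 0) (XT.lf (nat_lit 0) (nat_lit 205247753904) (nat_lit 152) (nat_lit 100189951315) (nat_lit 0) (nat_lit 200353524707) (nat_lit 1) (nat_lit 5) (nat_lit 3) (nat_lit 4) (nat_lit 1) (nat_lit 4) (nat_lit 315) (nat_lit 224) (nat_lit 181)) (XT.nd (nat_lit 78) (nat_lit 0) (nat_lit 0) (XT.lf (nat_lit 0) (nat_lit 222505404387) (nat_lit 152) (nat_lit 106046361226) (nat_lit 0) (nat_lit 217597425410) (nat_lit 1) (nat_lit 5) (nat_lit 3) (nat_lit 4) (nat_lit 1) (nat_lit 4) (nat_lit 316) (nat_lit 224) (nat_lit 180)) (XT.lf (nat_lit 0) (nat_lit 241137607295) (nat_lit 152) (nat_lit 112381797688) (nat_lit 0) (nat_lit 236216897040) (nat_lit 1) (nat_lit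 5) (nat_lit 3) (nat_lit 4) (nat_lit 1) (nat_lit 4) (nat_lit 317) (nat_lit 224) (nat_lit 179))))) (XT.nd (nat_lit 234) (nat_lit 0) (nat_lit 0) (XT.nd (nat_lit 78) (nat_lit 0) (nat_lit 0) (XT.lf (nat_lit 0) (nat_lit 261254775681) (nat_lit 152) (nat_lit 119233804030) (nat_lit 0) (nat_lit 256322277207) (nat_lit 1) (nat_lit 5) (nat_lit 3) (nat_lit 4) (nat_lit 1) (nat_lit 4) (nat_lit 318) (nat_lit 224) (nat_lit 178)) (XT.nd (nat_lit 78) (nat_lit 0) (nat_lit 0) (XT.lf (nat_lit 0) (nat_lit 282976122396) (nat_lit 152) (nat_lit 126642984733) (nat_lit 0) (nat_lit 278032708904) (nat_lit 1) (nat_lit 5) (nat_lit 3) (nat_lit 4) (nat_lit 1) (nat_lit 4) (nat_lit 319) (nat_lit 224) (nat_lit 177)) (XT.lf (nat_lit 0) (nat_lit 306430366532) (nat_lit 152) (nat_lit 134653246054) (nat_lit 0) (nat_lit 301476846541) (nat_lit 1) (nat_lit 5) (nat_lit 3) (nat_lit 4) (nat_lit 1) (nat_lit 4) (nat_lit 320) (nat_lit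 224) (nat_lit 176)))) (XT.nd (nat_lit 156) (nat_lit 0) (nat_lit 0) (XT.nd (nat_lit 78) (nat_lit 0) (nat_lit 0) (XT.lf (nat_lit 0) (nat_lit 331756496201) (nat_lit 152) (nat_lit 143312056206) (nat_lit 0) (nat_lit 326793618341) (nat_lit 1) (nat_lit 5) (nat_lit 3) (nat_lit 4) (nat_lit 1) (nat_lit 4) (nat_lit 321) (nat_lit 224) (nat_lit 175)) (XT.lf (nat_lit 0) (nat_lit 359104592172) (nat_lit 152) (nat_lit 152670726659) (nat_lit 0) (nat_lit 354133049619) (nat_lit 1) (nat_lit 5) (nat_lit 3) (nat_lit 4) (nat_lit 1) (nat_lit 4) (nat_lit 322) (nat_lit 224) (nat_lit 174))) (XT.nd (nat_lit 78) (nat_lit 0) (nat_lit 0) (XT.lf (nat_lit 0) (nat_lit 388636717236) (nat_lit 152) (nat_lit 162784716199) (nat_lit 0) (nat_lit 383657151818) (nat_lit 1) (nat_lit 5) (nat_lit 3) (nat_lit 4) (nat_lit 1) (nat_lit 4) (nat_lit 323) (nat_lit 224) (nat_lit 173)) (XT.lf (nat_lit 0) (nat_lit 420527876579) (nat_lit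 152) (nat_lit 173713959580) (nat_lit 0) (nat_lit 415540882583) (nat_lit 1) (nat_lit 5) (nat_lit 3) (nat_lit 4) (nat_lit 1) (nat_lit 4) (nat_lit 324) (nat_lit 224) (nat_lit 172)))))) (XT.nd (nat_lit 546) (nat_lit 0) (nat_lit 0) (XT.nd (nat_lit 234) (nat_lit 0) (nat_lit 0) (XT.nd (nat_lit 78) (nat_lit 0) (nat_lit 0) (XT.lf (nat_lit 0) (nat_lit 454967054848) (nat_lit 152) (nat_lit 185523222689) (nat_lit 0) (nat_lit 449973182539) (nat_lit 1) (nat_lit 5) (nat_lit 3) (nat_lit 4) (nat_lit 1) (nat_lit 4) (nat_lit 325) (nat_lit 224) (nat_lit 171)) (XT.nd (nat_lit 78) (nat_lit 0) (nat_lit 0) (XT.lf (nat_lit 0) (nat_lit 492158336063) (nat_lit 152) (nat_lit 198282486343) (nat_lit 0) (nat_lit 487158094946) (nat_lit 1) (nat_lit 5) (nat_lit 3) (nat_lit 4) (nat_lit 1) (nat_lit 4) (nat_lit 326) (nat_lit 224) (nat_lit 170)) (XT.lf (nat_lit 0) (nat_lit 532322113001) (nat_lit 152) (nat_lit 212067360995)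 (nat_lit 0) (nat_lit 527315974839) (nat_lit 1) (nat_lit 5) (nat_lit 3) (nat_lit 4) (nat_lit 1) (nat_lit 4) (nat_lit 327) (nat_lit 224) (nat_lit 169)))) (XT.nd (nat_lit 156) (nat_lit 0) (nat_lit 0) (XT.nd (nat_lit 78) (nat_lit 0) (nat_lit 0) (XT.lf (nat_lit 0) (nat_lit 575696393230) (nat_lit 152) (nat_lit 226959534789) (nat_lit 0) (nat_lit 570684794841) (nat_lit 1) (nat_lit 5) (nat_lit 3) (nat_lit 4) (nat_lit 1) (nat_lit 4) (nat_lit 328) (nat_lit 224) (nat_lit 168)) (XT.lf (nat_lit 0) (nat_lit 622538209522) (nat_lit 152) (nat_lit 243047257646) (nat_lit 0) (nat_lit 617521555367) (nat_lit 1) (nat_lit 5) (nat_lit 3) (nat_lit 4) (nat_lit 1) (nat_lit 4) (nat_lit 329) (nat_lit 224) (nat_lit 167))) (XT.nd (nat_lit 78) (nat_lit 0) (nat_lit 0) (XT.lf (nat_lit 0) (nat_lit 673125143009) (nat_lit 152) (nat_lit 260425864218) (nat_lit 0) (nat_lit 668103807590) (nat_lit 1) (nat_lit 5) (nat_lit 3)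 (nat_lit 4) (nat_lit 1) (nat_lit 4) (nat_lit 330) (nat_lit 224) (nat_lit 166)) (XT.lf (nat_lit 0) (nat_lit 727756968112) (nat_lit 152) (nat_lit 279198338841) (nat_lit 0) (nat_lit 722731298189) (nat_lit 1) (nat_lit 5) (nat_lit 3) (nat_lit 4) (nat_lit 1) (nat_lit 4) (nat_lit 331) (nat_lit 224) (nat_lit 165))))) (XT.nd (nat_lit 234) (nat_lit 0) (nat_lit 0) (XT.nd (nat_lit 78) (nat_lit 0) (nat_lit 0) (XT.lf (nat_lit 0) (nat_lit 786757428981) (nat_lit 152) (nat_lit 299475925810) (nat_lit 0) (nat_lit 781727745628) (nat_lit 1) (nat_lit 5) (nat_lit 3) (nat_lit 4) (nat_lit 1) (nat_lit 4) (nat_lit 332) (nat_lit 224) (nat_lit 164)) (XT.nd (nat_lit 78) (nat_lit 0) (nat_lit 0) (XT.lf (nat_lit 0) (nat_lit 850476157975) (nat_lit 152) (nat_lit 321378788602) (nat_lit 0) (nat_lit 845442758484) (nat_lit 1) (nat_lit 5) (nat_lit 3) (nat_lit 4) (nat_lit 1) (nat_lit 4) (nat_lit 333) (nat_lit 224) (nat_lit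 163)) (XT.lf (nat_lit 0) (nat_lit 919290747564) (nat_lit 152) (nat_lit 345036721961) (nat_lit 0) (nat_lit 914253907204) (nat_lit 1) (nat_lit 5) (nat_lit 3) (nat_lit 4) (nat_lit 1) (nat_lit 4) (nat_lit 334) (nat_lit 224) (nat_lit 162)))) (XT.nd (nat_lit 156) (nat_lit 0) (nat_lit 0) (XT.nd (nat_lit 78) (nat_lit 0) (nat_lit 0) (XT.lf (nat_lit 0) (nat_lit 993608987907) (nat_lit 152) (nat_lit 370589921046) (nat_lit 0) (nat_lit 988568961557) (nat_lit 1) (nat_lit 5) (nat_lit 3) (nat_lit 4) (nat_lit 1) (nat_lit 4) (nat_lit 335) (nat_lit 224) (nat_lit 161)) (XT.lf (nat_lit 0) (nat_lit 1073871283392) (nat_lit 152) (nat_lit 398189812222) (nat_lit 0) (nat_lit 1068828307051) (nat_lit 1) (nat_lit 5) (nat_lit 3) (nat_lit 4) (nat_lit 1) (nat_lit 4) (nat_lit 336) (nat_lit 224) (nat_lit 160))) (XT.nd (nat_lit 78) (nat_lit 0) (nat_lit 0) (XT.lf (nat_lit 0) (nat_lit 1160553262436) (nat_lit 152) (nat_lit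 427999950401) (nat_lit 0) (nat_lit 1155507554623) (nat_lit 1) (nat_lit 5) (nat_lit 3) (nat_lit 4) (nat_lit 1) (nat_lit 4) (nat_lit 337) (nat_lit 224) (nat_lit 159)) (XT.lf (nat_lit 0) (nat_lit 1254168596027) (nat_lit 152) (nat_lit 460196988253) (nat_lit 0) (nat_lit 1249120359072) (nat_lit 1) (nat_lit 5) (nat_lit 3) (nat_lit 4) (nat_lit 1) (nat_lit 4) (nat_lit 338) (nat_lit 224) (nat_lit 158))))))))
noncomputable def xc27 : XT := (XT.nd (nat_lit 33696) (nat_lit 0) (nat_lit 0) (XT.nd (nat_lit 32604) (nat_lit 0) (nat_lit 0) (XT.nd (nat_lit 468) (nat_lit 0) (nat_lit 0) (XT.nd (nat_lit 234) (nat_lit 0) (nat_lit 0) (XT.nd (nat_lit 78) (nat_lit 0) (nat_lit 0) (XT.lf (nat_lit 0) (nat_lit 1355272041696) (nat_lit 152) (nat_lit 494971723039) (nat_lit 0) (nat_lit 1350221462944) (nat_lit 1) (nat_lit 5) (nat_lit 3) (nat_lit 4) (nat_lit 1) (nat_lit 4) (nat_lit 339) (nat_lit 224) (nat_lit 157)) (XT.nd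 (nat_lit 78) (nat_lit 0) (nat_lit 0) (XT.lf (nat_lit 0) (nat_lit 1464462730975) (nat_lit 152) (nat_lit 532530227262) (nat_lit 0) (nat_lit 1459409983891) (nat_lit 1) (nat_lit 5) (nat_lit 3) (nat_lit 4) (nat_lit 1) (nat_lit 4) (nat_lit 340) (nat_lit 224) (nat_lit 156)) (XT.lf (nat_lit 0) (nat_lit 1582387719798) (nat_lit 152) (nat_lit 573095069836) (nat_lit 0) (nat_lit 1577332965001) (nat_lit 1) (nat_lit 5) (nat_lit 3) (nat_lit 4) (nat_lit 1) (nat_lit 4) (nat_lit 341) (nat_lit 224) (nat_lit 155)))) (XT.nd (nat_lit 78) (nat_lit 0) (nat_lit 0) (XT.lf (nat_lit 0) (nat_lit 1709745822915) (nat_lit 152) (nat_lit 616906635013) (nat_lit 0) (nat_lit 1704689209123) (nat_lit 1) (nat_lit 5) (nat_lit 3) (nat_lit 4) (nat_lit 1) (nat_lit 4) (nat_lit 342) (nat_lit 224) (nat_lit 154)) (XT.nd (nat_lit 78) (nat_lit 0) (nat_lit 0) (XT.lf (nat_lit 0) (nat_lit 1847291755011) (nat_lit 152) (nat_lit 664224546882)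 (nat_lit 0) (nat_lit 1842233419928) (nat_lit 1) (nat_lit 5) (nat_lit 3) (nat_lit 4) (nat_lit 1) (nat_lit 4) (nat_lit 343) (nat_lit 224) (nat_lit 153)) (XT.lf (nat_lit 0) (nat_lit 1995840603091) (nat_lit 152) (nat_lit 715329207885) (nat_lit 0) (nat_lit 1990780674220) (nat_lit 1) (nat_lit 5) (nat_lit 3) (nat_lit 4) (nat_lit 1) (nat_lit 4) (nat_lit 344) (nat_lit 224) (nat_lit 152))))) (XT.nd (nat_lit 31824) (nat_lit 0) (nat_lit 152) (XT.nd (nat_lit 31668) (nat_lit 0) (nat_lit 228) (XT.lf (nat_lit 0) (nat_lit 2156272656625) (nat_lit 152) (nat_lit 770523460457) (nat_lit 0) (nat_lit 2151211252024) (nat_lit 1) (nat_lit 5) (nat_lit 3) (nat_lit 4) (nat_lit 1) (nat_lit 4) (nat_lit 345) (nat_lit 224) (nat_lit 151)) (XT.nd (nat_lit 78) (nat_lit 0) (nat_lit 0) (XT.lf (nat_lit 0) (nat_lit 49731809) (nat_lit 152) (nat_lit 9038775740) (nat_lit 0) (nat_lit 49731809) (nat_lit 4) (nat_lit 5) (nat_lit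 6) (nat_lit 4) (nat_lit 4) (nat_lit 4) (nat_lit 270) (nat_lit 225) (nat_lit 225)) (XT.lf (nat_lit 0) (nat_lit 2858735857) (nat_lit 152) (nat_lit 14183506062) (nat_lit 0) (nat_lit 2419836711) (nat_lit 4) (nat_lit 5) (nat_lit 6) (nat_lit 4) (nat_lit 4) (nat_lit 4) (nat_lit 271) (nat_lit 225) (nat_lit 224)))) (XT.nd (nat_lit 156) (nat_lit 76) (nat_lit 0) (XT.nd (nat_lit 78) (nat_lit 0) (nat_lit 0) (XT.lf (nat_lit 0) (nat_lit 5681490650) (nat_lit 152) (nat_lit 10238314859) (nat_lit 0) (nat_lit 4836203407) (nat_lit 4) (nat_lit 5) (nat_lit 6) (nat_lit 4) (nat_lit 4) (nat_lit 4) (nat_lit 272) (nat_lit 225) (nat_lit 223)) (XT.lf (nat_lit 0) (nat_lit 8584455433) (nat_lit 152) (nat_lit 6218598961) (nat_lit 0) (nat_lit 7362882914) (nat_lit 4) (nat_lit 5) (nat_lit 6) (nat_lit 4) (nat_lit 4) (nat_lit 4) (nat_lit 273) (nat_lit 225) (nat_lit 222))) (XT.nd (nat_lit 78) (nat_lit 76) (nat_lit 0) (XT.lf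 (nat_lit 0) (nat_lit 11584832960) (nat_lit 152) (nat_lit 2100537830) (nat_lit 0) (nat_lit 10014848148) (nat_lit 4) (nat_lit 5) (nat_lit 6) (nat_lit 4) (nat_lit 4) (nat_lit 4) (nat_lit 274) (nat_lit 225) (nat_lit 221)) (XT.lf (nat_lit 0) (nat_lit 2252974784) (nat_lit 76) (nat_lit 12501612559) (nat_lit 76) (nat_lit 10609023773) (nat_lit 3) (nat_lit 4) (nat_lit 4) (nat_lit 5) (nat_lit 4) (nat_lit 4) (nat_lit 275) (nat_lit 225) (nat_lit 220)))))) (XT.nd (nat_lit 546) (nat_lit 76) (nat_lit 0) (XT.nd (nat_lit 234) (nat_lit 76) (nat_lit 0) (XT.nd (nat_lit 78) (nat_lit 0) (nat_lit 0) (XT.lf (nat_lit 0) (nat_lit 6872764342) (nat_lit 76) (nat_lit 11242154734) (nat_lit 76) (nat_lit 9050858564) (nat_lit 3) (nat_lit 4) (nat_lit 4) (nat_lit 5) (nat_lit 4) (nat_lit 4) (nat_lit 276) (nat_lit 225) (nat_lit 219)) (XT.nd (nat_lit 78) (nat_lit 0) (nat_lit 0) (XT.lf (nat_lit 0) (nat_lit 11675596775) (nat_lit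 76) (nat_lit 9956966287) (nat_lit 76) (nat_lit 7489089207) (nat_lit 3) (nat_lit 4) (nat_lit 4) (nat_lit 5) (nat_lit 4) (nat_lit 4) (nat_lit 277) (nat_lit 225) (nat_lit 218)) (XT.lf (nat_lit 0) (nat_lit 16689933313) (nat_lit 76) (nat_lit 8638431288) (nat_lit 76) (nat_lit 5914460772) (nat_lit 3) (nat_lit 4) (nat_lit 4) (nat_lit 5) (nat_lit 4) (nat_lit 4) (nat_lit 278) (nat_lit 225) (nat_lit 217)))) (XT.nd (nat_lit 156) (nat_lit 76) (nat_lit 0) (XT.nd (nat_lit 78) (nat_lit 0) (nat_lit 0) (XT.lf (nat_lit 0) (nat_lit 21945488542) (nat_lit 76) (nat_lit 7278736196) (nat_lit 76) (nat_lit 4317642128) (nat_lit 3) (nat_lit 4) (nat_lit 4) (nat_lit 5) (nat_lit 4) (nat_lit 4) (nat_lit 279) (nat_lit 225) (nat_lit 216)) (XT.lf (nat_lit 0) (nat_lit 27473406492) (nat_lit 76) (nat_lit 5869823558) (nat_lit 76) (nat_lit 2689170645) (nat_lit 3) (nat_lit 4) (nat_lit 4) (nat_lit 5) (nat_lit 4) (nat_lit 4)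 (nat_lit 280) (nat_lit 225) (nat_lit 215))) (XT.nd (nat_lit 78) (nat_lit 76) (nat_lit 0) (XT.lf (nat_lit 0) (nat_lit 33306445197) (nat_lit 76) (nat_lit 4403344262) (nat_lit 76) (nat_lit 1019396123) (nat_lit 3) (nat_lit 4) (nat_lit 4) (nat_lit 5) (nat_lit 4) (nat_lit 4) (nat_lit 281) (nat_lit 225) (nat_lit 214)) (XT.lf (nat_lit 0) (nat_lit 666480705) (nat_lit 152) (nat_lit 2185904592) (nat_lit 76) (nat_lit 38794467344) (nat_lit 2) (nat_lit 5) (nat_lit 4) (nat_lit 5) (nat_lit 3) (nat_lit 4) (nat_lit 282) (nat_lit 225) (nat_lit 213))))) (XT.nd (nat_lit 234) (nat_lit 0) (nat_lit 0) (XT.nd (nat_lit 78) (nat_lit 0) (nat_lit 0) (XT.lf (nat_lit 0) (nat_lit 1222845966) (nat_lit 76) (nat_lit 1166251781) (nat_lit 152) (nat_lit 42410519629) (nat_lit 1) (nat_lit 5) (nat_lit 2) (nat_lit 5) (nat_lit 3) (nat_lit 4) (nat_lit 283) (nat_lit 225) (nat_lit 212)) (XT.nd (nat_lit 78) (nat_lit 0) (nat_lit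 0) (XT.lf (nat_lit 0) (nat_lit 4255468134) (nat_lit 152) (nat_lit 43311911601) (nat_lit 0) (nat_lit 637079566) (nat_lit 1) (nat_lit 5) (nat_lit 3) (nat_lit 4) (nat_lit 1) (nat_lit 4) (nat_lit 284) (nat_lit 225) (nat_lit 211)) (XT.lf (nat_lit 0) (nat_lit 6235586525) (nat_lit 152) (nat_lit 43170415319) (nat_lit 0) (nat_lit 2478838642) (nat_lit 1) (nat_lit 5) (nat_lit 3) (nat_lit 4) (nat_lit 1) (nat_lit 4) (nat_lit 285) (nat_lit 225) (nat_lit 210)))) (XT.nd (nat_lit 156) (nat_lit 0) (nat_lit 0) (XT.nd (nat_lit 78) (nat_lit 0) (nat_lit 0) (XT.lf (nat_lit 0) (nat_lit 8313138569) (nat_lit 152) (nat_lit 43123395685) (nat_lit 0) (nat_lit 4428280209) (nat_lit 1) (nat_lit 5) (nat_lit 3) (nat_lit 4) (nat_lit 1) (nat_lit 4) (nat_lit 286) (nat_lit 225) (nat_lit 209)) (XT.lf (nat_lit 0) (nat_lit 10500435688) (nat_lit 152) (nat_lit 43170574064) (nat_lit 0) (nat_lit 6496956516) (nat_lit 1) (nat_lit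 5) (nat_lit 3) (nat_lit 4) (nat_lit 1) (nat_lit 4) (nat_lit 287) (nat_lit 225) (nat_lit 208))) (XT.nd (nat_lit 78) (nat_lit 0) (nat_lit 0) (XT.lf (nat_lit 0) (nat_lit 12810439641) (nat_lit 152) (nat_lit 43312230031) (nat_lit 0) (nat_lit 8697126384) (nat_lit 1) (nat_lit 5) (nat_lit 3) (nat_lit 4) (nat_lit 1) (nat_lit 4) (nat_lit 288) (nat_lit 225) (nat_lit 207)) (XT.lf (nat_lit 0) (nat_lit 15256839341) (nat_lit 152) (nat_lit 43549203029) (nat_lit 0) (nat_lit 11041827857) (nat_lit 1) (nat_lit 5) (nat_lit 3) (nat_lit 4) (nat_lit 1) (nat_lit 4) (nat_lit 289) (nat_lit 225) (nat_lit 206))))))) (XT.nd (nat_lit 1014) (nat_lit 0) (nat_lit 0) (XT.nd (nat_lit 468) (nat_lit 0) (nat_lit 0) (XT.nd (nat_lit 234) (nat_lit 0) (nat_lit 0) (XT.nd (nat_lit 78) (nat_lit 0) (nat_lit 0) (XT.lf (nat_lit 0) (nat_lit 17854131971) (nat_lit 152) (nat_lit 43882897343) (nat_lit 0) (nat_lit 13544955462) (nat_lit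 1) (nat_lit 5) (nat_lit 3) (nat_lit 4) (nat_lit 1) (nat_lit 4) (nat_lit 290) (nat_lit 225) (nat_lit 205)) (XT.nd (nat_lit 78) (nat_lit 0) (nat_lit 0) (XT.lf (nat_lit 0) (nat_lit 20617708895) (nat_lit 152) (nat_lit 44315290420) (nat_lit 0) (nat_lit 16221342549) (nat_lit 1) (nat_lit 5) (nat_lit 3) (nat_lit 4) (nat_lit 1) (nat_lit 4) (nat_lit 291) (nat_lit 225) (nat_lit 204)) (XT.lf (nat_lit 0) (nat_lit 23563946866) (nat_lit 152) (nat_lit 44848944589) (nat_lit 0) (nat_lit 19086849188) (nat_lit 1) (nat_lit 5) (nat_lit 3) (nat_lit 4) (nat_lit 1) (nat_lit 4) (nat_lit 292) (nat_lit 225) (nat_lit 203)))) (XT.nd (nat_lit 78) (nat_lit 0) (nat_lit 0) (XT.lf (nat_lit 0) (nat_lit 26710305071) (nat_lit 152) (nat_lit 45487022247) (nat_lit 0) (nat_lit 22158456160) (nat_lit 1) (nat_lit 5) (nat_lit 3) (nat_lit 4) (nat_lit 1) (nat_lit 4) (nat_lit 293) (nat_lit 225) (nat_lit 202)) (XT.nd (nat_lit 78)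 (nat_lit 0) (nat_lit 0) (XT.lf (nat_lit 0) (nat_lit 30075428595) (nat_lit 152) (nat_lit 46233304593) (nat_lit 0) (nat_lit 25454365580) (nat_lit 1) (nat_lit 5) (nat_lit 3) (nat_lit 4) (nat_lit 1) (nat_lit 4) (nat_lit 294) (nat_lit 225) (nat_lit 201)) (XT.lf (nat_lit 0) (nat_lit 33679258912) (nat_lit 152) (nat_lit 47092214041) (nat_lit 0) (nat_lit 28994108764) (nat_lit 1) (nat_lit 5) (nat_lit 3) (nat_lit 4) (nat_lit 1) (nat_lit 4) (nat_lit 295) (nat_lit 225) (nat_lit 200))))) (XT.nd (nat_lit 234) (nat_lit 0) (nat_lit 0) (XT.nd (nat_lit 78) (nat_lit 0) (nat_lit 0) (XT.lf (nat_lit 0) (nat_lit 37543152054) (nat_lit 152) (nat_lit 48068840426) (nat_lit 0) (nat_lit 32798661966) (nat_lit 1) (nat_lit 5) (nat_lit 3) (nat_lit 4) (nat_lit 1) (nat_lit 4) (nat_lit 296) (nat_lit 225) (nat_lit 199)) (XT.nd (nat_lit 78) (nat_lit 0) (nat_lit 0) (XT.lf (nat_lit 0) (nat_lit 41690005163) (nat_lit 152)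 (nat_lit 49168971163) (nat_lit 0) (nat_lit 36890570688) (nat_lit 1) (nat_lit 5) (nat_lit 3) (nat_lit 4) (nat_lit 1) (nat_lit 4) (nat_lit 297) (nat_lit 225) (nat_lit 198)) (XT.lf (nat_lit 0) (nat_lit 46144392186) (nat_lit 152) (nat_lit 50399125545) (nat_lit 0) (nat_lit 41294083278) (nat_lit 1) (nat_lit 5) (nat_lit 3) (nat_lit 4) (nat_lit 1) (nat_lit 4) (nat_lit 298) (nat_lit 225) (nat_lit 197)))) (XT.nd (nat_lit 156) (nat_lit 0) (nat_lit 0) (XT.nd (nat_lit 78) (nat_lit 0) (nat_lit 0) (XT.lf (nat_lit 0) (nat_lit 50932709489) (nat_lit 152) (nat_lit 51766593376) (nat_lit 0) (nat_lit 46035294625) (nat_lit 1) (nat_lit 5) (nat_lit 3) (nat_lit 4) (nat_lit 1) (nat_lit 4) (nat_lit 299) (nat_lit 225) (nat_lit 196)) (XT.lf (nat_lit 0) (nat_lit 56083332287) (nat_lit 152) (nat_lit 53279478169) (nat_lit 0) (nat_lit 51142300796) (nat_lit 1) (nat_lit 5) (nat_lit 3) (nat_lit 4) (nat_lit 1) (nat_lit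 4) (nat_lit 300) (nat_lit 225) (nat_lit 195))) (XT.nd (nat_lit 78) (nat_lit 0) (nat_lit 0) (XT.lf (nat_lit 0) (nat_lit 61626782787) (nat_lit 152) (nat_lit 54946745168) (nat_lit 0) (nat_lit 56645365532) (nat_lit 1) (nat_lit 5) (nat_lit 3) (nat_lit 4) (nat_lit 1) (nat_lit 4) (nat_lit 301) (nat_lit 225) (nat_lit 194)) (XT.lf (nat_lit 0) (nat_lit 67595911069) (nat_lit 152) (nat_lit 56778274472) (nat_lit 0) (nat_lit 62577099586) (nat_lit 1) (nat_lit 5) (nat_lit 3) (nat_lit 4) (nat_lit 1) (nat_lit 4) (nat_lit 302) (nat_lit 225) (nat_lit 193)))))) (XT.nd (nat_lit 546) (nat_lit 0) (nat_lit 0) (XT.nd (nat_lit 234) (nat_lit 0) (nat_lit 0) (XT.nd (nat_lit 78) (nat_lit 0) (nat_lit 0) (XT.lf (nat_lit 0) (nat_lit 74026089742) (nat_lit 152) (nat_lit 58784919590) (nat_lit 0) (nat_lit 68972653975) (nat_lit 1) (nat_lit 5) (nat_lit 3) (nat_lit 4) (nat_lit 1) (nat_lit 4) (nat_lit 303) (nat_lit 225) (nat_lit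 192)) (XT.nd (nat_lit 78) (nat_lit 0) (nat_lit 0) (XT.lf (nat_lit 0) (nat_lit 80955423571) (nat_lit 152) (nat_lit 60978571750) (nat_lit 0) (nat_lit 75869928281) (nat_lit 1) (nat_lit 5) (nat_lit 3) (nat_lit 4) (nat_lit 1) (nat_lit 4) (nat_lit 304) (nat_lit 225) (nat_lit 191)) (XT.lf (nat_lit 0) (nat_lit 88424975273) (nat_lit 152) (nat_lit 63372230374) (nat_lit 0) (nat_lit 83309795240) (nat_lit 1) (nat_lit 5) (nat_lit 3) (nat_lit 4) (nat_lit 1) (nat_lit 4) (nat_lit 305) (nat_lit 225) (nat_lit 190)))) (XT.nd (nat_lit 156) (nat_lit 0) (nat_lit 0) (XT.nd (nat_lit 78) (nat_lit 0) (nat_lit 0) (XT.lf (nat_lit 0) (nat_lit 96479008859) (nat_lit 152) (nat_lit 65980080106) (nat_lit 0) (nat_lit 91336342953) (nat_lit 1) (nat_lit 5) (nat_lit 3) (nat_lit 4) (nat_lit 1) (nat_lit 4) (nat_lit 306) (nat_lit 225) (nat_lit 189)) (XT.lf (nat_lit 0) (nat_lit 105165251936) (nat_lit 152) (nat_lit 68817574869)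 (nat_lit 0) (nat_lit 99997136147) (nat_lit 1) (nat_lit 5) (nat_lit 3) (nat_lit 4) (nat_lit 1) (nat_lit 4) (nat_lit 307) (nat_lit 225) (nat_lit 188))) (XT.nd (nat_lit 78) (nat_lit 0) (nat_lit 0) (XT.lf (nat_lit 0) (nat_lit 114535178536) (nat_lit 152) (nat_lit 71901529447) (nat_lit 0) (nat_lit 109343498042) (nat_lit 1) (nat_lit 5) (nat_lit 3) (nat_lit 4) (nat_lit 1) (nat_lit 4) (nat_lit 308) (nat_lit 225) (nat_lit 187)) (XT.lf (nat_lit 0) (nat_lit 124644314151) (nat_lit 152) (nat_lit 75250219127) (nat_lit 0) (nat_lit 119430814484) (nat_lit 1) (nat_lit 5) (nat_lit 3) (nat_lit 4) (nat_lit 1) (nat_lit 4) (nat_lit 309) (nat_lit 225) (nat_lit 186))))) (XT.nd (nat_lit 234) (nat_lit 0) (nat_lit 0) (XT.nd (nat_lit 78) (nat_lit 0) (nat_lit 0) (XT.lf (nat_lit 0) (nat_lit 135552564769) (nat_lit 152) (nat_lit 78883487996) (nat_lit 0) (nat_lit 130318862165) (nat_lit 1) (nat_lit 5) (nat_lit 3) (nat_lit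 4) (nat_lit 1) (nat_lit 4) (nat_lit 310) (nat_lit 225) (nat_lit 185)) (XT.nd (nat_lit 78) (nat_lit 0) (nat_lit 0) (XT.lf (nat_lit 0) (nat_lit 147324571875) (nat_lit 152) (nat_lit 82822866535) (nat_lit 0) (nat_lit 142072162847) (nat_lit 1) (nat_lit 5) (nat_lit 3) (nat_lit 4) (nat_lit 1) (nat_lit 4) (nat_lit 311) (nat_lit 225) (nat_lit 184)) (XT.lf (nat_lit 0) (nat_lit 160030095512) (nat_lit 152) (nat_lit 87091699211) (nat_lit 0) (nat_lit 154760365722) (nat_lit 1) (nat_lit 5) (nat_lit 3) (nat_lit 4) (nat_lit 1) (nat_lit 4) (nat_lit 312) (nat_lit 225) (nat_lit 183)))) (XT.nd (nat_lit 156) (nat_lit 0) (nat_lit 0) (XT.nd (nat_lit 78) (nat_lit 0) (nat_lit 0) (XT.lf (nat_lit 0) (nat_lit 173744427671) (nat_lit 152) (nat_lit 91715282809) (nat_lit 0) (nat_lit 168458660138) (nat_lit 1) (nat_lit 5) (nat_lit 3) (nat_lit 4) (nat_lit 1) (nat_lit 4) (nat_lit 313) (nat_lit 225) (nat_lit 182)) (XT.lf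 (nat_lit 0) (nat_lit 188548838469) (nat_lit 152) (nat_lit 96721016344) (nat_lit 0) (nat_lit 183248221174) (nat_lit 1) (nat_lit 5) (nat_lit 3) (nat_lit 4) (nat_lit 1) (nat_lit 4) (nat_lit 314) (nat_lit 225) (nat_lit 181))) (XT.nd (nat_lit 78) (nat_lit 0) (nat_lit 0) (XT.lf (nat_lit 0) (nat_lit 204531057748) (nat_lit 152) (nat_lit 102138563422) (nat_lit 0) (nat_lit 199216690673) (nat_lit 1) (nat_lit 5) (nat_lit 3) (nat_lit 4) (nat_lit 1) (nat_lit 4) (nat_lit 315) (nat_lit 225) (nat_lit 180)) (XT.lf (nat_lit 0) (nat_lit 221785794955) (nat_lit 152) (nat_lit 108000028024) (nat_lit 0) (nat_lit 216458696603) (nat_lit 1) (nat_lit 5) (nat_lit 3) (nat_lit 4) (nat_lit 1) (nat_lit 4) (nat_lit 316) (nat_lit 225) (nat_lit 179))))))))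
noncomputable def xc28 : XT := (XT.nd (nat_lit 2028) (nat_lit 0) (nat_lit 0) (XT.nd (nat_lit 1014) (nat_lit 0) (nat_lit 0) (XT.nd (nat_lit 468) (nat_lit 0) (nat_lit 0) (XT.nd (nat_lit 234) (nat_lit 0) (nat_lit 0) (XT.nd (nat_lit 78) (nat_lit 0) (nat_lit 0) (XT.lf (nat_lit 0) (nat_lit 240415300385) (nat_lit 152) (nat_lit 114340144757) (nat_lit 0) (nat_lit 235076413813) (nat_lit 1) (nat_lit 5) (nat_lit 3) (nat_lit 4) (nat_lit 1) (nat_lit 4) (nat_lit 317) (nat_lit 225) (nat_lit 178)) (XT.nd (nat_lit 78) (nat_lit 0) (nat_lit 0) (XT.lf (nat_lit 0) (nat_lit 260529971107) (nat_lit 152) (nat_lit 121196484683) (nat_lit 0) (nat_lit 255180169517) (nat_lit 1) (nat_lit 5) (nat_lit 3) (nat_lit 4) (nat_lit 1) (nat_lit 4) (nat_lit 318) (nat_lit 225) (nat_lit 177)) (XT.lf (nat_lit 0) (nat_lit 282249005170) (nat_lit 152) (nat_lit 128609677963) (nat_lit 0) (nat_lit 276889097081) (nat_lit 1) (nat_lit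 5) (nat_lit 3) (nat_lit 4) (nat_lit 1) (nat_lit 4) (nat_lit 319) (nat_lit 225) (nat_lit 176)))) (XT.nd (nat_lit 78) (nat_lit 0) (nat_lit 0) (XT.lf (nat_lit 0) (nat_lit 305701107961) (nat_lit 152) (nat_lit 136623654633) (nat_lit 0) (nat_lit 300331842003) (nat_lit 1) (nat_lit 5) (nat_lit 3) (nat_lit 4) (nat_lit 1) (nat_lit 4) (nat_lit 320) (nat_lit 225) (nat_lit 175)) (XT.nd (nat_lit 78) (nat_lit 0) (nat_lit 0) (XT.lf (nat_lit 0) (nat_lit 331025254903) (nat_lit 152) (nat_lit 145285904924) (nat_lit 0) (nat_lit 325647324252) (nat_lit 1) (nat_lit 5) (nat_lit 3) (nat_lit 4) (nat_lit 1) (nat_lit 4) (nat_lit 321) (nat_lit 225) (nat_lit 174)) (XT.lf (nat_lit 0) (nat_lit 358371515016) (nat_lit 152) (nat_lit 154647760690) (nat_lit 0) (nat_lit 352985561500) (nat_lit 1) (nat_lit 5) (nat_lit 3) (nat_lit 4) (nat_lit 1) (nat_lit 4) (nat_lit 322) (nat_lit 225) (nat_lit 173))))) (XT.nd (nat_lit 234)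 (nat_lit 0) (nat_lit 0) (XT.nd (nat_lit 78) (nat_lit 0) (nat_lit 0) (XT.lf (nat_lit 0) (nat_lit 387901940212) (nat_lit 152) (nat_lit 164764699594) (nat_lit 0) (nat_lit 382508558118) (nat_lit 1) (nat_lit 5) (nat_lit 3) (nat_lit 4) (nat_lit 1) (nat_lit 4) (nat_lit 323) (nat_lit 225) (nat_lit 172)) (XT.nd (nat_lit 78) (nat_lit 0) (nat_lit 0) (XT.lf (nat_lit 0) (nat_lit 419791525602) (nat_lit 152) (nat_lit 175696673868) (nat_lit 0) (nat_lit 414391265195) (nat_lit 1) (nat_lit 5) (nat_lit 3) (nat_lit 4) (nat_lit 1) (nat_lit 4) (nat_lit 324) (nat_lit 225) (nat_lit 171)) (XT.lf (nat_lit 0) (nat_lit 454229246508) (nat_lit 152) (nat_lit 187508465581) (nat_lit 0) (nat_lit 448822617293) (nat_lit 1) (nat_lit 5) (nat_lit 3) (nat_lit 4) (nat_lit 1) (nat_lit 4) (nat_lit 325) (nat_lit 225) (nat_lit 170)))) (XT.nd (nat_lit 156) (nat_lit 0) (nat_lit 0) (XT.nd (nat_lit 78) (nat_lit 0) (nat_lit 0) (XT.lf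 (nat_lit 0) (nat_lit 491419178312) (nat_lit 152) (nat_lit 200270070536) (nat_lit 0) (nat_lit 486006652052) (nat_lit 1) (nat_lit 5) (nat_lit 3) (nat_lit 4) (nat_lit 1) (nat_lit 4) (nat_lit 326) (nat_lit 225) (nat_lit 169)) (XT.lf (nat_lit 0) (nat_lit 531581705797) (nat_lit 152) (nat_lit 214057113058) (nat_lit 0) (nat_lit 526163719310) (nat_lit 1) (nat_lit 5) (nat_lit 3) (nat_lit 4) (nat_lit 1) (nat_lit 4) (nat_lit 327) (nat_lit 225) (nat_lit 168))) (XT.nd (nat_lit 78) (nat_lit 0) (nat_lit 0) (XT.lf (nat_lit 0) (nat_lit 574954829124) (nat_lit 152) (nat_lit 228951294140) (nat_lit 0) (nat_lit 569531786871) (nat_lit 1) (nat_lit 5) (nat_lit 3) (nat_lit 4) (nat_lit 1) (nat_lit 4) (nat_lit 328) (nat_lit 225) (nat_lit 167)) (XT.lf (nat_lit 0) (nat_lit 621795574209) (nat_lit 152) (nat_lit 245040875596) (nat_lit 0) (nat_lit 616367850693) (nat_lit 1) (nat_lit 5) (nat_lit 3) (nat_lit 4) (nat_lit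 1) (nat_lit 4) (nat_lit 329) (nat_lit 225) (nat_lit 166)))))) (XT.nd (nat_lit 468) (nat_lit 0) (nat_lit 0) (XT.nd (nat_lit 234) (nat_lit 0) (nat_lit 0) (XT.nd (nat_lit 78) (nat_lit 0) (nat_lit 0) (XT.lf (nat_lit 0) (nat_lit 672381515839) (nat_lit 152) (nat_lit 262421203094) (nat_lit 0) (nat_lit 666949457819) (nat_lit 1) (nat_lit 5) (nat_lit 3) (nat_lit 4) (nat_lit 1) (nat_lit 4) (nat_lit 330) (nat_lit 225) (nat_lit 165)) (XT.nd (nat_lit 78) (nat_lit 0) (nat_lit 0) (XT.lf (nat_lit 0) (nat_lit 727012422557) (nat_lit 152) (nat_lit 281195271167) (nat_lit 0) (nat_lit 721576351107) (nat_lit 1) (nat_lit 5) (nat_lit 3) (nat_lit 4) (nat_lit 1) (nat_lit 4) (nat_lit 331) (nat_lit 225) (nat_lit 164)) (XT.lf (nat_lit 0) (nat_lit 786012033068) (nat_lit 152) (nat_lit 301474333552) (nat_lit 0) (nat_lit 780572245479) (nat_lit 1) (nat_lit 5) (nat_lit 3) (nat_lit 4) (nat_lit 1) (nat_lit 4) (nat_lit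 332) (nat_lit 225) (nat_lit 163)))) (XT.nd (nat_lit 78) (nat_lit 0) (nat_lit 0) (XT.lf (nat_lit 0) (nat_lit 849729974694) (nat_lit 152) (nat_lit 323378562471) (nat_lit 0) (nat_lit 844286746237) (nat_lit 1) (nat_lit 5) (nat_lit 3) (nat_lit 4) (nat_lit 1) (nat_lit 4) (nat_lit 333) (nat_lit 225) (nat_lit 162)) (XT.nd (nat_lit 78) (nat_lit 0) (nat_lit 0) (XT.lf (nat_lit 0) (nat_lit 918543835238) (nat_lit 152) (nat_lit 347037760761) (nat_lit 0) (nat_lit 913097420791) (nat_lit 1) (nat_lit 5) (nat_lit 3) (nat_lit 4) (nat_lit 1) (nat_lit 4) (nat_lit 334) (nat_lit 225) (nat_lit 161)) (XT.lf (nat_lit 0) (nat_lit 992861400540) (nat_lit 152) (nat_lit 372592131079) (nat_lit 0) (nat_lit 987412036102) (nat_lit 1) (nat_lit 5) (nat_lit 3) (nat_lit 4) (nat_lit 1) (nat_lit 4) (nat_lit 335) (nat_lit 225) (nat_lit 160))))) (XT.nd (nat_lit 234) (nat_lit 0) (nat_lit 0) (XT.nd (nat_lit 78) (nat_lit 0) (nat_lit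 0) (XT.lf (nat_lit 0) (nat_lit 1073123070987) (nat_lit 152) (nat_lit 400193106731) (nat_lit 0) (nat_lit 1067670975076) (nat_lit 1) (nat_lit 5) (nat_lit 3) (nat_lit 4) (nat_lit 1) (nat_lit 4) (nat_lit 336) (nat_lit 225) (nat_lit 159)) (XT.nd (nat_lit 78) (nat_lit 0) (nat_lit 0) (XT.lf (nat_lit 0) (nat_lit 1159804471292) (nat_lit 152) (nat_lit 430004249053) (nat_lit 0) (nat_lit 1154349846240) (nat_lit 1) (nat_lit 5) (nat_lit 3) (nat_lit 4) (nat_lit 1) (nat_lit 4) (nat_lit 337) (nat_lit 225) (nat_lit 158)) (XT.lf (nat_lit 0) (nat_lit 1253419269014) (nat_lit 152) (nat_lit 462202216668) (nat_lit 0) (nat_lit 1247962302164) (nat_lit 1) (nat_lit 5) (nat_lit 3) (nat_lit 4) (nat_lit 1) (nat_lit 4) (nat_lit 338) (nat_lit 225) (nat_lit 157)))) (XT.nd (nat_lit 156) (nat_lit 0) (nat_lit 0) (XT.nd (nat_lit 78) (nat_lit 0) (nat_lit 0) (XT.lf (nat_lit 0) (nat_lit 1354522218508) (nat_lit 152) (nat_lit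 496977812345) (nat_lit 0) (nat_lit 1349063083327) (nat_lit 1) (nat_lit 5) (nat_lit 3) (nat_lit 4) (nat_lit 1) (nat_lit 4) (nat_lit 339) (nat_lit 225) (nat_lit 156)) (XT.lf (nat_lit 0) (nat_lit 1463712448364) (nat_lit 152) (nat_lit 534537113690) (nat_lit 0) (nat_lit 1458251305469) (nat_lit 1) (nat_lit 5) (nat_lit 3) (nat_lit 4) (nat_lit 1) (nat_lit 4) (nat_lit 340) (nat_lit 225) (nat_lit 155))) (XT.nd (nat_lit 78) (nat_lit 0) (nat_lit 0) (XT.lf (nat_lit 0) (nat_lit 1581637011797) (nat_lit 152) (nat_lit 575102694339) (nat_lit 0) (nat_lit 1576174009908) (nat_lit 1) (nat_lit 5) (nat_lit 3) (nat_lit 4) (nat_lit 1) (nat_lit 4) (nat_lit 341) (nat_lit 225) (nat_lit 154)) (XT.lf (nat_lit 0) (nat_lit 1708994721034) (nat_lit 152) (nat_lit 618914942919) (nat_lit 0) (nat_lit 1703529997854) (nat_lit 1) (nat_lit 5) (nat_lit 3) (nat_lit 4) (nat_lit 1) (nat_lit 4) (nat_lit 342) (nat_lit 225) (nat_lit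 153))))))) (XT.nd (nat_lit 32448) (nat_lit 0) (nat_lit 0) (XT.nd (nat_lit 31902) (nat_lit 0) (nat_lit 152) (XT.nd (nat_lit 31668) (nat_lit 0) (nat_lit 228) (XT.nd (nat_lit 78) (nat_lit 0) (nat_lit 0) (XT.lf (nat_lit 0) (nat_lit 1846540288427) (nat_lit 152) (nat_lit 666233487569) (nat_lit 0) (nat_lit 1841073971458) (nat_lit 1) (nat_lit 5) (nat_lit 3) (nat_lit 4) (nat_lit 1) (nat_lit 4) (nat_lit 343) (nat_lit 225) (nat_lit 152)) (XT.nd (nat_lit 78) (nat_lit 0) (nat_lit 0) (XT.lf (nat_lit 0) (nat_lit 1995088798818) (nat_lit 152) (nat_lit 717338734480) (nat_lit 0) (nat_lit 1989621006119) (nat_lit 1) (nat_lit 5) (nat_lit 3) (nat_lit 4) (nat_lit 1) (nat_lit 4) (nat_lit 344) (nat_lit 225) (nat_lit 151)) (XT.lf (nat_lit 0) (nat_lit 2155520539677) (nat_lit 152) (nat_lit 772533529560) (nat_lit 0) (nat_lit 2150051380562) (nat_lit 1) (nat_lit 5) (nat_lit 3) (nat_lit 4) (nat_lit 1) (nat_lit 4)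 (nat_lit 345) (nat_lit 225) (nat_lit 150)))) (XT.nd (nat_lit 78) (nat_lit 152) (nat_lit 0) (XT.lf (nat_lit 0) (nat_lit 3467372090) (nat_lit 76) (nat_lit 2305887645) (nat_lit 76) (nat_lit 2305887645) (nat_lit 6) (nat_lit 4) (nat_lit 7) (nat_lit 5) (nat_lit 7) (nat_lit 4) (nat_lit 268) (nat_lit 226) (nat_lit 226)) (XT.nd (nat_lit 78) (nat_lit 152) (nat_lit 0) (XT.lf (nat_lit 0) (nat_lit 12542593894) (nat_lit 76) (nat_lit 2571494164) (nat_lit 76) (nat_lit 2059562200) (nat_lit 6) (nat_lit 4) (nat_lit 7) (nat_lit 5) (nat_lit 7) (nat_lit 4) (nat_lit 269) (nat_lit 226) (nat_lit 225)) (XT.lf (nat_lit 0) (nat_lit 59218181) (nat_lit 76) (nat_lit 443263175) (nat_lit 152) (nat_lit 17780144985) (nat_lit 4) (nat_lit 5) (nat_lit 5) (nat_lit 5) (nat_lit 6) (nat_lit 4) (nat_lit 270) (nat_lit 226) (nat_lit 224))))) (XT.nd (nat_lit 234) (nat_lit 76) (nat_lit 0) (XT.nd (nat_lit 78) (nat_lit 0) (nat_lit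 0) (XT.lf (nat_lit 0) (nat_lit 3175487709) (nat_lit 152) (nat_lit 14443883910) (nat_lit 0) (nat_lit 1856189388) (nat_lit 4) (nat_lit 5) (nat_lit 6) (nat_lit 4) (nat_lit 4) (nat_lit 4) (nat_lit 271) (nat_lit 226) (nat_lit 223)) (XT.nd (nat_lit 78) (nat_lit 0) (nat_lit 0) (XT.lf (nat_lit 0) (nat_lit 5928237505) (nat_lit 152) (nat_lit 10614601651) (nat_lit 0) (nat_lit 4232653909) (nat_lit 4) (nat_lit 5) (nat_lit 6) (nat_lit 4) (nat_lit 4) (nat_lit 4) (nat_lit 272) (nat_lit 226) (nat_lit 222)) (XT.lf (nat_lit 0) (nat_lit 8766382846) (nat_lit 152) (nat_lit 6702208848) (nat_lit 0) (nat_lit 6722386957) (nat_lit 4) (nat_lit 5) (nat_lit 6) (nat_lit 4) (nat_lit 4) (nat_lit 4) (nat_lit 273) (nat_lit 226) (nat_lit 221)))) (XT.nd (nat_lit 156) (nat_lit 0) (nat_lit 0) (XT.nd (nat_lit 78) (nat_lit 76) (nat_lit 0) (XT.lf (nat_lit 0) (nat_lit 11706742371) (nat_lit 152) (nat_lit 2683520953) (nat_lit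 0) (nat_lit 9340142508) (nat_lit 4) (nat_lit 5) (nat_lit 6) (nat_lit 4) (nat_lit 4) (nat_lit 4) (nat_lit 274) (nat_lit 226) (nat_lit 220)) (XT.lf (nat_lit 0) (nat_lit 1542435345) (nat_lit 76) (nat_lit 13261400695) (nat_lit 76) (nat_lit 10596093448) (nat_lit 3) (nat_lit 4) (nat_lit 4) (nat_lit 5) (nat_lit 4) (nat_lit 4) (nat_lit 275) (nat_lit 226) (nat_lit 219))) (XT.nd (nat_lit 78) (nat_lit 0) (nat_lit 0) (XT.lf (nat_lit 0) (nat_lit 6072542071) (nat_lit 76) (nat_lit 12038013065) (nat_lit 76) (nat_lit 9096124907) (nat_lit 3) (nat_lit 4) (nat_lit 4) (nat_lit 5) (nat_lit 4) (nat_lit 4) (nat_lit 276) (nat_lit 226) (nat_lit 218)) (XT.lf (nat_lit 0) (nat_lit 10792334846) (nat_lit 76) (nat_lit 10786222947) (nat_lit 76) (nat_lit 7588241353) (nat_lit 3) (nat_lit 4) (nat_lit 4) (nat_lit 5) (nat_lit 4) (nat_lit 4) (nat_lit 277) (nat_lit 226) (nat_lit 217)))))) (XT.nd (nat_lit 546) (nat_lit 0)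 (nat_lit 0) (XT.nd (nat_lit 234) (nat_lit 152) (nat_lit 0) (XT.nd (nat_lit 78) (nat_lit 0) (nat_lit 0) (XT.lf (nat_lit 0) (nat_lit 15729782810) (nat_lit 76) (nat_lit 9498612326) (nat_lit 76) (nat_lit 6063507181) (nat_lit 3) (nat_lit 4) (nat_lit 4) (nat_lit 5) (nat_lit 4) (nat_lit 4) (nat_lit 278) (nat_lit 226) (nat_lit 216)) (XT.nd (nat_lit 78) (nat_lit 0) (nat_lit 0) (XT.lf (nat_lit 0) (nat_lit 20914144916) (nat_lit 76) (nat_lit 8167550917) (nat_lit 76) (nat_lit 4512886928) (nat_lit 3) (nat_lit 4) (nat_lit 4) (nat_lit 5) (nat_lit 4) (nat_lit 4) (nat_lit 279) (nat_lit 226) (nat_lit 215)) (XT.lf (nat_lit 0) (nat_lit 26376143308) (nat_lit 76) (nat_lit 6785150949) (nat_lit 76) (nat_lit 2927191733) (nat_lit 3) (nat_lit 4) (nat_lit 4) (nat_lit 5) (nat_lit 4) (nat_lit 4) (nat_lit 280) (nat_lit 226) (nat_lit 214)))) (XT.nd (nat_lit 156) (nat_lit 76) (nat_lit 0) (XT.nd (nat_lit 78) (nat_lit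 76) (nat_lit 0) (XT.lf (nat_lit 0) (nat_lit 32148145385) (nat_lit 76) (nat_lit 5343220421) (nat_lit 76) (nat_lit 1297024885) (nat_lit 3) (nat_lit 4) (nat_lit 4) (nat_lit 5) (nat_lit 4) (nat_lit 4) (nat_lit 281) (nat_lit 226) (nat_lit 213)) (XT.lf (nat_lit 0) (nat_lit 367900856) (nat_lit 152) (nat_lit 3455254643) (nat_lit 76) (nat_lit 37886395685) (nat_lit 2) (nat_lit 5) (nat_lit 4) (nat_lit 5) (nat_lit 3) (nat_lit 4) (nat_lit 282) (nat_lit 226) (nat_lit 212))) (XT.nd (nat_lit 78) (nat_lit 76) (nat_lit 0) (XT.lf (nat_lit 0) (nat_lit 2028849904) (nat_lit 152) (nat_lit 161862929) (nat_lit 76) (nat_lit 42676695916) (nat_lit 2) (nat_lit 5) (nat_lit 4) (nat_lit 5) (nat_lit 3) (nat_lit 4) (nat_lit 283) (nat_lit 226) (nat_lit 211)) (XT.lf (nat_lit 0) (nat_lit 3463918964) (nat_lit 76) (nat_lit 379935725) (nat_lit 152) (nat_lit 44432652818) (nat_lit 1) (nat_lit 5) (nat_lit 2) (nat_lit 5) (nat_lit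 3) (nat_lit 4) (nat_lit 284) (nat_lit 226) (nat_lit 210))))) (XT.nd (nat_lit 234) (nat_lit 0) (nat_lit 0) (XT.nd (nat_lit 78) (nat_lit 0) (nat_lit 0) (XT.lf (nat_lit 0) (nat_lit 5785520320) (nat_lit 152) (nat_lit 44712818428) (nat_lit 0) (nat_lit 1461762814) (nat_lit 1) (nat_lit 5) (nat_lit 3) (nat_lit 4) (nat_lit 1) (nat_lit 4) (nat_lit 285) (nat_lit 226) (nat_lit 209)) (XT.nd (nat_lit 78) (nat_lit 0) (nat_lit 0) (XT.lf (nat_lit 0) (nat_lit 7835928571) (nat_lit 152) (nat_lit 44712894748) (nat_lit 0) (nat_lit 3393550254) (nat_lit 1) (nat_lit 5) (nat_lit 3) (nat_lit 4) (nat_lit 1) (nat_lit 4) (nat_lit 286) (nat_lit 226) (nat_lit 208)) (XT.lf (nat_lit 0) (nat_lit 9998092548) (nat_lit 152) (nat_lit 44803680491) (nat_lit 0) (nat_lit 5445880146) (nat_lit 1) (nat_lit 5) (nat_lit 3) (nat_lit 4) (nat_lit 1) (nat_lit 4) (nat_lit 287) (nat_lit 226) (nat_lit 207)))) (XT.nd (nat_lit 156) (nat_lit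 0) (nat_lit 0) (XT.nd (nat_lit 78) (nat_lit 0) (nat_lit 0) (XT.lf (nat_lit 0) (nat_lit 12284825074) (nat_lit 152) (nat_lit 44985713647) (nat_lit 0) (nat_lit 7630914444) (nat_lit 1) (nat_lit 5) (nat_lit 3) (nat_lit 4) (nat_lit 1) (nat_lit 4) (nat_lit 288) (nat_lit 226) (nat_lit 206)) (XT.lf (nat_lit 0) (nat_lit 14709677155) (nat_lit 152) (nat_lit 45260072932) (nat_lit 0) (nat_lit 9961601501) (nat_lit 1) (nat_lit 5) (nat_lit 3) (nat_lit 4) (nat_lit 1) (nat_lit 4) (nat_lit 289) (nat_lit 226) (nat_lit 205))) (XT.nd (nat_lit 78) (nat_lit 0) (nat_lit 0) (XT.lf (nat_lit 0) (nat_lit 17287018287) (nat_lit 152) (nat_lit 45628384177) (nat_lit 0) (nat_lit 12451752795) (nat_lit 1) (nat_lit 5) (nat_lit 3) (nat_lit 4) (nat_lit 1) (nat_lit 4) (nat_lit 290) (nat_lit 226) (nat_lit 204)) (XT.lf (nat_lit 0) (nat_lit 20032121602) (nat_lit 152) (nat_lit 46092829969) (nat_lit 0) (nat_lit 15116124779) (nat_lit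 1) (nat_lit 5) (nat_lit 3) (nat_lit 4) (nat_lit 1) (nat_lit 4) (nat_lit 291) (nat_lit 226) (nat_lit 203))))))))
noncomputable def xc29 : XT := (XT.nd (nat_lit 2106) (nat_lit 0) (nat_lit 0) (XT.nd (nat_lit 1014) (nat_lit 0) (nat_lit 0) (XT.nd (nat_lit 468) (nat_lit 0) (nat_lit 0) (XT.nd (nat_lit 234) (nat_lit 0) (nat_lit 0) (XT.nd (nat_lit 78) (nat_lit 0) (nat_lit 0) (XT.lf (nat_lit 0) (nat_lit 22961254379) (nat_lit 152) (nat_lit 46656162578) (nat_lit 0) (nat_lit 17970506323) (nat_lit 1) (nat_lit 5) (nat_lit 3) (nat_lit 4) (nat_lit 1) (nat_lit 4) (nat_lit 292) (nat_lit 226) (nat_lit 202)) (XT.nd (nat_lit 78) (nat_lit 0) (nat_lit 0) (XT.lf (nat_lit 0) (nat_lit 26091774441) (nat_lit 152) (nat_lit 47321720272) (nat_lit 0) (nat_lit 21031812280) (nat_lit 1) (nat_lit 5) (nat_lit 3) (nat_lit 4) (nat_lit 1) (nat_lit 4) (nat_lit 293) (nat_lit 226) (nat_lit 201)) (XT.lf (nat_lit 0) (nat_lit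 29442233019) (nat_lit 152) (nat_lit 48093447096) (nat_lit 0) (nat_lit 24318183724) (nat_lit 1) (nat_lit 5) (nat_lit 3) (nat_lit 4) (nat_lit 1) (nat_lit 4) (nat_lit 294) (nat_lit 226) (nat_lit 200)))) (XT.nd (nat_lit 78) (nat_lit 0) (nat_lit 0) (XT.lf (nat_lit 0) (nat_lit 33032484681) (nat_lit 152) (nat_lit 48975916247) (nat_lit 0) (nat_lit 27849095448) (nat_lit 1) (nat_lit 5) (nat_lit 3) (nat_lit 4) (nat_lit 1) (nat_lit 4) (nat_lit 295) (nat_lit 226) (nat_lit 199)) (XT.nd (nat_lit 78) (nat_lit 0) (nat_lit 0) (XT.lf (nat_lit 0) (nat_lit 36883804994) (nat_lit 152) (nat_lit 49974357171) (nat_lit 0) (nat_lit 31645471374) (nat_lit 1) (nat_lit 5) (nat_lit 3) (nat_lit 4) (nat_lit 1) (nat_lit 4) (nat_lit 296) (nat_lit 226) (nat_lit 198)) (XT.lf (nat_lit 0) (nat_lit 41019016596) (nat_lit 152) (nat_lit 51094686555) (nat_lit 0) (nat_lit 35729808543) (nat_lit 1) (nat_lit 5) (nat_lit 3) (nat_lit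 4) (nat_lit 1) (nat_lit 4) (nat_lit 297) (nat_lit 226) (nat_lit 197))))) (XT.nd (nat_lit 234) (nat_lit 0) (nat_lit 0) (XT.nd (nat_lit 78) (nat_lit 0) (nat_lit 0) (XT.lf (nat_lit 0) (nat_lit 45462624446) (nat_lit 152) (nat_lit 52343543388) (nat_lit 0) (nat_lit 40126310435) (nat_lit 1) (nat_lit 5) (nat_lit 3) (nat_lit 4) (nat_lit 1) (nat_lit 4) (nat_lit 298) (nat_lit 226) (nat_lit 196)) (XT.nd (nat_lit 78) (nat_lit 0) (nat_lit 0) (XT.lf (nat_lit 0) (nat_lit 50240961032) (nat_lit 152) (nat_lit 53728328304) (nat_lit 0) (nat_lit 44861030396) (nat_lit 1) (nat_lit 5) (nat_lit 3) (nat_lit 4) (nat_lit 1) (nat_lit 4) (nat_lit 299) (nat_lit 226) (nat_lit 195)) (XT.lf (nat_lit 0) (nat_lit 55382342426) (nat_lit 152) (nat_lit 55257247435) (nat_lit 0) (nat_lit 49962026024) (nat_lit 1) (nat_lit 5) (nat_lit 3) (nat_lit 4) (nat_lit 1) (nat_lit 4) (nat_lit 300) (nat_lit 226) (nat_lit 194)))) (XT.nd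 (nat_lit 156) (nat_lit 0) (nat_lit 0) (XT.nd (nat_lit 78) (nat_lit 0) (nat_lit 0) (XT.lf (nat_lit 0) (nat_lit 60917236071) (nat_lit 152) (nat_lit 56939361042) (nat_lit 0) (nat_lit 55459525442) (nat_lit 1) (nat_lit 5) (nat_lit 3) (nat_lit 4) (nat_lit 1) (nat_lit 4) (nat_lit 301) (nat_lit 226) (nat_lit 193)) (XT.lf (nat_lit 0) (nat_lit 66878441337) (nat_lit 152) (nat_lit 58784637206) (nat_lit 0) (nat_lit 61386106425) (nat_lit 1) (nat_lit 5) (nat_lit 3) (nat_lit 4) (nat_lit 1) (nat_lit 4) (nat_lit 302) (nat_lit 226) (nat_lit 192))) (XT.nd (nat_lit 78) (nat_lit 0) (nat_lit 0) (XT.lf (nat_lit 0) (nat_lit 73301283886) (nat_lit 152) (nat_lit 60804010897) (nat_lit 0) (nat_lit 67776889451) (nat_lit 1) (nat_lit 5) (nat_lit 3) (nat_lit 4) (nat_lit 1) (nat_lit 4) (nat_lit 303) (nat_lit 226) (nat_lit 191)) (XT.lf (nat_lit 0) (nat_lit 80223825007) (nat_lit 152) (nat_lit 63009448775) (nat_lit 0)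 (nat_lit 74669745829) (nat_lit 1) (nat_lit 5) (nat_lit 3) (nat_lit 4) (nat_lit 1) (nat_lit 4) (nat_lit 304) (nat_lit 226) (nat_lit 190)))))) (XT.nd (nat_lit 546) (nat_lit 0) (nat_lit 0) (XT.nd (nat_lit 234) (nat_lit 0) (nat_lit 0) (XT.nd (nat_lit 78) (nat_lit 0) (nat_lit 0) (XT.lf (nat_lit 0) (nat_lit 87687087165) (nat_lit 152) (nat_lit 65414020099) (nat_lit 0) (nat_lit 82105522114) (nat_lit 1) (nat_lit 5) (nat_lit 3) (nat_lit 4) (nat_lit 1) (nat_lit 4) (nat_lit 305) (nat_lit 226) (nat_lit 189)) (XT.nd (nat_lit 78) (nat_lit 0) (nat_lit 0) (XT.lf (nat_lit 0) (nat_lit 95735297099) (nat_lit 152) (nat_lit 68031974183) (nat_lit 0) (nat_lit 90128282165) (nat_lit 1) (nat_lit 5) (nat_lit 3) (nat_lit 4) (nat_lit 1) (nat_lit 4) (nat_lit 306) (nat_lit 226) (nat_lit 188)) (XT.lf (nat_lit 0) (nat_lit 104416147905) (nat_lit 152) (nat_lit 70878824828) (nat_lit 0) (nat_lit 98785568265) (nat_lit 1)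 (nat_lit 5) (nat_lit 3) (nat_lit 4) (nat_lit 1) (nat_lit 4) (nat_lit 307) (nat_lit 226) (nat_lit 187)))) (XT.nd (nat_lit 156) (nat_lit 0) (nat_lit 0) (XT.nd (nat_lit 78) (nat_lit 0) (nat_lit 0) (XT.lf (nat_lit 0) (nat_lit 113781081662) (nat_lit 152) (nat_lit 73971442260) (nat_lit 0) (nat_lit 108128682850) (nat_lit 1) (nat_lit 5) (nat_lit 3) (nat_lit 4) (nat_lit 1) (nat_lit 4) (nat_lit 308) (nat_lit 226) (nat_lit 186)) (XT.lf (nat_lit 0) (nat_lit 123885594274) (nat_lit 152) (nat_lit 77328153100) (nat_lit 0) (nat_lit 118212992525) (nat_lit 1) (nat_lit 5) (nat_lit 3) (nat_lit 4) (nat_lit 1) (nat_lit 4) (nat_lit 309) (nat_lit 226) (nat_lit 185))) (XT.nd (nat_lit 78) (nat_lit 0) (nat_lit 0) (XT.lf (nat_lit 0) (nat_lit 134789564334) (nat_lit 152) (nat_lit 80968848970) (nat_lit 0) (nat_lit 129098256161) (nat_lit 1) (nat_lit 5) (nat_lit 3) (nat_lit 4) (nat_lit 1) (nat_lit 4) (nat_lit 310)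 (nat_lit 226) (nat_lit 184)) (XT.lf (nat_lit 0) (nat_lit 146557607960) (nat_lit 152) (nat_lit 84915104362) (nat_lit 0) (nat_lit 140848979025) (nat_lit 1) (nat_lit 5) (nat_lit 3) (nat_lit 4) (nat_lit 1) (nat_lit 4) (nat_lit 311) (nat_lit 226) (nat_lit 183))))) (XT.nd (nat_lit 234) (nat_lit 0) (nat_lit 0) (XT.nd (nat_lit 78) (nat_lit 0) (nat_lit 0) (XT.lf (nat_lit 0) (nat_lit 159259461709) (nat_lit 152) (nat_lit 89190304494) (nat_lit 0) (nat_lit 153534795030) (nat_lit 1) (nat_lit 5) (nat_lit 3) (nat_lit 4) (nat_lit 1) (nat_lit 4) (nat_lit 312) (nat_lit 226) (nat_lit 182)) (XT.nd (nat_lit 78) (nat_lit 0) (nat_lit 0) (XT.lf (nat_lit 0) (nat_lit 172970395823) (nat_lit 152) (nat_lit 93819783885) (nat_lit 0) (nat_lit 167230879382) (nat_lit 1) (nat_lit 5) (nat_lit 3) (nat_lit 4) (nat_lit 1) (nat_lit 4) (nat_lit 313) (nat_lit 226) (nat_lit 181)) (XT.lf (nat_lit 0) (nat_lit 187771660283) (nat_lit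 152) (nat_lit 98830976487) (nat_lit 0) (nat_lit 182018394063) (nat_lit 1) (nat_lit 5) (nat_lit 3) (nat_lit 4) (nat_lit 1) (nat_lit 4) (nat_lit 314) (nat_lit 226) (nat_lit 180)))) (XT.nd (nat_lit 156) (nat_lit 0) (nat_lit 0) (XT.nd (nat_lit 78) (nat_lit 0) (nat_lit 0) (XT.lf (nat_lit 0) (nat_lit 203750966286) (nat_lit 152) (nat_lit 104253578256) (nat_lit 0) (nat_lit 197984968788) (nat_lit 1) (nat_lit 5) (nat_lit 3) (nat_lit 4) (nat_lit 1) (nat_lit 4) (nat_lit 315) (nat_lit 226) (nat_lit 179)) (XT.lf (nat_lit 0) (nat_lit 221003006015) (nat_lit 152) (nat_lit 110119723129) (nat_lit 0) (nat_lit 215225220298) (nat_lit 1) (nat_lit 5) (nat_lit 3) (nat_lit 4) (nat_lit 1) (nat_lit 4) (nat_lit 316) (nat_lit 226) (nat_lit 178))) (XT.nd (nat_lit 78) (nat_lit 0) (nat_lit 0) (XT.lf (nat_lit 0) (nat_lit 239630013780) (nat_lit 152) (nat_lit 116464173446) (nat_lit 0) (nat_lit 233841313045) (nat_lit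 1) (nat_lit 5) (nat_lit 3) (nat_lit 4) (nat_lit 1) (nat_lit 4) (nat_lit 317) (nat_lit 226) (nat_lit 177)) (XT.lf (nat_lit 0) (nat_lit 259742371850) (nat_lit 152) (nat_lit 123324525948) (nat_lit 0) (nat_lit 253943564616) (nat_lit 1) (nat_lit 5) (nat_lit 3) (nat_lit 4) (nat_lit 1) (nat_lit 4) (nat_lit 318) (nat_lit 226) (nat_lit 176))))))) (XT.nd (nat_lit 1014) (nat_lit 0) (nat_lit 0) (XT.nd (nat_lit 468) (nat_lit 0) (nat_lit 0) (XT.nd (nat_lit 234) (nat_lit 0) (nat_lit 0) (XT.nd (nat_lit 78) (nat_lit 0) (nat_lit 0) (XT.lf (nat_lit 0) (nat_lit 281459264568) (nat_lit 152) (nat_lit 130741434578) (nat_lit 0) (nat_lit 275651099465) (nat_lit 1) (nat_lit 5) (nat_lit 3) (nat_lit 4) (nat_lit 1) (nat_lit 4) (nat_lit 319) (nat_lit 226) (nat_lit 175)) (XT.nd (nat_lit 78) (nat_lit 0) (nat_lit 0) (XT.lf (nat_lit 0) (nat_lit 304909384632) (nat_lit 152) (nat_lit 138758851386) (nat_lit 0) (nat_lit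 299092554835) (nat_lit 1) (nat_lit 5) (nat_lit 3) (nat_lit 4) (nat_lit 1) (nat_lit 4) (nat_lit 320) (nat_lit 226) (nat_lit 174)) (XT.lf (nat_lit 0) (nat_lit 330231695716) (nat_lit 152) (nat_lit 147424286990) (nat_lit 0) (nat_lit 324406843055) (nat_lit 1) (nat_lit 5) (nat_lit 3) (nat_lit 4) (nat_lit 1) (nat_lit 4) (nat_lit 321) (nat_lit 226) (nat_lit 173)))) (XT.nd (nat_lit 78) (nat_lit 0) (nat_lit 0) (XT.lf (nat_lit 0) (nat_lit 357576255961) (nat_lit 152) (nat_lit 156789092120) (nat_lit 0) (nat_lit 351743974722) (nat_lit 1) (nat_lit 5) (nat_lit 3) (nat_lit 4) (nat_lit 1) (nat_lit 4) (nat_lit 322) (nat_lit 226) (nat_lit 172)) (XT.nd (nat_lit 78) (nat_lit 0) (nat_lit 0) (XT.lf (nat_lit 0) (nat_lit 387105107204) (nat_lit 152) (nat_lit 166908761918) (nat_lit 0) (nat_lit 381265947652) (nat_lit 1) (nat_lit 5) (nat_lit 3) (nat_lit 4) (nat_lit 1) (nat_lit 4) (nat_lit 323) (nat_lit 226) (nat_lit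 171)) (XT.lf (nat_lit 0) (nat_lit 418993235231) (nat_lit 152) (nat_lit 177843264796) (nat_lit 0) (nat_lit 413147706870) (nat_lit 1) (nat_lit 5) (nat_lit 3) (nat_lit 4) (nat_lit 1) (nat_lit 4) (nat_lit 324) (nat_lit 226) (nat_lit 170))))) (XT.nd (nat_lit 234) (nat_lit 0) (nat_lit 0) (XT.nd (nat_lit 78) (nat_lit 0) (nat_lit 0) (XT.lf (nat_lit 0) (nat_lit 453429606727) (nat_lit 152) (nat_lit 189657397809) (nat_lit 0) (nat_lit 447578181321) (nat_lit 1) (nat_lit 5) (nat_lit 3) (nat_lit 4) (nat_lit 1) (nat_lit 4) (nat_lit 325) (nat_lit 226) (nat_lit 169)) (XT.nd (nat_lit 78) (nat_lit 0) (nat_lit 0) (XT.lf (nat_lit 0) (nat_lit 490618289077) (nat_lit 152) (nat_lit 202421170635) (nat_lit 0) (nat_lit 484761403445) (nat_lit 1) (nat_lit 5) (nat_lit 3) (nat_lit 4) (nat_lit 1) (nat_lit 4) (nat_lit 326) (nat_lit 226) (nat_lit 168)) (XT.lf (nat_lit 0) (nat_lit 530779659659) (nat_lit 152) (nat_lit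 216210220444) (nat_lit 0) (nat_lit 524917718262) (nat_lit 1) (nat_lit 5) (nat_lit 3) (nat_lit 4) (nat_lit 1) (nat_lit 4) (nat_lit 327) (nat_lit 226) (nat_lit 167)))) (XT.nd (nat_lit 156) (nat_lit 0) (nat_lit 0) (XT.nd (nat_lit 78) (nat_lit 0) (nat_lit 0) (XT.lf (nat_lit 0) (nat_lit 574151711781) (nat_lit 152) (nat_lit 231106260126) (nat_lit 0) (nat_lit 568285089119) (nat_lit 1) (nat_lit 5) (nat_lit 3) (nat_lit 4) (nat_lit 1) (nat_lit 4) (nat_lit 328) (nat_lit 226) (nat_lit 166)) (XT.lf (nat_lit 0) (nat_lit 620991465010) (nat_lit 152) (nat_lit 247197562508) (nat_lit 0) (nat_lit 615120507843) (nat_lit 1) (nat_lit 5) (nat_lit 3) (nat_lit 4) (nat_lit 1) (nat_lit 4) (nat_lit 329) (nat_lit 226) (nat_lit 165))) (XT.nd (nat_lit 78) (nat_lit 0) (nat_lit 0) (XT.lf (nat_lit 0) (nat_lit 671576488253) (nat_lit 152) (nat_lit 264579483456) (nat_lit 0) (nat_lit 665701517658) (nat_lit 1) (nat_lit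 5) (nat_lit 3) (nat_lit 4) (nat_lit 1) (nat_lit 4) (nat_lit 330) (nat_lit 226) (nat_lit 164)) (XT.lf (nat_lit 0) (nat_lit 726206544613) (nat_lit 152) (nat_lit 283355026945) (nat_lit 0) (nat_lit 720327857879) (nat_lit 1) (nat_lit 5) (nat_lit 3) (nat_lit 4) (nat_lit 1) (nat_lit 4) (nat_lit 331) (nat_lit 226) (nat_lit 163)))))) (XT.nd (nat_lit 546) (nat_lit 0) (nat_lit 0) (XT.nd (nat_lit 234) (nat_lit 0) (nat_lit 0) (XT.nd (nat_lit 78) (nat_lit 0) (nat_lit 0) (XT.lf (nat_lit 0) (nat_lit 785205367756) (nat_lit 152) (nat_lit 303635455457) (nat_lit 0) (nat_lit 779323240153) (nat_lit 1) (nat_lit 5) (nat_lit 3) (nat_lit 4) (nat_lit 1) (nat_lit 4) (nat_lit 332) (nat_lit 226) (nat_lit 162)) (XT.nd (nat_lit 78) (nat_lit 0) (nat_lit 0) (XT.lf (nat_lit 0) (nat_lit 848922580338) (nat_lit 152) (nat_lit 325540949307) (nat_lit 0) (nat_lit 843037266745) (nat_lit 1) (nat_lit 5) (nat_lit 3) (nat_lit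 4) (nat_lit 1) (nat_lit 4) (nat_lit 333) (nat_lit 226) (nat_lit 161)) (XT.lf (nat_lit 0) (nat_lit 917735765841) (nat_lit 152) (nat_lit 349201318830) (nat_lit 0) (nat_lit 911847502258) (nat_lit 1) (nat_lit 5) (nat_lit 3) (nat_lit 4) (nat_lit 1) (nat_lit 4) (nat_lit 334) (nat_lit 226) (nat_lit 160)))) (XT.nd (nat_lit 156) (nat_lit 0) (nat_lit 0) (XT.nd (nat_lit 78) (nat_lit 0) (nat_lit 0) (XT.lf (nat_lit 0) (nat_lit 992052706105) (nat_lit 152) (nat_lit 374756773623) (nat_lit 0) (nat_lit 986161711049) (nat_lit 1) (nat_lit 5) (nat_lit 3) (nat_lit 4) (nat_lit 1) (nat_lit 4) (nat_lit 335) (nat_lit 226) (nat_lit 159)) (XT.lf (nat_lit 0) (nat_lit 1072313797813) (nat_lit 152) (nat_lit 402358753419) (nat_lit 0) (nat_lit 1066420273615) (nat_lit 1) (nat_lit 5) (nat_lit 3) (nat_lit 4) (nat_lit 1) (nat_lit 4) (nat_lit 336) (nat_lit 226) (nat_lit 158))) (XT.nd (nat_lit 78) (nat_lit 0) (nat_lit 0)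 (XT.lf (nat_lit 0) (nat_lit 1158994662249) (nat_lit 152) (nat_lit 432170825504) (nat_lit 0) (nat_lit 1153098796253) (nat_lit 1) (nat_lit 5) (nat_lit 3) (nat_lit 4) (nat_lit 1) (nat_lit 4) (nat_lit 337) (nat_lit 226) (nat_lit 157)) (XT.lf (nat_lit 0) (nat_lit 1252608963795) (nat_lit 152) (nat_lit 464369654009) (nat_lit 0) (nat_lit 1246710929468) (nat_lit 1) (nat_lit 5) (nat_lit 3) (nat_lit 4) (nat_lit 1) (nat_lit 4) (nat_lit 338) (nat_lit 226) (nat_lit 156))))) (XT.nd (nat_lit 234) (nat_lit 0) (nat_lit 0) (XT.nd (nat_lit 78) (nat_lit 0) (nat_lit 0) (XT.lf (nat_lit 0) (nat_lit 1353711453867) (nat_lit 152) (nat_lit 499146046808) (nat_lit 0) (nat_lit 1347811411826) (nat_lit 1) (nat_lit 5) (nat_lit 3) (nat_lit 4) (nat_lit 1) (nat_lit 4) (nat_lit 339) (nat_lit 226) (nat_lit 155)) (XT.nd (nat_lit 78) (nat_lit 0) (nat_lit 0) (XT.lf (nat_lit 0) (nat_lit 1462901258333) (nat_lit 152) (nat_lit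 536706086228) (nat_lit 0) (nat_lit 1456999357298) (nat_lit 1) (nat_lit 5) (nat_lit 3) (nat_lit 4) (nat_lit 1) (nat_lit 4) (nat_lit 340) (nat_lit 226) (nat_lit 154)) (XT.lf (nat_lit 0) (nat_lit 1580825427886) (nat_lit 152) (nat_lit 577272350281) (nat_lit 0) (nat_lit 1574921805560) (nat_lit 1) (nat_lit 5) (nat_lit 3) (nat_lit 4) (nat_lit 1) (nat_lit 4) (nat_lit 341) (nat_lit 226) (nat_lit 153)))) (XT.nd (nat_lit 156) (nat_lit 0) (nat_lit 0) (XT.nd (nat_lit 78) (nat_lit 0) (nat_lit 0) (XT.lf (nat_lit 0) (nat_lit 1708182772419) (nat_lit 152) (nat_lit 621085231642) (nat_lit 0) (nat_lit 1702277556305) (nat_lit 1) (nat_lit 5) (nat_lit 3) (nat_lit 4) (nat_lit 1) (nat_lit 4) (nat_lit 342) (nat_lit 226) (nat_lit 152)) (XT.lf (nat_lit 0) (nat_lit 1845728002123) (nat_lit 152) (nat_lit 668404362200) (nat_lit 0) (nat_lit 1839821310279) (nat_lit 1) (nat_lit 5) (nat_lit 3) (nat_lit 4) (nat_lit 1)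 (nat_lit 4) (nat_lit 343) (nat_lit 226) (nat_lit 151))) (XT.nd (nat_lit 78) (nat_lit 0) (nat_lit 0) (XT.lf (nat_lit 0) (nat_lit 1994276199839) (nat_lit 152) (nat_lit 719510151619) (nat_lit 0) (nat_lit 1988368141579) (nat_lit 1) (nat_lit 5) (nat_lit 3) (nat_lit 4) (nat_lit 1) (nat_lit 4) (nat_lit 344) (nat_lit 226) (nat_lit 150)) (XT.lf (nat_lit 0) (nat_lit 2154707651185) (nat_lit 152) (nat_lit 774705449020) (nat_lit 0) (nat_lit 2148798327724) (nat_lit 1) (nat_lit 5) (nat_lit 3) (nat_lit 4) (nat_lit 1) (nat_lit 4) (nat_lit 345) (nat_lit 226) (nat_lit 149))))))))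
noncomputable def xc30 : XT := (XT.nd (nat_lit 2106) (nat_lit 0) (nat_lit 0) (XT.nd (nat_lit 1014) (nat_lit 152) (nat_lit 0) (XT.nd (nat_lit 468) (nat_lit 76) (nat_lit 0) (XT.nd (nat_lit 234) (nat_lit 152) (nat_lit 0) (XT.nd (nat_lit 78) (nat_lit 76) (nat_lit 0) (XT.lf (nat_lit 0) (nat_lit 2722293343) (nat_lit 152) (nat_lit 1742238616) (nat_lit 0) (nat_lit 2722293343) (nat_lit 7) (nat_lit 5) (nat_lit 9) (nat_lit 4) (nat_lit 7) (nat_lit 4) (nat_lit 266) (nat_lit 227) (nat_lit 227)) (XT.nd (nat_lit 78) (nat_lit 0) (nat_lit 0) (XT.lf (nat_lit 0) (nat_lit 1495915074) (nat_lit 76) (nat_lit 7144321555) (nat_lit 76) (nat_lit 6591435034) (nat_lit 6) (nat_lit 4) (nat_lit 7) (nat_lit 5) (nat_lit 7) (nat_lit 4) (nat_lit 267) (nat_lit 227) (nat_lit 226)) (XT.lf (nat_lit 0) (nat_lit 6806818353) (nat_lit 76) (nat_lit 5211657675) (nat_lit 76) (nat_lit 4146839191) (nat_lit 6) (nat_lit 4) (nat_lit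 7) (nat_lit 5) (nat_lit 7) (nat_lit 4) (nat_lit 268) (nat_lit 227) (nat_lit 225)))) (XT.nd (nat_lit 78) (nat_lit 152) (nat_lit 0) (XT.lf (nat_lit 0) (nat_lit 12296218226) (nat_lit 76) (nat_lit 3214891237) (nat_lit 76) (nat_lit 1676061676) (nat_lit 6) (nat_lit 4) (nat_lit 7) (nat_lit 5) (nat_lit 7) (nat_lit 4) (nat_lit 269) (nat_lit 227) (nat_lit 224)) (XT.nd (nat_lit 78) (nat_lit 76) (nat_lit 0) (XT.lf (nat_lit 0) (nat_lit 793742101) (nat_lit 152) (nat_lit 326745135) (nat_lit 76) (nat_lit 17181200054) (nat_lit 5) (nat_lit 5) (nat_lit 7) (nat_lit 5) (nat_lit 6) (nat_lit 4) (nat_lit 270) (nat_lit 227) (nat_lit 223)) (XT.lf (nat_lit 0) (nat_lit 3371969315) (nat_lit 152) (nat_lit 14966182588) (nat_lit 0) (nat_lit 1164453755) (nat_lit 4) (nat_lit 5) (nat_lit 6) (nat_lit 4) (nat_lit 4) (nat_lit 4) (nat_lit 271) (nat_lit 227) (nat_lit 222))))) (XT.nd (nat_lit 234) (nat_lit 76) (nat_lit 0)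 (XT.nd (nat_lit 78) (nat_lit 0) (nat_lit 0) (XT.lf (nat_lit 0) (nat_lit 6059899670) (nat_lit 152) (nat_lit 11244223424) (nat_lit 0) (nat_lit 3503971817) (nat_lit 4) (nat_lit 5) (nat_lit 6) (nat_lit 4) (nat_lit 4) (nat_lit 4) (nat_lit 272) (nat_lit 227) (nat_lit 221)) (XT.nd (nat_lit 78) (nat_lit 0) (nat_lit 0) (XT.lf (nat_lit 0) (nat_lit 8838027009) (nat_lit 152) (nat_lit 7431203857) (nat_lit 0) (nat_lit 5959495183) (nat_lit 4) (nat_lit 5) (nat_lit 6) (nat_lit 4) (nat_lit 4) (nat_lit 4) (nat_lit 273) (nat_lit 227) (nat_lit 220)) (XT.lf (nat_lit 0) (nat_lit 11722814311) (nat_lit 152) (nat_lit 3504528217) (nat_lit 0) (nat_lit 8545575100) (nat_lit 4) (nat_lit 5) (nat_lit 6) (nat_lit 4) (nat_lit 4) (nat_lit 4) (nat_lit 274) (nat_lit 227) (nat_lit 219)))) (XT.nd (nat_lit 156) (nat_lit 0) (nat_lit 0) (XT.nd (nat_lit 78) (nat_lit 0) (nat_lit 0) (XT.lf (nat_lit 0) (nat_lit 588512461) (nat_lit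 76) (nat_lit 14156997888) (nat_lit 76) (nat_lit 10703177767) (nat_lit 3) (nat_lit 4) (nat_lit 4) (nat_lit 5) (nat_lit 4) (nat_lit 4) (nat_lit 275) (nat_lit 227) (nat_lit 218)) (XT.lf (nat_lit 0) (nat_lit 5035579528) (nat_lit 76) (nat_lit 12967008586) (nat_lit 76) (nat_lit 9257095028) (nat_lit 3) (nat_lit 4) (nat_lit 4) (nat_lit 5) (nat_lit 4) (nat_lit 4) (nat_lit 276) (nat_lit 227) (nat_lit 217))) (XT.nd (nat_lit 78) (nat_lit 0) (nat_lit 0) (XT.lf (nat_lit 0) (nat_lit 9678483730) (nat_lit 76) (nat_lit 11746142846) (nat_lit 76) (nat_lit 7799105737) (nat_lit 3) (nat_lit 4) (nat_lit 4) (nat_lit 5) (nat_lit 4) (nat_lit 4) (nat_lit 277) (nat_lit 227) (nat_lit 216)) (XT.lf (nat_lit 0) (nat_lit 14544738571) (nat_lit 76) (nat_lit 10487165908) (nat_lit 76) (nat_lit 6320569955) (nat_lit 3) (nat_lit 4) (nat_lit 4) (nat_lit 5) (nat_lit 4) (nat_lit 4) (nat_lit 278) (nat_lit 227) (nat_lit 215))))))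 (XT.nd (nat_lit 546) (nat_lit 0) (nat_lit 0) (XT.nd (nat_lit 234) (nat_lit 152) (nat_lit 0) (XT.nd (nat_lit 78) (nat_lit 0) (nat_lit 0) (XT.lf (nat_lit 0) (nat_lit 19663181118) (nat_lit 76) (nat_lit 9182617169) (nat_lit 76) (nat_lit 4812725990) (nat_lit 3) (nat_lit 4) (nat_lit 4) (nat_lit 5) (nat_lit 4) (nat_lit 4) (nat_lit 279) (nat_lit 227) (nat_lit 214)) (XT.nd (nat_lit 78) (nat_lit 0) (nat_lit 0) (XT.lf (nat_lit 0) (nat_lit 25064142882) (nat_lit 76) (nat_lit 7824765970) (nat_lit 76) (nat_lit 3266638470) (nat_lit 3) (nat_lit 4) (nat_lit 4) (nat_lit 5) (nat_lit 4) (nat_lit 4) (nat_lit 280) (nat_lit 227) (nat_lit 213)) (XT.lf (nat_lit 0) (nat_lit 30779629563) (nat_lit 76) (nat_lit 6405565783) (nat_lit 76) (nat_lit 1673145394) (nat_lit 3) (nat_lit 4) (nat_lit 4) (nat_lit 5) (nat_lit 4) (nat_lit 4) (nat_lit 281) (nat_lit 227) (nat_lit 212)))) (XT.nd (nat_lit 156) (nat_lit 76) (nat_lit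 0) (XT.nd (nat_lit 78) (nat_lit 76) (nat_lit 0) (XT.lf (nat_lit 0) (nat_lit 36843510710) (nat_lit 76) (nat_lit 4916606535) (nat_lit 76) (nat_lit 22803841) (nat_lit 3) (nat_lit 4) (nat_lit 4) (nat_lit 5) (nat_lit 4) (nat_lit 4) (nat_lit 282) (nat_lit 227) (nat_lit 211)) (XT.lf (nat_lit 0) (nat_lit 1609416946) (nat_lit 152) (nat_lit 1695643505) (nat_lit 76) (nat_lit 41638299177) (nat_lit 2) (nat_lit 5) (nat_lit 4) (nat_lit 5) (nat_lit 3) (nat_lit 4) (nat_lit 283) (nat_lit 227) (nat_lit 210))) (XT.nd (nat_lit 78) (nat_lit 0) (nat_lit 0) (XT.lf (nat_lit 0) (nat_lit 1800469155) (nat_lit 76) (nat_lit 1556290087) (nat_lit 152) (nat_lit 45001248795) (nat_lit 1) (nat_lit 5) (nat_lit 2) (nat_lit 5) (nat_lit 3) (nat_lit 4) (nat_lit 284) (nat_lit 227) (nat_lit 209)) (XT.lf (nat_lit 0) (nat_lit 5242989729) (nat_lit 152) (nat_lit 46476573370) (nat_lit 0) (nat_lit 326600334) (nat_lit 1) (nat_lit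 5) (nat_lit 3) (nat_lit 4) (nat_lit 1) (nat_lit 4) (nat_lit 285) (nat_lit 227) (nat_lit 208))))) (XT.nd (nat_lit 234) (nat_lit 0) (nat_lit 0) (XT.nd (nat_lit 78) (nat_lit 0) (nat_lit 0) (XT.lf (nat_lit 0) (nat_lit 7268264839) (nat_lit 152) (nat_lit 46520257054) (nat_lit 0) (nat_lit 2242041359) (nat_lit 1) (nat_lit 5) (nat_lit 3) (nat_lit 4) (nat_lit 1) (nat_lit 4) (nat_lit 286) (nat_lit 227) (nat_lit 207)) (XT.nd (nat_lit 78) (nat_lit 0) (nat_lit 0) (XT.lf (nat_lit 0) (nat_lit 9407157388) (nat_lit 152) (nat_lit 46651419986) (nat_lit 0) (nat_lit 4279235681) (nat_lit 1) (nat_lit 5) (nat_lit 3) (nat_lit 4) (nat_lit 1) (nat_lit 4) (nat_lit 287) (nat_lit 227) (nat_lit 206)) (XT.lf (nat_lit 0) (nat_lit 11672342295) (nat_lit 152) (nat_lit 46870839429) (nat_lit 0) (nat_lit 6450255564) (nat_lit 1) (nat_lit 5) (nat_lit 3) (nat_lit 4) (nat_lit 1) (nat_lit 4) (nat_lit 288) (nat_lit 227) (nat_lit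 205)))) (XT.nd (nat_lit 156) (nat_lit 0) (nat_lit 0) (XT.nd (nat_lit 78) (nat_lit 0) (nat_lit 0) (XT.lf (nat_lit 0) (nat_lit 14077242879) (nat_lit 152) (nat_lit 47179815645) (nat_lit 0) (nat_lit 8767966309) (nat_lit 1) (nat_lit 5) (nat_lit 3) (nat_lit 4) (nat_lit 1) (nat_lit 4) (nat_lit 289) (nat_lit 227) (nat_lit 204)) (XT.lf (nat_lit 0) (nat_lit 16636110401) (nat_lit 152) (nat_lit 47580179605) (nat_lit 0) (nat_lit 11246102500) (nat_lit 1) (nat_lit 5) (nat_lit 3) (nat_lit 4) (nat_lit 1) (nat_lit 4) (nat_lit 290) (nat_lit 227) (nat_lit 203))) (XT.nd (nat_lit 78) (nat_lit 0) (nat_lit 0) (XT.lf (nat_lit 0) (nat_lit 19364108522) (nat_lit 152) (nat_lit 48074303836) (nat_lit 0) (nat_lit 13899349389) (nat_lit 1) (nat_lit 5) (nat_lit 3) (nat_lit 4) (nat_lit 1) (nat_lit 4) (nat_lit 291) (nat_lit 227) (nat_lit 202)) (XT.lf (nat_lit 0) (nat_lit 22277403156) (nat_lit 152) (nat_lit 48665116482)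 (nat_lit 0) (nat_lit 16743429918) (nat_lit 1) (nat_lit 5) (nat_lit 3) (nat_lit 4) (nat_lit 1) (nat_lit 4) (nat_lit 292) (nat_lit 227) (nat_lit 201))))))) (XT.nd (nat_lit 1014) (nat_lit 0) (nat_lit 0) (XT.nd (nat_lit 468) (nat_lit 0) (nat_lit 0) (XT.nd (nat_lit 234) (nat_lit 0) (nat_lit 0) (XT.nd (nat_lit 78) (nat_lit 0) (nat_lit 0) (XT.lf (nat_lit 0) (nat_lit 25393258271) (nat_lit 152) (nat_lit 49356118654) (nat_lit 0) (nat_lit 19795197900) (nat_lit 1) (nat_lit 5) (nat_lit 3) (nat_lit 4) (nat_lit 1) (nat_lit 4) (nat_lit 293) (nat_lit 227) (nat_lit 200)) (XT.nd (nat_lit 78) (nat_lit 0) (nat_lit 0) (XT.lf (nat_lit 0) (nat_lit 28730138195) (nat_lit 152) (nat_lit 50151405181) (nat_lit 0) (nat_lit 23072737884) (nat_lit 1) (nat_lit 5) (nat_lit 3) (nat_lit 4) (nat_lit 1) (nat_lit 4) (nat_lit 294) (nat_lit 227) (nat_lit 199)) (XT.lf (nat_lit 0) (nat_lit 32307817029) (nat_lit 152) (nat_lit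 51055688871) (nat_lit 0) (nat_lit 26595472331) (nat_lit 1) (nat_lit 5) (nat_lit 3) (nat_lit 4) (nat_lit 1) (nat_lit 4) (nat_lit 295) (nat_lit 227) (nat_lit 198)))) (XT.nd (nat_lit 78) (nat_lit 0) (nat_lit 0) (XT.lf (nat_lit 0) (nat_lit 36147495834) (nat_lit 152) (nat_lit 52074328442) (nat_lit 0) (nat_lit 30384276704) (nat_lit 1) (nat_lit 5) (nat_lit 3) (nat_lit 4) (nat_lit 1) (nat_lit 4) (nat_lit 296) (nat_lit 227) (nat_lit 197)) (XT.nd (nat_lit 78) (nat_lit 0) (nat_lit 0) (XT.lf (nat_lit 0) (nat_lit 40271928263) (nat_lit 152) (nat_lit 53213360277) (nat_lit 0) (nat_lit 34461603176) (nat_lit 1) (nat_lit 5) (nat_lit 3) (nat_lit 4) (nat_lit 1) (nat_lit 4) (nat_lit 297) (nat_lit 227) (nat_lit 196)) (XT.lf (nat_lit 0) (nat_lit 44705555396) (nat_lit 152) (nat_lit 54479534195) (nat_lit 0) (nat_lit 38851613682) (nat_lit 1) (nat_lit 5) (nat_lit 3) (nat_lit 4) (nat_lit 1) (nat_lit 4) (nat_lit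 298) (nat_lit 227) (nat_lit 195))))) (XT.nd (nat_lit 234) (nat_lit 0) (nat_lit 0) (XT.nd (nat_lit 78) (nat_lit 0) (nat_lit 0) (XT.lf (nat_lit 0) (nat_lit 49474650578) (nat_lit 152) (nat_lit 55880353448) (nat_lit 0) (nat_lit 43580323100) (nat_lit 1) (nat_lit 5) (nat_lit 3) (nat_lit 4) (nat_lit 1) (nat_lit 4) (nat_lit 299) (nat_lit 227) (nat_lit 194)) (XT.nd (nat_lit 78) (nat_lit 0) (nat_lit 0) (XT.lf (nat_lit 0) (nat_lit 54607475116) (nat_lit 152) (nat_lit 57424119187) (nat_lit 0) (nat_lit 48675753410) (nat_lit 1) (nat_lit 5) (nat_lit 3) (nat_lit 4) (nat_lit 1) (nat_lit 4) (nat_lit 300) (nat_lit 227) (nat_lit 193)) (XT.lf (nat_lit 0) (nat_lit 60134445747) (nat_lit 152) (nat_lit 59119979654) (nat_lit 0) (nat_lit 54168099757) (nat_lit 1) (nat_lit 5) (nat_lit 3) (nat_lit 4) (nat_lit 1) (nat_lit 4) (nat_lit 301) (nat_lit 227) (nat_lit 192)))) (XT.nd (nat_lit 156) (nat_lit 0) (nat_lit 0)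 (XT.nd (nat_lit 78) (nat_lit 0) (nat_lit 0) (XT.lf (nat_lit 0) (nat_lit 66088314889) (nat_lit 152) (nat_lit 60977984392) (nat_lit 0) (nat_lit 60089909376) (nat_lit 1) (nat_lit 5) (nat_lit 3) (nat_lit 4) (nat_lit 1) (nat_lit 4) (nat_lit 302) (nat_lit 227) (nat_lit 191)) (XT.lf (nat_lit 0) (nat_lit 72504364730) (nat_lit 152) (nat_lit 63009143800) (nat_lit 0) (nat_lit 66476274474) (nat_lit 1) (nat_lit 5) (nat_lit 3) (nat_lit 4) (nat_lit 1) (nat_lit 4) (nat_lit 303) (nat_lit 227) (nat_lit 190))) (XT.nd (nat_lit 78) (nat_lit 0) (nat_lit 0) (XT.lf (nat_lit 0) (nat_lit 79420616306) (nat_lit 152) (nat_lit 65225494378) (nat_lit 0) (nat_lit 73365040178) (nat_lit 1) (nat_lit 5) (nat_lit 3) (nat_lit 4) (nat_lit 1) (nat_lit 4) (nat_lit 304) (nat_lit 227) (nat_lit 189)) (XT.lf (nat_lit 0) (nat_lit 86878054812) (nat_lit 152) (nat_lit 67640170055) (nat_lit 0) (nat_lit 80797028801) (nat_lit 1) (nat_lit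 5) (nat_lit 3) (nat_lit 4) (nat_lit 1) (nat_lit 4) (nat_lit 305) (nat_lit 227) (nat_lit 188)))))) (XT.nd (nat_lit 546) (nat_lit 0) (nat_lit 0) (XT.nd (nat_lit 234) (nat_lit 0) (nat_lit 0) (XT.nd (nat_lit 78) (nat_lit 0) (nat_lit 0) (XT.lf (nat_lit 0) (nat_lit 94920872476) (nat_lit 152) (nat_lit 70267480021) (nat_lit 0) (nat_lit 88816281758) (nat_lit 1) (nat_lit 5) (nat_lit 3) (nat_lit 4) (nat_lit 1) (nat_lit 4) (nat_lit 306) (nat_lit 227) (nat_lit 187)) (XT.nd (nat_lit 78) (nat_lit 0) (nat_lit 0) (XT.lf (nat_lit 0) (nat_lit 103596730439) (nat_lit 152) (nat_lit 73122993519) (nat_lit 0) (nat_lit 97470320549) (nat_lit 1) (nat_lit 5) (nat_lit 3) (nat_lit 4) (nat_lit 1) (nat_lit 4) (nat_lit 307) (nat_lit 227) (nat_lit 186)) (XT.lf (nat_lit 0) (nat_lit 112957041193) (nat_lit 152) (nat_lit 76223632112) (nat_lit 0) (nat_lit 106810428366) (nat_lit 1) (nat_lit 5) (nat_lit 3) (nat_lit 4) (nat_lit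 1) (nat_lit 4) (nat_lit 308) (nat_lit 227) (nat_lit 185)))) (XT.nd (nat_lit 156) (nat_lit 0) (nat_lit 0) (XT.nd (nat_lit 78) (nat_lit 0) (nat_lit 0) (XT.lf (nat_lit 0) (nat_lit 123057273247) (nat_lit 152) (nat_lit 79587769953) (nat_lit 0) (nat_lit 116891953996) (nat_lit 1) (nat_lit 5) (nat_lit 3) (nat_lit 4) (nat_lit 1) (nat_lit 4) (nat_lit 309) (nat_lit 227) (nat_lit 184)) (XT.lf (nat_lit 0) (nat_lit 133957279827) (nat_lit 152) (nat_lit 83235342675) (nat_lit 0) (nat_lit 127774639814) (nat_lit 1) (nat_lit 5) (nat_lit 3) (nat_lit 4) (nat_lit 1) (nat_lit 4) (nat_lit 310) (nat_lit 227) (nat_lit 183))) (XT.nd (nat_lit 78) (nat_lit 0) (nat_lit 0) (XT.lf (nat_lit 0) (nat_lit 145721653564) (nat_lit 152) (nat_lit 87187965523) (nat_lit 0) (nat_lit 139522975809) (nat_lit 1) (nat_lit 5) (nat_lit 3) (nat_lit 4) (nat_lit 1) (nat_lit 4) (nat_lit 311) (nat_lit 227) (nat_lit 182)) (XT.lf (nat_lit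 0) (nat_lit 158420109267) (nat_lit 152) (nat_lit 91469061448) (nat_lit 0) (nat_lit 152206581750) (nat_lit 1) (nat_lit 5) (nat_lit 3) (nat_lit 4) (nat_lit 1) (nat_lit 4) (nat_lit 312) (nat_lit 227) (nat_lit 181))))) (XT.nd (nat_lit 234) (nat_lit 0) (nat_lit 0) (XT.nd (nat_lit 78) (nat_lit 0) (nat_lit 0) (XT.lf (nat_lit 0) (nat_lit 172127897043) (nat_lit 152) (nat_lit 96103999906) (nat_lit 0) (nat_lit 165900619746) (nat_lit 1) (nat_lit 5) (nat_lit 3) (nat_lit 4) (nat_lit 1) (nat_lit 4) (nat_lit 313) (nat_lit 227) (nat_lit 180)) (XT.nd (nat_lit 78) (nat_lit 0) (nat_lit 0) (XT.lf (nat_lit 0) (nat_lit 186926248228) (nat_lit 152) (nat_lit 101120247200) (nat_lit 0) (nat_lit 180686239653) (nat_lit 1) (nat_lit 5) (nat_lit 3) (nat_lit 4) (nat_lit 1) (nat_lit 4) (nat_lit 314) (nat_lit 227) (nat_lit 179)) (XT.lf (nat_lit 0) (nat_lit 202902856753) (nat_lit 152) (nat_lit 106547529239) (nat_lit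 0) (nat_lit 196651059958) (nat_lit 1) (nat_lit 5) (nat_lit 3) (nat_lit 4) (nat_lit 1) (nat_lit 4) (nat_lit 315) (nat_lit 227) (nat_lit 178)))) (XT.nd (nat_lit 156) (nat_lit 0) (nat_lit 0) (XT.nd (nat_lit 78) (nat_lit 0) (nat_lit 0) (XT.lf (nat_lit 0) (nat_lit 220152398818) (nat_lit 152) (nat_lit 112418007696) (nat_lit 0) (nat_lit 213889687004) (nat_lit 1) (nat_lit 5) (nat_lit 3) (nat_lit 4) (nat_lit 1) (nat_lit 4) (nat_lit 316) (nat_lit 227) (nat_lit 177)) (XT.lf (nat_lit 0) (nat_lit 238777093931) (nat_lit 152) (nat_lit 118766470590) (nat_lit 0) (nat_lit 232504275619) (nat_lit 1) (nat_lit 5) (nat_lit 3) (nat_lit 4) (nat_lit 1) (nat_lit 4) (nat_lit 317) (nat_lit 227) (nat_lit 176))) (XT.nd (nat_lit 78) (nat_lit 0) (nat_lit 0) (XT.lf (nat_lit 0) (nat_lit 258887310655) (nat_lit 152) (nat_lit 125630538442) (nat_lit 0) (nat_lit 252605134475) (nat_lit 1) (nat_lit 5) (nat_lit 3) (nat_lit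 4) (nat_lit 1) (nat_lit 4) (nat_lit 318) (nat_lit 227) (nat_lit 175)) (XT.lf (nat_lit 0) (nat_lit 280602220647) (nat_lit 152) (nat_lit 133050887210) (nat_lit 0) (nat_lit 274311379773) (nat_lit 1) (nat_lit 5) (nat_lit 3) (nat_lit 4) (nat_lit 1) (nat_lit 4) (nat_lit 319) (nat_lit 227) (nat_lit 174))))))))
noncomputable def xc31 : XT := (XT.nd (nat_lit 33228) (nat_lit 0) (nat_lit 0) (XT.nd (nat_lit 1014) (nat_lit 0) (nat_lit 0) (XT.nd (nat_lit 468) (nat_lit 0) (nat_lit 0) (XT.nd (nat_lit 234) (nat_lit 0) (nat_lit 0) (XT.nd (nat_lit 78) (nat_lit 0) (nat_lit 0) (XT.lf (nat_lit 0) (nat_lit 304050504853) (nat_lit 152) (nat_lit 141071489331) (nat_lit 0) (nat_lit 297751641114) (nat_lit 1) (nat_lit 5) (nat_lit 3) (nat_lit 4) (nat_lit 1) (nat_lit 4) (nat_lit 320) (nat_lit 227) (nat_lit 173)) (XT.nd (nat_lit 78) (nat_lit 0) (nat_lit 0) (XT.lf (nat_lit 0) (nat_lit 329371116069) (nat_lit 152) (nat_lit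 149739874300) (nat_lit 0) (nat_lit 323064823752) (nat_lit 1) (nat_lit 5) (nat_lit 3) (nat_lit 4) (nat_lit 1) (nat_lit 4) (nat_lit 321) (nat_lit 227) (nat_lit 172)) (XT.lf (nat_lit 0) (nat_lit 356714102361) (nat_lit 152) (nat_lit 159107410323) (nat_lit 0) (nat_lit 350400931731) (nat_lit 1) (nat_lit 5) (nat_lit 3) (nat_lit 4) (nat_lit 1) (nat_lit 4) (nat_lit 322) (nat_lit 227) (nat_lit 171)))) (XT.nd (nat_lit 78) (nat_lit 0) (nat_lit 0) (XT.lf (nat_lit 0) (nat_lit 386241496241) (nat_lit 152) (nat_lit 169229608724) (nat_lit 0) (nat_lit 379921956802) (nat_lit 1) (nat_lit 5) (nat_lit 3) (nat_lit 4) (nat_lit 1) (nat_lit 4) (nat_lit 323) (nat_lit 227) (nat_lit 170)) (XT.nd (nat_lit 78) (nat_lit 0) (nat_lit 0) (XT.lf (nat_lit 0) (nat_lit 418128274857) (nat_lit 152) (nat_lit 180166452903) (nat_lit 0) (nat_lit 411802838374) (nat_lit 1) (nat_lit 5) (nat_lit 3) (nat_lit 4) (nat_lit 1) (nat_lit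 4) (nat_lit 324) (nat_lit 227) (nat_lit 169)) (XT.lf (nat_lit 0) (nat_lit 452563396898) (nat_lit 152) (nat_lit 191982753787) (nat_lit 0) (nat_lit 446232500189) (nat_lit 1) (nat_lit 5) (nat_lit 3) (nat_lit 4) (nat_lit 1) (nat_lit 4) (nat_lit 325) (nat_lit 227) (nat_lit 168))))) (XT.nd (nat_lit 234) (nat_lit 0) (nat_lit 0) (XT.nd (nat_lit 78) (nat_lit 0) (nat_lit 0) (XT.lf (nat_lit 0) (nat_lit 489750922347) (nat_lit 152) (nat_lit 204748533900) (nat_lit 0) (nat_lit 483414969872) (nat_lit 1) (nat_lit 5) (nat_lit 3) (nat_lit 4) (nat_lit 1) (nat_lit 4) (nat_lit 326) (nat_lit 227) (nat_lit 167)) (XT.nd (nat_lit 78) (nat_lit 0) (nat_lit 0) (XT.lf (nat_lit 0) (nat_lit 529911221724) (nat_lit 152) (nat_lit 218539442309) (nat_lit 0) (nat_lit 523570587984) (nat_lit 1) (nat_lit 5) (nat_lit 3) (nat_lit 4) (nat_lit 1) (nat_lit 4) (nat_lit 327) (nat_lit 227) (nat_lit 166)) (XT.lf (nat_lit 0) (nat_lit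 573282281988) (nat_lit 152) (nat_lit 233437202917) (nat_lit 0) (nat_lit 566937313745) (nat_lit 1) (nat_lit 5) (nat_lit 3) (nat_lit 4) (nat_lit 1) (nat_lit 4) (nat_lit 328) (nat_lit 227) (nat_lit 165)))) (XT.nd (nat_lit 156) (nat_lit 0) (nat_lit 0) (XT.nd (nat_lit 78) (nat_lit 0) (nat_lit 0) (XT.lf (nat_lit 0) (nat_lit 620121116831) (nat_lit 152) (nat_lit 249530098748) (nat_lit 0) (nat_lit 613772135158) (nat_lit 1) (nat_lit 5) (nat_lit 3) (nat_lit 4) (nat_lit 1) (nat_lit 4) (nat_lit 329) (nat_lit 227) (nat_lit 164)) (XT.lf (nat_lit 0) (nat_lit 670705289717) (nat_lit 152) (nat_lit 266913495112) (nat_lit 0) (nat_lit 664352591906) (nat_lit 1) (nat_lit 5) (nat_lit 3) (nat_lit 4) (nat_lit 1) (nat_lit 4) (nat_lit 330) (nat_lit 227) (nat_lit 163))) (XT.nd (nat_lit 78) (nat_lit 0) (nat_lit 0) (XT.lf (nat_lit 0) (nat_lit 725334558709) (nat_lit 152) (nat_lit 285690404728) (nat_lit 0) (nat_lit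 718978420028) (nat_lit 1) (nat_lit 5) (nat_lit 3) (nat_lit 4) (nat_lit 1) (nat_lit 4) (nat_lit 331) (nat_lit 227) (nat_lit 162)) (XT.lf (nat_lit 0) (nat_lit 784332652808) (nat_lit 152) (nat_lit 305972098171) (nat_lit 0) (nat_lit 777973328137) (nat_lit 1) (nat_lit 5) (nat_lit 3) (nat_lit 4) (nat_lit 1) (nat_lit 4) (nat_lit 332) (nat_lit 227) (nat_lit 161)))))) (XT.nd (nat_lit 546) (nat_lit 0) (nat_lit 0) (XT.nd (nat_lit 234) (nat_lit 0) (nat_lit 0) (XT.nd (nat_lit 78) (nat_lit 0) (nat_lit 0) (XT.lf (nat_lit 0) (nat_lit 848049190348) (nat_lit 152) (nat_lit 327878763255) (nat_lit 0) (nat_lit 841686915687) (nat_lit 1) (nat_lit 5) (nat_lit 3) (nat_lit 4) (nat_lit 1) (nat_lit 4) (nat_lit 333) (nat_lit 227) (nat_lit 160)) (XT.nd (nat_lit 78) (nat_lit 0) (nat_lit 0) (XT.lf (nat_lit 0) (nat_lit 916861750813) (nat_lit 152) (nat_lit 351540217253) (nat_lit 0) (nat_lit 910496744679) (nat_lit 1)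 (nat_lit 5) (nat_lit 3) (nat_lit 4) (nat_lit 1) (nat_lit 4) (nat_lit 334) (nat_lit 227) (nat_lit 159)) (XT.lf (nat_lit 0) (nat_lit 991178112338) (nat_lit 152) (nat_lit 377096676190) (nat_lit 0) (nat_lit 984810577063) (nat_lit 1) (nat_lit 5) (nat_lit 3) (nat_lit 4) (nat_lit 1) (nat_lit 4) (nat_lit 335) (nat_lit 227) (nat_lit 158)))) (XT.nd (nat_lit 156) (nat_lit 0) (nat_lit 0) (XT.nd (nat_lit 78) (nat_lit 0) (nat_lit 0) (XT.lf (nat_lit 0) (nat_lit 1071438668176) (nat_lit 152) (nat_lit 404699585748) (nat_lit 0) (nat_lit 1065068791103) (nat_lit 1) (nat_lit 5) (nat_lit 3) (nat_lit 4) (nat_lit 1) (nat_lit 4) (nat_lit 336) (nat_lit 227) (nat_lit 157)) (XT.lf (nat_lit 0) (nat_lit 1158119036437) (nat_lit 152) (nat_lit 434512518724) (nat_lit 0) (nat_lit 1151746991033) (nat_lit 1) (nat_lit 5) (nat_lit 3) (nat_lit 4) (nat_lit 1) (nat_lit 4) (nat_lit 337) (nat_lit 227) (nat_lit 156))) (XT.nd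 (nat_lit 78) (nat_lit 0) (nat_lit 0) (XT.lf (nat_lit 0) (nat_lit 1251732878561) (nat_lit 152) (nat_lit 466712144351) (nat_lit 0) (nat_lit 1245358825443) (nat_lit 1) (nat_lit 5) (nat_lit 3) (nat_lit 4) (nat_lit 1) (nat_lit 4) (nat_lit 338) (nat_lit 227) (nat_lit 155)) (XT.lf (nat_lit 0) (nat_lit 1352834943243) (nat_lit 152) (nat_lit 501489275226) (nat_lit 0) (nat_lit 1346459031131) (nat_lit 1) (nat_lit 5) (nat_lit 3) (nat_lit 4) (nat_lit 1) (nat_lit 4) (nat_lit 339) (nat_lit 227) (nat_lit 154))))) (XT.nd (nat_lit 234) (nat_lit 0) (nat_lit 0) (XT.nd (nat_lit 78) (nat_lit 0) (nat_lit 0) (XT.lf (nat_lit 0) (nat_lit 1462024353829) (nat_lit 152) (nat_lit 539049998049) (nat_lit 0) (nat_lit 1455646720425) (nat_lit 1) (nat_lit 5) (nat_lit 3) (nat_lit 4) (nat_lit 1) (nat_lit 4) (nat_lit 340) (nat_lit 227) (nat_lit 153)) (XT.nd (nat_lit 78) (nat_lit 0) (nat_lit 0) (XT.lf (nat_lit 0) (nat_lit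 1579948158678) (nat_lit 152) (nat_lit 579616894882) (nat_lit 0) (nat_lit 1573568931486) (nat_lit 1) (nat_lit 5) (nat_lit 3) (nat_lit 4) (nat_lit 1) (nat_lit 4) (nat_lit 341) (nat_lit 227) (nat_lit 152)) (XT.lf (nat_lit 0) (nat_lit 1707305165523) (nat_lit 152) (nat_lit 623430362151) (nat_lit 0) (nat_lit 1700924462601) (nat_lit 1) (nat_lit 5) (nat_lit 3) (nat_lit 4) (nat_lit 1) (nat_lit 4) (nat_lit 342) (nat_lit 227) (nat_lit 151)))) (XT.nd (nat_lit 156) (nat_lit 0) (nat_lit 0) (XT.nd (nat_lit 78) (nat_lit 0) (nat_lit 0) (XT.lf (nat_lit 0) (nat_lit 1844850082552) (nat_lit 152) (nat_lit 670750035217) (nat_lit 0) (nat_lit 1838468013214) (nat_lit 1) (nat_lit 5) (nat_lit 3) (nat_lit 4) (nat_lit 1) (nat_lit 4) (nat_lit 343) (nat_lit 227) (nat_lit 150)) (XT.lf (nat_lit 0) (nat_lit 1993397990754) (nat_lit 152) (nat_lit 721856326958) (nat_lit 0) (nat_lit 1987014656216) (nat_lit 1) (nat_lit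 5) (nat_lit 3) (nat_lit 4) (nat_lit 1) (nat_lit 4) (nat_lit 344) (nat_lit 227) (nat_lit 149))) (XT.nd (nat_lit 31200) (nat_lit 0) (nat_lit 456) (XT.lf (nat_lit 0) (nat_lit 2153829174032) (nat_lit 152) (nat_lit 777052089472) (nat_lit 0) (nat_lit 2147444668012) (nat_lit 1) (nat_lit 5) (nat_lit 3) (nat_lit 4) (nat_lit 1) (nat_lit 4) (nat_lit 345) (nat_lit 227) (nat_lit 148)) (XT.lf (nat_lit 0) (nat_lit 5607024) (nat_lit 152) (nat_lit 6425232519) (nat_lit 0) (nat_lit 5607024) (nat_lit 7) (nat_lit 5) (nat_lit 9) (nat_lit 4) (nat_lit 7) (nat_lit 4) (nat_lit 264) (nat_lit 228) (nat_lit 228))))))) (XT.nd (nat_lit 1014) (nat_lit 152) (nat_lit 0) (XT.nd (nat_lit 468) (nat_lit 152) (nat_lit 0) (XT.nd (nat_lit 234) (nat_lit 76) (nat_lit 0) (XT.nd (nat_lit 78) (nat_lit 76) (nat_lit 0) (XT.lf (nat_lit 0) (nat_lit 2954145885) (nat_lit 152) (nat_lit 8279437986) (nat_lit 0) (nat_lit 2357028443) (nat_lit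 7) (nat_lit 5) (nat_lit 9) (nat_lit 4) (nat_lit 7) (nat_lit 4) (nat_lit 265) (nat_lit 228) (nat_lit 227)) (XT.nd (nat_lit 78) (nat_lit 76) (nat_lit 0) (XT.lf (nat_lit 0) (nat_lit 5957622517) (nat_lit 152) (nat_lit 3615725808) (nat_lit 0) (nat_lit 4807618554) (nat_lit 7) (nat_lit 5) (nat_lit 9) (nat_lit 4) (nat_lit 7) (nat_lit 4) (nat_lit 266) (nat_lit 228) (nat_lit 226)) (XT.lf (nat_lit 0) (nat_lit 1229829354) (nat_lit 76) (nat_lit 7839190394) (nat_lit 76) (nat_lit 6177254468) (nat_lit 6) (nat_lit 4) (nat_lit 7) (nat_lit 5) (nat_lit 7) (nat_lit 4) (nat_lit 267) (nat_lit 228) (nat_lit 225)))) (XT.nd (nat_lit 78) (nat_lit 76) (nat_lit 0) (XT.lf (nat_lit 0) (nat_lit 6422282792) (nat_lit 76) (nat_lit 5950041203) (nat_lit 76) (nat_lit 3814094200) (nat_lit 6) (nat_lit 4) (nat_lit 7) (nat_lit 5) (nat_lit 7) (nat_lit 4) (nat_lit 268) (nat_lit 228) (nat_lit 224)) (XT.nd (nat_lit 78) (nat_lit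 76) (nat_lit 0) (XT.lf (nat_lit 0) (nat_lit 11802006887) (nat_lit 76) (nat_lit 3993566144) (nat_lit 76) (nat_lit 1418719995) (nat_lit 6) (nat_lit 4) (nat_lit 7) (nat_lit 5) (nat_lit 7) (nat_lit 4) (nat_lit 269) (nat_lit 228) (nat_lit 223)) (XT.lf (nat_lit 0) (nat_lit 971885202) (nat_lit 152) (nat_lit 959713025) (nat_lit 76) (nat_lit 16402423220) (nat_lit 5) (nat_lit 5) (nat_lit 7) (nat_lit 5) (nat_lit 6) (nat_lit 4) (nat_lit 270) (nat_lit 228) (nat_lit 222))))) (XT.nd (nat_lit 234) (nat_lit 76) (nat_lit 0) (XT.nd (nat_lit 78) (nat_lit 0) (nat_lit 0) (XT.lf (nat_lit 0) (nat_lit 3449345011) (nat_lit 152) (nat_lit 15753497198) (nat_lit 0) (nat_lit 340530639) (nat_lit 4) (nat_lit 5) (nat_lit 6) (nat_lit 4) (nat_lit 4) (nat_lit 4) (nat_lit 271) (nat_lit 228) (nat_lit 221)) (XT.nd (nat_lit 78) (nat_lit 0) (nat_lit 0) (XT.lf (nat_lit 0) (nat_lit 6077257364) (nat_lit 152) (nat_lit 12130911270)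 (nat_lit 0) (nat_lit 2645839017) (nat_lit 4) (nat_lit 5) (nat_lit 6) (nat_lit 4) (nat_lit 4) (nat_lit 4) (nat_lit 272) (nat_lit 228) (nat_lit 220)) (XT.lf (nat_lit 0) (nat_lit 8799812480) (nat_lit 152) (nat_lit 8409903959) (nat_lit 0) (nat_lit 5069686749) (nat_lit 4) (nat_lit 5) (nat_lit 6) (nat_lit 4) (nat_lit 4) (nat_lit 4) (nat_lit 273) (nat_lit 228) (nat_lit 219)))) (XT.nd (nat_lit 156) (nat_lit 76) (nat_lit 0) (XT.nd (nat_lit 78) (nat_lit 0) (nat_lit 0) (XT.lf (nat_lit 0) (nat_lit 11633144019) (nat_lit 152) (nat_lit 4568424852) (nat_lit 0) (nat_lit 7626437377) (nat_lit 4) (nat_lit 5) (nat_lit 6) (nat_lit 4) (nat_lit 4) (nat_lit 4) (nat_lit 274) (nat_lit 228) (nat_lit 218)) (XT.lf (nat_lit 0) (nat_lit 14594042093) (nat_lit 152) (nat_lit 583709629) (nat_lit 0) (nat_lit 10331242016) (nat_lit 4) (nat_lit 5) (nat_lit 6) (nat_lit 4) (nat_lit 4) (nat_lit 4) (nat_lit 275) (nat_lit 228)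 (nat_lit 217))) (XT.nd (nat_lit 78) (nat_lit 0) (nat_lit 0) (XT.lf (nat_lit 0) (nat_lit 3755731750) (nat_lit 76) (nat_lit 14034646454) (nat_lit 76) (nat_lit 9534722825) (nat_lit 3) (nat_lit 4) (nat_lit 4) (nat_lit 5) (nat_lit 4) (nat_lit 4) (nat_lit 276) (nat_lit 228) (nat_lit 216)) (XT.lf (nat_lit 0) (nat_lit 8327442829) (nat_lit 76) (nat_lit 12842414398) (nat_lit 76) (nat_lit 8122931924) (nat_lit 3) (nat_lit 4) (nat_lit 4) (nat_lit 5) (nat_lit 4) (nat_lit 4) (nat_lit 277) (nat_lit 228) (nat_lit 215)))))) (XT.nd (nat_lit 546) (nat_lit 76) (nat_lit 0) (XT.nd (nat_lit 234) (nat_lit 76) (nat_lit 0) (XT.nd (nat_lit 78) (nat_lit 0) (nat_lit 0) (XT.lf (nat_lit 0) (nat_lit 13127778111) (nat_lit 76) (nat_lit 11609950131) (nat_lit 76) (nat_lit 6687172431) (nat_lit 3) (nat_lit 4) (nat_lit 4) (nat_lit 5) (nat_lit 4) (nat_lit 4) (nat_lit 278) (nat_lit 228) (nat_lit 214)) (XT.nd (nat_lit 78)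 (nat_lit 0) (nat_lit 0) (XT.lf (nat_lit 0) (nat_lit 18185184030) (nat_lit 76) (nat_lit 10329950160) (nat_lit 76) (nat_lit 5218936140) (nat_lit 3) (nat_lit 4) (nat_lit 4) (nat_lit 5) (nat_lit 4) (nat_lit 4) (nat_lit 279) (nat_lit 228) (nat_lit 213)) (XT.lf (nat_lit 0) (nat_lit 23529630398) (nat_lit 76) (nat_lit 8994829301) (nat_lit 76) (nat_lit 3709522391) (nat_lit 3) (nat_lit 4) (nat_lit 4) (nat_lit 5) (nat_lit 4) (nat_lit 4) (nat_lit 280) (nat_lit 228) (nat_lit 212)))) (XT.nd (nat_lit 156) (nat_lit 76) (nat_lit 0) (XT.nd (nat_lit 78) (nat_lit 0) (nat_lit 0) (XT.lf (nat_lit 0) (nat_lit 29192788007) (nat_lit 76) (nat_lit 7596675727) (nat_lit 76) (nat_lit 2149986512) (nat_lit 3) (nat_lit 4) (nat_lit 4) (nat_lit 5) (nat_lit 4) (nat_lit 4) (nat_lit 281) (nat_lit 228) (nat_lit 211)) (XT.lf (nat_lit 0) (nat_lit 35208216312) (nat_lit 76) (nat_lit 6127204083) (nat_lit 76) (nat_lit 531086808)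 (nat_lit 3) (nat_lit 4) (nat_lit 4) (nat_lit 5) (nat_lit 4) (nat_lit 4) (nat_lit 282) (nat_lit 228) (nat_lit 210))) (XT.nd (nat_lit 78) (nat_lit 0) (nat_lit 0) (XT.lf (nat_lit 0) (nat_lit 1098903870) (nat_lit 152) (nat_lit 3448756538) (nat_lit 76) (nat_lit 40482612443) (nat_lit 2) (nat_lit 5) (nat_lit 4) (nat_lit 5) (nat_lit 3) (nat_lit 4) (nat_lit 283) (nat_lit 228) (nat_lit 209)) (XT.lf (nat_lit 0) (nat_lit 2777336987) (nat_lit 152) (nat_lit 85726133) (nat_lit 76) (nat_lit 45587497403) (nat_lit 2) (nat_lit 5) (nat_lit 4) (nat_lit 5) (nat_lit 3) (nat_lit 4) (nat_lit 284) (nat_lit 228) (nat_lit 208))))) (XT.nd (nat_lit 234) (nat_lit 0) (nat_lit 0) (XT.nd (nat_lit 78) (nat_lit 0) (nat_lit 0) (XT.lf (nat_lit 0) (nat_lit 3645883923) (nat_lit 76) (nat_lit 982525596) (nat_lit 152) (nat_lit 47513236192) (nat_lit 1) (nat_lit 5) (nat_lit 2) (nat_lit 5) (nat_lit 3) (nat_lit 4) (nat_lit 285)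 (nat_lit 228) (nat_lit 207)) (XT.nd (nat_lit 78) (nat_lit 0) (nat_lit 0) (XT.lf (nat_lit 0) (nat_lit 6606783438) (nat_lit 152) (nat_lit 48556192898) (nat_lit 0) (nat_lit 966929768) (nat_lit 1) (nat_lit 5) (nat_lit 3) (nat_lit 4) (nat_lit 1) (nat_lit 4) (nat_lit 286) (nat_lit 228) (nat_lit 206)) (XT.lf (nat_lit 0) (nat_lit 8724128369) (nat_lit 152) (nat_lit 48724742116) (nat_lit 0) (nat_lit 2990109674) (nat_lit 1) (nat_lit 5) (nat_lit 3) (nat_lit 4) (nat_lit 1) (nat_lit 4) (nat_lit 287) (nat_lit 228) (nat_lit 205)))) (XT.nd (nat_lit 156) (nat_lit 0) (nat_lit 0) (XT.nd (nat_lit 78) (nat_lit 0) (nat_lit 0) (XT.lf (nat_lit 0) (nat_lit 10969361778) (nat_lit 152) (nat_lit 48978778491) (nat_lit 0) (nat_lit 5148153245) (nat_lit 1) (nat_lit 5) (nat_lit 3) (nat_lit 4) (nat_lit 1) (nat_lit 4) (nat_lit 288) (nat_lit 228) (nat_lit 204)) (XT.lf (nat_lit 0) (nat_lit 13355788752) (nat_lit 152) (nat_lit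 49319807422) (nat_lit 0) (nat_lit 7453848888) (nat_lit 1) (nat_lit 5) (nat_lit 3) (nat_lit 4) (nat_lit 1) (nat_lit 4) (nat_lit 289) (nat_lit 228) (nat_lit 203))) (XT.nd (nat_lit 78) (nat_lit 0) (nat_lit 0) (XT.lf (nat_lit 0) (nat_lit 15897551081) (nat_lit 152) (nat_lit 49749849822) (nat_lit 0) (nat_lit 9920859984) (nat_lit 1) (nat_lit 5) (nat_lit 3) (nat_lit 4) (nat_lit 1) (nat_lit 4) (nat_lit 290) (nat_lit 228) (nat_lit 202)) (XT.lf (nat_lit 0) (nat_lit 18609711059) (nat_lit 152) (nat_lit 50271454089) (nat_lit 0) (nat_lit 12563805858) (nat_lit 1) (nat_lit 5) (nat_lit 3) (nat_lit 4) (nat_lit 1) (nat_lit 4) (nat_lit 291) (nat_lit 228) (nat_lit 201))))))))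
noncomputable def xc32 : XT := (XT.nd (nat_lit 2028) (nat_lit 0) (nat_lit 0) (XT.nd (nat_lit 1014) (nat_lit 0) (nat_lit 0) (XT.nd (nat_lit 468) (nat_lit 0) (nat_lit 0) (XT.nd (nat_lit 234) (nat_lit 0) (nat_lit 0) (XT.nd (nat_lit 78) (nat_lit 0) (nat_lit 0) (XT.lf (nat_lit 0) (nat_lit 21508340746) (nat_lit 152) (nat_lit 50887711213) (nat_lit 0) (nat_lit 15398348411) (nat_lit 1) (nat_lit 5) (nat_lit 3) (nat_lit 4) (nat_lit 1) (nat_lit 4) (nat_lit 292) (nat_lit 228) (nat_lit 200)) (XT.nd (nat_lit 78) (nat_lit 0) (nat_lit 0) (XT.lf (nat_lit 0) (nat_lit 24610617207) (nat_lit 152) (nat_lit 51602273088) (nat_lit 0) (nat_lit 18441284933) (nat_lit 1) (nat_lit 5) (nat_lit 3) (nat_lit 4) (nat_lit 1) (nat_lit 4) (nat_lit 293) (nat_lit 228) (nat_lit 199)) (XT.lf (nat_lit 0) (nat_lit 27934924302) (nat_lit 152) (nat_lit 52419374153) (nat_lit 0) (nat_lit 21710647641) (nat_lit 1) (nat_lit 5) (nat_lit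 3) (nat_lit 4) (nat_lit 1) (nat_lit 4) (nat_lit 294) (nat_lit 228) (nat_lit 198)))) (XT.nd (nat_lit 78) (nat_lit 0) (nat_lit 0) (XT.lf (nat_lit 0) (nat_lit 31500961629) (nat_lit 152) (nat_lit 53343856490) (nat_lit 0) (nat_lit 25225810535) (nat_lit 1) (nat_lit 5) (nat_lit 3) (nat_lit 4) (nat_lit 1) (nat_lit 4) (nat_lit 295) (nat_lit 228) (nat_lit 197)) (XT.nd (nat_lit 78) (nat_lit 0) (nat_lit 0) (XT.lf (nat_lit 0) (nat_lit 35329861261) (nat_lit 152) (nat_lit 54381198513) (nat_lit 0) (nat_lit 29007604210) (nat_lit 1) (nat_lit 5) (nat_lit 3) (nat_lit 4) (nat_lit 1) (nat_lit 4) (nat_lit 296) (nat_lit 228) (nat_lit 196)) (XT.lf (nat_lit 0) (nat_lit 39444312973) (nat_lit 152) (nat_lit 55537547432) (nat_lit 0) (nat_lit 33078439295) (nat_lit 1) (nat_lit 5) (nat_lit 3) (nat_lit 4) (nat_lit 1) (nat_lit 4) (nat_lit 297) (nat_lit 228) (nat_lit 195))))) (XT.nd (nat_lit 234) (nat_lit 0) (nat_lit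 0) (XT.nd (nat_lit 78) (nat_lit 0) (nat_lit 0) (XT.lf (nat_lit 0) (nat_lit 43868698701) (nat_lit 152) (nat_lit 56819755687) (nat_lit 0) (nat_lit 37462439259) (nat_lit 1) (nat_lit 5) (nat_lit 3) (nat_lit 4) (nat_lit 1) (nat_lit 4) (nat_lit 298) (nat_lit 228) (nat_lit 194)) (XT.nd (nat_lit 78) (nat_lit 0) (nat_lit 0) (XT.lf (nat_lit 0) (nat_lit 48629237028) (nat_lit 152) (nat_lit 58235421549) (nat_lit 0) (nat_lit 42185583359) (nat_lit 1) (nat_lit 5) (nat_lit 3) (nat_lit 4) (nat_lit 1) (nat_lit 4) (nat_lit 299) (nat_lit 228) (nat_lit 193)) (XT.lf (nat_lit 0) (nat_lit 53754138552) (nat_lit 152) (nat_lit 59792934148) (nat_lit 0) (nat_lit 47275860598) (nat_lit 1) (nat_lit 5) (nat_lit 3) (nat_lit 4) (nat_lit 1) (nat_lit 4) (nat_lit 300) (nat_lit 228) (nat_lit 192)))) (XT.nd (nat_lit 156) (nat_lit 0) (nat_lit 0) (XT.nd (nat_lit 78) (nat_lit 0) (nat_lit 0) (XT.lf (nat_lit 0) (nat_lit 59273773058)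 (nat_lit 152) (nat_lit 61501523189) (nat_lit 0) (nat_lit 52763435582) (nat_lit 1) (nat_lit 5) (nat_lit 3) (nat_lit 4) (nat_lit 1) (nat_lit 4) (nat_lit 301) (nat_lit 228) (nat_lit 191)) (XT.lf (nat_lit 0) (nat_lit 65220849492) (nat_lit 152) (nat_lit 63371313644) (nat_lit 0) (nat_lit 58680827273) (nat_lit 1) (nat_lit 5) (nat_lit 3) (nat_lit 4) (nat_lit 1) (nat_lit 4) (nat_lit 302) (nat_lit 228) (nat_lit 190))) (XT.nd (nat_lit 78) (nat_lit 0) (nat_lit 0) (XT.lf (nat_lit 0) (nat_lit 71630609789) (nat_lit 152) (nat_lit 65413385753) (nat_lit 0) (nat_lit 65063101697) (nat_lit 1) (nat_lit 5) (nat_lit 3) (nat_lit 4) (nat_lit 1) (nat_lit 4) (nat_lit 303) (nat_lit 228) (nat_lit 189)) (XT.lf (nat_lit 0) (nat_lit 78541037713) (nat_lit 152) (nat_lit 67639840683) (nat_lit 0) (nat_lit 71948079738) (nat_lit 1) (nat_lit 5) (nat_lit 3) (nat_lit 4) (nat_lit 1) (nat_lit 4) (nat_lit 304) (nat_lit 228)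 (nat_lit 188)))))) (XT.nd (nat_lit 468) (nat_lit 0) (nat_lit 0) (XT.nd (nat_lit 234) (nat_lit 0) (nat_lit 0) (XT.nd (nat_lit 78) (nat_lit 0) (nat_lit 0) (XT.lf (nat_lit 0) (nat_lit 85993083948) (nat_lit 152) (nat_lit 70063872242) (nat_lit 0) (nat_lit 79376561267) (nat_lit 1) (nat_lit 5) (nat_lit 3) (nat_lit 4) (nat_lit 1) (nat_lit 4) (nat_lit 305) (nat_lit 228) (nat_lit 187)) (XT.nd (nat_lit 78) (nat_lit 0) (nat_lit 0) (XT.lf (nat_lit 0) (nat_lit 94030908769) (nat_lit 152) (nat_lit 72699845061) (nat_lit 0) (nat_lit 87392566916) (nat_lit 1) (nat_lit 5) (nat_lit 3) (nat_lit 4) (nat_lit 1) (nat_lit 4) (nat_lit 306) (nat_lit 228) (nat_lit 186)) (XT.lf (nat_lit 0) (nat_lit 102702143729) (nat_lit 152) (nat_lit 75563379721) (nat_lit 0) (nat_lit 96043598939) (nat_lit 1) (nat_lit 5) (nat_lit 3) (nat_lit 4) (nat_lit 1) (nat_lit 4) (nat_lit 307) (nat_lit 228) (nat_lit 185)))) (XT.nd (nat_lit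 78) (nat_lit 0) (nat_lit 0) (XT.lf (nat_lit 0) (nat_lit 112058173925) (nat_lit 152) (nat_lit 78671445314) (nat_lit 0) (nat_lit 105380922711) (nat_lit 1) (nat_lit 5) (nat_lit 3) (nat_lit 4) (nat_lit 1) (nat_lit 4) (nat_lit 308) (nat_lit 228) (nat_lit 184)) (XT.nd (nat_lit 78) (nat_lit 0) (nat_lit 0) (XT.lf (nat_lit 0) (nat_lit 122154442499) (nat_lit 152) (nat_lit 82042460008) (nat_lit 0) (nat_lit 115459870523) (nat_lit 1) (nat_lit 5) (nat_lit 3) (nat_lit 4) (nat_lit 1) (nat_lit 4) (nat_lit 309) (nat_lit 228) (nat_lit 183)) (XT.lf (nat_lit 0) (nat_lit 133050779190) (nat_lit 152) (nat_lit 85696400185) (nat_lit 0) (nat_lit 126340169471) (nat_lit 1) (nat_lit 5) (nat_lit 3) (nat_lit 4) (nat_lit 1) (nat_lit 4) (nat_lit 310) (nat_lit 228) (nat_lit 182))))) (XT.nd (nat_lit 234) (nat_lit 0) (nat_lit 0) (XT.nd (nat_lit 78) (nat_lit 0) (nat_lit 0) (XT.lf (nat_lit 0) (nat_lit 144811754883) (nat_lit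 152) (nat_lit 89654918826) (nat_lit 0) (nat_lit 138086295402) (nat_lit 1) (nat_lit 5) (nat_lit 3) (nat_lit 4) (nat_lit 1) (nat_lit 4) (nat_lit 311) (nat_lit 228) (nat_lit 181)) (XT.nd (nat_lit 78) (nat_lit 0) (nat_lit 0) (XT.lf (nat_lit 0) (nat_lit 157507064248) (nat_lit 152) (nat_lit 93941473818) (nat_lit 0) (nat_lit 150767854987) (nat_lit 1) (nat_lit 5) (nat_lit 3) (nat_lit 4) (nat_lit 1) (nat_lit 4) (nat_lit 312) (nat_lit 228) (nat_lit 180)) (XT.lf (nat_lit 0) (nat_lit 171211938748) (nat_lit 152) (nat_lit 98581466968) (nat_lit 0) (nat_lit 164459998210) (nat_lit 1) (nat_lit 5) (nat_lit 3) (nat_lit 4) (nat_lit 1) (nat_lit 4) (nat_lit 313) (nat_lit 228) (nat_lit 179)))) (XT.nd (nat_lit 156) (nat_lit 0) (nat_lit 0) (XT.nd (nat_lit 78) (nat_lit 0) (nat_lit 0) (XT.lf (nat_lit 0) (nat_lit 186007592454) (nat_lit 152) (nat_lit 103602394532) (nat_lit 0) (nat_lit 179243863696) (nat_lit 1)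 (nat_lit 5) (nat_lit 3) (nat_lit 4) (nat_lit 1) (nat_lit 4) (nat_lit 314) (nat_lit 228) (nat_lit 178)) (XT.lf (nat_lit 0) (nat_lit 201981703315) (nat_lit 152) (nat_lit 109034010155) (nat_lit 0) (nat_lit 195207059538) (nat_lit 1) (nat_lit 5) (nat_lit 3) (nat_lit 4) (nat_lit 1) (nat_lit 4) (nat_lit 315) (nat_lit 228) (nat_lit 177))) (XT.nd (nat_lit 78) (nat_lit 0) (nat_lit 0) (XT.lf (nat_lit 0) (nat_lit 219228932727) (nat_lit 152) (nat_lit 114908501189) (nat_lit 0) (nat_lit 212444182452) (nat_lit 1) (nat_lit 5) (nat_lit 3) (nat_lit 4) (nat_lit 1) (nat_lit 4) (nat_lit 316) (nat_lit 228) (nat_lit 176)) (XT.lf (nat_lit 0) (nat_lit 237851486495) (nat_lit 152) (nat_lit 121260679432) (nat_lit 0) (nat_lit 231057378351) (nat_lit 1) (nat_lit 5) (nat_lit 3) (nat_lit 4) (nat_lit 1) (nat_lit 4) (nat_lit 317) (nat_lit 228) (nat_lit 175))))))) (XT.nd (nat_lit 1014) (nat_lit 0) (nat_lit 0) (XT.nd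 (nat_lit 468) (nat_lit 0) (nat_lit 0) (XT.nd (nat_lit 234) (nat_lit 0) (nat_lit 0) (XT.nd (nat_lit 78) (nat_lit 0) (nat_lit 0) (XT.lf (nat_lit 0) (nat_lit 257959720494) (nat_lit 152) (nat_lit 128128187423) (nat_lit 0) (nat_lit 251156947656) (nat_lit 1) (nat_lit 5) (nat_lit 3) (nat_lit 4) (nat_lit 1) (nat_lit 4) (nat_lit 318) (nat_lit 228) (nat_lit 174)) (XT.nd (nat_lit 78) (nat_lit 0) (nat_lit 0) (XT.lf (nat_lit 0) (nat_lit 279672794627) (nat_lit 152) (nat_lit 135551721504) (nat_lit 0) (nat_lit 272861998925) (nat_lit 1) (nat_lit 5) (nat_lit 3) (nat_lit 4) (nat_lit 1) (nat_lit 4) (nat_lit 319) (nat_lit 228) (nat_lit 173)) (XT.lf (nat_lit 0) (nat_lit 303119378964) (nat_lit 152) (nat_lit 143575272990) (nat_lit 0) (nat_lit 296301154684) (nat_lit 1) (nat_lit 5) (nat_lit 3) (nat_lit 4) (nat_lit 1) (nat_lit 4) (nat_lit 320) (nat_lit 228) (nat_lit 172)))) (XT.nd (nat_lit 78) (nat_lit 0) (nat_lit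 0) (XT.lf (nat_lit 0) (nat_lit 328438416228) (nat_lit 152) (nat_lit 152246388851) (nat_lit 0) (nat_lit 321613313635) (nat_lit 1) (nat_lit 5) (nat_lit 3) (nat_lit 4) (nat_lit 1) (nat_lit 4) (nat_lit 321) (nat_lit 228) (nat_lit 171)) (XT.nd (nat_lit 78) (nat_lit 0) (nat_lit 0) (XT.lf (nat_lit 0) (nat_lit 355779945157) (nat_lit 152) (nat_lit 161616453478) (nat_lit 0) (nat_lit 348948473755) (nat_lit 1) (nat_lit 5) (nat_lit 3) (nat_lit 4) (nat_lit 1) (nat_lit 4) (nat_lit 322) (nat_lit 228) (nat_lit 170)) (XT.lf (nat_lit 0) (nat_lit 385305989626) (nat_lit 152) (nat_lit 171740993180) (nat_lit 0) (nat_lit 378468621180) (nat_lit 1) (nat_lit 5) (nat_lit 3) (nat_lit 4) (nat_lit 1) (nat_lit 4) (nat_lit 323) (nat_lit 228) (nat_lit 169))))) (XT.nd (nat_lit 234) (nat_lit 0) (nat_lit 0) (XT.nd (nat_lit 78) (nat_lit 0) (nat_lit 0) (XT.lf (nat_lit 0) (nat_lit 417191518788) (nat_lit 152) (nat_lit 182680005229)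 (nat_lit 0) (nat_lit 410348690115) (nat_lit 1) (nat_lit 5) (nat_lit 3) (nat_lit 4) (nat_lit 1) (nat_lit 4) (nat_lit 324) (nat_lit 228) (nat_lit 168)) (XT.nd (nat_lit 78) (nat_lit 0) (nat_lit 0) (XT.lf (nat_lit 0) (nat_lit 451625483928) (nat_lit 152) (nat_lit 194498313401) (nat_lit 0) (nat_lit 444777599489) (nat_lit 1) (nat_lit 5) (nat_lit 3) (nat_lit 4) (nat_lit 1) (nat_lit 4) (nat_lit 325) (nat_lit 228) (nat_lit 167)) (XT.lf (nat_lit 0) (nat_lit 488811938171) (nat_lit 152) (nat_lit 207265952114) (nat_lit 0) (nat_lit 481959372468) (nat_lit 1) (nat_lit 5) (nat_lit 3) (nat_lit 4) (nat_lit 1) (nat_lit 4) (nat_lit 326) (nat_lit 228) (nat_lit 166)))) (XT.nd (nat_lit 156) (nat_lit 0) (nat_lit 0) (XT.nd (nat_lit 78) (nat_lit 0) (nat_lit 0) (XT.lf (nat_lit 0) (nat_lit 528971245691) (nat_lit 152) (nat_lit 221058581449) (nat_lit 0) (nat_lit 522114345484) (nat_lit 1) (nat_lit 5) (nat_lit 3)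 (nat_lit 4) (nat_lit 1) (nat_lit 4) (nat_lit 327) (nat_lit 228) (nat_lit 165)) (XT.lf (nat_lit 0) (nat_lit 572341387569) (nat_lit 152) (nat_lit 235957935506) (nat_lit 0) (nat_lit 565480473933) (nat_lit 1) (nat_lit 5) (nat_lit 3) (nat_lit 4) (nat_lit 1) (nat_lit 4) (nat_lit 328) (nat_lit 228) (nat_lit 164))) (XT.nd (nat_lit 78) (nat_lit 0) (nat_lit 0) (XT.lf (nat_lit 0) (nat_lit 619179372054) (nat_lit 152) (nat_lit 252052306754) (nat_lit 0) (nat_lit 612314742279) (nat_lit 1) (nat_lit 5) (nat_lit 3) (nat_lit 4) (nat_lit 1) (nat_lit 4) (nat_lit 329) (nat_lit 228) (nat_lit 163)) (XT.lf (nat_lit 0) (nat_lit 669762757572) (nat_lit 152) (nat_lit 269437069244) (nat_lit 0) (nat_lit 662894686928) (nat_lit 1) (nat_lit 5) (nat_lit 3) (nat_lit 4) (nat_lit 1) (nat_lit 4) (nat_lit 330) (nat_lit 228) (nat_lit 162)))))) (XT.nd (nat_lit 546) (nat_lit 0) (nat_lit 0) (XT.nd (nat_lit 234) (nat_lit 0)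 (nat_lit 0) (XT.nd (nat_lit 78) (nat_lit 0) (nat_lit 0) (XT.lf (nat_lit 0) (nat_lit 724391297520) (nat_lit 152) (nat_lit 288215243792) (nat_lit 0) (nat_lit 717520040886) (nat_lit 1) (nat_lit 5) (nat_lit 3) (nat_lit 4) (nat_lit 1) (nat_lit 4) (nat_lit 331) (nat_lit 228) (nat_lit 161)) (XT.nd (nat_lit 78) (nat_lit 0) (nat_lit 0) (XT.lf (nat_lit 0) (nat_lit 783388716577) (nat_lit 152) (nat_lit 308498108468) (nat_lit 0) (nat_lit 776514509953) (nat_lit 1) (nat_lit 5) (nat_lit 3) (nat_lit 4) (nat_lit 1) (nat_lit 4) (nat_lit 332) (nat_lit 228) (nat_lit 160)) (XT.lf (nat_lit 0) (nat_lit 847104629080) (nat_lit 152) (nat_lit 330405858026) (nat_lit 0) (nat_lit 840227690983) (nat_lit 1) (nat_lit 5) (nat_lit 3) (nat_lit 4) (nat_lit 1) (nat_lit 4) (nat_lit 333) (nat_lit 228) (nat_lit 159)))) (XT.nd (nat_lit 156) (nat_lit 0) (nat_lit 0) (XT.nd (nat_lit 78) (nat_lit 0) (nat_lit 0) (XT.lf (nat_lit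 0) (nat_lit 915916610806) (nat_lit 152) (nat_lit 354068316168) (nat_lit 0) (nat_lit 909037143567) (nat_lit 1) (nat_lit 5) (nat_lit 3) (nat_lit 4) (nat_lit 1) (nat_lit 4) (nat_lit 334) (nat_lit 228) (nat_lit 158)) (XT.lf (nat_lit 0) (nat_lit 990232436461) (nat_lit 152) (nat_lit 379625704868) (nat_lit 0) (nat_lit 983350627425) (nat_lit 1) (nat_lit 5) (nat_lit 3) (nat_lit 4) (nat_lit 1) (nat_lit 4) (nat_lit 335) (nat_lit 228) (nat_lit 157))) (XT.nd (nat_lit 78) (nat_lit 0) (nat_lit 0) (XT.lf (nat_lit 0) (nat_lit 1070492496124) (nat_lit 152) (nat_lit 407229475317) (nat_lit 0) (nat_lit 1063608518756) (nat_lit 1) (nat_lit 5) (nat_lit 3) (nat_lit 4) (nat_lit 1) (nat_lit 4) (nat_lit 336) (nat_lit 228) (nat_lit 156)) (XT.lf (nat_lit 0) (nat_lit 1157172404963) (nat_lit 152) (nat_lit 437043205415) (nat_lit 0) (nat_lit 1150286419881) (nat_lit 1) (nat_lit 5) (nat_lit 3) (nat_lit 4) (nat_lit 1)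 (nat_lit 4) (nat_lit 337) (nat_lit 228) (nat_lit 155))))) (XT.nd (nat_lit 234) (nat_lit 0) (nat_lit 0) (XT.nd (nat_lit 78) (nat_lit 0) (nat_lit 0) (XT.lf (nat_lit 0) (nat_lit 1250785821696) (nat_lit 152) (nat_lit 469243569117) (nat_lit 0) (nat_lit 1243897977621) (nat_lit 1) (nat_lit 5) (nat_lit 3) (nat_lit 4) (nat_lit 1) (nat_lit 4) (nat_lit 338) (nat_lit 228) (nat_lit 154)) (XT.nd (nat_lit 78) (nat_lit 0) (nat_lit 0) (XT.lf (nat_lit 0) (nat_lit 1351887492498) (nat_lit 152) (nat_lit 504021383395) (nat_lit 0) (nat_lit 1344997927131) (nat_lit 1) (nat_lit 5) (nat_lit 3) (nat_lit 4) (nat_lit 1) (nat_lit 4) (nat_lit 339) (nat_lit 228) (nat_lit 153)) (XT.lf (nat_lit 0) (nat_lit 1461076538381) (nat_lit 152) (nat_lit 541582738999) (nat_lit 0) (nat_lit 1454185379225) (nat_lit 1) (nat_lit 5) (nat_lit 3) (nat_lit 4) (nat_lit 1) (nat_lit 4) (nat_lit 340) (nat_lit 228) (nat_lit 152)))) (XT.nd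 (nat_lit 156) (nat_lit 0) (nat_lit 0) (XT.nd (nat_lit 78) (nat_lit 0) (nat_lit 0) (XT.lf (nat_lit 0) (nat_lit 1579000005541) (nat_lit 152) (nat_lit 582150221741) (nat_lit 0) (nat_lit 1572107370656) (nat_lit 1) (nat_lit 5) (nat_lit 3) (nat_lit 4) (nat_lit 1) (nat_lit 4) (nat_lit 341) (nat_lit 228) (nat_lit 151)) (XT.lf (nat_lit 0) (nat_lit 1706356699711) (nat_lit 152) (nat_lit 625964231517) (nat_lit 0) (nat_lit 1699462698410) (nat_lit 1) (nat_lit 5) (nat_lit 3) (nat_lit 4) (nat_lit 1) (nat_lit 4) (nat_lit 342) (nat_lit 228) (nat_lit 150))) (XT.nd (nat_lit 78) (nat_lit 0) (nat_lit 0) (XT.lf (nat_lit 0) (nat_lit 1843901327226) (nat_lit 152) (nat_lit 673284406905) (nat_lit 0) (nat_lit 1837006060725) (nat_lit 1) (nat_lit 5) (nat_lit 3) (nat_lit 4) (nat_lit 1) (nat_lit 4) (nat_lit 343) (nat_lit 228) (nat_lit 149)) (XT.lf (nat_lit 0) (nat_lit 1992448967361) (nat_lit 152) (nat_lit 724391163758)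 (nat_lit 0) (nat_lit 1985552529377) (nat_lit 1) (nat_lit 5) (nat_lit 3) (nat_lit 4) (nat_lit 1) (nat_lit 4) (nat_lit 344) (nat_lit 228) (nat_lit 148))))))))
noncomputable def xc33 : XT := (XT.nd (nat_lit 33072) (nat_lit 0) (nat_lit 0) (XT.nd (nat_lit 31980) (nat_lit 0) (nat_lit 0) (XT.nd (nat_lit 31434) (nat_lit 0) (nat_lit 228) (XT.nd (nat_lit 31200) (nat_lit 0) (nat_lit 456) (XT.nd (nat_lit 31044) (nat_lit 0) (nat_lit 608) (XT.lf (nat_lit 0) (nat_lit 2152879902427) (nat_lit 152) (nat_lit 779587356932) (nat_lit 0) (nat_lit 2145982379738) (nat_lit 1) (nat_lit 5) (nat_lit 3) (nat_lit 4) (nat_lit 1) (nat_lit 4) (nat_lit 345) (nat_lit 228) (nat_lit 147)) (XT.nd (nat_lit 78) (nat_lit 0) (nat_lit 0) (XT.lf (nat_lit 0) (nat_lit 903049466) (nat_lit 152) (nat_lit 2446240562) (nat_lit 152) (nat_lit 2446240562) (nat_lit 9) (nat_lit 4) (nat_lit 11) (nat_lit 5) (nat_lit 11) (nat_lit 4) (nat_lit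 262) (nat_lit 229) (nat_lit 229)) (XT.lf (nat_lit 0) (nat_lit 7201131221) (nat_lit 152) (nat_lit 2849441754) (nat_lit 152) (nat_lit 2152963969) (nat_lit 9) (nat_lit 4) (nat_lit 11) (nat_lit 5) (nat_lit 11) (nat_lit 4) (nat_lit 263) (nat_lit 229) (nat_lit 228)))) (XT.nd (nat_lit 78) (nat_lit 76) (nat_lit 0) (XT.lf (nat_lit 0) (nat_lit 585549293) (nat_lit 228) (nat_lit 123422091) (nat_lit 76) (nat_lit 12170202804) (nat_lit 8) (nat_lit 5) (nat_lit 11) (nat_lit 5) (nat_lit 9) (nat_lit 4) (nat_lit 264) (nat_lit 229) (nat_lit 227)) (XT.nd (nat_lit 78) (nat_lit 0) (nat_lit 0) (XT.lf (nat_lit 0) (nat_lit 3424142971) (nat_lit 152) (nat_lit 8552435024) (nat_lit 0) (nat_lit 1629252170) (nat_lit 7) (nat_lit 5) (nat_lit 9) (nat_lit 4) (nat_lit 7) (nat_lit 4) (nat_lit 265) (nat_lit 229) (nat_lit 226)) (XT.lf (nat_lit 0) (nat_lit 6349766258) (nat_lit 152) (nat_lit 4010249305) (nat_lit 0) (nat_lit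 4042943494) (nat_lit 7) (nat_lit 5) (nat_lit 9) (nat_lit 4) (nat_lit 7) (nat_lit 4) (nat_lit 266) (nat_lit 229) (nat_lit 225))))) (XT.nd (nat_lit 234) (nat_lit 152) (nat_lit 0) (XT.nd (nat_lit 78) (nat_lit 0) (nat_lit 0) (XT.lf (nat_lit 0) (nat_lit 696081108) (nat_lit 76) (nat_lit 8680159294) (nat_lit 76) (nat_lit 5899325453) (nat_lit 6) (nat_lit 4) (nat_lit 7) (nat_lit 5) (nat_lit 7) (nat_lit 4) (nat_lit 267) (nat_lit 229) (nat_lit 224)) (XT.nd (nat_lit 78) (nat_lit 0) (nat_lit 0) (XT.lf (nat_lit 0) (nat_lit 5778858768) (nat_lit 76) (nat_lit 6831301481) (nat_lit 76) (nat_lit 3611568495) (nat_lit 6) (nat_lit 4) (nat_lit 7) (nat_lit 5) (nat_lit 7) (nat_lit 4) (nat_lit 268) (nat_lit 229) (nat_lit 223)) (XT.lf (nat_lit 0) (nat_lit 11057031217) (nat_lit 76) (nat_lit 4912133254) (nat_lit 76) (nat_lit 1286012170) (nat_lit 6) (nat_lit 4) (nat_lit 7) (nat_lit 5) (nat_lit 7) (nat_lit 4) (nat_lit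 269) (nat_lit 229) (nat_lit 222)))) (XT.nd (nat_lit 156) (nat_lit 0) (nat_lit 0) (XT.nd (nat_lit 78) (nat_lit 76) (nat_lit 0) (XT.lf (nat_lit 0) (nat_lit 1036542123) (nat_lit 152) (nat_lit 1846398742) (nat_lit 76) (nat_lit 15496993492) (nat_lit 5) (nat_lit 5) (nat_lit 7) (nat_lit 5) (nat_lit 6) (nat_lit 4) (nat_lit 270) (nat_lit 229) (nat_lit 221)) (XT.lf (nat_lit 0) (nat_lit 2770646307) (nat_lit 76) (nat_lit 653134923) (nat_lit 152) (nat_lit 16173066295) (nat_lit 4) (nat_lit 5) (nat_lit 5) (nat_lit 5) (nat_lit 6) (nat_lit 4) (nat_lit 271) (nat_lit 229) (nat_lit 220))) (XT.nd (nat_lit 78) (nat_lit 0) (nat_lit 0) (XT.lf (nat_lit 0) (nat_lit 5980413449) (nat_lit 152) (nat_lit 13279919635) (nat_lit 0) (nat_lit 1653170276) (nat_lit 4) (nat_lit 5) (nat_lit 6) (nat_lit 4) (nat_lit 4) (nat_lit 4) (nat_lit 272) (nat_lit 229) (nat_lit 219)) (XT.lf (nat_lit 0) (nat_lit 8651512802) (nat_lit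 152) (nat_lit 9644108858) (nat_lit 0) (nat_lit 4047688718) (nat_lit 4) (nat_lit 5) (nat_lit 6) (nat_lit 4) (nat_lit 4) (nat_lit 4) (nat_lit 273) (nat_lit 229) (nat_lit 218)))))) (XT.nd (nat_lit 546) (nat_lit 152) (nat_lit 0) (XT.nd (nat_lit 234) (nat_lit 0) (nat_lit 0) (XT.nd (nat_lit 78) (nat_lit 76) (nat_lit 0) (XT.lf (nat_lit 0) (nat_lit 11437200116) (nat_lit 152) (nat_lit 5881515430) (nat_lit 0) (nat_lit 6577282596) (nat_lit 4) (nat_lit 5) (nat_lit 6) (nat_lit 4) (nat_lit 4) (nat_lit 4) (nat_lit 274) (nat_lit 229) (nat_lit 217)) (XT.nd (nat_lit 78) (nat_lit 76) (nat_lit 0) (XT.lf (nat_lit 0) (nat_lit 14353983168) (nat_lit 152) (nat_lit 1969842502) (nat_lit 0) (nat_lit 9256942096) (nat_lit 4) (nat_lit 5) (nat_lit 6) (nat_lit 4) (nat_lit 4) (nat_lit 4) (nat_lit 275) (nat_lit 229) (nat_lit 216)) (XT.lf (nat_lit 0) (nat_lit 2225414454) (nat_lit 76) (nat_lit 15247253414) (nat_lit 76)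 (nat_lit 9930653499) (nat_lit 3) (nat_lit 4) (nat_lit 4) (nat_lit 5) (nat_lit 4) (nat_lit 4) (nat_lit 276) (nat_lit 229) (nat_lit 215)))) (XT.nd (nat_lit 156) (nat_lit 0) (nat_lit 0) (XT.nd (nat_lit 78) (nat_lit 0) (nat_lit 0) (XT.lf (nat_lit 0) (nat_lit 6731205974) (nat_lit 76) (nat_lit 14081534028) (nat_lit 76) (nat_lit 8561638886) (nat_lit 3) (nat_lit 4) (nat_lit 4) (nat_lit 5) (nat_lit 4) (nat_lit 4) (nat_lit 277) (nat_lit 229) (nat_lit 214)) (XT.lf (nat_lit 0) (nat_lit 11470504628) (nat_lit 76) (nat_lit 12873618529) (nat_lit 76) (nat_lit 7165487066) (nat_lit 3) (nat_lit 4) (nat_lit 4) (nat_lit 5) (nat_lit 4) (nat_lit 4) (nat_lit 278) (nat_lit 229) (nat_lit 213))) (XT.nd (nat_lit 78) (nat_lit 0) (nat_lit 0) (XT.lf (nat_lit 0) (nat_lit 16471395150) (nat_lit 76) (nat_lit 11616348899) (nat_lit 76) (nat_lit 5733924547) (nat_lit 3) (nat_lit 4) (nat_lit 4) (nat_lit 5) (nat_lit 4) (nat_lit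 4) (nat_lit 279) (nat_lit 229) (nat_lit 212)) (XT.lf (nat_lit 0) (nat_lit 21763512447) (nat_lit 76) (nat_lit 10302274653) (nat_lit 76) (nat_lit 4258467996) (nat_lit 3) (nat_lit 4) (nat_lit 4) (nat_lit 5) (nat_lit 4) (nat_lit 4) (nat_lit 280) (nat_lit 229) (nat_lit 211))))) (XT.nd (nat_lit 234) (nat_lit 76) (nat_lit 0) (XT.nd (nat_lit 78) (nat_lit 76) (nat_lit 0) (XT.lf (nat_lit 0) (nat_lit 27378217213) (nat_lit 76) (nat_lit 8923608682) (nat_lit 76) (nat_lit 2730373965) (nat_lit 3) (nat_lit 4) (nat_lit 4) (nat_lit 5) (nat_lit 4) (nat_lit 4) (nat_lit 281) (nat_lit 229) (nat_lit 210)) (XT.nd (nat_lit 78) (nat_lit 76) (nat_lit 0) (XT.lf (nat_lit 0) (nat_lit 33348781774) (nat_lit 76) (nat_lit 7472181115) (nat_lit 76) (nat_lit 1140587083) (nat_lit 3) (nat_lit 4) (nat_lit 4) (nat_lit 5) (nat_lit 4) (nat_lit 4) (nat_lit 282) (nat_lit 229) (nat_lit 209)) (XT.lf (nat_lit 0) (nat_lit 494285414)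 (nat_lit 152) (nat_lit 5431590847) (nat_lit 76) (nat_lit 39202787198) (nat_lit 2) (nat_lit 5) (nat_lit 4) (nat_lit 5) (nat_lit 3) (nat_lit 4) (nat_lit 283) (nat_lit 229) (nat_lit 208)))) (XT.nd (nat_lit 156) (nat_lit 0) (nat_lit 0) (XT.nd (nat_lit 78) (nat_lit 76) (nat_lit 0) (XT.lf (nat_lit 0) (nat_lit 2149007555) (nat_lit 152) (nat_lit 2108389605) (nat_lit 76) (nat_lit 44293568005) (nat_lit 2) (nat_lit 5) (nat_lit 4) (nat_lit 5) (nat_lit 3) (nat_lit 4) (nat_lit 284) (nat_lit 229) (nat_lit 207)) (XT.lf (nat_lit 0) (nat_lit 1477889747) (nat_lit 76) (nat_lit 2448095422) (nat_lit 152) (nat_lit 48322101256) (nat_lit 1) (nat_lit 5) (nat_lit 2) (nat_lit 5) (nat_lit 3) (nat_lit 4) (nat_lit 285) (nat_lit 229) (nat_lit 206))) (XT.nd (nat_lit 78) (nat_lit 0) (nat_lit 0) (XT.lf (nat_lit 0) (nat_lit 5396211390) (nat_lit 76) (nat_lit 462475640) (nat_lit 152) (nat_lit 50381413995) (nat_lit 1)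 (nat_lit 5) (nat_lit 2) (nat_lit 5) (nat_lit 3) (nat_lit 4) (nat_lit 286) (nat_lit 229) (nat_lit 205)) (XT.lf (nat_lit 0) (nat_lit 7944957912) (nat_lit 152) (nat_lit 51035933235) (nat_lit 0) (nat_lit 1570862859) (nat_lit 1) (nat_lit 5) (nat_lit 3) (nat_lit 4) (nat_lit 1) (nat_lit 4) (nat_lit 287) (nat_lit 229) (nat_lit 204))))))) (XT.nd (nat_lit 1014) (nat_lit 0) (nat_lit 0) (XT.nd (nat_lit 468) (nat_lit 0) (nat_lit 0) (XT.nd (nat_lit 234) (nat_lit 0) (nat_lit 0) (XT.nd (nat_lit 78) (nat_lit 0) (nat_lit 0) (XT.lf (nat_lit 0) (nat_lit 10171717712) (nat_lit 152) (nat_lit 51322022325) (nat_lit 0) (nat_lit 3716891327) (nat_lit 1) (nat_lit 5) (nat_lit 3) (nat_lit 4) (nat_lit 1) (nat_lit 4) (nat_lit 288) (nat_lit 229) (nat_lit 203)) (XT.nd (nat_lit 78) (nat_lit 0) (nat_lit 0) (XT.lf (nat_lit 0) (nat_lit 12541039492) (nat_lit 152) (nat_lit 51692729695) (nat_lit 0) (nat_lit 6011461875) (nat_lit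 1) (nat_lit 5) (nat_lit 3) (nat_lit 4) (nat_lit 1) (nat_lit 4) (nat_lit 289) (nat_lit 229) (nat_lit 202)) (XT.lf (nat_lit 0) (nat_lit 15066963678) (nat_lit 152) (nat_lit 52150252131) (nat_lit 0) (nat_lit 8468171956) (nat_lit 1) (nat_lit 5) (nat_lit 3) (nat_lit 4) (nat_lit 1) (nat_lit 4) (nat_lit 290) (nat_lit 229) (nat_lit 201)))) (XT.nd (nat_lit 78) (nat_lit 0) (nat_lit 0) (XT.lf (nat_lit 0) (nat_lit 17764458710) (nat_lit 152) (nat_lit 52697300877) (nat_lit 0) (nat_lit 11101579854) (nat_lit 1) (nat_lit 5) (nat_lit 3) (nat_lit 4) (nat_lit 1) (nat_lit 4) (nat_lit 291) (nat_lit 229) (nat_lit 200)) (XT.nd (nat_lit 78) (nat_lit 0) (nat_lit 0) (XT.lf (nat_lit 0) (nat_lit 20649509742) (nat_lit 152) (nat_lit 53337117703) (nat_lit 0) (nat_lit 13927290948) (nat_lit 1) (nat_lit 5) (nat_lit 3) (nat_lit 4) (nat_lit 1) (nat_lit 4) (nat_lit 292) (nat_lit 229) (nat_lit 199)) (XT.lf (nat_lit 0) (nat_lit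 23739213375) (nat_lit 152) (nat_lit 54073494117) (nat_lit 0) (nat_lit 16962050193) (nat_lit 1) (nat_lit 5) (nat_lit 3) (nat_lit 4) (nat_lit 1) (nat_lit 4) (nat_lit 293) (nat_lit 229) (nat_lit 198))))) (XT.nd (nat_lit 234) (nat_lit 0) (nat_lit 0) (XT.nd (nat_lit 78) (nat_lit 0) (nat_lit 0) (XT.lf (nat_lit 0) (nat_lit 27051878962) (nat_lit 152) (nat_lit 54910793830) (nat_lit 0) (nat_lit 20223841347) (nat_lit 1) (nat_lit 5) (nat_lit 3) (nat_lit 4) (nat_lit 1) (nat_lit 4) (nat_lit 294) (nat_lit 229) (nat_lit 197)) (XT.nd (nat_lit 78) (nat_lit 0) (nat_lit 0) (XT.lf (nat_lit 0) (nat_lit 30607137115) (nat_lit 152) (nat_lit 55853978618) (nat_lit 0) (nat_lit 23731993544) (nat_lit 1) (nat_lit 5) (nat_lit 3) (nat_lit 4) (nat_lit 1) (nat_lit 4) (nat_lit 295) (nat_lit 229) (nat_lit 196)) (XT.lf (nat_lit 0) (nat_lit 34426056031) (nat_lit 152) (nat_lit 56908637725) (nat_lit 0) (nat_lit 27507295833)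 (nat_lit 1) (nat_lit 5) (nat_lit 3) (nat_lit 4) (nat_lit 1) (nat_lit 4) (nat_lit 296) (nat_lit 229) (nat_lit 195)))) (XT.nd (nat_lit 156) (nat_lit 0) (nat_lit 0) (XT.nd (nat_lit 78) (nat_lit 0) (nat_lit 0) (XT.lf (nat_lit 0) (nat_lit 38531266339) (nat_lit 152) (nat_lit 58081020982) (nat_lit 0) (nat_lit 31572120376) (nat_lit 1) (nat_lit 5) (nat_lit 3) (nat_lit 4) (nat_lit 1) (nat_lit 4) (nat_lit 297) (nat_lit 229) (nat_lit 194)) (XT.lf (nat_lit 0) (nat_lit 42947095212) (nat_lit 152) (nat_lit 59378075846) (nat_lit 0) (nat_lit 35950555022) (nat_lit 1) (nat_lit 5) (nat_lit 3) (nat_lit 4) (nat_lit 1) (nat_lit 4) (nat_lit 298) (nat_lit 229) (nat_lit 193))) (XT.nd (nat_lit 78) (nat_lit 0) (nat_lit 0) (XT.lf (nat_lit 0) (nat_lit 47699710524) (nat_lit 152) (nat_lit 60807488567) (nat_lit 0) (nat_lit 40668546050) (nat_lit 1) (nat_lit 5) (nat_lit 3) (nat_lit 4) (nat_lit 1) (nat_lit 4) (nat_lit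 299) (nat_lit 229) (nat_lit 192)) (XT.lf (nat_lit 0) (nat_lit 52817275923) (nat_lit 152) (nat_lit 62377729740) (nat_lit 0) (nat_lit 45754051927) (nat_lit 1) (nat_lit 5) (nat_lit 3) (nat_lit 4) (nat_lit 1) (nat_lit 4) (nat_lit 300) (nat_lit 229) (nat_lit 191)))))) (XT.nd (nat_lit 546) (nat_lit 0) (nat_lit 0) (XT.nd (nat_lit 234) (nat_lit 0) (nat_lit 0) (XT.nd (nat_lit 78) (nat_lit 0) (nat_lit 0) (XT.lf (nat_lit 0) (nat_lit 58330117721) (nat_lit 152) (nat_lit 64098104498) (nat_lit 0) (nat_lit 51237208982) (nat_lit 1) (nat_lit 5) (nat_lit 3) (nat_lit 4) (nat_lit 1) (nat_lit 4) (nat_lit 301) (nat_lit 229) (nat_lit 190)) (XT.nd (nat_lit 78) (nat_lit 0) (nat_lit 0) (XT.lf (nat_lit 0) (nat_lit 64270904611) (nat_lit 152) (nat_lit 65978807653) (nat_lit 0) (nat_lit 57150509999) (nat_lit 1) (nat_lit 5) (nat_lit 3) (nat_lit 4) (nat_lit 1) (nat_lit 4) (nat_lit 302) (nat_lit 229) (nat_lit 189))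 (XT.lf (nat_lit 0) (nat_lit 70674841256) (nat_lit 152) (nat_lit 68030984115) (nat_lit 0) (nat_lit 63528996761) (nat_lit 1) (nat_lit 5) (nat_lit 3) (nat_lit 4) (nat_lit 1) (nat_lit 4) (nat_lit 303) (nat_lit 229) (nat_lit 188)))) (XT.nd (nat_lit 156) (nat_lit 0) (nat_lit 0) (XT.nd (nat_lit 78) (nat_lit 0) (nat_lit 0) (XT.lf (nat_lit 0) (nat_lit 77579876909) (nat_lit 152) (nat_lit 70266794927) (nat_lit 0) (nat_lit 70410467708) (nat_lit 1) (nat_lit 5) (nat_lit 3) (nat_lit 4) (nat_lit 1) (nat_lit 4) (nat_lit 304) (nat_lit 229) (nat_lit 187)) (XT.lf (nat_lit 0) (nat_lit 85026930302) (nat_lit 152) (nat_lit 72699489339) (nat_lit 0) (nat_lit 77835701928) (nat_lit 1) (nat_lit 5) (nat_lit 3) (nat_lit 4) (nat_lit 1) (nat_lit 4) (nat_lit 305) (nat_lit 229) (nat_lit 186))) (XT.nd (nat_lit 78) (nat_lit 0) (nat_lit 0) (XT.lf (nat_lit 0) (nat_lit 93060132119) (nat_lit 152) (nat_lit 75343483319) (nat_lit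 0) (nat_lit 85848700809) (nat_lit 1) (nat_lit 5) (nat_lit 3) (nat_lit 4) (nat_lit 1) (nat_lit 4) (nat_lit 306) (nat_lit 229) (nat_lit 185)) (XT.lf (nat_lit 0) (nat_lit 101727086522) (nat_lit 152) (nat_lit 78214444979) (nat_lit 0) (nat_lit 94496948787) (nat_lit 1) (nat_lit 5) (nat_lit 3) (nat_lit 4) (nat_lit 1) (nat_lit 4) (nat_lit 307) (nat_lit 229) (nat_lit 184))))) (XT.nd (nat_lit 234) (nat_lit 0) (nat_lit 0) (XT.nd (nat_lit 78) (nat_lit 0) (nat_lit 0) (XT.lf (nat_lit 0) (nat_lit 111079153238) (nat_lit 152) (nat_lit 81329387425) (nat_lit 0) (nat_lit 103831694741) (nat_lit 1) (nat_lit 5) (nat_lit 3) (nat_lit 4) (nat_lit 1) (nat_lit 4) (nat_lit 308) (nat_lit 229) (nat_lit 183)) (XT.nd (nat_lit 78) (nat_lit 0) (nat_lit 0) (XT.lf (nat_lit 0) (nat_lit 121171751923) (nat_lit 152) (nat_lit 84706769575) (nat_lit 0) (nat_lit 113908255683) (nat_lit 1) (nat_lit 5) (nat_lit 3) (nat_lit 4) (nat_lit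 1) (nat_lit 4) (nat_lit 309) (nat_lit 229) (nat_lit 182)) (XT.lf (nat_lit 0) (nat_lit 132064690569) (nat_lit 152) (nat_lit 88366605545) (nat_lit 0) (nat_lit 124786344567) (nat_lit 1) (nat_lit 5) (nat_lit 3) (nat_lit 4) (nat_lit 1) (nat_lit 4) (nat_lit 310) (nat_lit 229) (nat_lit 181)))) (XT.nd (nat_lit 156) (nat_lit 0) (nat_lit 0) (XT.nd (nat_lit 78) (nat_lit 0) (nat_lit 0) (XT.lf (nat_lit 0) (nat_lit 143822519924) (nat_lit 152) (nat_lit 92330583253) (nat_lit 0) (nat_lit 136530424142) (nat_lit 1) (nat_lit 5) (nat_lit 3) (nat_lit 4) (nat_lit 1) (nat_lit 4) (nat_lit 311) (nat_lit 229) (nat_lit 180)) (XT.lf (nat_lit 0) (nat_lit 156514916013) (nat_lit 152) (nat_lit 96622192936) (nat_lit 0) (nat_lit 149210088954) (nat_lit 1) (nat_lit 5) (nat_lit 3) (nat_lit 4) (nat_lit 1) (nat_lit 4) (nat_lit 312) (nat_lit 229) (nat_lit 179))) (XT.nd (nat_lit 78) (nat_lit 0) (nat_lit 0) (XT.lf (nat_lit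 0) (nat_lit 170217093035) (nat_lit 152) (nat_lit 101266866357) (nat_lit 0) (nat_lit 162900477756) (nat_lit 1) (nat_lit 5) (nat_lit 3) (nat_lit 4) (nat_lit 1) (nat_lit 4) (nat_lit 313) (nat_lit 229) (nat_lit 178)) (XT.lf (nat_lit 0) (nat_lit 185010249077) (nat_lit 152) (nat_lit 106292127504) (nat_lit 0) (nat_lit 177682718780) (nat_lit 1) (nat_lit 5) (nat_lit 3) (nat_lit 4) (nat_lit 1) (nat_lit 4) (nat_lit 314) (nat_lit 229) (nat_lit 177))))))))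
noncomputable def xc34 : XT := (XT.nd (nat_lit 2028) (nat_lit 0) (nat_lit 0) (XT.nd (nat_lit 1014) (nat_lit 0) (nat_lit 0) (XT.nd (nat_lit 468) (nat_lit 0) (nat_lit 0) (XT.nd (nat_lit 234) (nat_lit 0) (nat_lit 0) (XT.nd (nat_lit 78) (nat_lit 0) (nat_lit 0) (XT.lf (nat_lit 0) (nat_lit 200982047285) (nat_lit 152) (nat_lit 111727755705) (nat_lit 0) (nat_lit 193644410489) (nat_lit 1) (nat_lit 5) (nat_lit 3) (nat_lit 4) (nat_lit 1) (nat_lit 4) (nat_lit 315) (nat_lit 229) (nat_lit 176)) (XT.nd (nat_lit 78) (nat_lit 0) (nat_lit 0) (XT.lf (nat_lit 0) (nat_lit 218227135352) (nat_lit 152) (nat_lit 117605962088) (nat_lit 0) (nat_lit 210880140688) (nat_lit 1) (nat_lit 5) (nat_lit 3) (nat_lit 4) (nat_lit 1) (nat_lit 4) (nat_lit 316) (nat_lit 229) (nat_lit 175)) (XT.lf (nat_lit 0) (nat_lit 236847706394) (nat_lit 152) (nat_lit 123961580470) (nat_lit 0) (nat_lit 229492047036) (nat_lit 1) (nat_lit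 5) (nat_lit 3) (nat_lit 4) (nat_lit 1) (nat_lit 4) (nat_lit 317) (nat_lit 229) (nat_lit 174)))) (XT.nd (nat_lit 78) (nat_lit 0) (nat_lit 0) (XT.lf (nat_lit 0) (nat_lit 256954104534) (nat_lit 152) (nat_lit 130832273774) (nat_lit 0) (nat_lit 249590422312) (nat_lit 1) (nat_lit 5) (nat_lit 3) (nat_lit 4) (nat_lit 1) (nat_lit 4) (nat_lit 318) (nat_lit 229) (nat_lit 173)) (XT.nd (nat_lit 78) (nat_lit 0) (nat_lit 0) (XT.lf (nat_lit 0) (nat_lit 278665478799) (nat_lit 152) (nat_lit 138258757219) (nat_lit 0) (nat_lit 271294367998) (nat_lit 1) (nat_lit 5) (nat_lit 3) (nat_lit 4) (nat_lit 1) (nat_lit 4) (nat_lit 319) (nat_lit 229) (nat_lit 172)) (XT.lf (nat_lit 0) (nat_lit 302110489184) (nat_lit 152) (nat_lit 146285039597) (nat_lit 0) (nat_lit 294732500070) (nat_lit 1) (nat_lit 5) (nat_lit 3) (nat_lit 4) (nat_lit 1) (nat_lit 4) (nat_lit 320) (nat_lit 229) (nat_lit 171))))) (XT.nd (nat_lit 234)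 (nat_lit 0) (nat_lit 0) (XT.nd (nat_lit 78) (nat_lit 0) (nat_lit 0) (XT.lf (nat_lit 0) (nat_lit 327428069084) (nat_lit 152) (nat_lit 154958684063) (nat_lit 0) (nat_lit 320043711162) (nat_lit 1) (nat_lit 5) (nat_lit 3) (nat_lit 4) (nat_lit 1) (nat_lit 4) (nat_lit 321) (nat_lit 229) (nat_lit 170)) (XT.nd (nat_lit 78) (nat_lit 0) (nat_lit 0) (XT.lf (nat_lit 0) (nat_lit 354768248603) (nat_lit 152) (nat_lit 164331089991) (nat_lit 0) (nat_lit 347377993636) (nat_lit 1) (nat_lit 5) (nat_lit 3) (nat_lit 4) (nat_lit 1) (nat_lit 4) (nat_lit 322) (nat_lit 229) (nat_lit 169)) (XT.lf (nat_lit 0) (nat_lit 384293043618) (nat_lit 152) (nat_lit 174457797563) (nat_lit 0) (nat_lit 376897328424) (nat_lit 1) (nat_lit 5) (nat_lit 3) (nat_lit 4) (nat_lit 1) (nat_lit 4) (nat_lit 323) (nat_lit 229) (nat_lit 168)))) (XT.nd (nat_lit 156) (nat_lit 0) (nat_lit 0) (XT.nd (nat_lit 78) (nat_lit 0) (nat_lit 0) (XT.lf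 (nat_lit 0) (nat_lit 416177415878) (nat_lit 152) (nat_lit 185398816900) (nat_lit 0) (nat_lit 408776644919) (nat_lit 1) (nat_lit 5) (nat_lit 3) (nat_lit 4) (nat_lit 1) (nat_lit 4) (nat_lit 324) (nat_lit 229) (nat_lit 167)) (XT.lf (nat_lit 0) (nat_lit 450610309812) (nat_lit 152) (nat_lit 197218983672) (nat_lit 0) (nat_lit 443204857589) (nat_lit 1) (nat_lit 5) (nat_lit 3) (nat_lit 4) (nat_lit 1) (nat_lit 4) (nat_lit 325) (nat_lit 229) (nat_lit 166))) (XT.nd (nat_lit 78) (nat_lit 0) (nat_lit 0) (XT.lf (nat_lit 0) (nat_lit 487795772198) (nat_lit 152) (nat_lit 209988343310) (nat_lit 0) (nat_lit 480385985471) (nat_lit 1) (nat_lit 5) (nat_lit 3) (nat_lit 4) (nat_lit 1) (nat_lit 4) (nat_lit 326) (nat_lit 229) (nat_lit 165)) (XT.lf (nat_lit 0) (nat_lit 527954161332) (nat_lit 152) (nat_lit 223782566095) (nat_lit 0) (nat_lit 520540361175) (nat_lit 1) (nat_lit 5) (nat_lit 3) (nat_lit 4) (nat_lit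 1) (nat_lit 4) (nat_lit 327) (nat_lit 229) (nat_lit 164)))))) (XT.nd (nat_lit 468) (nat_lit 0) (nat_lit 0) (XT.nd (nat_lit 234) (nat_lit 0) (nat_lit 0) (XT.nd (nat_lit 78) (nat_lit 0) (nat_lit 0) (XT.lf (nat_lit 0) (nat_lit 571323452853) (nat_lit 152) (nat_lit 238683395568) (nat_lit 0) (nat_lit 563905936557) (nat_lit 1) (nat_lit 5) (nat_lit 3) (nat_lit 4) (nat_lit 1) (nat_lit 4) (nat_lit 328) (nat_lit 229) (nat_lit 163)) (XT.nd (nat_lit 78) (nat_lit 0) (nat_lit 0) (XT.lf (nat_lit 0) (nat_lit 618160649970) (nat_lit 152) (nat_lit 254779132943) (nat_lit 0) (nat_lit 610739692805) (nat_lit 1) (nat_lit 5) (nat_lit 3) (nat_lit 4) (nat_lit 1) (nat_lit 4) (nat_lit 329) (nat_lit 229) (nat_lit 162)) (XT.lf (nat_lit 0) (nat_lit 668743306444) (nat_lit 152) (nat_lit 272165160365) (nat_lit 0) (nat_lit 661319163289) (nat_lit 1) (nat_lit 5) (nat_lit 3) (nat_lit 4) (nat_lit 1) (nat_lit 4) (nat_lit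 330) (nat_lit 229) (nat_lit 161)))) (XT.nd (nat_lit 78) (nat_lit 0) (nat_lit 0) (XT.lf (nat_lit 0) (nat_lit 723371171350) (nat_lit 152) (nat_lit 290944506145) (nat_lit 0) (nat_lit 715944078205) (nat_lit 1) (nat_lit 5) (nat_lit 3) (nat_lit 4) (nat_lit 1) (nat_lit 4) (nat_lit 331) (nat_lit 229) (nat_lit 160)) (XT.nd (nat_lit 78) (nat_lit 0) (nat_lit 0) (XT.lf (nat_lit 0) (nat_lit 782367965369) (nat_lit 152) (nat_lit 311228455297) (nat_lit 0) (nat_lit 774938140751) (nat_lit 1) (nat_lit 5) (nat_lit 3) (nat_lit 4) (nat_lit 1) (nat_lit 4) (nat_lit 332) (nat_lit 229) (nat_lit 159)) (XT.lf (nat_lit 0) (nat_lit 846083299133) (nat_lit 152) (nat_lit 333137208999) (nat_lit 0) (nat_lit 838650945374) (nat_lit 1) (nat_lit 5) (nat_lit 3) (nat_lit 4) (nat_lit 1) (nat_lit 4) (nat_lit 333) (nat_lit 229) (nat_lit 158))))) (XT.nd (nat_lit 234) (nat_lit 0) (nat_lit 0) (XT.nd (nat_lit 78) (nat_lit 0) (nat_lit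 0) (XT.lf (nat_lit 0) (nat_lit 914894744989) (nat_lit 152) (nat_lit 356800596903) (nat_lit 0) (nat_lit 907460049432) (nat_lit 1) (nat_lit 5) (nat_lit 3) (nat_lit 4) (nat_lit 1) (nat_lit 4) (nat_lit 334) (nat_lit 229) (nat_lit 157)) (XT.nd (nat_lit 78) (nat_lit 0) (nat_lit 0) (XT.lf (nat_lit 0) (nat_lit 989210074469) (nat_lit 152) (nat_lit 382358846494) (nat_lit 0) (nat_lit 981773210581) (nat_lit 1) (nat_lit 5) (nat_lit 3) (nat_lit 4) (nat_lit 1) (nat_lit 4) (nat_lit 335) (nat_lit 229) (nat_lit 156)) (XT.lf (nat_lit 0) (nat_lit 1069469674710) (nat_lit 152) (nat_lit 409963414064) (nat_lit 0) (nat_lit 1062030803108) (nat_lit 1) (nat_lit 5) (nat_lit 3) (nat_lit 4) (nat_lit 1) (nat_lit 4) (nat_lit 336) (nat_lit 229) (nat_lit 155)))) (XT.nd (nat_lit 156) (nat_lit 0) (nat_lit 0) (XT.nd (nat_lit 78) (nat_lit 0) (nat_lit 0) (XT.lf (nat_lit 0) (nat_lit 1156149158158) (nat_lit 152) (nat_lit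 439777882238) (nat_lit 0) (nat_lit 1148708427562) (nat_lit 1) (nat_lit 5) (nat_lit 3) (nat_lit 4) (nat_lit 1) (nat_lit 4) (nat_lit 337) (nat_lit 229) (nat_lit 154)) (XT.lf (nat_lit 0) (nat_lit 1249762181012) (nat_lit 152) (nat_lit 471978929344) (nat_lit 0) (nat_lit 1242319729125) (nat_lit 1) (nat_lit 5) (nat_lit 3) (nat_lit 4) (nat_lit 1) (nat_lit 4) (nat_lit 338) (nat_lit 229) (nat_lit 153))) (XT.nd (nat_lit 78) (nat_lit 0) (nat_lit 0) (XT.lf (nat_lit 0) (nat_lit 1350863487110) (nat_lit 152) (nat_lit 506757376402) (nat_lit 0) (nat_lit 1343419441435) (nat_lit 1) (nat_lit 5) (nat_lit 3) (nat_lit 4) (nat_lit 1) (nat_lit 4) (nat_lit 339) (nat_lit 229) (nat_lit 152)) (XT.lf (nat_lit 0) (nat_lit 1460052195304) (nat_lit 152) (nat_lit 544319317915) (nat_lit 0) (nat_lit 1452606673899) (nat_lit 1) (nat_lit 5) (nat_lit 3) (nat_lit 4) (nat_lit 1) (nat_lit 4) (nat_lit 340) (nat_lit 229) (nat_lit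 151))))))) (XT.nd (nat_lit 31824) (nat_lit 0) (nat_lit 152) (XT.nd (nat_lit 31278) (nat_lit 0) (nat_lit 456) (XT.nd (nat_lit 234) (nat_lit 0) (nat_lit 0) (XT.nd (nat_lit 78) (nat_lit 0) (nat_lit 0) (XT.lf (nat_lit 0) (nat_lit 1577975349790) (nat_lit 152) (nat_lit 584887343163) (nat_lit 0) (nat_lit 1570528461968) (nat_lit 1) (nat_lit 5) (nat_lit 3) (nat_lit 4) (nat_lit 1) (nat_lit 4) (nat_lit 341) (nat_lit 229) (nat_lit 150)) (XT.nd (nat_lit 78) (nat_lit 0) (nat_lit 0) (XT.lf (nat_lit 0) (nat_lit 1705331754446) (nat_lit 152) (nat_lit 628701855262) (nat_lit 0) (nat_lit 1697883601424) (nat_lit 1) (nat_lit 5) (nat_lit 3) (nat_lit 4) (nat_lit 1) (nat_lit 4) (nat_lit 342) (nat_lit 229) (nat_lit 149)) (XT.lf (nat_lit 0) (nat_lit 1842876113893) (nat_lit 152) (nat_lit 676022495762) (nat_lit 0) (nat_lit 1835426789389) (nat_lit 1) (nat_lit 5) (nat_lit 3) (nat_lit 4) (nat_lit 1) (nat_lit 4) (nat_lit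 343) (nat_lit 229) (nat_lit 148)))) (XT.nd (nat_lit 78) (nat_lit 0) (nat_lit 0) (XT.lf (nat_lit 0) (nat_lit 1991423505817) (nat_lit 152) (nat_lit 727129683275) (nat_lit 0) (nat_lit 1983973096607) (nat_lit 1) (nat_lit 5) (nat_lit 3) (nat_lit 4) (nat_lit 1) (nat_lit 4) (nat_lit 344) (nat_lit 229) (nat_lit 147)) (XT.nd (nat_lit 30888) (nat_lit 0) (nat_lit 760) (XT.lf (nat_lit 0) (nat_lit 2151854211058) (nat_lit 152) (nat_lit 782326275209) (nat_lit 0) (nat_lit 2144402797491) (nat_lit 1) (nat_lit 5) (nat_lit 3) (nat_lit 4) (nat_lit 1) (nat_lit 4) (nat_lit 345) (nat_lit 229) (nat_lit 146)) (XT.lf (nat_lit 0) (nat_lit 625434910) (nat_lit 228) (nat_lit 4009203422) (nat_lit 0) (nat_lit 625434910) (nat_lit 11) (nat_lit 5) (nat_lit 14) (nat_lit 4) (nat_lit 11) (nat_lit 4) (nat_lit 260) (nat_lit 230) (nat_lit 230))))) (XT.nd (nat_lit 234) (nat_lit 152) (nat_lit 0) (XT.nd (nat_lit 78) (nat_lit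 152) (nat_lit 0) (XT.lf (nat_lit 0) (nat_lit 4255956664) (nat_lit 228) (nat_lit 3272957243) (nat_lit 0) (nat_lit 3503760656) (nat_lit 11) (nat_lit 5) (nat_lit 14) (nat_lit 4) (nat_lit 11) (nat_lit 4) (nat_lit 261) (nat_lit 230) (nat_lit 229)) (XT.nd (nat_lit 78) (nat_lit 0) (nat_lit 0) (XT.lf (nat_lit 0) (nat_lit 1673173759) (nat_lit 152) (nat_lit 5687265533) (nat_lit 152) (nat_lit 4238591741) (nat_lit 9) (nat_lit 4) (nat_lit 11) (nat_lit 5) (nat_lit 11) (nat_lit 4) (nat_lit 262) (nat_lit 230) (nat_lit 228)) (XT.lf (nat_lit 0) (nat_lit 6945127182) (nat_lit 152) (nat_lit 3683659867) (nat_lit 152) (nat_lit 1590099238) (nat_lit 9) (nat_lit 4) (nat_lit 11) (nat_lit 5) (nat_lit 11) (nat_lit 4) (nat_lit 263) (nat_lit 230) (nat_lit 227)))) (XT.nd (nat_lit 156) (nat_lit 0) (nat_lit 0) (XT.nd (nat_lit 78) (nat_lit 76) (nat_lit 0) (XT.lf (nat_lit 0) (nat_lit 1040191297) (nat_lit 228) (nat_lit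 527080173) (nat_lit 76) (nat_lit 11333164131) (nat_lit 8) (nat_lit 5) (nat_lit 11) (nat_lit 5) (nat_lit 9) (nat_lit 4) (nat_lit 264) (nat_lit 230) (nat_lit 226)) (XT.lf (nat_lit 0) (nat_lit 3769804867) (nat_lit 152) (nat_lit 9100046861) (nat_lit 0) (nat_lit 766504319) (nat_lit 7) (nat_lit 5) (nat_lit 9) (nat_lit 4) (nat_lit 7) (nat_lit 4) (nat_lit 265) (nat_lit 230) (nat_lit 225))) (XT.nd (nat_lit 78) (nat_lit 0) (nat_lit 0) (XT.lf (nat_lit 0) (nat_lit 6623341725) (nat_lit 152) (nat_lit 4670385641) (nat_lit 0) (nat_lit 3146030099) (nat_lit 7) (nat_lit 5) (nat_lit 9) (nat_lit 4) (nat_lit 7) (nat_lit 4) (nat_lit 266) (nat_lit 230) (nat_lit 224)) (XT.lf (nat_lit 0) (nat_lit 9566328407) (nat_lit 152) (nat_lit 103065375) (nat_lit 0) (nat_lit 5650117636) (nat_lit 7) (nat_lit 5) (nat_lit 9) (nat_lit 4) (nat_lit 7) (nat_lit 4) (nat_lit 267) (nat_lit 230) (nat_lit 223)))))) (XT.nd (nat_lit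 546) (nat_lit 76) (nat_lit 0) (XT.nd (nat_lit 234) (nat_lit 76) (nat_lit 0) (XT.nd (nat_lit 78) (nat_lit 76) (nat_lit 0) (XT.lf (nat_lit 0) (nat_lit 4872733398) (nat_lit 76) (nat_lit 7860660792) (nat_lit 76) (nat_lit 3538061923) (nat_lit 6) (nat_lit 4) (nat_lit 7) (nat_lit 5) (nat_lit 7) (nat_lit 4) (nat_lit 268) (nat_lit 230) (nat_lit 222)) (XT.nd (nat_lit 78) (nat_lit 76) (nat_lit 0) (XT.lf (nat_lit 0) (nat_lit 10056876546) (nat_lit 76) (nat_lit 5976035928) (nat_lit 76) (nat_lit 1277151784) (nat_lit 6) (nat_lit 4) (nat_lit 7) (nat_lit 5) (nat_lit 7) (nat_lit 4) (nat_lit 269) (nat_lit 230) (nat_lit 221)) (XT.lf (nat_lit 0) (nat_lit 988096017) (nat_lit 152) (nat_lit 2992056720) (nat_lit 76) (nat_lit 14459545361) (nat_lit 5) (nat_lit 5) (nat_lit 7) (nat_lit 5) (nat_lit 6) (nat_lit 4) (nat_lit 270) (nat_lit 230) (nat_lit 220)))) (XT.nd (nat_lit 156) (nat_lit 0) (nat_lit 0) (XT.nd (nat_lit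 78) (nat_lit 0) (nat_lit 0) (XT.lf (nat_lit 0) (nat_lit 1476546085) (nat_lit 76) (nat_lit 1815014730) (nat_lit 152) (nat_lit 16372071016) (nat_lit 4) (nat_lit 5) (nat_lit 5) (nat_lit 5) (nat_lit 6) (nat_lit 4) (nat_lit 271) (nat_lit 230) (nat_lit 219)) (XT.lf (nat_lit 0) (nat_lit 5768794034) (nat_lit 152) (nat_lit 14698057459) (nat_lit 0) (nat_lit 520083113) (nat_lit 4) (nat_lit 5) (nat_lit 6) (nat_lit 4) (nat_lit 4) (nat_lit 4) (nat_lit 272) (nat_lit 230) (nat_lit 218))) (XT.nd (nat_lit 78) (nat_lit 0) (nat_lit 0) (XT.lf (nat_lit 0) (nat_lit 8392249163) (nat_lit 152) (nat_lit 11141132360) (nat_lit 0) (nat_lit 2887444805) (nat_lit 4) (nat_lit 5) (nat_lit 6) (nat_lit 4) (nat_lit 4) (nat_lit 4) (nat_lit 273) (nat_lit 230) (nat_lit 217)) (XT.lf (nat_lit 0) (nat_lit 11133821454) (nat_lit 152) (nat_lit 7451581228) (nat_lit 0) (nat_lit 5391893545) (nat_lit 4) (nat_lit 5) (nat_lit 6) (nat_lit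 4) (nat_lit 4) (nat_lit 4) (nat_lit 274) (nat_lit 230) (nat_lit 216))))) (XT.nd (nat_lit 234) (nat_lit 0) (nat_lit 0) (XT.nd (nat_lit 78) (nat_lit 76) (nat_lit 0) (XT.lf (nat_lit 0) (nat_lit 14009757262) (nat_lit 152) (nat_lit 3607540054) (nat_lit 0) (nat_lit 8048270509) (nat_lit 4) (nat_lit 5) (nat_lit 6) (nat_lit 4) (nat_lit 4) (nat_lit 4) (nat_lit 275) (nat_lit 230) (nat_lit 215)) (XT.nd (nat_lit 78) (nat_lit 0) (nat_lit 0) (XT.lf (nat_lit 0) (nat_lit 435559092) (nat_lit 76) (nat_lit 16612015284) (nat_lit 76) (nat_lit 10447233305) (nat_lit 3) (nat_lit 4) (nat_lit 4) (nat_lit 5) (nat_lit 4) (nat_lit 4) (nat_lit 276) (nat_lit 230) (nat_lit 214)) (XT.lf (nat_lit 0) (nat_lit 4880313983) (nat_lit 76) (nat_lit 15470844666) (nat_lit 76) (nat_lit 9117826366) (nat_lit 3) (nat_lit 4) (nat_lit 4) (nat_lit 5) (nat_lit 4) (nat_lit 4) (nat_lit 277) (nat_lit 230) (nat_lit 213)))) (XT.nd (nat_lit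 156) (nat_lit 0) (nat_lit 0) (XT.nd (nat_lit 78) (nat_lit 0) (nat_lit 0) (XT.lf (nat_lit 0) (nat_lit 9563097242) (nat_lit 76) (nat_lit 14285659508) (nat_lit 76) (nat_lit 7758348319) (nat_lit 3) (nat_lit 4) (nat_lit 4) (nat_lit 5) (nat_lit 4) (nat_lit 4) (nat_lit 278) (nat_lit 230) (nat_lit 212)) (XT.lf (nat_lit 0) (nat_lit 14511658693) (nat_lit 76) (nat_lit 13049436491) (nat_lit 76) (nat_lit 6360742997) (nat_lit 3) (nat_lit 4) (nat_lit 4) (nat_lit 5) (nat_lit 4) (nat_lit 4) (nat_lit 279) (nat_lit 230) (nat_lit 211))) (XT.nd (nat_lit 78) (nat_lit 0) (nat_lit 0) (XT.lf (nat_lit 0) (nat_lit 19755323146) (nat_lit 76) (nat_lit 11754849848) (nat_lit 76) (nat_lit 4916728293) (nat_lit 3) (nat_lit 4) (nat_lit 4) (nat_lit 5) (nat_lit 4) (nat_lit 4) (nat_lit 280) (nat_lit 230) (nat_lit 210)) (XT.lf (nat_lit 0) (nat_lit 25325164169) (nat_lit 76) (nat_lit 10394227955) (nat_lit 76) (nat_lit 3417747086)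 (nat_lit 3) (nat_lit 4) (nat_lit 4) (nat_lit 5) (nat_lit 4) (nat_lit 4) (nat_lit 281) (nat_lit 230) (nat_lit 209))))))))
noncomputable def xc35 : XT := (XT.nd (nat_lit 2106) (nat_lit 0) (nat_lit 0) (XT.nd (nat_lit 1014) (nat_lit 0) (nat_lit 0) (XT.nd (nat_lit 468) (nat_lit 0) (nat_lit 0) (XT.nd (nat_lit 234) (nat_lit 76) (nat_lit 0) (XT.nd (nat_lit 78) (nat_lit 76) (nat_lit 0) (XT.lf (nat_lit 0) (nat_lit 31254188226) (nat_lit 76) (nat_lit 8959507868) (nat_lit 76) (nat_lit 1854916521) (nat_lit 3) (nat_lit 4) (nat_lit 4) (nat_lit 5) (nat_lit 4) (nat_lit 4) (nat_lit 282) (nat_lit 230) (nat_lit 208)) (XT.nd (nat_lit 78) (nat_lit 76) (nat_lit 0) (XT.lf (nat_lit 0) (nat_lit 37577530274) (nat_lit 76) (nat_lit 7442187541) (nat_lit 76) (nat_lit 218975383) (nat_lit 3) (nat_lit 4) (nat_lit 4) (nat_lit 5) (nat_lit 4) (nat_lit 4) (nat_lit 283) (nat_lit 230) (nat_lit 207)) (XT.lf (nat_lit 0) (nat_lit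 1424746186) (nat_lit 152) (nat_lit 4369574174) (nat_lit 76) (nat_lit 42868960698) (nat_lit 2) (nat_lit 5) (nat_lit 4) (nat_lit 5) (nat_lit 3) (nat_lit 4) (nat_lit 284) (nat_lit 230) (nat_lit 206)))) (XT.nd (nat_lit 78) (nat_lit 76) (nat_lit 0) (XT.lf (nat_lit 0) (nat_lit 3145852177) (nat_lit 152) (nat_lit 891371940) (nat_lit 76) (nat_lit 48327748375) (nat_lit 2) (nat_lit 5) (nat_lit 4) (nat_lit 5) (nat_lit 3) (nat_lit 4) (nat_lit 285) (nat_lit 230) (nat_lit 205)) (XT.nd (nat_lit 78) (nat_lit 0) (nat_lit 0) (XT.lf (nat_lit 0) (nat_lit 2946729031) (nat_lit 76) (nat_lit 2089635645) (nat_lit 152) (nat_lit 51324090568) (nat_lit 1) (nat_lit 5) (nat_lit 2) (nat_lit 5) (nat_lit 3) (nat_lit 4) (nat_lit 286) (nat_lit 230) (nat_lit 204)) (XT.lf (nat_lit 0) (nat_lit 7065028711) (nat_lit 152) (nat_lit 53598689290) (nat_lit 0) (nat_lit 13084884) (nat_lit 1) (nat_lit 5) (nat_lit 3) (nat_lit 4) (nat_lit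 1) (nat_lit 4) (nat_lit 287) (nat_lit 230) (nat_lit 203))))) (XT.nd (nat_lit 234) (nat_lit 0) (nat_lit 0) (XT.nd (nat_lit 78) (nat_lit 0) (nat_lit 0) (XT.lf (nat_lit 0) (nat_lit 9274683317) (nat_lit 152) (nat_lit 53914456819) (nat_lit 0) (nat_lit 2147988257) (nat_lit 1) (nat_lit 5) (nat_lit 3) (nat_lit 4) (nat_lit 1) (nat_lit 4) (nat_lit 288) (nat_lit 230) (nat_lit 202)) (XT.nd (nat_lit 78) (nat_lit 0) (nat_lit 0) (XT.lf (nat_lit 0) (nat_lit 11628166955) (nat_lit 152) (nat_lit 54312644226) (nat_lit 0) (nat_lit 4432257790) (nat_lit 1) (nat_lit 5) (nat_lit 3) (nat_lit 4) (nat_lit 1) (nat_lit 4) (nat_lit 289) (nat_lit 230) (nat_lit 201)) (XT.lf (nat_lit 0) (nat_lit 14139426194) (nat_lit 152) (nat_lit 54795611141) (nat_lit 0) (nat_lit 6879429896) (nat_lit 1) (nat_lit 5) (nat_lit 3) (nat_lit 4) (nat_lit 1) (nat_lit 4) (nat_lit 290) (nat_lit 230) (nat_lit 200)))) (XT.nd (nat_lit 156) (nat_lit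 0) (nat_lit 0) (XT.nd (nat_lit 78) (nat_lit 0) (nat_lit 0) (XT.lf (nat_lit 0) (nat_lit 16823342571) (nat_lit 152) (nat_lit 55366219589) (nat_lit 0) (nat_lit 9504006334) (nat_lit 1) (nat_lit 5) (nat_lit 3) (nat_lit 4) (nat_lit 1) (nat_lit 4) (nat_lit 291) (nat_lit 230) (nat_lit 199)) (XT.lf (nat_lit 0) (nat_lit 19695820775) (nat_lit 152) (nat_lit 56027850954) (nat_lit 0) (nat_lit 12321540151) (nat_lit 1) (nat_lit 5) (nat_lit 3) (nat_lit 4) (nat_lit 1) (nat_lit 4) (nat_lit 292) (nat_lit 230) (nat_lit 198))) (XT.nd (nat_lit 78) (nat_lit 0) (nat_lit 0) (XT.lf (nat_lit 0) (nat_lit 22773882900) (nat_lit 152) (nat_lit 56784426015) (nat_lit 0) (nat_lit 15348727843) (nat_lit 1) (nat_lit 5) (nat_lit 3) (nat_lit 4) (nat_lit 1) (nat_lit 4) (nat_lit 293) (nat_lit 230) (nat_lit 197)) (XT.lf (nat_lit 0) (nat_lit 26075769314) (nat_lit 152) (nat_lit 57640428179) (nat_lit 0) (nat_lit 18603508300) (nat_lit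 1) (nat_lit 5) (nat_lit 3) (nat_lit 4) (nat_lit 1) (nat_lit 4) (nat_lit 294) (nat_lit 230) (nat_lit 196)))))) (XT.nd (nat_lit 546) (nat_lit 0) (nat_lit 0) (XT.nd (nat_lit 234) (nat_lit 0) (nat_lit 0) (XT.nd (nat_lit 78) (nat_lit 0) (nat_lit 0) (XT.lf (nat_lit 0) (nat_lit 29621046751) (nat_lit 152) (nat_lit 58600930051) (nat_lit 0) (nat_lit 22105169111) (nat_lit 1) (nat_lit 5) (nat_lit 3) (nat_lit 4) (nat_lit 1) (nat_lit 4) (nat_lit 295) (nat_lit 230) (nat_lit 195)) (XT.nd (nat_lit 78) (nat_lit 0) (nat_lit 0) (XT.lf (nat_lit 0) (nat_lit 33430724262) (nat_lit 152) (nat_lit 59671623495) (nat_lit 0) (nat_lit 25874460857) (nat_lit 1) (nat_lit 5) (nat_lit 3) (nat_lit 4) (nat_lit 1) (nat_lit 4) (nat_lit 296) (nat_lit 230) (nat_lit 194)) (XT.lf (nat_lit 0) (nat_lit 37527377714) (nat_lit 152) (nat_lit 60858853361) (nat_lit 0) (nat_lit 29933720082) (nat_lit 1) (nat_lit 5) (nat_lit 3) (nat_lit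 4) (nat_lit 1) (nat_lit 4) (nat_lit 297) (nat_lit 230) (nat_lit 193)))) (XT.nd (nat_lit 156) (nat_lit 0) (nat_lit 0) (XT.nd (nat_lit 78) (nat_lit 0) (nat_lit 0) (XT.lf (nat_lit 0) (nat_lit 41935283573) (nat_lit 152) (nat_lit 62169655085) (nat_lit 0) (nat_lit 34307001657) (nat_lit 1) (nat_lit 5) (nat_lit 3) (nat_lit 4) (nat_lit 1) (nat_lit 4) (nat_lit 298) (nat_lit 230) (nat_lit 192)) (XT.lf (nat_lit 0) (nat_lit 46680562761) (nat_lit 152) (nat_lit 63611796380) (nat_lit 0) (nat_lit 39020221322) (nat_lit 1) (nat_lit 5) (nat_lit 3) (nat_lit 4) (nat_lit 1) (nat_lit 4) (nat_lit 299) (nat_lit 230) (nat_lit 191))) (XT.nd (nat_lit 78) (nat_lit 0) (nat_lit 0) (XT.lf (nat_lit 0) (nat_lit 51791335452) (nat_lit 152) (nat_lit 65193823270) (nat_lit 0) (nat_lit 44101309270) (nat_lit 1) (nat_lit 5) (nat_lit 3) (nat_lit 4) (nat_lit 1) (nat_lit 4) (nat_lit 300) (nat_lit 230) (nat_lit 190)) (XT.lf (nat_lit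 0) (nat_lit 57297887706) (nat_lit 152) (nat_lit 66925110729) (nat_lit 0) (nat_lit 49580375651) (nat_lit 1) (nat_lit 5) (nat_lit 3) (nat_lit 4) (nat_lit 1) (nat_lit 4) (nat_lit 301) (nat_lit 230) (nat_lit 189))))) (XT.nd (nat_lit 234) (nat_lit 0) (nat_lit 0) (XT.nd (nat_lit 78) (nat_lit 0) (nat_lit 0) (XT.lf (nat_lit 0) (nat_lit 63232850944) (nat_lit 152) (nat_lit 68815918237) (nat_lit 0) (nat_lit 55489889006) (nat_lit 1) (nat_lit 5) (nat_lit 3) (nat_lit 4) (nat_lit 1) (nat_lit 4) (nat_lit 302) (nat_lit 230) (nat_lit 188)) (XT.nd (nat_lit 78) (nat_lit 0) (nat_lit 0) (XT.lf (nat_lit 0) (nat_lit 69631395318) (nat_lit 152) (nat_lit 70877450580) (nat_lit 0) (nat_lit 61864868674) (nat_lit 1) (nat_lit 5) (nat_lit 3) (nat_lit 4) (nat_lit 1) (nat_lit 4) (nat_lit 303) (nat_lit 230) (nat_lit 187)) (XT.lf (nat_lit 0) (nat_lit 76531438128) (nat_lit 152) (nat_lit 73121924245) (nat_lit 0) (nat_lit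 68743092312) (nat_lit 1) (nat_lit 5) (nat_lit 3) (nat_lit 4) (nat_lit 1) (nat_lit 4) (nat_lit 304) (nat_lit 230) (nat_lit 186)))) (XT.nd (nat_lit 156) (nat_lit 0) (nat_lit 0) (XT.nd (nat_lit 78) (nat_lit 0) (nat_lit 0) (XT.lf (nat_lit 0) (nat_lit 83973868518) (nat_lit 152) (nat_lit 75562639819) (nat_lit 0) (nat_lit 76165319765) (nat_lit 1) (nat_lit 5) (nat_lit 3) (nat_lit 4) (nat_lit 1) (nat_lit 4) (nat_lit 305) (nat_lit 230) (nat_lit 185)) (XT.lf (nat_lit 0) (nat_lit 92002789777) (nat_lit 152) (nat_lit 78214060799) (nat_lit 0) (nat_lit 84175534601) (nat_lit 1) (nat_lit 5) (nat_lit 3) (nat_lit 4) (nat_lit 1) (nat_lit 4) (nat_lit 306) (nat_lit 230) (nat_lit 184))) (XT.nd (nat_lit 78) (nat_lit 0) (nat_lit 0) (XT.lf (nat_lit 0) (nat_lit 100665780699) (nat_lit 152) (nat_lit 81091899312) (nat_lit 0) (nat_lit 92821204761) (nat_lit 1) (nat_lit 5) (nat_lit 3) (nat_lit 4) (nat_lit 1) (nat_lit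 4) (nat_lit 307) (nat_lit 230) (nat_lit 183)) (XT.lf (nat_lit 0) (nat_lit 110014177527) (nat_lit 152) (nat_lit 84213209213) (nat_lit 0) (nat_lit 102153563845) (nat_lit 1) (nat_lit 5) (nat_lit 3) (nat_lit 4) (nat_lit 1) (nat_lit 4) (nat_lit 308) (nat_lit 230) (nat_lit 182))))))) (XT.nd (nat_lit 1014) (nat_lit 0) (nat_lit 0) (XT.nd (nat_lit 468) (nat_lit 0) (nat_lit 0) (XT.nd (nat_lit 234) (nat_lit 0) (nat_lit 0) (XT.nd (nat_lit 78) (nat_lit 0) (nat_lit 0) (XT.lf (nat_lit 0) (nat_lit 120103378167) (nat_lit 152) (nat_lit 87596487156) (nat_lit 0) (nat_lit 112227914723) (nat_lit 1) (nat_lit 5) (nat_lit 3) (nat_lit 4) (nat_lit 1) (nat_lit 4) (nat_lit 309) (nat_lit 230) (nat_lit 181)) (XT.nd (nat_lit 78) (nat_lit 0) (nat_lit 0) (XT.lf (nat_lit 0) (nat_lit 130993170475) (nat_lit 152) (nat_lit 91261782193) (nat_lit 0) (nat_lit 123103957251) (nat_lit 1) (nat_lit 5) (nat_lit 3) (nat_lit 4) (nat_lit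 1) (nat_lit 4) (nat_lit 310) (nat_lit 230) (nat_lit 180)) (XT.lf (nat_lit 0) (nat_lit 142748086554) (nat_lit 152) (nat_lit 95230814593) (nat_lit 0) (nat_lit 134846142053) (nat_lit 1) (nat_lit 5) (nat_lit 3) (nat_lit 4) (nat_lit 1) (nat_lit 4) (nat_lit 311) (nat_lit 230) (nat_lit 179)))) (XT.nd (nat_lit 78) (nat_lit 0) (nat_lit 0) (XT.lf (nat_lit 0) (nat_lit 155437785165) (nat_lit 152) (nat_lit 99527104547) (nat_lit 0) (nat_lit 147524052444) (nat_lit 1) (nat_lit 5) (nat_lit 3) (nat_lit 4) (nat_lit 1) (nat_lit 4) (nat_lit 312) (nat_lit 230) (nat_lit 178)) (XT.nd (nat_lit 78) (nat_lit 0) (nat_lit 0) (XT.lf (nat_lit 0) (nat_lit 169137464523) (nat_lit 152) (nat_lit 104176111551) (nat_lit 0) (nat_lit 161212816783) (nat_lit 1) (nat_lit 5) (nat_lit 3) (nat_lit 4) (nat_lit 1) (nat_lit 4) (nat_lit 313) (nat_lit 230) (nat_lit 177)) (XT.lf (nat_lit 0) (nat_lit 183928307912) (nat_lit 152) (nat_lit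 109205385276) (nat_lit 0) (nat_lit 175993553674) (nat_lit 1) (nat_lit 5) (nat_lit 3) (nat_lit 4) (nat_lit 1) (nat_lit 4) (nat_lit 314) (nat_lit 230) (nat_lit 176))))) (XT.nd (nat_lit 234) (nat_lit 0) (nat_lit 0) (XT.nd (nat_lit 78) (nat_lit 0) (nat_lit 0) (XT.lf (nat_lit 0) (nat_lit 199897964775) (nat_lit 152) (nat_lit 114644728826) (nat_lit 0) (nat_lit 191953852669) (nat_lit 1) (nat_lit 5) (nat_lit 3) (nat_lit 4) (nat_lit 1) (nat_lit 4) (nat_lit 315) (nat_lit 230) (nat_lit 175)) (XT.nd (nat_lit 78) (nat_lit 0) (nat_lit 0) (XT.lf (nat_lit 0) (nat_lit 217141070116) (nat_lit 152) (nat_lit 120526375347) (nat_lit 0) (nat_lit 209188293316) (nat_lit 1) (nat_lit 5) (nat_lit 3) (nat_lit 4) (nat_lit 1) (nat_lit 4) (nat_lit 316) (nat_lit 230) (nat_lit 174)) (XT.lf (nat_lit 0) (nat_lit 235759805300) (nat_lit 152) (nat_lit 126885179042) (nat_lit 0) (nat_lit 227799005635) (nat_lit 1) (nat_lit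 5) (nat_lit 3) (nat_lit 4) (nat_lit 1) (nat_lit 4) (nat_lit 317) (nat_lit 230) (nat_lit 173)))) (XT.nd (nat_lit 156) (nat_lit 0) (nat_lit 0) (XT.nd (nat_lit 78) (nat_lit 0) (nat_lit 0) (XT.lf (nat_lit 0) (nat_lit 255864503571) (nat_lit 152) (nat_lit 133758821710) (nat_lit 0) (nat_lit 247896275329) (nat_lit 1) (nat_lit 5) (nat_lit 3) (nat_lit 4) (nat_lit 1) (nat_lit 4) (nat_lit 318) (nat_lit 230) (nat_lit 172)) (XT.lf (nat_lit 0) (nat_lit 277574303884) (nat_lit 152) (nat_lit 141188036049) (nat_lit 0) (nat_lit 269599197328) (nat_lit 1) (nat_lit 5) (nat_lit 3) (nat_lit 4) (nat_lit 1) (nat_lit 4) (nat_lit 319) (nat_lit 230) (nat_lit 171))) (XT.nd (nat_lit 78) (nat_lit 0) (nat_lit 0) (XT.lf (nat_lit 0) (nat_lit 301017856905) (nat_lit 152) (nat_lit 149216847031) (nat_lit 0) (nat_lit 293036381541) (nat_lit 1) (nat_lit 5) (nat_lit 3) (nat_lit 4) (nat_lit 1) (nat_lit 4) (nat_lit 320) (nat_lit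 230) (nat_lit 170)) (XT.lf (nat_lit 0) (nat_lit 326334087395) (nat_lit 152) (nat_lit 157892832797) (nat_lit 0) (nat_lit 318346714986) (nat_lit 1) (nat_lit 5) (nat_lit 3) (nat_lit 4) (nat_lit 1) (nat_lit 4) (nat_lit 321) (nat_lit 230) (nat_lit 169)))))) (XT.nd (nat_lit 546) (nat_lit 0) (nat_lit 0) (XT.nd (nat_lit 234) (nat_lit 0) (nat_lit 0) (XT.nd (nat_lit 78) (nat_lit 0) (nat_lit 0) (XT.lf (nat_lit 0) (nat_lit 353673017459) (nat_lit 152) (nat_lit 167267406595) (nat_lit 0) (nat_lit 345680184824) (nat_lit 1) (nat_lit 5) (nat_lit 3) (nat_lit 4) (nat_lit 1) (nat_lit 4) (nat_lit 322) (nat_lit 230) (nat_lit 168)) (XT.nd (nat_lit 78) (nat_lit 0) (nat_lit 0) (XT.lf (nat_lit 0) (nat_lit 383196655573) (nat_lit 152) (nat_lit 177396121456) (nat_lit 0) (nat_lit 375198767172) (nat_lit 1) (nat_lit 5) (nat_lit 3) (nat_lit 4) (nat_lit 1) (nat_lit 4) (nat_lit 323) (nat_lit 230) (nat_lit 167)) (XT.lf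 (nat_lit 0) (nat_lit 415079956628) (nat_lit 152) (nat_lit 188338999392) (nat_lit 0) (nat_lit 407077386962) (nat_lit 1) (nat_lit 5) (nat_lit 3) (nat_lit 4) (nat_lit 1) (nat_lit 4) (nat_lit 324) (nat_lit 230) (nat_lit 166)))) (XT.nd (nat_lit 156) (nat_lit 0) (nat_lit 0) (XT.nd (nat_lit 78) (nat_lit 0) (nat_lit 0) (XT.lf (nat_lit 0) (nat_lit 449511858704) (nat_lit 152) (nat_lit 200160887089) (nat_lit 0) (nat_lit 441504954535) (nat_lit 1) (nat_lit 5) (nat_lit 3) (nat_lit 4) (nat_lit 1) (nat_lit 4) (nat_lit 325) (nat_lit 230) (nat_lit 165)) (XT.lf (nat_lit 0) (nat_lit 486696402704) (nat_lit 152) (nat_lit 212931840177) (nat_lit 0) (nat_lit 478685485105) (nat_lit 1) (nat_lit 5) (nat_lit 3) (nat_lit 4) (nat_lit 1) (nat_lit 4) (nat_lit 326) (nat_lit 230) (nat_lit 164))) (XT.nd (nat_lit 78) (nat_lit 0) (nat_lit 0) (XT.lf (nat_lit 0) (nat_lit 526853941481) (nat_lit 152) (nat_lit 226727538378)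 (nat_lit 0) (nat_lit 518839307743) (nat_lit 1) (nat_lit 5) (nat_lit 3) (nat_lit 4) (nat_lit 1) (nat_lit 4) (nat_lit 327) (nat_lit 230) (nat_lit 163)) (XT.lf (nat_lit 0) (nat_lit 570222445634) (nat_lit 152) (nat_lit 241629733978) (nat_lit 0) (nat_lit 562204371027) (nat_lit 1) (nat_lit 5) (nat_lit 3) (nat_lit 4) (nat_lit 1) (nat_lit 4) (nat_lit 328) (nat_lit 230) (nat_lit 162))))) (XT.nd (nat_lit 234) (nat_lit 0) (nat_lit 0) (XT.nd (nat_lit 78) (nat_lit 0) (nat_lit 0) (XT.lf (nat_lit 0) (nat_lit 617058913706) (nat_lit 152) (nat_lit 257726736284) (nat_lit 0) (nat_lit 609037653110) (nat_lit 1) (nat_lit 5) (nat_lit 3) (nat_lit 4) (nat_lit 1) (nat_lit 4) (nat_lit 329) (nat_lit 230) (nat_lit 161)) (XT.nd (nat_lit 78) (nat_lit 0) (nat_lit 0) (XT.lf (nat_lit 0) (nat_lit 667640895139) (nat_lit 152) (nat_lit 275113934939) (nat_lit 0) (nat_lit 659616684552) (nat_lit 1) (nat_lit 5) (nat_lit 3)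 (nat_lit 4) (nat_lit 1) (nat_lit 4) (nat_lit 330) (nat_lit 230) (nat_lit 160)) (XT.lf (nat_lit 0) (nat_lit 722268135007) (nat_lit 152) (nat_lit 293894365195) (nat_lit 0) (nat_lit 714241192947) (nat_lit 1) (nat_lit 5) (nat_lit 3) (nat_lit 4) (nat_lit 1) (nat_lit 4) (nat_lit 331) (nat_lit 230) (nat_lit 159)))) (XT.nd (nat_lit 156) (nat_lit 0) (nat_lit 0) (XT.nd (nat_lit 78) (nat_lit 0) (nat_lit 0) (XT.lf (nat_lit 0) (nat_lit 781264350287) (nat_lit 152) (nat_lit 314179318490) (nat_lit 0) (nat_lit 773234879086) (nat_lit 1) (nat_lit 5) (nat_lit 3) (nat_lit 4) (nat_lit 1) (nat_lit 4) (nat_lit 332) (nat_lit 230) (nat_lit 158)) (XT.lf (nat_lit 0) (nat_lit 844979148181) (nat_lit 152) (nat_lit 336089001955) (nat_lit 0) (nat_lit 836947335182) (nat_lit 1) (nat_lit 5) (nat_lit 3) (nat_lit 4) (nat_lit 1) (nat_lit 4) (nat_lit 333) (nat_lit 230) (nat_lit 157))) (XT.nd (nat_lit 78) (nat_lit 0) (nat_lit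 0) (XT.lf (nat_lit 0) (nat_lit 913790097862) (nat_lit 152) (nat_lit 359753250750) (nat_lit 0) (nat_lit 905756116532) (nat_lit 1) (nat_lit 5) (nat_lit 3) (nat_lit 4) (nat_lit 1) (nat_lit 4) (nat_lit 334) (nat_lit 230) (nat_lit 156)) (XT.lf (nat_lit 0) (nat_lit 988104967920) (nat_lit 152) (nat_lit 385312297462) (nat_lit 0) (nat_lit 980068978876) (nat_lit 1) (nat_lit 5) (nat_lit 3) (nat_lit 4) (nat_lit 1) (nat_lit 4) (nat_lit 335) (nat_lit 230) (nat_lit 155))))))))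
noncomputable def xc36 : XT := (XT.nd (nat_lit 32682) (nat_lit 0) (nat_lit 0) (XT.nd (nat_lit 31668) (nat_lit 0) (nat_lit 228) (XT.nd (nat_lit 468) (nat_lit 0) (nat_lit 0) (XT.nd (nat_lit 234) (nat_lit 0) (nat_lit 0) (XT.nd (nat_lit 78) (nat_lit 0) (nat_lit 0) (XT.lf (nat_lit 0) (nat_lit 1068364142771) (nat_lit 152) (nat_lit 412917603109) (nat_lit 0) (nat_lit 1060326294733) (nat_lit 1) (nat_lit 5) (nat_lit 3) (nat_lit 4) (nat_lit 1) (nat_lit 4) (nat_lit 336) (nat_lit 230) (nat_lit 154)) (XT.nd (nat_lit 78) (nat_lit 0) (nat_lit 0) (XT.lf (nat_lit 0) (nat_lit 1155043232339) (nat_lit 152) (nat_lit 442732754685) (nat_lit 0) (nat_lit 1147003663010) (nat_lit 1) (nat_lit 5) (nat_lit 3) (nat_lit 4) (nat_lit 1) (nat_lit 4) (nat_lit 337) (nat_lit 230) (nat_lit 153)) (XT.lf (nat_lit 0) (nat_lit 1248655890489) (nat_lit 152) (nat_lit 474934434572) (nat_lit 0) (nat_lit 1240614727371) (nat_lit 1)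 (nat_lit 5) (nat_lit 3) (nat_lit 4) (nat_lit 1) (nat_lit 4) (nat_lit 338) (nat_lit 230) (nat_lit 152)))) (XT.nd (nat_lit 78) (nat_lit 0) (nat_lit 0) (XT.lf (nat_lit 0) (nat_lit 1349756858899) (nat_lit 152) (nat_lit 509713467539) (nat_lit 0) (nat_lit 1341714220051) (nat_lit 1) (nat_lit 5) (nat_lit 3) (nat_lit 4) (nat_lit 1) (nat_lit 4) (nat_lit 339) (nat_lit 230) (nat_lit 151)) (XT.nd (nat_lit 78) (nat_lit 0) (nat_lit 0) (XT.lf (nat_lit 0) (nat_lit 1458945254418) (nat_lit 152) (nat_lit 547275951559) (nat_lit 0) (nat_lit 1450901249154) (nat_lit 1) (nat_lit 5) (nat_lit 3) (nat_lit 4) (nat_lit 1) (nat_lit 4) (nat_lit 340) (nat_lit 230) (nat_lit 150)) (XT.lf (nat_lit 0) (nat_lit 1576868119390) (nat_lit 152) (nat_lit 587844479129) (nat_lit 0) (nat_lit 1568822848926) (nat_lit 1) (nat_lit 5) (nat_lit 3) (nat_lit 4) (nat_lit 1) (nat_lit 4) (nat_lit 341) (nat_lit 230) (nat_lit 149))))) (XT.nd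 (nat_lit 234) (nat_lit 0) (nat_lit 0) (XT.nd (nat_lit 78) (nat_lit 0) (nat_lit 0) (XT.lf (nat_lit 0) (nat_lit 1704224255978) (nat_lit 152) (nat_lit 631659456340) (nat_lit 0) (nat_lit 1696177814032) (nat_lit 1) (nat_lit 5) (nat_lit 3) (nat_lit 4) (nat_lit 1) (nat_lit 4) (nat_lit 342) (nat_lit 230) (nat_lit 148)) (XT.nd (nat_lit 78) (nat_lit 0) (nat_lit 0) (XT.lf (nat_lit 0) (nat_lit 1841768367214) (nat_lit 152) (nat_lit 678980527501) (nat_lit 0) (nat_lit 1833720840562) (nat_lit 1) (nat_lit 5) (nat_lit 3) (nat_lit 4) (nat_lit 1) (nat_lit 4) (nat_lit 343) (nat_lit 230) (nat_lit 147)) (XT.lf (nat_lit 0) (nat_lit 1990315529312) (nat_lit 152) (nat_lit 730088113773) (nat_lit 0) (nat_lit 1982266998304) (nat_lit 1) (nat_lit 5) (nat_lit 3) (nat_lit 4) (nat_lit 1) (nat_lit 4) (nat_lit 344) (nat_lit 230) (nat_lit 146)))) (XT.nd (nat_lit 30810) (nat_lit 0) (nat_lit 760) (XT.nd (nat_lit 30732)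 (nat_lit 0) (nat_lit 988) (XT.lf (nat_lit 0) (nat_lit 2150746021752) (nat_lit 152) (nat_lit 785285074928) (nat_lit 0) (nat_lit 2142696560784) (nat_lit 1) (nat_lit 5) (nat_lit 3) (nat_lit 4) (nat_lit 1) (nat_lit 4) (nat_lit 345) (nat_lit 230) (nat_lit 145)) (XT.lf (nat_lit 0) (nat_lit 1163962006) (nat_lit 152) (nat_lit 1822078823) (nat_lit 152) (nat_lit 1822078823) (nat_lit 14) (nat_lit 4) (nat_lit 16) (nat_lit 5) (nat_lit 16) (nat_lit 4) (nat_lit 258) (nat_lit 231) (nat_lit 231))) (XT.nd (nat_lit 78) (nat_lit 228) (nat_lit 0) (XT.lf (nat_lit 0) (nat_lit 7504229868) (nat_lit 152) (nat_lit 1712283309) (nat_lit 152) (nat_lit 834921886) (nat_lit 14) (nat_lit 4) (nat_lit 16) (nat_lit 5) (nat_lit 16) (nat_lit 4) (nat_lit 259) (nat_lit 231) (nat_lit 230)) (XT.lf (nat_lit 0) (nat_lit 1969130396) (nat_lit 228) (nat_lit 8154784621) (nat_lit 0) (nat_lit 404562700) (nat_lit 11) (nat_lit 5) (nat_lit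 14) (nat_lit 4) (nat_lit 11) (nat_lit 4) (nat_lit 260) (nat_lit 231) (nat_lit 229)))))) (XT.nd (nat_lit 468) (nat_lit 228) (nat_lit 0) (XT.nd (nat_lit 234) (nat_lit 152) (nat_lit 0) (XT.nd (nat_lit 78) (nat_lit 152) (nat_lit 0) (XT.lf (nat_lit 0) (nat_lit 4887077320) (nat_lit 228) (nat_lit 3535610738) (nat_lit 0) (nat_lit 2626031840) (nat_lit 11) (nat_lit 5) (nat_lit 14) (nat_lit 4) (nat_lit 11) (nat_lit 4) (nat_lit 261) (nat_lit 231) (nat_lit 228)) (XT.nd (nat_lit 78) (nat_lit 0) (nat_lit 0) (XT.lf (nat_lit 0) (nat_lit 1273610532) (nat_lit 152) (nat_lit 6627654801) (nat_lit 152) (nat_lit 3721722483) (nat_lit 9) (nat_lit 4) (nat_lit 11) (nat_lit 5) (nat_lit 11) (nat_lit 4) (nat_lit 262) (nat_lit 231) (nat_lit 227)) (XT.lf (nat_lit 0) (nat_lit 6431602043) (nat_lit 152) (nat_lit 4660561825) (nat_lit 152) (nat_lit 1157512065) (nat_lit 9) (nat_lit 4) (nat_lit 11) (nat_lit 5) (nat_lit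 11) (nat_lit 4) (nat_lit 263) (nat_lit 231) (nat_lit 226)))) (XT.nd (nat_lit 78) (nat_lit 76) (nat_lit 0) (XT.lf (nat_lit 0) (nat_lit 1377003565) (nat_lit 228) (nat_lit 1191768864) (nat_lit 76) (nat_lit 10368097392) (nat_lit 8) (nat_lit 5) (nat_lit 11) (nat_lit 5) (nat_lit 9) (nat_lit 4) (nat_lit 264) (nat_lit 231) (nat_lit 225)) (XT.nd (nat_lit 78) (nat_lit 0) (nat_lit 0) (XT.lf (nat_lit 0) (nat_lit 3750390633) (nat_lit 76) (nat_lit 248772287) (nat_lit 152) (nat_lit 9682729295) (nat_lit 7) (nat_lit 5) (nat_lit 8) (nat_lit 5) (nat_lit 9) (nat_lit 4) (nat_lit 265) (nat_lit 231) (nat_lit 224)) (XT.lf (nat_lit 0) (nat_lit 6779970105) (nat_lit 152) (nat_lit 5600046735) (nat_lit 0) (nat_lit 2111563327) (nat_lit 7) (nat_lit 5) (nat_lit 9) (nat_lit 4) (nat_lit 7) (nat_lit 4) (nat_lit 266) (nat_lit 231) (nat_lit 223))))) (XT.nd (nat_lit 234) (nat_lit 152) (nat_lit 0) (XT.nd (nat_lit 78) (nat_lit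 76) (nat_lit 0) (XT.lf (nat_lit 0) (nat_lit 9661154293) (nat_lit 152) (nat_lit 1129198090) (nat_lit 0) (nat_lit 4586359417) (nat_lit 7) (nat_lit 5) (nat_lit 9) (nat_lit 4) (nat_lit 7) (nat_lit 4) (nat_lit 267) (nat_lit 231) (nat_lit 222)) (XT.nd (nat_lit 78) (nat_lit 0) (nat_lit 0) (XT.lf (nat_lit 0) (nat_lit 3698537051) (nat_lit 76) (nat_lit 9044219043) (nat_lit 76) (nat_lit 3593138891) (nat_lit 6) (nat_lit 4) (nat_lit 7) (nat_lit 5) (nat_lit 7) (nat_lit 4) (nat_lit 268) (nat_lit 231) (nat_lit 221)) (XT.lf (nat_lit 0) (nat_lit 8795616030) (nat_lit 76) (nat_lit 7191578775) (nat_lit 76) (nat_lit 1392086330) (nat_lit 6) (nat_lit 4) (nat_lit 7) (nat_lit 5) (nat_lit 7) (nat_lit 4) (nat_lit 269) (nat_lit 231) (nat_lit 220)))) (XT.nd (nat_lit 156) (nat_lit 76) (nat_lit 0) (XT.nd (nat_lit 78) (nat_lit 0) (nat_lit 0) (XT.lf (nat_lit 0) (nat_lit 826259795) (nat_lit 152) (nat_lit 4403476044)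 (nat_lit 76) (nat_lit 13283930985) (nat_lit 5) (nat_lit 5) (nat_lit 7) (nat_lit 5) (nat_lit 6) (nat_lit 4) (nat_lit 270) (nat_lit 231) (nat_lit 219)) (XT.lf (nat_lit 0) (nat_lit 3045462544) (nat_lit 152) (nat_lit 86241709) (nat_lit 76) (nat_lit 16612932288) (nat_lit 5) (nat_lit 5) (nat_lit 7) (nat_lit 5) (nat_lit 6) (nat_lit 4) (nat_lit 271) (nat_lit 231) (nat_lit 218))) (XT.nd (nat_lit 78) (nat_lit 0) (nat_lit 0) (XT.lf (nat_lit 0) (nat_lit 4660224522) (nat_lit 76) (nat_lit 800164533) (nat_lit 152) (nat_lit 15612807964) (nat_lit 4) (nat_lit 5) (nat_lit 5) (nat_lit 5) (nat_lit 6) (nat_lit 4) (nat_lit 272) (nat_lit 231) (nat_lit 217)) (XT.lf (nat_lit 0) (nat_lit 8020485185) (nat_lit 152) (nat_lit 12909845717) (nat_lit 0) (nat_lit 1582079491) (nat_lit 4) (nat_lit 5) (nat_lit 6) (nat_lit 4) (nat_lit 4) (nat_lit 4) (nat_lit 273) (nat_lit 231) (nat_lit 216))))))) (XT.nd (nat_lit 1014)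 (nat_lit 0) (nat_lit 0) (XT.nd (nat_lit 468) (nat_lit 152) (nat_lit 0) (XT.nd (nat_lit 234) (nat_lit 76) (nat_lit 0) (XT.nd (nat_lit 78) (nat_lit 0) (nat_lit 0) (XT.lf (nat_lit 0) (nat_lit 10721210232) (nat_lit 152) (nat_lit 9287926339) (nat_lit 0) (nat_lit 4063245694) (nat_lit 4) (nat_lit 5) (nat_lit 6) (nat_lit 4) (nat_lit 4) (nat_lit 4) (nat_lit 274) (nat_lit 231) (nat_lit 215)) (XT.nd (nat_lit 78) (nat_lit 0) (nat_lit 0) (XT.lf (nat_lit 0) (nat_lit 13559324519) (nat_lit 152) (nat_lit 5506507161) (nat_lit 0) (nat_lit 6698064755) (nat_lit 4) (nat_lit 5) (nat_lit 6) (nat_lit 4) (nat_lit 4) (nat_lit 4) (nat_lit 275) (nat_lit 231) (nat_lit 214)) (XT.lf (nat_lit 0) (nat_lit 16551646500) (nat_lit 152) (nat_lit 1543179773) (nat_lit 0) (nat_lit 9502150415) (nat_lit 4) (nat_lit 5) (nat_lit 6) (nat_lit 4) (nat_lit 4) (nat_lit 4) (nat_lit 276) (nat_lit 231) (nat_lit 213)))) (XT.nd (nat_lit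 78) (nat_lit 0) (nat_lit 0) (XT.lf (nat_lit 0) (nat_lit 2763798609) (nat_lit 76) (nat_lit 17018579265) (nat_lit 76) (nat_lit 9794790291) (nat_lit 3) (nat_lit 4) (nat_lit 4) (nat_lit 5) (nat_lit 4) (nat_lit 4) (nat_lit 277) (nat_lit 231) (nat_lit 212)) (XT.nd (nat_lit 78) (nat_lit 0) (nat_lit 0) (XT.lf (nat_lit 0) (nat_lit 7394252797) (nat_lit 76) (nat_lit 15854440720) (nat_lit 76) (nat_lit 8469269441) (nat_lit 3) (nat_lit 4) (nat_lit 4) (nat_lit 5) (nat_lit 4) (nat_lit 4) (nat_lit 278) (nat_lit 231) (nat_lit 211)) (XT.lf (nat_lit 0) (nat_lit 12294361405) (nat_lit 76) (nat_lit 14637705306) (nat_lit 76) (nat_lit 7103105967) (nat_lit 3) (nat_lit 4) (nat_lit 4) (nat_lit 5) (nat_lit 4) (nat_lit 4) (nat_lit 279) (nat_lit 231) (nat_lit 210))))) (XT.nd (nat_lit 234) (nat_lit 152) (nat_lit 0) (XT.nd (nat_lit 78) (nat_lit 0) (nat_lit 0) (XT.lf (nat_lit 0) (nat_lit 17493162114) (nat_lit 76)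 (nat_lit 13361162741) (nat_lit 76) (nat_lit 5688204087) (nat_lit 3) (nat_lit 4) (nat_lit 4) (nat_lit 5) (nat_lit 4) (nat_lit 4) (nat_lit 280) (nat_lit 231) (nat_lit 209)) (XT.nd (nat_lit 78) (nat_lit 0) (nat_lit 0) (XT.lf (nat_lit 0) (nat_lit 23021462633) (nat_lit 76) (nat_lit 12017248327) (nat_lit 76) (nat_lit 4216179196) (nat_lit 3) (nat_lit 4) (nat_lit 4) (nat_lit 5) (nat_lit 4) (nat_lit 4) (nat_lit 281) (nat_lit 231) (nat_lit 208)) (XT.lf (nat_lit 0) (nat_lit 28912023261) (nat_lit 76) (nat_lit 10597998128) (nat_lit 76) (nat_lit 2678308185) (nat_lit 3) (nat_lit 4) (nat_lit 4) (nat_lit 5) (nat_lit 4) (nat_lit 4) (nat_lit 282) (nat_lit 231) (nat_lit 207)))) (XT.nd (nat_lit 156) (nat_lit 76) (nat_lit 0) (XT.nd (nat_lit 78) (nat_lit 76) (nat_lit 0) (XT.lf (nat_lit 0) (nat_lit 35199751023) (nat_lit 76) (nat_lit 9095001772) (nat_lit 76) (nat_lit 1065477744) (nat_lit 3) (nat_lit 4) (nat_lit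 4) (nat_lit 5) (nat_lit 4) (nat_lit 4) (nat_lit 283) (nat_lit 231) (nat_lit 206)) (XT.lf (nat_lit 0) (nat_lit 600260962) (nat_lit 152) (nat_lit 6882679452) (nat_lit 76) (nat_lit 41305233367) (nat_lit 2) (nat_lit 5) (nat_lit 4) (nat_lit 5) (nat_lit 3) (nat_lit 4) (nat_lit 284) (nat_lit 231) (nat_lit 205))) (XT.nd (nat_lit 78) (nat_lit 76) (nat_lit 0) (XT.lf (nat_lit 0) (nat_lit 2302544417) (nat_lit 152) (nat_lit 3436094892) (nat_lit 76) (nat_lit 46752824712) (nat_lit 2) (nat_lit 5) (nat_lit 4) (nat_lit 5) (nat_lit 3) (nat_lit 4) (nat_lit 285) (nat_lit 231) (nat_lit 204)) (XT.lf (nat_lit 0) (nat_lit 237188251) (nat_lit 76) (nat_lit 3873275868) (nat_lit 152) (nat_lit 52383176189) (nat_lit 1) (nat_lit 5) (nat_lit 2) (nat_lit 5) (nat_lit 3) (nat_lit 4) (nat_lit 286) (nat_lit 231) (nat_lit 203)))))) (XT.nd (nat_lit 546) (nat_lit 0) (nat_lit 0) (XT.nd (nat_lit 234) (nat_lit 0) (nat_lit 0)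 (XT.nd (nat_lit 78) (nat_lit 0) (nat_lit 0) (XT.lf (nat_lit 0) (nat_lit 4340396112) (nat_lit 76) (nat_lit 1781577234) (nat_lit 152) (nat_lit 54689466725) (nat_lit 1) (nat_lit 5) (nat_lit 2) (nat_lit 5) (nat_lit 3) (nat_lit 4) (nat_lit 287) (nat_lit 231) (nat_lit 202)) (XT.nd (nat_lit 78) (nat_lit 0) (nat_lit 0) (XT.lf (nat_lit 0) (nat_lit 8272942834) (nat_lit 152) (nat_lit 56771444549) (nat_lit 0) (nat_lit 432146832) (nat_lit 1) (nat_lit 5) (nat_lit 3) (nat_lit 4) (nat_lit 1) (nat_lit 4) (nat_lit 288) (nat_lit 231) (nat_lit 201)) (XT.lf (nat_lit 0) (nat_lit 10611761525) (nat_lit 152) (nat_lit 57195076435) (nat_lit 0) (nat_lit 2706878389) (nat_lit 1) (nat_lit 5) (nat_lit 3) (nat_lit 4) (nat_lit 1) (nat_lit 4) (nat_lit 289) (nat_lit 231) (nat_lit 200)))) (XT.nd (nat_lit 156) (nat_lit 0) (nat_lit 0) (XT.nd (nat_lit 78) (nat_lit 0) (nat_lit 0) (XT.lf (nat_lit 0) (nat_lit 13109442109)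 (nat_lit 152) (nat_lit 57701603051) (nat_lit 0) (nat_lit 5145219035) (nat_lit 1) (nat_lit 5) (nat_lit 3) (nat_lit 4) (nat_lit 1) (nat_lit 4) (nat_lit 290) (nat_lit 231) (nat_lit 199)) (XT.lf (nat_lit 0) (nat_lit 15780785658) (nat_lit 152) (nat_lit 58294026039) (nat_lit 0) (nat_lit 7761618197) (nat_lit 1) (nat_lit 5) (nat_lit 3) (nat_lit 4) (nat_lit 1) (nat_lit 4) (nat_lit 291) (nat_lit 231) (nat_lit 198))) (XT.nd (nat_lit 78) (nat_lit 0) (nat_lit 0) (XT.lf (nat_lit 0) (nat_lit 18641622355) (nat_lit 152) (nat_lit 58975856051) (nat_lit 0) (nat_lit 10571580460) (nat_lit 1) (nat_lit 5) (nat_lit 3) (nat_lit 4) (nat_lit 1) (nat_lit 4) (nat_lit 292) (nat_lit 231) (nat_lit 197)) (XT.lf (nat_lit 0) (nat_lit 21708905306) (nat_lit 152) (nat_lit 59751133563) (nat_lit 0) (nat_lit 13591757455) (nat_lit 1) (nat_lit 5) (nat_lit 3) (nat_lit 4) (nat_lit 1) (nat_lit 4) (nat_lit 293) (nat_lit 231) (nat_lit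 196))))) (XT.nd (nat_lit 234) (nat_lit 0) (nat_lit 0) (XT.nd (nat_lit 78) (nat_lit 0) (nat_lit 0) (XT.lf (nat_lit 0) (nat_lit 25000811004) (nat_lit 152) (nat_lit 60624452811) (nat_lit 0) (nat_lit 16840046526) (nat_lit 1) (nat_lit 5) (nat_lit 3) (nat_lit 4) (nat_lit 1) (nat_lit 4) (nat_lit 294) (nat_lit 231) (nat_lit 195)) (XT.nd (nat_lit 78) (nat_lit 0) (nat_lit 0) (XT.lf (nat_lit 0) (nat_lit 28536847036) (nat_lit 152) (nat_lit 61600989021) (nat_lit 0) (nat_lit 20335696794) (nat_lit 1) (nat_lit 5) (nat_lit 3) (nat_lit 4) (nat_lit 1) (nat_lit 4) (nat_lit 295) (nat_lit 231) (nat_lit 194)) (XT.lf (nat_lit 0) (nat_lit 32337967692) (nat_lit 152) (nat_lit 62686529074) (nat_lit 0) (nat_lit 24099423222) (nat_lit 1) (nat_lit 5) (nat_lit 3) (nat_lit 4) (nat_lit 1) (nat_lit 4) (nat_lit 296) (nat_lit 231) (nat_lit 193)))) (XT.nd (nat_lit 156) (nat_lit 0) (nat_lit 0) (XT.nd (nat_lit 78) (nat_lit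 0) (nat_lit 0) (XT.lf (nat_lit 0) (nat_lit 36426698130) (nat_lit 152) (nat_lit 63887505800) (nat_lit 0) (nat_lit 28153529376) (nat_lit 1) (nat_lit 5) (nat_lit 3) (nat_lit 4) (nat_lit 1) (nat_lit 4) (nat_lit 297) (nat_lit 231) (nat_lit 192)) (XT.lf (nat_lit 0) (nat_lit 40827267864) (nat_lit 152) (nat_lit 65211036097) (nat_lit 0) (nat_lit 32522039588) (nat_lit 1) (nat_lit 5) (nat_lit 3) (nat_lit 4) (nat_lit 1) (nat_lit 4) (nat_lit 298) (nat_lit 231) (nat_lit 191))) (XT.nd (nat_lit 78) (nat_lit 0) (nat_lit 0) (XT.lf (nat_lit 0) (nat_lit 45565754344) (nat_lit 152) (nat_lit 66664963110) (nat_lit 0) (nat_lit 37230841325) (nat_lit 1) (nat_lit 5) (nat_lit 3) (nat_lit 4) (nat_lit 1) (nat_lit 4) (nat_lit 299) (nat_lit 231) (nat_lit 190)) (XT.lf (nat_lit 0) (nat_lit 50670237491) (nat_lit 152) (nat_lit 68257902700) (nat_lit 0) (nat_lit 42307838598) (nat_lit 1) (nat_lit 5) (nat_lit 3) (nat_lit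 4) (nat_lit 1) (nat_lit 4) (nat_lit 300) (nat_lit 231) (nat_lit 189))))))))
noncomputable def xc37 : XT := (XT.nd (nat_lit 2106) (nat_lit 0) (nat_lit 0) (XT.nd (nat_lit 1014) (nat_lit 0) (nat_lit 0) (XT.nd (nat_lit 468) (nat_lit 0) (nat_lit 0) (XT.nd (nat_lit 234) (nat_lit 0) (nat_lit 0) (XT.nd (nat_lit 78) (nat_lit 0) (nat_lit 0) (XT.lf (nat_lit 0) (nat_lit 56170966092) (nat_lit 152) (nat_lit 69999294511) (nat_lit 0) (nat_lit 47783117318) (nat_lit 1) (nat_lit 5) (nat_lit 3) (nat_lit 4) (nat_lit 1) (nat_lit 4) (nat_lit 301) (nat_lit 231) (nat_lit 188)) (XT.nd (nat_lit 78) (nat_lit 0) (nat_lit 0) (XT.lf (nat_lit 0) (nat_lit 62100537060) (nat_lit 152) (nat_lit 71899457901) (nat_lit 0) (nat_lit 53689123579) (nat_lit 1) (nat_lit 5) (nat_lit 3) (nat_lit 4) (nat_lit 1) (nat_lit 4) (nat_lit 302) (nat_lit 231) (nat_lit 187)) (XT.lf (nat_lit 0) (nat_lit 68494088591) (nat_lit 152) (nat_lit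 73969653097) (nat_lit 0) (nat_lit 60060855938) (nat_lit 1) (nat_lit 5) (nat_lit 3) (nat_lit 4) (nat_lit 1) (nat_lit 4) (nat_lit 303) (nat_lit 231) (nat_lit 186)))) (XT.nd (nat_lit 78) (nat_lit 0) (nat_lit 0) (XT.lf (nat_lit 0) (nat_lit 75389508398) (nat_lit 152) (nat_lit 76222147924) (nat_lit 0) (nat_lit 66936072808) (nat_lit 1) (nat_lit 5) (nat_lit 3) (nat_lit 4) (nat_lit 1) (nat_lit 4) (nat_lit 304) (nat_lit 231) (nat_lit 185)) (XT.nd (nat_lit 78) (nat_lit 0) (nat_lit 0) (XT.lf (nat_lit 0) (nat_lit 82827658230) (nat_lit 152) (nat_lit 78670290498) (nat_lit 0) (nat_lit 74355516216) (nat_lit 1) (nat_lit 5) (nat_lit 3) (nat_lit 4) (nat_lit 1) (nat_lit 4) (nat_lit 305) (nat_lit 231) (nat_lit 184)) (XT.lf (nat_lit 0) (nat_lit 90852616009) (nat_lit 152) (nat_lit 81328588331) (nat_lit 0) (nat_lit 82363153233) (nat_lit 1) (nat_lit 5) (nat_lit 3) (nat_lit 4) (nat_lit 1) (nat_lit 4) (nat_lit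 306) (nat_lit 231) (nat_lit 183))))) (XT.nd (nat_lit 234) (nat_lit 0) (nat_lit 0) (XT.nd (nat_lit 78) (nat_lit 0) (nat_lit 0) (XT.lf (nat_lit 0) (nat_lit 99511937043) (nat_lit 152) (nat_lit 84212794299) (nat_lit 0) (nat_lit 91006436524) (nat_lit 1) (nat_lit 5) (nat_lit 3) (nat_lit 4) (nat_lit 1) (nat_lit 4) (nat_lit 307) (nat_lit 231) (nat_lit 182)) (XT.nd (nat_lit 78) (nat_lit 0) (nat_lit 0) (XT.lf (nat_lit 0) (nat_lit 108856935825) (nat_lit 152) (nat_lit 87339999993) (nat_lit 0) (nat_lit 100336585544) (nat_lit 1) (nat_lit 5) (nat_lit 3) (nat_lit 4) (nat_lit 1) (nat_lit 4) (nat_lit 308) (nat_lit 231) (nat_lit 181)) (XT.lf (nat_lit 0) (nat_lit 118942990127) (nat_lit 152) (nat_lit 90728737003) (nat_lit 0) (nat_lit 110408890066) (nat_lit 1) (nat_lit 5) (nat_lit 3) (nat_lit 4) (nat_lit 1) (nat_lit 4) (nat_lit 309) (nat_lit 231) (nat_lit 180)))) (XT.nd (nat_lit 156) (nat_lit 0) (nat_lit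 0) (XT.nd (nat_lit 78) (nat_lit 0) (nat_lit 0) (XT.lf (nat_lit 0) (nat_lit 129829869159) (nat_lit 152) (nat_lit 94399086732) (nat_lit 0) (nat_lit 121283037821) (nat_lit 1) (nat_lit 5) (nat_lit 3) (nat_lit 4) (nat_lit 1) (nat_lit 4) (nat_lit 310) (nat_lit 231) (nat_lit 179)) (XT.lf (nat_lit 0) (nat_lit 141582087760) (nat_lit 152) (nat_lit 98372799402) (nat_lit 0) (nat_lit 133023468202) (nat_lit 1) (nat_lit 5) (nat_lit 3) (nat_lit 4) (nat_lit 1) (nat_lit 4) (nat_lit 311) (nat_lit 231) (nat_lit 178))) (XT.nd (nat_lit 78) (nat_lit 0) (nat_lit 0) (XT.lf (nat_lit 0) (nat_lit 154269288707) (nat_lit 152) (nat_lit 102673422940) (nat_lit 0) (nat_lit 145699754130) (nat_lit 1) (nat_lit 5) (nat_lit 3) (nat_lit 4) (nat_lit 1) (nat_lit 4) (nat_lit 312) (nat_lit 231) (nat_lit 177)) (XT.lf (nat_lit 0) (nat_lit 167966655412) (nat_lit 152) (nat_lit 107326442521) (nat_lit 0) (nat_lit 159387014337) (nat_lit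 1) (nat_lit 5) (nat_lit 3) (nat_lit 4) (nat_lit 1) (nat_lit 4) (nat_lit 313) (nat_lit 231) (nat_lit 176)))))) (XT.nd (nat_lit 546) (nat_lit 0) (nat_lit 0) (XT.nd (nat_lit 234) (nat_lit 0) (nat_lit 0) (XT.nd (nat_lit 78) (nat_lit 0) (nat_lit 0) (XT.lf (nat_lit 0) (nat_lit 182755357457) (nat_lit 152) (nat_lit 112359431595) (nat_lit 0) (nat_lit 174166358513) (nat_lit 1) (nat_lit 5) (nat_lit 3) (nat_lit 4) (nat_lit 1) (nat_lit 4) (nat_lit 314) (nat_lit 231) (nat_lit 175)) (XT.nd (nat_lit 78) (nat_lit 0) (nat_lit 0) (XT.lf (nat_lit 0) (nat_lit 198723031594) (nat_lit 152) (nat_lit 117802215284) (nat_lit 0) (nat_lit 190125367956) (nat_lit 1) (nat_lit 5) (nat_lit 3) (nat_lit 4) (nat_lit 1) (nat_lit 4) (nat_lit 315) (nat_lit 231) (nat_lit 174)) (XT.lf (nat_lit 0) (nat_lit 215964301076) (nat_lit 152) (nat_lit 123687047118) (nat_lit 0) (nat_lit 207358614574) (nat_lit 1) (nat_lit 5) (nat_lit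 3) (nat_lit 4) (nat_lit 1) (nat_lit 4) (nat_lit 316) (nat_lit 231) (nat_lit 173)))) (XT.nd (nat_lit 156) (nat_lit 0) (nat_lit 0) (XT.nd (nat_lit 78) (nat_lit 0) (nat_lit 0) (XT.lf (nat_lit 0) (nat_lit 234581336391) (nat_lit 152) (nat_lit 130048800178) (nat_lit 0) (nat_lit 225968221311) (nat_lit 1) (nat_lit 5) (nat_lit 3) (nat_lit 4) (nat_lit 1) (nat_lit 4) (nat_lit 317) (nat_lit 231) (nat_lit 172)) (XT.lf (nat_lit 0) (nat_lit 254684460711) (nat_lit 152) (nat_lit 136925173738) (nat_lit 0) (nat_lit 246064467317) (nat_lit 1) (nat_lit 5) (nat_lit 3) (nat_lit 4) (nat_lit 1) (nat_lit 4) (nat_lit 318) (nat_lit 231) (nat_lit 171))) (XT.nd (nat_lit 78) (nat_lit 0) (nat_lit 0) (XT.lf (nat_lit 0) (nat_lit 276392803660) (nat_lit 152) (nat_lit 144356916681) (nat_lit 0) (nat_lit 267766441458) (nat_lit 1) (nat_lit 5) (nat_lit 3) (nat_lit 4) (nat_lit 1) (nat_lit 4) (nat_lit 319) (nat_lit 231) (nat_lit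 170)) (XT.lf (nat_lit 0) (nat_lit 299835007271) (nat_lit 152) (nat_lit 152388068964) (nat_lit 0) (nat_lit 291202748024) (nat_lit 1) (nat_lit 5) (nat_lit 3) (nat_lit 4) (nat_lit 1) (nat_lit 4) (nat_lit 320) (nat_lit 231) (nat_lit 169))))) (XT.nd (nat_lit 234) (nat_lit 0) (nat_lit 0) (XT.nd (nat_lit 78) (nat_lit 0) (nat_lit 0) (XT.lf (nat_lit 0) (nat_lit 325149988307) (nat_lit 152) (nat_lit 161066222601) (nat_lit 0) (nat_lit 316512268833) (nat_lit 1) (nat_lit 5) (nat_lit 3) (nat_lit 4) (nat_lit 1) (nat_lit 4) (nat_lit 321) (nat_lit 231) (nat_lit 168)) (XT.nd (nat_lit 78) (nat_lit 0) (nat_lit 0) (XT.lf (nat_lit 0) (nat_lit 352487761469) (nat_lit 152) (nat_lit 170442803687) (nat_lit 0) (nat_lit 343844986230) (nat_lit 1) (nat_lit 5) (nat_lit 3) (nat_lit 4) (nat_lit 1) (nat_lit 4) (nat_lit 322) (nat_lit 231) (nat_lit 167)) (XT.lf (nat_lit 0) (nat_lit 382010328377) (nat_lit 152) (nat_lit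 180573377147) (nat_lit 0) (nat_lit 373362871874) (nat_lit 1) (nat_lit 5) (nat_lit 3) (nat_lit 4) (nat_lit 1) (nat_lit 4) (nat_lit 323) (nat_lit 231) (nat_lit 166)))) (XT.nd (nat_lit 156) (nat_lit 0) (nat_lit 0) (XT.nd (nat_lit 78) (nat_lit 0) (nat_lit 0) (XT.lf (nat_lit 0) (nat_lit 413892637575) (nat_lit 152) (nat_lit 191517976009) (nat_lit 0) (nat_lit 405240846568) (nat_lit 1) (nat_lit 5) (nat_lit 3) (nat_lit 4) (nat_lit 1) (nat_lit 4) (nat_lit 324) (nat_lit 231) (nat_lit 165)) (XT.lf (nat_lit 0) (nat_lit 448323621265) (nat_lit 152) (nat_lit 203341457156) (nat_lit 0) (nat_lit 439667816829) (nat_lit 1) (nat_lit 5) (nat_lit 3) (nat_lit 4) (nat_lit 1) (nat_lit 4) (nat_lit 325) (nat_lit 231) (nat_lit 164))) (XT.nd (nat_lit 78) (nat_lit 0) (nat_lit 0) (XT.lf (nat_lit 0) (nat_lit 485507314908) (nat_lit 152) (nat_lit 216113885660) (nat_lit 0) (nat_lit 476847794333) (nat_lit 1) (nat_lit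 5) (nat_lit 3) (nat_lit 4) (nat_lit 1) (nat_lit 4) (nat_lit 326) (nat_lit 231) (nat_lit 163)) (XT.lf (nat_lit 0) (nat_lit 525664066316) (nat_lit 152) (nat_lit 229910949988) (nat_lit 0) (nat_lit 517001104872) (nat_lit 1) (nat_lit 5) (nat_lit 3) (nat_lit 4) (nat_lit 1) (nat_lit 4) (nat_lit 327) (nat_lit 231) (nat_lit 162))))))) (XT.nd (nat_lit 1014) (nat_lit 0) (nat_lit 0) (XT.nd (nat_lit 468) (nat_lit 0) (nat_lit 0) (XT.nd (nat_lit 234) (nat_lit 0) (nat_lit 0) (XT.nd (nat_lit 78) (nat_lit 0) (nat_lit 0) (XT.lf (nat_lit 0) (nat_lit 569031841424) (nat_lit 152) (nat_lit 244814410519) (nat_lit 0) (nat_lit 560365693990) (nat_lit 1) (nat_lit 5) (nat_lit 3) (nat_lit 4) (nat_lit 1) (nat_lit 4) (nat_lit 328) (nat_lit 231) (nat_lit 161)) (XT.nd (nat_lit 78) (nat_lit 0) (nat_lit 0) (XT.lf (nat_lit 0) (nat_lit 615867634456) (nat_lit 152) (nat_lit 260912584058) (nat_lit 0) (nat_lit 607198537031)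 (nat_lit 1) (nat_lit 5) (nat_lit 3) (nat_lit 4) (nat_lit 1) (nat_lit 4) (nat_lit 329) (nat_lit 231) (nat_lit 160)) (XT.lf (nat_lit 0) (nat_lit 666448990850) (nat_lit 152) (nat_lit 278300867188) (nat_lit 0) (nat_lit 657777161953) (nat_lit 1) (nat_lit 5) (nat_lit 3) (nat_lit 4) (nat_lit 1) (nat_lit 4) (nat_lit 330) (nat_lit 231) (nat_lit 159)))) (XT.nd (nat_lit 78) (nat_lit 0) (nat_lit 0) (XT.lf (nat_lit 0) (nat_lit 721075651979) (nat_lit 152) (nat_lit 297082301588) (nat_lit 0) (nat_lit 712401293940) (nat_lit 1) (nat_lit 5) (nat_lit 3) (nat_lit 4) (nat_lit 1) (nat_lit 4) (nat_lit 331) (nat_lit 231) (nat_lit 158)) (XT.nd (nat_lit 78) (nat_lit 0) (nat_lit 0) (XT.lf (nat_lit 0) (nat_lit 780071331390) (nat_lit 152) (nat_lit 317368184645) (nat_lit 0) (nat_lit 771394631554) (nat_lit 1) (nat_lit 5) (nat_lit 3) (nat_lit 4) (nat_lit 1) (nat_lit 4) (nat_lit 332) (nat_lit 231) (nat_lit 157)) (XT.lf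 (nat_lit 0) (nat_lit 843785633109) (nat_lit 152) (nat_lit 339278729001) (nat_lit 0) (nat_lit 835106764941) (nat_lit 1) (nat_lit 5) (nat_lit 3) (nat_lit 4) (nat_lit 1) (nat_lit 4) (nat_lit 333) (nat_lit 231) (nat_lit 156))))) (XT.nd (nat_lit 234) (nat_lit 0) (nat_lit 0) (XT.nd (nat_lit 78) (nat_lit 0) (nat_lit 0) (XT.lf (nat_lit 0) (nat_lit 912596123368) (nat_lit 152) (nat_lit 362943774918) (nat_lit 0) (nat_lit 903915247486) (nat_lit 1) (nat_lit 5) (nat_lit 3) (nat_lit 4) (nat_lit 1) (nat_lit 4) (nat_lit 334) (nat_lit 231) (nat_lit 155)) (XT.nd (nat_lit 78) (nat_lit 0) (nat_lit 0) (XT.lf (nat_lit 0) (nat_lit 986910568036) (nat_lit 152) (nat_lit 388503559706) (nat_lit 0) (nat_lit 978227833160) (nat_lit 1) (nat_lit 5) (nat_lit 3) (nat_lit 4) (nat_lit 1) (nat_lit 4) (nat_lit 335) (nat_lit 231) (nat_lit 154)) (XT.lf (nat_lit 0) (nat_lit 1067169349006) (nat_lit 152) (nat_lit 416109548755)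 (nat_lit 0) (nat_lit 1058484892839) (nat_lit 1) (nat_lit 5) (nat_lit 3) (nat_lit 4) (nat_lit 1) (nat_lit 4) (nat_lit 336) (nat_lit 231) (nat_lit 153)))) (XT.nd (nat_lit 156) (nat_lit 0) (nat_lit 0) (XT.nd (nat_lit 78) (nat_lit 0) (nat_lit 0) (XT.lf (nat_lit 0) (nat_lit 1153848073871) (nat_lit 152) (nat_lit 445925333113) (nat_lit 0) (nat_lit 1145162023916) (nat_lit 1) (nat_lit 5) (nat_lit 3) (nat_lit 4) (nat_lit 1) (nat_lit 4) (nat_lit 337) (nat_lit 231) (nat_lit 152)) (XT.lf (nat_lit 0) (nat_lit 1247460394332) (nat_lit 152) (nat_lit 478127598908) (nat_lit 0) (nat_lit 1238772868647) (nat_lit 1) (nat_lit 5) (nat_lit 3) (nat_lit 4) (nat_lit 1) (nat_lit 4) (nat_lit 338) (nat_lit 231) (nat_lit 151))) (XT.nd (nat_lit 78) (nat_lit 0) (nat_lit 0) (XT.lf (nat_lit 0) (nat_lit 1348561050067) (nat_lit 152) (nat_lit 512907174382) (nat_lit 0) (nat_lit 1339872157966) (nat_lit 1) (nat_lit 5) (nat_lit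 3) (nat_lit 4) (nat_lit 1) (nat_lit 4) (nat_lit 339) (nat_lit 231) (nat_lit 150)) (XT.lf (nat_lit 0) (nat_lit 1457749156072) (nat_lit 152) (nat_lit 550470160724) (nat_lit 0) (nat_lit 1449058998771) (nat_lit 1) (nat_lit 5) (nat_lit 3) (nat_lit 4) (nat_lit 1) (nat_lit 4) (nat_lit 340) (nat_lit 231) (nat_lit 149)))))) (XT.nd (nat_lit 31044) (nat_lit 0) (nat_lit 532) (XT.nd (nat_lit 234) (nat_lit 0) (nat_lit 0) (XT.nd (nat_lit 78) (nat_lit 0) (nat_lit 0) (XT.lf (nat_lit 0) (nat_lit 1575671752976) (nat_lit 152) (nat_lit 591039153407) (nat_lit 0) (nat_lit 1566980424193) (nat_lit 1) (nat_lit 5) (nat_lit 3) (nat_lit 4) (nat_lit 1) (nat_lit 4) (nat_lit 341) (nat_lit 231) (nat_lit 148)) (XT.nd (nat_lit 78) (nat_lit 0) (nat_lit 0) (XT.lf (nat_lit 0) (nat_lit 1703027641353) (nat_lit 152) (nat_lit 634854561278) (nat_lit 0) (nat_lit 1694335227864) (nat_lit 1) (nat_lit 5) (nat_lit 3) (nat_lit 4)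 (nat_lit 1) (nat_lit 4) (nat_lit 342) (nat_lit 231) (nat_lit 147)) (XT.lf (nat_lit 0) (nat_lit 1840571522764) (nat_lit 152) (nat_lit 682176031198) (nat_lit 0) (nat_lit 1831878104918) (nat_lit 1) (nat_lit 5) (nat_lit 3) (nat_lit 4) (nat_lit 1) (nat_lit 4) (nat_lit 343) (nat_lit 231) (nat_lit 146)))) (XT.nd (nat_lit 30654) (nat_lit 0) (nat_lit 1140) (XT.nd (nat_lit 78) (nat_lit 0) (nat_lit 0) (XT.lf (nat_lit 0) (nat_lit 1989118472061) (nat_lit 152) (nat_lit 733283986692) (nat_lit 0) (nat_lit 1980424124255) (nat_lit 1) (nat_lit 5) (nat_lit 3) (nat_lit 4) (nat_lit 1) (nat_lit 4) (nat_lit 344) (nat_lit 231) (nat_lit 145)) (XT.lf (nat_lit 0) (nat_lit 2149548767463) (nat_lit 152) (nat_lit 788481289719) (nat_lit 0) (nat_lit 2140853558583) (nat_lit 1) (nat_lit 5) (nat_lit 3) (nat_lit 4) (nat_lit 1) (nat_lit 4) (nat_lit 345) (nat_lit 231) (nat_lit 144))) (XT.nd (nat_lit 78) (nat_lit 0) (nat_lit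 0) (XT.lf (nat_lit 0) (nat_lit 435731545) (nat_lit 228) (nat_lit 3561325032) (nat_lit 0) (nat_lit 435731545) (nat_lit 16) (nat_lit 5) (nat_lit 19) (nat_lit 4) (nat_lit 16) (nat_lit 4) (nat_lit 256) (nat_lit 232) (nat_lit 232)) (XT.lf (nat_lit 0) (nat_lit 3799566063) (nat_lit 228) (nat_lit 2572777877) (nat_lit 0) (nat_lit 2852015726) (nat_lit 16) (nat_lit 5) (nat_lit 19) (nat_lit 4) (nat_lit 16) (nat_lit 4) (nat_lit 257) (nat_lit 232) (nat_lit 231))))) (XT.nd (nat_lit 234) (nat_lit 228) (nat_lit 0) (XT.nd (nat_lit 78) (nat_lit 228) (nat_lit 0) (XT.lf (nat_lit 0) (nat_lit 2201593078) (nat_lit 152) (nat_lit 4624008150) (nat_lit 152) (nat_lit 2799096391) (nat_lit 14) (nat_lit 4) (nat_lit 16) (nat_lit 5) (nat_lit 16) (nat_lit 4) (nat_lit 258) (nat_lit 232) (nat_lit 230)) (XT.nd (nat_lit 78) (nat_lit 228) (nat_lit 0) (XT.lf (nat_lit 0) (nat_lit 7260925845) (nat_lit 152) (nat_lit 2722041375)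 (nat_lit 152) (nat_lit 84757928) (nat_lit 14) (nat_lit 4) (nat_lit 16) (nat_lit 5) (nat_lit 16) (nat_lit 4) (nat_lit 259) (nat_lit 232) (nat_lit 229)) (XT.lf (nat_lit 0) (nat_lit 1973078451) (nat_lit 152) (nat_lit 605074388) (nat_lit 228) (nat_lit 7974203778) (nat_lit 11) (nat_lit 5) (nat_lit 13) (nat_lit 5) (nat_lit 14) (nat_lit 4) (nat_lit 260) (nat_lit 232) (nat_lit 228)))) (XT.nd (nat_lit 156) (nat_lit 76) (nat_lit 0) (XT.nd (nat_lit 78) (nat_lit 152) (nat_lit 0) (XT.lf (nat_lit 0) (nat_lit 5400862600) (nat_lit 228) (nat_lit 4062474191) (nat_lit 0) (nat_lit 1617568859) (nat_lit 11) (nat_lit 5) (nat_lit 14) (nat_lit 4) (nat_lit 11) (nat_lit 4) (nat_lit 261) (nat_lit 232) (nat_lit 227)) (XT.lf (nat_lit 0) (nat_lit 605041471) (nat_lit 152) (nat_lit 7719221604) (nat_lit 152) (nat_lit 3338810422) (nat_lit 9) (nat_lit 4) (nat_lit 11) (nat_lit 5) (nat_lit 11) (nat_lit 4) (nat_lit 262)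 (nat_lit 232) (nat_lit 226))) (XT.nd (nat_lit 78) (nat_lit 76) (nat_lit 0) (XT.lf (nat_lit 0) (nat_lit 5657512693) (nat_lit 152) (nat_lit 5785936675) (nat_lit 152) (nat_lit 852638972) (nat_lit 9) (nat_lit 4) (nat_lit 11) (nat_lit 5) (nat_lit 11) (nat_lit 4) (nat_lit 263) (nat_lit 232) (nat_lit 225)) (XT.lf (nat_lit 0) (nat_lit 1597982021) (nat_lit 228) (nat_lit 2121427061) (nat_lit 76) (nat_lit 9269283672) (nat_lit 8) (nat_lit 5) (nat_lit 11) (nat_lit 5) (nat_lit 9) (nat_lit 4) (nat_lit 264) (nat_lit 232) (nat_lit 224))))))))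
noncomputable def xc38 : XT := (XT.nd (nat_lit 2106) (nat_lit 0) (nat_lit 0) (XT.nd (nat_lit 1014) (nat_lit 152) (nat_lit 0) (XT.nd (nat_lit 468) (nat_lit 152) (nat_lit 0) (XT.nd (nat_lit 234) (nat_lit 152) (nat_lit 0) (XT.nd (nat_lit 78) (nat_lit 0) (nat_lit 0) (XT.lf (nat_lit 0) (nat_lit 2672531876) (nat_lit 76) (nat_lit 1458128037) (nat_lit 152) (nat_lit 9610681913) (nat_lit 7) (nat_lit 5) (nat_lit 8) (nat_lit 5) (nat_lit 9) (nat_lit 4) (nat_lit 265) (nat_lit 232) (nat_lit 223)) (XT.nd (nat_lit 78) (nat_lit 0) (nat_lit 0) (XT.lf (nat_lit 0) (nat_lit 6820579567) (nat_lit 152) (nat_lit 6804741689) (nat_lit 0) (nat_lit 933413003) (nat_lit 7) (nat_lit 5) (nat_lit 9) (nat_lit 4) (nat_lit 7) (nat_lit 4) (nat_lit 266) (nat_lit 232) (nat_lit 222)) (XT.lf (nat_lit 0) (nat_lit 9644539223) (nat_lit 152) (nat_lit 2423218620) (nat_lit 0) (nat_lit 3381087384) (nat_lit 7) (nat_lit 5) (nat_lit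 9) (nat_lit 4) (nat_lit 7) (nat_lit 4) (nat_lit 267) (nat_lit 232) (nat_lit 221)))) (XT.nd (nat_lit 78) (nat_lit 76) (nat_lit 0) (XT.lf (nat_lit 0) (nat_lit 2249311525) (nat_lit 76) (nat_lit 10388989913) (nat_lit 76) (nat_lit 3777125781) (nat_lit 6) (nat_lit 4) (nat_lit 7) (nat_lit 5) (nat_lit 7) (nat_lit 4) (nat_lit 268) (nat_lit 232) (nat_lit 220)) (XT.nd (nat_lit 78) (nat_lit 76) (nat_lit 0) (XT.lf (nat_lit 0) (nat_lit 7265775533) (nat_lit 76) (nat_lit 8565965010) (nat_lit 76) (nat_lit 1631496904) (nat_lit 6) (nat_lit 4) (nat_lit 7) (nat_lit 5) (nat_lit 7) (nat_lit 4) (nat_lit 269) (nat_lit 232) (nat_lit 219)) (XT.lf (nat_lit 0) (nat_lit 550074428) (nat_lit 152) (nat_lit 6089020679) (nat_lit 76) (nat_lit 11963183761) (nat_lit 5) (nat_lit 5) (nat_lit 7) (nat_lit 5) (nat_lit 6) (nat_lit 4) (nat_lit 270) (nat_lit 232) (nat_lit 218))))) (XT.nd (nat_lit 234) (nat_lit 76) (nat_lit 0)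 (XT.nd (nat_lit 78) (nat_lit 76) (nat_lit 0) (XT.lf (nat_lit 0) (nat_lit 2724137287) (nat_lit 152) (nat_lit 1843550842) (nat_lit 76) (nat_lit 15269444814) (nat_lit 5) (nat_lit 5) (nat_lit 7) (nat_lit 5) (nat_lit 6) (nat_lit 4) (nat_lit 271) (nat_lit 232) (nat_lit 217)) (XT.nd (nat_lit 78) (nat_lit 0) (nat_lit 0) (XT.lf (nat_lit 0) (nat_lit 2740430931) (nat_lit 76) (nat_lit 2310665592) (nat_lit 152) (nat_lit 16121887212) (nat_lit 4) (nat_lit 5) (nat_lit 5) (nat_lit 5) (nat_lit 6) (nat_lit 4) (nat_lit 272) (nat_lit 232) (nat_lit 216)) (XT.lf (nat_lit 0) (nat_lit 7534017822) (nat_lit 152) (nat_lit 14960730192) (nat_lit 0) (nat_lit 123857277) (nat_lit 4) (nat_lit 5) (nat_lit 6) (nat_lit 4) (nat_lit 4) (nat_lit 4) (nat_lit 273) (nat_lit 232) (nat_lit 215)))) (XT.nd (nat_lit 156) (nat_lit 76) (nat_lit 0) (XT.nd (nat_lit 78) (nat_lit 0) (nat_lit 0) (XT.lf (nat_lit 0) (nat_lit 10196921348)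 (nat_lit 152) (nat_lit 11401432810) (nat_lit 0) (nat_lit 2583465577) (nat_lit 4) (nat_lit 5) (nat_lit 6) (nat_lit 4) (nat_lit 4) (nat_lit 4) (nat_lit 274) (nat_lit 232) (nat_lit 214)) (XT.lf (nat_lit 0) (nat_lit 13000015707) (nat_lit 152) (nat_lit 7677996960) (nat_lit 0) (nat_lit 5198323615) (nat_lit 4) (nat_lit 5) (nat_lit 6) (nat_lit 4) (nat_lit 4) (nat_lit 4) (nat_lit 275) (nat_lit 232) (nat_lit 213))) (XT.nd (nat_lit 78) (nat_lit 76) (nat_lit 0) (XT.lf (nat_lit 0) (nat_lit 15959911829) (nat_lit 152) (nat_lit 3768357839) (nat_lit 0) (nat_lit 7983926848) (nat_lit 4) (nat_lit 5) (nat_lit 6) (nat_lit 4) (nat_lit 4) (nat_lit 4) (nat_lit 276) (nat_lit 232) (nat_lit 212)) (XT.lf (nat_lit 0) (nat_lit 369117538) (nat_lit 76) (nat_lit 18733909586) (nat_lit 76) (nat_lit 10596542299) (nat_lit 3) (nat_lit 4) (nat_lit 4) (nat_lit 5) (nat_lit 4) (nat_lit 4) (nat_lit 277) (nat_lit 232) (nat_lit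 211)))))) (XT.nd (nat_lit 546) (nat_lit 152) (nat_lit 0) (XT.nd (nat_lit 234) (nat_lit 0) (nat_lit 0) (XT.nd (nat_lit 78) (nat_lit 0) (nat_lit 0) (XT.lf (nat_lit 0) (nat_lit 4951118882) (nat_lit 76) (nat_lit 17589258644) (nat_lit 76) (nat_lit 9302463297) (nat_lit 3) (nat_lit 4) (nat_lit 4) (nat_lit 5) (nat_lit 4) (nat_lit 4) (nat_lit 278) (nat_lit 232) (nat_lit 210)) (XT.nd (nat_lit 78) (nat_lit 0) (nat_lit 0) (XT.lf (nat_lit 0) (nat_lit 9806363746) (nat_lit 76) (nat_lit 16390567308) (nat_lit 76) (nat_lit 7965412646) (nat_lit 3) (nat_lit 4) (nat_lit 4) (nat_lit 5) (nat_lit 4) (nat_lit 4) (nat_lit 279) (nat_lit 232) (nat_lit 209)) (XT.lf (nat_lit 0) (nat_lit 14963623952) (nat_lit 76) (nat_lit 15130732222) (nat_lit 76) (nat_lit 6577467083) (nat_lit 3) (nat_lit 4) (nat_lit 4) (nat_lit 5) (nat_lit 4) (nat_lit 4) (nat_lit 280) (nat_lit 232) (nat_lit 208)))) (XT.nd (nat_lit 156) (nat_lit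 0) (nat_lit 0) (XT.nd (nat_lit 78) (nat_lit 0) (nat_lit 0) (XT.lf (nat_lit 0) (nat_lit 20453461042) (nat_lit 76) (nat_lit 13802287696) (nat_lit 76) (nat_lit 5130401746) (nat_lit 3) (nat_lit 4) (nat_lit 4) (nat_lit 5) (nat_lit 4) (nat_lit 4) (nat_lit 281) (nat_lit 232) (nat_lit 207)) (XT.lf (nat_lit 0) (nat_lit 26308407383) (nat_lit 76) (nat_lit 12397361468) (nat_lit 76) (nat_lit 3615641432) (nat_lit 3) (nat_lit 4) (nat_lit 4) (nat_lit 5) (nat_lit 4) (nat_lit 4) (nat_lit 282) (nat_lit 232) (nat_lit 206))) (XT.nd (nat_lit 78) (nat_lit 0) (nat_lit 0) (XT.lf (nat_lit 0) (nat_lit 32563158954) (nat_lit 76) (nat_lit 10907628047) (nat_lit 76) (nat_lit 2024209785) (nat_lit 3) (nat_lit 4) (nat_lit 4) (nat_lit 5) (nat_lit 4) (nat_lit 4) (nat_lit 283) (nat_lit 232) (nat_lit 205)) (XT.lf (nat_lit 0) (nat_lit 39254780950) (nat_lit 76) (nat_lit 9324259384) (nat_lit 76) (nat_lit 346676097) (nat_lit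 3) (nat_lit 4) (nat_lit 4) (nat_lit 5) (nat_lit 4) (nat_lit 4) (nat_lit 284) (nat_lit 232) (nat_lit 204))))) (XT.nd (nat_lit 234) (nat_lit 0) (nat_lit 0) (XT.nd (nat_lit 78) (nat_lit 76) (nat_lit 0) (XT.lf (nat_lit 0) (nat_lit 1355521224) (nat_lit 152) (nat_lit 6245288978) (nat_lit 76) (nat_lit 45030343849) (nat_lit 2) (nat_lit 5) (nat_lit 4) (nat_lit 5) (nat_lit 3) (nat_lit 4) (nat_lit 285) (nat_lit 232) (nat_lit 203)) (XT.nd (nat_lit 78) (nat_lit 76) (nat_lit 0) (XT.lf (nat_lit 0) (nat_lit 3141599252) (nat_lit 152) (nat_lit 2610978011) (nat_lit 76) (nat_lit 50882580144) (nat_lit 2) (nat_lit 5) (nat_lit 4) (nat_lit 5) (nat_lit 3) (nat_lit 4) (nat_lit 286) (nat_lit 232) (nat_lit 202)) (XT.lf (nat_lit 0) (nat_lit 1328319569) (nat_lit 76) (nat_lit 3743110843) (nat_lit 152) (nat_lit 55888134832) (nat_lit 1) (nat_lit 5) (nat_lit 2) (nat_lit 5) (nat_lit 3) (nat_lit 4) (nat_lit 287) (nat_lit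 232) (nat_lit 201)))) (XT.nd (nat_lit 156) (nat_lit 0) (nat_lit 0) (XT.nd (nat_lit 78) (nat_lit 0) (nat_lit 0) (XT.lf (nat_lit 0) (nat_lit 5680365076) (nat_lit 76) (nat_lit 1516670918) (nat_lit 152) (nat_lit 58429720866) (nat_lit 1) (nat_lit 5) (nat_lit 2) (nat_lit 5) (nat_lit 3) (nat_lit 4) (nat_lit 288) (nat_lit 232) (nat_lit 200)) (XT.lf (nat_lit 0) (nat_lit 9485800059) (nat_lit 152) (nat_lit 60357107400) (nat_lit 0) (nat_lit 825099201) (nat_lit 1) (nat_lit 5) (nat_lit 3) (nat_lit 4) (nat_lit 1) (nat_lit 4) (nat_lit 289) (nat_lit 232) (nat_lit 199))) (XT.nd (nat_lit 78) (nat_lit 0) (nat_lit 0) (XT.lf (nat_lit 0) (nat_lit 11970907816) (nat_lit 152) (nat_lit 60885448556) (nat_lit 0) (nat_lit 3255262569) (nat_lit 1) (nat_lit 5) (nat_lit 3) (nat_lit 4) (nat_lit 1) (nat_lit 4) (nat_lit 290) (nat_lit 232) (nat_lit 198)) (XT.lf (nat_lit 0) (nat_lit 14630609857) (nat_lit 152) (nat_lit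 61498070190) (nat_lit 0) (nat_lit 5864090178) (nat_lit 1) (nat_lit 5) (nat_lit 3) (nat_lit 4) (nat_lit 1) (nat_lit 4) (nat_lit 291) (nat_lit 232) (nat_lit 197))))))) (XT.nd (nat_lit 1014) (nat_lit 0) (nat_lit 0) (XT.nd (nat_lit 468) (nat_lit 0) (nat_lit 0) (XT.nd (nat_lit 234) (nat_lit 0) (nat_lit 0) (XT.nd (nat_lit 78) (nat_lit 0) (nat_lit 0) (XT.lf (nat_lit 0) (nat_lit 17480667380) (nat_lit 152) (nat_lit 62198602654) (nat_lit 0) (nat_lit 8667041744) (nat_lit 1) (nat_lit 5) (nat_lit 3) (nat_lit 4) (nat_lit 1) (nat_lit 4) (nat_lit 292) (nat_lit 232) (nat_lit 196)) (XT.nd (nat_lit 78) (nat_lit 0) (nat_lit 0) (XT.lf (nat_lit 0) (nat_lit 20537969615) (nat_lit 152) (nat_lit 62991197250) (nat_lit 0) (nat_lit 11680727353) (nat_lit 1) (nat_lit 5) (nat_lit 3) (nat_lit 4) (nat_lit 1) (nat_lit 4) (nat_lit 293) (nat_lit 232) (nat_lit 195)) (XT.lf (nat_lit 0) (nat_lit 23820633908) (nat_lit 152)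 (nat_lit 63880550836) (nat_lit 0) (nat_lit 14923005881) (nat_lit 1) (nat_lit 5) (nat_lit 3) (nat_lit 4) (nat_lit 1) (nat_lit 4) (nat_lit 294) (nat_lit 232) (nat_lit 194)))) (XT.nd (nat_lit 78) (nat_lit 0) (nat_lit 0) (XT.lf (nat_lit 0) (nat_lit 27348113085) (nat_lit 152) (nat_lit 64871933655) (nat_lit 0) (nat_lit 18413090831) (nat_lit 1) (nat_lit 5) (nat_lit 3) (nat_lit 4) (nat_lit 1) (nat_lit 4) (nat_lit 295) (nat_lit 232) (nat_lit 193)) (XT.nd (nat_lit 78) (nat_lit 0) (nat_lit 0) (XT.lf (nat_lit 0) (nat_lit 31141310726) (nat_lit 152) (nat_lit 65971220567) (nat_lit 0) (nat_lit 22171664188) (nat_lit 1) (nat_lit 5) (nat_lit 3) (nat_lit 4) (nat_lit 1) (nat_lit 4) (nat_lit 296) (nat_lit 232) (nat_lit 192)) (XT.lf (nat_lit 0) (nat_lit 35222705040) (nat_lit 152) (nat_lit 67184925867) (nat_lit 0) (nat_lit 26220998979) (nat_lit 1) (nat_lit 5) (nat_lit 3) (nat_lit 4) (nat_lit 1) (nat_lit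 4) (nat_lit 297) (nat_lit 232) (nat_lit 191))))) (XT.nd (nat_lit 234) (nat_lit 0) (nat_lit 0) (XT.nd (nat_lit 78) (nat_lit 0) (nat_lit 0) (XT.lf (nat_lit 0) (nat_lit 39616482066) (nat_lit 152) (nat_lit 68520241882) (nat_lit 0) (nat_lit 30585091262) (nat_lit 1) (nat_lit 5) (nat_lit 3) (nat_lit 4) (nat_lit 1) (nat_lit 4) (nat_lit 298) (nat_lit 232) (nat_lit 190)) (XT.nd (nat_lit 78) (nat_lit 0) (nat_lit 0) (XT.lf (nat_lit 0) (nat_lit 44348679002) (nat_lit 152) (nat_lit 69985081594) (nat_lit 0) (nat_lit 35289802325) (nat_lit 1) (nat_lit 5) (nat_lit 3) (nat_lit 4) (nat_lit 1) (nat_lit 4) (nat_lit 299) (nat_lit 232) (nat_lit 189)) (XT.lf (nat_lit 0) (nat_lit 49447338496) (nat_lit 152) (nat_lit 71588125537) (nat_lit 0) (nat_lit 40363011937) (nat_lit 1) (nat_lit 5) (nat_lit 3) (nat_lit 4) (nat_lit 1) (nat_lit 4) (nat_lit 300) (nat_lit 232) (nat_lit 188)))) (XT.nd (nat_lit 156) (nat_lit 0)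 (nat_lit 0) (XT.nd (nat_lit 78) (nat_lit 0) (nat_lit 0) (XT.lf (nat_lit 0) (nat_lit 54942674827) (nat_lit 152) (nat_lit 73338873230) (nat_lit 0) (nat_lit 45834783562) (nat_lit 1) (nat_lit 5) (nat_lit 3) (nat_lit 4) (nat_lit 1) (nat_lit 4) (nat_lit 301) (nat_lit 232) (nat_lit 187)) (XT.lf (nat_lit 0) (nat_lit 60867252952) (nat_lit 152) (nat_lit 75247699473) (nat_lit 0) (nat_lit 51737542514) (nat_lit 1) (nat_lit 5) (nat_lit 3) (nat_lit 4) (nat_lit 1) (nat_lit 4) (nat_lit 302) (nat_lit 232) (nat_lit 186))) (XT.nd (nat_lit 78) (nat_lit 0) (nat_lit 0) (XT.lf (nat_lit 0) (nat_lit 67256181480) (nat_lit 152) (nat_lit 77325915830) (nat_lit 0) (nat_lit 58106268105) (nat_lit 1) (nat_lit 5) (nat_lit 3) (nat_lit 4) (nat_lit 1) (nat_lit 4) (nat_lit 303) (nat_lit 232) (nat_lit 185)) (XT.lf (nat_lit 0) (nat_lit 74147320729) (nat_lit 152) (nat_lit 79585837658) (nat_lit 0) (nat_lit 64978700931) (nat_lit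 1) (nat_lit 5) (nat_lit 3) (nat_lit 4) (nat_lit 1) (nat_lit 4) (nat_lit 304) (nat_lit 232) (nat_lit 184)))))) (XT.nd (nat_lit 546) (nat_lit 0) (nat_lit 0) (XT.nd (nat_lit 234) (nat_lit 0) (nat_lit 0) (XT.nd (nat_lit 78) (nat_lit 0) (nat_lit 0) (XT.lf (nat_lit 0) (nat_lit 81581507081) (nat_lit 152) (nat_lit 82040857084) (nat_lit 0) (nat_lit 72395566520) (nat_lit 1) (nat_lit 5) (nat_lit 3) (nat_lit 4) (nat_lit 1) (nat_lit 4) (nat_lit 305) (nat_lit 232) (nat_lit 183)) (XT.nd (nat_lit 78) (nat_lit 0) (nat_lit 0) (XT.lf (nat_lit 0) (nat_lit 89602794972) (nat_lit 152) (nat_lit 84705522373) (nat_lit 0) (nat_lit 80400816668) (nat_lit 1) (nat_lit 5) (nat_lit 3) (nat_lit 4) (nat_lit 1) (nat_lit 4) (nat_lit 306) (nat_lit 232) (nat_lit 182)) (XT.lf (nat_lit 0) (nat_lit 98258717960) (nat_lit 152) (nat_lit 87595624134) (nat_lit 0) (nat_lit 89041889894) (nat_lit 1) (nat_lit 5) (nat_lit 3) (nat_lit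 4) (nat_lit 1) (nat_lit 4) (nat_lit 307) (nat_lit 232) (nat_lit 181)))) (XT.nd (nat_lit 156) (nat_lit 0) (nat_lit 0) (XT.nd (nat_lit 78) (nat_lit 0) (nat_lit 0) (XT.lf (nat_lit 0) (nat_lit 107600570405) (nat_lit 152) (nat_lit 90728288896) (nat_lit 0) (nat_lit 98369992559) (nat_lit 1) (nat_lit 5) (nat_lit 3) (nat_lit 4) (nat_lit 1) (nat_lit 4) (nat_lit 308) (nat_lit 232) (nat_lit 180)) (XT.lf (nat_lit 0) (nat_lit 117683711431) (nat_lit 152) (nat_lit 94122080597) (nat_lit 0) (nat_lit 108440402308) (nat_lit 1) (nat_lit 5) (nat_lit 3) (nat_lit 4) (nat_lit 1) (nat_lit 4) (nat_lit 309) (nat_lit 232) (nat_lit 179))) (XT.nd (nat_lit 78) (nat_lit 0) (nat_lit 0) (XT.lf (nat_lit 0) (nat_lit 128567892985) (nat_lit 152) (nat_lit 97797110597) (nat_lit 0) (nat_lit 119312795642) (nat_lit 1) (nat_lit 5) (nat_lit 3) (nat_lit 4) (nat_lit 1) (nat_lit 4) (nat_lit 310) (nat_lit 232) (nat_lit 178)) (XT.lf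 (nat_lit 0) (nat_lit 140317613921) (nat_lit 152) (nat_lit 101775156850) (nat_lit 0) (nat_lit 131051601560) (nat_lit 1) (nat_lit 5) (nat_lit 3) (nat_lit 4) (nat_lit 1) (nat_lit 4) (nat_lit 311) (nat_lit 232) (nat_lit 177))))) (XT.nd (nat_lit 234) (nat_lit 0) (nat_lit 0) (XT.nd (nat_lit 78) (nat_lit 0) (nat_lit 0) (XT.lf (nat_lit 0) (nat_lit 153002502215) (nat_lit 152) (nat_lit 106079792965) (nat_lit 0) (nat_lit 143726383356) (nat_lit 1) (nat_lit 5) (nat_lit 3) (nat_lit 4) (nat_lit 1) (nat_lit 4) (nat_lit 312) (nat_lit 232) (nat_lit 176)) (XT.nd (nat_lit 78) (nat_lit 0) (nat_lit 0) (XT.lf (nat_lit 0) (nat_lit 166697727576) (nat_lit 152) (nat_lit 110736527896) (nat_lit 0) (nat_lit 157412250847) (nat_lit 1) (nat_lit 5) (nat_lit 3) (nat_lit 4) (nat_lit 1) (nat_lit 4) (nat_lit 313) (nat_lit 232) (nat_lit 175)) (XT.lf (nat_lit 0) (nat_lit 181484446894) (nat_lit 152) (nat_lit 115772957108)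 (nat_lit 0) (nat_lit 172190305472) (nat_lit 1) (nat_lit 5) (nat_lit 3) (nat_lit 4) (nat_lit 1) (nat_lit 4) (nat_lit 314) (nat_lit 232) (nat_lit 174)))) (XT.nd (nat_lit 156) (nat_lit 0) (nat_lit 0) (XT.nd (nat_lit 78) (nat_lit 0) (nat_lit 0) (XT.lf (nat_lit 0) (nat_lit 197450285173) (nat_lit 152) (nat_lit 121218926110) (nat_lit 0) (nat_lit 188148120886) (nat_lit 1) (nat_lit 5) (nat_lit 3) (nat_lit 4) (nat_lit 1) (nat_lit 4) (nat_lit 315) (nat_lit 232) (nat_lit 173)) (XT.lf (nat_lit 0) (nat_lit 214689854787) (nat_lit 152) (nat_lit 127106707309) (nat_lit 0) (nat_lit 205380261922) (nat_lit 1) (nat_lit 5) (nat_lit 3) (nat_lit 4) (nat_lit 1) (nat_lit 4) (nat_lit 316) (nat_lit 232) (nat_lit 172))) (XT.nd (nat_lit 78) (nat_lit 0) (nat_lit 0) (XT.lf (nat_lit 0) (nat_lit 233305316149) (nat_lit 152) (nat_lit 133471191261) (nat_lit 0) (nat_lit 223988844972) (nat_lit 1) (nat_lit 5) (nat_lit 3)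 (nat_lit 4) (nat_lit 1) (nat_lit 4) (nat_lit 317) (nat_lit 232) (nat_lit 171)) (XT.lf (nat_lit 0) (nat_lit 253406983105) (nat_lit 152) (nat_lit 140350093426) (nat_lit 0) (nat_lit 244084143119) (nat_lit 1) (nat_lit 5) (nat_lit 3) (nat_lit 4) (nat_lit 1) (nat_lit 4) (nat_lit 318) (nat_lit 232) (nat_lit 170))))))))
noncomputable def xc39 : XT := (XT.nd (nat_lit 32526) (nat_lit 0) (nat_lit 152) (XT.nd (nat_lit 1014) (nat_lit 0) (nat_lit 0) (XT.nd (nat_lit 468) (nat_lit 0) (nat_lit 0) (XT.nd (nat_lit 234) (nat_lit 0) (nat_lit 0) (XT.nd (nat_lit 78) (nat_lit 0) (nat_lit 0) (XT.lf (nat_lit 0) (nat_lit 275113976644) (nat_lit 152) (nat_lit 147784177669) (nat_lit 0) (nat_lit 265785239613) (nat_lit 1) (nat_lit 5) (nat_lit 3) (nat_lit 4) (nat_lit 1) (nat_lit 4) (nat_lit 319) (nat_lit 232) (nat_lit 169)) (XT.nd (nat_lit 78) (nat_lit 0) (nat_lit 0) (XT.lf (nat_lit 0) (nat_lit 298554930801) (nat_lit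 152) (nat_lit 155817497823) (nat_lit 0) (nat_lit 289220733543) (nat_lit 1) (nat_lit 5) (nat_lit 3) (nat_lit 4) (nat_lit 1) (nat_lit 4) (nat_lit 320) (nat_lit 232) (nat_lit 168)) (XT.lf (nat_lit 0) (nat_lit 323868754935) (nat_lit 152) (nat_lit 164497658747) (nat_lit 0) (nat_lit 314529501911) (nat_lit 1) (nat_lit 5) (nat_lit 3) (nat_lit 4) (nat_lit 1) (nat_lit 4) (nat_lit 321) (nat_lit 232) (nat_lit 167)))) (XT.nd (nat_lit 78) (nat_lit 0) (nat_lit 0) (XT.lf (nat_lit 0) (nat_lit 351205456892) (nat_lit 152) (nat_lit 173876098433) (nat_lit 0) (nat_lit 341861522604) (nat_lit 1) (nat_lit 5) (nat_lit 3) (nat_lit 4) (nat_lit 1) (nat_lit 4) (nat_lit 322) (nat_lit 232) (nat_lit 166)) (XT.nd (nat_lit 78) (nat_lit 0) (nat_lit 0) (XT.lf (nat_lit 0) (nat_lit 380727031942) (nat_lit 152) (nat_lit 184008392818) (nat_lit 0) (nat_lit 371378763151) (nat_lit 1) (nat_lit 5) (nat_lit 3) (nat_lit 4) (nat_lit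 1) (nat_lit 4) (nat_lit 323) (nat_lit 232) (nat_lit 165)) (XT.lf (nat_lit 0) (nat_lit 412608422754) (nat_lit 152) (nat_lit 194954585130) (nat_lit 0) (nat_lit 403256140533) (nat_lit 1) (nat_lit 5) (nat_lit 3) (nat_lit 4) (nat_lit 1) (nat_lit 4) (nat_lit 324) (nat_lit 232) (nat_lit 164))))) (XT.nd (nat_lit 234) (nat_lit 0) (nat_lit 0) (XT.nd (nat_lit 78) (nat_lit 0) (nat_lit 0) (XT.lf (nat_lit 0) (nat_lit 447038556087) (nat_lit 152) (nat_lit 206779541693) (nat_lit 0) (nat_lit 437682557728) (nat_lit 1) (nat_lit 5) (nat_lit 3) (nat_lit 4) (nat_lit 1) (nat_lit 4) (nat_lit 325) (nat_lit 232) (nat_lit 163)) (XT.nd (nat_lit 78) (nat_lit 0) (nat_lit 0) (XT.lf (nat_lit 0) (nat_lit 484221462362) (nat_lit 152) (nat_lit 219553336324) (nat_lit 0) (nat_lit 474862023133) (nat_lit 1) (nat_lit 5) (nat_lit 3) (nat_lit 4) (nat_lit 1) (nat_lit 4) (nat_lit 326) (nat_lit 232) (nat_lit 162)) (XT.lf (nat_lit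 0) (nat_lit 524377484726) (nat_lit 152) (nat_lit 233351665583) (nat_lit 0) (nat_lit 515014859507) (nat_lit 1) (nat_lit 5) (nat_lit 3) (nat_lit 4) (nat_lit 1) (nat_lit 4) (nat_lit 327) (nat_lit 232) (nat_lit 161)))) (XT.nd (nat_lit 156) (nat_lit 0) (nat_lit 0) (XT.nd (nat_lit 78) (nat_lit 0) (nat_lit 0) (XT.lf (nat_lit 0) (nat_lit 567744584793) (nat_lit 152) (nat_lit 248256297348) (nat_lit 0) (nat_lit 558379009584) (nat_lit 1) (nat_lit 5) (nat_lit 3) (nat_lit 4) (nat_lit 1) (nat_lit 4) (nat_lit 328) (nat_lit 232) (nat_lit 160)) (XT.lf (nat_lit 0) (nat_lit 614579752786) (nat_lit 152) (nat_lit 264355555362) (nat_lit 0) (nat_lit 605211446104) (nat_lit 1) (nat_lit 5) (nat_lit 3) (nat_lit 4) (nat_lit 1) (nat_lit 4) (nat_lit 329) (nat_lit 232) (nat_lit 159))) (XT.nd (nat_lit 78) (nat_lit 0) (nat_lit 0) (XT.lf (nat_lit 0) (nat_lit 665160530441) (nat_lit 152) (nat_lit 281744842636) (nat_lit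 0) (nat_lit 655789694618) (nat_lit 1) (nat_lit 5) (nat_lit 3) (nat_lit 4) (nat_lit 1) (nat_lit 4) (nat_lit 330) (nat_lit 232) (nat_lit 158)) (XT.lf (nat_lit 0) (nat_lit 719786655701) (nat_lit 152) (nat_lit 300527206798) (nat_lit 0) (nat_lit 710413478080) (nat_lit 1) (nat_lit 5) (nat_lit 3) (nat_lit 4) (nat_lit 1) (nat_lit 4) (nat_lit 331) (nat_lit 232) (nat_lit 157)))))) (XT.nd (nat_lit 546) (nat_lit 0) (nat_lit 0) (XT.nd (nat_lit 234) (nat_lit 0) (nat_lit 0) (XT.nd (nat_lit 78) (nat_lit 0) (nat_lit 0) (XT.lf (nat_lit 0) (nat_lit 778781838936) (nat_lit 152) (nat_lit 320813950747) (nat_lit 0) (nat_lit 769406492984) (nat_lit 1) (nat_lit 5) (nat_lit 3) (nat_lit 4) (nat_lit 1) (nat_lit 4) (nat_lit 332) (nat_lit 232) (nat_lit 156)) (XT.nd (nat_lit 78) (nat_lit 0) (nat_lit 0) (XT.lf (nat_lit 0) (nat_lit 842495681233) (nat_lit 152) (nat_lit 342725292224) (nat_lit 0) (nat_lit 833118327567)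 (nat_lit 1) (nat_lit 5) (nat_lit 3) (nat_lit 4) (nat_lit 1) (nat_lit 4) (nat_lit 333) (nat_lit 232) (nat_lit 155)) (XT.lf (nat_lit 0) (nat_lit 911305746102) (nat_lit 152) (nat_lit 366391076217) (nat_lit 0) (nat_lit 901926533442) (nat_lit 1) (nat_lit 5) (nat_lit 3) (nat_lit 4) (nat_lit 1) (nat_lit 4) (nat_lit 334) (nat_lit 232) (nat_lit 154)))) (XT.nd (nat_lit 156) (nat_lit 0) (nat_lit 0) (XT.nd (nat_lit 78) (nat_lit 0) (nat_lit 0) (XT.lf (nat_lit 0) (nat_lit 985619796890) (nat_lit 152) (nat_lit 391951544408) (nat_lit 0) (nat_lit 976238862938) (nat_lit 1) (nat_lit 5) (nat_lit 3) (nat_lit 4) (nat_lit 1) (nat_lit 4) (nat_lit 335) (nat_lit 232) (nat_lit 153)) (XT.lf (nat_lit 0) (nat_lit 1065878213157) (nat_lit 152) (nat_lit 419558166238) (nat_lit 0) (nat_lit 1056495685417) (nat_lit 1) (nat_lit 5) (nat_lit 3) (nat_lit 4) (nat_lit 1) (nat_lit 4) (nat_lit 336) (nat_lit 232) (nat_lit 152)))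 (XT.nd (nat_lit 78) (nat_lit 0) (nat_lit 0) (XT.lf (nat_lit 0) (nat_lit 1152556600333) (nat_lit 152) (nat_lit 449374536504) (nat_lit 0) (nat_lit 1143172596863) (nat_lit 1) (nat_lit 5) (nat_lit 3) (nat_lit 4) (nat_lit 1) (nat_lit 4) (nat_lit 337) (nat_lit 232) (nat_lit 151)) (XT.lf (nat_lit 0) (nat_lit 1246168608119) (nat_lit 152) (nat_lit 481577344806) (nat_lit 0) (nat_lit 1236783238233) (nat_lit 1) (nat_lit 5) (nat_lit 3) (nat_lit 4) (nat_lit 1) (nat_lit 4) (nat_lit 338) (nat_lit 232) (nat_lit 150))))) (XT.nd (nat_lit 234) (nat_lit 0) (nat_lit 0) (XT.nd (nat_lit 78) (nat_lit 0) (nat_lit 0) (XT.lf (nat_lit 0) (nat_lit 1347268974341) (nat_lit 152) (nat_lit 516357422602) (nat_lit 0) (nat_lit 1337882339254) (nat_lit 1) (nat_lit 5) (nat_lit 3) (nat_lit 4) (nat_lit 1) (nat_lit 4) (nat_lit 339) (nat_lit 232) (nat_lit 149)) (XT.nd (nat_lit 78) (nat_lit 0) (nat_lit 0) (XT.lf (nat_lit 0) (nat_lit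 1456456812278) (nat_lit 152) (nat_lit 553920874056) (nat_lit 0) (nat_lit 1447069005709) (nat_lit 1) (nat_lit 5) (nat_lit 3) (nat_lit 4) (nat_lit 1) (nat_lit 4) (nat_lit 340) (nat_lit 232) (nat_lit 148)) (XT.lf (nat_lit 0) (nat_lit 1574379160971) (nat_lit 152) (nat_lit 594490297400) (nat_lit 0) (nat_lit 1564990269697) (nat_lit 1) (nat_lit 5) (nat_lit 3) (nat_lit 4) (nat_lit 1) (nat_lit 4) (nat_lit 341) (nat_lit 232) (nat_lit 147)))) (XT.nd (nat_lit 156) (nat_lit 0) (nat_lit 0) (XT.nd (nat_lit 78) (nat_lit 0) (nat_lit 0) (XT.lf (nat_lit 0) (nat_lit 1701734819522) (nat_lit 152) (nat_lit 638306104030) (nat_lit 0) (nat_lit 1692344923892) (nat_lit 1) (nat_lit 5) (nat_lit 3) (nat_lit 4) (nat_lit 1) (nat_lit 4) (nat_lit 342) (nat_lit 232) (nat_lit 146)) (XT.lf (nat_lit 0) (nat_lit 1839278488132) (nat_lit 152) (nat_lit 685627943171) (nat_lit 0) (nat_lit 1829887662541) (nat_lit 1) (nat_lit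 5) (nat_lit 3) (nat_lit 4) (nat_lit 1) (nat_lit 4) (nat_lit 343) (nat_lit 232) (nat_lit 145))) (XT.nd (nat_lit 30498) (nat_lit 0) (nat_lit 1368) (XT.lf (nat_lit 0) (nat_lit 1987825240391) (nat_lit 152) (nat_lit 736736240537) (nat_lit 0) (nat_lit 1978433553726) (nat_lit 1) (nat_lit 5) (nat_lit 3) (nat_lit 4) (nat_lit 1) (nat_lit 4) (nat_lit 344) (nat_lit 232) (nat_lit 144)) (XT.lf (nat_lit 0) (nat_lit 425386142) (nat_lit 228) (nat_lit 1846804303) (nat_lit 228) (nat_lit 1846804303) (nat_lit 19) (nat_lit 4) (nat_lit 22) (nat_lit 5) (nat_lit 22) (nat_lit 4) (nat_lit 254) (nat_lit 233) (nat_lit 233))))))) (XT.nd (nat_lit 1014) (nat_lit 304) (nat_lit 0) (XT.nd (nat_lit 468) (nat_lit 304) (nat_lit 0) (XT.nd (nat_lit 234) (nat_lit 380) (nat_lit 0) (XT.nd (nat_lit 78) (nat_lit 228) (nat_lit 0) (XT.lf (nat_lit 0) (nat_lit 5580785745) (nat_lit 228) (nat_lit 2031528519) (nat_lit 228) (nat_lit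 926305806) (nat_lit 19) (nat_lit 4) (nat_lit 22) (nat_lit 5) (nat_lit 22) (nat_lit 4) (nat_lit 255) (nat_lit 233) (nat_lit 232)) (XT.nd (nat_lit 78) (nat_lit 0) (nat_lit 0) (XT.lf (nat_lit 0) (nat_lit 1617419108) (nat_lit 152) (nat_lit 183540595) (nat_lit 228) (nat_lit 7073135882) (nat_lit 16) (nat_lit 5) (nat_lit 18) (nat_lit 5) (nat_lit 19) (nat_lit 4) (nat_lit 256) (nat_lit 233) (nat_lit 231)) (XT.lf (nat_lit 0) (nat_lit 4633656015) (nat_lit 228) (nat_lit 2822401485) (nat_lit 0) (nat_lit 1785389892) (nat_lit 16) (nat_lit 5) (nat_lit 19) (nat_lit 4) (nat_lit 16) (nat_lit 4) (nat_lit 257) (nat_lit 233) (nat_lit 230)))) (XT.nd (nat_lit 78) (nat_lit 228) (nat_lit 0) (XT.lf (nat_lit 0) (nat_lit 1821851645) (nat_lit 152) (nat_lit 5744454425) (nat_lit 152) (nat_lit 2083816613) (nat_lit 14) (nat_lit 4) (nat_lit 16) (nat_lit 5) (nat_lit 16) (nat_lit 4) (nat_lit 258) (nat_lit 233) (nat_lit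 229)) (XT.nd (nat_lit 78) (nat_lit 152) (nat_lit 0) (XT.lf (nat_lit 0) (nat_lit 515508231) (nat_lit 228) (nat_lit 3340576698) (nat_lit 76) (nat_lit 6243272858) (nat_lit 13) (nat_lit 5) (nat_lit 16) (nat_lit 5) (nat_lit 14) (nat_lit 4) (nat_lit 259) (nat_lit 233) (nat_lit 228)) (XT.lf (nat_lit 0) (nat_lit 1298472756) (nat_lit 152) (nat_lit 1782192801) (nat_lit 228) (nat_lit 7511329583) (nat_lit 11) (nat_lit 5) (nat_lit 13) (nat_lit 5) (nat_lit 14) (nat_lit 4) (nat_lit 260) (nat_lit 233) (nat_lit 227))))) (XT.nd (nat_lit 234) (nat_lit 152) (nat_lit 0) (XT.nd (nat_lit 78) (nat_lit 152) (nat_lit 0) (XT.lf (nat_lit 0) (nat_lit 5800357156) (nat_lit 228) (nat_lit 4856669759) (nat_lit 0) (nat_lit 472395637) (nat_lit 11) (nat_lit 5) (nat_lit 14) (nat_lit 4) (nat_lit 11) (nat_lit 4) (nat_lit 261) (nat_lit 233) (nat_lit 226)) (XT.nd (nat_lit 78) (nat_lit 152) (nat_lit 0) (XT.lf (nat_lit 0) (nat_lit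 8640031893) (nat_lit 228) (nat_lit 319662457) (nat_lit 0) (nat_lit 2759183853) (nat_lit 11) (nat_lit 5) (nat_lit 14) (nat_lit 4) (nat_lit 11) (nat_lit 4) (nat_lit 262) (nat_lit 233) (nat_lit 225)) (XT.lf (nat_lit 0) (nat_lit 4618271935) (nat_lit 152) (nat_lit 7066453305) (nat_lit 152) (nat_lit 673673302) (nat_lit 9) (nat_lit 4) (nat_lit 11) (nat_lit 5) (nat_lit 11) (nat_lit 4) (nat_lit 263) (nat_lit 233) (nat_lit 224)))) (XT.nd (nat_lit 156) (nat_lit 0) (nat_lit 0) (XT.nd (nat_lit 78) (nat_lit 76) (nat_lit 0) (XT.lf (nat_lit 0) (nat_lit 1704436168) (nat_lit 228) (nat_lit 3321563850) (nat_lit 76) (nat_lit 8030211482) (nat_lit 8) (nat_lit 5) (nat_lit 11) (nat_lit 5) (nat_lit 9) (nat_lit 4) (nat_lit 264) (nat_lit 233) (nat_lit 223)) (XT.lf (nat_lit 0) (nat_lit 1317303189) (nat_lit 76) (nat_lit 2828366721) (nat_lit 152) (nat_lit 9670939674) (nat_lit 7) (nat_lit 5) (nat_lit 8) (nat_lit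 5) (nat_lit 9) (nat_lit 4) (nat_lit 265) (nat_lit 233) (nat_lit 222))) (XT.nd (nat_lit 78) (nat_lit 0) (nat_lit 0) (XT.lf (nat_lit 0) (nat_lit 6339197253) (nat_lit 76) (nat_lit 416223697) (nat_lit 152) (nat_lit 7885395929) (nat_lit 7) (nat_lit 5) (nat_lit 8) (nat_lit 5) (nat_lit 9) (nat_lit 4) (nat_lit 266) (nat_lit 233) (nat_lit 221)) (XT.lf (nat_lit 0) (nat_lit 9516384738) (nat_lit 152) (nat_lit 3992795233) (nat_lit 0) (nat_lit 2027159183) (nat_lit 7) (nat_lit 5) (nat_lit 9) (nat_lit 4) (nat_lit 7) (nat_lit 4) (nat_lit 267) (nat_lit 233) (nat_lit 220)))))) (XT.nd (nat_lit 546) (nat_lit 76) (nat_lit 0) (XT.nd (nat_lit 234) (nat_lit 76) (nat_lit 0) (XT.nd (nat_lit 78) (nat_lit 76) (nat_lit 0) (XT.lf (nat_lit 0) (nat_lit 516468818) (nat_lit 76) (nat_lit 11902942413) (nat_lit 76) (nat_lit 4091112884) (nat_lit 6) (nat_lit 4) (nat_lit 7) (nat_lit 5) (nat_lit 7) (nat_lit 4) (nat_lit 268)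 (nat_lit 233) (nat_lit 219)) (XT.nd (nat_lit 78) (nat_lit 76) (nat_lit 0) (XT.lf (nat_lit 0) (nat_lit 5458289334) (nat_lit 76) (nat_lit 10107339146) (nat_lit 76) (nat_lit 1996802233) (nat_lit 6) (nat_lit 4) (nat_lit 7) (nat_lit 5) (nat_lit 7) (nat_lit 4) (nat_lit 269) (nat_lit 233) (nat_lit 218)) (XT.lf (nat_lit 0) (nat_lit 157903261) (nat_lit 152) (nat_lit 8058679039) (nat_lit 76) (nat_lit 10489477039) (nat_lit 5) (nat_lit 5) (nat_lit 7) (nat_lit 5) (nat_lit 6) (nat_lit 4) (nat_lit 270) (nat_lit 233) (nat_lit 217)))) (XT.nd (nat_lit 156) (nat_lit 0) (nat_lit 0) (XT.nd (nat_lit 78) (nat_lit 76) (nat_lit 0) (XT.lf (nat_lit 0) (nat_lit 2290169927) (nat_lit 152) (nat_lit 3879657810) (nat_lit 76) (nat_lit 13774682305) (nat_lit 5) (nat_lit 5) (nat_lit 7) (nat_lit 5) (nat_lit 6) (nat_lit 4) (nat_lit 271) (nat_lit 233) (nat_lit 216)) (XT.lf (nat_lit 0) (nat_lit 532339813) (nat_lit 76) (nat_lit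 3992984525) (nat_lit 152) (nat_lit 16762615077) (nat_lit 4) (nat_lit 5) (nat_lit 5) (nat_lit 5) (nat_lit 6) (nat_lit 4) (nat_lit 272) (nat_lit 233) (nat_lit 215))) (XT.nd (nat_lit 78) (nat_lit 0) (nat_lit 0) (XT.lf (nat_lit 0) (nat_lit 5393201602) (nat_lit 76) (nat_lit 1574632656) (nat_lit 152) (nat_lit 15769176472) (nat_lit 4) (nat_lit 5) (nat_lit 5) (nat_lit 5) (nat_lit 6) (nat_lit 4) (nat_lit 273) (nat_lit 233) (nat_lit 214)) (XT.lf (nat_lit 0) (nat_lit 9557847904) (nat_lit 152) (nat_lit 13804625122) (nat_lit 0) (nat_lit 943784124) (nat_lit 4) (nat_lit 5) (nat_lit 6) (nat_lit 4) (nat_lit 4) (nat_lit 4) (nat_lit 274) (nat_lit 233) (nat_lit 213))))) (XT.nd (nat_lit 234) (nat_lit 76) (nat_lit 0) (XT.nd (nat_lit 78) (nat_lit 0) (nat_lit 0) (XT.lf (nat_lit 0) (nat_lit 12328516404) (nat_lit 152) (nat_lit 10134877540) (nat_lit 0) (nat_lit 3540159735) (nat_lit 4) (nat_lit 5) (nat_lit 6)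 (nat_lit 4) (nat_lit 4) (nat_lit 4) (nat_lit 275) (nat_lit 233) (nat_lit 212)) (XT.nd (nat_lit 78) (nat_lit 0) (nat_lit 0) (XT.lf (nat_lit 0) (nat_lit 15258388583) (nat_lit 152) (nat_lit 6274949778) (nat_lit 0) (nat_lit 6308649609) (nat_lit 4) (nat_lit 5) (nat_lit 6) (nat_lit 4) (nat_lit 4) (nat_lit 4) (nat_lit 276) (nat_lit 233) (nat_lit 211)) (XT.lf (nat_lit 0) (nat_lit 18364826645) (nat_lit 152) (nat_lit 2201968190) (nat_lit 0) (nat_lit 9265659610) (nat_lit 4) (nat_lit 5) (nat_lit 6) (nat_lit 4) (nat_lit 4) (nat_lit 4) (nat_lit 277) (nat_lit 233) (nat_lit 210)))) (XT.nd (nat_lit 156) (nat_lit 0) (nat_lit 0) (XT.nd (nat_lit 78) (nat_lit 0) (nat_lit 0) (XT.lf (nat_lit 0) (nat_lit 2219217667) (nat_lit 76) (nat_lit 19500393683) (nat_lit 76) (nat_lit 10262867334) (nat_lit 3) (nat_lit 4) (nat_lit 4) (nat_lit 5) (nat_lit 4) (nat_lit 4) (nat_lit 278) (nat_lit 233) (nat_lit 209)) (XT.lf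 (nat_lit 0) (nat_lit 7032922027) (nat_lit 76) (nat_lit 18318409826) (nat_lit 76) (nat_lit 8952773000) (nat_lit 3) (nat_lit 4) (nat_lit 4) (nat_lit 5) (nat_lit 4) (nat_lit 4) (nat_lit 279) (nat_lit 233) (nat_lit 208))) (XT.nd (nat_lit 78) (nat_lit 0) (nat_lit 0) (XT.lf (nat_lit 0) (nat_lit 12151718804) (nat_lit 76) (nat_lit 17074044628) (nat_lit 76) (nat_lit 7589786990) (nat_lit 3) (nat_lit 4) (nat_lit 4) (nat_lit 5) (nat_lit 4) (nat_lit 4) (nat_lit 280) (nat_lit 233) (nat_lit 207)) (XT.lf (nat_lit 0) (nat_lit 17605941607) (nat_lit 76) (nat_lit 15759924074) (nat_lit 76) (nat_lit 6165832351) (nat_lit 3) (nat_lit 4) (nat_lit 4) (nat_lit 5) (nat_lit 4) (nat_lit 4) (nat_lit 281) (nat_lit 233) (nat_lit 206))))))))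
noncomputable def xc40 : XT := (XT.nd (nat_lit 2028) (nat_lit 0) (nat_lit 0) (XT.nd (nat_lit 1014) (nat_lit 0) (nat_lit 0) (XT.nd (nat_lit 468) (nat_lit 76) (nat_lit 0) (XT.nd (nat_lit 234) (nat_lit 76) (nat_lit 0) (XT.nd (nat_lit 78) (nat_lit 0) (nat_lit 0) (XT.lf (nat_lit 0) (nat_lit 23427911758) (nat_lit 76) (nat_lit 14368260781) (nat_lit 76) (nat_lit 4672470831) (nat_lit 3) (nat_lit 4) (nat_lit 4) (nat_lit 5) (nat_lit 4) (nat_lit 4) (nat_lit 282) (nat_lit 233) (nat_lit 205)) (XT.nd (nat_lit 78) (nat_lit 0) (nat_lit 0) (XT.lf (nat_lit 0) (nat_lit 29652129819) (nat_lit 76) (nat_lit 12890807856) (nat_lit 76) (nat_lit 3100852881) (nat_lit 3) (nat_lit 4) (nat_lit 4) (nat_lit 5) (nat_lit 4) (nat_lit 4) (nat_lit 283) (nat_lit 233) (nat_lit 204)) (XT.lf (nat_lit 0) (nat_lit 36315480045) (nat_lit 76) (nat_lit 11318810023) (nat_lit 76) (nat_lit 1441665210) (nat_lit 3) (nat_lit 4) (nat_lit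 4) (nat_lit 5) (nat_lit 4) (nat_lit 4) (nat_lit 284) (nat_lit 233) (nat_lit 203)))) (XT.nd (nat_lit 78) (nat_lit 0) (nat_lit 0) (XT.lf (nat_lit 0) (nat_lit 299170610) (nat_lit 152) (nat_lit 9335601275) (nat_lit 76) (nat_lit 43150098493) (nat_lit 2) (nat_lit 5) (nat_lit 4) (nat_lit 5) (nat_lit 3) (nat_lit 4) (nat_lit 285) (nat_lit 233) (nat_lit 202)) (XT.nd (nat_lit 78) (nat_lit 0) (nat_lit 0) (XT.lf (nat_lit 0) (nat_lit 2070306701) (nat_lit 152) (nat_lit 5726389436) (nat_lit 76) (nat_lit 48993446779) (nat_lit 2) (nat_lit 5) (nat_lit 4) (nat_lit 5) (nat_lit 3) (nat_lit 4) (nat_lit 286) (nat_lit 233) (nat_lit 201)) (XT.lf (nat_lit 0) (nat_lit 3954356618) (nat_lit 152) (nat_lit 1876779715) (nat_lit 76) (nat_lit 55287145280) (nat_lit 2) (nat_lit 5) (nat_lit 4) (nat_lit 5) (nat_lit 3) (nat_lit 4) (nat_lit 287) (nat_lit 233) (nat_lit 200))))) (XT.nd (nat_lit 234) (nat_lit 0) (nat_lit 0)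 (XT.nd (nat_lit 78) (nat_lit 0) (nat_lit 0) (XT.lf (nat_lit 0) (nat_lit 2353786316) (nat_lit 76) (nat_lit 3665307400) (nat_lit 152) (nat_lit 59771312288) (nat_lit 1) (nat_lit 5) (nat_lit 2) (nat_lit 5) (nat_lit 3) (nat_lit 4) (nat_lit 288) (nat_lit 233) (nat_lit 199)) (XT.nd (nat_lit 78) (nat_lit 0) (nat_lit 0) (XT.lf (nat_lit 0) (nat_lit 6985906487) (nat_lit 76) (nat_lit 1288696897) (nat_lit 152) (nat_lit 62559771378) (nat_lit 1) (nat_lit 5) (nat_lit 2) (nat_lit 5) (nat_lit 3) (nat_lit 4) (nat_lit 289) (nat_lit 233) (nat_lit 198)) (XT.lf (nat_lit 0) (nat_lit 10717076442) (nat_lit 152) (nat_lit 64366014887) (nat_lit 0) (nat_lit 1198360756) (nat_lit 1) (nat_lit 5) (nat_lit 3) (nat_lit 4) (nat_lit 1) (nat_lit 4) (nat_lit 290) (nat_lit 233) (nat_lit 197)))) (XT.nd (nat_lit 156) (nat_lit 0) (nat_lit 0) (XT.nd (nat_lit 78) (nat_lit 0) (nat_lit 0) (XT.lf (nat_lit 0) (nat_lit 13365999310)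 (nat_lit 152) (nat_lit 64997338973) (nat_lit 0) (nat_lit 3800177667) (nat_lit 1) (nat_lit 5) (nat_lit 3) (nat_lit 4) (nat_lit 1) (nat_lit 4) (nat_lit 291) (nat_lit 233) (nat_lit 196)) (XT.lf (nat_lit 0) (nat_lit 16206076117) (nat_lit 152) (nat_lit 65715188521) (nat_lit 0) (nat_lit 6596637847) (nat_lit 1) (nat_lit 5) (nat_lit 3) (nat_lit 4) (nat_lit 1) (nat_lit 4) (nat_lit 292) (nat_lit 233) (nat_lit 195))) (XT.nd (nat_lit 78) (nat_lit 0) (nat_lit 0) (XT.lf (nat_lit 0) (nat_lit 19254136948) (nat_lit 152) (nat_lit 66523817454) (nat_lit 0) (nat_lit 9604312913) (nat_lit 1) (nat_lit 5) (nat_lit 3) (nat_lit 4) (nat_lit 1) (nat_lit 4) (nat_lit 293) (nat_lit 233) (nat_lit 194)) (XT.lf (nat_lit 0) (nat_lit 22528244385) (nat_lit 152) (nat_lit 67428017649) (nat_lit 0) (nat_lit 12841026124) (nat_lit 1) (nat_lit 5) (nat_lit 3) (nat_lit 4) (nat_lit 1) (nat_lit 4) (nat_lit 294) (nat_lit 233) (nat_lit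 193)))))) (XT.nd (nat_lit 468) (nat_lit 0) (nat_lit 0) (XT.nd (nat_lit 234) (nat_lit 0) (nat_lit 0) (XT.nd (nat_lit 78) (nat_lit 0) (nat_lit 0) (XT.lf (nat_lit 0) (nat_lit 26047800548) (nat_lit 152) (nat_lit 68433147328) (nat_lit 0) (nat_lit 16325958002) (nat_lit 1) (nat_lit 5) (nat_lit 3) (nat_lit 4) (nat_lit 1) (nat_lit 4) (nat_lit 295) (nat_lit 233) (nat_lit 192)) (XT.nd (nat_lit 78) (nat_lit 0) (nat_lit 0) (XT.lf (nat_lit 0) (nat_lit 29833662064) (nat_lit 152) (nat_lit 69545162814) (nat_lit 0) (nat_lit 20079759996) (nat_lit 1) (nat_lit 5) (nat_lit 3) (nat_lit 4) (nat_lit 1) (nat_lit 4) (nat_lit 296) (nat_lit 233) (nat_lit 191)) (XT.lf (nat_lit 0) (nat_lit 33908263670) (nat_lit 152) (nat_lit 70770653831) (nat_lit 0) (nat_lit 24124676859) (nat_lit 1) (nat_lit 5) (nat_lit 3) (nat_lit 4) (nat_lit 1) (nat_lit 4) (nat_lit 297) (nat_lit 233) (nat_lit 190)))) (XT.nd (nat_lit 78) (nat_lit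 0) (nat_lit 0) (XT.lf (nat_lit 0) (nat_lit 38295751152) (nat_lit 152) (nat_lit 72116882546) (nat_lit 0) (nat_lit 28484678467) (nat_lit 1) (nat_lit 5) (nat_lit 3) (nat_lit 4) (nat_lit 1) (nat_lit 4) (nat_lit 298) (nat_lit 233) (nat_lit 189)) (XT.nd (nat_lit 78) (nat_lit 0) (nat_lit 0) (XT.lf (nat_lit 0) (nat_lit 43022124435) (nat_lit 152) (nat_lit 73591826611) (nat_lit 0) (nat_lit 33185601869) (nat_lit 1) (nat_lit 5) (nat_lit 3) (nat_lit 4) (nat_lit 1) (nat_lit 4) (nat_lit 299) (nat_lit 233) (nat_lit 188)) (XT.lf (nat_lit 0) (nat_lit 48115391659) (nat_lit 152) (nat_lit 75204226436) (nat_lit 0) (nat_lit 38255304387) (nat_lit 1) (nat_lit 5) (nat_lit 3) (nat_lit 4) (nat_lit 1) (nat_lit 4) (nat_lit 300) (nat_lit 233) (nat_lit 187))))) (XT.nd (nat_lit 234) (nat_lit 0) (nat_lit 0) (XT.nd (nat_lit 78) (nat_lit 0) (nat_lit 0) (XT.lf (nat_lit 0) (nat_lit 53605735148) (nat_lit 152) (nat_lit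 76963636982) (nat_lit 0) (nat_lit 43723828702) (nat_lit 1) (nat_lit 5) (nat_lit 3) (nat_lit 4) (nat_lit 1) (nat_lit 4) (nat_lit 301) (nat_lit 233) (nat_lit 186)) (XT.nd (nat_lit 78) (nat_lit 0) (nat_lit 0) (XT.lf (nat_lit 0) (nat_lit 59525690269) (nat_lit 152) (nat_lit 78880484386) (nat_lit 0) (nat_lit 49623580887) (nat_lit 1) (nat_lit 5) (nat_lit 3) (nat_lit 4) (nat_lit 1) (nat_lit 4) (nat_lit 302) (nat_lit 233) (nat_lit 185)) (XT.lf (nat_lit 0) (nat_lit 65910338239) (nat_lit 152) (nat_lit 80966127744) (nat_lit 0) (nat_lit 55989522433) (nat_lit 1) (nat_lit 5) (nat_lit 3) (nat_lit 4) (nat_lit 1) (nat_lit 4) (nat_lit 303) (nat_lit 233) (nat_lit 184)))) (XT.nd (nat_lit 156) (nat_lit 0) (nat_lit 0) (XT.nd (nat_lit 78) (nat_lit 0) (nat_lit 0) (XT.lf (nat_lit 0) (nat_lit 72797514009) (nat_lit 152) (nat_lit 83232926424) (nat_lit 0) (nat_lit 62859377440) (nat_lit 1) (nat_lit 5) (nat_lit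 3) (nat_lit 4) (nat_lit 1) (nat_lit 4) (nat_lit 304) (nat_lit 233) (nat_lit 183)) (XT.lf (nat_lit 0) (nat_lit 80228030471) (nat_lit 152) (nat_lit 85694313306) (nat_lit 0) (nat_lit 70273856160) (nat_lit 1) (nat_lit 5) (nat_lit 3) (nat_lit 4) (nat_lit 1) (nat_lit 4) (nat_lit 305) (nat_lit 233) (nat_lit 182))) (XT.nd (nat_lit 78) (nat_lit 0) (nat_lit 0) (XT.lf (nat_lit 0) (nat_lit 88245920317) (nat_lit 152) (nat_lit 88364874388) (nat_lit 0) (nat_lit 78276896244) (nat_lit 1) (nat_lit 5) (nat_lit 3) (nat_lit 4) (nat_lit 1) (nat_lit 4) (nat_lit 306) (nat_lit 233) (nat_lit 181)) (XT.lf (nat_lit 0) (nat_lit 96898696968) (nat_lit 152) (nat_lit 91260435216) (nat_lit 0) (nat_lit 86915923115) (nat_lit 1) (nat_lit 5) (nat_lit 3) (nat_lit 4) (nat_lit 1) (nat_lit 4) (nat_lit 307) (nat_lit 233) (nat_lit 180))))))) (XT.nd (nat_lit 1014) (nat_lit 0) (nat_lit 0) (XT.nd (nat_lit 468) (nat_lit 0) (nat_lit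 0) (XT.nd (nat_lit 234) (nat_lit 0) (nat_lit 0) (XT.nd (nat_lit 78) (nat_lit 0) (nat_lit 0) (XT.lf (nat_lit 0) (nat_lit 106237636136) (nat_lit 152) (nat_lit 94398154669) (nat_lit 0) (nat_lit 96242131006) (nat_lit 1) (nat_lit 5) (nat_lit 3) (nat_lit 4) (nat_lit 1) (nat_lit 4) (nat_lit 308) (nat_lit 233) (nat_lit 179)) (XT.nd (nat_lit 78) (nat_lit 0) (nat_lit 0) (XT.lf (nat_lit 0) (nat_lit 116318079684) (nat_lit 152) (nat_lit 97796626641) (nat_lit 0) (nat_lit 106310786334) (nat_lit 1) (nat_lit 5) (nat_lit 3) (nat_lit 4) (nat_lit 1) (nat_lit 4) (nat_lit 309) (nat_lit 233) (nat_lit 178)) (XT.lf (nat_lit 0) (nat_lit 127199763574) (nat_lit 152) (nat_lit 101475990224) (nat_lit 0) (nat_lit 117181555205) (nat_lit 1) (nat_lit 5) (nat_lit 3) (nat_lit 4) (nat_lit 1) (nat_lit 4) (nat_lit 310) (nat_lit 233) (nat_lit 177)))) (XT.nd (nat_lit 78) (nat_lit 0) (nat_lit 0) (XT.lf (nat_lit 0) (nat_lit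 138947171858) (nat_lit 152) (nat_lit 105458049055) (nat_lit 0) (nat_lit 128918856991) (nat_lit 1) (nat_lit 5) (nat_lit 3) (nat_lit 4) (nat_lit 1) (nat_lit 4) (nat_lit 311) (nat_lit 233) (nat_lit 176)) (XT.nd (nat_lit 78) (nat_lit 0) (nat_lit 0) (XT.lf (nat_lit 0) (nat_lit 151629918807) (nat_lit 152) (nat_lit 109766400519) (nat_lit 0) (nat_lit 141592246071) (nat_lit 1) (nat_lit 5) (nat_lit 3) (nat_lit 4) (nat_lit 1) (nat_lit 4) (nat_lit 312) (nat_lit 233) (nat_lit 175)) (XT.lf (nat_lit 0) (nat_lit 165323161441) (nat_lit 152) (nat_lit 114426575588) (nat_lit 0) (nat_lit 155276824012) (nat_lit 1) (nat_lit 5) (nat_lit 3) (nat_lit 4) (nat_lit 1) (nat_lit 4) (nat_lit 313) (nat_lit 233) (nat_lit 174))))) (XT.nd (nat_lit 234) (nat_lit 0) (nat_lit 0) (XT.nd (nat_lit 78) (nat_lit 0) (nat_lit 0) (XT.lf (nat_lit 0) (nat_lit 180108044901) (nat_lit 152) (nat_lit 119466190114) (nat_lit 0) (nat_lit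 170053684607) (nat_lit 1) (nat_lit 5) (nat_lit 3) (nat_lit 4) (nat_lit 1) (nat_lit 4) (nat_lit 314) (nat_lit 233) (nat_lit 173)) (XT.nd (nat_lit 78) (nat_lit 0) (nat_lit 0) (XT.lf (nat_lit 0) (nat_lit 196072183311) (nat_lit 152) (nat_lit 124915108480) (nat_lit 0) (nat_lit 186010394439) (nat_lit 1) (nat_lit 5) (nat_lit 3) (nat_lit 4) (nat_lit 1) (nat_lit 4) (nat_lit 315) (nat_lit 233) (nat_lit 172)) (XT.lf (nat_lit 0) (nat_lit 213310178973) (nat_lit 152) (nat_lit 130805620572) (nat_lit 0) (nat_lit 203241511788) (nat_lit 1) (nat_lit 5) (nat_lit 3) (nat_lit 4) (nat_lit 1) (nat_lit 4) (nat_lit 316) (nat_lit 233) (nat_lit 171)))) (XT.nd (nat_lit 156) (nat_lit 0) (nat_lit 0) (XT.nd (nat_lit 78) (nat_lit 0) (nat_lit 0) (XT.lf (nat_lit 0) (nat_lit 231924182973) (nat_lit 152) (nat_lit 137172633128) (nat_lit 0) (nat_lit 221849146979) (nat_lit 1) (nat_lit 5) (nat_lit 3) (nat_lit 4) (nat_lit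 1) (nat_lit 4) (nat_lit 317) (nat_lit 233) (nat_lit 170)) (XT.lf (nat_lit 0) (nat_lit 252024500518) (nat_lit 152) (nat_lit 144053876593) (nat_lit 0) (nat_lit 241943567480) (nat_lit 1) (nat_lit 5) (nat_lit 3) (nat_lit 4) (nat_lit 1) (nat_lit 4) (nat_lit 318) (nat_lit 233) (nat_lit 169))) (XT.nd (nat_lit 78) (nat_lit 0) (nat_lit 0) (XT.lf (nat_lit 0) (nat_lit 273730244602) (nat_lit 152) (nat_lit 151490128707) (nat_lit 0) (nat_lit 263643851337) (nat_lit 1) (nat_lit 5) (nat_lit 3) (nat_lit 4) (nat_lit 1) (nat_lit 4) (nat_lit 319) (nat_lit 233) (nat_lit 168)) (XT.lf (nat_lit 0) (nat_lit 297170041858) (nat_lit 152) (nat_lit 159525456148) (nat_lit 0) (nat_lit 287078592827) (nat_lit 1) (nat_lit 5) (nat_lit 3) (nat_lit 4) (nat_lit 1) (nat_lit 4) (nat_lit 320) (nat_lit 233) (nat_lit 167)))))) (XT.nd (nat_lit 546) (nat_lit 0) (nat_lit 0) (XT.nd (nat_lit 234) (nat_lit 0) (nat_lit 0) (XT.nd (nat_lit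 78) (nat_lit 0) (nat_lit 0) (XT.lf (nat_lit 0) (nat_lit 322482794786) (nat_lit 152) (nat_lit 168207475672) (nat_lit 0) (nat_lit 312386664491) (nat_lit 1) (nat_lit 5) (nat_lit 3) (nat_lit 4) (nat_lit 1) (nat_lit 4) (nat_lit 321) (nat_lit 233) (nat_lit 166)) (XT.nd (nat_lit 78) (nat_lit 0) (nat_lit 0) (XT.lf (nat_lit 0) (nat_lit 349818504886) (nat_lit 152) (nat_lit 177587636284) (nat_lit 0) (nat_lit 339718040087) (nat_lit 1) (nat_lit 5) (nat_lit 3) (nat_lit 4) (nat_lit 1) (nat_lit 4) (nat_lit 322) (nat_lit 233) (nat_lit 165)) (XT.lf (nat_lit 0) (nat_lit 379339161550) (nat_lit 152) (nat_lit 187721524119) (nat_lit 0) (nat_lit 369234683322) (nat_lit 1) (nat_lit 5) (nat_lit 3) (nat_lit 4) (nat_lit 1) (nat_lit 4) (nat_lit 323) (nat_lit 233) (nat_lit 164)))) (XT.nd (nat_lit 156) (nat_lit 0) (nat_lit 0) (XT.nd (nat_lit 78) (nat_lit 0) (nat_lit 0) (XT.lf (nat_lit 0) (nat_lit 411219702005) (nat_lit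 152) (nat_lit 198669191848) (nat_lit 0) (nat_lit 401111507638) (nat_lit 1) (nat_lit 5) (nat_lit 3) (nat_lit 4) (nat_lit 1) (nat_lit 4) (nat_lit 324) (nat_lit 233) (nat_lit 163)) (XT.lf (nat_lit 0) (nat_lit 445649047970) (nat_lit 152) (nat_lit 210495514537) (nat_lit 0) (nat_lit 435537412734) (nat_lit 1) (nat_lit 5) (nat_lit 3) (nat_lit 4) (nat_lit 1) (nat_lit 4) (nat_lit 325) (nat_lit 233) (nat_lit 162))) (XT.nd (nat_lit 78) (nat_lit 0) (nat_lit 0) (XT.lf (nat_lit 0) (nat_lit 482831225200) (nat_lit 152) (nat_lit 223270574099) (nat_lit 0) (nat_lit 472716403974) (nat_lit 1) (nat_lit 5) (nat_lit 3) (nat_lit 4) (nat_lit 1) (nat_lit 4) (nat_lit 326) (nat_lit 233) (nat_lit 161)) (XT.lf (nat_lit 0) (nat_lit 522986572522) (nat_lit 152) (nat_lit 237070074592) (nat_lit 0) (nat_lit 512868801306) (nat_lit 1) (nat_lit 5) (nat_lit 3) (nat_lit 4) (nat_lit 1) (nat_lit 4) (nat_lit 327) (nat_lit 233)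 (nat_lit 160))))) (XT.nd (nat_lit 234) (nat_lit 0) (nat_lit 0) (XT.nd (nat_lit 78) (nat_lit 0) (nat_lit 0) (XT.lf (nat_lit 0) (nat_lit 566353047551) (nat_lit 152) (nat_lit 251975790831) (nat_lit 0) (nat_lit 556232544862) (nat_lit 1) (nat_lit 5) (nat_lit 3) (nat_lit 4) (nat_lit 1) (nat_lit 4) (nat_lit 328) (nat_lit 233) (nat_lit 159)) (XT.nd (nat_lit 78) (nat_lit 0) (nat_lit 0) (XT.lf (nat_lit 0) (nat_lit 613187636805) (nat_lit 152) (nat_lit 268076052989) (nat_lit 0) (nat_lit 603064604975) (nat_lit 1) (nat_lit 5) (nat_lit 3) (nat_lit 4) (nat_lit 1) (nat_lit 4) (nat_lit 329) (nat_lit 233) (nat_lit 158)) (XT.lf (nat_lit 0) (nat_lit 663767878592) (nat_lit 152) (nat_lit 285466270025) (nat_lit 0) (nat_lit 653642504963) (nat_lit 1) (nat_lit 5) (nat_lit 3) (nat_lit 4) (nat_lit 1) (nat_lit 4) (nat_lit 330) (nat_lit 233) (nat_lit 157)))) (XT.nd (nat_lit 156) (nat_lit 0) (nat_lit 0) (XT.nd (nat_lit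 78) (nat_lit 0) (nat_lit 0) (XT.lf (nat_lit 0) (nat_lit 718393507676) (nat_lit 152) (nat_lit 304249495079) (nat_lit 0) (nat_lit 708265965716) (nat_lit 1) (nat_lit 5) (nat_lit 3) (nat_lit 4) (nat_lit 1) (nat_lit 4) (nat_lit 331) (nat_lit 233) (nat_lit 156)) (XT.lf (nat_lit 0) (nat_lit 777388231489) (nat_lit 152) (nat_lit 324537036149) (nat_lit 0) (nat_lit 767258681816) (nat_lit 1) (nat_lit 5) (nat_lit 3) (nat_lit 4) (nat_lit 1) (nat_lit 4) (nat_lit 332) (nat_lit 233) (nat_lit 155))) (XT.nd (nat_lit 78) (nat_lit 0) (nat_lit 0) (XT.lf (nat_lit 0) (nat_lit 841101648396) (nat_lit 152) (nat_lit 346449115702) (nat_lit 0) (nat_lit 830970239728) (nat_lit 1) (nat_lit 5) (nat_lit 3) (nat_lit 4) (nat_lit 1) (nat_lit 4) (nat_lit 333) (nat_lit 233) (nat_lit 154)) (XT.lf (nat_lit 0) (nat_lit 909911319385) (nat_lit 152) (nat_lit 370115583098) (nat_lit 0) (nat_lit 899778189426) (nat_lit 1) (nat_lit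 5) (nat_lit 3) (nat_lit 4) (nat_lit 1) (nat_lit 4) (nat_lit 334) (nat_lit 233) (nat_lit 153))))))))
noncomputable def xc41 : XT := (XT.nd (nat_lit 32370) (nat_lit 0) (nat_lit 0) (XT.nd (nat_lit 31278) (nat_lit 0) (nat_lit 456) (XT.nd (nat_lit 468) (nat_lit 0) (nat_lit 0) (XT.nd (nat_lit 234) (nat_lit 0) (nat_lit 0) (XT.nd (nat_lit 78) (nat_lit 0) (nat_lit 0) (XT.lf (nat_lit 0) (nat_lit 984225005469) (nat_lit 152) (nat_lit 395676684070) (nat_lit 0) (nat_lit 974090281721) (nat_lit 1) (nat_lit 5) (nat_lit 3) (nat_lit 4) (nat_lit 1) (nat_lit 4) (nat_lit 335) (nat_lit 233) (nat_lit 152)) (XT.nd (nat_lit 78) (nat_lit 0) (nat_lit 0) (XT.lf (nat_lit 0) (nat_lit 1064483084047) (nat_lit 152) (nat_lit 423283891808) (nat_lit 0) (nat_lit 1054346884570) (nat_lit 1) (nat_lit 5) (nat_lit 3) (nat_lit 4) (nat_lit 1) (nat_lit 4) (nat_lit 336) (nat_lit 233) (nat_lit 151)) (XT.lf (nat_lit 0) (nat_lit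 1151161158548) (nat_lit 152) (nat_lit 453100804581) (nat_lit 0) (nat_lit 1141023592655) (nat_lit 1) (nat_lit 5) (nat_lit 3) (nat_lit 4) (nat_lit 1) (nat_lit 4) (nat_lit 337) (nat_lit 233) (nat_lit 150)))) (XT.nd (nat_lit 78) (nat_lit 0) (nat_lit 0) (XT.lf (nat_lit 0) (nat_lit 1244772876821) (nat_lit 152) (nat_lit 485304115205) (nat_lit 0) (nat_lit 1234634045727) (nat_lit 1) (nat_lit 5) (nat_lit 3) (nat_lit 4) (nat_lit 1) (nat_lit 4) (nat_lit 338) (nat_lit 233) (nat_lit 149)) (XT.nd (nat_lit 78) (nat_lit 0) (nat_lit 0) (XT.lf (nat_lit 0) (nat_lit 1345872974974) (nat_lit 152) (nat_lit 520084658114) (nat_lit 0) (nat_lit 1335732972399) (nat_lit 1) (nat_lit 5) (nat_lit 3) (nat_lit 4) (nat_lit 1) (nat_lit 4) (nat_lit 339) (nat_lit 233) (nat_lit 148)) (XT.lf (nat_lit 0) (nat_lit 1455060564700) (nat_lit 152) (nat_lit 557648540229) (nat_lit 0) (nat_lit 1444919477419) (nat_lit 1) (nat_lit 5)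 (nat_lit 3) (nat_lit 4) (nat_lit 1) (nat_lit 4) (nat_lit 340) (nat_lit 233) (nat_lit 147))))) (XT.nd (nat_lit 234) (nat_lit 0) (nat_lit 0) (XT.nd (nat_lit 78) (nat_lit 0) (nat_lit 0) (XT.lf (nat_lit 0) (nat_lit 1572982683568) (nat_lit 152) (nat_lit 598218362331) (nat_lit 0) (nat_lit 1562840591930) (nat_lit 1) (nat_lit 5) (nat_lit 3) (nat_lit 4) (nat_lit 1) (nat_lit 4) (nat_lit 341) (nat_lit 233) (nat_lit 146)) (XT.nd (nat_lit 78) (nat_lit 0) (nat_lit 0) (XT.lf (nat_lit 0) (nat_lit 1700338129318) (nat_lit 152) (nat_lit 642034538183) (nat_lit 0) (nat_lit 1690195107720) (nat_lit 1) (nat_lit 5) (nat_lit 3) (nat_lit 4) (nat_lit 1) (nat_lit 4) (nat_lit 342) (nat_lit 233) (nat_lit 145)) (XT.lf (nat_lit 0) (nat_lit 1837881600890) (nat_lit 152) (nat_lit 689356719196) (nat_lit 0) (nat_lit 1827737718218) (nat_lit 1) (nat_lit 5) (nat_lit 3) (nat_lit 4) (nat_lit 1) (nat_lit 4) (nat_lit 343) (nat_lit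 233) (nat_lit 144)))) (XT.nd (nat_lit 30420) (nat_lit 0) (nat_lit 1368) (XT.nd (nat_lit 30342) (nat_lit 0) (nat_lit 1900) (XT.lf (nat_lit 0) (nat_lit 1986428170706) (nat_lit 152) (nat_lit 740465333110) (nat_lit 0) (nat_lit 1976283490743) (nat_lit 1) (nat_lit 5) (nat_lit 3) (nat_lit 4) (nat_lit 1) (nat_lit 4) (nat_lit 344) (nat_lit 233) (nat_lit 143)) (XT.lf (nat_lit 0) (nat_lit 3862643265) (nat_lit 380) (nat_lit 913192) (nat_lit 380) (nat_lit 913192) (nat_lit 26) (nat_lit 4) (nat_lit 31) (nat_lit 5) (nat_lit 31) (nat_lit 4) (nat_lit 252) (nat_lit 234) (nat_lit 234))) (XT.nd (nat_lit 78) (nat_lit 228) (nat_lit 0) (XT.lf (nat_lit 0) (nat_lit 2797620148) (nat_lit 304) (nat_lit 3568276357) (nat_lit 0) (nat_lit 1603979618) (nat_lit 22) (nat_lit 5) (nat_lit 26) (nat_lit 4) (nat_lit 22) (nat_lit 4) (nat_lit 253) (nat_lit 234) (nat_lit 233)) (XT.lf (nat_lit 0) (nat_lit 732748192) (nat_lit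 228) (nat_lit 4906589093) (nat_lit 228) (nat_lit 2607725850) (nat_lit 19) (nat_lit 4) (nat_lit 22) (nat_lit 5) (nat_lit 22) (nat_lit 4) (nat_lit 254) (nat_lit 234) (nat_lit 232)))))) (XT.nd (nat_lit 546) (nat_lit 304) (nat_lit 0) (XT.nd (nat_lit 234) (nat_lit 380) (nat_lit 0) (XT.nd (nat_lit 78) (nat_lit 152) (nat_lit 0) (XT.lf (nat_lit 0) (nat_lit 56809735) (nat_lit 304) (nat_lit 3204053356) (nat_lit 76) (nat_lit 5295117070) (nat_lit 18) (nat_lit 5) (nat_lit 22) (nat_lit 5) (nat_lit 19) (nat_lit 4) (nat_lit 255) (nat_lit 234) (nat_lit 231)) (XT.nd (nat_lit 78) (nat_lit 0) (nat_lit 0) (XT.lf (nat_lit 0) (nat_lit 1222418934) (nat_lit 152) (nat_lit 1418055525) (nat_lit 228) (nat_lit 6257915912) (nat_lit 16) (nat_lit 5) (nat_lit 18) (nat_lit 5) (nat_lit 19) (nat_lit 4) (nat_lit 256) (nat_lit 234) (nat_lit 230)) (XT.lf (nat_lit 0) (nat_lit 5359228338) (nat_lit 228) (nat_lit 3323127952)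 (nat_lit 0) (nat_lit 593367814) (nat_lit 16) (nat_lit 5) (nat_lit 19) (nat_lit 4) (nat_lit 16) (nat_lit 4) (nat_lit 257) (nat_lit 234) (nat_lit 229)))) (XT.nd (nat_lit 156) (nat_lit 152) (nat_lit 0) (XT.nd (nat_lit 78) (nat_lit 76) (nat_lit 0) (XT.lf (nat_lit 0) (nat_lit 1186449395) (nat_lit 152) (nat_lit 7012136151) (nat_lit 152) (nat_lit 1494079619) (nat_lit 14) (nat_lit 4) (nat_lit 16) (nat_lit 5) (nat_lit 16) (nat_lit 4) (nat_lit 258) (nat_lit 234) (nat_lit 228)) (XT.lf (nat_lit 0) (nat_lit 998454968) (nat_lit 228) (nat_lit 4137747981) (nat_lit 76) (nat_lit 5011433681) (nat_lit 13) (nat_lit 5) (nat_lit 16) (nat_lit 5) (nat_lit 14) (nat_lit 4) (nat_lit 259) (nat_lit 234) (nat_lit 227))) (XT.nd (nat_lit 78) (nat_lit 0) (nat_lit 0) (XT.lf (nat_lit 0) (nat_lit 356939809) (nat_lit 152) (nat_lit 3112464499) (nat_lit 228) (nat_lit 7179043239) (nat_lit 11) (nat_lit 5) (nat_lit 13) (nat_lit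 5) (nat_lit 14) (nat_lit 4) (nat_lit 260) (nat_lit 234) (nat_lit 226)) (XT.lf (nat_lit 0) (nat_lit 5249335947) (nat_lit 152) (nat_lit 859257582) (nat_lit 228) (nat_lit 5084311366) (nat_lit 11) (nat_lit 5) (nat_lit 13) (nat_lit 5) (nat_lit 14) (nat_lit 4) (nat_lit 261) (nat_lit 234) (nat_lit 225))))) (XT.nd (nat_lit 234) (nat_lit 76) (nat_lit 0) (XT.nd (nat_lit 78) (nat_lit 228) (nat_lit 0) (XT.lf (nat_lit 0) (nat_lit 8863552659) (nat_lit 228) (nat_lit 1478712904) (nat_lit 0) (nat_lit 1447418292) (nat_lit 11) (nat_lit 5) (nat_lit 14) (nat_lit 4) (nat_lit 11) (nat_lit 4) (nat_lit 262) (nat_lit 234) (nat_lit 224)) (XT.nd (nat_lit 78) (nat_lit 76) (nat_lit 0) (XT.lf (nat_lit 0) (nat_lit 3307721305) (nat_lit 152) (nat_lit 8509699962) (nat_lit 152) (nat_lit 619554518) (nat_lit 9) (nat_lit 4) (nat_lit 11) (nat_lit 5) (nat_lit 11) (nat_lit 4) (nat_lit 263) (nat_lit 234) (nat_lit 223)) (XT.lf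 (nat_lit 0) (nat_lit 1696996844) (nat_lit 228) (nat_lit 4799291153) (nat_lit 76) (nat_lit 6643538172) (nat_lit 8) (nat_lit 5) (nat_lit 11) (nat_lit 5) (nat_lit 9) (nat_lit 4) (nat_lit 264) (nat_lit 234) (nat_lit 222)))) (XT.nd (nat_lit 156) (nat_lit 0) (nat_lit 0) (XT.nd (nat_lit 78) (nat_lit 76) (nat_lit 0) (XT.lf (nat_lit 0) (nat_lit 4052057871) (nat_lit 228) (nat_lit 307152314) (nat_lit 76) (nat_lit 9548309256) (nat_lit 8) (nat_lit 5) (nat_lit 11) (nat_lit 5) (nat_lit 9) (nat_lit 4) (nat_lit 265) (nat_lit 234) (nat_lit 221)) (XT.lf (nat_lit 0) (nat_lit 4619782654) (nat_lit 76) (nat_lit 1981900334) (nat_lit 152) (nat_lit 8135225461) (nat_lit 7) (nat_lit 5) (nat_lit 8) (nat_lit 5) (nat_lit 9) (nat_lit 4) (nat_lit 266) (nat_lit 234) (nat_lit 220))) (XT.nd (nat_lit 78) (nat_lit 0) (nat_lit 0) (XT.lf (nat_lit 0) (nat_lit 9275931403) (nat_lit 152) (nat_lit 5847229126) (nat_lit 0) (nat_lit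 516551537) (nat_lit 7) (nat_lit 5) (nat_lit 9) (nat_lit 4) (nat_lit 7) (nat_lit 4) (nat_lit 267) (nat_lit 234) (nat_lit 219)) (XT.lf (nat_lit 0) (nat_lit 12121110131) (nat_lit 152) (nat_lit 1434710458) (nat_lit 0) (nat_lit 3063022881) (nat_lit 7) (nat_lit 5) (nat_lit 9) (nat_lit 4) (nat_lit 7) (nat_lit 4) (nat_lit 268) (nat_lit 234) (nat_lit 218))))))) (XT.nd (nat_lit 1014) (nat_lit 152) (nat_lit 0) (XT.nd (nat_lit 468) (nat_lit 76) (nat_lit 0) (XT.nd (nat_lit 234) (nat_lit 76) (nat_lit 0) (XT.nd (nat_lit 78) (nat_lit 76) (nat_lit 0) (XT.lf (nat_lit 0) (nat_lit 3362446404) (nat_lit 76) (nat_lit 11824835251) (nat_lit 76) (nat_lit 2490167090) (nat_lit 6) (nat_lit 4) (nat_lit 7) (nat_lit 5) (nat_lit 7) (nat_lit 4) (nat_lit 269) (nat_lit 234) (nat_lit 217)) (XT.nd (nat_lit 78) (nat_lit 76) (nat_lit 0) (XT.lf (nat_lit 0) (nat_lit 8491859963) (nat_lit 76) (nat_lit 9961905393) (nat_lit 76)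 (nat_lit 371143797) (nat_lit 6) (nat_lit 4) (nat_lit 7) (nat_lit 5) (nat_lit 7) (nat_lit 4) (nat_lit 270) (nat_lit 234) (nat_lit 216)) (XT.lf (nat_lit 0) (nat_lit 1740988805) (nat_lit 152) (nat_lit 6206628433) (nat_lit 76) (nat_lit 12119786909) (nat_lit 5) (nat_lit 5) (nat_lit 7) (nat_lit 5) (nat_lit 6) (nat_lit 4) (nat_lit 271) (nat_lit 234) (nat_lit 215)))) (XT.nd (nat_lit 78) (nat_lit 76) (nat_lit 0) (XT.lf (nat_lit 0) (nat_lit 3927506931) (nat_lit 152) (nat_lit 1878229574) (nat_lit 76) (nat_lit 15609204765) (nat_lit 5) (nat_lit 5) (nat_lit 7) (nat_lit 5) (nat_lit 6) (nat_lit 4) (nat_lit 272) (nat_lit 234) (nat_lit 214)) (XT.nd (nat_lit 78) (nat_lit 0) (nat_lit 0) (XT.lf (nat_lit 0) (nat_lit 2828201254) (nat_lit 76) (nat_lit 3459750896) (nat_lit 152) (nat_lit 16582826398) (nat_lit 4) (nat_lit 5) (nat_lit 5) (nat_lit 5) (nat_lit 6) (nat_lit 4) (nat_lit 273) (nat_lit 234) (nat_lit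 213)) (XT.lf (nat_lit 0) (nat_lit 7911022782) (nat_lit 76) (nat_lit 911091795) (nat_lit 152) (nat_lit 15622564400) (nat_lit 4) (nat_lit 5) (nat_lit 5) (nat_lit 5) (nat_lit 6) (nat_lit 4) (nat_lit 274) (nat_lit 234) (nat_lit 212))))) (XT.nd (nat_lit 234) (nat_lit 76) (nat_lit 0) (XT.nd (nat_lit 78) (nat_lit 0) (nat_lit 0) (XT.lf (nat_lit 0) (nat_lit 11540847355) (nat_lit 152) (nat_lit 12891708192) (nat_lit 0) (nat_lit 1713746958) (nat_lit 4) (nat_lit 5) (nat_lit 6) (nat_lit 4) (nat_lit 4) (nat_lit 4) (nat_lit 275) (nat_lit 234) (nat_lit 211)) (XT.nd (nat_lit 78) (nat_lit 0) (nat_lit 0) (XT.lf (nat_lit 0) (nat_lit 14442919586) (nat_lit 152) (nat_lit 9077809466) (nat_lit 0) (nat_lit 4466391129) (nat_lit 4) (nat_lit 5) (nat_lit 6) (nat_lit 4) (nat_lit 4) (nat_lit 4) (nat_lit 276) (nat_lit 234) (nat_lit 210)) (XT.lf (nat_lit 0) (nat_lit 17523616956) (nat_lit 152) (nat_lit 5047447356) (nat_lit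 0) (nat_lit 7408729184) (nat_lit 4) (nat_lit 5) (nat_lit 6) (nat_lit 4) (nat_lit 4) (nat_lit 4) (nat_lit 277) (nat_lit 234) (nat_lit 209)))) (XT.nd (nat_lit 156) (nat_lit 0) (nat_lit 0) (XT.nd (nat_lit 78) (nat_lit 76) (nat_lit 0) (XT.lf (nat_lit 0) (nat_lit 20801195449) (nat_lit 152) (nat_lit 776738233) (nat_lit 0) (nat_lit 10558197200) (nat_lit 4) (nat_lit 5) (nat_lit 6) (nat_lit 4) (nat_lit 4) (nat_lit 4) (nat_lit 278) (nat_lit 234) (nat_lit 208)) (XT.lf (nat_lit 0) (nat_lit 3957601038) (nat_lit 76) (nat_lit 20432657114) (nat_lit 76) (nat_lit 10071038053) (nat_lit 3) (nat_lit 4) (nat_lit 4) (nat_lit 5) (nat_lit 4) (nat_lit 4) (nat_lit 279) (nat_lit 234) (nat_lit 207))) (XT.nd (nat_lit 78) (nat_lit 0) (nat_lit 0) (XT.lf (nat_lit 0) (nat_lit 9040783529) (nat_lit 76) (nat_lit 19202615887) (nat_lit 76) (nat_lit 8731162741) (nat_lit 3) (nat_lit 4) (nat_lit 4) (nat_lit 5) (nat_lit 4)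 (nat_lit 4) (nat_lit 280) (nat_lit 234) (nat_lit 206)) (XT.lf (nat_lit 0) (nat_lit 14462030141) (nat_lit 76) (nat_lit 17901758268) (nat_lit 76) (nat_lit 7328606895) (nat_lit 3) (nat_lit 4) (nat_lit 4) (nat_lit 5) (nat_lit 4) (nat_lit 4) (nat_lit 281) (nat_lit 234) (nat_lit 205)))))) (XT.nd (nat_lit 546) (nat_lit 76) (nat_lit 0) (XT.nd (nat_lit 234) (nat_lit 76) (nat_lit 0) (XT.nd (nat_lit 78) (nat_lit 0) (nat_lit 0) (XT.lf (nat_lit 0) (nat_lit 20253466781) (nat_lit 76) (nat_lit 16522375471) (nat_lit 76) (nat_lit 5855059073) (nat_lit 3) (nat_lit 4) (nat_lit 4) (nat_lit 5) (nat_lit 4) (nat_lit 4) (nat_lit 282) (nat_lit 234) (nat_lit 204)) (XT.nd (nat_lit 78) (nat_lit 0) (nat_lit 0) (XT.lf (nat_lit 0) (nat_lit 26449413073) (nat_lit 76) (nat_lit 15056293376) (nat_lit 76) (nat_lit 4301787140) (nat_lit 3) (nat_lit 4) (nat_lit 4) (nat_lit 5) (nat_lit 4) (nat_lit 4) (nat_lit 283) (nat_lit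 234) (nat_lit 203)) (XT.lf (nat_lit 0) (nat_lit 33086585736) (nat_lit 76) (nat_lit 13494824089) (nat_lit 76) (nat_lit 2659586522) (nat_lit 3) (nat_lit 4) (nat_lit 4) (nat_lit 5) (nat_lit 4) (nat_lit 4) (nat_lit 284) (nat_lit 234) (nat_lit 202)))) (XT.nd (nat_lit 156) (nat_lit 0) (nat_lit 0) (XT.nd (nat_lit 78) (nat_lit 76) (nat_lit 0) (XT.lf (nat_lit 0) (nat_lit 40204316164) (nat_lit 76) (nat_lit 11828714459) (nat_lit 76) (nat_lit 918725659) (nat_lit 3) (nat_lit 4) (nat_lit 4) (nat_lit 5) (nat_lit 4) (nat_lit 4) (nat_lit 285) (nat_lit 234) (nat_lit 201)) (XT.lf (nat_lit 0) (nat_lit 884533684) (nat_lit 152) (nat_lit 9139372840) (nat_lit 76) (nat_lit 46936065097) (nat_lit 2) (nat_lit 5) (nat_lit 4) (nat_lit 5) (nat_lit 3) (nat_lit 4) (nat_lit 286) (nat_lit 234) (nat_lit 200))) (XT.nd (nat_lit 78) (nat_lit 0) (nat_lit 0) (XT.lf (nat_lit 0) (nat_lit 2755773298) (nat_lit 152) (nat_lit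 5311281576) (nat_lit 76) (nat_lit 53222143562) (nat_lit 2) (nat_lit 5) (nat_lit 4) (nat_lit 5) (nat_lit 3) (nat_lit 4) (nat_lit 287) (nat_lit 234) (nat_lit 199)) (XT.lf (nat_lit 0) (nat_lit 4752040389) (nat_lit 152) (nat_lit 1218385967) (nat_lit 76) (nat_lit 59996432681) (nat_lit 2) (nat_lit 5) (nat_lit 4) (nat_lit 5) (nat_lit 3) (nat_lit 4) (nat_lit 288) (nat_lit 234) (nat_lit 198))))) (XT.nd (nat_lit 234) (nat_lit 0) (nat_lit 0) (XT.nd (nat_lit 78) (nat_lit 0) (nat_lit 0) (XT.lf (nat_lit 0) (nat_lit 3330156078) (nat_lit 76) (nat_lit 3635098942) (nat_lit 152) (nat_lit 64049010644) (nat_lit 1) (nat_lit 5) (nat_lit 2) (nat_lit 5) (nat_lit 3) (nat_lit 4) (nat_lit 289) (nat_lit 234) (nat_lit 197)) (XT.nd (nat_lit 78) (nat_lit 0) (nat_lit 0) (XT.lf (nat_lit 0) (nat_lit 8274470540) (nat_lit 76) (nat_lit 1092317602) (nat_lit 152) (nat_lit 67097880286) (nat_lit 1) (nat_lit 5) (nat_lit 2)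 (nat_lit 5) (nat_lit 3) (nat_lit 4) (nat_lit 290) (nat_lit 234) (nat_lit 196)) (XT.lf (nat_lit 0) (nat_lit 11979460029) (nat_lit 152) (nat_lit 68812568793) (nat_lit 0) (nat_lit 1557650072) (nat_lit 1) (nat_lit 5) (nat_lit 3) (nat_lit 4) (nat_lit 1) (nat_lit 4) (nat_lit 291) (nat_lit 234) (nat_lit 195)))) (XT.nd (nat_lit 156) (nat_lit 0) (nat_lit 0) (XT.nd (nat_lit 78) (nat_lit 0) (nat_lit 0) (XT.lf (nat_lit 0) (nat_lit 14810295432) (nat_lit 152) (nat_lit 69546452679) (nat_lit 0) (nat_lit 4348099710) (nat_lit 1) (nat_lit 5) (nat_lit 3) (nat_lit 4) (nat_lit 1) (nat_lit 4) (nat_lit 292) (nat_lit 234) (nat_lit 194)) (XT.lf (nat_lit 0) (nat_lit 17849799407) (nat_lit 152) (nat_lit 70369928221) (nat_lit 0) (nat_lit 7350209458) (nat_lit 1) (nat_lit 5) (nat_lit 3) (nat_lit 4) (nat_lit 1) (nat_lit 4) (nat_lit 293) (nat_lit 234) (nat_lit 193))) (XT.nd (nat_lit 78) (nat_lit 0) (nat_lit 0) (XT.lf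 (nat_lit 0) (nat_lit 21115983830) (nat_lit 152) (nat_lit 71287875276) (nat_lit 0) (nat_lit 10581769597) (nat_lit 1) (nat_lit 5) (nat_lit 3) (nat_lit 4) (nat_lit 1) (nat_lit 4) (nat_lit 294) (nat_lit 234) (nat_lit 192)) (XT.lf (nat_lit 0) (nat_lit 24628203868) (nat_lit 152) (nat_lit 72305733528) (nat_lit 0) (nat_lit 14061930112) (nat_lit 1) (nat_lit 5) (nat_lit 3) (nat_lit 4) (nat_lit 1) (nat_lit 4) (nat_lit 295) (nat_lit 234) (nat_lit 191))))))))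
noncomputable def xc42 : XT := (XT.nd (nat_lit 2106) (nat_lit 0) (nat_lit 0) (XT.nd (nat_lit 1014) (nat_lit 0) (nat_lit 0) (XT.nd (nat_lit 468) (nat_lit 0) (nat_lit 0) (XT.nd (nat_lit 234) (nat_lit 0) (nat_lit 0) (XT.nd (nat_lit 78) (nat_lit 0) (nat_lit 0) (XT.lf (nat_lit 0) (nat_lit 28407272677) (nat_lit 152) (nat_lit 73429534732) (nat_lit 0) (nat_lit 17811314178) (nat_lit 1) (nat_lit 5) (nat_lit 3) (nat_lit 4) (nat_lit 1) (nat_lit 4) (nat_lit 296) (nat_lit 234) (nat_lit 190)) (XT.nd (nat_lit 78) (nat_lit 0) (nat_lit 0) (XT.lf (nat_lit 0) (nat_lit 32475584738) (nat_lit 152) (nat_lit 74665938449) (nat_lit 0) (nat_lit 21852140366) (nat_lit 1) (nat_lit 5) (nat_lit 3) (nat_lit 4) (nat_lit 1) (nat_lit 4) (nat_lit 297) (nat_lit 234) (nat_lit 189)) (XT.lf (nat_lit 0) (nat_lit 36857248568) (nat_lit 152) (nat_lit 76022271516) (nat_lit 0) (nat_lit 26208354313) (nat_lit 1) (nat_lit 5) (nat_lit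 3) (nat_lit 4) (nat_lit 1) (nat_lit 4) (nat_lit 298) (nat_lit 234) (nat_lit 188)))) (XT.nd (nat_lit 78) (nat_lit 0) (nat_lit 0) (XT.lf (nat_lit 0) (nat_lit 41578229581) (nat_lit 152) (nat_lit 77506571463) (nat_lit 0) (nat_lit 30905770621) (nat_lit 1) (nat_lit 5) (nat_lit 3) (nat_lit 4) (nat_lit 1) (nat_lit 4) (nat_lit 299) (nat_lit 234) (nat_lit 187)) (XT.nd (nat_lit 78) (nat_lit 0) (nat_lit 0) (XT.lf (nat_lit 0) (nat_lit 46666503962) (nat_lit 152) (nat_lit 79127634141) (nat_lit 0) (nat_lit 35972225829) (nat_lit 1) (nat_lit 5) (nat_lit 3) (nat_lit 4) (nat_lit 1) (nat_lit 4) (nat_lit 300) (nat_lit 234) (nat_lit 186)) (XT.lf (nat_lit 0) (nat_lit 52152224447) (nat_lit 152) (nat_lit 80895065848) (nat_lit 0) (nat_lit 41437743377) (nat_lit 1) (nat_lit 5) (nat_lit 3) (nat_lit 4) (nat_lit 1) (nat_lit 4) (nat_lit 301) (nat_lit 234) (nat_lit 185))))) (XT.nd (nat_lit 234) (nat_lit 0) (nat_lit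 0) (XT.nd (nat_lit 78) (nat_lit 0) (nat_lit 0) (XT.lf (nat_lit 0) (nat_lit 58067899011) (nat_lit 152) (nat_lit 82819340253) (nat_lit 0) (nat_lit 47334711517) (nat_lit 1) (nat_lit 5) (nat_lit 3) (nat_lit 4) (nat_lit 1) (nat_lit 4) (nat_lit 302) (nat_lit 234) (nat_lit 184)) (XT.nd (nat_lit 78) (nat_lit 0) (nat_lit 0) (XT.lf (nat_lit 0) (nat_lit 64448583501) (nat_lit 152) (nat_lit 84911860464) (nat_lit 0) (nat_lit 53698075245) (nat_lit 1) (nat_lit 5) (nat_lit 3) (nat_lit 4) (nat_lit 1) (nat_lit 4) (nat_lit 303) (nat_lit 234) (nat_lit 183)) (XT.lf (nat_lit 0) (nat_lit 71332089382) (nat_lit 152) (nat_lit 87185026599) (nat_lit 0) (nat_lit 60565543383) (nat_lit 1) (nat_lit 5) (nat_lit 3) (nat_lit 4) (nat_lit 1) (nat_lit 4) (nat_lit 304) (nat_lit 234) (nat_lit 182)))) (XT.nd (nat_lit 156) (nat_lit 0) (nat_lit 0) (XT.nd (nat_lit 78) (nat_lit 0) (nat_lit 0) (XT.lf (nat_lit 0) (nat_lit 78759207799)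 (nat_lit 152) (nat_lit 89652309274) (nat_lit 0) (nat_lit 67977812038) (nat_lit 1) (nat_lit 5) (nat_lit 3) (nat_lit 4) (nat_lit 1) (nat_lit 4) (nat_lit 305) (nat_lit 234) (nat_lit 181)) (XT.lf (nat_lit 0) (nat_lit 86773951307) (nat_lit 152) (nat_lit 92328329423) (nat_lit 0) (nat_lit 75978805766) (nat_lit 1) (nat_lit 5) (nat_lit 3) (nat_lit 4) (nat_lit 1) (nat_lit 4) (nat_lit 306) (nat_lit 234) (nat_lit 180))) (XT.nd (nat_lit 78) (nat_lit 0) (nat_lit 0) (XT.lf (nat_lit 0) (nat_lit 95423814682) (nat_lit 152) (nat_lit 95228944943) (nat_lit 0) (nat_lit 84615937863) (nat_lit 1) (nat_lit 5) (nat_lit 3) (nat_lit 4) (nat_lit 1) (nat_lit 4) (nat_lit 307) (nat_lit 234) (nat_lit 179)) (XT.lf (nat_lit 0) (nat_lit 104760056372) (nat_lit 152) (nat_lit 98371344667) (nat_lit 0) (nat_lit 93940391334) (nat_lit 1) (nat_lit 5) (nat_lit 3) (nat_lit 4) (nat_lit 1) (nat_lit 4) (nat_lit 308) (nat_lit 234)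 (nat_lit 178)))))) (XT.nd (nat_lit 546) (nat_lit 0) (nat_lit 0) (XT.nd (nat_lit 234) (nat_lit 0) (nat_lit 0) (XT.nd (nat_lit 78) (nat_lit 0) (nat_lit 0) (XT.lf (nat_lit 0) (nat_lit 114838002256) (nat_lit 152) (nat_lit 101774150222) (nat_lit 0) (nat_lit 104007422200) (nat_lit 1) (nat_lit 5) (nat_lit 3) (nat_lit 4) (nat_lit 1) (nat_lit 4) (nat_lit 309) (nat_lit 234) (nat_lit 177)) (XT.nd (nat_lit 78) (nat_lit 0) (nat_lit 0) (XT.lf (nat_lit 0) (nat_lit 125717373493) (nat_lit 152) (nat_lit 105457526383) (nat_lit 0) (nat_lit 114876686938) (nat_lit 1) (nat_lit 5) (nat_lit 3) (nat_lit 4) (nat_lit 1) (nat_lit 4) (nat_lit 310) (nat_lit 234) (nat_lit 176)) (XT.lf (nat_lit 0) (nat_lit 137462640432) (nat_lit 152) (nat_lit 109443300563) (nat_lit 0) (nat_lit 126612596008) (nat_lit 1) (nat_lit 5) (nat_lit 3) (nat_lit 4) (nat_lit 1) (nat_lit 4) (nat_lit 311) (nat_lit 234) (nat_lit 175)))) (XT.nd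 (nat_lit 156) (nat_lit 0) (nat_lit 0) (XT.nd (nat_lit 78) (nat_lit 0) (nat_lit 0) (XT.lf (nat_lit 0) (nat_lit 150143404655) (nat_lit 152) (nat_lit 113755092165) (nat_lit 0) (nat_lit 139284695538) (nat_lit 1) (nat_lit 5) (nat_lit 3) (nat_lit 4) (nat_lit 1) (nat_lit 4) (nat_lit 312) (nat_lit 234) (nat_lit 174)) (XT.lf (nat_lit 0) (nat_lit 163834811431) (nat_lit 152) (nat_lit 118418452548) (nat_lit 0) (nat_lit 152968079449) (nat_lit 1) (nat_lit 5) (nat_lit 3) (nat_lit 4) (nat_lit 1) (nat_lit 4) (nat_lit 313) (nat_lit 234) (nat_lit 173))) (XT.nd (nat_lit 78) (nat_lit 0) (nat_lit 0) (XT.lf (nat_lit 0) (nat_lit 178617995022) (nat_lit 152) (nat_lit 123461016438) (nat_lit 0) (nat_lit 167743834462) (nat_lit 1) (nat_lit 5) (nat_lit 3) (nat_lit 4) (nat_lit 1) (nat_lit 4) (nat_lit 314) (nat_lit 234) (nat_lit 172)) (XT.lf (nat_lit 0) (nat_lit 194580559480) (nat_lit 152) (nat_lit 128912665696)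 (nat_lit 0) (nat_lit 183699520607) (nat_lit 1) (nat_lit 5) (nat_lit 3) (nat_lit 4) (nat_lit 1) (nat_lit 4) (nat_lit 315) (nat_lit 234) (nat_lit 171))))) (XT.nd (nat_lit 234) (nat_lit 0) (nat_lit 0) (XT.nd (nat_lit 78) (nat_lit 0) (nat_lit 0) (XT.lf (nat_lit 0) (nat_lit 211817097779) (nat_lit 152) (nat_lit 134805706392) (nat_lit 0) (nat_lit 200929690097) (nat_lit 1) (nat_lit 5) (nat_lit 3) (nat_lit 4) (nat_lit 1) (nat_lit 4) (nat_lit 316) (nat_lit 234) (nat_lit 170)) (XT.nd (nat_lit 78) (nat_lit 0) (nat_lit 0) (XT.lf (nat_lit 0) (nat_lit 230429752368) (nat_lit 152) (nat_lit 141175060249) (nat_lit 0) (nat_lit 219536447641) (nat_lit 1) (nat_lit 5) (nat_lit 3) (nat_lit 4) (nat_lit 1) (nat_lit 4) (nat_lit 317) (nat_lit 234) (nat_lit 169)) (XT.lf (nat_lit 0) (nat_lit 250528820459) (nat_lit 152) (nat_lit 148058471585) (nat_lit 0) (nat_lit 239630055506) (nat_lit 1) (nat_lit 5) (nat_lit 3)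 (nat_lit 4) (nat_lit 1) (nat_lit 4) (nat_lit 318) (nat_lit 234) (nat_lit 168)))) (XT.nd (nat_lit 156) (nat_lit 0) (nat_lit 0) (XT.nd (nat_lit 78) (nat_lit 0) (nat_lit 0) (XT.lf (nat_lit 0) (nat_lit 272233407641) (nat_lit 152) (nat_lit 155496730987) (nat_lit 0) (nat_lit 261329586923) (nat_lit 1) (nat_lit 5) (nat_lit 3) (nat_lit 4) (nat_lit 1) (nat_lit 4) (nat_lit 319) (nat_lit 234) (nat_lit 167)) (XT.lf (nat_lit 0) (nat_lit 295672133691) (nat_lit 152) (nat_lit 163533917028) (nat_lit 0) (nat_lit 284763631708) (nat_lit 1) (nat_lit 5) (nat_lit 3) (nat_lit 4) (nat_lit 1) (nat_lit 4) (nat_lit 320) (nat_lit 234) (nat_lit 166))) (XT.nd (nat_lit 78) (nat_lit 0) (nat_lit 0) (XT.lf (nat_lit 0) (nat_lit 320983894762) (nat_lit 152) (nat_lit 172217657477) (nat_lit 0) (nat_lit 310071058275) (nat_lit 1) (nat_lit 5) (nat_lit 3) (nat_lit 4) (nat_lit 1) (nat_lit 4) (nat_lit 321) (nat_lit 234) (nat_lit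 165)) (XT.lf (nat_lit 0) (nat_lit 348318686476) (nat_lit 152) (nat_lit 181599411538) (nat_lit 0) (nat_lit 337401836560) (nat_lit 1) (nat_lit 5) (nat_lit 3) (nat_lit 4) (nat_lit 1) (nat_lit 4) (nat_lit 322) (nat_lit 234) (nat_lit 164))))))) (XT.nd (nat_lit 1014) (nat_lit 0) (nat_lit 0) (XT.nd (nat_lit 468) (nat_lit 0) (nat_lit 0) (XT.nd (nat_lit 234) (nat_lit 0) (nat_lit 0) (XT.nd (nat_lit 78) (nat_lit 0) (nat_lit 0) (XT.lf (nat_lit 0) (nat_lit 377838492783) (nat_lit 152) (nat_lit 191734774790) (nat_lit 0) (nat_lit 366917926728) (nat_lit 1) (nat_lit 5) (nat_lit 3) (nat_lit 4) (nat_lit 1) (nat_lit 4) (nat_lit 323) (nat_lit 234) (nat_lit 163)) (XT.nd (nat_lit 78) (nat_lit 0) (nat_lit 0) (XT.lf (nat_lit 0) (nat_lit 409718245870) (nat_lit 152) (nat_lit 202683808645) (nat_lit 0) (nat_lit 398794238946) (nat_lit 1) (nat_lit 5) (nat_lit 3) (nat_lit 4) (nat_lit 1) (nat_lit 4) (nat_lit 324)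 (nat_lit 234) (nat_lit 162)) (XT.lf (nat_lit 0) (nat_lit 444146862790) (nat_lit 152) (nat_lit 214511396266) (nat_lit 0) (nat_lit 433219669876) (nat_lit 1) (nat_lit 5) (nat_lit 3) (nat_lit 4) (nat_lit 1) (nat_lit 4) (nat_lit 325) (nat_lit 234) (nat_lit 161)))) (XT.nd (nat_lit 78) (nat_lit 0) (nat_lit 0) (XT.lf (nat_lit 0) (nat_lit 481328364979) (nat_lit 152) (nat_lit 227287627061) (nat_lit 0) (nat_lit 470398222075) (nat_lit 1) (nat_lit 5) (nat_lit 3) (nat_lit 4) (nat_lit 1) (nat_lit 4) (nat_lit 326) (nat_lit 234) (nat_lit 160)) (XT.nd (nat_lit 78) (nat_lit 0) (nat_lit 0) (XT.lf (nat_lit 0) (nat_lit 521483087263) (nat_lit 152) (nat_lit 241088212029) (nat_lit 0) (nat_lit 510550212886) (nat_lit 1) (nat_lit 5) (nat_lit 3) (nat_lit 4) (nat_lit 1) (nat_lit 4) (nat_lit 327) (nat_lit 234) (nat_lit 159)) (XT.lf (nat_lit 0) (nat_lit 564848983553) (nat_lit 152) (nat_lit 255994932412) (nat_lit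 0) (nat_lit 553913580035) (nat_lit 1) (nat_lit 5) (nat_lit 3) (nat_lit 4) (nat_lit 1) (nat_lit 4) (nat_lit 328) (nat_lit 234) (nat_lit 158))))) (XT.nd (nat_lit 234) (nat_lit 0) (nat_lit 0) (XT.nd (nat_lit 78) (nat_lit 0) (nat_lit 0) (XT.lf (nat_lit 0) (nat_lit 611683036938) (nat_lit 152) (nat_lit 272096124332) (nat_lit 0) (nat_lit 600745291622) (nat_lit 1) (nat_lit 5) (nat_lit 3) (nat_lit 4) (nat_lit 1) (nat_lit 4) (nat_lit 329) (nat_lit 234) (nat_lit 157)) (XT.nd (nat_lit 78) (nat_lit 0) (nat_lit 0) (XT.lf (nat_lit 0) (nat_lit 662262782549) (nat_lit 152) (nat_lit 289487202260) (nat_lit 0) (nat_lit 651322868901) (nat_lit 1) (nat_lit 5) (nat_lit 3) (nat_lit 4) (nat_lit 1) (nat_lit 4) (nat_lit 330) (nat_lit 234) (nat_lit 156)) (XT.lf (nat_lit 0) (nat_lit 716887952211) (nat_lit 152) (nat_lit 308271224435) (nat_lit 0) (nat_lit 705946030850) (nat_lit 1) (nat_lit 5) (nat_lit 3) (nat_lit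 4) (nat_lit 1) (nat_lit 4) (nat_lit 331) (nat_lit 234) (nat_lit 155)))) (XT.nd (nat_lit 156) (nat_lit 0) (nat_lit 0) (XT.nd (nat_lit 78) (nat_lit 0) (nat_lit 0) (XT.lf (nat_lit 0) (nat_lit 775882250634) (nat_lit 152) (nat_lit 328559503580) (nat_lit 0) (nat_lit 764938470279) (nat_lit 1) (nat_lit 5) (nat_lit 3) (nat_lit 4) (nat_lit 1) (nat_lit 4) (nat_lit 332) (nat_lit 234) (nat_lit 154)) (XT.lf (nat_lit 0) (nat_lit 839595273661) (nat_lit 152) (nat_lit 350472266537) (nat_lit 0) (nat_lit 828649772014) (nat_lit 1) (nat_lit 5) (nat_lit 3) (nat_lit 4) (nat_lit 1) (nat_lit 4) (nat_lit 333) (nat_lit 234) (nat_lit 153))) (XT.nd (nat_lit 78) (nat_lit 0) (nat_lit 0) (XT.lf (nat_lit 0) (nat_lit 908404579946) (nat_lit 152) (nat_lit 374139366714) (nat_lit 0) (nat_lit 897457484511) (nat_lit 1) (nat_lit 5) (nat_lit 3) (nat_lit 4) (nat_lit 1) (nat_lit 4) (nat_lit 334) (nat_lit 234) (nat_lit 152))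 (XT.lf (nat_lit 0) (nat_lit 982717928341) (nat_lit 152) (nat_lit 399701053593) (nat_lit 0) (nat_lit 971769357176) (nat_lit 1) (nat_lit 5) (nat_lit 3) (nat_lit 4) (nat_lit 1) (nat_lit 4) (nat_lit 335) (nat_lit 234) (nat_lit 151)))))) (XT.nd (nat_lit 546) (nat_lit 0) (nat_lit 0) (XT.nd (nat_lit 234) (nat_lit 0) (nat_lit 0) (XT.nd (nat_lit 78) (nat_lit 0) (nat_lit 0) (XT.lf (nat_lit 0) (nat_lit 1062975694245) (nat_lit 152) (nat_lit 427308803839) (nat_lit 0) (nat_lit 1052025756664) (nat_lit 1) (nat_lit 5) (nat_lit 3) (nat_lit 4) (nat_lit 1) (nat_lit 4) (nat_lit 336) (nat_lit 234) (nat_lit 150)) (XT.nd (nat_lit 78) (nat_lit 0) (nat_lit 0) (XT.lf (nat_lit 0) (nat_lit 1149653479232) (nat_lit 152) (nat_lit 457126218934) (nat_lit 0) (nat_lit 1138702276451) (nat_lit 1) (nat_lit 5) (nat_lit 3) (nat_lit 4) (nat_lit 1) (nat_lit 4) (nat_lit 337) (nat_lit 234) (nat_lit 149)) (XT.lf (nat_lit 0) (nat_lit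 1243264929437) (nat_lit 152) (nat_lit 489329994671) (nat_lit 0) (nat_lit 1232312555174) (nat_lit 1) (nat_lit 5) (nat_lit 3) (nat_lit 4) (nat_lit 1) (nat_lit 4) (nat_lit 338) (nat_lit 234) (nat_lit 148)))) (XT.nd (nat_lit 156) (nat_lit 0) (nat_lit 0) (XT.nd (nat_lit 78) (nat_lit 0) (nat_lit 0) (XT.lf (nat_lit 0) (nat_lit 1344364779379) (nat_lit 152) (nat_lit 524110968240) (nat_lit 0) (nat_lit 1333411320410) (nat_lit 1) (nat_lit 5) (nat_lit 3) (nat_lit 4) (nat_lit 1) (nat_lit 4) (nat_lit 339) (nat_lit 234) (nat_lit 147)) (XT.lf (nat_lit 0) (nat_lit 1453552139280) (nat_lit 152) (nat_lit 561675249114) (nat_lit 0) (nat_lit 1442597675954) (nat_lit 1) (nat_lit 5) (nat_lit 3) (nat_lit 4) (nat_lit 1) (nat_lit 4) (nat_lit 340) (nat_lit 234) (nat_lit 146))) (XT.nd (nat_lit 78) (nat_lit 0) (nat_lit 0) (XT.lf (nat_lit 0) (nat_lit 1571474045346) (nat_lit 152) (nat_lit 602245440438) (nat_lit 0)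 (nat_lit 1560518652060) (nat_lit 1) (nat_lit 5) (nat_lit 3) (nat_lit 4) (nat_lit 1) (nat_lit 4) (nat_lit 341) (nat_lit 234) (nat_lit 145)) (XT.lf (nat_lit 0) (nat_lit 1698829294059) (nat_lit 152) (nat_lit 646061958161) (nat_lit 0) (nat_lit 1687873039699) (nat_lit 1) (nat_lit 5) (nat_lit 3) (nat_lit 4) (nat_lit 1) (nat_lit 4) (nat_lit 342) (nat_lit 234) (nat_lit 144))))) (XT.nd (nat_lit 30342) (nat_lit 0) (nat_lit 1368) (XT.nd (nat_lit 78) (nat_lit 0) (nat_lit 0) (XT.lf (nat_lit 0) (nat_lit 1836372583188) (nat_lit 152) (nat_lit 693384455722) (nat_lit 0) (nat_lit 1825415531537) (nat_lit 1) (nat_lit 5) (nat_lit 3) (nat_lit 4) (nat_lit 1) (nat_lit 4) (nat_lit 343) (nat_lit 234) (nat_lit 143)) (XT.nd (nat_lit 30186) (nat_lit 0) (nat_lit 2280) (XT.lf (nat_lit 0) (nat_lit 1984918984076) (nat_lit 152) (nat_lit 744493362736) (nat_lit 0) (nat_lit 1973961194192) (nat_lit 1) (nat_lit 5) (nat_lit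 3) (nat_lit 4) (nat_lit 1) (nat_lit 4) (nat_lit 344) (nat_lit 234) (nat_lit 142)) (XT.lf (nat_lit 0) (nat_lit 1623006340) (nat_lit 380) (nat_lit 408965329) (nat_lit 0) (nat_lit 1623006340) (nat_lit 31) (nat_lit 5) (nat_lit 36) (nat_lit 4) (nat_lit 31) (nat_lit 4) (nat_lit 250) (nat_lit 235) (nat_lit 235)))) (XT.nd (nat_lit 156) (nat_lit 456) (nat_lit 0) (XT.nd (nat_lit 78) (nat_lit 76) (nat_lit 0) (XT.lf (nat_lit 0) (nat_lit 3318733096) (nat_lit 380) (nat_lit 2790522332) (nat_lit 380) (nat_lit 1398260018) (nat_lit 26) (nat_lit 4) (nat_lit 31) (nat_lit 5) (nat_lit 31) (nat_lit 4) (nat_lit 251) (nat_lit 235) (nat_lit 234)) (XT.lf (nat_lit 0) (nat_lit 1220258179) (nat_lit 456) (nat_lit 143257072) (nat_lit 76) (nat_lit 6372071863) (nat_lit 25) (nat_lit 5) (nat_lit 31) (nat_lit 5) (nat_lit 26) (nat_lit 4) (nat_lit 252) (nat_lit 235) (nat_lit 233))) (XT.nd (nat_lit 78) (nat_lit 228) (nat_lit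 0) (XT.lf (nat_lit 0) (nat_lit 3887392957) (nat_lit 304) (nat_lit 3801486061) (nat_lit 0) (nat_lit 299397943) (nat_lit 22) (nat_lit 5) (nat_lit 26) (nat_lit 4) (nat_lit 22) (nat_lit 4) (nat_lit 253) (nat_lit 235) (nat_lit 232)) (XT.lf (nat_lit 0) (nat_lit 377976511) (nat_lit 228) (nat_lit 6253855339) (nat_lit 228) (nat_lit 1642505961) (nat_lit 19) (nat_lit 4) (nat_lit 22) (nat_lit 5) (nat_lit 22) (nat_lit 4) (nat_lit 254) (nat_lit 235) (nat_lit 231))))))))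
noncomputable def xc43 : XT := (XT.nd (nat_lit 2106) (nat_lit 152) (nat_lit 0) (XT.nd (nat_lit 1014) (nat_lit 304) (nat_lit 0) (XT.nd (nat_lit 468) (nat_lit 456) (nat_lit 0) (XT.nd (nat_lit 234) (nat_lit 228) (nat_lit 0) (XT.nd (nat_lit 78) (nat_lit 152) (nat_lit 0) (XT.lf (nat_lit 0) (nat_lit 885981963) (nat_lit 304) (nat_lit 3716057231) (nat_lit 76) (nat_lit 3987315486) (nat_lit 18) (nat_lit 5) (nat_lit 22) (nat_lit 5) (nat_lit 19) (nat_lit 4) (nat_lit 255) (nat_lit 235) (nat_lit 230)) (XT.nd (nat_lit 78) (nat_lit 0) (nat_lit 0) (XT.lf (nat_lit 0) (nat_lit 579412264) (nat_lit 152) (nat_lit 2793507640) (nat_lit 228) (nat_lit 5567449659) (nat_lit 16) (nat_lit 5) (nat_lit 18) (nat_lit 5) (nat_lit 19) (nat_lit 4) (nat_lit 256) (nat_lit 235) (nat_lit 229)) (XT.lf (nat_lit 0) (nat_lit 5229478415) (nat_lit 152) (nat_lit 769613527) (nat_lit 228) (nat_lit 3326820243) (nat_lit 16) (nat_lit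 5) (nat_lit 18) (nat_lit 5) (nat_lit 19) (nat_lit 4) (nat_lit 257) (nat_lit 235) (nat_lit 228)))) (XT.nd (nat_lit 78) (nat_lit 76) (nat_lit 0) (XT.lf (nat_lit 0) (nat_lit 291620980) (nat_lit 152) (nat_lit 8434565516) (nat_lit 152) (nat_lit 1026390671) (nat_lit 14) (nat_lit 4) (nat_lit 16) (nat_lit 5) (nat_lit 16) (nat_lit 4) (nat_lit 258) (nat_lit 235) (nat_lit 227)) (XT.nd (nat_lit 78) (nat_lit 0) (nat_lit 0) (XT.lf (nat_lit 0) (nat_lit 1371184126) (nat_lit 228) (nat_lit 5200998701) (nat_lit 76) (nat_lit 3640828025) (nat_lit 13) (nat_lit 5) (nat_lit 16) (nat_lit 5) (nat_lit 14) (nat_lit 4) (nat_lit 259) (nat_lit 235) (nat_lit 226)) (XT.lf (nat_lit 0) (nat_lit 3767286003) (nat_lit 228) (nat_lit 814224237) (nat_lit 76) (nat_lit 6138889071) (nat_lit 13) (nat_lit 5) (nat_lit 16) (nat_lit 5) (nat_lit 14) (nat_lit 4) (nat_lit 260) (nat_lit 235) (nat_lit 225))))) (XT.nd (nat_lit 234) (nat_lit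 152) (nat_lit 0) (XT.nd (nat_lit 78) (nat_lit 152) (nat_lit 0) (XT.lf (nat_lit 0) (nat_lit 3947518485) (nat_lit 152) (nat_lit 2374877731) (nat_lit 228) (nat_lit 4949732825) (nat_lit 11) (nat_lit 5) (nat_lit 13) (nat_lit 5) (nat_lit 14) (nat_lit 4) (nat_lit 261) (nat_lit 235) (nat_lit 224)) (XT.nd (nat_lit 78) (nat_lit 152) (nat_lit 0) (XT.lf (nat_lit 0) (nat_lit 8967452722) (nat_lit 152) (nat_lit 14494552) (nat_lit 228) (nat_lit 2895098985) (nat_lit 11) (nat_lit 5) (nat_lit 13) (nat_lit 5) (nat_lit 14) (nat_lit 4) (nat_lit 262) (nat_lit 235) (nat_lit 223)) (XT.lf (nat_lit 0) (nat_lit 1718094577) (nat_lit 152) (nat_lit 10124229220) (nat_lit 152) (nat_lit 689961917) (nat_lit 9) (nat_lit 4) (nat_lit 11) (nat_lit 5) (nat_lit 11) (nat_lit 4) (nat_lit 263) (nat_lit 235) (nat_lit 222)))) (XT.nd (nat_lit 156) (nat_lit 76) (nat_lit 0) (XT.nd (nat_lit 78) (nat_lit 0) (nat_lit 0) (XT.lf (nat_lit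 0) (nat_lit 1575619965) (nat_lit 228) (nat_lit 6563365871) (nat_lit 76) (nat_lit 5101046420) (nat_lit 8) (nat_lit 5) (nat_lit 11) (nat_lit 5) (nat_lit 9) (nat_lit 4) (nat_lit 264) (nat_lit 235) (nat_lit 221)) (XT.lf (nat_lit 0) (nat_lit 3880225860) (nat_lit 228) (nat_lit 2146070885) (nat_lit 76) (nat_lit 7985836833) (nat_lit 8) (nat_lit 5) (nat_lit 11) (nat_lit 5) (nat_lit 9) (nat_lit 4) (nat_lit 265) (nat_lit 235) (nat_lit 220))) (XT.nd (nat_lit 78) (nat_lit 0) (nat_lit 0) (XT.lf (nat_lit 0) (nat_lit 2611080818) (nat_lit 76) (nat_lit 3723743117) (nat_lit 152) (nat_lit 8514644927) (nat_lit 7) (nat_lit 5) (nat_lit 8) (nat_lit 5) (nat_lit 9) (nat_lit 4) (nat_lit 266) (nat_lit 235) (nat_lit 219)) (XT.lf (nat_lit 0) (nat_lit 7730359102) (nat_lit 76) (nat_lit 1220754380) (nat_lit 152) (nat_lit 6806114326) (nat_lit 7) (nat_lit 5) (nat_lit 8) (nat_lit 5) (nat_lit 9) (nat_lit 4) (nat_lit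 267) (nat_lit 235) (nat_lit 218)))))) (XT.nd (nat_lit 546) (nat_lit 76) (nat_lit 0) (XT.nd (nat_lit 234) (nat_lit 152) (nat_lit 0) (XT.nd (nat_lit 78) (nat_lit 76) (nat_lit 0) (XT.lf (nat_lit 0) (nat_lit 11724871299) (nat_lit 152) (nat_lit 3650647831) (nat_lit 0) (nat_lit 1366848774) (nat_lit 7) (nat_lit 5) (nat_lit 9) (nat_lit 4) (nat_lit 7) (nat_lit 4) (nat_lit 268) (nat_lit 235) (nat_lit 217)) (XT.nd (nat_lit 78) (nat_lit 0) (nat_lit 0) (XT.lf (nat_lit 0) (nat_lit 965826932) (nat_lit 76) (nat_lit 13728631080) (nat_lit 76) (nat_lit 3114515120) (nat_lit 6) (nat_lit 4) (nat_lit 7) (nat_lit 5) (nat_lit 7) (nat_lit 4) (nat_lit 269) (nat_lit 235) (nat_lit 216)) (XT.lf (nat_lit 0) (nat_lit 6035986081) (nat_lit 76) (nat_lit 11887469400) (nat_lit 76) (nat_lit 1036229888) (nat_lit 6) (nat_lit 4) (nat_lit 7) (nat_lit 5) (nat_lit 7) (nat_lit 4) (nat_lit 270) (nat_lit 235) (nat_lit 215))))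 (XT.nd (nat_lit 156) (nat_lit 76) (nat_lit 0) (XT.nd (nat_lit 78) (nat_lit 0) (nat_lit 0) (XT.lf (nat_lit 0) (nat_lit 1073339514) (nat_lit 152) (nat_lit 8838252167) (nat_lit 76) (nat_lit 10294951838) (nat_lit 5) (nat_lit 5) (nat_lit 7) (nat_lit 5) (nat_lit 6) (nat_lit 4) (nat_lit 271) (nat_lit 235) (nat_lit 214)) (XT.lf (nat_lit 0) (nat_lit 3226678474) (nat_lit 152) (nat_lit 4562602355) (nat_lit 76) (nat_lit 13767654932) (nat_lit 5) (nat_lit 5) (nat_lit 7) (nat_lit 5) (nat_lit 6) (nat_lit 4) (nat_lit 272) (nat_lit 235) (nat_lit 213))) (XT.nd (nat_lit 78) (nat_lit 76) (nat_lit 0) (XT.lf (nat_lit 0) (nat_lit 5488383935) (nat_lit 152) (nat_lit 46491318) (nat_lit 76) (nat_lit 17485982879) (nat_lit 5) (nat_lit 5) (nat_lit 7) (nat_lit 5) (nat_lit 6) (nat_lit 4) (nat_lit 273) (nat_lit 235) (nat_lit 212)) (XT.lf (nat_lit 0) (nat_lit 4986276847) (nat_lit 76) (nat_lit 3005501825) (nat_lit 152)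 (nat_lit 16605613444) (nat_lit 4) (nat_lit 5) (nat_lit 5) (nat_lit 5) (nat_lit 6) (nat_lit 4) (nat_lit 274) (nat_lit 235) (nat_lit 211))))) (XT.nd (nat_lit 234) (nat_lit 76) (nat_lit 0) (XT.nd (nat_lit 78) (nat_lit 0) (nat_lit 0) (XT.lf (nat_lit 0) (nat_lit 10332626358) (nat_lit 76) (nat_lit 307100303) (nat_lit 152) (nat_lit 15665111158) (nat_lit 4) (nat_lit 5) (nat_lit 5) (nat_lit 5) (nat_lit 6) (nat_lit 4) (nat_lit 275) (nat_lit 235) (nat_lit 210)) (XT.nd (nat_lit 78) (nat_lit 0) (nat_lit 0) (XT.lf (nat_lit 0) (nat_lit 13508672430) (nat_lit 152) (nat_lit 12193546443) (nat_lit 0) (nat_lit 2446234321) (nat_lit 4) (nat_lit 5) (nat_lit 6) (nat_lit 4) (nat_lit 4) (nat_lit 4) (nat_lit 276) (nat_lit 235) (nat_lit 209)) (XT.lf (nat_lit 0) (nat_lit 16565535826) (nat_lit 152) (nat_lit 8202646812) (nat_lit 0) (nat_lit 5374987240) (nat_lit 4) (nat_lit 5) (nat_lit 6) (nat_lit 4) (nat_lit 4)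 (nat_lit 4) (nat_lit 277) (nat_lit 235) (nat_lit 208)))) (XT.nd (nat_lit 156) (nat_lit 0) (nat_lit 0) (XT.nd (nat_lit 78) (nat_lit 76) (nat_lit 0) (XT.lf (nat_lit 0) (nat_lit 19821045824) (nat_lit 152) (nat_lit 3968477022) (nat_lit 0) (nat_lit 8511876426) (nat_lit 4) (nat_lit 5) (nat_lit 6) (nat_lit 4) (nat_lit 4) (nat_lit 4) (nat_lit 278) (nat_lit 235) (nat_lit 207)) (XT.lf (nat_lit 0) (nat_lit 562176655) (nat_lit 76) (nat_lit 22745838043) (nat_lit 76) (nat_lit 11326834560) (nat_lit 3) (nat_lit 4) (nat_lit 4) (nat_lit 5) (nat_lit 4) (nat_lit 4) (nat_lit 279) (nat_lit 235) (nat_lit 206))) (XT.nd (nat_lit 78) (nat_lit 0) (nat_lit 0) (XT.lf (nat_lit 0) (nat_lit 5612382954) (nat_lit 76) (nat_lit 21529059752) (nat_lit 76) (nat_lit 10008358042) (nat_lit 3) (nat_lit 4) (nat_lit 4) (nat_lit 5) (nat_lit 4) (nat_lit 4) (nat_lit 280) (nat_lit 235) (nat_lit 205)) (XT.lf (nat_lit 0) (nat_lit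 11003096056) (nat_lit 76) (nat_lit 20240482629) (nat_lit 76) (nat_lit 8625615894) (nat_lit 3) (nat_lit 4) (nat_lit 4) (nat_lit 5) (nat_lit 4) (nat_lit 4) (nat_lit 281) (nat_lit 235) (nat_lit 204))))))) (XT.nd (nat_lit 1014) (nat_lit 0) (nat_lit 0) (XT.nd (nat_lit 468) (nat_lit 76) (nat_lit 0) (XT.nd (nat_lit 234) (nat_lit 76) (nat_lit 0) (XT.nd (nat_lit 78) (nat_lit 0) (nat_lit 0) (XT.lf (nat_lit 0) (nat_lit 16766260927) (nat_lit 76) (nat_lit 18872470661) (nat_lit 76) (nat_lit 7170414089) (nat_lit 3) (nat_lit 4) (nat_lit 4) (nat_lit 5) (nat_lit 4) (nat_lit 4) (nat_lit 282) (nat_lit 235) (nat_lit 203)) (XT.nd (nat_lit 78) (nat_lit 0) (nat_lit 0) (XT.lf (nat_lit 0) (nat_lit 22936029656) (nat_lit 76) (nat_lit 17416917113) (nat_lit 76) (nat_lit 5634129209) (nat_lit 3) (nat_lit 4) (nat_lit 4) (nat_lit 5) (nat_lit 4) (nat_lit 4) (nat_lit 283) (nat_lit 235) (nat_lit 202)) (XT.lf (nat_lit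 0) (nat_lit 29548963834) (nat_lit 76) (nat_lit 15865196479) (nat_lit 76) (nat_lit 4007657343) (nat_lit 3) (nat_lit 4) (nat_lit 4) (nat_lit 5) (nat_lit 4) (nat_lit 4) (nat_lit 284) (nat_lit 235) (nat_lit 201)))) (XT.nd (nat_lit 78) (nat_lit 76) (nat_lit 0) (XT.lf (nat_lit 0) (nat_lit 36644251221) (nat_lit 76) (nat_lit 14208113380) (nat_lit 76) (nat_lit 2281360139) (nat_lit 3) (nat_lit 4) (nat_lit 4) (nat_lit 5) (nat_lit 4) (nat_lit 4) (nat_lit 285) (nat_lit 235) (nat_lit 200)) (XT.nd (nat_lit 78) (nat_lit 76) (nat_lit 0) (XT.lf (nat_lit 0) (nat_lit 44263937962) (nat_lit 76) (nat_lit 12435848064) (nat_lit 76) (nat_lit 445007689) (nat_lit 3) (nat_lit 4) (nat_lit 4) (nat_lit 5) (nat_lit 4) (nat_lit 4) (nat_lit 286) (nat_lit 235) (nat_lit 199)) (XT.lf (nat_lit 0) (nat_lit 1436631620) (nat_lit 152) (nat_lit 9061986542) (nat_lit 76) (nat_lit 50977266083) (nat_lit 2) (nat_lit 5) (nat_lit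 4) (nat_lit 5) (nat_lit 3) (nat_lit 4) (nat_lit 287) (nat_lit 235) (nat_lit 198))))) (XT.nd (nat_lit 234) (nat_lit 0) (nat_lit 0) (XT.nd (nat_lit 78) (nat_lit 76) (nat_lit 0) (XT.lf (nat_lit 0) (nat_lit 3421915941) (nat_lit 152) (nat_lit 4987539542) (nat_lit 76) (nat_lit 57745022250) (nat_lit 2) (nat_lit 5) (nat_lit 4) (nat_lit 5) (nat_lit 3) (nat_lit 4) (nat_lit 288) (nat_lit 235) (nat_lit 197)) (XT.nd (nat_lit 78) (nat_lit 76) (nat_lit 0) (XT.lf (nat_lit 0) (nat_lit 5544871008) (nat_lit 152) (nat_lit 622667436) (nat_lit 76) (nat_lit 65041616927) (nat_lit 2) (nat_lit 5) (nat_lit 4) (nat_lit 5) (nat_lit 3) (nat_lit 4) (nat_lit 289) (nat_lit 235) (nat_lit 196)) (XT.lf (nat_lit 0) (nat_lit 4272208873) (nat_lit 76) (nat_lit 3648615147) (nat_lit 152) (nat_lit 68740827049) (nat_lit 1) (nat_lit 5) (nat_lit 2) (nat_lit 5) (nat_lit 3) (nat_lit 4) (nat_lit 290) (nat_lit 235) (nat_lit 195))))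 (XT.nd (nat_lit 156) (nat_lit 0) (nat_lit 0) (XT.nd (nat_lit 78) (nat_lit 0) (nat_lit 0) (XT.lf (nat_lit 0) (nat_lit 9562021062) (nat_lit 76) (nat_lit 922951427) (nat_lit 152) (nat_lit 72065613998) (nat_lit 1) (nat_lit 5) (nat_lit 2) (nat_lit 5) (nat_lit 3) (nat_lit 4) (nat_lit 291) (nat_lit 235) (nat_lit 194)) (XT.lf (nat_lit 0) (nat_lit 13285054033) (nat_lit 152) (nat_lit 73715098916) (nat_lit 0) (nat_lit 1908102661) (nat_lit 1) (nat_lit 5) (nat_lit 3) (nat_lit 4) (nat_lit 1) (nat_lit 4) (nat_lit 292) (nat_lit 235) (nat_lit 193))) (XT.nd (nat_lit 78) (nat_lit 0) (nat_lit 0) (XT.lf (nat_lit 0) (nat_lit 16316634993) (nat_lit 152) (nat_lit 74552321318) (nat_lit 0) (nat_lit 4905059337) (nat_lit 1) (nat_lit 5) (nat_lit 3) (nat_lit 4) (nat_lit 1) (nat_lit 4) (nat_lit 293) (nat_lit 235) (nat_lit 192)) (XT.lf (nat_lit 0) (nat_lit 19575483292) (nat_lit 152) (nat_lit 75482996946) (nat_lit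 0) (nat_lit 8131848113) (nat_lit 1) (nat_lit 5) (nat_lit 3) (nat_lit 4) (nat_lit 1) (nat_lit 4) (nat_lit 294) (nat_lit 235) (nat_lit 191)))))) (XT.nd (nat_lit 546) (nat_lit 0) (nat_lit 0) (XT.nd (nat_lit 234) (nat_lit 0) (nat_lit 0) (XT.nd (nat_lit 78) (nat_lit 0) (nat_lit 0) (XT.lf (nat_lit 0) (nat_lit 23080910622) (nat_lit 152) (nat_lit 76512640915) (nat_lit 0) (nat_lit 11607590700) (nat_lit 1) (nat_lit 5) (nat_lit 3) (nat_lit 4) (nat_lit 1) (nat_lit 4) (nat_lit 295) (nat_lit 235) (nat_lit 190)) (XT.nd (nat_lit 78) (nat_lit 0) (nat_lit 0) (XT.lf (nat_lit 0) (nat_lit 26853689887) (nat_lit 152) (nat_lit 77647354820) (nat_lit 0) (nat_lit 15352884092) (nat_lit 1) (nat_lit 5) (nat_lit 3) (nat_lit 4) (nat_lit 1) (nat_lit 4) (nat_lit 296) (nat_lit 235) (nat_lit 189)) (XT.lf (nat_lit 0) (nat_lit 30916178296) (nat_lit 152) (nat_lit 78893862889) (nat_lit 0) (nat_lit 19389922618) (nat_lit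 1) (nat_lit 5) (nat_lit 3) (nat_lit 4) (nat_lit 1) (nat_lit 4) (nat_lit 297) (nat_lit 235) (nat_lit 188)))) (XT.nd (nat_lit 156) (nat_lit 0) (nat_lit 0) (XT.nd (nat_lit 78) (nat_lit 0) (nat_lit 0) (XT.lf (nat_lit 0) (nat_lit 35292449855) (nat_lit 152) (nat_lit 80259551838) (nat_lit 0) (nat_lit 23742629471) (nat_lit 1) (nat_lit 5) (nat_lit 3) (nat_lit 4) (nat_lit 1) (nat_lit 4) (nat_lit 298) (nat_lit 235) (nat_lit 187)) (XT.lf (nat_lit 0) (nat_lit 40008438025) (nat_lit 152) (nat_lit 81752514639) (nat_lit 0) (nat_lit 28436798469) (nat_lit 1) (nat_lit 5) (nat_lit 3) (nat_lit 4) (nat_lit 1) (nat_lit 4) (nat_lit 299) (nat_lit 235) (nat_lit 186))) (XT.nd (nat_lit 78) (nat_lit 0) (nat_lit 0) (XT.lf (nat_lit 0) (nat_lit 45092089403) (nat_lit 152) (nat_lit 83381598478) (nat_lit 0) (nat_lit 33500246910) (nat_lit 1) (nat_lit 5) (nat_lit 3) (nat_lit 4) (nat_lit 1) (nat_lit 4) (nat_lit 300) (nat_lit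 235) (nat_lit 185)) (XT.lf (nat_lit 0) (nat_lit 50573529330) (nat_lit 152) (nat_lit 85156457186) (nat_lit 0) (nat_lit 38962980414) (nat_lit 1) (nat_lit 5) (nat_lit 3) (nat_lit 4) (nat_lit 1) (nat_lit 4) (nat_lit 301) (nat_lit 235) (nat_lit 184))))) (XT.nd (nat_lit 234) (nat_lit 0) (nat_lit 0) (XT.nd (nat_lit 78) (nat_lit 0) (nat_lit 0) (XT.lf (nat_lit 0) (nat_lit 56485240414) (nat_lit 152) (nat_lit 87087608443) (nat_lit 0) (nat_lit 44857370735) (nat_lit 1) (nat_lit 5) (nat_lit 3) (nat_lit 4) (nat_lit 1) (nat_lit 4) (nat_lit 302) (nat_lit 235) (nat_lit 183)) (XT.nd (nat_lit 78) (nat_lit 0) (nat_lit 0) (XT.lf (nat_lit 0) (nat_lit 62862255015) (nat_lit 152) (nat_lit 89186496109) (nat_lit 0) (nat_lit 51218347593) (nat_lit 1) (nat_lit 5) (nat_lit 3) (nat_lit 4) (nat_lit 1) (nat_lit 4) (nat_lit 303) (nat_lit 235) (nat_lit 182)) (XT.lf (nat_lit 0) (nat_lit 69742362851) (nat_lit 152) (nat_lit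 91465558037) (nat_lit 0) (nat_lit 58083605667) (nat_lit 1) (nat_lit 5) (nat_lit 3) (nat_lit 4) (nat_lit 1) (nat_lit 4) (nat_lit 304) (nat_lit 235) (nat_lit 181)))) (XT.nd (nat_lit 156) (nat_lit 0) (nat_lit 0) (XT.nd (nat_lit 78) (nat_lit 0) (nat_lit 0) (XT.lf (nat_lit 0) (nat_lit 77166334931) (nat_lit 152) (nat_lit 93938299780) (nat_lit 0) (nat_lit 65493827967) (nat_lit 1) (nat_lit 5) (nat_lit 3) (nat_lit 4) (nat_lit 1) (nat_lit 4) (nat_lit 305) (nat_lit 235) (nat_lit 180)) (XT.lf (nat_lit 0) (nat_lit 85178165162) (nat_lit 152) (nat_lit 96619374621) (nat_lit 0) (nat_lit 73492926921) (nat_lit 1) (nat_lit 5) (nat_lit 3) (nat_lit 4) (nat_lit 1) (nat_lit 4) (nat_lit 306) (nat_lit 235) (nat_lit 179))) (XT.nd (nat_lit 78) (nat_lit 0) (nat_lit 0) (XT.lf (nat_lit 0) (nat_lit 93825331059) (nat_lit 152) (nat_lit 99524670411) (nat_lit 0) (nat_lit 82128304598) (nat_lit 1) (nat_lit 5) (nat_lit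 3) (nat_lit 4) (nat_lit 1) (nat_lit 4) (nat_lit 307) (nat_lit 235) (nat_lit 178)) (XT.lf (nat_lit 0) (nat_lit 103159075085) (nat_lit 152) (nat_lit 102671403718) (nat_lit 0) (nat_lit 91451133606) (nat_lit 1) (nat_lit 5) (nat_lit 3) (nat_lit 4) (nat_lit 1) (nat_lit 4) (nat_lit 308) (nat_lit 235) (nat_lit 177))))))))
noncomputable def xc44 : XT := (XT.nd (nat_lit 2028) (nat_lit 0) (nat_lit 0) (XT.nd (nat_lit 1014) (nat_lit 0) (nat_lit 0) (XT.nd (nat_lit 468) (nat_lit 0) (nat_lit 0) (XT.nd (nat_lit 234) (nat_lit 0) (nat_lit 0) (XT.nd (nat_lit 78) (nat_lit 0) (nat_lit 0) (XT.lf (nat_lit 0) (nat_lit 113234708317) (nat_lit 152) (nat_lit 106078221850) (nat_lit 0) (nat_lit 101516660339) (nat_lit 1) (nat_lit 5) (nat_lit 3) (nat_lit 4) (nat_lit 1) (nat_lit 4) (nat_lit 309) (nat_lit 235) (nat_lit 176)) (XT.nd (nat_lit 78) (nat_lit 0) (nat_lit 0) (XT.lf (nat_lit 0) (nat_lit 124111938209) (nat_lit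 152) (nat_lit 109765313360) (nat_lit 0) (nat_lit 112384532362) (nat_lit 1) (nat_lit 5) (nat_lit 3) (nat_lit 4) (nat_lit 1) (nat_lit 4) (nat_lit 310) (nat_lit 235) (nat_lit 175)) (XT.lf (nat_lit 0) (nat_lit 135855222421) (nat_lit 152) (nat_lit 113754527679) (nat_lit 0) (nat_lit 124119151881) (nat_lit 1) (nat_lit 5) (nat_lit 3) (nat_lit 4) (nat_lit 1) (nat_lit 4) (nat_lit 311) (nat_lit 235) (nat_lit 174)))) (XT.nd (nat_lit 78) (nat_lit 0) (nat_lit 0) (XT.lf (nat_lit 0) (nat_lit 148534150786) (nat_lit 152) (nat_lit 118069504595) (nat_lit 0) (nat_lit 136790057381) (nat_lit 1) (nat_lit 5) (nat_lit 3) (nat_lit 4) (nat_lit 1) (nat_lit 4) (nat_lit 312) (nat_lit 235) (nat_lit 173)) (XT.nd (nat_lit 78) (nat_lit 0) (nat_lit 0) (XT.lf (nat_lit 0) (nat_lit 162223857693) (nat_lit 152) (nat_lit 122735814341) (nat_lit 0) (nat_lit 150472335710) (nat_lit 1) (nat_lit 5) (nat_lit 3) (nat_lit 4) (nat_lit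 1) (nat_lit 4) (nat_lit 313) (nat_lit 235) (nat_lit 172)) (XT.lf (nat_lit 0) (nat_lit 177005467332) (nat_lit 152) (nat_lit 127781109124) (nat_lit 0) (nat_lit 165247067036) (nat_lit 1) (nat_lit 5) (nat_lit 3) (nat_lit 4) (nat_lit 1) (nat_lit 4) (nat_lit 314) (nat_lit 235) (nat_lit 171))))) (XT.nd (nat_lit 234) (nat_lit 0) (nat_lit 0) (XT.nd (nat_lit 78) (nat_lit 0) (nat_lit 0) (XT.lf (nat_lit 0) (nat_lit 192966574427) (nat_lit 152) (nat_lit 133235286987) (nat_lit 0) (nat_lit 181201805322) (nat_lit 1) (nat_lit 5) (nat_lit 3) (nat_lit 4) (nat_lit 1) (nat_lit 4) (nat_lit 315) (nat_lit 235) (nat_lit 170)) (XT.nd (nat_lit 78) (nat_lit 0) (nat_lit 0) (XT.lf (nat_lit 0) (nat_lit 210201763315) (nat_lit 152) (nat_lit 139130668984) (nat_lit 0) (nat_lit 198431097166) (nat_lit 1) (nat_lit 5) (nat_lit 3) (nat_lit 4) (nat_lit 1) (nat_lit 4) (nat_lit 316) (nat_lit 235) (nat_lit 169)) (XT.lf (nat_lit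 0) (nat_lit 228813168450) (nat_lit 152) (nat_lit 145502190711) (nat_lit 0) (nat_lit 217037042074) (nat_lit 1) (nat_lit 5) (nat_lit 3) (nat_lit 4) (nat_lit 1) (nat_lit 4) (nat_lit 317) (nat_lit 235) (nat_lit 168)))) (XT.nd (nat_lit 156) (nat_lit 0) (nat_lit 0) (XT.nd (nat_lit 78) (nat_lit 0) (nat_lit 0) (XT.lf (nat_lit 0) (nat_lit 248911079639) (nat_lit 152) (nat_lit 152387609335) (nat_lit 0) (nat_lit 237129897498) (nat_lit 1) (nat_lit 5) (nat_lit 3) (nat_lit 4) (nat_lit 1) (nat_lit 4) (nat_lit 318) (nat_lit 235) (nat_lit 167)) (XT.lf (nat_lit 0) (nat_lit 270614595616) (nat_lit 152) (nat_lit 159827727336) (nat_lit 0) (nat_lit 258828732210) (nat_lit 1) (nat_lit 5) (nat_lit 3) (nat_lit 4) (nat_lit 1) (nat_lit 4) (nat_lit 319) (nat_lit 235) (nat_lit 166))) (XT.nd (nat_lit 78) (nat_lit 0) (nat_lit 0) (XT.lf (nat_lit 0) (nat_lit 294052329809) (nat_lit 152) (nat_lit 167866634303) (nat_lit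 0) (nat_lit 282262131899) (nat_lit 1) (nat_lit 5) (nat_lit 3) (nat_lit 4) (nat_lit 1) (nat_lit 4) (nat_lit 320) (nat_lit 235) (nat_lit 165)) (XT.lf (nat_lit 0) (nat_lit 319363172494) (nat_lit 152) (nat_lit 176551968202) (nat_lit 0) (nat_lit 307568961155) (nat_lit 1) (nat_lit 5) (nat_lit 3) (nat_lit 4) (nat_lit 1) (nat_lit 4) (nat_lit 321) (nat_lit 235) (nat_lit 164)))))) (XT.nd (nat_lit 468) (nat_lit 0) (nat_lit 0) (XT.nd (nat_lit 234) (nat_lit 0) (nat_lit 0) (XT.nd (nat_lit 78) (nat_lit 0) (nat_lit 0) (XT.lf (nat_lit 0) (nat_lit 346697113850) (nat_lit 152) (nat_lit 185935197679) (nat_lit 0) (nat_lit 334899186372) (nat_lit 1) (nat_lit 5) (nat_lit 3) (nat_lit 4) (nat_lit 1) (nat_lit 4) (nat_lit 322) (nat_lit 235) (nat_lit 163)) (XT.nd (nat_lit 78) (nat_lit 0) (nat_lit 0) (XT.lf (nat_lit 0) (nat_lit 376216132789) (nat_lit 152) (nat_lit 196071927057) (nat_lit 0) (nat_lit 364414764442)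 (nat_lit 1) (nat_lit 5) (nat_lit 3) (nat_lit 4) (nat_lit 1) (nat_lit 4) (nat_lit 323) (nat_lit 235) (nat_lit 162)) (XT.lf (nat_lit 0) (nat_lit 408095156831) (nat_lit 152) (nat_lit 207022225844) (nat_lit 0) (nat_lit 396290602494) (nat_lit 1) (nat_lit 5) (nat_lit 3) (nat_lit 4) (nat_lit 1) (nat_lit 4) (nat_lit 324) (nat_lit 235) (nat_lit 161)))) (XT.nd (nat_lit 78) (nat_lit 0) (nat_lit 0) (XT.lf (nat_lit 0) (nat_lit 442523098711) (nat_lit 152) (nat_lit 218850984698) (nat_lit 0) (nat_lit 430715594383) (nat_lit 1) (nat_lit 5) (nat_lit 3) (nat_lit 4) (nat_lit 1) (nat_lit 4) (nat_lit 325) (nat_lit 235) (nat_lit 160)) (XT.nd (nat_lit 78) (nat_lit 0) (nat_lit 0) (XT.lf (nat_lit 0) (nat_lit 479703975861) (nat_lit 152) (nat_lit 231628299968) (nat_lit 0) (nat_lit 467893740061) (nat_lit 1) (nat_lit 5) (nat_lit 3) (nat_lit 4) (nat_lit 1) (nat_lit 4) (nat_lit 326) (nat_lit 235) (nat_lit 159)) (XT.lf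 (nat_lit 0) (nat_lit 519858119407) (nat_lit 152) (nat_lit 245429889079) (nat_lit 0) (nat_lit 508045354465) (nat_lit 1) (nat_lit 5) (nat_lit 3) (nat_lit 4) (nat_lit 1) (nat_lit 4) (nat_lit 327) (nat_lit 235) (nat_lit 158))))) (XT.nd (nat_lit 234) (nat_lit 0) (nat_lit 0) (XT.nd (nat_lit 78) (nat_lit 0) (nat_lit 0) (XT.lf (nat_lit 0) (nat_lit 563223479827) (nat_lit 152) (nat_lit 260337539225) (nat_lit 0) (nat_lit 551408373088) (nat_lit 1) (nat_lit 5) (nat_lit 3) (nat_lit 4) (nat_lit 1) (nat_lit 4) (nat_lit 328) (nat_lit 235) (nat_lit 157)) (XT.nd (nat_lit 78) (nat_lit 0) (nat_lit 0) (XT.lf (nat_lit 0) (nat_lit 610057037036) (nat_lit 152) (nat_lit 276439592037) (nat_lit 0) (nat_lit 598239761966) (nat_lit 1) (nat_lit 5) (nat_lit 3) (nat_lit 4) (nat_lit 1) (nat_lit 4) (nat_lit 329) (nat_lit 235) (nat_lit 156)) (XT.lf (nat_lit 0) (nat_lit 660636323225) (nat_lit 152) (nat_lit 293831467086)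 (nat_lit 0) (nat_lit 648817040441) (nat_lit 1) (nat_lit 5) (nat_lit 3) (nat_lit 4) (nat_lit 1) (nat_lit 4) (nat_lit 330) (nat_lit 235) (nat_lit 155)))) (XT.nd (nat_lit 156) (nat_lit 0) (nat_lit 0) (XT.nd (nat_lit 78) (nat_lit 0) (nat_lit 0) (XT.lf (nat_lit 0) (nat_lit 715261067497) (nat_lit 152) (nat_lit 312616227336) (nat_lit 0) (nat_lit 703439925719) (nat_lit 1) (nat_lit 5) (nat_lit 3) (nat_lit 4) (nat_lit 1) (nat_lit 4) (nat_lit 331) (nat_lit 235) (nat_lit 154)) (XT.lf (nat_lit 0) (nat_lit 774254972041) (nat_lit 152) (nat_lit 332905189885) (nat_lit 0) (nat_lit 762432108971) (nat_lit 1) (nat_lit 5) (nat_lit 3) (nat_lit 4) (nat_lit 1) (nat_lit 4) (nat_lit 332) (nat_lit 235) (nat_lit 153))) (XT.nd (nat_lit 78) (nat_lit 0) (nat_lit 0) (XT.lf (nat_lit 0) (nat_lit 837967630363) (nat_lit 152) (nat_lit 354818585622) (nat_lit 0) (nat_lit 826143173505) (nat_lit 1) (nat_lit 5) (nat_lit 3)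 (nat_lit 4) (nat_lit 1) (nat_lit 4) (nat_lit 333) (nat_lit 235) (nat_lit 152)) (XT.lf (nat_lit 0) (nat_lit 906776598960) (nat_lit 152) (nat_lit 378486271707) (nat_lit 0) (nat_lit 894950666372) (nat_lit 1) (nat_lit 5) (nat_lit 3) (nat_lit 4) (nat_lit 1) (nat_lit 4) (nat_lit 334) (nat_lit 235) (nat_lit 151))))))) (XT.nd (nat_lit 30966) (nat_lit 0) (nat_lit 532) (XT.nd (nat_lit 468) (nat_lit 0) (nat_lit 0) (XT.nd (nat_lit 234) (nat_lit 0) (nat_lit 0) (XT.nd (nat_lit 78) (nat_lit 0) (nat_lit 0) (XT.lf (nat_lit 0) (nat_lit 981089634680) (nat_lit 152) (nat_lit 404048501095) (nat_lit 0) (nat_lit 969262335676) (nat_lit 1) (nat_lit 5) (nat_lit 3) (nat_lit 4) (nat_lit 1) (nat_lit 4) (nat_lit 335) (nat_lit 235) (nat_lit 150)) (XT.nd (nat_lit 78) (nat_lit 0) (nat_lit 0) (XT.lf (nat_lit 0) (nat_lit 1061347111070) (nat_lit 152) (nat_lit 431656753662) (nat_lit 0) (nat_lit 1049518546866) (nat_lit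 1) (nat_lit 5) (nat_lit 3) (nat_lit 4) (nat_lit 1) (nat_lit 4) (nat_lit 336) (nat_lit 235) (nat_lit 149)) (XT.lf (nat_lit 0) (nat_lit 1148024627990) (nat_lit 152) (nat_lit 461474633870) (nat_lit 0) (nat_lit 1136194892303) (nat_lit 1) (nat_lit 5) (nat_lit 3) (nat_lit 4) (nat_lit 1) (nat_lit 4) (nat_lit 337) (nat_lit 235) (nat_lit 148)))) (XT.nd (nat_lit 78) (nat_lit 0) (nat_lit 0) (XT.lf (nat_lit 0) (nat_lit 1241635829983) (nat_lit 152) (nat_lit 493678840267) (nat_lit 0) (nat_lit 1229805009591) (nat_lit 1) (nat_lit 5) (nat_lit 3) (nat_lit 4) (nat_lit 1) (nat_lit 4) (nat_lit 338) (nat_lit 235) (nat_lit 147)) (XT.nd (nat_lit 78) (nat_lit 0) (nat_lit 0) (XT.lf (nat_lit 0) (nat_lit 1342735450100) (nat_lit 152) (nat_lit 528460212595) (nat_lit 0) (nat_lit 1330903625351) (nat_lit 1) (nat_lit 5) (nat_lit 3) (nat_lit 4) (nat_lit 1) (nat_lit 4) (nat_lit 339) (nat_lit 235) (nat_lit 146)) (XT.lf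 (nat_lit 0) (nat_lit 1451922597200) (nat_lit 152) (nat_lit 566024862690) (nat_lit 0) (nat_lit 1440089842491) (nat_lit 1) (nat_lit 5) (nat_lit 3) (nat_lit 4) (nat_lit 1) (nat_lit 4) (nat_lit 340) (nat_lit 235) (nat_lit 145))))) (XT.nd (nat_lit 234) (nat_lit 0) (nat_lit 0) (XT.nd (nat_lit 78) (nat_lit 0) (nat_lit 0) (XT.lf (nat_lit 0) (nat_lit 1569844306228) (nat_lit 152) (nat_lit 606595395886) (nat_lit 0) (nat_lit 1558010690445) (nat_lit 1) (nat_lit 5) (nat_lit 3) (nat_lit 4) (nat_lit 1) (nat_lit 4) (nat_lit 341) (nat_lit 235) (nat_lit 144)) (XT.nd (nat_lit 78) (nat_lit 0) (nat_lit 0) (XT.lf (nat_lit 0) (nat_lit 1697199372498) (nat_lit 152) (nat_lit 650412230158) (nat_lit 0) (nat_lit 1685364959424) (nat_lit 1) (nat_lit 5) (nat_lit 3) (nat_lit 4) (nat_lit 1) (nat_lit 4) (nat_lit 342) (nat_lit 235) (nat_lit 143)) (XT.lf (nat_lit 0) (nat_lit 1834742492698) (nat_lit 152) (nat_lit 697735020819)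 (nat_lit 0) (nat_lit 1822907341392) (nat_lit 1) (nat_lit 5) (nat_lit 3) (nat_lit 4) (nat_lit 1) (nat_lit 4) (nat_lit 343) (nat_lit 235) (nat_lit 142)))) (XT.nd (nat_lit 30108) (nat_lit 0) (nat_lit 2280) (XT.nd (nat_lit 30030) (nat_lit 0) (nat_lit 2660) (XT.lf (nat_lit 0) (nat_lit 1983288737171) (nat_lit 152) (nat_lit 748844199221) (nat_lit 0) (nat_lit 1971452902316) (nat_lit 1) (nat_lit 5) (nat_lit 3) (nat_lit 4) (nat_lit 1) (nat_lit 4) (nat_lit 344) (nat_lit 235) (nat_lit 141)) (XT.lf (nat_lit 0) (nat_lit 2816624215) (nat_lit 228) (nat_lit 338252688) (nat_lit 228) (nat_lit 338252688) (nat_lit 36) (nat_lit 4) (nat_lit 39) (nat_lit 5) (nat_lit 39) (nat_lit 4) (nat_lit 248) (nat_lit 236) (nat_lit 236))) (XT.nd (nat_lit 78) (nat_lit 0) (nat_lit 0) (XT.lf (nat_lit 0) (nat_lit 1976042713) (nat_lit 380) (nat_lit 4691245657) (nat_lit 0) (nat_lit 472399414) (nat_lit 31) (nat_lit 5) (nat_lit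 36) (nat_lit 4) (nat_lit 31) (nat_lit 4) (nat_lit 249) (nat_lit 236) (nat_lit 235)) (XT.lf (nat_lit 0) (nat_lit 4647696754) (nat_lit 380) (nat_lit 920109944) (nat_lit 0) (nat_lit 1751791141) (nat_lit 31) (nat_lit 5) (nat_lit 36) (nat_lit 4) (nat_lit 31) (nat_lit 4) (nat_lit 250) (nat_lit 236) (nat_lit 234)))))) (XT.nd (nat_lit 546) (nat_lit 608) (nat_lit 0) (XT.nd (nat_lit 234) (nat_lit 456) (nat_lit 0) (XT.nd (nat_lit 78) (nat_lit 304) (nat_lit 0) (XT.lf (nat_lit 0) (nat_lit 3111580765) (nat_lit 380) (nat_lit 4299970028) (nat_lit 380) (nat_lit 114932643) (nat_lit 26) (nat_lit 4) (nat_lit 31) (nat_lit 5) (nat_lit 31) (nat_lit 4) (nat_lit 251) (nat_lit 236) (nat_lit 233)) (XT.nd (nat_lit 78) (nat_lit 228) (nat_lit 0) (XT.lf (nat_lit 0) (nat_lit 2346219327) (nat_lit 456) (nat_lit 498541713) (nat_lit 76) (nat_lit 4915957362) (nat_lit 25) (nat_lit 5) (nat_lit 31) (nat_lit 5) (nat_lit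 26) (nat_lit 4) (nat_lit 252) (nat_lit 236) (nat_lit 232)) (XT.lf (nat_lit 0) (nat_lit 3725172020) (nat_lit 228) (nat_lit 1183035983) (nat_lit 304) (nat_lit 3114703512) (nat_lit 22) (nat_lit 5) (nat_lit 25) (nat_lit 5) (nat_lit 26) (nat_lit 4) (nat_lit 253) (nat_lit 236) (nat_lit 231)))) (XT.nd (nat_lit 156) (nat_lit 152) (nat_lit 0) (XT.nd (nat_lit 78) (nat_lit 304) (nat_lit 0) (XT.lf (nat_lit 0) (nat_lit 7532932308) (nat_lit 304) (nat_lit 204857666) (nat_lit 0) (nat_lit 581770278) (nat_lit 22) (nat_lit 5) (nat_lit 26) (nat_lit 4) (nat_lit 22) (nat_lit 4) (nat_lit 254) (nat_lit 236) (nat_lit 230)) (XT.lf (nat_lit 0) (nat_lit 1612462058) (nat_lit 304) (nat_lit 4474602370) (nat_lit 76) (nat_lit 2553659187) (nat_lit 18) (nat_lit 5) (nat_lit 22) (nat_lit 5) (nat_lit 19) (nat_lit 4) (nat_lit 255) (nat_lit 236) (nat_lit 229))) (XT.nd (nat_lit 78) (nat_lit 152) (nat_lit 0) (XT.lf (nat_lit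 0) (nat_lit 4010222105) (nat_lit 304) (nat_lit 299633160) (nat_lit 76) (nat_lit 4689819807) (nat_lit 18) (nat_lit 5) (nat_lit 22) (nat_lit 5) (nat_lit 19) (nat_lit 4) (nat_lit 256) (nat_lit 236) (nat_lit 228)) (XT.lf (nat_lit 0) (nat_lit 4245455955) (nat_lit 152) (nat_lit 2311537844) (nat_lit 228) (nat_lit 2835318833) (nat_lit 16) (nat_lit 5) (nat_lit 18) (nat_lit 5) (nat_lit 19) (nat_lit 4) (nat_lit 257) (nat_lit 236) (nat_lit 227))))) (XT.nd (nat_lit 234) (nat_lit 380) (nat_lit 0) (XT.nd (nat_lit 78) (nat_lit 228) (nat_lit 0) (XT.lf (nat_lit 0) (nat_lit 8999402160) (nat_lit 152) (nat_lit 177987787) (nat_lit 228) (nat_lit 650811419) (nat_lit 16) (nat_lit 5) (nat_lit 18) (nat_lit 5) (nat_lit 19) (nat_lit 4) (nat_lit 258) (nat_lit 236) (nat_lit 226)) (XT.nd (nat_lit 78) (nat_lit 0) (nat_lit 0) (XT.lf (nat_lit 0) (nat_lit 1635904468) (nat_lit 228) (nat_lit 6536629603) (nat_lit 76) (nat_lit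 2123333782) (nat_lit 13) (nat_lit 5) (nat_lit 16) (nat_lit 5) (nat_lit 14) (nat_lit 4) (nat_lit 259) (nat_lit 236) (nat_lit 225)) (XT.lf (nat_lit 0) (nat_lit 3970651668) (nat_lit 228) (nat_lit 2233241947) (nat_lit 76) (nat_lit 4604817134) (nat_lit 13) (nat_lit 5) (nat_lit 16) (nat_lit 5) (nat_lit 14) (nat_lit 4) (nat_lit 260) (nat_lit 236) (nat_lit 224)))) (XT.nd (nat_lit 156) (nat_lit 228) (nat_lit 0) (XT.nd (nat_lit 78) (nat_lit 0) (nat_lit 0) (XT.lf (nat_lit 0) (nat_lit 2372502069) (nat_lit 152) (nat_lit 4058570743) (nat_lit 228) (nat_lit 4937448403) (nat_lit 11) (nat_lit 5) (nat_lit 13) (nat_lit 5) (nat_lit 14) (nat_lit 4) (nat_lit 261) (nat_lit 236) (nat_lit 223)) (XT.lf (nat_lit 0) (nat_lit 7317180982) (nat_lit 152) (nat_lit 1719031248) (nat_lit 228) (nat_lit 2942047292) (nat_lit 11) (nat_lit 5) (nat_lit 13) (nat_lit 5) (nat_lit 14) (nat_lit 4) (nat_lit 262) (nat_lit 236) (nat_lit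 222))) (XT.nd (nat_lit 78) (nat_lit 228) (nat_lit 0) (XT.lf (nat_lit 0) (nat_lit 11763429084) (nat_lit 228) (nat_lit 152022995) (nat_lit 0) (nat_lit 729133154) (nat_lit 11) (nat_lit 5) (nat_lit 14) (nat_lit 4) (nat_lit 11) (nat_lit 4) (nat_lit 263) (nat_lit 236) (nat_lit 221)) (XT.lf (nat_lit 0) (nat_lit 1339586261) (nat_lit 228) (nat_lit 8624241781) (nat_lit 76) (nat_lit 3393595533) (nat_lit 8) (nat_lit 5) (nat_lit 11) (nat_lit 5) (nat_lit 9) (nat_lit 4) (nat_lit 264) (nat_lit 236) (nat_lit 220))))))))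
noncomputable def xc45 : XT := (XT.nd (nat_lit 2106) (nat_lit 0) (nat_lit 0) (XT.nd (nat_lit 1014) (nat_lit 228) (nat_lit 0) (XT.nd (nat_lit 468) (nat_lit 152) (nat_lit 0) (XT.nd (nat_lit 234) (nat_lit 76) (nat_lit 0) (XT.nd (nat_lit 78) (nat_lit 76) (nat_lit 0) (XT.lf (nat_lit 0) (nat_lit 3597474441) (nat_lit 228) (nat_lit 4276246659) (nat_lit 76) (nat_lit 6259885326) (nat_lit 8) (nat_lit 5) (nat_lit 11) (nat_lit 5) (nat_lit 9) (nat_lit 4) (nat_lit 265) (nat_lit 236) (nat_lit 219)) (XT.nd (nat_lit 78) (nat_lit 0) (nat_lit 0) (XT.lf (nat_lit 0) (nat_lit 301188326) (nat_lit 76) (nat_lit 5652074077) (nat_lit 152) (nat_lit 9025902737) (nat_lit 7) (nat_lit 5) (nat_lit 8) (nat_lit 5) (nat_lit 9) (nat_lit 4) (nat_lit 266) (nat_lit 236) (nat_lit 218)) (XT.lf (nat_lit 0) (nat_lit 5357924539) (nat_lit 76) (nat_lit 3170070362) (nat_lit 152) (nat_lit 7362548769) (nat_lit 7) (nat_lit 5) (nat_lit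 8) (nat_lit 5) (nat_lit 9) (nat_lit 4) (nat_lit 267) (nat_lit 236) (nat_lit 217)))) (XT.nd (nat_lit 78) (nat_lit 76) (nat_lit 0) (XT.lf (nat_lit 0) (nat_lit 10698748252) (nat_lit 76) (nat_lit 529921949) (nat_lit 152) (nat_lit 5653133332) (nat_lit 7) (nat_lit 5) (nat_lit 8) (nat_lit 5) (nat_lit 9) (nat_lit 4) (nat_lit 268) (nat_lit 236) (nat_lit 216)) (XT.nd (nat_lit 78) (nat_lit 76) (nat_lit 0) (XT.lf (nat_lit 0) (nat_lit 14126222956) (nat_lit 152) (nat_lit 1658440721) (nat_lit 0) (nat_lit 2169760731) (nat_lit 7) (nat_lit 5) (nat_lit 9) (nat_lit 4) (nat_lit 7) (nat_lit 4) (nat_lit 269) (nat_lit 236) (nat_lit 215)) (XT.lf (nat_lit 0) (nat_lit 3269522683) (nat_lit 76) (nat_lit 14009002427) (nat_lit 76) (nat_lit 1832981357) (nat_lit 6) (nat_lit 4) (nat_lit 7) (nat_lit 5) (nat_lit 7) (nat_lit 4) (nat_lit 270) (nat_lit 236) (nat_lit 214))))) (XT.nd (nat_lit 234) (nat_lit 76) (nat_lit 0)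 (XT.nd (nat_lit 78) (nat_lit 0) (nat_lit 0) (XT.lf (nat_lit 0) (nat_lit 283265613) (nat_lit 152) (nat_lit 11790123818) (nat_lit 76) (nat_lit 8289363255) (nat_lit 5) (nat_lit 5) (nat_lit 7) (nat_lit 5) (nat_lit 6) (nat_lit 4) (nat_lit 271) (nat_lit 236) (nat_lit 213)) (XT.nd (nat_lit 78) (nat_lit 0) (nat_lit 0) (XT.lf (nat_lit 0) (nat_lit 2405883124) (nat_lit 152) (nat_lit 7563315717) (nat_lit 76) (nat_lit 11746589717) (nat_lit 5) (nat_lit 5) (nat_lit 7) (nat_lit 5) (nat_lit 6) (nat_lit 4) (nat_lit 272) (nat_lit 236) (nat_lit 212)) (XT.lf (nat_lit 0) (nat_lit 4639142797) (nat_lit 152) (nat_lit 3092428486) (nat_lit 76) (nat_lit 15450587449) (nat_lit 5) (nat_lit 5) (nat_lit 7) (nat_lit 5) (nat_lit 6) (nat_lit 4) (nat_lit 273) (nat_lit 236) (nat_lit 211)))) (XT.nd (nat_lit 156) (nat_lit 0) (nat_lit 0) (XT.nd (nat_lit 78) (nat_lit 0) (nat_lit 0) (XT.lf (nat_lit 0) (nat_lit 1735867126)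 (nat_lit 76) (nat_lit 5302159285) (nat_lit 152) (nat_lit 17729186586) (nat_lit 4) (nat_lit 5) (nat_lit 5) (nat_lit 5) (nat_lit 6) (nat_lit 4) (nat_lit 274) (nat_lit 236) (nat_lit 210)) (XT.lf (nat_lit 0) (nat_lit 7041402840) (nat_lit 76) (nat_lit 2619202308) (nat_lit 152) (nat_lit 16816230674) (nat_lit 4) (nat_lit 5) (nat_lit 5) (nat_lit 5) (nat_lit 6) (nat_lit 4) (nat_lit 275) (nat_lit 236) (nat_lit 209))) (XT.nd (nat_lit 78) (nat_lit 0) (nat_lit 0) (XT.lf (nat_lit 0) (nat_lit 12450110835) (nat_lit 152) (nat_lit 15640624335) (nat_lit 0) (nat_lit 236207886) (nat_lit 4) (nat_lit 5) (nat_lit 6) (nat_lit 4) (nat_lit 4) (nat_lit 4) (nat_lit 276) (nat_lit 236) (nat_lit 208)) (XT.lf (nat_lit 0) (nat_lit 15484905736) (nat_lit 152) (nat_lit 11686264037) (nat_lit 0) (nat_lit 3152381975) (nat_lit 4) (nat_lit 5) (nat_lit 6) (nat_lit 4) (nat_lit 4) (nat_lit 4) (nat_lit 277) (nat_lit 236) (nat_lit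 207)))))) (XT.nd (nat_lit 546) (nat_lit 152) (nat_lit 0) (XT.nd (nat_lit 234) (nat_lit 0) (nat_lit 0) (XT.nd (nat_lit 78) (nat_lit 76) (nat_lit 0) (XT.lf (nat_lit 0) (nat_lit 18719981943) (nat_lit 152) (nat_lit 7485926962) (nat_lit 0) (nat_lit 6277624097) (nat_lit 4) (nat_lit 5) (nat_lit 6) (nat_lit 4) (nat_lit 4) (nat_lit 4) (nat_lit 278) (nat_lit 236) (nat_lit 206)) (XT.nd (nat_lit 78) (nat_lit 76) (nat_lit 0) (XT.lf (nat_lit 0) (nat_lit 22174510279) (nat_lit 152) (nat_lit 3014722226) (nat_lit 0) (nat_lit 9630454205) (nat_lit 4) (nat_lit 5) (nat_lit 6) (nat_lit 4) (nat_lit 4) (nat_lit 4) (nat_lit 279) (nat_lit 236) (nat_lit 205)) (XT.lf (nat_lit 0) (nat_lit 1846200632) (nat_lit 76) (nat_lit 24067162558) (nat_lit 76) (nat_lit 11428941459) (nat_lit 3) (nat_lit 4) (nat_lit 4) (nat_lit 5) (nat_lit 4) (nat_lit 4) (nat_lit 280) (nat_lit 236) (nat_lit 204)))) (XT.nd (nat_lit 156) (nat_lit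 0) (nat_lit 0) (XT.nd (nat_lit 78) (nat_lit 0) (nat_lit 0) (XT.lf (nat_lit 0) (nat_lit 7208641965) (nat_lit 76) (nat_lit 22789956264) (nat_lit 76) (nat_lit 10064545328) (nat_lit 3) (nat_lit 4) (nat_lit 4) (nat_lit 5) (nat_lit 4) (nat_lit 4) (nat_lit 281) (nat_lit 236) (nat_lit 203)) (XT.lf (nat_lit 0) (nat_lit 12945629273) (nat_lit 76) (nat_lit 21432472843) (nat_lit 76) (nat_lit 8626330576) (nat_lit 3) (nat_lit 4) (nat_lit 4) (nat_lit 5) (nat_lit 4) (nat_lit 4) (nat_lit 282) (nat_lit 236) (nat_lit 202))) (XT.nd (nat_lit 78) (nat_lit 0) (nat_lit 0) (XT.lf (nat_lit 0) (nat_lit 19091159517) (nat_lit 76) (nat_lit 19986667948) (nat_lit 76) (nat_lit 7105774448) (nat_lit 3) (nat_lit 4) (nat_lit 4) (nat_lit 5) (nat_lit 4) (nat_lit 4) (nat_lit 283) (nat_lit 236) (nat_lit 201)) (XT.lf (nat_lit 0) (nat_lit 25681650654) (nat_lit 76) (nat_lit 18443973846) (nat_lit 76) (nat_lit 5493866241) (nat_lit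 3) (nat_lit 4) (nat_lit 4) (nat_lit 5) (nat_lit 4) (nat_lit 4) (nat_lit 284) (nat_lit 236) (nat_lit 200))))) (XT.nd (nat_lit 234) (nat_lit 152) (nat_lit 0) (XT.nd (nat_lit 78) (nat_lit 0) (nat_lit 0) (XT.lf (nat_lit 0) (nat_lit 32756157446) (nat_lit 76) (nat_lit 16795248646) (nat_lit 76) (nat_lit 3781053908) (nat_lit 3) (nat_lit 4) (nat_lit 4) (nat_lit 5) (nat_lit 4) (nat_lit 4) (nat_lit 285) (nat_lit 236) (nat_lit 199)) (XT.nd (nat_lit 78) (nat_lit 0) (nat_lit 0) (XT.lf (nat_lit 0) (nat_lit 40356602897) (nat_lit 76) (nat_lit 15030722125) (nat_lit 76) (nat_lit 1957187448) (nat_lit 3) (nat_lit 4) (nat_lit 4) (nat_lit 5) (nat_lit 4) (nat_lit 4) (nat_lit 286) (nat_lit 236) (nat_lit 198)) (XT.lf (nat_lit 0) (nat_lit 48528026683) (nat_lit 76) (nat_lit 13139937830) (nat_lit 76) (nat_lit 11458765) (nat_lit 3) (nat_lit 4) (nat_lit 4) (nat_lit 5) (nat_lit 4) (nat_lit 4) (nat_lit 287) (nat_lit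 236) (nat_lit 197)))) (XT.nd (nat_lit 156) (nat_lit 76) (nat_lit 0) (XT.nd (nat_lit 78) (nat_lit 0) (nat_lit 0) (XT.lf (nat_lit 0) (nat_lit 1964229538) (nat_lit 152) (nat_lit 9093756057) (nat_lit 76) (nat_lit 55300917002) (nat_lit 2) (nat_lit 5) (nat_lit 4) (nat_lit 5) (nat_lit 3) (nat_lit 4) (nat_lit 288) (nat_lit 236) (nat_lit 196)) (XT.lf (nat_lit 0) (nat_lit 4077768650) (nat_lit 152) (nat_lit 4744700660) (nat_lit 76) (nat_lit 62591910726) (nat_lit 2) (nat_lit 5) (nat_lit 4) (nat_lit 5) (nat_lit 3) (nat_lit 4) (nat_lit 289) (nat_lit 236) (nat_lit 195))) (XT.nd (nat_lit 78) (nat_lit 76) (nat_lit 0) (XT.lf (nat_lit 0) (nat_lit 6342256460) (nat_lit 152) (nat_lit 78182642) (nat_lit 76) (nat_lit 70455396926) (nat_lit 2) (nat_lit 5) (nat_lit 4) (nat_lit 5) (nat_lit 3) (nat_lit 4) (nat_lit 290) (nat_lit 236) (nat_lit 194)) (XT.lf (nat_lit 0) (nat_lit 5193238248) (nat_lit 76) (nat_lit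 3702771411) (nat_lit 152) (nat_lit 73869633295) (nat_lit 1) (nat_lit 5) (nat_lit 2) (nat_lit 5) (nat_lit 3) (nat_lit 4) (nat_lit 291) (nat_lit 236) (nat_lit 193))))))) (XT.nd (nat_lit 1014) (nat_lit 0) (nat_lit 0) (XT.nd (nat_lit 468) (nat_lit 0) (nat_lit 0) (XT.nd (nat_lit 234) (nat_lit 0) (nat_lit 0) (XT.nd (nat_lit 78) (nat_lit 0) (nat_lit 0) (XT.lf (nat_lit 0) (nat_lit 10863327808) (nat_lit 76) (nat_lit 776664442) (nat_lit 152) (nat_lit 77487844676) (nat_lit 1) (nat_lit 5) (nat_lit 2) (nat_lit 5) (nat_lit 3) (nat_lit 4) (nat_lit 292) (nat_lit 236) (nat_lit 192)) (XT.nd (nat_lit 78) (nat_lit 0) (nat_lit 0) (XT.lf (nat_lit 0) (nat_lit 14645558288) (nat_lit 152) (nat_lit 79095781296) (nat_lit 0) (nat_lit 2254372772) (nat_lit 1) (nat_lit 5) (nat_lit 3) (nat_lit 4) (nat_lit 1) (nat_lit 4) (nat_lit 293) (nat_lit 236) (nat_lit 191)) (XT.lf (nat_lit 0) (nat_lit 17897613879) (nat_lit 152)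 (nat_lit 80038242641) (nat_lit 0) (nat_lit 5476743620) (nat_lit 1) (nat_lit 5) (nat_lit 3) (nat_lit 4) (nat_lit 1) (nat_lit 4) (nat_lit 294) (nat_lit 236) (nat_lit 190)))) (XT.nd (nat_lit 78) (nat_lit 0) (nat_lit 0) (XT.lf (nat_lit 0) (nat_lit 21396751664) (nat_lit 152) (nat_lit 81078799311) (nat_lit 0) (nat_lit 8948395533) (nat_lit 1) (nat_lit 5) (nat_lit 3) (nat_lit 4) (nat_lit 1) (nat_lit 4) (nat_lit 295) (nat_lit 236) (nat_lit 189)) (XT.nd (nat_lit 78) (nat_lit 0) (nat_lit 0) (XT.lf (nat_lit 0) (nat_lit 25163707277) (nat_lit 152) (nat_lit 82223617568) (nat_lit 0) (nat_lit 12689901262) (nat_lit 1) (nat_lit 5) (nat_lit 3) (nat_lit 4) (nat_lit 1) (nat_lit 4) (nat_lit 296) (nat_lit 236) (nat_lit 188)) (XT.lf (nat_lit 0) (nat_lit 29220803415) (nat_lit 152) (nat_lit 83479481519) (nat_lit 0) (nat_lit 16723432695) (nat_lit 1) (nat_lit 5) (nat_lit 3) (nat_lit 4) (nat_lit 1) (nat_lit 4)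 (nat_lit 297) (nat_lit 236) (nat_lit 187))))) (XT.nd (nat_lit 234) (nat_lit 0) (nat_lit 0) (XT.nd (nat_lit 78) (nat_lit 0) (nat_lit 0) (XT.lf (nat_lit 0) (nat_lit 33592082131) (nat_lit 152) (nat_lit 84853833322) (nat_lit 0) (nat_lit 21072892239) (nat_lit 1) (nat_lit 5) (nat_lit 3) (nat_lit 4) (nat_lit 1) (nat_lit 4) (nat_lit 298) (nat_lit 236) (nat_lit 186)) (XT.nd (nat_lit 78) (nat_lit 0) (nat_lit 0) (XT.lf (nat_lit 0) (nat_lit 38303447299) (nat_lit 152) (nat_lit 86354817283) (nat_lit 0) (nat_lit 25764054469) (nat_lit 1) (nat_lit 5) (nat_lit 3) (nat_lit 4) (nat_lit 1) (nat_lit 4) (nat_lit 299) (nat_lit 236) (nat_lit 185)) (XT.lf (nat_lit 0) (nat_lit 43382818118) (nat_lit 152) (nat_lit 87991328123) (nat_lit 0) (nat_lit 30824718865) (nat_lit 1) (nat_lit 5) (nat_lit 3) (nat_lit 4) (nat_lit 1) (nat_lit 4) (nat_lit 300) (nat_lit 236) (nat_lit 184)))) (XT.nd (nat_lit 156) (nat_lit 0) (nat_lit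 0) (XT.nd (nat_lit 78) (nat_lit 0) (nat_lit 0) (XT.lf (nat_lit 0) (nat_lit 48860294566) (nat_lit 152) (nat_lit 89773063683) (nat_lit 0) (nat_lit 36284874550) (nat_lit 1) (nat_lit 5) (nat_lit 3) (nat_lit 4) (nat_lit 1) (nat_lit 4) (nat_lit 301) (nat_lit 236) (nat_lit 183)) (XT.lf (nat_lit 0) (nat_lit 54768335760) (nat_lit 152) (nat_lit 91710582396) (nat_lit 0) (nat_lit 42176878002) (nat_lit 1) (nat_lit 5) (nat_lit 3) (nat_lit 4) (nat_lit 1) (nat_lit 4) (nat_lit 302) (nat_lit 236) (nat_lit 182))) (XT.nd (nat_lit 78) (nat_lit 0) (nat_lit 0) (XT.lf (nat_lit 0) (nat_lit 61141952317) (nat_lit 152) (nat_lit 93815365855) (nat_lit 0) (nat_lit 48535644796) (nat_lit 1) (nat_lit 5) (nat_lit 3) (nat_lit 4) (nat_lit 1) (nat_lit 4) (nat_lit 303) (nat_lit 236) (nat_lit 181)) (XT.lf (nat_lit 0) (nat_lit 68018913815) (nat_lit 152) (nat_lit 96099886851) (nat_lit 0) (nat_lit 55398856514) (nat_lit 1)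 (nat_lit 5) (nat_lit 3) (nat_lit 4) (nat_lit 1) (nat_lit 4) (nat_lit 304) (nat_lit 236) (nat_lit 180)))))) (XT.nd (nat_lit 546) (nat_lit 0) (nat_lit 0) (XT.nd (nat_lit 234) (nat_lit 0) (nat_lit 0) (XT.nd (nat_lit 78) (nat_lit 0) (nat_lit 0) (XT.lf (nat_lit 0) (nat_lit 75439972618) (nat_lit 152) (nat_lit 98577683285) (nat_lit 0) (nat_lit 62807184040) (nat_lit 1) (nat_lit 5) (nat_lit 3) (nat_lit 4) (nat_lit 1) (nat_lit 4) (nat_lit 305) (nat_lit 236) (nat_lit 179)) (XT.nd (nat_lit 78) (nat_lit 0) (nat_lit 0) (XT.lf (nat_lit 0) (nat_lit 83449105372) (nat_lit 152) (nat_lit 101263438396) (nat_lit 0) (nat_lit 70804528575) (nat_lit 1) (nat_lit 5) (nat_lit 3) (nat_lit 4) (nat_lit 1) (nat_lit 4) (nat_lit 306) (nat_lit 236) (nat_lit 178)) (XT.lf (nat_lit 0) (nat_lit 92093773605) (nat_lit 152) (nat_lit 104173067769) (nat_lit 0) (nat_lit 79438281788) (nat_lit 1) (nat_lit 5) (nat_lit 3) (nat_lit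 4) (nat_lit 1) (nat_lit 4) (nat_lit 307) (nat_lit 236) (nat_lit 177)))) (XT.nd (nat_lit 156) (nat_lit 0) (nat_lit 0) (XT.nd (nat_lit 78) (nat_lit 0) (nat_lit 0) (XT.lf (nat_lit 0) (nat_lit 101425204978) (nat_lit 152) (nat_lit 107323813654) (nat_lit 0) (nat_lit 88759606663) (nat_lit 1) (nat_lit 5) (nat_lit 3) (nat_lit 4) (nat_lit 1) (nat_lit 4) (nat_lit 308) (nat_lit 236) (nat_lit 176)) (XT.lf (nat_lit 0) (nat_lit 111498696865) (nat_lit 152) (nat_lit 110734347136) (nat_lit 0) (nat_lit 98823740681) (nat_lit 1) (nat_lit 5) (nat_lit 3) (nat_lit 4) (nat_lit 1) (nat_lit 4) (nat_lit 309) (nat_lit 236) (nat_lit 175))) (XT.nd (nat_lit 78) (nat_lit 0) (nat_lit 0) (XT.lf (nat_lit 0) (nat_lit 122373944030) (nat_lit 152) (nat_lit 114424878784) (nat_lit 0) (nat_lit 109690323153) (nat_lit 1) (nat_lit 5) (nat_lit 3) (nat_lit 4) (nat_lit 1) (nat_lit 4) (nat_lit 310) (nat_lit 236) (nat_lit 174)) (XT.lf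 (nat_lit 0) (nat_lit 134115392385) (nat_lit 152) (nat_lit 118417278416) (nat_lit 0) (nat_lit 121423748643) (nat_lit 1) (nat_lit 5) (nat_lit 3) (nat_lit 4) (nat_lit 1) (nat_lit 4) (nat_lit 311) (nat_lit 236) (nat_lit 173))))) (XT.nd (nat_lit 234) (nat_lit 0) (nat_lit 0) (XT.nd (nat_lit 78) (nat_lit 0) (nat_lit 0) (XT.lf (nat_lit 0) (nat_lit 146792620881) (nat_lit 152) (nat_lit 122735204696) (nat_lit 0) (nat_lit 134093548561) (nat_lit 1) (nat_lit 5) (nat_lit 3) (nat_lit 4) (nat_lit 1) (nat_lit 4) (nat_lit 312) (nat_lit 236) (nat_lit 172)) (XT.nd (nat_lit 78) (nat_lit 0) (nat_lit 0) (XT.lf (nat_lit 0) (nat_lit 160480753836) (nat_lit 152) (nat_lit 127404245335) (nat_lit 0) (nat_lit 147774803203) (nat_lit 1) (nat_lit 5) (nat_lit 3) (nat_lit 4) (nat_lit 1) (nat_lit 4) (nat_lit 313) (nat_lit 236) (nat_lit 171)) (XT.lf (nat_lit 0) (nat_lit 175260906112) (nat_lit 152) (nat_lit 132452068723)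 (nat_lit 0) (nat_lit 162548586670) (nat_lit 1) (nat_lit 5) (nat_lit 3) (nat_lit 4) (nat_lit 1) (nat_lit 4) (nat_lit 314) (nat_lit 236) (nat_lit 170)))) (XT.nd (nat_lit 156) (nat_lit 0) (nat_lit 0) (XT.nd (nat_lit 78) (nat_lit 0) (nat_lit 0) (XT.lf (nat_lit 0) (nat_lit 191220663796) (nat_lit 152) (nat_lit 137908587886) (nat_lit 0) (nat_lit 178502447310) (nat_lit 1) (nat_lit 5) (nat_lit 3) (nat_lit 4) (nat_lit 1) (nat_lit 4) (nat_lit 315) (nat_lit 236) (nat_lit 169)) (XT.lf (nat_lit 0) (nat_lit 208454603230) (nat_lit 152) (nat_lit 143806137753) (nat_lit 0) (nat_lit 195730926517) (nat_lit 1) (nat_lit 5) (nat_lit 3) (nat_lit 4) (nat_lit 1) (nat_lit 4) (nat_lit 316) (nat_lit 236) (nat_lit 168))) (XT.nd (nat_lit 78) (nat_lit 0) (nat_lit 0) (XT.lf (nat_lit 0) (nat_lit 227064851462) (nat_lit 152) (nat_lit 150179666768) (nat_lit 0) (nat_lit 214336118984) (nat_lit 1) (nat_lit 5) (nat_lit 3)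 (nat_lit 4) (nat_lit 1) (nat_lit 4) (nat_lit 317) (nat_lit 236) (nat_lit 167)) (XT.lf (nat_lit 0) (nat_lit 247161691446) (nat_lit 152) (nat_lit 157066943992) (nat_lit 0) (nat_lit 234428277704) (nat_lit 1) (nat_lit 5) (nat_lit 3) (nat_lit 4) (nat_lit 1) (nat_lit 4) (nat_lit 318) (nat_lit 236) (nat_lit 166))))))))
noncomputable def xc46 : XT := (XT.nd (nat_lit 31902) (nat_lit 0) (nat_lit 304) (XT.nd (nat_lit 1014) (nat_lit 0) (nat_lit 0) (XT.nd (nat_lit 468) (nat_lit 0) (nat_lit 0) (XT.nd (nat_lit 234) (nat_lit 0) (nat_lit 0) (XT.nd (nat_lit 78) (nat_lit 0) (nat_lit 0) (XT.lf (nat_lit 0) (nat_lit 268864215566) (nat_lit 152) (nat_lit 164508782919) (nat_lit 0) (nat_lit 256126467320) (nat_lit 1) (nat_lit 5) (nat_lit 3) (nat_lit 4) (nat_lit 1) (nat_lit 4) (nat_lit 319) (nat_lit 236) (nat_lit 165)) (XT.nd (nat_lit 78) (nat_lit 0) (nat_lit 0) (XT.lf (nat_lit 0) (nat_lit 292301031373) (nat_lit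 152) (nat_lit 172549283335) (nat_lit 0) (nat_lit 279559269697) (nat_lit 1) (nat_lit 5) (nat_lit 3) (nat_lit 4) (nat_lit 1) (nat_lit 4) (nat_lit 320) (nat_lit 236) (nat_lit 164)) (XT.lf (nat_lit 0) (nat_lit 317611023700) (nat_lit 152) (nat_lit 181236092651) (nat_lit 0) (nat_lit 304865545886) (nat_lit 1) (nat_lit 5) (nat_lit 3) (nat_lit 4) (nat_lit 1) (nat_lit 4) (nat_lit 321) (nat_lit 236) (nat_lit 163)))) (XT.nd (nat_lit 78) (nat_lit 0) (nat_lit 0) (XT.lf (nat_lit 0) (nat_lit 344944177689) (nat_lit 152) (nat_lit 190620688254) (nat_lit 0) (nat_lit 332195259005) (nat_lit 1) (nat_lit 5) (nat_lit 3) (nat_lit 4) (nat_lit 1) (nat_lit 4) (nat_lit 322) (nat_lit 236) (nat_lit 162)) (XT.nd (nat_lit 78) (nat_lit 0) (nat_lit 0) (XT.lf (nat_lit 0) (nat_lit 374462467583) (nat_lit 152) (nat_lit 200758682564) (nat_lit 0) (nat_lit 361710362910) (nat_lit 1) (nat_lit 5) (nat_lit 3) (nat_lit 4) (nat_lit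 1) (nat_lit 4) (nat_lit 323) (nat_lit 236) (nat_lit 161)) (XT.lf (nat_lit 0) (nat_lit 406340816584) (nat_lit 152) (nat_lit 211710152583) (nat_lit 0) (nat_lit 393585761920) (nat_lit 1) (nat_lit 5) (nat_lit 3) (nat_lit 4) (nat_lit 1) (nat_lit 4) (nat_lit 324) (nat_lit 236) (nat_lit 160))))) (XT.nd (nat_lit 234) (nat_lit 0) (nat_lit 0) (XT.nd (nat_lit 78) (nat_lit 0) (nat_lit 0) (XT.lf (nat_lit 0) (nat_lit 440768133425) (nat_lit 152) (nat_lit 223539995913) (nat_lit 0) (nat_lit 428010347289) (nat_lit 1) (nat_lit 5) (nat_lit 3) (nat_lit 4) (nat_lit 1) (nat_lit 4) (nat_lit 325) (nat_lit 236) (nat_lit 159)) (XT.nd (nat_lit 78) (nat_lit 0) (nat_lit 0) (XT.lf (nat_lit 0) (nat_lit 477948431837) (nat_lit 152) (nat_lit 236318315327) (nat_lit 0) (nat_lit 465188116559) (nat_lit 1) (nat_lit 5) (nat_lit 3) (nat_lit 4) (nat_lit 1) (nat_lit 4) (nat_lit 326) (nat_lit 236) (nat_lit 158)) (XT.lf (nat_lit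 0) (nat_lit 518102039513) (nat_lit 152) (nat_lit 250120834200) (nat_lit 0) (nat_lit 505339382437) (nat_lit 1) (nat_lit 5) (nat_lit 3) (nat_lit 4) (nat_lit 1) (nat_lit 4) (nat_lit 327) (nat_lit 236) (nat_lit 157)))) (XT.nd (nat_lit 156) (nat_lit 0) (nat_lit 0) (XT.nd (nat_lit 78) (nat_lit 0) (nat_lit 0) (XT.lf (nat_lit 0) (nat_lit 561466903758) (nat_lit 152) (nat_lit 265029345238) (nat_lit 0) (nat_lit 548702078351) (nat_lit 1) (nat_lit 5) (nat_lit 3) (nat_lit 4) (nat_lit 1) (nat_lit 4) (nat_lit 328) (nat_lit 236) (nat_lit 156)) (XT.lf (nat_lit 0) (nat_lit 608300001546) (nat_lit 152) (nat_lit 281132195171) (nat_lit 0) (nat_lit 595533168425) (nat_lit 1) (nat_lit 5) (nat_lit 3) (nat_lit 4) (nat_lit 1) (nat_lit 4) (nat_lit 329) (nat_lit 236) (nat_lit 155))) (XT.nd (nat_lit 78) (nat_lit 0) (nat_lit 0) (XT.lf (nat_lit 0) (nat_lit 658878862344) (nat_lit 152) (nat_lit 298524808295) (nat_lit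 0) (nat_lit 646110170229) (nat_lit 1) (nat_lit 5) (nat_lit 3) (nat_lit 4) (nat_lit 1) (nat_lit 4) (nat_lit 330) (nat_lit 236) (nat_lit 154)) (XT.lf (nat_lit 0) (nat_lit 713503212736) (nat_lit 152) (nat_lit 317310251949) (nat_lit 0) (nat_lit 700732799329) (nat_lit 1) (nat_lit 5) (nat_lit 3) (nat_lit 4) (nat_lit 1) (nat_lit 4) (nat_lit 331) (nat_lit 236) (nat_lit 153)))))) (XT.nd (nat_lit 546) (nat_lit 0) (nat_lit 0) (XT.nd (nat_lit 234) (nat_lit 0) (nat_lit 0) (XT.nd (nat_lit 78) (nat_lit 0) (nat_lit 0) (XT.lf (nat_lit 0) (nat_lit 772496752575) (nat_lit 152) (nat_lit 337599847279) (nat_lit 0) (nat_lit 759724745381) (nat_lit 1) (nat_lit 5) (nat_lit 3) (nat_lit 4) (nat_lit 1) (nat_lit 4) (nat_lit 332) (nat_lit 236) (nat_lit 152)) (XT.nd (nat_lit 78) (nat_lit 0) (nat_lit 0) (XT.lf (nat_lit 0) (nat_lit 836209073210) (nat_lit 152) (nat_lit 359513828924) (nat_lit 0) (nat_lit 823435590285)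 (nat_lit 1) (nat_lit 5) (nat_lit 3) (nat_lit 4) (nat_lit 1) (nat_lit 4) (nat_lit 333) (nat_lit 236) (nat_lit 151)) (XT.lf (nat_lit 0) (nat_lit 905017729131) (nat_lit 152) (nat_lit 383182057516) (nat_lit 0) (nat_lit 892242879790) (nat_lit 1) (nat_lit 5) (nat_lit 3) (nat_lit 4) (nat_lit 1) (nat_lit 4) (nat_lit 334) (nat_lit 236) (nat_lit 150)))) (XT.nd (nat_lit 156) (nat_lit 0) (nat_lit 0) (XT.nd (nat_lit 78) (nat_lit 0) (nat_lit 0) (XT.lf (nat_lit 0) (nat_lit 979330475338) (nat_lit 152) (nat_lit 408744789226) (nat_lit 0) (nat_lit 966554360797) (nat_lit 1) (nat_lit 5) (nat_lit 3) (nat_lit 4) (nat_lit 1) (nat_lit 4) (nat_lit 335) (nat_lit 236) (nat_lit 149)) (XT.lf (nat_lit 0) (nat_lit 1059587683660) (nat_lit 152) (nat_lit 436353506906) (nat_lit 0) (nat_lit 1046810397637) (nat_lit 1) (nat_lit 5) (nat_lit 3) (nat_lit 4) (nat_lit 1) (nat_lit 4) (nat_lit 336) (nat_lit 236) (nat_lit 148)))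 (XT.nd (nat_lit 78) (nat_lit 0) (nat_lit 0) (XT.lf (nat_lit 0) (nat_lit 1146264952368) (nat_lit 152) (nat_lit 466171817774) (nat_lit 0) (nat_lit 1133486581640) (nat_lit 1) (nat_lit 5) (nat_lit 3) (nat_lit 4) (nat_lit 1) (nat_lit 4) (nat_lit 337) (nat_lit 236) (nat_lit 147)) (XT.lf (nat_lit 0) (nat_lit 1239875924537) (nat_lit 152) (nat_lit 498376422930) (nat_lit 0) (nat_lit 1227096549451) (nat_lit 1) (nat_lit 5) (nat_lit 3) (nat_lit 4) (nat_lit 1) (nat_lit 4) (nat_lit 338) (nat_lit 236) (nat_lit 146))))) (XT.nd (nat_lit 234) (nat_lit 0) (nat_lit 0) (XT.nd (nat_lit 78) (nat_lit 0) (nat_lit 0) (XT.lf (nat_lit 0) (nat_lit 1340975331852) (nat_lit 152) (nat_lit 533158164480) (nat_lit 0) (nat_lit 1328195026807) (nat_lit 1) (nat_lit 5) (nat_lit 3) (nat_lit 4) (nat_lit 1) (nat_lit 4) (nat_lit 339) (nat_lit 236) (nat_lit 145)) (XT.nd (nat_lit 78) (nat_lit 0) (nat_lit 0) (XT.lf (nat_lit 0) (nat_lit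 1450162281914) (nat_lit 152) (nat_lit 570723156446) (nat_lit 0) (nat_lit 1437381115794) (nat_lit 1) (nat_lit 5) (nat_lit 3) (nat_lit 4) (nat_lit 1) (nat_lit 4) (nat_lit 340) (nat_lit 236) (nat_lit 144)) (XT.lf (nat_lit 0) (nat_lit 1568083808499) (nat_lit 152) (nat_lit 611294006190) (nat_lit 0) (nat_lit 1555301845089) (nat_lit 1) (nat_lit 5) (nat_lit 3) (nat_lit 4) (nat_lit 1) (nat_lit 4) (nat_lit 341) (nat_lit 236) (nat_lit 143)))) (XT.nd (nat_lit 156) (nat_lit 0) (nat_lit 0) (XT.nd (nat_lit 78) (nat_lit 0) (nat_lit 0) (XT.lf (nat_lit 0) (nat_lit 1695438705841) (nat_lit 152) (nat_lit 655111133562) (nat_lit 0) (nat_lit 1682656004198) (nat_lit 1) (nat_lit 5) (nat_lit 3) (nat_lit 4) (nat_lit 1) (nat_lit 4) (nat_lit 342) (nat_lit 236) (nat_lit 142)) (XT.lf (nat_lit 0) (nat_lit 1832981669626) (nat_lit 152) (nat_lit 702434195611) (nat_lit 0) (nat_lit 1820198284435) (nat_lit 1) (nat_lit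 5) (nat_lit 3) (nat_lit 4) (nat_lit 1) (nat_lit 4) (nat_lit 343) (nat_lit 236) (nat_lit 141))) (XT.nd (nat_lit 29874) (nat_lit 0) (nat_lit 2888) (XT.lf (nat_lit 0) (nat_lit 1981527769270) (nat_lit 152) (nat_lit 753543625300) (nat_lit 0) (nat_lit 1968743751163) (nat_lit 1) (nat_lit 5) (nat_lit 3) (nat_lit 4) (nat_lit 1) (nat_lit 4) (nat_lit 344) (nat_lit 236) (nat_lit 140)) (XT.lf (nat_lit 0) (nat_lit 1272256434) (nat_lit 228) (nat_lit 825228901) (nat_lit 0) (nat_lit 1272256434) (nat_lit 39) (nat_lit 5) (nat_lit 42) (nat_lit 4) (nat_lit 39) (nat_lit 4) (nat_lit 246) (nat_lit 237) (nat_lit 237))))))) (XT.nd (nat_lit 1014) (nat_lit 608) (nat_lit 0) (XT.nd (nat_lit 468) (nat_lit 912) (nat_lit 0) (XT.nd (nat_lit 234) (nat_lit 456) (nat_lit 0) (XT.nd (nat_lit 78) (nat_lit 380) (nat_lit 0) (XT.lf (nat_lit 0) (nat_lit 1851571613) (nat_lit 228) (nat_lit 3378467407) (nat_lit 228) (nat_lit 1624617863)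 (nat_lit 36) (nat_lit 4) (nat_lit 39) (nat_lit 5) (nat_lit 39) (nat_lit 4) (nat_lit 247) (nat_lit 237) (nat_lit 236)) (XT.nd (nat_lit 78) (nat_lit 304) (nat_lit 0) (XT.lf (nat_lit 0) (nat_lit 915474357) (nat_lit 304) (nat_lit 1473597643) (nat_lit 76) (nat_lit 4605356392) (nat_lit 35) (nat_lit 5) (nat_lit 39) (nat_lit 5) (nat_lit 36) (nat_lit 4) (nat_lit 248) (nat_lit 237) (nat_lit 235)) (XT.lf (nat_lit 0) (nat_lit 2225015004) (nat_lit 304) (nat_lit 1191543943) (nat_lit 380) (nat_lit 3740891287) (nat_lit 31) (nat_lit 5) (nat_lit 35) (nat_lit 5) (nat_lit 36) (nat_lit 4) (nat_lit 249) (nat_lit 237) (nat_lit 234)))) (XT.nd (nat_lit 78) (nat_lit 456) (nat_lit 0) (XT.lf (nat_lit 0) (nat_lit 5965149636) (nat_lit 380) (nat_lit 1227253304) (nat_lit 0) (nat_lit 156177488) (nat_lit 31) (nat_lit 5) (nat_lit 36) (nat_lit 4) (nat_lit 31) (nat_lit 4) (nat_lit 250) (nat_lit 237) (nat_lit 233)) (XT.nd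 (nat_lit 78) (nat_lit 0) (nat_lit 0) (XT.lf (nat_lit 0) (nat_lit 1013685798) (nat_lit 456) (nat_lit 4894146216) (nat_lit 76) (nat_lit 1654646767) (nat_lit 25) (nat_lit 5) (nat_lit 31) (nat_lit 5) (nat_lit 26) (nat_lit 4) (nat_lit 251) (nat_lit 237) (nat_lit 232)) (XT.lf (nat_lit 0) (nat_lit 3382820786) (nat_lit 456) (nat_lit 1071568155) (nat_lit 76) (nat_lit 3350096661) (nat_lit 25) (nat_lit 5) (nat_lit 31) (nat_lit 5) (nat_lit 26) (nat_lit 4) (nat_lit 252) (nat_lit 237) (nat_lit 231))))) (XT.nd (nat_lit 234) (nat_lit 380) (nat_lit 0) (XT.nd (nat_lit 78) (nat_lit 304) (nat_lit 0) (XT.lf (nat_lit 0) (nat_lit 3033256529) (nat_lit 228) (nat_lit 2815034953) (nat_lit 304) (nat_lit 2227119392) (nat_lit 22) (nat_lit 5) (nat_lit 25) (nat_lit 5) (nat_lit 26) (nat_lit 4) (nat_lit 253) (nat_lit 237) (nat_lit 230)) (XT.nd (nat_lit 78) (nat_lit 228) (nat_lit 0) (XT.lf (nat_lit 0) (nat_lit 1997524)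 (nat_lit 304) (nat_lit 1023748512) (nat_lit 76) (nat_lit 7354498537) (nat_lit 21) (nat_lit 5) (nat_lit 25) (nat_lit 5) (nat_lit 22) (nat_lit 5) (nat_lit 254) (nat_lit 237) (nat_lit 229)) (XT.lf (nat_lit 0) (nat_lit 2240555088) (nat_lit 304) (nat_lit 5484183855) (nat_lit 76) (nat_lit 985652432) (nat_lit 18) (nat_lit 5) (nat_lit 22) (nat_lit 5) (nat_lit 19) (nat_lit 4) (nat_lit 255) (nat_lit 237) (nat_lit 228)))) (XT.nd (nat_lit 156) (nat_lit 228) (nat_lit 0) (XT.nd (nat_lit 78) (nat_lit 152) (nat_lit 0) (XT.lf (nat_lit 0) (nat_lit 4568645676) (nat_lit 304) (nat_lit 1393951439) (nat_lit 76) (nat_lit 3113062184) (nat_lit 18) (nat_lit 5) (nat_lit 22) (nat_lit 5) (nat_lit 19) (nat_lit 4) (nat_lit 256) (nat_lit 237) (nat_lit 227)) (XT.lf (nat_lit 0) (nat_lit 3010921255) (nat_lit 152) (nat_lit 4010296767) (nat_lit 228) (nat_lit 2455302664) (nat_lit 16) (nat_lit 5) (nat_lit 18) (nat_lit 5)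 (nat_lit 19) (nat_lit 4) (nat_lit 257) (nat_lit 237) (nat_lit 226))) (XT.nd (nat_lit 78) (nat_lit 228) (nat_lit 0) (XT.lf (nat_lit 0) (nat_lit 7688393794) (nat_lit 152) (nat_lit 1891650851) (nat_lit 228) (nat_lit 337927262) (nat_lit 16) (nat_lit 5) (nat_lit 18) (nat_lit 5) (nat_lit 19) (nat_lit 4) (nat_lit 258) (nat_lit 237) (nat_lit 225)) (XT.lf (nat_lit 0) (nat_lit 1794184709) (nat_lit 228) (nat_lit 8152555537) (nat_lit 76) (nat_lit 449958394) (nat_lit 13) (nat_lit 5) (nat_lit 16) (nat_lit 5) (nat_lit 14) (nat_lit 4) (nat_lit 259) (nat_lit 237) (nat_lit 224)))))) (XT.nd (nat_lit 546) (nat_lit 228) (nat_lit 0) (XT.nd (nat_lit 234) (nat_lit 228) (nat_lit 0) (XT.nd (nat_lit 78) (nat_lit 152) (nat_lit 0) (XT.lf (nat_lit 0) (nat_lit 4072122022) (nat_lit 228) (nat_lit 3926377888) (nat_lit 76) (nat_lit 2916092028) (nat_lit 13) (nat_lit 5) (nat_lit 16) (nat_lit 5) (nat_lit 14) (nat_lit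 4) (nat_lit 260) (nat_lit 237) (nat_lit 223)) (XT.nd (nat_lit 78) (nat_lit 0) (nat_lit 0) (XT.lf (nat_lit 0) (nat_lit 514953266) (nat_lit 152) (nat_lit 5920314059) (nat_lit 228) (nat_lit 5047385305) (nat_lit 11) (nat_lit 5) (nat_lit 13) (nat_lit 5) (nat_lit 14) (nat_lit 4) (nat_lit 261) (nat_lit 237) (nat_lit 222)) (XT.lf (nat_lit 0) (nat_lit 5389951325) (nat_lit 152) (nat_lit 3600074272) (nat_lit 228) (nat_lit 3106829314) (nat_lit 11) (nat_lit 5) (nat_lit 13) (nat_lit 5) (nat_lit 14) (nat_lit 4) (nat_lit 262) (nat_lit 237) (nat_lit 221)))) (XT.nd (nat_lit 156) (nat_lit 0) (nat_lit 0) (XT.nd (nat_lit 78) (nat_lit 228) (nat_lit 0) (XT.lf (nat_lit 0) (nat_lit 10520749064) (nat_lit 152) (nat_lit 1131385109) (nat_lit 228) (nat_lit 1116656482) (nat_lit 11) (nat_lit 5) (nat_lit 13) (nat_lit 5) (nat_lit 14) (nat_lit 4) (nat_lit 263) (nat_lit 237) (nat_lit 220)) (XT.lf (nat_lit 0) (nat_lit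 987497014) (nat_lit 228) (nat_lit 10994131480) (nat_lit 76) (nat_lit 1511067284) (nat_lit 8) (nat_lit 5) (nat_lit 11) (nat_lit 5) (nat_lit 9) (nat_lit 4) (nat_lit 264) (nat_lit 237) (nat_lit 219))) (XT.nd (nat_lit 78) (nat_lit 0) (nat_lit 0) (XT.lf (nat_lit 0) (nat_lit 3202128050) (nat_lit 228) (nat_lit 6710302900) (nat_lit 76) (nat_lit 4360226872) (nat_lit 8) (nat_lit 5) (nat_lit 11) (nat_lit 5) (nat_lit 9) (nat_lit 4) (nat_lit 265) (nat_lit 237) (nat_lit 218)) (XT.lf (nat_lit 0) (nat_lit 5510619514) (nat_lit 228) (nat_lit 2207348038) (nat_lit 76) (nat_lit 7404327722) (nat_lit 8) (nat_lit 5) (nat_lit 11) (nat_lit 5) (nat_lit 9) (nat_lit 4) (nat_lit 266) (nat_lit 237) (nat_lit 217))))) (XT.nd (nat_lit 234) (nat_lit 152) (nat_lit 0) (XT.nd (nat_lit 78) (nat_lit 0) (nat_lit 0) (XT.lf (nat_lit 0) (nat_lit 2675243813) (nat_lit 76) (nat_lit 5315747221) (nat_lit 152) (nat_lit 8050504815)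 (nat_lit 7) (nat_lit 5) (nat_lit 8) (nat_lit 5) (nat_lit 9) (nat_lit 4) (nat_lit 267) (nat_lit 237) (nat_lit 216)) (XT.nd (nat_lit 78) (nat_lit 0) (nat_lit 0) (XT.lf (nat_lit 0) (nat_lit 7962447781) (nat_lit 76) (nat_lit 2693590082) (nat_lit 152) (nat_lit 6379821059) (nat_lit 7) (nat_lit 5) (nat_lit 8) (nat_lit 5) (nat_lit 9) (nat_lit 4) (nat_lit 268) (nat_lit 237) (nat_lit 215)) (XT.lf (nat_lit 0) (nat_lit 13468164383) (nat_lit 152) (nat_lit 4548880926) (nat_lit 0) (nat_lit 98502784) (nat_lit 7) (nat_lit 5) (nat_lit 9) (nat_lit 4) (nat_lit 7) (nat_lit 4) (nat_lit 269) (nat_lit 237) (nat_lit 214)))) (XT.nd (nat_lit 156) (nat_lit 76) (nat_lit 0) (XT.nd (nat_lit 78) (nat_lit 0) (nat_lit 0) (XT.lf (nat_lit 0) (nat_lit 176075913) (nat_lit 76) (nat_lit 16339076520) (nat_lit 76) (nat_lit 2766119695) (nat_lit 6) (nat_lit 4) (nat_lit 7) (nat_lit 5) (nat_lit 7) (nat_lit 4) (nat_lit 270) (nat_lit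 237) (nat_lit 213)) (XT.lf (nat_lit 0) (nat_lit 5439889022) (nat_lit 76) (nat_lit 14428488791) (nat_lit 76) (nat_lit 667295645) (nat_lit 6) (nat_lit 4) (nat_lit 7) (nat_lit 5) (nat_lit 7) (nat_lit 4) (nat_lit 271) (nat_lit 237) (nat_lit 212))) (XT.nd (nat_lit 78) (nat_lit 0) (nat_lit 0) (XT.lf (nat_lit 0) (nat_lit 1460256908) (nat_lit 152) (nat_lit 10898151665) (nat_lit 76) (nat_lit 9534032438) (nat_lit 5) (nat_lit 5) (nat_lit 7) (nat_lit 5) (nat_lit 6) (nat_lit 4) (nat_lit 272) (nat_lit 237) (nat_lit 211)) (XT.lf (nat_lit 0) (nat_lit 3667177889) (nat_lit 152) (nat_lit 6469138329) (nat_lit 76) (nat_lit 13224761452) (nat_lit 5) (nat_lit 5) (nat_lit 7) (nat_lit 5) (nat_lit 6) (nat_lit 4) (nat_lit 273) (nat_lit 237) (nat_lit 210))))))))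
noncomputable def xc47 : XT := (XT.nd (nat_lit 2106) (nat_lit 0) (nat_lit 0) (XT.nd (nat_lit 1014) (nat_lit 152) (nat_lit 0) (XT.nd (nat_lit 468) (nat_lit 76) (nat_lit 0) (XT.nd (nat_lit 234) (nat_lit 0) (nat_lit 0) (XT.nd (nat_lit 78) (nat_lit 76) (nat_lit 0) (XT.lf (nat_lit 0) (nat_lit 5999926180) (nat_lit 152) (nat_lit 1766449945) (nat_lit 76) (nat_lit 17185194220) (nat_lit 5) (nat_lit 5) (nat_lit 7) (nat_lit 5) (nat_lit 6) (nat_lit 4) (nat_lit 274) (nat_lit 237) (nat_lit 209)) (XT.nd (nat_lit 78) (nat_lit 0) (nat_lit 0) (XT.lf (nat_lit 0) (nat_lit 3408277093) (nat_lit 76) (nat_lit 5146017526) (nat_lit 152) (nat_lit 18112492026) (nat_lit 4) (nat_lit 5) (nat_lit 5) (nat_lit 5) (nat_lit 6) (nat_lit 4) (nat_lit 275) (nat_lit 237) (nat_lit 208)) (XT.lf (nat_lit 0) (nat_lit 9024660065) (nat_lit 76) (nat_lit 2291410250) (nat_lit 152) (nat_lit 17203168491) (nat_lit 4) (nat_lit 5) (nat_lit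 5) (nat_lit 5) (nat_lit 6) (nat_lit 4) (nat_lit 276) (nat_lit 237) (nat_lit 207)))) (XT.nd (nat_lit 78) (nat_lit 0) (nat_lit 0) (XT.lf (nat_lit 0) (nat_lit 14275322954) (nat_lit 152) (nat_lit 15518942688) (nat_lit 0) (nat_lit 727742394) (nat_lit 4) (nat_lit 5) (nat_lit 6) (nat_lit 4) (nat_lit 4) (nat_lit 4) (nat_lit 277) (nat_lit 237) (nat_lit 206)) (XT.nd (nat_lit 78) (nat_lit 0) (nat_lit 0) (XT.lf (nat_lit 0) (nat_lit 17491478984) (nat_lit 152) (nat_lit 11349932202) (nat_lit 0) (nat_lit 3842200197) (nat_lit 4) (nat_lit 5) (nat_lit 6) (nat_lit 4) (nat_lit 4) (nat_lit 4) (nat_lit 278) (nat_lit 237) (nat_lit 205)) (XT.lf (nat_lit 0) (nat_lit 20928488636) (nat_lit 152) (nat_lit 6907733566) (nat_lit 0) (nat_lit 7185044825) (nat_lit 4) (nat_lit 5) (nat_lit 6) (nat_lit 4) (nat_lit 4) (nat_lit 4) (nat_lit 279) (nat_lit 237) (nat_lit 204))))) (XT.nd (nat_lit 234) (nat_lit 0) (nat_lit 0)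 (XT.nd (nat_lit 78) (nat_lit 76) (nat_lit 0) (XT.lf (nat_lit 0) (nat_lit 24606719376) (nat_lit 152) (nat_lit 2166022640) (nat_lit 0) (nat_lit 10776085727) (nat_lit 4) (nat_lit 5) (nat_lit 6) (nat_lit 4) (nat_lit 4) (nat_lit 4) (nat_lit 280) (nat_lit 237) (nat_lit 203)) (XT.nd (nat_lit 78) (nat_lit 0) (nat_lit 0) (XT.lf (nat_lit 0) (nat_lit 3056182215) (nat_lit 76) (nat_lit 25565287167) (nat_lit 76) (nat_lit 11653922186) (nat_lit 3) (nat_lit 4) (nat_lit 4) (nat_lit 5) (nat_lit 4) (nat_lit 4) (nat_lit 281) (nat_lit 237) (nat_lit 202)) (XT.lf (nat_lit 0) (nat_lit 8768931038) (nat_lit 76) (nat_lit 24217552399) (nat_lit 76) (nat_lit 10231436186) (nat_lit 3) (nat_lit 4) (nat_lit 4) (nat_lit 5) (nat_lit 4) (nat_lit 4) (nat_lit 282) (nat_lit 237) (nat_lit 201)))) (XT.nd (nat_lit 156) (nat_lit 0) (nat_lit 0) (XT.nd (nat_lit 78) (nat_lit 0) (nat_lit 0) (XT.lf (nat_lit 0) (nat_lit 14892018240)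 (nat_lit 76) (nat_lit 22780774035) (nat_lit 76) (nat_lit 8725443717) (nat_lit 3) (nat_lit 4) (nat_lit 4) (nat_lit 5) (nat_lit 4) (nat_lit 4) (nat_lit 283) (nat_lit 237) (nat_lit 200)) (XT.lf (nat_lit 0) (nat_lit 21461728783) (nat_lit 76) (nat_lit 21246437832) (nat_lit 76) (nat_lit 7127020381) (nat_lit 3) (nat_lit 4) (nat_lit 4) (nat_lit 5) (nat_lit 4) (nat_lit 4) (nat_lit 284) (nat_lit 237) (nat_lit 199))) (XT.nd (nat_lit 78) (nat_lit 0) (nat_lit 0) (XT.lf (nat_lit 0) (nat_lit 28516994284) (nat_lit 76) (nat_lit 19605451428) (nat_lit 76) (nat_lit 5426694038) (nat_lit 3) (nat_lit 4) (nat_lit 4) (nat_lit 5) (nat_lit 4) (nat_lit 4) (nat_lit 285) (nat_lit 237) (nat_lit 198)) (XT.lf (nat_lit 0) (nat_lit 36099623725) (nat_lit 76) (nat_lit 17848090459) (nat_lit 76) (nat_lit 3614388681) (nat_lit 3) (nat_lit 4) (nat_lit 4) (nat_lit 5) (nat_lit 4) (nat_lit 4) (nat_lit 286) (nat_lit 237) (nat_lit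 197)))))) (XT.nd (nat_lit 546) (nat_lit 0) (nat_lit 0) (XT.nd (nat_lit 234) (nat_lit 76) (nat_lit 0) (XT.nd (nat_lit 78) (nat_lit 76) (nat_lit 0) (XT.lf (nat_lit 0) (nat_lit 44254551206) (nat_lit 76) (nat_lit 15963940933) (nat_lit 76) (nat_lit 1679364723) (nat_lit 3) (nat_lit 4) (nat_lit 4) (nat_lit 5) (nat_lit 4) (nat_lit 4) (nat_lit 287) (nat_lit 237) (nat_lit 196)) (XT.nd (nat_lit 78) (nat_lit 0) (nat_lit 0) (XT.lf (nat_lit 0) (nat_lit 370343037) (nat_lit 152) (nat_lit 13561368648) (nat_lit 76) (nat_lit 52649633350) (nat_lit 2) (nat_lit 5) (nat_lit 4) (nat_lit 5) (nat_lit 3) (nat_lit 4) (nat_lit 288) (nat_lit 237) (nat_lit 195)) (XT.lf (nat_lit 0) (nat_lit 2475163673) (nat_lit 152) (nat_lit 9226958353) (nat_lit 76) (nat_lit 59935441006) (nat_lit 2) (nat_lit 5) (nat_lit 4) (nat_lit 5) (nat_lit 3) (nat_lit 4) (nat_lit 289) (nat_lit 237) (nat_lit 194)))) (XT.nd (nat_lit 156) (nat_lit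 0) (nat_lit 0) (XT.nd (nat_lit 78) (nat_lit 76) (nat_lit 0) (XT.lf (nat_lit 0) (nat_lit 4731578820) (nat_lit 152) (nat_lit 4574000612) (nat_lit 76) (nat_lit 67794125292) (nat_lit 2) (nat_lit 5) (nat_lit 4) (nat_lit 5) (nat_lit 3) (nat_lit 4) (nat_lit 290) (nat_lit 237) (nat_lit 193)) (XT.lf (nat_lit 0) (nat_lit 447461491) (nat_lit 76) (nat_lit 6716259795) (nat_lit 152) (nat_lit 75835556156) (nat_lit 1) (nat_lit 5) (nat_lit 2) (nat_lit 5) (nat_lit 3) (nat_lit 4) (nat_lit 291) (nat_lit 237) (nat_lit 192))) (XT.nd (nat_lit 78) (nat_lit 0) (nat_lit 0) (XT.lf (nat_lit 0) (nat_lit 6105313105) (nat_lit 76) (nat_lit 3795175440) (nat_lit 152) (nat_lit 79461594291) (nat_lit 1) (nat_lit 5) (nat_lit 2) (nat_lit 5) (nat_lit 3) (nat_lit 4) (nat_lit 292) (nat_lit 237) (nat_lit 191)) (XT.lf (nat_lit 0) (nat_lit 12192223474) (nat_lit 76) (nat_lit 650077519) (nat_lit 152) (nat_lit 83392789224) (nat_lit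 1) (nat_lit 5) (nat_lit 2) (nat_lit 5) (nat_lit 3) (nat_lit 4) (nat_lit 293) (nat_lit 237) (nat_lit 190))))) (XT.nd (nat_lit 234) (nat_lit 0) (nat_lit 0) (XT.nd (nat_lit 78) (nat_lit 0) (nat_lit 0) (XT.lf (nat_lit 0) (nat_lit 16072432660) (nat_lit 152) (nat_lit 84980606409) (nat_lit 0) (nat_lit 2600722164) (nat_lit 1) (nat_lit 5) (nat_lit 3) (nat_lit 4) (nat_lit 1) (nat_lit 4) (nat_lit 294) (nat_lit 237) (nat_lit 189)) (XT.nd (nat_lit 78) (nat_lit 0) (nat_lit 0) (XT.lf (nat_lit 0) (nat_lit 19565746793) (nat_lit 152) (nat_lit 86031267431) (nat_lit 0) (nat_lit 6068586415) (nat_lit 1) (nat_lit 5) (nat_lit 3) (nat_lit 4) (nat_lit 1) (nat_lit 4) (nat_lit 295) (nat_lit 237) (nat_lit 188)) (XT.lf (nat_lit 0) (nat_lit 23327310135) (nat_lit 152) (nat_lit 87185441570) (nat_lit 0) (nat_lit 9806585051) (nat_lit 1) (nat_lit 5) (nat_lit 3) (nat_lit 4) (nat_lit 1) (nat_lit 4) (nat_lit 296) (nat_lit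 237) (nat_lit 187)))) (XT.nd (nat_lit 156) (nat_lit 0) (nat_lit 0) (XT.nd (nat_lit 78) (nat_lit 0) (nat_lit 0) (XT.lf (nat_lit 0) (nat_lit 27379413430) (nat_lit 152) (nat_lit 88449968375) (nat_lit 0) (nat_lit 13836869174) (nat_lit 1) (nat_lit 5) (nat_lit 3) (nat_lit 4) (nat_lit 1) (nat_lit 4) (nat_lit 297) (nat_lit 237) (nat_lit 186)) (XT.lf (nat_lit 0) (nat_lit 31746069144) (nat_lit 152) (nat_lit 89832341338) (nat_lit 0) (nat_lit 18183321950) (nat_lit 1) (nat_lit 5) (nat_lit 3) (nat_lit 4) (nat_lit 1) (nat_lit 4) (nat_lit 298) (nat_lit 237) (nat_lit 185))) (XT.nd (nat_lit 78) (nat_lit 0) (nat_lit 0) (XT.lf (nat_lit 0) (nat_lit 36453153753) (nat_lit 152) (nat_lit 91340752300) (nat_lit 0) (nat_lit 22871700136) (nat_lit 1) (nat_lit 5) (nat_lit 3) (nat_lit 4) (nat_lit 1) (nat_lit 4) (nat_lit 299) (nat_lit 237) (nat_lit 184)) (XT.lf (nat_lit 0) (nat_lit 41528561093) (nat_lit 152) (nat_lit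 92984139992) (nat_lit 0) (nat_lit 27929786713) (nat_lit 1) (nat_lit 5) (nat_lit 3) (nat_lit 4) (nat_lit 1) (nat_lit 4) (nat_lit 300) (nat_lit 237) (nat_lit 183))))))) (XT.nd (nat_lit 1014) (nat_lit 0) (nat_lit 0) (XT.nd (nat_lit 468) (nat_lit 0) (nat_lit 0) (XT.nd (nat_lit 234) (nat_lit 0) (nat_lit 0) (XT.nd (nat_lit 78) (nat_lit 0) (nat_lit 0) (XT.lf (nat_lit 0) (nat_lit 47002367652) (nat_lit 152) (nat_lit 94772243008) (nat_lit 0) (nat_lit 33387555529) (nat_lit 1) (nat_lit 5) (nat_lit 3) (nat_lit 4) (nat_lit 1) (nat_lit 4) (nat_lit 301) (nat_lit 237) (nat_lit 182)) (XT.nd (nat_lit 78) (nat_lit 0) (nat_lit 0) (XT.lf (nat_lit 0) (nat_lit 52907010801) (nat_lit 152) (nat_lit 96715657514) (nat_lit 0) (nat_lit 39277348917) (nat_lit 1) (nat_lit 5) (nat_lit 3) (nat_lit 4) (nat_lit 1) (nat_lit 4) (nat_lit 302) (nat_lit 237) (nat_lit 181)) (XT.lf (nat_lit 0) (nat_lit 59277481020) (nat_lit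 152) (nat_lit 98825900040) (nat_lit 0) (nat_lit 45634069355) (nat_lit 1) (nat_lit 5) (nat_lit 3) (nat_lit 4) (nat_lit 1) (nat_lit 4) (nat_lit 303) (nat_lit 237) (nat_lit 180)))) (XT.nd (nat_lit 78) (nat_lit 0) (nat_lit 0) (XT.lf (nat_lit 0) (nat_lit 66151529241) (nat_lit 152) (nat_lit 101115475728) (nat_lit 0) (nat_lit 52495386300) (nat_lit 1) (nat_lit 5) (nat_lit 3) (nat_lit 4) (nat_lit 1) (nat_lit 4) (nat_lit 304) (nat_lit 237) (nat_lit 179)) (XT.nd (nat_lit 78) (nat_lit 0) (nat_lit 0) (XT.lf (nat_lit 0) (nat_lit 73569890567) (nat_lit 152) (nat_lit 103597952432) (nat_lit 0) (nat_lit 59901959406) (nat_lit 1) (nat_lit 5) (nat_lit 3) (nat_lit 4) (nat_lit 1) (nat_lit 4) (nat_lit 305) (nat_lit 237) (nat_lit 178)) (XT.lf (nat_lit 0) (nat_lit 81576525657) (nat_lit 152) (nat_lit 106288041127) (nat_lit 0) (nat_lit 67897679477) (nat_lit 1) (nat_lit 5) (nat_lit 3) (nat_lit 4) (nat_lit 1) (nat_lit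 4) (nat_lit 306) (nat_lit 237) (nat_lit 177))))) (XT.nd (nat_lit 234) (nat_lit 0) (nat_lit 0) (XT.nd (nat_lit 78) (nat_lit 0) (nat_lit 0) (XT.lf (nat_lit 0) (nat_lit 90218881236) (nat_lit 152) (nat_lit 109201683078) (nat_lit 0) (nat_lit 76529928558) (nat_lit 1) (nat_lit 5) (nat_lit 3) (nat_lit 4) (nat_lit 1) (nat_lit 4) (nat_lit 307) (nat_lit 237) (nat_lit 176)) (XT.nd (nat_lit 78) (nat_lit 0) (nat_lit 0) (XT.lf (nat_lit 0) (nat_lit 99548171265) (nat_lit 152) (nat_lit 112356144312) (nat_lit 0) (nat_lit 85849860718) (nat_lit 1) (nat_lit 5) (nat_lit 3) (nat_lit 4) (nat_lit 1) (nat_lit 4) (nat_lit 308) (nat_lit 237) (nat_lit 175)) (XT.lf (nat_lit 0) (nat_lit 109619680425) (nat_lit 152) (nat_lit 115770117932) (nat_lit 0) (nat_lit 95912705184) (nat_lit 1) (nat_lit 5) (nat_lit 3) (nat_lit 4) (nat_lit 1) (nat_lit 4) (nat_lit 309) (nat_lit 237) (nat_lit 174)))) (XT.nd (nat_lit 156) (nat_lit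 0) (nat_lit 0) (XT.nd (nat_lit 78) (nat_lit 0) (nat_lit 0) (XT.lf (nat_lit 0) (nat_lit 120493091733) (nat_lit 152) (nat_lit 119463834894) (nat_lit 0) (nat_lit 106778093628) (nat_lit 1) (nat_lit 5) (nat_lit 3) (nat_lit 4) (nat_lit 1) (nat_lit 4) (nat_lit 310) (nat_lit 237) (nat_lit 173)) (XT.lf (nat_lit 0) (nat_lit 132232840219) (nat_lit 152) (nat_lit 123459183890) (nat_lit 0) (nat_lit 118510413535) (nat_lit 1) (nat_lit 5) (nat_lit 3) (nat_lit 4) (nat_lit 1) (nat_lit 4) (nat_lit 311) (nat_lit 237) (nat_lit 172))) (XT.nd (nat_lit 78) (nat_lit 0) (nat_lit 0) (XT.lf (nat_lit 0) (nat_lit 144908494763) (nat_lit 152) (nat_lit 127779841063) (nat_lit 0) (nat_lit 131179189766) (nat_lit 1) (nat_lit 5) (nat_lit 3) (nat_lit 4) (nat_lit 1) (nat_lit 4) (nat_lit 312) (nat_lit 237) (nat_lit 171)) (XT.lf (nat_lit 0) (nat_lit 158595170354) (nat_lit 152) (nat_lit 132451410306) (nat_lit 0) (nat_lit 144859496549)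 (nat_lit 1) (nat_lit 5) (nat_lit 3) (nat_lit 4) (nat_lit 1) (nat_lit 4) (nat_lit 313) (nat_lit 237) (nat_lit 170)))))) (XT.nd (nat_lit 546) (nat_lit 0) (nat_lit 0) (XT.nd (nat_lit 234) (nat_lit 0) (nat_lit 0) (XT.nd (nat_lit 78) (nat_lit 0) (nat_lit 0) (XT.lf (nat_lit 0) (nat_lit 173373973219) (nat_lit 152) (nat_lit 137501574994) (nat_lit 0) (nat_lit 159632402370) (nat_lit 1) (nat_lit 5) (nat_lit 3) (nat_lit 4) (nat_lit 1) (nat_lit 4) (nat_lit 314) (nat_lit 237) (nat_lit 169)) (XT.nd (nat_lit 78) (nat_lit 0) (nat_lit 0) (XT.lf (nat_lit 0) (nat_lit 189332481449) (nat_lit 152) (nat_lit 142960262028) (nat_lit 0) (nat_lit 175585450373) (nat_lit 1) (nat_lit 5) (nat_lit 3) (nat_lit 4) (nat_lit 1) (nat_lit 4) (nat_lit 315) (nat_lit 237) (nat_lit 168)) (XT.lf (nat_lit 0) (nat_lit 206565263981) (nat_lit 152) (nat_lit 148859819183) (nat_lit 0) (nat_lit 192813177139) (nat_lit 1) (nat_lit 5)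 (nat_lit 3) (nat_lit 4) (nat_lit 1) (nat_lit 4) (nat_lit 316) (nat_lit 237) (nat_lit 167)))) (XT.nd (nat_lit 156) (nat_lit 0) (nat_lit 0) (XT.nd (nat_lit 78) (nat_lit 0) (nat_lit 0) (XT.lf (nat_lit 0) (nat_lit 225174441008) (nat_lit 152) (nat_lit 155235206797) (nat_lit 0) (nat_lit 211417672902) (nat_lit 1) (nat_lit 5) (nat_lit 3) (nat_lit 4) (nat_lit 1) (nat_lit 4) (nat_lit 317) (nat_lit 237) (nat_lit 166)) (XT.lf (nat_lit 0) (nat_lit 245270289135) (nat_lit 152) (nat_lit 162124204947) (nat_lit 0) (nat_lit 231509186525) (nat_lit 1) (nat_lit 5) (nat_lit 3) (nat_lit 4) (nat_lit 1) (nat_lit 4) (nat_lit 318) (nat_lit 237) (nat_lit 165))) (XT.nd (nat_lit 78) (nat_lit 0) (nat_lit 0) (XT.lf (nat_lit 0) (nat_lit 266971894869) (nat_lit 152) (nat_lit 169567637323) (nat_lit 0) (nat_lit 253206778830) (nat_lit 1) (nat_lit 5) (nat_lit 3) (nat_lit 4) (nat_lit 1) (nat_lit 4) (nat_lit 319) (nat_lit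 237) (nat_lit 164)) (XT.lf (nat_lit 0) (nat_lit 290407860318) (nat_lit 152) (nat_lit 177609613156) (nat_lit 0) (nat_lit 276639028140) (nat_lit 1) (nat_lit 5) (nat_lit 3) (nat_lit 4) (nat_lit 1) (nat_lit 4) (nat_lit 320) (nat_lit 237) (nat_lit 163))))) (XT.nd (nat_lit 234) (nat_lit 0) (nat_lit 0) (XT.nd (nat_lit 78) (nat_lit 0) (nat_lit 0) (XT.lf (nat_lit 0) (nat_lit 315717065278) (nat_lit 152) (nat_lit 186297788598) (nat_lit 0) (nat_lit 301944792231) (nat_lit 1) (nat_lit 5) (nat_lit 3) (nat_lit 4) (nat_lit 1) (nat_lit 4) (nat_lit 321) (nat_lit 237) (nat_lit 162)) (XT.nd (nat_lit 78) (nat_lit 0) (nat_lit 0) (XT.lf (nat_lit 0) (nat_lit 343049490222) (nat_lit 152) (nat_lit 195683649133) (nat_lit 0) (nat_lit 329274031184) (nat_lit 1) (nat_lit 5) (nat_lit 3) (nat_lit 4) (nat_lit 1) (nat_lit 4) (nat_lit 322) (nat_lit 237) (nat_lit 161)) (XT.lf (nat_lit 0) (nat_lit 372567105075) (nat_lit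 152) (nat_lit 205822814676) (nat_lit 0) (nat_lit 358788696047) (nat_lit 1) (nat_lit 5) (nat_lit 3) (nat_lit 4) (nat_lit 1) (nat_lit 4) (nat_lit 323) (nat_lit 237) (nat_lit 160)))) (XT.nd (nat_lit 156) (nat_lit 0) (nat_lit 0) (XT.nd (nat_lit 78) (nat_lit 0) (nat_lit 0) (XT.lf (nat_lit 0) (nat_lit 404444829038) (nat_lit 152) (nat_lit 216775369170) (nat_lit 0) (nat_lit 390663688537) (nat_lit 1) (nat_lit 5) (nat_lit 3) (nat_lit 4) (nat_lit 1) (nat_lit 4) (nat_lit 324) (nat_lit 237) (nat_lit 159)) (XT.lf (nat_lit 0) (nat_lit 438871567140) (nat_lit 152) (nat_lit 228606216643) (nat_lit 0) (nat_lit 425087897498) (nat_lit 1) (nat_lit 5) (nat_lit 3) (nat_lit 4) (nat_lit 1) (nat_lit 4) (nat_lit 325) (nat_lit 237) (nat_lit 158))) (XT.nd (nat_lit 78) (nat_lit 0) (nat_lit 0) (XT.lf (nat_lit 0) (nat_lit 476051329682) (nat_lit 152) (nat_lit 241385465820) (nat_lit 0) (nat_lit 462265318243) (nat_lit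 1) (nat_lit 5) (nat_lit 3) (nat_lit 4) (nat_lit 1) (nat_lit 4) (nat_lit 326) (nat_lit 237) (nat_lit 157)) (XT.lf (nat_lit 0) (nat_lit 516204441183) (nat_lit 152) (nat_lit 255188845585) (nat_lit 0) (nat_lit 502416261412) (nat_lit 1) (nat_lit 5) (nat_lit 3) (nat_lit 4) (nat_lit 1) (nat_lit 4) (nat_lit 327) (nat_lit 237) (nat_lit 156))))))))
noncomputable def xc48 : XT := (XT.nd (nat_lit 31668) (nat_lit 0) (nat_lit 228) (XT.nd (nat_lit 1014) (nat_lit 0) (nat_lit 0) (XT.nd (nat_lit 468) (nat_lit 0) (nat_lit 0) (XT.nd (nat_lit 234) (nat_lit 0) (nat_lit 0) (XT.nd (nat_lit 78) (nat_lit 0) (nat_lit 0) (XT.lf (nat_lit 0) (nat_lit 559568846006) (nat_lit 152) (nat_lit 270098153744) (nat_lit 0) (nat_lit 545778658521) (nat_lit 1) (nat_lit 5) (nat_lit 3) (nat_lit 4) (nat_lit 1) (nat_lit 4) (nat_lit 328) (nat_lit 237) (nat_lit 155)) (XT.nd (nat_lit 78) (nat_lit 0) (nat_lit 0) (XT.lf (nat_lit 0)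 (nat_lit 606401518403) (nat_lit 152) (nat_lit 286201741752) (nat_lit 0) (nat_lit 592609471924) (nat_lit 1) (nat_lit 5) (nat_lit 3) (nat_lit 4) (nat_lit 1) (nat_lit 4) (nat_lit 329) (nat_lit 237) (nat_lit 154)) (XT.lf (nat_lit 0) (nat_lit 656979985322) (nat_lit 152) (nat_lit 303595038280) (nat_lit 0) (nat_lit 643186217551) (nat_lit 1) (nat_lit 5) (nat_lit 3) (nat_lit 4) (nat_lit 1) (nat_lit 4) (nat_lit 330) (nat_lit 237) (nat_lit 153)))) (XT.nd (nat_lit 78) (nat_lit 0) (nat_lit 0) (XT.lf (nat_lit 0) (nat_lit 711603971010) (nat_lit 152) (nat_lit 322381114714) (nat_lit 0) (nat_lit 697808609451) (nat_lit 1) (nat_lit 5) (nat_lit 3) (nat_lit 4) (nat_lit 1) (nat_lit 4) (nat_lit 331) (nat_lit 237) (nat_lit 152)) (XT.nd (nat_lit 78) (nat_lit 0) (nat_lit 0) (XT.lf (nat_lit 0) (nat_lit 770597173161) (nat_lit 152) (nat_lit 342671295952) (nat_lit 0) (nat_lit 756800335872) (nat_lit 1) (nat_lit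 5) (nat_lit 3) (nat_lit 4) (nat_lit 1) (nat_lit 4) (nat_lit 332) (nat_lit 237) (nat_lit 151)) (XT.lf (nat_lit 0) (nat_lit 834309181120) (nat_lit 152) (nat_lit 364585820105) (nat_lit 0) (nat_lit 820510977415) (nat_lit 1) (nat_lit 5) (nat_lit 3) (nat_lit 4) (nat_lit 1) (nat_lit 4) (nat_lit 333) (nat_lit 237) (nat_lit 150))))) (XT.nd (nat_lit 234) (nat_lit 0) (nat_lit 0) (XT.nd (nat_lit 78) (nat_lit 0) (nat_lit 0) (XT.lf (nat_lit 0) (nat_lit 903117547528) (nat_lit 152) (nat_lit 388254551019) (nat_lit 0) (nat_lit 889318078623) (nat_lit 1) (nat_lit 5) (nat_lit 3) (nat_lit 4) (nat_lit 1) (nat_lit 4) (nat_lit 334) (nat_lit 237) (nat_lit 149)) (XT.nd (nat_lit 78) (nat_lit 0) (nat_lit 0) (XT.lf (nat_lit 0) (nat_lit 977430025667) (nat_lit 152) (nat_lit 413817747841) (nat_lit 0) (nat_lit 963629385280) (nat_lit 1) (nat_lit 5) (nat_lit 3) (nat_lit 4) (nat_lit 1) (nat_lit 4) (nat_lit 335) (nat_lit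 237) (nat_lit 148)) (XT.lf (nat_lit 0) (nat_lit 1057686985778) (nat_lit 152) (nat_lit 441426896182) (nat_lit 0) (nat_lit 1043885260685) (nat_lit 1) (nat_lit 5) (nat_lit 3) (nat_lit 4) (nat_lit 1) (nat_lit 4) (nat_lit 336) (nat_lit 237) (nat_lit 147)))) (XT.nd (nat_lit 156) (nat_lit 0) (nat_lit 0) (XT.nd (nat_lit 78) (nat_lit 0) (nat_lit 0) (XT.lf (nat_lit 0) (nat_lit 1144364024660) (nat_lit 152) (nat_lit 471245605809) (nat_lit 0) (nat_lit 1130561295211) (nat_lit 1) (nat_lit 5) (nat_lit 3) (nat_lit 4) (nat_lit 1) (nat_lit 4) (nat_lit 337) (nat_lit 237) (nat_lit 146)) (XT.lf (nat_lit 0) (nat_lit 1237974784028) (nat_lit 152) (nat_lit 503450580187) (nat_lit 0) (nat_lit 1224171124619) (nat_lit 1) (nat_lit 5) (nat_lit 3) (nat_lit 4) (nat_lit 1) (nat_lit 4) (nat_lit 338) (nat_lit 237) (nat_lit 145))) (XT.nd (nat_lit 78) (nat_lit 0) (nat_lit 0) (XT.lf (nat_lit 0) (nat_lit 1339073994305) (nat_lit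 152) (nat_lit 538232663608) (nat_lit 0) (nat_lit 1325269473822) (nat_lit 1) (nat_lit 5) (nat_lit 3) (nat_lit 4) (nat_lit 1) (nat_lit 4) (nat_lit 339) (nat_lit 237) (nat_lit 144)) (XT.lf (nat_lit 0) (nat_lit 1448260761924) (nat_lit 152) (nat_lit 575797972123) (nat_lit 0) (nat_lit 1434455444150) (nat_lit 1) (nat_lit 5) (nat_lit 3) (nat_lit 4) (nat_lit 1) (nat_lit 4) (nat_lit 340) (nat_lit 237) (nat_lit 143)))))) (XT.nd (nat_lit 30108) (nat_lit 0) (nat_lit 1824) (XT.nd (nat_lit 234) (nat_lit 0) (nat_lit 0) (XT.nd (nat_lit 78) (nat_lit 0) (nat_lit 0) (XT.lf (nat_lit 0) (nat_lit 1566182119581) (nat_lit 152) (nat_lit 616369114967) (nat_lit 0) (nat_lit 1552376063575) (nat_lit 1) (nat_lit 5) (nat_lit 3) (nat_lit 4) (nat_lit 1) (nat_lit 4) (nat_lit 341) (nat_lit 237) (nat_lit 142)) (XT.nd (nat_lit 78) (nat_lit 0) (nat_lit 0) (XT.lf (nat_lit 0) (nat_lit 1693536860508) (nat_lit 152) (nat_lit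 660186513727) (nat_lit 0) (nat_lit 1679730120953) (nat_lit 1) (nat_lit 5) (nat_lit 3) (nat_lit 4) (nat_lit 1) (nat_lit 4) (nat_lit 342) (nat_lit 237) (nat_lit 141)) (XT.lf (nat_lit 0) (nat_lit 1831079679464) (nat_lit 152) (nat_lit 707509827062) (nat_lit 0) (nat_lit 1817272306994) (nat_lit 1) (nat_lit 5) (nat_lit 3) (nat_lit 4) (nat_lit 1) (nat_lit 4) (nat_lit 343) (nat_lit 237) (nat_lit 140)))) (XT.nd (nat_lit 29718) (nat_lit 0) (nat_lit 2888) (XT.lf (nat_lit 0) (nat_lit 1979625645007) (nat_lit 152) (nat_lit 758619489423) (nat_lit 0) (nat_lit 1965817686504) (nat_lit 1) (nat_lit 5) (nat_lit 3) (nat_lit 4) (nat_lit 1) (nat_lit 4) (nat_lit 344) (nat_lit 237) (nat_lit 139)) (XT.nd (nat_lit 78) (nat_lit 228) (nat_lit 0) (XT.lf (nat_lit 0) (nat_lit 2518459153) (nat_lit 76) (nat_lit 383702138) (nat_lit 76) (nat_lit 383702138) (nat_lit 42) (nat_lit 4) (nat_lit 43) (nat_lit 5) (nat_lit 43)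 (nat_lit 4) (nat_lit 244) (nat_lit 238) (nat_lit 238)) (XT.lf (nat_lit 0) (nat_lit 1666990318) (nat_lit 152) (nat_lit 117952194) (nat_lit 228) (nat_lit 4864872376) (nat_lit 39) (nat_lit 5) (nat_lit 41) (nat_lit 5) (nat_lit 42) (nat_lit 4) (nat_lit 245) (nat_lit 238) (nat_lit 237))))) (XT.nd (nat_lit 234) (nat_lit 760) (nat_lit 0) (XT.nd (nat_lit 78) (nat_lit 304) (nat_lit 0) (XT.lf (nat_lit 0) (nat_lit 4329009811) (nat_lit 228) (nat_lit 1740114586) (nat_lit 0) (nat_lit 681002759) (nat_lit 39) (nat_lit 5) (nat_lit 42) (nat_lit 4) (nat_lit 39) (nat_lit 4) (nat_lit 246) (nat_lit 238) (nat_lit 236)) (XT.nd (nat_lit 78) (nat_lit 0) (nat_lit 0) (XT.lf (nat_lit 0) (nat_lit 31464659) (nat_lit 304) (nat_lit 5206495322) (nat_lit 76) (nat_lit 1637481712) (nat_lit 35) (nat_lit 5) (nat_lit 39) (nat_lit 5) (nat_lit 36) (nat_lit 4) (nat_lit 247) (nat_lit 238) (nat_lit 235)) (XT.lf (nat_lit 0) (nat_lit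 2390308496) (nat_lit 304) (nat_lit 1803743440) (nat_lit 76) (nat_lit 2827518851) (nat_lit 35) (nat_lit 5) (nat_lit 39) (nat_lit 5) (nat_lit 36) (nat_lit 4) (nat_lit 248) (nat_lit 238) (nat_lit 234)))) (XT.nd (nat_lit 156) (nat_lit 456) (nat_lit 0) (XT.nd (nat_lit 78) (nat_lit 0) (nat_lit 0) (XT.lf (nat_lit 0) (nat_lit 1792040001) (nat_lit 304) (nat_lit 2996367416) (nat_lit 380) (nat_lit 2405799139) (nat_lit 31) (nat_lit 5) (nat_lit 35) (nat_lit 5) (nat_lit 36) (nat_lit 4) (nat_lit 249) (nat_lit 238) (nat_lit 233)) (XT.lf (nat_lit 0) (nat_lit 5613507185) (nat_lit 304) (nat_lit 1631918961) (nat_lit 380) (nat_lit 148509579) (nat_lit 31) (nat_lit 5) (nat_lit 35) (nat_lit 5) (nat_lit 36) (nat_lit 4) (nat_lit 250) (nat_lit 238) (nat_lit 232))) (XT.nd (nat_lit 78) (nat_lit 0) (nat_lit 0) (XT.lf (nat_lit 0) (nat_lit 2012797937) (nat_lit 380) (nat_lit 34991393) (nat_lit 456) (nat_lit 5569883689)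 (nat_lit 25) (nat_lit 5) (nat_lit 30) (nat_lit 5) (nat_lit 31) (nat_lit 5) (nat_lit 251) (nat_lit 238) (nat_lit 231)) (XT.lf (nat_lit 0) (nat_lit 4336205378) (nat_lit 456) (nat_lit 1865732110) (nat_lit 76) (nat_lit 1665210586) (nat_lit 25) (nat_lit 5) (nat_lit 31) (nat_lit 5) (nat_lit 26) (nat_lit 4) (nat_lit 252) (nat_lit 238) (nat_lit 230))))))) (XT.nd (nat_lit 1014) (nat_lit 304) (nat_lit 0) (XT.nd (nat_lit 468) (nat_lit 608) (nat_lit 0) (XT.nd (nat_lit 234) (nat_lit 152) (nat_lit 0) (XT.nd (nat_lit 78) (nat_lit 304) (nat_lit 0) (XT.lf (nat_lit 0) (nat_lit 2115130258) (nat_lit 228) (nat_lit 4590504305) (nat_lit 304) (nat_lit 1441057955) (nat_lit 22) (nat_lit 5) (nat_lit 25) (nat_lit 5) (nat_lit 26) (nat_lit 4) (nat_lit 253) (nat_lit 238) (nat_lit 229)) (XT.nd (nat_lit 78) (nat_lit 228) (nat_lit 0) (XT.lf (nat_lit 0) (nat_lit 675776338) (nat_lit 304) (nat_lit 2112763924) (nat_lit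 76) (nat_lit 5668112768) (nat_lit 21) (nat_lit 5) (nat_lit 25) (nat_lit 5) (nat_lit 22) (nat_lit 5) (nat_lit 254) (nat_lit 238) (nat_lit 228)) (XT.lf (nat_lit 0) (nat_lit 2028136379) (nat_lit 228) (nat_lit 764226367) (nat_lit 304) (nat_lit 6004937686) (nat_lit 18) (nat_lit 5) (nat_lit 21) (nat_lit 5) (nat_lit 22) (nat_lit 5) (nat_lit 255) (nat_lit 238) (nat_lit 227)))) (XT.nd (nat_lit 78) (nat_lit 152) (nat_lit 0) (XT.lf (nat_lit 0) (nat_lit 5037564914) (nat_lit 304) (nat_lit 2739011971) (nat_lit 76) (nat_lit 1393310425) (nat_lit 18) (nat_lit 5) (nat_lit 22) (nat_lit 5) (nat_lit 19) (nat_lit 4) (nat_lit 256) (nat_lit 238) (nat_lit 226)) (XT.nd (nat_lit 78) (nat_lit 0) (nat_lit 0) (XT.lf (nat_lit 0) (nat_lit 1518558553) (nat_lit 152) (nat_lit 5875957016) (nat_lit 228) (nat_lit 2184519787) (nat_lit 16) (nat_lit 5) (nat_lit 18) (nat_lit 5) (nat_lit 19) (nat_lit 4) (nat_lit 257) (nat_lit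 238) (nat_lit 225)) (XT.lf (nat_lit 0) (nat_lit 6125222143) (nat_lit 152) (nat_lit 3771111230) (nat_lit 228) (nat_lit 129303657) (nat_lit 16) (nat_lit 5) (nat_lit 18) (nat_lit 5) (nat_lit 19) (nat_lit 4) (nat_lit 258) (nat_lit 238) (nat_lit 224))))) (XT.nd (nat_lit 234) (nat_lit 380) (nat_lit 0) (XT.nd (nat_lit 78) (nat_lit 0) (nat_lit 0) (XT.lf (nat_lit 0) (nat_lit 419764783) (nat_lit 152) (nat_lit 1462368007) (nat_lit 228) (nat_lit 8631154338) (nat_lit 13) (nat_lit 5) (nat_lit 15) (nat_lit 5) (nat_lit 16) (nat_lit 5) (nat_lit 259) (nat_lit 238) (nat_lit 223)) (XT.nd (nat_lit 78) (nat_lit 0) (nat_lit 0) (XT.lf (nat_lit 0) (nat_lit 4072298371) (nat_lit 228) (nat_lit 5903665458) (nat_lit 76) (nat_lit 1062706495) (nat_lit 13) (nat_lit 5) (nat_lit 16) (nat_lit 5) (nat_lit 14) (nat_lit 4) (nat_lit 260) (nat_lit 238) (nat_lit 222)) (XT.lf (nat_lit 0) (nat_lit 6374353716) (nat_lit 228)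 (nat_lit 1554289487) (nat_lit 76) (nat_lit 3683408491) (nat_lit 13) (nat_lit 5) (nat_lit 16) (nat_lit 5) (nat_lit 14) (nat_lit 4) (nat_lit 261) (nat_lit 238) (nat_lit 221)))) (XT.nd (nat_lit 156) (nat_lit 228) (nat_lit 0) (XT.nd (nat_lit 78) (nat_lit 0) (nat_lit 0) (XT.lf (nat_lit 0) (nat_lit 3174343130) (nat_lit 152) (nat_lit 5668770545) (nat_lit 228) (nat_lit 3390421536) (nat_lit 11) (nat_lit 5) (nat_lit 13) (nat_lit 5) (nat_lit 14) (nat_lit 4) (nat_lit 262) (nat_lit 238) (nat_lit 220)) (XT.lf (nat_lit 0) (nat_lit 8245400767) (nat_lit 152) (nat_lit 3216627770) (nat_lit 228) (nat_lit 1447269554) (nat_lit 11) (nat_lit 5) (nat_lit 13) (nat_lit 5) (nat_lit 14) (nat_lit 4) (nat_lit 263) (nat_lit 238) (nat_lit 219))) (XT.nd (nat_lit 78) (nat_lit 152) (nat_lit 0) (XT.lf (nat_lit 0) (nat_lit 532723628) (nat_lit 228) (nat_lit 52891455) (nat_lit 76) (nat_lit 13059798766) (nat_lit 10) (nat_lit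 5) (nat_lit 13) (nat_lit 5) (nat_lit 11) (nat_lit 5) (nat_lit 264) (nat_lit 238) (nat_lit 218)) (XT.lf (nat_lit 0) (nat_lit 2691843893) (nat_lit 228) (nat_lit 9462663644) (nat_lit 76) (nat_lit 2275604237) (nat_lit 8) (nat_lit 5) (nat_lit 11) (nat_lit 5) (nat_lit 9) (nat_lit 4) (nat_lit 265) (nat_lit 238) (nat_lit 217)))))) (XT.nd (nat_lit 546) (nat_lit 76) (nat_lit 0) (XT.nd (nat_lit 234) (nat_lit 152) (nat_lit 0) (XT.nd (nat_lit 78) (nat_lit 76) (nat_lit 0) (XT.lf (nat_lit 0) (nat_lit 4963249329) (nat_lit 228) (nat_lit 5014721248) (nat_lit 76) (nat_lit 5305018698) (nat_lit 8) (nat_lit 5) (nat_lit 11) (nat_lit 5) (nat_lit 9) (nat_lit 4) (nat_lit 266) (nat_lit 238) (nat_lit 216)) (XT.nd (nat_lit 78) (nat_lit 76) (nat_lit 0) (XT.lf (nat_lit 0) (nat_lit 7344942256) (nat_lit 228) (nat_lit 316893396) (nat_lit 76) (nat_lit 8548501418) (nat_lit 8) (nat_lit 5) (nat_lit 11) (nat_lit 5) (nat_lit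 9) (nat_lit 4) (nat_lit 267) (nat_lit 238) (nat_lit 215)) (XT.lf (nat_lit 0) (nat_lit 4903975614) (nat_lit 76) (nat_lit 5065001527) (nat_lit 152) (nat_lit 7239238152) (nat_lit 7) (nat_lit 5) (nat_lit 8) (nat_lit 5) (nat_lit 9) (nat_lit 4) (nat_lit 268) (nat_lit 238) (nat_lit 214)))) (XT.nd (nat_lit 156) (nat_lit 152) (nat_lit 0) (XT.nd (nat_lit 78) (nat_lit 0) (nat_lit 0) (XT.lf (nat_lit 0) (nat_lit 10464917951) (nat_lit 76) (nat_lit 2283146296) (nat_lit 152) (nat_lit 5542700218) (nat_lit 7) (nat_lit 5) (nat_lit 8) (nat_lit 5) (nat_lit 9) (nat_lit 4) (nat_lit 269) (nat_lit 238) (nat_lit 213)) (XT.lf (nat_lit 0) (nat_lit 15707281433) (nat_lit 152) (nat_lit 3099473009) (nat_lit 0) (nat_lit 656956515) (nat_lit 7) (nat_lit 5) (nat_lit 9) (nat_lit 4) (nat_lit 7) (nat_lit 4) (nat_lit 270) (nat_lit 238) (nat_lit 212))) (XT.nd (nat_lit 78) (nat_lit 76) (nat_lit 0) (XT.lf (nat_lit 0) (nat_lit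 1957573583) (nat_lit 76) (nat_lit 16996912058) (nat_lit 76) (nat_lit 1772294251) (nat_lit 6) (nat_lit 4) (nat_lit 7) (nat_lit 5) (nat_lit 7) (nat_lit 4) (nat_lit 271) (nat_lit 238) (nat_lit 211)) (XT.lf (nat_lit 0) (nat_lit 384196116) (nat_lit 152) (nat_lit 14586872190) (nat_lit 76) (nat_lit 7116871644) (nat_lit 5) (nat_lit 5) (nat_lit 7) (nat_lit 5) (nat_lit 6) (nat_lit 4) (nat_lit 272) (nat_lit 238) (nat_lit 210))))) (XT.nd (nat_lit 234) (nat_lit 76) (nat_lit 0) (XT.nd (nat_lit 78) (nat_lit 0) (nat_lit 0) (XT.lf (nat_lit 0) (nat_lit 2566729420) (nat_lit 152) (nat_lit 10196630978) (nat_lit 76) (nat_lit 10795314809) (nat_lit 5) (nat_lit 5) (nat_lit 7) (nat_lit 5) (nat_lit 6) (nat_lit 4) (nat_lit 273) (nat_lit 238) (nat_lit 209)) (XT.nd (nat_lit 78) (nat_lit 0) (nat_lit 0) (XT.lf (nat_lit 0) (nat_lit 4876896527) (nat_lit 152) (nat_lit 5529842709) (nat_lit 76) (nat_lit 14744371790)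 (nat_lit 5) (nat_lit 5) (nat_lit 7) (nat_lit 5) (nat_lit 6) (nat_lit 4) (nat_lit 274) (nat_lit 238) (nat_lit 208)) (XT.lf (nat_lit 0) (nat_lit 7328387318) (nat_lit 152) (nat_lit 558852342) (nat_lit 76) (nat_lit 18987444408) (nat_lit 5) (nat_lit 5) (nat_lit 7) (nat_lit 5) (nat_lit 6) (nat_lit 4) (nat_lit 275) (nat_lit 238) (nat_lit 207)))) (XT.nd (nat_lit 156) (nat_lit 0) (nat_lit 0) (XT.nd (nat_lit 78) (nat_lit 0) (nat_lit 0) (XT.lf (nat_lit 0) (nat_lit 4995703147) (nat_lit 76) (nat_lit 5060172777) (nat_lit 152) (nat_lit 18674120429) (nat_lit 4) (nat_lit 5) (nat_lit 5) (nat_lit 5) (nat_lit 6) (nat_lit 4) (nat_lit 276) (nat_lit 238) (nat_lit 206)) (XT.lf (nat_lit 0) (nat_lit 10964006839) (nat_lit 76) (nat_lit 2014050708) (nat_lit 152) (nat_lit 17757782194) (nat_lit 4) (nat_lit 5) (nat_lit 5) (nat_lit 5) (nat_lit 6) (nat_lit 4) (nat_lit 277) (nat_lit 238) (nat_lit 205))) (XT.nd (nat_lit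 78) (nat_lit 0) (nat_lit 0) (XT.lf (nat_lit 0) (nat_lit 16128256927) (nat_lit 152) (nat_lit 15583390549) (nat_lit 0) (nat_lit 1191172586) (nat_lit 4) (nat_lit 5) (nat_lit 6) (nat_lit 4) (nat_lit 4) (nat_lit 4) (nat_lit 278) (nat_lit 238) (nat_lit 204)) (XT.lf (nat_lit 0) (nat_lit 19549045578) (nat_lit 152) (nat_lit 11168049414) (nat_lit 0) (nat_lit 4524771399) (nat_lit 4) (nat_lit 5) (nat_lit 6) (nat_lit 4) (nat_lit 4) (nat_lit 4) (nat_lit 279) (nat_lit 238) (nat_lit 203))))))))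
noncomputable def xc49 : XT := (XT.nd (nat_lit 2106) (nat_lit 0) (nat_lit 0) (XT.nd (nat_lit 1014) (nat_lit 0) (nat_lit 0) (XT.nd (nat_lit 468) (nat_lit 152) (nat_lit 0) (XT.nd (nat_lit 234) (nat_lit 0) (nat_lit 0) (XT.nd (nat_lit 78) (nat_lit 76) (nat_lit 0) (XT.lf (nat_lit 0) (nat_lit 23212256871) (nat_lit 152) (nat_lit 6451206543) (nat_lit 0) (nat_lit 8107251361) (nat_lit 4) (nat_lit 5) (nat_lit 6) (nat_lit 4) (nat_lit 4) (nat_lit 4) (nat_lit 280) (nat_lit 238) (nat_lit 202)) (XT.nd (nat_lit 78) (nat_lit 76) (nat_lit 0) (XT.lf (nat_lit 0) (nat_lit 27139598726) (nat_lit 152) (nat_lit 1404910277) (nat_lit 0) (nat_lit 11959841983) (nat_lit 4) (nat_lit 5) (nat_lit 6) (nat_lit 4) (nat_lit 4) (nat_lit 4) (nat_lit 281) (nat_lit 238) (nat_lit 201)) (XT.lf (nat_lit 0) (nat_lit 4211415418) (nat_lit 76) (nat_lit 27244213504) (nat_lit 76) (nat_lit 11995242657) (nat_lit 3) (nat_lit 4) (nat_lit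 4) (nat_lit 5) (nat_lit 4) (nat_lit 4) (nat_lit 282) (nat_lit 238) (nat_lit 200)))) (XT.nd (nat_lit 78) (nat_lit 0) (nat_lit 0) (XT.lf (nat_lit 0) (nat_lit 10313722026) (nat_lit 76) (nat_lit 25815793039) (nat_lit 76) (nat_lit 10502735058) (nat_lit 3) (nat_lit 4) (nat_lit 4) (nat_lit 5) (nat_lit 4) (nat_lit 4) (nat_lit 283) (nat_lit 238) (nat_lit 199)) (XT.nd (nat_lit 78) (nat_lit 0) (nat_lit 0) (XT.lf (nat_lit 0) (nat_lit 16864191278) (nat_lit 76) (nat_lit 24289195632) (nat_lit 76) (nat_lit 8916797713) (nat_lit 3) (nat_lit 4) (nat_lit 4) (nat_lit 5) (nat_lit 4) (nat_lit 4) (nat_lit 284) (nat_lit 238) (nat_lit 198)) (XT.lf (nat_lit 0) (nat_lit 23901640769) (nat_lit 76) (nat_lit 22655374780) (nat_lit 76) (nat_lit 7228032472) (nat_lit 3) (nat_lit 4) (nat_lit 4) (nat_lit 5) (nat_lit 4) (nat_lit 4) (nat_lit 285) (nat_lit 238) (nat_lit 197))))) (XT.nd (nat_lit 234) (nat_lit 152) (nat_lit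 0) (XT.nd (nat_lit 78) (nat_lit 0) (nat_lit 0) (XT.lf (nat_lit 0) (nat_lit 31467773905) (nat_lit 76) (nat_lit 20904648580) (nat_lit 76) (nat_lit 5426431840) (nat_lit 3) (nat_lit 4) (nat_lit 4) (nat_lit 5) (nat_lit 4) (nat_lit 4) (nat_lit 286) (nat_lit 238) (nat_lit 196)) (XT.nd (nat_lit 78) (nat_lit 0) (nat_lit 0) (XT.lf (nat_lit 0) (nat_lit 39607427029) (nat_lit 76) (nat_lit 19026642360) (nat_lit 76) (nat_lit 3501319663) (nat_lit 3) (nat_lit 4) (nat_lit 4) (nat_lit 5) (nat_lit 4) (nat_lit 4) (nat_lit 287) (nat_lit 238) (nat_lit 195)) (XT.lf (nat_lit 0) (nat_lit 48368835122) (nat_lit 76) (nat_lit 17010227194) (nat_lit 76) (nat_lit 1441287871) (nat_lit 3) (nat_lit 4) (nat_lit 4) (nat_lit 5) (nat_lit 4) (nat_lit 4) (nat_lit 288) (nat_lit 238) (nat_lit 194)))) (XT.nd (nat_lit 156) (nat_lit 76) (nat_lit 0) (XT.nd (nat_lit 78) (nat_lit 0) (nat_lit 0) (XT.lf (nat_lit 0) (nat_lit 727559157)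 (nat_lit 152) (nat_lit 14096002039) (nat_lit 76) (nat_lit 57056465726) (nat_lit 2) (nat_lit 5) (nat_lit 4) (nat_lit 5) (nat_lit 3) (nat_lit 4) (nat_lit 289) (nat_lit 238) (nat_lit 193)) (XT.lf (nat_lit 0) (nat_lit 2976499616) (nat_lit 152) (nat_lit 9455600112) (nat_lit 76) (nat_lit 64910703794) (nat_lit 2) (nat_lit 5) (nat_lit 4) (nat_lit 5) (nat_lit 3) (nat_lit 4) (nat_lit 290) (nat_lit 238) (nat_lit 192))) (XT.nd (nat_lit 78) (nat_lit 76) (nat_lit 0) (XT.lf (nat_lit 0) (nat_lit 5390959615) (nat_lit 152) (nat_lit 4468147598) (nat_lit 76) (nat_lit 73384717822) (nat_lit 2) (nat_lit 5) (nat_lit 4) (nat_lit 5) (nat_lit 3) (nat_lit 4) (nat_lit 291) (nat_lit 238) (nat_lit 191)) (XT.lf (nat_lit 0) (nat_lit 943087851) (nat_lit 76) (nat_lit 7064840500) (nat_lit 152) (nat_lit 81608317623) (nat_lit 1) (nat_lit 5) (nat_lit 2) (nat_lit 5) (nat_lit 3) (nat_lit 4) (nat_lit 292) (nat_lit 238) (nat_lit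 190)))))) (XT.nd (nat_lit 546) (nat_lit 0) (nat_lit 0) (XT.nd (nat_lit 234) (nat_lit 0) (nat_lit 0) (XT.nd (nat_lit 78) (nat_lit 0) (nat_lit 0) (XT.lf (nat_lit 0) (nat_lit 7019506155) (nat_lit 76) (nat_lit 3924048661) (nat_lit 152) (nat_lit 85546222736) (nat_lit 1) (nat_lit 5) (nat_lit 2) (nat_lit 5) (nat_lit 3) (nat_lit 4) (nat_lit 293) (nat_lit 238) (nat_lit 189)) (XT.nd (nat_lit 78) (nat_lit 0) (nat_lit 0) (XT.lf (nat_lit 0) (nat_lit 13561830983) (nat_lit 76) (nat_lit 540286671) (nat_lit 152) (nat_lit 89812083568) (nat_lit 1) (nat_lit 5) (nat_lit 2) (nat_lit 5) (nat_lit 3) (nat_lit 4) (nat_lit 294) (nat_lit 238) (nat_lit 188)) (XT.lf (nat_lit 0) (nat_lit 17577045610) (nat_lit 152) (nat_lit 91399393235) (nat_lit 0) (nat_lit 2951097813) (nat_lit 1) (nat_lit 5) (nat_lit 3) (nat_lit 4) (nat_lit 1) (nat_lit 4) (nat_lit 295) (nat_lit 238) (nat_lit 187)))) (XT.nd (nat_lit 156) (nat_lit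 0) (nat_lit 0) (XT.nd (nat_lit 78) (nat_lit 0) (nat_lit 0) (XT.lf (nat_lit 0) (nat_lit 21333616109) (nat_lit 152) (nat_lit 92562230227) (nat_lit 0) (nat_lit 6685849139) (nat_lit 1) (nat_lit 5) (nat_lit 3) (nat_lit 4) (nat_lit 1) (nat_lit 4) (nat_lit 296) (nat_lit 238) (nat_lit 186)) (XT.lf (nat_lit 0) (nat_lit 25381096401) (nat_lit 152) (nat_lit 93834778193) (nat_lit 0) (nat_lit 10713126495) (nat_lit 1) (nat_lit 5) (nat_lit 3) (nat_lit 4) (nat_lit 1) (nat_lit 4) (nat_lit 297) (nat_lit 238) (nat_lit 185))) (XT.nd (nat_lit 78) (nat_lit 0) (nat_lit 0) (XT.lf (nat_lit 0) (nat_lit 29743471556) (nat_lit 152) (nat_lit 95224578157) (nat_lit 0) (nat_lit 15056795226) (nat_lit 1) (nat_lit 5) (nat_lit 3) (nat_lit 4) (nat_lit 1) (nat_lit 4) (nat_lit 298) (nat_lit 238) (nat_lit 184)) (XT.lf (nat_lit 0) (nat_lit 34446592686) (nat_lit 152) (nat_lit 96739865972) (nat_lit 0) (nat_lit 19742595593) (nat_lit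 1) (nat_lit 5) (nat_lit 3) (nat_lit 4) (nat_lit 1) (nat_lit 4) (nat_lit 299) (nat_lit 238) (nat_lit 183))))) (XT.nd (nat_lit 234) (nat_lit 0) (nat_lit 0) (XT.nd (nat_lit 78) (nat_lit 0) (nat_lit 0) (XT.lf (nat_lit 0) (nat_lit 39518330137) (nat_lit 152) (nat_lit 98389621120) (nat_lit 0) (nat_lit 24798295302) (nat_lit 1) (nat_lit 5) (nat_lit 3) (nat_lit 4) (nat_lit 1) (nat_lit 4) (nat_lit 300) (nat_lit 238) (nat_lit 182)) (XT.nd (nat_lit 78) (nat_lit 0) (nat_lit 0) (XT.lf (nat_lit 0) (nat_lit 44988738650) (nat_lit 152) (nat_lit 100183619929) (nat_lit 0) (nat_lit 30253854053) (nat_lit 1) (nat_lit 5) (nat_lit 3) (nat_lit 4) (nat_lit 1) (nat_lit 4) (nat_lit 301) (nat_lit 238) (nat_lit 181)) (XT.lf (nat_lit 0) (nat_lit 50890235462) (nat_lit 152) (nat_lit 102132493502) (nat_lit 0) (nat_lit 36141601085) (nat_lit 1) (nat_lit 5) (nat_lit 3) (nat_lit 4) (nat_lit 1) (nat_lit 4) (nat_lit 302)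 (nat_lit 238) (nat_lit 180)))) (XT.nd (nat_lit 156) (nat_lit 0) (nat_lit 0) (XT.nd (nat_lit 78) (nat_lit 0) (nat_lit 0) (XT.lf (nat_lit 0) (nat_lit 57257792404) (nat_lit 152) (nat_lit 104247790720) (nat_lit 0) (nat_lit 42496426750) (nat_lit 1) (nat_lit 5) (nat_lit 3) (nat_lit 4) (nat_lit 1) (nat_lit 4) (nat_lit 303) (nat_lit 238) (nat_lit 179)) (XT.lf (nat_lit 0) (nat_lit 64129143148) (nat_lit 152) (nat_lit 106542046677) (nat_lit 0) (nat_lit 49355989274) (nat_lit 1) (nat_lit 5) (nat_lit 3) (nat_lit 4) (nat_lit 1) (nat_lit 4) (nat_lit 304) (nat_lit 238) (nat_lit 178))) (XT.nd (nat_lit 78) (nat_lit 0) (nat_lit 0) (XT.lf (nat_lit 0) (nat_lit 71545006810) (nat_lit 152) (nat_lit 109028856965) (nat_lit 0) (nat_lit 56760937917) (nat_lit 1) (nat_lit 5) (nat_lit 3) (nat_lit 4) (nat_lit 1) (nat_lit 4) (nat_lit 305) (nat_lit 238) (nat_lit 177)) (XT.lf (nat_lit 0) (nat_lit 79549329247) (nat_lit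 152) (nat_lit 111722958237) (nat_lit 0) (nat_lit 64755153856) (nat_lit 1) (nat_lit 5) (nat_lit 3) (nat_lit 4) (nat_lit 1) (nat_lit 4) (nat_lit 306) (nat_lit 238) (nat_lit 176))))))) (XT.nd (nat_lit 1014) (nat_lit 0) (nat_lit 0) (XT.nd (nat_lit 468) (nat_lit 0) (nat_lit 0) (XT.nd (nat_lit 234) (nat_lit 0) (nat_lit 0) (XT.nd (nat_lit 78) (nat_lit 0) (nat_lit 0) (XT.lf (nat_lit 0) (nat_lit 88189543482) (nat_lit 152) (nat_lit 114640315538) (nat_lit 0) (nat_lit 73386010222) (nat_lit 1) (nat_lit 5) (nat_lit 3) (nat_lit 4) (nat_lit 1) (nat_lit 4) (nat_lit 307) (nat_lit 238) (nat_lit 175)) (XT.nd (nat_lit 78) (nat_lit 0) (nat_lit 0) (XT.lf (nat_lit 0) (nat_lit 97516850784) (nat_lit 152) (nat_lit 117798216910) (nat_lit 0) (nat_lit 82704652830) (nat_lit 1) (nat_lit 5) (nat_lit 3) (nat_lit 4) (nat_lit 1) (nat_lit 4) (nat_lit 308) (nat_lit 238) (nat_lit 174)) (XT.lf (nat_lit 0) (nat_lit 107586524086)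 (nat_lit 152) (nat_lit 121215375844) (nat_lit 0) (nat_lit 92766303268) (nat_lit 1) (nat_lit 5) (nat_lit 3) (nat_lit 4) (nat_lit 1) (nat_lit 4) (nat_lit 309) (nat_lit 238) (nat_lit 173)))) (XT.nd (nat_lit 78) (nat_lit 0) (nat_lit 0) (XT.lf (nat_lit 0) (nat_lit 118458235525) (nat_lit 152) (nat_lit 124912042169) (nat_lit 0) (nat_lit 103630586129) (nat_lit 1) (nat_lit 5) (nat_lit 3) (nat_lit 4) (nat_lit 1) (nat_lit 4) (nat_lit 310) (nat_lit 238) (nat_lit 172)) (XT.nd (nat_lit 78) (nat_lit 0) (nat_lit 0) (XT.lf (nat_lit 0) (nat_lit 130196410058) (nat_lit 152) (nat_lit 128910122058) (nat_lit 0) (nat_lit 115361882349) (nat_lit 1) (nat_lit 5) (nat_lit 3) (nat_lit 4) (nat_lit 1) (nat_lit 4) (nat_lit 311) (nat_lit 238) (nat_lit 171)) (XT.lf (nat_lit 0) (nat_lit 142870607239) (nat_lit 152) (nat_lit 133233307835) (nat_lit 0) (nat_lit 128029710721) (nat_lit 1) (nat_lit 5) (nat_lit 3) (nat_lit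 4) (nat_lit 1) (nat_lit 4) (nat_lit 312) (nat_lit 238) (nat_lit 170))))) (XT.nd (nat_lit 234) (nat_lit 0) (nat_lit 0) (XT.nd (nat_lit 78) (nat_lit 0) (nat_lit 0) (XT.lf (nat_lit 0) (nat_lit 156555933420) (nat_lit 152) (nat_lit 137907218379) (nat_lit 0) (nat_lit 141709139858) (nat_lit 1) (nat_lit 5) (nat_lit 3) (nat_lit 4) (nat_lit 1) (nat_lit 4) (nat_lit 313) (nat_lit 238) (nat_lit 169)) (XT.nd (nat_lit 78) (nat_lit 0) (nat_lit 0) (XT.lf (nat_lit 0) (nat_lit 171333486831) (nat_lit 152) (nat_lit 142959550938) (nat_lit 0) (nat_lit 156481233042) (nat_lit 1) (nat_lit 5) (nat_lit 3) (nat_lit 4) (nat_lit 1) (nat_lit 4) (nat_lit 314) (nat_lit 238) (nat_lit 168)) (XT.lf (nat_lit 0) (nat_lit 187290838159) (nat_lit 152) (nat_lit 148420245259) (nat_lit 0) (nat_lit 172433528604) (nat_lit 1) (nat_lit 5) (nat_lit 3) (nat_lit 4) (nat_lit 1) (nat_lit 4) (nat_lit 315) (nat_lit 238) (nat_lit 167))))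 (XT.nd (nat_lit 156) (nat_lit 0) (nat_lit 0) (XT.nd (nat_lit 78) (nat_lit 0) (nat_lit 0) (XT.lf (nat_lit 0) (nat_lit 204522549486) (nat_lit 152) (nat_lit 154321661014) (nat_lit 0) (nat_lit 189660558667) (nat_lit 1) (nat_lit 5) (nat_lit 3) (nat_lit 4) (nat_lit 1) (nat_lit 4) (nat_lit 316) (nat_lit 238) (nat_lit 166)) (XT.lf (nat_lit 0) (nat_lit 223130734656) (nat_lit 152) (nat_lit 160698769554) (nat_lit 0) (nat_lit 208264409333) (nat_lit 1) (nat_lit 5) (nat_lit 3) (nat_lit 4) (nat_lit 1) (nat_lit 4) (nat_lit 317) (nat_lit 238) (nat_lit 165))) (XT.nd (nat_lit 78) (nat_lit 0) (nat_lit 0) (XT.lf (nat_lit 0) (nat_lit 243225664397) (nat_lit 152) (nat_lit 167589361153) (nat_lit 0) (nat_lit 228355325644) (nat_lit 1) (nat_lit 5) (nat_lit 3) (nat_lit 4) (nat_lit 1) (nat_lit 4) (nat_lit 318) (nat_lit 238) (nat_lit 164)) (XT.lf (nat_lit 0) (nat_lit 264926419773) (nat_lit 152) (nat_lit 175034268946)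 (nat_lit 0) (nat_lit 250052364882) (nat_lit 1) (nat_lit 5) (nat_lit 3) (nat_lit 4) (nat_lit 1) (nat_lit 4) (nat_lit 319) (nat_lit 238) (nat_lit 163)))))) (XT.nd (nat_lit 546) (nat_lit 0) (nat_lit 0) (XT.nd (nat_lit 234) (nat_lit 0) (nat_lit 0) (XT.nd (nat_lit 78) (nat_lit 0) (nat_lit 0) (XT.lf (nat_lit 0) (nat_lit 288361597854) (nat_lit 152) (nat_lit 183077610905) (nat_lit 0) (nat_lit 273484102094) (nat_lit 1) (nat_lit 5) (nat_lit 3) (nat_lit 4) (nat_lit 1) (nat_lit 4) (nat_lit 320) (nat_lit 238) (nat_lit 162)) (XT.nd (nat_lit 78) (nat_lit 0) (nat_lit 0) (XT.lf (nat_lit 0) (nat_lit 313670073769) (nat_lit 152) (nat_lit 191767051279) (nat_lit 0) (nat_lit 298789392019) (nat_lit 1) (nat_lit 5) (nat_lit 3) (nat_lit 4) (nat_lit 1) (nat_lit 4) (nat_lit 321) (nat_lit 238) (nat_lit 161)) (XT.lf (nat_lit 0) (nat_lit 341001823672) (nat_lit 152) (nat_lit 201154083047) (nat_lit 0) (nat_lit 326118191931)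 (nat_lit 1) (nat_lit 5) (nat_lit 3) (nat_lit 4) (nat_lit 1) (nat_lit 4) (nat_lit 322) (nat_lit 238) (nat_lit 160)))) (XT.nd (nat_lit 156) (nat_lit 0) (nat_lit 0) (XT.nd (nat_lit 78) (nat_lit 0) (nat_lit 0) (XT.lf (nat_lit 0) (nat_lit 370518813487) (nat_lit 152) (nat_lit 211294333065) (nat_lit 0) (nat_lit 355632450274) (nat_lit 1) (nat_lit 5) (nat_lit 3) (nat_lit 4) (nat_lit 1) (nat_lit 4) (nat_lit 323) (nat_lit 238) (nat_lit 159)) (XT.lf (nat_lit 0) (nat_lit 402395958710) (nat_lit 152) (nat_lit 222247891703) (nat_lit 0) (nat_lit 387507066356) (nat_lit 1) (nat_lit 5) (nat_lit 3) (nat_lit 4) (nat_lit 1) (nat_lit 4) (nat_lit 324) (nat_lit 238) (nat_lit 158))) (XT.nd (nat_lit 78) (nat_lit 0) (nat_lit 0) (XT.lf (nat_lit 0) (nat_lit 436822160943) (nat_lit 152) (nat_lit 234079668938) (nat_lit 0) (nat_lit 421930926791) (nat_lit 1) (nat_lit 5) (nat_lit 3) (nat_lit 4) (nat_lit 1) (nat_lit 4)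 (nat_lit 325) (nat_lit 238) (nat_lit 157)) (XT.lf (nat_lit 0) (nat_lit 474001427310) (nat_lit 152) (nat_lit 246859779007) (nat_lit 0) (nat_lit 459108024827) (nat_lit 1) (nat_lit 5) (nat_lit 3) (nat_lit 4) (nat_lit 1) (nat_lit 4) (nat_lit 326) (nat_lit 238) (nat_lit 156))))) (XT.nd (nat_lit 234) (nat_lit 0) (nat_lit 0) (XT.nd (nat_lit 78) (nat_lit 0) (nat_lit 0) (XT.lf (nat_lit 0) (nat_lit 514154079389) (nat_lit 152) (nat_lit 260663955893) (nat_lit 0) (nat_lit 499258669191) (nat_lit 1) (nat_lit 5) (nat_lit 3) (nat_lit 4) (nat_lit 1) (nat_lit 4) (nat_lit 327) (nat_lit 238) (nat_lit 155)) (XT.nd (nat_lit 78) (nat_lit 0) (nat_lit 0) (XT.lf (nat_lit 0) (nat_lit 557518058822) (nat_lit 152) (nat_lit 275574002127) (nat_lit 0) (nat_lit 542620789630) (nat_lit 1) (nat_lit 5) (nat_lit 3) (nat_lit 4) (nat_lit 1) (nat_lit 4) (nat_lit 328) (nat_lit 238) (nat_lit 154)) (XT.lf (nat_lit 0) (nat_lit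 604350337339) (nat_lit 152) (nat_lit 291678273539) (nat_lit 0) (nat_lit 589451346856) (nat_lit 1) (nat_lit 5) (nat_lit 3) (nat_lit 4) (nat_lit 1) (nat_lit 4) (nat_lit 329) (nat_lit 238) (nat_lit 153)))) (XT.nd (nat_lit 156) (nat_lit 0) (nat_lit 0) (XT.nd (nat_lit 78) (nat_lit 0) (nat_lit 0) (XT.lf (nat_lit 0) (nat_lit 654928439554) (nat_lit 152) (nat_lit 309072202848) (nat_lit 0) (nat_lit 640027855282) (nat_lit 1) (nat_lit 5) (nat_lit 3) (nat_lit 4) (nat_lit 1) (nat_lit 4) (nat_lit 330) (nat_lit 238) (nat_lit 152)) (XT.lf (nat_lit 0) (nat_lit 709552087553) (nat_lit 152) (nat_lit 327858865190) (nat_lit 0) (nat_lit 694650027552) (nat_lit 1) (nat_lit 5) (nat_lit 3) (nat_lit 4) (nat_lit 1) (nat_lit 4) (nat_lit 331) (nat_lit 238) (nat_lit 151))) (XT.nd (nat_lit 78) (nat_lit 0) (nat_lit 0) (XT.lf (nat_lit 0) (nat_lit 768544977029) (nat_lit 152) (nat_lit 348149588936) (nat_lit 0) (nat_lit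 753641550612) (nat_lit 1) (nat_lit 5) (nat_lit 3) (nat_lit 4) (nat_lit 1) (nat_lit 4) (nat_lit 332) (nat_lit 238) (nat_lit 150)) (XT.lf (nat_lit 0) (nat_lit 832256695475) (nat_lit 152) (nat_lit 370064615410) (nat_lit 0) (nat_lit 817352003857) (nat_lit 1) (nat_lit 5) (nat_lit 3) (nat_lit 4) (nat_lit 1) (nat_lit 4) (nat_lit 333) (nat_lit 238) (nat_lit 149))))))))
noncomputable def xc50 : XT := (XT.nd (nat_lit 31512) (nat_lit 0) (nat_lit 152) (XT.nd (nat_lit 30498) (nat_lit 0) (nat_lit 1292) (XT.nd (nat_lit 468) (nat_lit 0) (nat_lit 0) (XT.nd (nat_lit 234) (nat_lit 0) (nat_lit 0) (XT.nd (nat_lit 78) (nat_lit 0) (nat_lit 0) (XT.lf (nat_lit 0) (nat_lit 901064793815) (nat_lit 152) (nat_lit 393733811437) (nat_lit 0) (nat_lit 886158930715) (nat_lit 1) (nat_lit 5) (nat_lit 3) (nat_lit 4) (nat_lit 1) (nat_lit 4) (nat_lit 334) (nat_lit 238) (nat_lit 148)) (XT.nd (nat_lit 78) (nat_lit 0) (nat_lit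 0) (XT.lf (nat_lit 0) (nat_lit 975377023743) (nat_lit 152) (nat_lit 419297438919) (nat_lit 0) (nat_lit 960470075938) (nat_lit 1) (nat_lit 5) (nat_lit 3) (nat_lit 4) (nat_lit 1) (nat_lit 4) (nat_lit 335) (nat_lit 238) (nat_lit 147)) (XT.lf (nat_lit 0) (nat_lit 1055633754028) (nat_lit 152) (nat_lit 446906986019) (nat_lit 0) (nat_lit 1040725801866) (nat_lit 1) (nat_lit 5) (nat_lit 3) (nat_lit 4) (nat_lit 1) (nat_lit 4) (nat_lit 336) (nat_lit 238) (nat_lit 146)))) (XT.nd (nat_lit 78) (nat_lit 0) (nat_lit 0) (XT.lf (nat_lit 0) (nat_lit 1142310580110) (nat_lit 152) (nat_lit 476726064867) (nat_lit 0) (nat_lit 1127401697988) (nat_lit 1) (nat_lit 5) (nat_lit 3) (nat_lit 4) (nat_lit 1) (nat_lit 4) (nat_lit 337) (nat_lit 238) (nat_lit 145)) (XT.nd (nat_lit 78) (nat_lit 0) (nat_lit 0) (XT.lf (nat_lit 0) (nat_lit 1235921142439) (nat_lit 152) (nat_lit 508931381117) (nat_lit 0) (nat_lit 1221011399243)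 (nat_lit 1) (nat_lit 5) (nat_lit 3) (nat_lit 4) (nat_lit 1) (nat_lit 4) (nat_lit 338) (nat_lit 238) (nat_lit 144)) (XT.lf (nat_lit 0) (nat_lit 1337020170274) (nat_lit 152) (nat_lit 543713781086) (nat_lit 0) (nat_lit 1322109629787) (nat_lit 1) (nat_lit 5) (nat_lit 3) (nat_lit 4) (nat_lit 1) (nat_lit 4) (nat_lit 339) (nat_lit 238) (nat_lit 143))))) (XT.nd (nat_lit 234) (nat_lit 0) (nat_lit 0) (XT.nd (nat_lit 78) (nat_lit 0) (nat_lit 0) (XT.lf (nat_lit 0) (nat_lit 1446206768964) (nat_lit 152) (nat_lit 581279382701) (nat_lit 0) (nat_lit 1431295490245) (nat_lit 1) (nat_lit 5) (nat_lit 3) (nat_lit 4) (nat_lit 1) (nat_lit 4) (nat_lit 340) (nat_lit 238) (nat_lit 142)) (XT.nd (nat_lit 78) (nat_lit 0) (nat_lit 0) (XT.lf (nat_lit 0) (nat_lit 1564127970206) (nat_lit 152) (nat_lit 621850796934) (nat_lit 0) (nat_lit 1549216007939) (nat_lit 1) (nat_lit 5) (nat_lit 3) (nat_lit 4) (nat_lit 1) (nat_lit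 4) (nat_lit 341) (nat_lit 238) (nat_lit 141)) (XT.lf (nat_lit 0) (nat_lit 1691482566304) (nat_lit 152) (nat_lit 665668446980) (nat_lit 0) (nat_lit 1676569971121) (nat_lit 1) (nat_lit 5) (nat_lit 3) (nat_lit 4) (nat_lit 1) (nat_lit 4) (nat_lit 342) (nat_lit 238) (nat_lit 140)))) (XT.nd (nat_lit 29640) (nat_lit 0) (nat_lit 3116) (XT.nd (nat_lit 78) (nat_lit 0) (nat_lit 0) (XT.lf (nat_lit 0) (nat_lit 1829025251159) (nat_lit 152) (nat_lit 712991992988) (nat_lit 0) (nat_lit 1814112069944) (nat_lit 1) (nat_lit 5) (nat_lit 3) (nat_lit 4) (nat_lit 1) (nat_lit 4) (nat_lit 343) (nat_lit 238) (nat_lit 139)) (XT.lf (nat_lit 0) (nat_lit 1977571092535) (nat_lit 152) (nat_lit 764101870786) (nat_lit 0) (nat_lit 1962657368697) (nat_lit 1) (nat_lit 5) (nat_lit 3) (nat_lit 4) (nat_lit 1) (nat_lit 4) (nat_lit 344) (nat_lit 238) (nat_lit 138))) (XT.nd (nat_lit 78) (nat_lit 76) (nat_lit 0) (XT.lf (nat_lit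 0) (nat_lit 1358102126) (nat_lit 76) (nat_lit 519253654) (nat_lit 0) (nat_lit 1358102126) (nat_lit 43) (nat_lit 5) (nat_lit 44) (nat_lit 0) (nat_lit 43) (nat_lit 4) (nat_lit 242) (nat_lit 239) (nat_lit 239)) (XT.lf (nat_lit 0) (nat_lit 1891366402) (nat_lit 76) (nat_lit 3416328947) (nat_lit 76) (nat_lit 1206983630) (nat_lit 42) (nat_lit 4) (nat_lit 43) (nat_lit 5) (nat_lit 43) (nat_lit 4) (nat_lit 243) (nat_lit 239) (nat_lit 238)))))) (XT.nd (nat_lit 468) (nat_lit 988) (nat_lit 0) (XT.nd (nat_lit 234) (nat_lit 608) (nat_lit 0) (XT.nd (nat_lit 78) (nat_lit 152) (nat_lit 0) (XT.lf (nat_lit 0) (nat_lit 1252568469) (nat_lit 152) (nat_lit 1649693008) (nat_lit 76) (nat_lit 3678090788) (nat_lit 41) (nat_lit 5) (nat_lit 43) (nat_lit 5) (nat_lit 42) (nat_lit 4) (nat_lit 244) (nat_lit 239) (nat_lit 237)) (XT.nd (nat_lit 78) (nat_lit 0) (nat_lit 0) (XT.lf (nat_lit 0) (nat_lit 1448453086) (nat_lit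 152) (nat_lit 2204261345) (nat_lit 228) (nat_lit 3015225119) (nat_lit 39) (nat_lit 5) (nat_lit 41) (nat_lit 5) (nat_lit 42) (nat_lit 4) (nat_lit 245) (nat_lit 239) (nat_lit 236)) (XT.lf (nat_lit 0) (nat_lit 4737710707) (nat_lit 152) (nat_lit 1339574477) (nat_lit 228) (nat_lit 702258556) (nat_lit 39) (nat_lit 5) (nat_lit 41) (nat_lit 5) (nat_lit 42) (nat_lit 4) (nat_lit 246) (nat_lit 239) (nat_lit 235)))) (XT.nd (nat_lit 78) (nat_lit 304) (nat_lit 0) (XT.lf (nat_lit 0) (nat_lit 1256392090) (nat_lit 228) (nat_lit 274517166) (nat_lit 304) (nat_lit 5382801407) (nat_lit 35) (nat_lit 5) (nat_lit 38) (nat_lit 5) (nat_lit 39) (nat_lit 5) (nat_lit 247) (nat_lit 239) (nat_lit 234)) (XT.nd (nat_lit 78) (nat_lit 304) (nat_lit 0) (XT.lf (nat_lit 0) (nat_lit 3790578339) (nat_lit 304) (nat_lit 2329134590) (nat_lit 76) (nat_lit 949435882) (nat_lit 35) (nat_lit 5) (nat_lit 39) (nat_lit 5) (nat_lit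 36) (nat_lit 4) (nat_lit 248) (nat_lit 239) (nat_lit 233)) (XT.lf (nat_lit 0) (nat_lit 1159867578) (nat_lit 304) (nat_lit 4927890540) (nat_lit 380) (nat_lit 1163373209) (nat_lit 31) (nat_lit 5) (nat_lit 35) (nat_lit 5) (nat_lit 36) (nat_lit 4) (nat_lit 249) (nat_lit 239) (nat_lit 232))))) (XT.nd (nat_lit 234) (nat_lit 532) (nat_lit 0) (XT.nd (nat_lit 78) (nat_lit 380) (nat_lit 0) (XT.lf (nat_lit 0) (nat_lit 954839206) (nat_lit 380) (nat_lit 2574622739) (nat_lit 76) (nat_lit 3927133833) (nat_lit 30) (nat_lit 5) (nat_lit 35) (nat_lit 5) (nat_lit 31) (nat_lit 5) (nat_lit 250) (nat_lit 239) (nat_lit 231)) (XT.nd (nat_lit 78) (nat_lit 0) (nat_lit 0) (XT.lf (nat_lit 0) (nat_lit 1096229492) (nat_lit 380) (nat_lit 1947329582) (nat_lit 456) (nat_lit 4645510985) (nat_lit 25) (nat_lit 5) (nat_lit 30) (nat_lit 5) (nat_lit 31) (nat_lit 5) (nat_lit 251) (nat_lit 239) (nat_lit 230)) (XT.lf (nat_lit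 0) (nat_lit 5059272095) (nat_lit 380) (nat_lit 156514882) (nat_lit 456) (nat_lit 2732989041) (nat_lit 25) (nat_lit 5) (nat_lit 30) (nat_lit 5) (nat_lit 31) (nat_lit 5) (nat_lit 252) (nat_lit 239) (nat_lit 229)))) (XT.nd (nat_lit 156) (nat_lit 228) (nat_lit 0) (XT.nd (nat_lit 78) (nat_lit 76) (nat_lit 0) (XT.lf (nat_lit 0) (nat_lit 965352460) (nat_lit 228) (nat_lit 6519965340) (nat_lit 304) (nat_lit 751861062) (nat_lit 22) (nat_lit 5) (nat_lit 25) (nat_lit 5) (nat_lit 26) (nat_lit 4) (nat_lit 253) (nat_lit 239) (nat_lit 228)) (XT.lf (nat_lit 0) (nat_lit 1262940659) (nat_lit 304) (nat_lit 3444327987) (nat_lit 76) (nat_lit 3844692112) (nat_lit 21) (nat_lit 5) (nat_lit 25) (nat_lit 5) (nat_lit 22) (nat_lit 5) (nat_lit 254) (nat_lit 239) (nat_lit 227))) (XT.nd (nat_lit 78) (nat_lit 0) (nat_lit 0) (XT.lf (nat_lit 0) (nat_lit 553621556) (nat_lit 228) (nat_lit 2727891401) (nat_lit 304) (nat_lit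 5619624213) (nat_lit 18) (nat_lit 5) (nat_lit 21) (nat_lit 5) (nat_lit 22) (nat_lit 5) (nat_lit 255) (nat_lit 239) (nat_lit 226)) (XT.lf (nat_lit 0) (nat_lit 4927018170) (nat_lit 228) (nat_lit 504882876) (nat_lit 304) (nat_lit 3850045052) (nat_lit 18) (nat_lit 5) (nat_lit 21) (nat_lit 5) (nat_lit 22) (nat_lit 5) (nat_lit 256) (nat_lit 239) (nat_lit 225))))))) (XT.nd (nat_lit 1014) (nat_lit 304) (nat_lit 0) (XT.nd (nat_lit 468) (nat_lit 304) (nat_lit 0) (XT.nd (nat_lit 234) (nat_lit 304) (nat_lit 0) (XT.nd (nat_lit 78) (nat_lit 228) (nat_lit 0) (XT.lf (nat_lit 0) (nat_lit 7684882024) (nat_lit 304) (nat_lit 228446206) (nat_lit 76) (nat_lit 1786673234) (nat_lit 18) (nat_lit 5) (nat_lit 22) (nat_lit 5) (nat_lit 19) (nat_lit 4) (nat_lit 257) (nat_lit 239) (nat_lit 224)) (XT.nd (nat_lit 78) (nat_lit 76) (nat_lit 0) (XT.lf (nat_lit 0) (nat_lit 4300623967) (nat_lit 152) (nat_lit 5827506468)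 (nat_lit 228) (nat_lit 23704315) (nat_lit 16) (nat_lit 5) (nat_lit 18) (nat_lit 5) (nat_lit 19) (nat_lit 4) (nat_lit 258) (nat_lit 239) (nat_lit 223)) (XT.lf (nat_lit 0) (nat_lit 1921728575) (nat_lit 228) (nat_lit 1618410394) (nat_lit 76) (nat_lit 7104468548) (nat_lit 15) (nat_lit 5) (nat_lit 18) (nat_lit 5) (nat_lit 16) (nat_lit 5) (nat_lit 259) (nat_lit 239) (nat_lit 222)))) (XT.nd (nat_lit 78) (nat_lit 152) (nat_lit 0) (XT.lf (nat_lit 0) (nat_lit 2978438300) (nat_lit 152) (nat_lit 1017207321) (nat_lit 228) (nat_lit 7184078457) (nat_lit 13) (nat_lit 5) (nat_lit 15) (nat_lit 5) (nat_lit 16) (nat_lit 5) (nat_lit 260) (nat_lit 239) (nat_lit 221)) (XT.nd (nat_lit 78) (nat_lit 152) (nat_lit 0) (XT.lf (nat_lit 0) (nat_lit 6228139585) (nat_lit 228) (nat_lit 3888737740) (nat_lit 76) (nat_lit 1642194404) (nat_lit 13) (nat_lit 5) (nat_lit 16) (nat_lit 5) (nat_lit 14) (nat_lit 4) (nat_lit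 261) (nat_lit 239) (nat_lit 220)) (XT.lf (nat_lit 0) (nat_lit 657226868) (nat_lit 152) (nat_lit 7937379007) (nat_lit 228) (nat_lit 3794504503) (nat_lit 11) (nat_lit 5) (nat_lit 13) (nat_lit 5) (nat_lit 14) (nat_lit 4) (nat_lit 262) (nat_lit 239) (nat_lit 219))))) (XT.nd (nat_lit 234) (nat_lit 76) (nat_lit 0) (XT.nd (nat_lit 78) (nat_lit 228) (nat_lit 0) (XT.lf (nat_lit 0) (nat_lit 5672969595) (nat_lit 152) (nat_lit 5500556963) (nat_lit 228) (nat_lit 1894890346) (nat_lit 11) (nat_lit 5) (nat_lit 13) (nat_lit 5) (nat_lit 14) (nat_lit 4) (nat_lit 263) (nat_lit 239) (nat_lit 218)) (XT.nd (nat_lit 78) (nat_lit 152) (nat_lit 0) (XT.lf (nat_lit 0) (nat_lit 69198450) (nat_lit 228) (nat_lit 2827205286) (nat_lit 76) (nat_lit 10912348864) (nat_lit 10) (nat_lit 5) (nat_lit 13) (nat_lit 5) (nat_lit 11) (nat_lit 5) (nat_lit 264) (nat_lit 239) (nat_lit 217)) (XT.lf (nat_lit 0) (nat_lit 2057088932)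 (nat_lit 152) (nat_lit 6669534) (nat_lit 228) (nat_lit 12543130046) (nat_lit 8) (nat_lit 5) (nat_lit 10) (nat_lit 5) (nat_lit 11) (nat_lit 5) (nat_lit 265) (nat_lit 239) (nat_lit 216)))) (XT.nd (nat_lit 156) (nat_lit 76) (nat_lit 0) (XT.nd (nat_lit 78) (nat_lit 0) (nat_lit 0) (XT.lf (nat_lit 0) (nat_lit 4300664585) (nat_lit 228) (nat_lit 8152634251) (nat_lit 76) (nat_lit 3009480054) (nat_lit 8) (nat_lit 5) (nat_lit 11) (nat_lit 5) (nat_lit 9) (nat_lit 4) (nat_lit 266) (nat_lit 239) (nat_lit 215)) (XT.lf (nat_lit 0) (nat_lit 6650562220) (nat_lit 228) (nat_lit 3501970721) (nat_lit 76) (nat_lit 6240371563) (nat_lit 8) (nat_lit 5) (nat_lit 11) (nat_lit 5) (nat_lit 9) (nat_lit 4) (nat_lit 267) (nat_lit 239) (nat_lit 214))) (XT.nd (nat_lit 78) (nat_lit 0) (nat_lit 0) (XT.lf (nat_lit 0) (nat_lit 1505207471) (nat_lit 76) (nat_lit 7658209093) (nat_lit 152) (nat_lit 8236477455) (nat_lit 7)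 (nat_lit 5) (nat_lit 8) (nat_lit 5) (nat_lit 9) (nat_lit 4) (nat_lit 268) (nat_lit 239) (nat_lit 213)) (XT.lf (nat_lit 0) (nat_lit 7023584726) (nat_lit 76) (nat_lit 4890635916) (nat_lit 152) (nat_lit 6570685977) (nat_lit 7) (nat_lit 5) (nat_lit 8) (nat_lit 5) (nat_lit 9) (nat_lit 4) (nat_lit 269) (nat_lit 239) (nat_lit 212)))))) (XT.nd (nat_lit 546) (nat_lit 76) (nat_lit 0) (XT.nd (nat_lit 234) (nat_lit 152) (nat_lit 0) (XT.nd (nat_lit 78) (nat_lit 76) (nat_lit 0) (XT.lf (nat_lit 0) (nat_lit 12901454964) (nat_lit 76) (nat_lit 1929163062) (nat_lit 152) (nat_lit 4830846580) (nat_lit 7) (nat_lit 5) (nat_lit 8) (nat_lit 5) (nat_lit 9) (nat_lit 4) (nat_lit 270) (nat_lit 239) (nat_lit 211)) (XT.nd (nat_lit 78) (nat_lit 76) (nat_lit 0) (XT.lf (nat_lit 0) (nat_lit 17959803504) (nat_lit 152) (nat_lit 1792802599) (nat_lit 0) (nat_lit 1181541078) (nat_lit 7) (nat_lit 5) (nat_lit 9) (nat_lit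 4) (nat_lit 7) (nat_lit 4) (nat_lit 271) (nat_lit 239) (nat_lit 210)) (XT.lf (nat_lit 0) (nat_lit 3629450043) (nat_lit 76) (nat_lit 17800003000) (nat_lit 76) (nat_lit 872312513) (nat_lit 6) (nat_lit 4) (nat_lit 7) (nat_lit 5) (nat_lit 7) (nat_lit 4) (nat_lit 272) (nat_lit 239) (nat_lit 209)))) (XT.nd (nat_lit 156) (nat_lit 76) (nat_lit 0) (XT.nd (nat_lit 78) (nat_lit 0) (nat_lit 0) (XT.lf (nat_lit 0) (nat_lit 1331276212) (nat_lit 152) (nat_lit 14296995280) (nat_lit 76) (nat_lit 8147850797) (nat_lit 5) (nat_lit 5) (nat_lit 7) (nat_lit 5) (nat_lit 6) (nat_lit 4) (nat_lit 273) (nat_lit 239) (nat_lit 208)) (XT.lf (nat_lit 0) (nat_lit 3620534816) (nat_lit 152) (nat_lit 9663447859) (nat_lit 76) (nat_lit 12086374643) (nat_lit 5) (nat_lit 5) (nat_lit 7) (nat_lit 5) (nat_lit 6) (nat_lit 4) (nat_lit 274) (nat_lit 239) (nat_lit 207))) (XT.nd (nat_lit 78) (nat_lit 76) (nat_lit 0) (XT.lf (nat_lit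 0) (nat_lit 6052665882) (nat_lit 152) (nat_lit 4723236054) (nat_lit 76) (nat_lit 16319694357) (nat_lit 5) (nat_lit 5) (nat_lit 7) (nat_lit 5) (nat_lit 6) (nat_lit 4) (nat_lit 275) (nat_lit 239) (nat_lit 206)) (XT.lf (nat_lit 0) (nat_lit 582031010) (nat_lit 76) (nat_lit 8074048886) (nat_lit 152) (nat_lit 20304863128) (nat_lit 4) (nat_lit 5) (nat_lit 5) (nat_lit 5) (nat_lit 6) (nat_lit 4) (nat_lit 276) (nat_lit 239) (nat_lit 205))))) (XT.nd (nat_lit 234) (nat_lit 76) (nat_lit 0) (XT.nd (nat_lit 78) (nat_lit 0) (nat_lit 0) (XT.lf (nat_lit 0) (nat_lit 6522557518) (nat_lit 76) (nat_lit 5038438116) (nat_lit 152) (nat_lit 19407272492) (nat_lit 4) (nat_lit 5) (nat_lit 5) (nat_lit 5) (nat_lit 6) (nat_lit 4) (nat_lit 277) (nat_lit 239) (nat_lit 204)) (XT.nd (nat_lit 78) (nat_lit 0) (nat_lit 0) (XT.lf (nat_lit 0) (nat_lit 12884829349) (nat_lit 76) (nat_lit 1780222466) (nat_lit 152) (nat_lit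 18473981092) (nat_lit 4) (nat_lit 5) (nat_lit 5) (nat_lit 5) (nat_lit 6) (nat_lit 4) (nat_lit 278) (nat_lit 239) (nat_lit 203)) (XT.lf (nat_lit 0) (nat_lit 18028006626) (nat_lit 152) (nat_lit 15820916085) (nat_lit 0) (nat_lit 1633869343) (nat_lit 4) (nat_lit 5) (nat_lit 6) (nat_lit 4) (nat_lit 4) (nat_lit 4) (nat_lit 279) (nat_lit 239) (nat_lit 202)))) (XT.nd (nat_lit 156) (nat_lit 76) (nat_lit 0) (XT.nd (nat_lit 78) (nat_lit 0) (nat_lit 0) (XT.lf (nat_lit 0) (nat_lit 21677311024) (nat_lit 152) (nat_lit 11127099193) (nat_lit 0) (nat_lit 5208422509) (nat_lit 4) (nat_lit 5) (nat_lit 6) (nat_lit 4) (nat_lit 4) (nat_lit 4) (nat_lit 280) (nat_lit 239) (nat_lit 201)) (XT.lf (nat_lit 0) (nat_lit 25591776124) (nat_lit 152) (nat_lit 6102123276) (nat_lit 0) (nat_lit 9053673505) (nat_lit 4) (nat_lit 5) (nat_lit 6) (nat_lit 4) (nat_lit 4) (nat_lit 4) (nat_lit 281) (nat_lit 239) (nat_lit 200)))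 (XT.nd (nat_lit 78) (nat_lit 76) (nat_lit 0) (XT.lf (nat_lit 0) (nat_lit 29794598757) (nat_lit 152) (nat_lit 716210701) (nat_lit 0) (nat_lit 13192409004) (nat_lit 4) (nat_lit 5) (nat_lit 6) (nat_lit 4) (nat_lit 4) (nat_lit 4) (nat_lit 282) (nat_lit 239) (nat_lit 199)) (XT.lf (nat_lit 0) (nat_lit 5329140230) (nat_lit 76) (nat_lit 29109710259) (nat_lit 76) (nat_lit 12448180567) (nat_lit 3) (nat_lit 4) (nat_lit 4) (nat_lit 5) (nat_lit 4) (nat_lit 4) (nat_lit 283) (nat_lit 239) (nat_lit 198))))))))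
noncomputable def xc51 : XT := (XT.nd (nat_lit 2106) (nat_lit 0) (nat_lit 0) (XT.nd (nat_lit 1014) (nat_lit 0) (nat_lit 0) (XT.nd (nat_lit 468) (nat_lit 152) (nat_lit 0) (XT.nd (nat_lit 234) (nat_lit 0) (nat_lit 0) (XT.nd (nat_lit 78) (nat_lit 0) (nat_lit 0) (XT.lf (nat_lit 0) (nat_lit 11861793472) (nat_lit 76) (nat_lit 27590278404) (nat_lit 76) (nat_lit 10873804324) (nat_lit 3) (nat_lit 4) (nat_lit 4) (nat_lit 5) (nat_lit 4) (nat_lit 4) (nat_lit 284) (nat_lit 239) (nat_lit 197)) (XT.nd (nat_lit 78) (nat_lit 0) (nat_lit 0) (XT.lf (nat_lit 0) (nat_lit 18882746658) (nat_lit 76) (nat_lit 25963092321) (nat_lit 76) (nat_lit 9195743808) (nat_lit 3) (nat_lit 4) (nat_lit 4) (nat_lit 5) (nat_lit 4) (nat_lit 4) (nat_lit 285) (nat_lit 239) (nat_lit 196)) (XT.lf (nat_lit 0) (nat_lit 26433605436) (nat_lit 76) (nat_lit 24218509427) (nat_lit 76) (nat_lit 7404054958) (nat_lit 3) (nat_lit 4) (nat_lit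 4) (nat_lit 5) (nat_lit 4) (nat_lit 4) (nat_lit 286) (nat_lit 239) (nat_lit 195)))) (XT.nd (nat_lit 78) (nat_lit 0) (nat_lit 0) (XT.lf (nat_lit 0) (nat_lit 34559115637) (nat_lit 76) (nat_lit 22346191452) (nat_lit 76) (nat_lit 5488120357) (nat_lit 3) (nat_lit 4) (nat_lit 4) (nat_lit 5) (nat_lit 4) (nat_lit 4) (nat_lit 287) (nat_lit 239) (nat_lit 194)) (XT.nd (nat_lit 78) (nat_lit 0) (nat_lit 0) (XT.lf (nat_lit 0) (nat_lit 43307428431) (nat_lit 76) (nat_lit 20335043180) (nat_lit 76) (nat_lit 3436586320) (nat_lit 3) (nat_lit 4) (nat_lit 4) (nat_lit 5) (nat_lit 4) (nat_lit 4) (nat_lit 288) (nat_lit 239) (nat_lit 193)) (XT.lf (nat_lit 0) (nat_lit 52730385673) (nat_lit 76) (nat_lit 18173146694) (nat_lit 76) (nat_lit 1237295607) (nat_lit 3) (nat_lit 4) (nat_lit 4) (nat_lit 5) (nat_lit 4) (nat_lit 4) (nat_lit 289) (nat_lit 239) (nat_lit 192))))) (XT.nd (nat_lit 234) (nat_lit 76) (nat_lit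 0) (XT.nd (nat_lit 78) (nat_lit 0) (nat_lit 0) (XT.lf (nat_lit 0) (nat_lit 1066618380) (nat_lit 152) (nat_lit 14751909139) (nat_lit 76) (nat_lit 61788045491) (nat_lit 2) (nat_lit 5) (nat_lit 4) (nat_lit 5) (nat_lit 3) (nat_lit 4) (nat_lit 290) (nat_lit 239) (nat_lit 191)) (XT.nd (nat_lit 78) (nat_lit 0) (nat_lit 0) (XT.lf (nat_lit 0) (nat_lit 3474670039) (nat_lit 152) (nat_lit 9775221211) (nat_lit 76) (nat_lit 70258247604) (nat_lit 2) (nat_lit 5) (nat_lit 4) (nat_lit 5) (nat_lit 3) (nat_lit 4) (nat_lit 291) (nat_lit 239) (nat_lit 190)) (XT.lf (nat_lit 0) (nat_lit 6063023842) (nat_lit 152) (nat_lit 4421130044) (nat_lit 76) (nat_lit 79398724420) (nat_lit 2) (nat_lit 5) (nat_lit 4) (nat_lit 5) (nat_lit 3) (nat_lit 4) (nat_lit 292) (nat_lit 239) (nat_lit 189)))) (XT.nd (nat_lit 156) (nat_lit 0) (nat_lit 0) (XT.nd (nat_lit 78) (nat_lit 0) (nat_lit 0) (XT.lf (nat_lit 0) (nat_lit 1412764510)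 (nat_lit 76) (nat_lit 7468230691) (nat_lit 152) (nat_lit 87884854238) (nat_lit 1) (nat_lit 5) (nat_lit 2) (nat_lit 5) (nat_lit 3) (nat_lit 4) (nat_lit 293) (nat_lit 239) (nat_lit 188)) (XT.lf (nat_lit 0) (nat_lit 7946094084) (nat_lit 76) (nat_lit 4088160472) (nat_lit 152) (nat_lit 92156467967) (nat_lit 1) (nat_lit 5) (nat_lit 2) (nat_lit 5) (nat_lit 3) (nat_lit 4) (nat_lit 294) (nat_lit 239) (nat_lit 187))) (XT.nd (nat_lit 78) (nat_lit 0) (nat_lit 0) (XT.lf (nat_lit 0) (nat_lit 14984765828) (nat_lit 76) (nat_lit 444794713) (nat_lit 152) (nat_lit 96780890450) (nat_lit 1) (nat_lit 5) (nat_lit 2) (nat_lit 5) (nat_lit 3) (nat_lit 4) (nat_lit 295) (nat_lit 239) (nat_lit 186)) (XT.lf (nat_lit 0) (nat_lit 19170810714) (nat_lit 152) (nat_lit 98385845992) (nat_lit 0) (nat_lit 3309200278) (nat_lit 1) (nat_lit 5) (nat_lit 3) (nat_lit 4) (nat_lit 1) (nat_lit 4) (nat_lit 296) (nat_lit 239) (nat_lit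 185)))))) (XT.nd (nat_lit 546) (nat_lit 0) (nat_lit 0) (XT.nd (nat_lit 234) (nat_lit 0) (nat_lit 0) (XT.nd (nat_lit 78) (nat_lit 0) (nat_lit 0) (XT.lf (nat_lit 0) (nat_lit 23214010448) (nat_lit 152) (nat_lit 99665820958) (nat_lit 0) (nat_lit 7333693589) (nat_lit 1) (nat_lit 5) (nat_lit 3) (nat_lit 4) (nat_lit 1) (nat_lit 4) (nat_lit 297) (nat_lit 239) (nat_lit 184)) (XT.nd (nat_lit 78) (nat_lit 0) (nat_lit 0) (XT.lf (nat_lit 0) (nat_lit 27572422124) (nat_lit 152) (nat_lit 101062497775) (nat_lit 0) (nat_lit 11674784502) (nat_lit 1) (nat_lit 5) (nat_lit 3) (nat_lit 4) (nat_lit 1) (nat_lit 4) (nat_lit 298) (nat_lit 239) (nat_lit 183)) (XT.lf (nat_lit 0) (nat_lit 32271873364) (nat_lit 152) (nat_lit 102584153046) (nat_lit 0) (nat_lit 16358197999) (nat_lit 1) (nat_lit 5) (nat_lit 3) (nat_lit 4) (nat_lit 1) (nat_lit 4) (nat_lit 299) (nat_lit 239) (nat_lit 182)))) (XT.nd (nat_lit 156) (nat_lit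 0) (nat_lit 0) (XT.nd (nat_lit 78) (nat_lit 0) (nat_lit 0) (XT.lf (nat_lit 0) (nat_lit 37340212771) (nat_lit 152) (nat_lit 104239803986) (nat_lit 0) (nat_lit 21411687643) (nat_lit 1) (nat_lit 5) (nat_lit 3) (nat_lit 4) (nat_lit 1) (nat_lit 4) (nat_lit 300) (nat_lit 239) (nat_lit 181)) (XT.lf (nat_lit 0) (nat_lit 42807474946) (nat_lit 152) (nat_lit 106039261862) (nat_lit 0) (nat_lit 26865200039) (nat_lit 1) (nat_lit 5) (nat_lit 3) (nat_lit 4) (nat_lit 1) (nat_lit 4) (nat_lit 301) (nat_lit 239) (nat_lit 180))) (XT.nd (nat_lit 78) (nat_lit 0) (nat_lit 0) (XT.lf (nat_lit 0) (nat_lit 48706058482) (nat_lit 152) (nat_lit 107993190127) (nat_lit 0) (nat_lit 32751052297) (nat_lit 1) (nat_lit 5) (nat_lit 3) (nat_lit 4) (nat_lit 1) (nat_lit 4) (nat_lit 302) (nat_lit 239) (nat_lit 179)) (XT.lf (nat_lit 0) (nat_lit 55070917946) (nat_lit 152) (nat_lit 110113167615) (nat_lit 0) (nat_lit 39104123542)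 (nat_lit 1) (nat_lit 5) (nat_lit 3) (nat_lit 4) (nat_lit 1) (nat_lit 4) (nat_lit 303) (nat_lit 239) (nat_lit 178))))) (XT.nd (nat_lit 234) (nat_lit 0) (nat_lit 0) (XT.nd (nat_lit 78) (nat_lit 0) (nat_lit 0) (XT.lf (nat_lit 0) (nat_lit 61939771026) (nat_lit 152) (nat_lit 112411757157) (nat_lit 0) (nat_lit 45962061603) (nat_lit 1) (nat_lit 5) (nat_lit 3) (nat_lit 4) (nat_lit 1) (nat_lit 4) (nat_lit 304) (nat_lit 239) (nat_lit 177)) (XT.nd (nat_lit 78) (nat_lit 0) (nat_lit 0) (XT.lf (nat_lit 0) (nat_lit 69353322035) (nat_lit 152) (nat_lit 114902580022) (nat_lit 0) (nat_lit 53365506114) (nat_lit 1) (nat_lit 5) (nat_lit 3) (nat_lit 4) (nat_lit 1) (nat_lit 4) (nat_lit 305) (nat_lit 239) (nat_lit 176)) (XT.lf (nat_lit 0) (nat_lit 77355503127) (nat_lit 152) (nat_lit 117600396643) (nat_lit 0) (nat_lit 61358329337) (nat_lit 1) (nat_lit 5) (nat_lit 3) (nat_lit 4) (nat_lit 1) (nat_lit 4) (nat_lit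 306) (nat_lit 239) (nat_lit 175)))) (XT.nd (nat_lit 156) (nat_lit 0) (nat_lit 0) (XT.nd (nat_lit 78) (nat_lit 0) (nat_lit 0) (XT.lf (nat_lit 0) (nat_lit 85993734635) (nat_lit 152) (nat_lit 120521194082) (nat_lit 0) (nat_lit 69987896152) (nat_lit 1) (nat_lit 5) (nat_lit 3) (nat_lit 4) (nat_lit 1) (nat_lit 4) (nat_lit 307) (nat_lit 239) (nat_lit 174)) (XT.lf (nat_lit 0) (nat_lit 95319206079) (nat_lit 152) (nat_lit 123682280768) (nat_lit 0) (nat_lit 79305344731) (nat_lit 1) (nat_lit 5) (nat_lit 3) (nat_lit 4) (nat_lit 1) (nat_lit 4) (nat_lit 308) (nat_lit 239) (nat_lit 173))) (XT.nd (nat_lit 78) (nat_lit 0) (nat_lit 0) (XT.lf (nat_lit 0) (nat_lit 105387179513) (nat_lit 152) (nat_lit 127102389066) (nat_lit 0) (nat_lit 89365889586) (nat_lit 1) (nat_lit 5) (nat_lit 3) (nat_lit 4) (nat_lit 1) (nat_lit 4) (nat_lit 309) (nat_lit 239) (nat_lit 172)) (XT.lf (nat_lit 0) (nat_lit 116257316999)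 (nat_lit 152) (nat_lit 130801786284) (nat_lit 0) (nat_lit 100229148760) (nat_lit 1) (nat_lit 5) (nat_lit 3) (nat_lit 4) (nat_lit 1) (nat_lit 4) (nat_lit 310) (nat_lit 239) (nat_lit 171))))))) (XT.nd (nat_lit 1014) (nat_lit 0) (nat_lit 0) (XT.nd (nat_lit 468) (nat_lit 0) (nat_lit 0) (XT.nd (nat_lit 234) (nat_lit 0) (nat_lit 0) (XT.nd (nat_lit 78) (nat_lit 0) (nat_lit 0) (XT.lf (nat_lit 0) (nat_lit 127994034170) (nat_lit 152) (nat_lit 134802394777) (nat_lit 0) (nat_lit 111959497122) (nat_lit 1) (nat_lit 5) (nat_lit 3) (nat_lit 4) (nat_lit 1) (nat_lit 4) (nat_lit 311) (nat_lit 239) (nat_lit 170)) (XT.nd (nat_lit 78) (nat_lit 0) (nat_lit 0) (XT.lf (nat_lit 0) (nat_lit 140666881940) (nat_lit 152) (nat_lit 139127921855) (nat_lit 0) (nat_lit 124626447847) (nat_lit 1) (nat_lit 5) (nat_lit 3) (nat_lit 4) (nat_lit 1) (nat_lit 4) (nat_lit 312) (nat_lit 239) (nat_lit 169)) (XT.lf (nat_lit 0)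 (nat_lit 154350958667) (nat_lit 152) (nat_lit 143804000269) (nat_lit 0) (nat_lit 138305064348) (nat_lit 1) (nat_lit 5) (nat_lit 3) (nat_lit 4) (nat_lit 1) (nat_lit 4) (nat_lit 313) (nat_lit 239) (nat_lit 168)))) (XT.nd (nat_lit 78) (nat_lit 0) (nat_lit 0) (XT.lf (nat_lit 0) (nat_lit 169127355176) (nat_lit 152) (nat_lit 148858340115) (nat_lit 0) (nat_lit 153076405091) (nat_lit 1) (nat_lit 5) (nat_lit 3) (nat_lit 4) (nat_lit 1) (nat_lit 4) (nat_lit 314) (nat_lit 239) (nat_lit 167)) (XT.nd (nat_lit 78) (nat_lit 0) (nat_lit 0) (XT.lf (nat_lit 0) (nat_lit 185083635298) (nat_lit 152) (nat_lit 154320893037) (nat_lit 0) (nat_lit 169028003949) (nat_lit 1) (nat_lit 5) (nat_lit 3) (nat_lit 4) (nat_lit 1) (nat_lit 4) (nat_lit 315) (nat_lit 239) (nat_lit 166)) (XT.lf (nat_lit 0) (nat_lit 202314354768) (nat_lit 152) (nat_lit 160224029717) (nat_lit 0) (nat_lit 186254388915) (nat_lit 1) (nat_lit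 5) (nat_lit 3) (nat_lit 4) (nat_lit 1) (nat_lit 4) (nat_lit 316) (nat_lit 239) (nat_lit 165))))) (XT.nd (nat_lit 234) (nat_lit 0) (nat_lit 0) (XT.nd (nat_lit 78) (nat_lit 0) (nat_lit 0) (XT.lf (nat_lit 0) (nat_lit 220921621552) (nat_lit 152) (nat_lit 166602731707) (nat_lit 0) (nat_lit 204857642269) (nat_lit 1) (nat_lit 5) (nat_lit 3) (nat_lit 4) (nat_lit 1) (nat_lit 4) (nat_lit 317) (nat_lit 239) (nat_lit 164)) (XT.nd (nat_lit 78) (nat_lit 0) (nat_lit 0) (XT.lf (nat_lit 0) (nat_lit 241015700935) (nat_lit 152) (nat_lit 173494798722) (nat_lit 0) (nat_lit 224948005514) (nat_lit 1) (nat_lit 5) (nat_lit 3) (nat_lit 4) (nat_lit 1) (nat_lit 4) (nat_lit 318) (nat_lit 239) (nat_lit 163)) (XT.lf (nat_lit 0) (nat_lit 262715668944) (nat_lit 152) (nat_lit 180941072641) (nat_lit 0) (nat_lit 246644532654) (nat_lit 1) (nat_lit 5) (nat_lit 3) (nat_lit 4) (nat_lit 1) (nat_lit 4) (nat_lit 319) (nat_lit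 239) (nat_lit 162)))) (XT.nd (nat_lit 156) (nat_lit 0) (nat_lit 0) (XT.nd (nat_lit 78) (nat_lit 0) (nat_lit 0) (XT.lf (nat_lit 0) (nat_lit 286150117980) (nat_lit 152) (nat_lit 188985679532) (nat_lit 0) (nat_lit 270075795700) (nat_lit 1) (nat_lit 5) (nat_lit 3) (nat_lit 4) (nat_lit 1) (nat_lit 4) (nat_lit 320) (nat_lit 239) (nat_lit 161)) (XT.lf (nat_lit 0) (nat_lit 311457918854) (nat_lit 152) (nat_lit 197676291139) (nat_lit 0) (nat_lit 295380646584) (nat_lit 1) (nat_lit 5) (nat_lit 3) (nat_lit 4) (nat_lit 1) (nat_lit 4) (nat_lit 321) (nat_lit 239) (nat_lit 160))) (XT.nd (nat_lit 78) (nat_lit 0) (nat_lit 0) (XT.lf (nat_lit 0) (nat_lit 338789043718) (nat_lit 152) (nat_lit 207064407382) (nat_lit 0) (nat_lit 322709039975) (nat_lit 1) (nat_lit 5) (nat_lit 3) (nat_lit 4) (nat_lit 1) (nat_lit 4) (nat_lit 322) (nat_lit 239) (nat_lit 159)) (XT.lf (nat_lit 0) (nat_lit 368305454795) (nat_lit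 152) (nat_lit 217205661544) (nat_lit 0) (nat_lit 352222921910) (nat_lit 1) (nat_lit 5) (nat_lit 3) (nat_lit 4) (nat_lit 1) (nat_lit 4) (nat_lit 323) (nat_lit 239) (nat_lit 158)))))) (XT.nd (nat_lit 546) (nat_lit 0) (nat_lit 0) (XT.nd (nat_lit 234) (nat_lit 0) (nat_lit 0) (XT.nd (nat_lit 78) (nat_lit 0) (nat_lit 0) (XT.lf (nat_lit 0) (nat_lit 400182064149) (nat_lit 152) (nat_lit 228160149945) (nat_lit 0) (nat_lit 384097189467) (nat_lit 1) (nat_lit 5) (nat_lit 3) (nat_lit 4) (nat_lit 1) (nat_lit 4) (nat_lit 324) (nat_lit 239) (nat_lit 157)) (XT.nd (nat_lit 78) (nat_lit 0) (nat_lit 0) (XT.lf (nat_lit 0) (nat_lit 434607770206) (nat_lit 152) (nat_lit 239992788071) (nat_lit 0) (nat_lit 418520727193) (nat_lit 1) (nat_lit 5) (nat_lit 3) (nat_lit 4) (nat_lit 1) (nat_lit 4) (nat_lit 325) (nat_lit 239) (nat_lit 156)) (XT.lf (nat_lit 0) (nat_lit 471786577151) (nat_lit 152) (nat_lit 252773695261)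 (nat_lit 0) (nat_lit 455697526424) (nat_lit 1) (nat_lit 5) (nat_lit 3) (nat_lit 4) (nat_lit 1) (nat_lit 4) (nat_lit 326) (nat_lit 239) (nat_lit 155)))) (XT.nd (nat_lit 156) (nat_lit 0) (nat_lit 0) (XT.nd (nat_lit 78) (nat_lit 0) (nat_lit 0) (XT.lf (nat_lit 0) (nat_lit 511938803839) (nat_lit 152) (nat_lit 266578610223) (nat_lit 0) (nat_lit 495847894118) (nat_lit 1) (nat_lit 5) (nat_lit 3) (nat_lit 4) (nat_lit 1) (nat_lit 4) (nat_lit 327) (nat_lit 239) (nat_lit 154)) (XT.lf (nat_lit 0) (nat_lit 555302389392) (nat_lit 152) (nat_lit 281489339860) (nat_lit 0) (nat_lit 539209758380) (nat_lit 1) (nat_lit 5) (nat_lit 3) (nat_lit 4) (nat_lit 1) (nat_lit 4) (nat_lit 328) (nat_lit 239) (nat_lit 153))) (XT.nd (nat_lit 78) (nat_lit 0) (nat_lit 0) (XT.lf (nat_lit 0) (nat_lit 602134303206) (nat_lit 152) (nat_lit 297594244053) (nat_lit 0) (nat_lit 586040078405) (nat_lit 1) (nat_lit 5) (nat_lit 3)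 (nat_lit 4) (nat_lit 1) (nat_lit 4) (nat_lit 329) (nat_lit 239) (nat_lit 152)) (XT.lf (nat_lit 0) (nat_lit 652712067732) (nat_lit 152) (nat_lit 314988759270) (nat_lit 0) (nat_lit 636616367201) (nat_lit 1) (nat_lit 5) (nat_lit 3) (nat_lit 4) (nat_lit 1) (nat_lit 4) (nat_lit 330) (nat_lit 239) (nat_lit 151))))) (XT.nd (nat_lit 234) (nat_lit 0) (nat_lit 0) (XT.nd (nat_lit 78) (nat_lit 0) (nat_lit 0) (XT.lf (nat_lit 0) (nat_lit 707335403057) (nat_lit 152) (nat_lit 333775964120) (nat_lit 0) (nat_lit 691238336109) (nat_lit 1) (nat_lit 5) (nat_lit 3) (nat_lit 4) (nat_lit 1) (nat_lit 4) (nat_lit 331) (nat_lit 239) (nat_lit 150)) (XT.nd (nat_lit 78) (nat_lit 0) (nat_lit 0) (XT.lf (nat_lit 0) (nat_lit 766328003019) (nat_lit 152) (nat_lit 354067190187) (nat_lit 0) (nat_lit 750229670872) (nat_lit 1) (nat_lit 5) (nat_lit 3) (nat_lit 4) (nat_lit 1) (nat_lit 4) (nat_lit 332) (nat_lit 239) (nat_lit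 149)) (XT.lf (nat_lit 0) (nat_lit 830039453397) (nat_lit 152) (nat_lit 375982681774) (nat_lit 0) (nat_lit 813939949767) (nat_lit 1) (nat_lit 5) (nat_lit 3) (nat_lit 4) (nat_lit 1) (nat_lit 4) (nat_lit 333) (nat_lit 239) (nat_lit 148)))) (XT.nd (nat_lit 156) (nat_lit 0) (nat_lit 0) (XT.nd (nat_lit 78) (nat_lit 0) (nat_lit 0) (XT.lf (nat_lit 0) (nat_lit 898847303525) (nat_lit 152) (nat_lit 399652308461) (nat_lit 0) (nat_lit 882746715191) (nat_lit 1) (nat_lit 5) (nat_lit 3) (nat_lit 4) (nat_lit 1) (nat_lit 4) (nat_lit 334) (nat_lit 239) (nat_lit 147)) (XT.lf (nat_lit 0) (nat_lit 973159303628) (nat_lit 152) (nat_lit 425216334703) (nat_lit 0) (nat_lit 957057710936) (nat_lit 1) (nat_lit 5) (nat_lit 3) (nat_lit 4) (nat_lit 1) (nat_lit 4) (nat_lit 335) (nat_lit 239) (nat_lit 146))) (XT.nd (nat_lit 78) (nat_lit 0) (nat_lit 0) (XT.lf (nat_lit 0) (nat_lit 1053415821112) (nat_lit 152) (nat_lit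 452826251024) (nat_lit 0) (nat_lit 1037313298460) (nat_lit 1) (nat_lit 5) (nat_lit 3) (nat_lit 4) (nat_lit 1) (nat_lit 4) (nat_lit 336) (nat_lit 239) (nat_lit 145)) (XT.lf (nat_lit 0) (nat_lit 1140092450156) (nat_lit 152) (nat_lit 482645671744) (nat_lit 0) (nat_lit 1123989066430) (nat_lit 1) (nat_lit 5) (nat_lit 3) (nat_lit 4) (nat_lit 1) (nat_lit 4) (nat_lit 337) (nat_lit 239) (nat_lit 144))))))))
noncomputable def xc52 : XT := (XT.nd (nat_lit 31356) (nat_lit 0) (nat_lit 152) (XT.nd (nat_lit 30342) (nat_lit 0) (nat_lit 1140) (XT.nd (nat_lit 468) (nat_lit 0) (nat_lit 0) (XT.nd (nat_lit 234) (nat_lit 0) (nat_lit 0) (XT.nd (nat_lit 78) (nat_lit 0) (nat_lit 0) (XT.lf (nat_lit 0) (nat_lit 1233702830042) (nat_lit 152) (nat_lit 514851304542) (nat_lit 0) (nat_lit 1217598649026) (nat_lit 1) (nat_lit 5) (nat_lit 3) (nat_lit 4) (nat_lit 1) (nat_lit 4) (nat_lit 338) (nat_lit 239) (nat_lit 143))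 (XT.nd (nat_lit 78) (nat_lit 0) (nat_lit 0) (XT.lf (nat_lit 0) (nat_lit 1334801688949) (nat_lit 152) (nat_lit 549633997611) (nat_lit 0) (nat_lit 1318696769700) (nat_lit 1) (nat_lit 5) (nat_lit 3) (nat_lit 4) (nat_lit 1) (nat_lit 4) (nat_lit 339) (nat_lit 239) (nat_lit 142)) (XT.lf (nat_lit 0) (nat_lit 1443988131224) (nat_lit 152) (nat_lit 587199870614) (nat_lit 0) (nat_lit 1427882528427) (nat_lit 1) (nat_lit 5) (nat_lit 3) (nat_lit 4) (nat_lit 1) (nat_lit 4) (nat_lit 340) (nat_lit 239) (nat_lit 141)))) (XT.nd (nat_lit 78) (nat_lit 0) (nat_lit 0) (XT.lf (nat_lit 0) (nat_lit 1561909187637) (nat_lit 152) (nat_lit 627771536133) (nat_lit 0) (nat_lit 1545802951925) (nat_lit 1) (nat_lit 5) (nat_lit 3) (nat_lit 4) (nat_lit 1) (nat_lit 4) (nat_lit 341) (nat_lit 239) (nat_lit 140)) (XT.nd (nat_lit 78) (nat_lit 0) (nat_lit 0) (XT.lf (nat_lit 0) (nat_lit 1689263649634) (nat_lit 152) (nat_lit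 671589418851) (nat_lit 0) (nat_lit 1673156827889) (nat_lit 1) (nat_lit 5) (nat_lit 3) (nat_lit 4) (nat_lit 1) (nat_lit 4) (nat_lit 342) (nat_lit 239) (nat_lit 139)) (XT.lf (nat_lit 0) (nat_lit 1826806210322) (nat_lit 152) (nat_lit 718913180296) (nat_lit 0) (nat_lit 1810698845954) (nat_lit 1) (nat_lit 5) (nat_lit 3) (nat_lit 4) (nat_lit 1) (nat_lit 4) (nat_lit 343) (nat_lit 239) (nat_lit 138))))) (XT.nd (nat_lit 29562) (nat_lit 0) (nat_lit 2888) (XT.nd (nat_lit 29406) (nat_lit 0) (nat_lit 3192) (XT.lf (nat_lit 0) (nat_lit 1975351936728) (nat_lit 152) (nat_lit 770023257573) (nat_lit 0) (nat_lit 1959244069931) (nat_lit 1) (nat_lit 5) (nat_lit 3) (nat_lit 4) (nat_lit 1) (nat_lit 4) (nat_lit 344) (nat_lit 239) (nat_lit 137)) (XT.nd (nat_lit 78) (nat_lit 76) (nat_lit 0) (XT.lf (nat_lit 0) (nat_lit 0) (nat_lit 0) (nat_lit 0) (nat_lit 0) (nat_lit 1073741823) (nat_lit 1) (nat_lit 0) (nat_lit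 1) (nat_lit 0) (nat_lit 44) (nat_lit 0) (nat_lit 240) (nat_lit 240) (nat_lit 240)) (XT.lf (nat_lit 0) (nat_lit 2515003937) (nat_lit 76) (nat_lit 3806039292) (nat_lit 0) (nat_lit 128910995) (nat_lit 43) (nat_lit 5) (nat_lit 44) (nat_lit 0) (nat_lit 43) (nat_lit 4) (nat_lit 241) (nat_lit 240) (nat_lit 239)))) (XT.nd (nat_lit 156) (nat_lit 152) (nat_lit 0) (XT.nd (nat_lit 78) (nat_lit 152) (nat_lit 0) (XT.lf (nat_lit 0) (nat_lit 4982935162) (nat_lit 76) (nat_lit 1112389346) (nat_lit 0) (nat_lit 387496902) (nat_lit 43) (nat_lit 5) (nat_lit 44) (nat_lit 0) (nat_lit 43) (nat_lit 4) (nat_lit 242) (nat_lit 240) (nat_lit 238)) (XT.lf (nat_lit 0) (nat_lit 876264543) (nat_lit 152) (nat_lit 4818498115) (nat_lit 76) (nat_lit 841359091) (nat_lit 41) (nat_lit 5) (nat_lit 43) (nat_lit 5) (nat_lit 42) (nat_lit 4) (nat_lit 243) (nat_lit 240) (nat_lit 237))) (XT.nd (nat_lit 78) (nat_lit 152) (nat_lit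 0) (XT.lf (nat_lit 0) (nat_lit 3166882102) (nat_lit 152) (nat_lit 1948171101) (nat_lit 76) (nat_lit 1494974873) (nat_lit 41) (nat_lit 5) (nat_lit 43) (nat_lit 5) (nat_lit 42) (nat_lit 4) (nat_lit 244) (nat_lit 240) (nat_lit 236)) (XT.lf (nat_lit 0) (nat_lit 1061873211) (nat_lit 152) (nat_lit 4395342476) (nat_lit 228) (nat_lit 1250916863) (nat_lit 39) (nat_lit 5) (nat_lit 41) (nat_lit 5) (nat_lit 42) (nat_lit 4) (nat_lit 245) (nat_lit 240) (nat_lit 235)))))) (XT.nd (nat_lit 468) (nat_lit 1064) (nat_lit 0) (XT.nd (nat_lit 234) (nat_lit 380) (nat_lit 0) (XT.nd (nat_lit 78) (nat_lit 228) (nat_lit 0) (XT.lf (nat_lit 0) (nat_lit 910257306) (nat_lit 228) (nat_lit 2567851442) (nat_lit 76) (nat_lit 3348962834) (nat_lit 38) (nat_lit 5) (nat_lit 41) (nat_lit 5) (nat_lit 39) (nat_lit 5) (nat_lit 246) (nat_lit 240) (nat_lit 234)) (XT.nd (nat_lit 78) (nat_lit 0) (nat_lit 0) (XT.lf (nat_lit 0) (nat_lit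 613058477) (nat_lit 228) (nat_lit 2388408742) (nat_lit 304) (nat_lit 3968341460) (nat_lit 35) (nat_lit 5) (nat_lit 38) (nat_lit 5) (nat_lit 39) (nat_lit 5) (nat_lit 247) (nat_lit 240) (nat_lit 233)) (XT.lf (nat_lit 0) (nat_lit 4056123840) (nat_lit 228) (nat_lit 1094787607) (nat_lit 304) (nat_lit 1984426584) (nat_lit 35) (nat_lit 5) (nat_lit 38) (nat_lit 5) (nat_lit 39) (nat_lit 5) (nat_lit 248) (nat_lit 240) (nat_lit 232)))) (XT.nd (nat_lit 78) (nat_lit 76) (nat_lit 0) (XT.lf (nat_lit 0) (nat_lit 324751528) (nat_lit 304) (nat_lit 6997559376) (nat_lit 380) (nat_lit 6250973) (nat_lit 31) (nat_lit 5) (nat_lit 35) (nat_lit 5) (nat_lit 36) (nat_lit 4) (nat_lit 249) (nat_lit 240) (nat_lit 231)) (XT.nd (nat_lit 78) (nat_lit 0) (nat_lit 0) (XT.lf (nat_lit 0) (nat_lit 1975971003) (nat_lit 380) (nat_lit 3587950278) (nat_lit 76) (nat_lit 1975137982) (nat_lit 30) (nat_lit 5) (nat_lit 35) (nat_lit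 5) (nat_lit 31) (nat_lit 5) (nat_lit 250) (nat_lit 240) (nat_lit 230)) (XT.lf (nat_lit 0) (nat_lit 3966005694) (nat_lit 380) (nat_lit 39484146) (nat_lit 76) (nat_lit 3774874371) (nat_lit 30) (nat_lit 5) (nat_lit 35) (nat_lit 5) (nat_lit 31) (nat_lit 5) (nat_lit 251) (nat_lit 240) (nat_lit 229))))) (XT.nd (nat_lit 234) (nat_lit 380) (nat_lit 0) (XT.nd (nat_lit 78) (nat_lit 304) (nat_lit 0) (XT.lf (nat_lit 0) (nat_lit 3855641113) (nat_lit 380) (nat_lit 2213045742) (nat_lit 456) (nat_lit 1977813584) (nat_lit 25) (nat_lit 5) (nat_lit 30) (nat_lit 5) (nat_lit 31) (nat_lit 5) (nat_lit 252) (nat_lit 240) (nat_lit 228)) (XT.nd (nat_lit 78) (nat_lit 304) (nat_lit 0) (XT.lf (nat_lit 0) (nat_lit 7937822439) (nat_lit 380) (nat_lit 270822919) (nat_lit 456) (nat_lit 137426053) (nat_lit 25) (nat_lit 5) (nat_lit 30) (nat_lit 5) (nat_lit 31) (nat_lit 5) (nat_lit 253) (nat_lit 240) (nat_lit 227)) (XT.lf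 (nat_lit 0) (nat_lit 1766969979) (nat_lit 304) (nat_lit 5026331454) (nat_lit 76) (nat_lit 1873431113) (nat_lit 21) (nat_lit 5) (nat_lit 25) (nat_lit 5) (nat_lit 22) (nat_lit 5) (nat_lit 254) (nat_lit 240) (nat_lit 226)))) (XT.nd (nat_lit 156) (nat_lit 152) (nat_lit 0) (XT.nd (nat_lit 78) (nat_lit 228) (nat_lit 0) (XT.lf (nat_lit 0) (nat_lit 3714309153) (nat_lit 304) (nat_lit 1120140706) (nat_lit 76) (nat_lit 4187794673) (nat_lit 21) (nat_lit 5) (nat_lit 25) (nat_lit 5) (nat_lit 22) (nat_lit 5) (nat_lit 255) (nat_lit 240) (nat_lit 225)) (XT.lf (nat_lit 0) (nat_lit 3131828762) (nat_lit 228) (nat_lit 2649380491) (nat_lit 304) (nat_lit 3629112993) (nat_lit 18) (nat_lit 5) (nat_lit 21) (nat_lit 5) (nat_lit 22) (nat_lit 5) (nat_lit 256) (nat_lit 240) (nat_lit 224))) (XT.nd (nat_lit 78) (nat_lit 152) (nat_lit 0) (XT.lf (nat_lit 0) (nat_lit 7667399514) (nat_lit 228) (nat_lit 270512189) (nat_lit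 304) (nat_lit 1898714251) (nat_lit 18) (nat_lit 5) (nat_lit 21) (nat_lit 5) (nat_lit 22) (nat_lit 5) (nat_lit 257) (nat_lit 240) (nat_lit 223)) (XT.lf (nat_lit 0) (nat_lit 2203786833) (nat_lit 152) (nat_lit 8073022610) (nat_lit 228) (nat_lit 20503463) (nat_lit 16) (nat_lit 5) (nat_lit 18) (nat_lit 5) (nat_lit 19) (nat_lit 4) (nat_lit 258) (nat_lit 240) (nat_lit 222))))))) (XT.nd (nat_lit 1014) (nat_lit 304) (nat_lit 0) (XT.nd (nat_lit 468) (nat_lit 304) (nat_lit 0) (XT.nd (nat_lit 234) (nat_lit 152) (nat_lit 0) (XT.nd (nat_lit 78) (nat_lit 152) (nat_lit 0) (XT.lf (nat_lit 0) (nat_lit 1877893663) (nat_lit 228) (nat_lit 3919914960) (nat_lit 76) (nat_lit 4996454423) (nat_lit 15) (nat_lit 5) (nat_lit 18) (nat_lit 5) (nat_lit 16) (nat_lit 5) (nat_lit 259) (nat_lit 240) (nat_lit 221)) (XT.nd (nat_lit 78) (nat_lit 0) (nat_lit 0) (XT.lf (nat_lit 0) (nat_lit 498124798) (nat_lit 152) (nat_lit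 3350630935) (nat_lit 228) (nat_lit 7489269642) (nat_lit 13) (nat_lit 5) (nat_lit 15) (nat_lit 5) (nat_lit 16) (nat_lit 5) (nat_lit 260) (nat_lit 240) (nat_lit 220)) (XT.lf (nat_lit 0) (nat_lit 5381573047) (nat_lit 152) (nat_lit 616630780) (nat_lit 228) (nat_lit 5926184510) (nat_lit 13) (nat_lit 5) (nat_lit 15) (nat_lit 5) (nat_lit 16) (nat_lit 5) (nat_lit 261) (nat_lit 240) (nat_lit 219)))) (XT.nd (nat_lit 78) (nat_lit 152) (nat_lit 0) (XT.lf (nat_lit 0) (nat_lit 8295369956) (nat_lit 228) (nat_lit 2067445680) (nat_lit 76) (nat_lit 2197499474) (nat_lit 13) (nat_lit 5) (nat_lit 16) (nat_lit 5) (nat_lit 14) (nat_lit 4) (nat_lit 262) (nat_lit 240) (nat_lit 218)) (XT.nd (nat_lit 78) (nat_lit 0) (nat_lit 0) (XT.lf (nat_lit 0) (nat_lit 2788211512) (nat_lit 152) (nat_lit 7996707082) (nat_lit 228) (nat_lit 2462171426) (nat_lit 11) (nat_lit 5) (nat_lit 13) (nat_lit 5) (nat_lit 14) (nat_lit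 4) (nat_lit 263) (nat_lit 240) (nat_lit 217)) (XT.lf (nat_lit 0) (nat_lit 8051257621) (nat_lit 152) (nat_lit 5407580921) (nat_lit 228) (nat_lit 531765428) (nat_lit 11) (nat_lit 5) (nat_lit 13) (nat_lit 5) (nat_lit 14) (nat_lit 4) (nat_lit 264) (nat_lit 240) (nat_lit 216))))) (XT.nd (nat_lit 234) (nat_lit 76) (nat_lit 0) (XT.nd (nat_lit 78) (nat_lit 152) (nat_lit 0) (XT.lf (nat_lit 0) (nat_lit 1407089798) (nat_lit 228) (nat_lit 1191059687) (nat_lit 76) (nat_lit 12198450914) (nat_lit 10) (nat_lit 5) (nat_lit 13) (nat_lit 5) (nat_lit 11) (nat_lit 5) (nat_lit 265) (nat_lit 240) (nat_lit 215)) (XT.nd (nat_lit 78) (nat_lit 0) (nat_lit 0) (XT.lf (nat_lit 0) (nat_lit 3518938854) (nat_lit 228) (nat_lit 11639682085) (nat_lit 76) (nat_lit 504108599) (nat_lit 8) (nat_lit 5) (nat_lit 11) (nat_lit 5) (nat_lit 9) (nat_lit 4) (nat_lit 266) (nat_lit 240) (nat_lit 214)) (XT.lf (nat_lit 0) (nat_lit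 5839396404) (nat_lit 228) (nat_lit 7032689225) (nat_lit 76) (nat_lit 3723341578) (nat_lit 8) (nat_lit 5) (nat_lit 11) (nat_lit 5) (nat_lit 9) (nat_lit 4) (nat_lit 267) (nat_lit 240) (nat_lit 213)))) (XT.nd (nat_lit 156) (nat_lit 0) (nat_lit 0) (XT.nd (nat_lit 78) (nat_lit 76) (nat_lit 0) (XT.lf (nat_lit 0) (nat_lit 8288791135) (nat_lit 228) (nat_lit 2141243411) (nat_lit 76) (nat_lit 7177659731) (nat_lit 8) (nat_lit 5) (nat_lit 11) (nat_lit 5) (nat_lit 9) (nat_lit 4) (nat_lit 268) (nat_lit 240) (nat_lit 212)) (XT.lf (nat_lit 0) (nat_lit 3224967646) (nat_lit 76) (nat_lit 7734230882) (nat_lit 152) (nat_lit 7740125996) (nat_lit 7) (nat_lit 5) (nat_lit 8) (nat_lit 5) (nat_lit 9) (nat_lit 4) (nat_lit 269) (nat_lit 240) (nat_lit 211))) (XT.nd (nat_lit 78) (nat_lit 0) (nat_lit 0) (XT.lf (nat_lit 0) (nat_lit 9066345186) (nat_lit 76) (nat_lit 4785002587) (nat_lit 152) (nat_lit 6026646730) (nat_lit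 7) (nat_lit 5) (nat_lit 8) (nat_lit 5) (nat_lit 9) (nat_lit 4) (nat_lit 270) (nat_lit 240) (nat_lit 210)) (XT.lf (nat_lit 0) (nat_lit 15304750696) (nat_lit 76) (nat_lit 1623418142) (nat_lit 152) (nat_lit 4226856783) (nat_lit 7) (nat_lit 5) (nat_lit 8) (nat_lit 5) (nat_lit 9) (nat_lit 4) (nat_lit 271) (nat_lit 240) (nat_lit 209)))))) (XT.nd (nat_lit 546) (nat_lit 76) (nat_lit 0) (XT.nd (nat_lit 234) (nat_lit 76) (nat_lit 0) (XT.nd (nat_lit 78) (nat_lit 152) (nat_lit 0) (XT.lf (nat_lit 0) (nat_lit 20250445429) (nat_lit 152) (nat_lit 603383657) (nat_lit 0) (nat_lit 1680752329) (nat_lit 7) (nat_lit 5) (nat_lit 9) (nat_lit 4) (nat_lit 7) (nat_lit 4) (nat_lit 272) (nat_lit 240) (nat_lit 208)) (XT.nd (nat_lit 78) (nat_lit 76) (nat_lit 0) (XT.lf (nat_lit 0) (nat_lit 5218906332) (nat_lit 76) (nat_lit 18746755278) (nat_lit 76) (nat_lit 48951700) (nat_lit 6) (nat_lit 4) (nat_lit 7) (nat_lit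 5) (nat_lit 7) (nat_lit 4) (nat_lit 273) (nat_lit 240) (nat_lit 207)) (XT.lf (nat_lit 0) (nat_lit 2223395941) (nat_lit 152) (nat_lit 14191760830) (nat_lit 76) (nat_lit 9195451685) (nat_lit 5) (nat_lit 5) (nat_lit 7) (nat_lit 5) (nat_lit 6) (nat_lit 4) (nat_lit 274) (nat_lit 240) (nat_lit 206)))) (XT.nd (nat_lit 156) (nat_lit 76) (nat_lit 0) (XT.nd (nat_lit 78) (nat_lit 0) (nat_lit 0) (XT.lf (nat_lit 0) (nat_lit 4637601336) (nat_lit 152) (nat_lit 9280047695) (nat_lit 76) (nat_lit 13419740933) (nat_lit 5) (nat_lit 5) (nat_lit 7) (nat_lit 5) (nat_lit 6) (nat_lit 4) (nat_lit 275) (nat_lit 240) (nat_lit 205)) (XT.lf (nat_lit 0) (nat_lit 7210419647) (nat_lit 152) (nat_lit 4030283834) (nat_lit 76) (nat_lit 17964581312) (nat_lit 5) (nat_lit 5) (nat_lit 7) (nat_lit 5) (nat_lit 6) (nat_lit 4) (nat_lit 276) (nat_lit 240) (nat_lit 204))) (XT.nd (nat_lit 78) (nat_lit 0) (nat_lit 0) (XT.lf (nat_lit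 0) (nat_lit 1672295454) (nat_lit 76) (nat_lit 8325020497) (nat_lit 152) (nat_lit 21224828501) (nat_lit 4) (nat_lit 5) (nat_lit 5) (nat_lit 5) (nat_lit 6) (nat_lit 4) (nat_lit 277) (nat_lit 240) (nat_lit 203)) (XT.lf (nat_lit 0) (nat_lit 8010752826) (nat_lit 76) (nat_lit 5075816592) (nat_lit 152) (nat_lit 20307610145) (nat_lit 4) (nat_lit 5) (nat_lit 5) (nat_lit 5) (nat_lit 6) (nat_lit 4) (nat_lit 278) (nat_lit 240) (nat_lit 202))))) (XT.nd (nat_lit 234) (nat_lit 76) (nat_lit 0) (XT.nd (nat_lit 78) (nat_lit 0) (nat_lit 0) (XT.lf (nat_lit 0) (nat_lit 14810421906) (nat_lit 76) (nat_lit 1584032325) (nat_lit 152) (nat_lit 19347969814) (nat_lit 4) (nat_lit 5) (nat_lit 5) (nat_lit 5) (nat_lit 6) (nat_lit 4) (nat_lit 279) (nat_lit 240) (nat_lit 201)) (XT.nd (nat_lit 78) (nat_lit 0) (nat_lit 0) (XT.lf (nat_lit 0) (nat_lit 19992785859) (nat_lit 152) (nat_lit 16221409582) (nat_lit 0) (nat_lit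 2062420926) (nat_lit 4) (nat_lit 5) (nat_lit 6) (nat_lit 4) (nat_lit 4) (nat_lit 4) (nat_lit 280) (nat_lit 240) (nat_lit 200)) (XT.lf (nat_lit 0) (nat_lit 23895328039) (nat_lit 152) (nat_lit 11216174730) (nat_lit 0) (nat_lit 5900875972) (nat_lit 4) (nat_lit 5) (nat_lit 6) (nat_lit 4) (nat_lit 4) (nat_lit 4) (nat_lit 281) (nat_lit 240) (nat_lit 199)))) (XT.nd (nat_lit 156) (nat_lit 76) (nat_lit 0) (XT.nd (nat_lit 78) (nat_lit 0) (nat_lit 0) (XT.lf (nat_lit 0) (nat_lit 28087110930) (nat_lit 152) (nat_lit 5848540917) (nat_lit 0) (nat_lit 10033318924) (nat_lit 4) (nat_lit 5) (nat_lit 6) (nat_lit 4) (nat_lit 4) (nat_lit 4) (nat_lit 282) (nat_lit 240) (nat_lit 198)) (XT.lf (nat_lit 0) (nat_lit 32592974728) (nat_lit 152) (nat_lit 86699945) (nat_lit 0) (nat_lit 14484238335) (nat_lit 4) (nat_lit 5) (nat_lit 6) (nat_lit 4) (nat_lit 4) (nat_lit 4) (nat_lit 283) (nat_lit 240) (nat_lit 197)))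 (XT.nd (nat_lit 78) (nat_lit 0) (nat_lit 0) (XT.lf (nat_lit 0) (nat_lit 6424891526) (nat_lit 76) (nat_lit 31169248118) (nat_lit 76) (nat_lit 13009637291) (nat_lit 3) (nat_lit 4) (nat_lit 4) (nat_lit 5) (nat_lit 4) (nat_lit 4) (nat_lit 284) (nat_lit 240) (nat_lit 196)) (XT.lf (nat_lit 0) (nat_lit 13430570355) (nat_lit 76) (nat_lit 29548205340) (nat_lit 76) (nat_lit 11341488558) (nat_lit 3) (nat_lit 4) (nat_lit 4) (nat_lit 5) (nat_lit 4) (nat_lit 4) (nat_lit 285) (nat_lit 240) (nat_lit 195))))))))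
noncomputable def xc53 : XT := (XT.nd (nat_lit 2106) (nat_lit 0) (nat_lit 0) (XT.nd (nat_lit 1014) (nat_lit 0) (nat_lit 0) (XT.nd (nat_lit 468) (nat_lit 76) (nat_lit 0) (XT.nd (nat_lit 234) (nat_lit 76) (nat_lit 0) (XT.nd (nat_lit 78) (nat_lit 0) (nat_lit 0) (XT.lf (nat_lit 0) (nat_lit 20967286210) (nat_lit 76) (nat_lit 27809310692) (nat_lit 76) (nat_lit 9558977283) (nat_lit 3) (nat_lit 4) (nat_lit 4) (nat_lit 5) (nat_lit 4) (nat_lit 4) (nat_lit 286) (nat_lit 240) (nat_lit 194)) (XT.nd (nat_lit 78) (nat_lit 0) (nat_lit 0) (XT.lf (nat_lit 0) (nat_lit 29079701111) (nat_lit 76) (nat_lit 25942259612) (nat_lit 76) (nat_lit 7651540438) (nat_lit 3) (nat_lit 4) (nat_lit 4) (nat_lit 5) (nat_lit 4) (nat_lit 4) (nat_lit 287) (nat_lit 240) (nat_lit 193)) (XT.lf (nat_lit 0) (nat_lit 37815888629) (nat_lit 76) (nat_lit 23935988094) (nat_lit 76) (nat_lit 5607874692) (nat_lit 3) (nat_lit 4) (nat_lit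 4) (nat_lit 5) (nat_lit 4) (nat_lit 4) (nat_lit 288) (nat_lit 240) (nat_lit 192)))) (XT.nd (nat_lit 78) (nat_lit 76) (nat_lit 0) (XT.lf (nat_lit 0) (nat_lit 47227618762) (nat_lit 76) (nat_lit 21778607121) (nat_lit 76) (nat_lit 3415869435) (nat_lit 3) (nat_lit 4) (nat_lit 4) (nat_lit 5) (nat_lit 4) (nat_lit 4) (nat_lit 289) (nat_lit 240) (nat_lit 191)) (XT.nd (nat_lit 78) (nat_lit 76) (nat_lit 0) (XT.lf (nat_lit 0) (nat_lit 57370664728) (nat_lit 76) (nat_lit 19457332214) (nat_lit 76) (nat_lit 1062535006) (nat_lit 3) (nat_lit 4) (nat_lit 4) (nat_lit 5) (nat_lit 4) (nat_lit 4) (nat_lit 290) (nat_lit 240) (nat_lit 190)) (XT.lf (nat_lit 0) (nat_lit 1392735308) (nat_lit 152) (nat_lit 15527592509) (nat_lit 76) (nat_lit 66874318303) (nat_lit 2) (nat_lit 5) (nat_lit 4) (nat_lit 5) (nat_lit 3) (nat_lit 4) (nat_lit 291) (nat_lit 240) (nat_lit 189))))) (XT.nd (nat_lit 234) (nat_lit 0) (nat_lit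 0) (XT.nd (nat_lit 78) (nat_lit 76) (nat_lit 0) (XT.lf (nat_lit 0) (nat_lit 3975594992) (nat_lit 152) (nat_lit 10182730239) (nat_lit 76) (nat_lit 76011527017) (nat_lit 2) (nat_lit 5) (nat_lit 4) (nat_lit 5) (nat_lit 3) (nat_lit 4) (nat_lit 292) (nat_lit 240) (nat_lit 188)) (XT.nd (nat_lit 78) (nat_lit 76) (nat_lit 0) (XT.lf (nat_lit 0) (nat_lit 6754502184) (nat_lit 152) (nat_lit 4428053162) (nat_lit 76) (nat_lit 85873418304) (nat_lit 2) (nat_lit 5) (nat_lit 4) (nat_lit 5) (nat_lit 3) (nat_lit 4) (nat_lit 293) (nat_lit 240) (nat_lit 187)) (XT.lf (nat_lit 0) (nat_lit 1863774038) (nat_lit 76) (nat_lit 7926974255) (nat_lit 152) (nat_lit 94699482774) (nat_lit 1) (nat_lit 5) (nat_lit 2) (nat_lit 5) (nat_lit 3) (nat_lit 4) (nat_lit 294) (nat_lit 240) (nat_lit 186)))) (XT.nd (nat_lit 156) (nat_lit 0) (nat_lit 0) (XT.nd (nat_lit 78) (nat_lit 0) (nat_lit 0) (XT.lf (nat_lit 0) (nat_lit 8894733802)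 (nat_lit 76) (nat_lit 4286773595) (nat_lit 152) (nat_lit 99328837439) (nat_lit 1) (nat_lit 5) (nat_lit 2) (nat_lit 5) (nat_lit 3) (nat_lit 4) (nat_lit 295) (nat_lit 240) (nat_lit 185)) (XT.lf (nat_lit 0) (nat_lit 16473317642) (nat_lit 76) (nat_lit 361452628) (nat_lit 152) (nat_lit 104338039495) (nat_lit 1) (nat_lit 5) (nat_lit 2) (nat_lit 5) (nat_lit 3) (nat_lit 4) (nat_lit 296) (nat_lit 240) (nat_lit 184))) (XT.nd (nat_lit 78) (nat_lit 0) (nat_lit 0) (XT.lf (nat_lit 0) (nat_lit 20865313582) (nat_lit 152) (nat_lit 105977650998) (nat_lit 0) (nat_lit 3678544187) (nat_lit 1) (nat_lit 5) (nat_lit 3) (nat_lit 4) (nat_lit 1) (nat_lit 4) (nat_lit 297) (nat_lit 240) (nat_lit 183)) (XT.lf (nat_lit 0) (nat_lit 25220055368) (nat_lit 152) (nat_lit 107380695271) (nat_lit 0) (nat_lit 8017248231) (nat_lit 1) (nat_lit 5) (nat_lit 3) (nat_lit 4) (nat_lit 1) (nat_lit 4) (nat_lit 298) (nat_lit 240)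 (nat_lit 182)))))) (XT.nd (nat_lit 546) (nat_lit 0) (nat_lit 0) (XT.nd (nat_lit 234) (nat_lit 0) (nat_lit 0) (XT.nd (nat_lit 78) (nat_lit 0) (nat_lit 0) (XT.lf (nat_lit 0) (nat_lit 29916108564) (nat_lit 152) (nat_lit 108908246334) (nat_lit 0) (nat_lit 12698451664) (nat_lit 1) (nat_lit 5) (nat_lit 3) (nat_lit 4) (nat_lit 1) (nat_lit 4) (nat_lit 299) (nat_lit 240) (nat_lit 181)) (XT.nd (nat_lit 78) (nat_lit 0) (nat_lit 0) (XT.lf (nat_lit 0) (nat_lit 34981301632) (nat_lit 152) (nat_lit 110569356342) (nat_lit 0) (nat_lit 17749894953) (nat_lit 1) (nat_lit 5) (nat_lit 3) (nat_lit 4) (nat_lit 1) (nat_lit 4) (nat_lit 300) (nat_lit 240) (nat_lit 180)) (XT.lf (nat_lit 0) (nat_lit 40445650531) (nat_lit 152) (nat_lit 112373868910) (nat_lit 0) (nat_lit 23201512575) (nat_lit 1) (nat_lit 5) (nat_lit 3) (nat_lit 4) (nat_lit 1) (nat_lit 4) (nat_lit 301) (nat_lit 240) (nat_lit 179)))) (XT.nd (nat_lit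 156) (nat_lit 0) (nat_lit 0) (XT.nd (nat_lit 78) (nat_lit 0) (nat_lit 0) (XT.lf (nat_lit 0) (nat_lit 46341536589) (nat_lit 152) (nat_lit 114332477445) (nat_lit 0) (nat_lit 29085610413) (nat_lit 1) (nat_lit 5) (nat_lit 3) (nat_lit 4) (nat_lit 1) (nat_lit 4) (nat_lit 302) (nat_lit 240) (nat_lit 178)) (XT.lf (nat_lit 0) (nat_lit 52703898389) (nat_lit 152) (nat_lit 116456788517) (nat_lit 0) (nat_lit 35437057194) (nat_lit 1) (nat_lit 5) (nat_lit 3) (nat_lit 4) (nat_lit 1) (nat_lit 4) (nat_lit 303) (nat_lit 240) (nat_lit 177))) (XT.nd (nat_lit 78) (nat_lit 0) (nat_lit 0) (XT.lf (nat_lit 0) (nat_lit 59570438816) (nat_lit 152) (nat_lit 118759390635) (nat_lit 0) (nat_lit 42293491123) (nat_lit 1) (nat_lit 5) (nat_lit 3) (nat_lit 4) (nat_lit 1) (nat_lit 4) (nat_lit 304) (nat_lit 240) (nat_lit 176)) (XT.lf (nat_lit 0) (nat_lit 66981848480) (nat_lit 152) (nat_lit 121253928850) (nat_lit 0) (nat_lit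 49695542918) (nat_lit 1) (nat_lit 5) (nat_lit 3) (nat_lit 4) (nat_lit 1) (nat_lit 4) (nat_lit 305) (nat_lit 240) (nat_lit 175))))) (XT.nd (nat_lit 234) (nat_lit 0) (nat_lit 0) (XT.nd (nat_lit 78) (nat_lit 0) (nat_lit 0) (XT.lf (nat_lit 0) (nat_lit 74982046846) (nat_lit 152) (nat_lit 123955185610) (nat_lit 0) (nat_lit 57687076590) (nat_lit 1) (nat_lit 5) (nat_lit 3) (nat_lit 4) (nat_lit 1) (nat_lit 4) (nat_lit 306) (nat_lit 240) (nat_lit 174)) (XT.nd (nat_lit 78) (nat_lit 0) (nat_lit 0) (XT.lf (nat_lit 0) (nat_lit 83618442496) (nat_lit 152) (nat_lit 126879168362) (nat_lit 0) (nat_lit 66315449376) (nat_lit 1) (nat_lit 5) (nat_lit 3) (nat_lit 4) (nat_lit 1) (nat_lit 4) (nat_lit 307) (nat_lit 240) (nat_lit 173)) (XT.lf (nat_lit 0) (nat_lit 92942214072) (nat_lit 152) (nat_lit 130043204411) (nat_lit 0) (nat_lit 75631792374) (nat_lit 1) (nat_lit 5) (nat_lit 3) (nat_lit 4) (nat_lit 1) (nat_lit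 4) (nat_lit 308) (nat_lit 240) (nat_lit 172)))) (XT.nd (nat_lit 156) (nat_lit 0) (nat_lit 0) (XT.nd (nat_lit 78) (nat_lit 0) (nat_lit 0) (XT.lf (nat_lit 0) (nat_lit 103008613553) (nat_lit 152) (nat_lit 133466043602) (nat_lit 0) (nat_lit 85691313541) (nat_lit 1) (nat_lit 5) (nat_lit 3) (nat_lit 4) (nat_lit 1) (nat_lit 4) (nat_lit 309) (nat_lit 240) (nat_lit 171)) (XT.lf (nat_lit 0) (nat_lit 113877293676) (nat_lit 152) (nat_lit 137167969425) (nat_lit 0) (nat_lit 96553624856) (nat_lit 1) (nat_lit 5) (nat_lit 3) (nat_lit 4) (nat_lit 1) (nat_lit 4) (nat_lit 310) (nat_lit 240) (nat_lit 170))) (XT.nd (nat_lit 78) (nat_lit 0) (nat_lit 0) (XT.lf (nat_lit 0) (nat_lit 125612661436) (nat_lit 152) (nat_lit 141170919218) (nat_lit 0) (nat_lit 108283095571) (nat_lit 1) (nat_lit 5) (nat_lit 3) (nat_lit 4) (nat_lit 1) (nat_lit 4) (nat_lit 311) (nat_lit 240) (nat_lit 169)) (XT.lf (nat_lit 0) (nat_lit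 138284259752) (nat_lit 152) (nat_lit 145498614167) (nat_lit 0) (nat_lit 120949233661) (nat_lit 1) (nat_lit 5) (nat_lit 3) (nat_lit 4) (nat_lit 1) (nat_lit 4) (nat_lit 312) (nat_lit 240) (nat_lit 168))))))) (XT.nd (nat_lit 1014) (nat_lit 0) (nat_lit 0) (XT.nd (nat_lit 468) (nat_lit 0) (nat_lit 0) (XT.nd (nat_lit 234) (nat_lit 0) (nat_lit 0) (XT.nd (nat_lit 78) (nat_lit 0) (nat_lit 0) (XT.lf (nat_lit 0) (nat_lit 151967179577) (nat_lit 152) (nat_lit 150176699869) (nat_lit 0) (nat_lit 134627097720) (nat_lit 1) (nat_lit 5) (nat_lit 3) (nat_lit 4) (nat_lit 1) (nat_lit 4) (nat_lit 313) (nat_lit 240) (nat_lit 167)) (XT.nd (nat_lit 78) (nat_lit 0) (nat_lit 0) (XT.lf (nat_lit 0) (nat_lit 166742504880) (nat_lit 152) (nat_lit 155232898315) (nat_lit 0) (nat_lit 149397741759) (nat_lit 1) (nat_lit 5) (nat_lit 3) (nat_lit 4) (nat_lit 1) (nat_lit 4) (nat_lit 314) (nat_lit 240) (nat_lit 166)) (XT.lf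 (nat_lit 0) (nat_lit 182697793146) (nat_lit 152) (nat_lit 160697172162) (nat_lit 0) (nat_lit 165348695521) (nat_lit 1) (nat_lit 5) (nat_lit 3) (nat_lit 4) (nat_lit 1) (nat_lit 4) (nat_lit 315) (nat_lit 240) (nat_lit 165)))) (XT.nd (nat_lit 78) (nat_lit 0) (nat_lit 0) (XT.lf (nat_lit 0) (nat_lit 199927594229) (nat_lit 152) (nat_lit 166601902291) (nat_lit 0) (nat_lit 182574483175) (nat_lit 1) (nat_lit 5) (nat_lit 3) (nat_lit 4) (nat_lit 1) (nat_lit 4) (nat_lit 316) (nat_lit 240) (nat_lit 164)) (XT.nd (nat_lit 78) (nat_lit 0) (nat_lit 0) (XT.lf (nat_lit 0) (nat_lit 218534010656) (nat_lit 152) (nat_lit 172982079698) (nat_lit 0) (nat_lit 201177183463) (nat_lit 1) (nat_lit 5) (nat_lit 3) (nat_lit 4) (nat_lit 1) (nat_lit 4) (nat_lit 317) (nat_lit 240) (nat_lit 163)) (XT.lf (nat_lit 0) (nat_lit 238627302671) (nat_lit 152) (nat_lit 179875512839) (nat_lit 0) (nat_lit 221267034609) (nat_lit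 1) (nat_lit 5) (nat_lit 3) (nat_lit 4) (nat_lit 1) (nat_lit 4) (nat_lit 318) (nat_lit 240) (nat_lit 162))))) (XT.nd (nat_lit 234) (nat_lit 0) (nat_lit 0) (XT.nd (nat_lit 78) (nat_lit 0) (nat_lit 0) (XT.lf (nat_lit 0) (nat_lit 260326541635) (nat_lit 152) (nat_lit 187323051690) (nat_lit 0) (nat_lit 242963087583) (nat_lit 1) (nat_lit 5) (nat_lit 3) (nat_lit 4) (nat_lit 1) (nat_lit 4) (nat_lit 319) (nat_lit 240) (nat_lit 161)) (XT.nd (nat_lit 78) (nat_lit 0) (nat_lit 0) (XT.lf (nat_lit 0) (nat_lit 283760315630) (nat_lit 152) (nat_lit 195368829814) (nat_lit 0) (nat_lit 266393911588) (nat_lit 1) (nat_lit 5) (nat_lit 3) (nat_lit 4) (nat_lit 1) (nat_lit 4) (nat_lit 320) (nat_lit 240) (nat_lit 160)) (XT.lf (nat_lit 0) (nat_lit 309067491466) (nat_lit 152) (nat_lit 204060525896) (nat_lit 0) (nat_lit 291698355951) (nat_lit 1) (nat_lit 5) (nat_lit 3) (nat_lit 4) (nat_lit 1) (nat_lit 4) (nat_lit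 321) (nat_lit 240) (nat_lit 159)))) (XT.nd (nat_lit 156) (nat_lit 0) (nat_lit 0) (XT.nd (nat_lit 78) (nat_lit 0) (nat_lit 0) (XT.lf (nat_lit 0) (nat_lit 336398037592) (nat_lit 152) (nat_lit 213449646283) (nat_lit 0) (nat_lit 319026372935) (nat_lit 1) (nat_lit 5) (nat_lit 3) (nat_lit 4) (nat_lit 1) (nat_lit 4) (nat_lit 322) (nat_lit 240) (nat_lit 158)) (XT.lf (nat_lit 0) (nat_lit 365913912798) (nat_lit 152) (nat_lit 223591830207) (nat_lit 0) (nat_lit 348539906344) (nat_lit 1) (nat_lit 5) (nat_lit 3) (nat_lit 4) (nat_lit 1) (nat_lit 4) (nat_lit 323) (nat_lit 240) (nat_lit 157))) (XT.nd (nat_lit 78) (nat_lit 0) (nat_lit 0) (XT.lf (nat_lit 0) (nat_lit 397790025977) (nat_lit 152) (nat_lit 234547179499) (nat_lit 0) (nat_lit 380413851192) (nat_lit 1) (nat_lit 5) (nat_lit 3) (nat_lit 4) (nat_lit 1) (nat_lit 4) (nat_lit 324) (nat_lit 240) (nat_lit 156)) (XT.lf (nat_lit 0) (nat_lit 432215272613)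 (nat_lit 152) (nat_lit 246380614747) (nat_lit 0) (nat_lit 414837090113) (nat_lit 1) (nat_lit 5) (nat_lit 3) (nat_lit 4) (nat_lit 1) (nat_lit 4) (nat_lit 325) (nat_lit 240) (nat_lit 155)))))) (XT.nd (nat_lit 546) (nat_lit 0) (nat_lit 0) (XT.nd (nat_lit 234) (nat_lit 0) (nat_lit 0) (XT.nd (nat_lit 78) (nat_lit 0) (nat_lit 0) (XT.lf (nat_lit 0) (nat_lit 469393654167) (nat_lit 152) (nat_lit 259162260013) (nat_lit 0) (nat_lit 452013612673) (nat_lit 1) (nat_lit 5) (nat_lit 3) (nat_lit 4) (nat_lit 1) (nat_lit 4) (nat_lit 326) (nat_lit 240) (nat_lit 154)) (XT.nd (nat_lit 78) (nat_lit 0) (nat_lit 0) (XT.lf (nat_lit 0) (nat_lit 509545486976) (nat_lit 152) (nat_lit 272967858378) (nat_lit 0) (nat_lit 492163724191) (nat_lit 1) (nat_lit 5) (nat_lit 3) (nat_lit 4) (nat_lit 1) (nat_lit 4) (nat_lit 327) (nat_lit 240) (nat_lit 153)) (XT.lf (nat_lit 0) (nat_lit 552908707825) (nat_lit 152) (nat_lit 287879220796)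 (nat_lit 0) (nat_lit 535525351252) (nat_lit 1) (nat_lit 5) (nat_lit 3) (nat_lit 4) (nat_lit 1) (nat_lit 4) (nat_lit 328) (nat_lit 240) (nat_lit 152)))) (XT.nd (nat_lit 156) (nat_lit 0) (nat_lit 0) (XT.nd (nat_lit 78) (nat_lit 0) (nat_lit 0) (XT.lf (nat_lit 0) (nat_lit 599740283950) (nat_lit 152) (nat_lit 303984710897) (nat_lit 0) (nat_lit 582355451647) (nat_lit 1) (nat_lit 5) (nat_lit 3) (nat_lit 4) (nat_lit 1) (nat_lit 4) (nat_lit 329) (nat_lit 240) (nat_lit 151)) (XT.lf (nat_lit 0) (nat_lit 650317735801) (nat_lit 152) (nat_lit 321379768621) (nat_lit 0) (nat_lit 632931537082) (nat_lit 1) (nat_lit 5) (nat_lit 3) (nat_lit 4) (nat_lit 1) (nat_lit 4) (nat_lit 330) (nat_lit 240) (nat_lit 150))) (XT.nd (nat_lit 78) (nat_lit 0) (nat_lit 0) (XT.lf (nat_lit 0) (nat_lit 704940781612) (nat_lit 152) (nat_lit 340167475793) (nat_lit 0) (nat_lit 687553317692) (nat_lit 1) (nat_lit 5) (nat_lit 3)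 (nat_lit 4) (nat_lit 1) (nat_lit 4) (nat_lit 331) (nat_lit 240) (nat_lit 149)) (XT.lf (nat_lit 0) (nat_lit 763933113506) (nat_lit 152) (nat_lit 360459166973) (nat_lit 0) (nat_lit 746544478105) (nat_lit 1) (nat_lit 5) (nat_lit 3) (nat_lit 4) (nat_lit 1) (nat_lit 4) (nat_lit 332) (nat_lit 240) (nat_lit 148))))) (XT.nd (nat_lit 234) (nat_lit 0) (nat_lit 0) (XT.nd (nat_lit 78) (nat_lit 0) (nat_lit 0) (XT.lf (nat_lit 0) (nat_lit 827644315673) (nat_lit 152) (nat_lit 382375089220) (nat_lit 0) (nat_lit 810254595566) (nat_lit 1) (nat_lit 5) (nat_lit 3) (nat_lit 4) (nat_lit 1) (nat_lit 4) (nat_lit 333) (nat_lit 240) (nat_lit 147)) (XT.nd (nat_lit 78) (nat_lit 0) (nat_lit 0) (XT.lf (nat_lit 0) (nat_lit 896451935976) (nat_lit 152) (nat_lit 406045114667) (nat_lit 0) (nat_lit 879061211512) (nat_lit 1) (nat_lit 5) (nat_lit 3) (nat_lit 4) (nat_lit 1) (nat_lit 4) (nat_lit 334) (nat_lit 240) (nat_lit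 146)) (XT.lf (nat_lit 0) (nat_lit 970763723278) (nat_lit 152) (nat_lit 431609510129) (nat_lit 0) (nat_lit 953372068854) (nat_lit 1) (nat_lit 5) (nat_lit 3) (nat_lit 4) (nat_lit 1) (nat_lit 4) (nat_lit 335) (nat_lit 240) (nat_lit 145)))) (XT.nd (nat_lit 156) (nat_lit 0) (nat_lit 0) (XT.nd (nat_lit 78) (nat_lit 0) (nat_lit 0) (XT.lf (nat_lit 0) (nat_lit 1051020043724) (nat_lit 152) (nat_lit 459219768322) (nat_lit 0) (nat_lit 1033627528226) (nat_lit 1) (nat_lit 5) (nat_lit 3) (nat_lit 4) (nat_lit 1) (nat_lit 4) (nat_lit 336) (nat_lit 240) (nat_lit 144)) (XT.lf (nat_lit 0) (nat_lit 1137696490325) (nat_lit 152) (nat_lit 489039505590) (nat_lit 0) (nat_lit 1120303177536) (nat_lit 1) (nat_lit 5) (nat_lit 3) (nat_lit 4) (nat_lit 1) (nat_lit 4) (nat_lit 337) (nat_lit 240) (nat_lit 143))) (XT.nd (nat_lit 78) (nat_lit 0) (nat_lit 0) (XT.lf (nat_lit 0) (nat_lit 1231306701283) (nat_lit 152) (nat_lit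 521245431488) (nat_lit 0) (nat_lit 1213912650262) (nat_lit 1) (nat_lit 5) (nat_lit 3) (nat_lit 4) (nat_lit 1) (nat_lit 4) (nat_lit 338) (nat_lit 240) (nat_lit 142)) (XT.lf (nat_lit 0) (nat_lit 1332405403774) (nat_lit 152) (nat_lit 556028395946) (nat_lit 0) (nat_lit 1315010669204) (nat_lit 1) (nat_lit 5) (nat_lit 3) (nat_lit 4) (nat_lit 1) (nat_lit 4) (nat_lit 339) (nat_lit 240) (nat_lit 141))))))))
noncomputable def xc54 : XT := (XT.nd (nat_lit 31512) (nat_lit 0) (nat_lit 152) (XT.nd (nat_lit 30420) (nat_lit 0) (nat_lit 912) (XT.nd (nat_lit 29874) (nat_lit 0) (nat_lit 2584) (XT.nd (nat_lit 234) (nat_lit 0) (nat_lit 0) (XT.nd (nat_lit 78) (nat_lit 0) (nat_lit 0) (XT.lf (nat_lit 0) (nat_lit 1441591701220) (nat_lit 152) (nat_lit 593594520236) (nat_lit 0) (nat_lit 1424196333736) (nat_lit 1) (nat_lit 5) (nat_lit 3) (nat_lit 4) (nat_lit 1) (nat_lit 4) (nat_lit 340) (nat_lit 240) (nat_lit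 140)) (XT.nd (nat_lit 78) (nat_lit 0) (nat_lit 0) (XT.lf (nat_lit 0) (nat_lit 1559512623533) (nat_lit 152) (nat_lit 634166418426) (nat_lit 0) (nat_lit 1542116670015) (nat_lit 1) (nat_lit 5) (nat_lit 3) (nat_lit 4) (nat_lit 1) (nat_lit 4) (nat_lit 341) (nat_lit 240) (nat_lit 139)) (XT.lf (nat_lit 0) (nat_lit 1686866961362) (nat_lit 152) (nat_lit 677984516582) (nat_lit 0) (nat_lit 1669470465222) (nat_lit 1) (nat_lit 5) (nat_lit 3) (nat_lit 4) (nat_lit 1) (nat_lit 4) (nat_lit 342) (nat_lit 240) (nat_lit 138)))) (XT.nd (nat_lit 78) (nat_lit 0) (nat_lit 0) (XT.lf (nat_lit 0) (nat_lit 1824409407080) (nat_lit 152) (nat_lit 725308477506) (nat_lit 0) (nat_lit 1807012408512) (nat_lit 1) (nat_lit 5) (nat_lit 3) (nat_lit 4) (nat_lit 1) (nat_lit 4) (nat_lit 343) (nat_lit 240) (nat_lit 137)) (XT.nd (nat_lit 29484) (nat_lit 0) (nat_lit 3192) (XT.lf (nat_lit 0) (nat_lit 1972955027033) (nat_lit 152)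 (nat_lit 776418739485) (nat_lit 0) (nat_lit 1955557563252) (nat_lit 1) (nat_lit 5) (nat_lit 3) (nat_lit 4) (nat_lit 1) (nat_lit 4) (nat_lit 344) (nat_lit 240) (nat_lit 136)) (XT.lf (nat_lit 0) (nat_lit 1225666475) (nat_lit 0) (nat_lit 1225666475) (nat_lit 76) (nat_lit 783667797) (nat_lit 43) (nat_lit 5) (nat_lit 43) (nat_lit 3) (nat_lit 44) (nat_lit 0) (nat_lit 241) (nat_lit 241) (nat_lit 238))))) (XT.nd (nat_lit 234) (nat_lit 380) (nat_lit 0) (XT.nd (nat_lit 78) (nat_lit 0) (nat_lit 0) (XT.lf (nat_lit 0) (nat_lit 700760535) (nat_lit 228) (nat_lit 1403277004) (nat_lit 228) (nat_lit 4409066917) (nat_lit 40) (nat_lit 3) (nat_lit 43) (nat_lit 3) (nat_lit 43) (nat_lit 5) (nat_lit 242) (nat_lit 241) (nat_lit 237)) (XT.nd (nat_lit 78) (nat_lit 0) (nat_lit 0) (XT.lf (nat_lit 76) (nat_lit 1323372848) (nat_lit 0) (nat_lit 1549048746) (nat_lit 228) (nat_lit 3703324939) (nat_lit 41) (nat_lit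 5) (nat_lit 40) (nat_lit 3) (nat_lit 43) (nat_lit 5) (nat_lit 243) (nat_lit 241) (nat_lit 236)) (XT.lf (nat_lit 76) (nat_lit 4227622487) (nat_lit 0) (nat_lit 817303042) (nat_lit 228) (nat_lit 1615908618) (nat_lit 41) (nat_lit 5) (nat_lit 40) (nat_lit 3) (nat_lit 43) (nat_lit 5) (nat_lit 244) (nat_lit 241) (nat_lit 235)))) (XT.nd (nat_lit 156) (nat_lit 228) (nat_lit 0) (XT.nd (nat_lit 78) (nat_lit 0) (nat_lit 0) (XT.lf (nat_lit 0) (nat_lit 416571628) (nat_lit 228) (nat_lit 6276218335) (nat_lit 76) (nat_lit 76998413) (nat_lit 38) (nat_lit 5) (nat_lit 41) (nat_lit 5) (nat_lit 39) (nat_lit 5) (nat_lit 245) (nat_lit 241) (nat_lit 234)) (XT.lf (nat_lit 0) (nat_lit 2423813976) (nat_lit 228) (nat_lit 3296138735) (nat_lit 76) (nat_lit 1175051477) (nat_lit 38) (nat_lit 5) (nat_lit 41) (nat_lit 5) (nat_lit 39) (nat_lit 5) (nat_lit 246) (nat_lit 241) (nat_lit 233))) (XT.nd (nat_lit 78) (nat_lit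 228) (nat_lit 0) (XT.lf (nat_lit 0) (nat_lit 4415691027) (nat_lit 228) (nat_lit 209085109) (nat_lit 76) (nat_lit 2422184994) (nat_lit 38) (nat_lit 5) (nat_lit 41) (nat_lit 5) (nat_lit 39) (nat_lit 5) (nat_lit 247) (nat_lit 241) (nat_lit 232)) (XT.lf (nat_lit 0) (nat_lit 3161381288) (nat_lit 228) (nat_lit 3318656503) (nat_lit 304) (nat_lit 740439393) (nat_lit 35) (nat_lit 5) (nat_lit 38) (nat_lit 5) (nat_lit 39) (nat_lit 5) (nat_lit 248) (nat_lit 241) (nat_lit 231)))))) (XT.nd (nat_lit 546) (nat_lit 608) (nat_lit 0) (XT.nd (nat_lit 234) (nat_lit 684) (nat_lit 0) (XT.nd (nat_lit 78) (nat_lit 304) (nat_lit 0) (XT.lf (nat_lit 0) (nat_lit 1082562875) (nat_lit 304) (nat_lit 754629906) (nat_lit 76) (nat_lit 5582598103) (nat_lit 34) (nat_lit 5) (nat_lit 38) (nat_lit 5) (nat_lit 35) (nat_lit 5) (nat_lit 249) (nat_lit 241) (nat_lit 230)) (XT.nd (nat_lit 78) (nat_lit 0) (nat_lit 0) (XT.lf (nat_lit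 0) (nat_lit 2816272929) (nat_lit 304) (nat_lit 114855359) (nat_lit 380) (nat_lit 4710751317) (nat_lit 30) (nat_lit 5) (nat_lit 34) (nat_lit 5) (nat_lit 35) (nat_lit 5) (nat_lit 250) (nat_lit 241) (nat_lit 229)) (XT.lf (nat_lit 0) (nat_lit 4851436972) (nat_lit 380) (nat_lit 1336922956) (nat_lit 76) (nat_lit 1701269235) (nat_lit 30) (nat_lit 5) (nat_lit 35) (nat_lit 5) (nat_lit 31) (nat_lit 5) (nat_lit 251) (nat_lit 241) (nat_lit 228)))) (XT.nd (nat_lit 156) (nat_lit 228) (nat_lit 0) (XT.nd (nat_lit 78) (nat_lit 76) (nat_lit 0) (XT.lf (nat_lit 0) (nat_lit 2428920199) (nat_lit 380) (nat_lit 4428881806) (nat_lit 456) (nat_lit 1306471020) (nat_lit 25) (nat_lit 5) (nat_lit 30) (nat_lit 5) (nat_lit 31) (nat_lit 5) (nat_lit 252) (nat_lit 241) (nat_lit 227)) (XT.lf (nat_lit 0) (nat_lit 446207526) (nat_lit 456) (nat_lit 2025928850) (nat_lit 76) (nat_lit 5996248268) (nat_lit 24) (nat_lit 5)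 (nat_lit 30) (nat_lit 5) (nat_lit 25) (nat_lit 5) (nat_lit 253) (nat_lit 241) (nat_lit 226))) (XT.nd (nat_lit 78) (nat_lit 0) (nat_lit 0) (XT.lf (nat_lit 0) (nat_lit 1926462910) (nat_lit 228) (nat_lit 270903463) (nat_lit 304) (nat_lit 6603760929) (nat_lit 21) (nat_lit 5) (nat_lit 24) (nat_lit 5) (nat_lit 25) (nat_lit 5) (nat_lit 254) (nat_lit 241) (nat_lit 225)) (XT.lf (nat_lit 0) (nat_lit 4084562060) (nat_lit 304) (nat_lit 3021277303) (nat_lit 76) (nat_lit 2056201150) (nat_lit 21) (nat_lit 5) (nat_lit 25) (nat_lit 5) (nat_lit 22) (nat_lit 5) (nat_lit 255) (nat_lit 241) (nat_lit 224))))) (XT.nd (nat_lit 234) (nat_lit 380) (nat_lit 0) (XT.nd (nat_lit 78) (nat_lit 0) (nat_lit 0) (XT.lf (nat_lit 0) (nat_lit 1072764532) (nat_lit 228) (nat_lit 4979521294) (nat_lit 304) (nat_lit 3506312568) (nat_lit 18) (nat_lit 5) (nat_lit 21) (nat_lit 5) (nat_lit 22) (nat_lit 5) (nat_lit 256) (nat_lit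 241) (nat_lit 223)) (XT.nd (nat_lit 78) (nat_lit 0) (nat_lit 0) (XT.lf (nat_lit 0) (nat_lit 5554800887) (nat_lit 228) (nat_lit 2606922303) (nat_lit 304) (nat_lit 1827465731) (nat_lit 18) (nat_lit 5) (nat_lit 21) (nat_lit 5) (nat_lit 22) (nat_lit 5) (nat_lit 257) (nat_lit 241) (nat_lit 222)) (XT.lf (nat_lit 0) (nat_lit 10292296868) (nat_lit 228) (nat_lit 56589620) (nat_lit 304) (nat_lit 113596298) (nat_lit 18) (nat_lit 5) (nat_lit 21) (nat_lit 5) (nat_lit 22) (nat_lit 5) (nat_lit 258) (nat_lit 241) (nat_lit 221)))) (XT.nd (nat_lit 156) (nat_lit 152) (nat_lit 0) (XT.nd (nat_lit 78) (nat_lit 0) (nat_lit 0) (XT.lf (nat_lit 0) (nat_lit 1740272938) (nat_lit 228) (nat_lit 6519385797) (nat_lit 76) (nat_lit 2704289458) (nat_lit 15) (nat_lit 5) (nat_lit 18) (nat_lit 5) (nat_lit 16) (nat_lit 5) (nat_lit 259) (nat_lit 241) (nat_lit 220)) (XT.lf (nat_lit 0) (nat_lit 3658966785) (nat_lit 228) (nat_lit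 2176943523) (nat_lit 76) (nat_lit 5676345310) (nat_lit 15) (nat_lit 5) (nat_lit 18) (nat_lit 5) (nat_lit 16) (nat_lit 5) (nat_lit 260) (nat_lit 241) (nat_lit 219))) (XT.nd (nat_lit 78) (nat_lit 0) (nat_lit 0) (XT.lf (nat_lit 0) (nat_lit 2542474489) (nat_lit 152) (nat_lit 3172428515) (nat_lit 228) (nat_lit 6391540636) (nat_lit 13) (nat_lit 5) (nat_lit 15) (nat_lit 5) (nat_lit 16) (nat_lit 5) (nat_lit 261) (nat_lit 241) (nat_lit 218)) (XT.lf (nat_lit 0) (nat_lit 7668117137) (nat_lit 152) (nat_lit 252764117) (nat_lit 228) (nat_lit 4829102811) (nat_lit 13) (nat_lit 5) (nat_lit 15) (nat_lit 5) (nat_lit 16) (nat_lit 5) (nat_lit 262) (nat_lit 241) (nat_lit 217))))))) (XT.nd (nat_lit 1014) (nat_lit 152) (nat_lit 0) (XT.nd (nat_lit 468) (nat_lit 228) (nat_lit 0) (XT.nd (nat_lit 234) (nat_lit 152) (nat_lit 0) (XT.nd (nat_lit 78) (nat_lit 228) (nat_lit 0) (XT.lf (nat_lit 0) (nat_lit 10304146333)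 (nat_lit 228) (nat_lit 404659682) (nat_lit 76) (nat_lit 2736750665) (nat_lit 13) (nat_lit 5) (nat_lit 16) (nat_lit 5) (nat_lit 14) (nat_lit 4) (nat_lit 263) (nat_lit 241) (nat_lit 216)) (XT.nd (nat_lit 78) (nat_lit 76) (nat_lit 0) (XT.lf (nat_lit 0) (nat_lit 4793167006) (nat_lit 152) (nat_lit 8142906057) (nat_lit 228) (nat_lit 1256630191) (nat_lit 11) (nat_lit 5) (nat_lit 13) (nat_lit 5) (nat_lit 14) (nat_lit 4) (nat_lit 264) (nat_lit 241) (nat_lit 215)) (XT.lf (nat_lit 0) (nat_lit 688084956) (nat_lit 228) (nat_lit 4676309726) (nat_lit 76) (nat_lit 9638365898) (nat_lit 10) (nat_lit 5) (nat_lit 13) (nat_lit 5) (nat_lit 11) (nat_lit 5) (nat_lit 265) (nat_lit 241) (nat_lit 214)))) (XT.nd (nat_lit 78) (nat_lit 0) (nat_lit 0) (XT.lf (nat_lit 0) (nat_lit 326636167) (nat_lit 152) (nat_lit 2343156490) (nat_lit 228) (nat_lit 13209725218) (nat_lit 8) (nat_lit 5) (nat_lit 10) (nat_lit 5) (nat_lit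 11) (nat_lit 5) (nat_lit 266) (nat_lit 241) (nat_lit 213)) (XT.nd (nat_lit 78) (nat_lit 0) (nat_lit 0) (XT.lf (nat_lit 0) (nat_lit 4906637900) (nat_lit 228) (nat_lit 10929971684) (nat_lit 76) (nat_lit 982495731) (nat_lit 8) (nat_lit 5) (nat_lit 11) (nat_lit 5) (nat_lit 9) (nat_lit 4) (nat_lit 267) (nat_lit 241) (nat_lit 212)) (XT.lf (nat_lit 0) (nat_lit 7330792503) (nat_lit 228) (nat_lit 6075966430) (nat_lit 76) (nat_lit 4426818574) (nat_lit 8) (nat_lit 5) (nat_lit 11) (nat_lit 5) (nat_lit 9) (nat_lit 4) (nat_lit 268) (nat_lit 241) (nat_lit 211))))) (XT.nd (nat_lit 234) (nat_lit 152) (nat_lit 0) (XT.nd (nat_lit 78) (nat_lit 76) (nat_lit 0) (XT.lf (nat_lit 0) (nat_lit 9900268858) (nat_lit 228) (nat_lit 905748501) (nat_lit 76) (nat_lit 8127437019) (nat_lit 8) (nat_lit 5) (nat_lit 11) (nat_lit 5) (nat_lit 9) (nat_lit 4) (nat_lit 269) (nat_lit 241) (nat_lit 210)) (XT.nd (nat_lit 78) (nat_lit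 0) (nat_lit 0) (XT.lf (nat_lit 0) (nat_lit 4854144393) (nat_lit 76) (nat_lit 7892891388) (nat_lit 152) (nat_lit 7368878552) (nat_lit 7) (nat_lit 5) (nat_lit 8) (nat_lit 5) (nat_lit 9) (nat_lit 4) (nat_lit 270) (nat_lit 241) (nat_lit 209)) (XT.lf (nat_lit 0) (nat_lit 11061263297) (nat_lit 76) (nat_lit 4741804678) (nat_lit 152) (nat_lit 5591688169) (nat_lit 7) (nat_lit 5) (nat_lit 8) (nat_lit 5) (nat_lit 9) (nat_lit 4) (nat_lit 271) (nat_lit 241) (nat_lit 208)))) (XT.nd (nat_lit 156) (nat_lit 76) (nat_lit 0) (XT.nd (nat_lit 78) (nat_lit 76) (nat_lit 0) (XT.lf (nat_lit 0) (nat_lit 17704696026) (nat_lit 76) (nat_lit 1358848893) (nat_lit 152) (nat_lit 3715847641) (nat_lit 7) (nat_lit 5) (nat_lit 8) (nat_lit 5) (nat_lit 9) (nat_lit 4) (nat_lit 272) (nat_lit 241) (nat_lit 207)) (XT.lf (nat_lit 0) (nat_lit 516901321) (nat_lit 76) (nat_lit 22098056537) (nat_lit 76) (nat_lit 1657697385) (nat_lit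 6) (nat_lit 4) (nat_lit 7) (nat_lit 5) (nat_lit 7) (nat_lit 4) (nat_lit 273) (nat_lit 241) (nat_lit 206))) (XT.nd (nat_lit 78) (nat_lit 0) (nat_lit 0) (XT.lf (nat_lit 0) (nat_lit 677200560) (nat_lit 152) (nat_lit 19141616071) (nat_lit 76) (nat_lit 6054471521) (nat_lit 5) (nat_lit 5) (nat_lit 7) (nat_lit 5) (nat_lit 6) (nat_lit 4) (nat_lit 274) (nat_lit 241) (nat_lit 205)) (XT.lf (nat_lit 0) (nat_lit 3074808111) (nat_lit 152) (nat_lit 14256290592) (nat_lit 76) (nat_lit 10270399226) (nat_lit 5) (nat_lit 5) (nat_lit 7) (nat_lit 5) (nat_lit 6) (nat_lit 4) (nat_lit 275) (nat_lit 241) (nat_lit 204)))))) (XT.nd (nat_lit 546) (nat_lit 76) (nat_lit 0) (XT.nd (nat_lit 234) (nat_lit 0) (nat_lit 0) (XT.nd (nat_lit 78) (nat_lit 76) (nat_lit 0) (XT.lf (nat_lit 0) (nat_lit 5632258048) (nat_lit 152) (nat_lit 9030959747) (nat_lit 76) (nat_lit 14807497436) (nat_lit 5) (nat_lit 5) (nat_lit 7) (nat_lit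 5) (nat_lit 6) (nat_lit 4) (nat_lit 276) (nat_lit 241) (nat_lit 203)) (XT.nd (nat_lit 78) (nat_lit 76) (nat_lit 0) (XT.lf (nat_lit 0) (nat_lit 8364705631) (nat_lit 152) (nat_lit 3434658612) (nat_lit 76) (nat_lit 19692652657) (nat_lit 5) (nat_lit 5) (nat_lit 7) (nat_lit 5) (nat_lit 6) (nat_lit 4) (nat_lit 277) (nat_lit 241) (nat_lit 202)) (XT.lf (nat_lit 0) (nat_lit 2700885299) (nat_lit 76) (nat_lit 8652414199) (nat_lit 152) (nat_lit 22318885016) (nat_lit 4) (nat_lit 5) (nat_lit 5) (nat_lit 5) (nat_lit 6) (nat_lit 4) (nat_lit 278) (nat_lit 241) (nat_lit 201)))) (XT.nd (nat_lit 156) (nat_lit 0) (nat_lit 0) (XT.nd (nat_lit 78) (nat_lit 0) (nat_lit 0) (XT.lf (nat_lit 0) (nat_lit 9480137320) (nat_lit 76) (nat_lit 5168356050) (nat_lit 152) (nat_lit 21373024731) (nat_lit 4) (nat_lit 5) (nat_lit 5) (nat_lit 5) (nat_lit 6) (nat_lit 4) (nat_lit 279) (nat_lit 241) (nat_lit 200)) (XT.lf (nat_lit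 0) (nat_lit 16762407758) (nat_lit 76) (nat_lit 1420453181) (nat_lit 152) (nat_lit 20378034968) (nat_lit 4) (nat_lit 5) (nat_lit 5) (nat_lit 5) (nat_lit 6) (nat_lit 4) (nat_lit 280) (nat_lit 241) (nat_lit 199))) (XT.nd (nat_lit 78) (nat_lit 0) (nat_lit 0) (XT.lf (nat_lit 0) (nat_lit 22040201444) (nat_lit 152) (nat_lit 16777370127) (nat_lit 0) (nat_lit 2482766139) (nat_lit 4) (nat_lit 5) (nat_lit 6) (nat_lit 4) (nat_lit 4) (nat_lit 4) (nat_lit 281) (nat_lit 241) (nat_lit 198)) (XT.lf (nat_lit 0) (nat_lit 26221762352) (nat_lit 152) (nat_lit 11426661096) (nat_lit 0) (nat_lit 6609382660) (nat_lit 4) (nat_lit 5) (nat_lit 6) (nat_lit 4) (nat_lit 4) (nat_lit 4) (nat_lit 282) (nat_lit 241) (nat_lit 197))))) (XT.nd (nat_lit 234) (nat_lit 0) (nat_lit 0) (XT.nd (nat_lit 78) (nat_lit 76) (nat_lit 0) (XT.lf (nat_lit 0) (nat_lit 30718161351) (nat_lit 152) (nat_lit 5680491217) (nat_lit 0) (nat_lit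 11054907226) (nat_lit 4) (nat_lit 5) (nat_lit 6) (nat_lit 4) (nat_lit 4) (nat_lit 4) (nat_lit 283) (nat_lit 241) (nat_lit 196)) (XT.nd (nat_lit 78) (nat_lit 0) (nat_lit 0) (XT.lf (nat_lit 0) (nat_lit 521266761) (nat_lit 76) (nat_lit 35047313485) (nat_lit 76) (nat_lit 15336953402) (nat_lit 3) (nat_lit 4) (nat_lit 4) (nat_lit 5) (nat_lit 4) (nat_lit 4) (nat_lit 284) (nat_lit 241) (nat_lit 195)) (XT.lf (nat_lit 0) (nat_lit 7512802667) (nat_lit 76) (nat_lit 33431958953) (nat_lit 76) (nat_lit 13677982245) (nat_lit 3) (nat_lit 4) (nat_lit 4) (nat_lit 5) (nat_lit 4) (nat_lit 4) (nat_lit 285) (nat_lit 241) (nat_lit 194)))) (XT.nd (nat_lit 156) (nat_lit 0) (nat_lit 0) (XT.nd (nat_lit 78) (nat_lit 0) (nat_lit 0) (XT.lf (nat_lit 0) (nat_lit 15036423223) (nat_lit 76) (nat_lit 31698331199) (nat_lit 76) (nat_lit 11903968725) (nat_lit 3) (nat_lit 4) (nat_lit 4) (nat_lit 5) (nat_lit 4) (nat_lit 4)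 (nat_lit 286) (nat_lit 241) (nat_lit 193)) (XT.lf (nat_lit 0) (nat_lit 23136712848) (nat_lit 76) (nat_lit 29836156873) (nat_lit 76) (nat_lit 10004400172) (nat_lit 3) (nat_lit 4) (nat_lit 4) (nat_lit 5) (nat_lit 4) (nat_lit 4) (nat_lit 287) (nat_lit 241) (nat_lit 192))) (XT.nd (nat_lit 78) (nat_lit 0) (nat_lit 0) (XT.lf (nat_lit 0) (nat_lit 31861673257) (nat_lit 76) (nat_lit 27834400868) (nat_lit 76) (nat_lit 7968019883) (nat_lit 3) (nat_lit 4) (nat_lit 4) (nat_lit 5) (nat_lit 4) (nat_lit 4) (nat_lit 288) (nat_lit 241) (nat_lit 191)) (XT.lf (nat_lit 0) (nat_lit 41263007920) (nat_lit 76) (nat_lit 25681200925) (nat_lit 76) (nat_lit 5782760418) (nat_lit 3) (nat_lit 4) (nat_lit 4) (nat_lit 5) (nat_lit 4) (nat_lit 4) (nat_lit 289) (nat_lit 241) (nat_lit 190))))))))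
noncomputable def xc55 : XT := (XT.nd (nat_lit 2106) (nat_lit 0) (nat_lit 0) (XT.nd (nat_lit 1014) (nat_lit 0) (nat_lit 0) (XT.nd (nat_lit 468) (nat_lit 0) (nat_lit 0) (XT.nd (nat_lit 234) (nat_lit 76) (nat_lit 0) (XT.nd (nat_lit 78) (nat_lit 76) (nat_lit 0) (XT.lf (nat_lit 0) (nat_lit 51396428449) (nat_lit 76) (nat_lit 23363797342) (nat_lit 76) (nat_lit 3435672092) (nat_lit 3) (nat_lit 4) (nat_lit 4) (nat_lit 5) (nat_lit 4) (nat_lit 4) (nat_lit 290) (nat_lit 241) (nat_lit 189)) (XT.nd (nat_lit 78) (nat_lit 76) (nat_lit 0) (XT.lf (nat_lit 0) (nat_lit 62321984744) (nat_lit 76) (nat_lit 20868457357) (nat_lit 76) (nat_lit 912846234) (nat_lit 3) (nat_lit 4) (nat_lit 4) (nat_lit 5) (nat_lit 4) (nat_lit 4) (nat_lit 291) (nat_lit 241) (nat_lit 188)) (XT.lf (nat_lit 0) (nat_lit 1710590568) (nat_lit 152) (nat_lit 16423032624) (nat_lit 76) (nat_lit 72347059697) (nat_lit 2) (nat_lit 5) (nat_lit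 4) (nat_lit 5) (nat_lit 3) (nat_lit 4) (nat_lit 292) (nat_lit 241) (nat_lit 187)))) (XT.nd (nat_lit 78) (nat_lit 76) (nat_lit 0) (XT.lf (nat_lit 0) (nat_lit 4484787438) (nat_lit 152) (nat_lit 10676267839) (nat_lit 76) (nat_lit 82206149113) (nat_lit 2) (nat_lit 5) (nat_lit 4) (nat_lit 5) (nat_lit 3) (nat_lit 4) (nat_lit 293) (nat_lit 241) (nat_lit 186)) (XT.nd (nat_lit 78) (nat_lit 76) (nat_lit 0) (XT.lf (nat_lit 0) (nat_lit 7471848328) (nat_lit 152) (nat_lit 4485000360) (nat_lit 76) (nat_lit 92848569486) (nat_lit 2) (nat_lit 5) (nat_lit 4) (nat_lit 5) (nat_lit 3) (nat_lit 4) (nat_lit 294) (nat_lit 241) (nat_lit 185)) (XT.lf (nat_lit 0) (nat_lit 2302646509) (nat_lit 76) (nat_lit 8442206534) (nat_lit 152) (nat_lit 102090119205) (nat_lit 1) (nat_lit 5) (nat_lit 2) (nat_lit 5) (nat_lit 3) (nat_lit 4) (nat_lit 295) (nat_lit 241) (nat_lit 184))))) (XT.nd (nat_lit 234) (nat_lit 0) (nat_lit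 0) (XT.nd (nat_lit 78) (nat_lit 0) (nat_lit 0) (XT.lf (nat_lit 0) (nat_lit 9874618569) (nat_lit 76) (nat_lit 4519599129) (nat_lit 152) (nat_lit 107103549812) (nat_lit 1) (nat_lit 5) (nat_lit 2) (nat_lit 5) (nat_lit 3) (nat_lit 4) (nat_lit 296) (nat_lit 241) (nat_lit 183)) (XT.nd (nat_lit 78) (nat_lit 0) (nat_lit 0) (XT.lf (nat_lit 0) (nat_lit 18039614593) (nat_lit 76) (nat_lit 288409252) (nat_lit 152) (nat_lit 112526198746) (nat_lit 1) (nat_lit 5) (nat_lit 2) (nat_lit 5) (nat_lit 3) (nat_lit 4) (nat_lit 297) (nat_lit 241) (nat_lit 182)) (XT.lf (nat_lit 0) (nat_lit 22672431338) (nat_lit 152) (nat_lit 114216611815) (nat_lit 0) (nat_lit 4062512125) (nat_lit 1) (nat_lit 5) (nat_lit 3) (nat_lit 4) (nat_lit 1) (nat_lit 4) (nat_lit 298) (nat_lit 241) (nat_lit 181)))) (XT.nd (nat_lit 156) (nat_lit 0) (nat_lit 0) (XT.nd (nat_lit 78) (nat_lit 0) (nat_lit 0) (XT.lf (nat_lit 0) (nat_lit 27365338196)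 (nat_lit 152) (nat_lit 115749621945) (nat_lit 0) (nat_lit 8741669203) (nat_lit 1) (nat_lit 5) (nat_lit 3) (nat_lit 4) (nat_lit 1) (nat_lit 4) (nat_lit 299) (nat_lit 241) (nat_lit 180)) (XT.lf (nat_lit 0) (nat_lit 32427617988) (nat_lit 152) (nat_lit 117415786645) (nat_lit 0) (nat_lit 13791217717) (nat_lit 1) (nat_lit 5) (nat_lit 3) (nat_lit 4) (nat_lit 1) (nat_lit 4) (nat_lit 300) (nat_lit 241) (nat_lit 179))) (XT.nd (nat_lit 78) (nat_lit 0) (nat_lit 0) (XT.lf (nat_lit 0) (nat_lit 37889269410) (nat_lit 152) (nat_lit 119224979483) (nat_lit 0) (nat_lit 19241080919) (nat_lit 1) (nat_lit 5) (nat_lit 3) (nat_lit 4) (nat_lit 1) (nat_lit 4) (nat_lit 301) (nat_lit 241) (nat_lit 178)) (XT.lf (nat_lit 0) (nat_lit 43782657803) (nat_lit 152) (nat_lit 121187921602) (nat_lit 0) (nat_lit 25123554294) (nat_lit 1) (nat_lit 5) (nat_lit 3) (nat_lit 4) (nat_lit 1) (nat_lit 4) (nat_lit 302) (nat_lit 241)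 (nat_lit 177)))))) (XT.nd (nat_lit 546) (nat_lit 0) (nat_lit 0) (XT.nd (nat_lit 234) (nat_lit 0) (nat_lit 0) (XT.nd (nat_lit 78) (nat_lit 0) (nat_lit 0) (XT.lf (nat_lit 0) (nat_lit 50142706951) (nat_lit 152) (nat_lit 123316245251) (nat_lit 0) (nat_lit 31473496943) (nat_lit 1) (nat_lit 5) (nat_lit 3) (nat_lit 4) (nat_lit 1) (nat_lit 4) (nat_lit 303) (nat_lit 241) (nat_lit 176)) (XT.nd (nat_lit 78) (nat_lit 0) (nat_lit 0) (XT.lf (nat_lit 0) (nat_lit 57007106033) (nat_lit 152) (nat_lit 125622562719) (nat_lit 0) (nat_lit 38328538157) (nat_lit 1) (nat_lit 5) (nat_lit 3) (nat_lit 4) (nat_lit 1) (nat_lit 4) (nat_lit 304) (nat_lit 241) (nat_lit 175)) (XT.lf (nat_lit 0) (nat_lit 64416532970) (nat_lit 152) (nat_lit 128120541072) (nat_lit 0) (nat_lit 45729300400) (nat_lit 1) (nat_lit 5) (nat_lit 3) (nat_lit 4) (nat_lit 1) (nat_lit 4) (nat_lit 305) (nat_lit 241) (nat_lit 174)))) (XT.nd (nat_lit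 156) (nat_lit 0) (nat_lit 0) (XT.nd (nat_lit 78) (nat_lit 0) (nat_lit 0) (XT.lf (nat_lit 0) (nat_lit 72414895478) (nat_lit 152) (nat_lit 130824983145) (nat_lit 0) (nat_lit 53719640044) (nat_lit 1) (nat_lit 5) (nat_lit 3) (nat_lit 4) (nat_lit 1) (nat_lit 4) (nat_lit 306) (nat_lit 241) (nat_lit 173)) (XT.lf (nat_lit 0) (nat_lit 81049591259) (nat_lit 152) (nat_lit 133751915261) (nat_lit 0) (nat_lit 62346907247) (nat_lit 1) (nat_lit 5) (nat_lit 3) (nat_lit 4) (nat_lit 1) (nat_lit 4) (nat_lit 307) (nat_lit 241) (nat_lit 172))) (XT.nd (nat_lit 78) (nat_lit 0) (nat_lit 0) (XT.lf (nat_lit 0) (nat_lit 90371788883) (nat_lit 152) (nat_lit 136918682204) (nat_lit 0) (nat_lit 71662226557) (nat_lit 1) (nat_lit 5) (nat_lit 3) (nat_lit 4) (nat_lit 1) (nat_lit 4) (nat_lit 308) (nat_lit 241) (nat_lit 171)) (XT.lf (nat_lit 0) (nat_lit 100436731000) (nat_lit 152) (nat_lit 140344049999) (nat_lit 0) (nat_lit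 81720799867) (nat_lit 1) (nat_lit 5) (nat_lit 3) (nat_lit 4) (nat_lit 1) (nat_lit 4) (nat_lit 309) (nat_lit 241) (nat_lit 170))))) (XT.nd (nat_lit 234) (nat_lit 0) (nat_lit 0) (XT.nd (nat_lit 78) (nat_lit 0) (nat_lit 0) (XT.lf (nat_lit 0) (nat_lit 111304061713) (nat_lit 152) (nat_lit 144048317122) (nat_lit 0) (nat_lit 92582233535) (nat_lit 1) (nat_lit 5) (nat_lit 3) (nat_lit 4) (nat_lit 1) (nat_lit 4) (nat_lit 310) (nat_lit 241) (nat_lit 169)) (XT.nd (nat_lit 78) (nat_lit 0) (nat_lit 0) (XT.lf (nat_lit 0) (nat_lit 123038180019) (nat_lit 152) (nat_lit 148053434786) (nat_lit 0) (nat_lit 104310891614) (nat_lit 1) (nat_lit 5) (nat_lit 3) (nat_lit 4) (nat_lit 1) (nat_lit 4) (nat_lit 311) (nat_lit 241) (nat_lit 168)) (XT.lf (nat_lit 0) (nat_lit 135708621433) (nat_lit 152) (nat_lit 152383137022) (nat_lit 0) (nat_lit 116976277262) (nat_lit 1) (nat_lit 5) (nat_lit 3) (nat_lit 4) (nat_lit 1)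 (nat_lit 4) (nat_lit 312) (nat_lit 241) (nat_lit 167)))) (XT.nd (nat_lit 156) (nat_lit 0) (nat_lit 0) (XT.nd (nat_lit 78) (nat_lit 0) (nat_lit 0) (XT.lf (nat_lit 0) (nat_lit 149390470052) (nat_lit 152) (nat_lit 157063081324) (nat_lit 0) (nat_lit 130653444617) (nat_lit 1) (nat_lit 5) (nat_lit 3) (nat_lit 4) (nat_lit 1) (nat_lit 4) (nat_lit 313) (nat_lit 241) (nat_lit 166)) (XT.lf (nat_lit 0) (nat_lit 164164803499) (nat_lit 152) (nat_lit 162121000695) (nat_lit 0) (nat_lit 145423443560) (nat_lit 1) (nat_lit 5) (nat_lit 3) (nat_lit 4) (nat_lit 1) (nat_lit 4) (nat_lit 314) (nat_lit 241) (nat_lit 165))) (XT.nd (nat_lit 78) (nat_lit 0) (nat_lit 0) (XT.lf (nat_lit 0) (nat_lit 180119173378) (nat_lit 152) (nat_lit 167586867992) (nat_lit 0) (nat_lit 161373800010) (nat_lit 1) (nat_lit 5) (nat_lit 3) (nat_lit 4) (nat_lit 1) (nat_lit 4) (nat_lit 315) (nat_lit 241) (nat_lit 164)) (XT.lf (nat_lit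 0) (nat_lit 197348124104) (nat_lit 152) (nat_lit 173493073538) (nat_lit 0) (nat_lit 178599034597) (nat_lit 1) (nat_lit 5) (nat_lit 3) (nat_lit 4) (nat_lit 1) (nat_lit 4) (nat_lit 316) (nat_lit 241) (nat_lit 163))))))) (XT.nd (nat_lit 1014) (nat_lit 0) (nat_lit 0) (XT.nd (nat_lit 468) (nat_lit 0) (nat_lit 0) (XT.nd (nat_lit 234) (nat_lit 0) (nat_lit 0) (XT.nd (nat_lit 78) (nat_lit 0) (nat_lit 0) (XT.lf (nat_lit 0) (nat_lit 215953753163) (nat_lit 152) (nat_lit 179874617071) (nat_lit 0) (nat_lit 197201222787) (nat_lit 1) (nat_lit 5) (nat_lit 3) (nat_lit 4) (nat_lit 1) (nat_lit 4) (nat_lit 317) (nat_lit 241) (nat_lit 162)) (XT.nd (nat_lit 78) (nat_lit 0) (nat_lit 0) (XT.lf (nat_lit 0) (nat_lit 236046316134) (nat_lit 152) (nat_lit 186769315144) (nat_lit 0) (nat_lit 217290599768) (nat_lit 1) (nat_lit 5) (nat_lit 3) (nat_lit 4) (nat_lit 1) (nat_lit 4) (nat_lit 318) (nat_lit 241) (nat_lit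 161)) (XT.lf (nat_lit 0) (nat_lit 257744880056) (nat_lit 152) (nat_lit 194218025228) (nat_lit 0) (nat_lit 238986213700) (nat_lit 1) (nat_lit 5) (nat_lit 3) (nat_lit 4) (nat_lit 1) (nat_lit 4) (nat_lit 319) (nat_lit 241) (nat_lit 160)))) (XT.nd (nat_lit 78) (nat_lit 0) (nat_lit 0) (XT.lf (nat_lit 0) (nat_lit 281178029014) (nat_lit 152) (nat_lit 202264887827) (nat_lit 0) (nat_lit 262416631184) (nat_lit 1) (nat_lit 5) (nat_lit 3) (nat_lit 4) (nat_lit 1) (nat_lit 4) (nat_lit 320) (nat_lit 241) (nat_lit 159)) (XT.nd (nat_lit 78) (nat_lit 0) (nat_lit 0) (XT.lf (nat_lit 0) (nat_lit 306484626110) (nat_lit 152) (nat_lit 210957588052) (nat_lit 0) (nat_lit 287720699140) (nat_lit 1) (nat_lit 5) (nat_lit 3) (nat_lit 4) (nat_lit 1) (nat_lit 4) (nat_lit 321) (nat_lit 241) (nat_lit 158)) (XT.lf (nat_lit 0) (nat_lit 333814636366) (nat_lit 152) (nat_lit 220347638202) (nat_lit 0) (nat_lit 315048367598)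 (nat_lit 1) (nat_lit 5) (nat_lit 3) (nat_lit 4) (nat_lit 1) (nat_lit 4) (nat_lit 322) (nat_lit 241) (nat_lit 157))))) (XT.nd (nat_lit 234) (nat_lit 0) (nat_lit 0) (XT.nd (nat_lit 78) (nat_lit 0) (nat_lit 0) (XT.lf (nat_lit 0) (nat_lit 363330015398) (nat_lit 152) (nat_lit 230490683017) (nat_lit 0) (nat_lit 344561578298) (nat_lit 1) (nat_lit 5) (nat_lit 3) (nat_lit 4) (nat_lit 1) (nat_lit 4) (nat_lit 323) (nat_lit 241) (nat_lit 156)) (XT.nd (nat_lit 78) (nat_lit 0) (nat_lit 0) (XT.lf (nat_lit 0) (nat_lit 395205669155) (nat_lit 152) (nat_lit 241446829431) (nat_lit 0) (nat_lit 376435224341) (nat_lit 1) (nat_lit 5) (nat_lit 3) (nat_lit 4) (nat_lit 1) (nat_lit 4) (nat_lit 324) (nat_lit 241) (nat_lit 155)) (XT.lf (nat_lit 0) (nat_lit 429630490400) (nat_lit 152) (nat_lit 253281002755) (nat_lit 0) (nat_lit 410858186592) (nat_lit 1) (nat_lit 5) (nat_lit 3) (nat_lit 4) (nat_lit 1) (nat_lit 4)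 (nat_lit 325) (nat_lit 241) (nat_lit 154)))) (XT.nd (nat_lit 156) (nat_lit 0) (nat_lit 0) (XT.nd (nat_lit 78) (nat_lit 0) (nat_lit 0) (XT.lf (nat_lit 0) (nat_lit 466808478074) (nat_lit 152) (nat_lit 266063331423) (nat_lit 0) (nat_lit 448034452975) (nat_lit 1) (nat_lit 5) (nat_lit 3) (nat_lit 4) (nat_lit 1) (nat_lit 4) (nat_lit 326) (nat_lit 241) (nat_lit 153)) (XT.lf (nat_lit 0) (nat_lit 506959946179) (nat_lit 152) (nat_lit 279869562569) (nat_lit 0) (nat_lit 488184327292) (nat_lit 1) (nat_lit 5) (nat_lit 3) (nat_lit 4) (nat_lit 1) (nat_lit 4) (nat_lit 327) (nat_lit 241) (nat_lit 152))) (XT.nd (nat_lit 78) (nat_lit 0) (nat_lit 0) (XT.lf (nat_lit 0) (nat_lit 550322829339) (nat_lit 152) (nat_lit 294781510896) (nat_lit 0) (nat_lit 531545734723) (nat_lit 1) (nat_lit 5) (nat_lit 3) (nat_lit 4) (nat_lit 1) (nat_lit 4) (nat_lit 328) (nat_lit 241) (nat_lit 151)) (XT.lf (nat_lit 0) (nat_lit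 597154092790) (nat_lit 152) (nat_lit 310887543504) (nat_lit 0) (nat_lit 578375631756) (nat_lit 1) (nat_lit 5) (nat_lit 3) (nat_lit 4) (nat_lit 1) (nat_lit 4) (nat_lit 329) (nat_lit 241) (nat_lit 150)))))) (XT.nd (nat_lit 546) (nat_lit 0) (nat_lit 0) (XT.nd (nat_lit 234) (nat_lit 0) (nat_lit 0) (XT.nd (nat_lit 78) (nat_lit 0) (nat_lit 0) (XT.lf (nat_lit 0) (nat_lit 647731255127) (nat_lit 152) (nat_lit 328283103550) (nat_lit 0) (nat_lit 628951528894) (nat_lit 1) (nat_lit 5) (nat_lit 3) (nat_lit 4) (nat_lit 1) (nat_lit 4) (nat_lit 330) (nat_lit 241) (nat_lit 149)) (XT.nd (nat_lit 78) (nat_lit 0) (nat_lit 0) (XT.lf (nat_lit 0) (nat_lit 702354032870) (nat_lit 152) (nat_lit 347071275835) (nat_lit 0) (nat_lit 683573135155) (nat_lit 1) (nat_lit 5) (nat_lit 3) (nat_lit 4) (nat_lit 1) (nat_lit 4) (nat_lit 331) (nat_lit 241) (nat_lit 148)) (XT.lf (nat_lit 0) (nat_lit 761346116553) (nat_lit 152)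 (nat_lit 367363397675) (nat_lit 0) (nat_lit 742564134132) (nat_lit 1) (nat_lit 5) (nat_lit 3) (nat_lit 4) (nat_lit 1) (nat_lit 4) (nat_lit 332) (nat_lit 241) (nat_lit 147)))) (XT.nd (nat_lit 156) (nat_lit 0) (nat_lit 0) (XT.nd (nat_lit 78) (nat_lit 0) (nat_lit 0) (XT.lf (nat_lit 0) (nat_lit 825057088895) (nat_lit 152) (nat_lit 389279718681) (nat_lit 0) (nat_lit 806274102117) (nat_lit 1) (nat_lit 5) (nat_lit 3) (nat_lit 4) (nat_lit 1) (nat_lit 4) (nat_lit 333) (nat_lit 241) (nat_lit 146)) (XT.lf (nat_lit 0) (nat_lit 893864496397) (nat_lit 152) (nat_lit 412950113349) (nat_lit 0) (nat_lit 875080579659) (nat_lit 1) (nat_lit 5) (nat_lit 3) (nat_lit 4) (nat_lit 1) (nat_lit 4) (nat_lit 334) (nat_lit 241) (nat_lit 145))) (XT.nd (nat_lit 78) (nat_lit 0) (nat_lit 0) (XT.lf (nat_lit 0) (nat_lit 968176086660) (nat_lit 152) (nat_lit 438514850683) (nat_lit 0) (nat_lit 949391308848) (nat_lit 1)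 (nat_lit 5) (nat_lit 3) (nat_lit 4) (nat_lit 1) (nat_lit 4) (nat_lit 335) (nat_lit 241) (nat_lit 144)) (XT.lf (nat_lit 0) (nat_lit 1048432224664) (nat_lit 152) (nat_lit 466125425424) (nat_lit 0) (nat_lit 1029646649561) (nat_lit 1) (nat_lit 5) (nat_lit 3) (nat_lit 4) (nat_lit 1) (nat_lit 4) (nat_lit 336) (nat_lit 241) (nat_lit 143))))) (XT.nd (nat_lit 234) (nat_lit 0) (nat_lit 0) (XT.nd (nat_lit 78) (nat_lit 0) (nat_lit 0) (XT.lf (nat_lit 0) (nat_lit 1135108502336) (nat_lit 152) (nat_lit 495945455793) (nat_lit 0) (nat_lit 1116322189001) (nat_lit 1) (nat_lit 5) (nat_lit 3) (nat_lit 4) (nat_lit 1) (nat_lit 4) (nat_lit 337) (nat_lit 241) (nat_lit 142)) (XT.nd (nat_lit 78) (nat_lit 0) (nat_lit 0) (XT.lf (nat_lit 0) (nat_lit 1228718556879) (nat_lit 152) (nat_lit 528151653079) (nat_lit 0) (nat_lit 1209931559996) (nat_lit 1) (nat_lit 5) (nat_lit 3) (nat_lit 4) (nat_lit 1) (nat_lit 4) (nat_lit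 338) (nat_lit 241) (nat_lit 141)) (XT.lf (nat_lit 0) (nat_lit 1329817114541) (nat_lit 152) (nat_lit 562934868823) (nat_lit 0) (nat_lit 1311029484743) (nat_lit 1) (nat_lit 5) (nat_lit 3) (nat_lit 4) (nat_lit 1) (nat_lit 4) (nat_lit 339) (nat_lit 241) (nat_lit 140)))) (XT.nd (nat_lit 156) (nat_lit 0) (nat_lit 0) (XT.nd (nat_lit 78) (nat_lit 0) (nat_lit 0) (XT.lf (nat_lit 0) (nat_lit 1439003277887) (nat_lit 152) (nat_lit 600501225785) (nat_lit 0) (nat_lit 1420215062056) (nat_lit 1) (nat_lit 5) (nat_lit 3) (nat_lit 4) (nat_lit 1) (nat_lit 4) (nat_lit 340) (nat_lit 241) (nat_lit 139)) (XT.lf (nat_lit 0) (nat_lit 1556924076032) (nat_lit 152) (nat_lit 641073339413) (nat_lit 0) (nat_lit 1538135317578) (nat_lit 1) (nat_lit 5) (nat_lit 3) (nat_lit 4) (nat_lit 1) (nat_lit 4) (nat_lit 341) (nat_lit 241) (nat_lit 138))) (XT.nd (nat_lit 78) (nat_lit 0) (nat_lit 0) (XT.lf (nat_lit 0) (nat_lit 1684278298891)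 (nat_lit 152) (nat_lit 684891637047) (nat_lit 0) (nat_lit 1665489038009) (nat_lit 1) (nat_lit 5) (nat_lit 3) (nat_lit 4) (nat_lit 1) (nat_lit 4) (nat_lit 342) (nat_lit 241) (nat_lit 137)) (XT.lf (nat_lit 0) (nat_lit 1821820638156) (nat_lit 152) (nat_lit 732215782674) (nat_lit 0) (nat_lit 1803030912062) (nat_lit 1) (nat_lit 5) (nat_lit 3) (nat_lit 4) (nat_lit 1) (nat_lit 4) (nat_lit 343) (nat_lit 241) (nat_lit 136))))))))
noncomputable def xc56 : XT := (XT.nd (nat_lit 2028) (nat_lit 456) (nat_lit 0) (XT.nd (nat_lit 1014) (nat_lit 1216) (nat_lit 0) (XT.nd (nat_lit 468) (nat_lit 988) (nat_lit 0) (XT.nd (nat_lit 234) (nat_lit 0) (nat_lit 0) (XT.nd (nat_lit 78) (nat_lit 228) (nat_lit 0) (XT.lf (nat_lit 0) (nat_lit 1391131606) (nat_lit 228) (nat_lit 945363634) (nat_lit 228) (nat_lit 945363634) (nat_lit 40) (nat_lit 3) (nat_lit 43) (nat_lit 3) (nat_lit 43) (nat_lit 5) (nat_lit 242) (nat_lit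 242) (nat_lit 236)) (XT.nd (nat_lit 78) (nat_lit 228) (nat_lit 0) (XT.lf (nat_lit 76) (nat_lit 752399600) (nat_lit 0) (nat_lit 4087617768) (nat_lit 228) (nat_lit 1797187208) (nat_lit 41) (nat_lit 5) (nat_lit 40) (nat_lit 3) (nat_lit 43) (nat_lit 5) (nat_lit 243) (nat_lit 242) (nat_lit 235)) (XT.lf (nat_lit 0) (nat_lit 177701396) (nat_lit 228) (nat_lit 3132838225) (nat_lit 304) (nat_lit 3420519990) (nat_lit 37) (nat_lit 5) (nat_lit 40) (nat_lit 3) (nat_lit 41) (nat_lit 5) (nat_lit 244) (nat_lit 242) (nat_lit 234)))) (XT.nd (nat_lit 78) (nat_lit 0) (nat_lit 0) (XT.lf (nat_lit 0) (nat_lit 2024727686) (nat_lit 228) (nat_lit 323364443) (nat_lit 304) (nat_lit 4498557346) (nat_lit 37) (nat_lit 5) (nat_lit 40) (nat_lit 3) (nat_lit 41) (nat_lit 5) (nat_lit 245) (nat_lit 242) (nat_lit 233)) (XT.nd (nat_lit 78) (nat_lit 0) (nat_lit 76) (XT.lf (nat_lit 76) (nat_lit 2740582534) (nat_lit 0) (nat_lit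 1170068126) (nat_lit 304) (nat_lit 3072193393) (nat_lit 38) (nat_lit 5) (nat_lit 37) (nat_lit 5) (nat_lit 41) (nat_lit 5) (nat_lit 246) (nat_lit 242) (nat_lit 232)) (XT.lf (nat_lit 0) (nat_lit 5796064590) (nat_lit 228) (nat_lit 1185575715) (nat_lit 76) (nat_lit 162856644) (nat_lit 38) (nat_lit 5) (nat_lit 41) (nat_lit 5) (nat_lit 39) (nat_lit 5) (nat_lit 247) (nat_lit 242) (nat_lit 231))))) (XT.nd (nat_lit 234) (nat_lit 456) (nat_lit 0) (XT.nd (nat_lit 78) (nat_lit 304) (nat_lit 0) (XT.lf (nat_lit 0) (nat_lit 413052981) (nat_lit 304) (nat_lit 5261007097) (nat_lit 76) (nat_lit 1652097063) (nat_lit 34) (nat_lit 5) (nat_lit 38) (nat_lit 5) (nat_lit 35) (nat_lit 5) (nat_lit 248) (nat_lit 242) (nat_lit 230)) (XT.nd (nat_lit 78) (nat_lit 304) (nat_lit 0) (XT.lf (nat_lit 0) (nat_lit 2127858978) (nat_lit 304) (nat_lit 2031834086) (nat_lit 76) (nat_lit 3370981543) (nat_lit 34) (nat_lit 5)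 (nat_lit 38) (nat_lit 5) (nat_lit 35) (nat_lit 5) (nat_lit 249) (nat_lit 242) (nat_lit 229)) (XT.lf (nat_lit 0) (nat_lit 1415783372) (nat_lit 304) (nat_lit 2461073567) (nat_lit 380) (nat_lit 3884738314) (nat_lit 30) (nat_lit 5) (nat_lit 34) (nat_lit 5) (nat_lit 35) (nat_lit 5) (nat_lit 250) (nat_lit 242) (nat_lit 228)))) (XT.nd (nat_lit 156) (nat_lit 76) (nat_lit 0) (XT.nd (nat_lit 78) (nat_lit 380) (nat_lit 0) (XT.lf (nat_lit 0) (nat_lit 5146852674) (nat_lit 304) (nat_lit 544989908) (nat_lit 380) (nat_lit 2326730414) (nat_lit 30) (nat_lit 5) (nat_lit 34) (nat_lit 5) (nat_lit 35) (nat_lit 5) (nat_lit 251) (nat_lit 242) (nat_lit 227)) (XT.lf (nat_lit 0) (nat_lit 770654710) (nat_lit 380) (nat_lit 6817153953) (nat_lit 456) (nat_lit 714983021) (nat_lit 25) (nat_lit 5) (nat_lit 30) (nat_lit 5) (nat_lit 31) (nat_lit 5) (nat_lit 252) (nat_lit 242) (nat_lit 226))) (XT.nd (nat_lit 78) (nat_lit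 0) (nat_lit 0) (XT.lf (nat_lit 0) (nat_lit 951625123) (nat_lit 456) (nat_lit 3892813924) (nat_lit 76) (nat_lit 3766481700) (nat_lit 24) (nat_lit 5) (nat_lit 30) (nat_lit 5) (nat_lit 25) (nat_lit 5) (nat_lit 253) (nat_lit 242) (nat_lit 225)) (XT.lf (nat_lit 0) (nat_lit 2604154551) (nat_lit 456) (nat_lit 88528329) (nat_lit 76) (nat_lit 6259460625) (nat_lit 24) (nat_lit 5) (nat_lit 30) (nat_lit 5) (nat_lit 25) (nat_lit 5) (nat_lit 254) (nat_lit 242) (nat_lit 224)))))) (XT.nd (nat_lit 468) (nat_lit 532) (nat_lit 0) (XT.nd (nat_lit 234) (nat_lit 228) (nat_lit 0) (XT.nd (nat_lit 78) (nat_lit 228) (nat_lit 0) (XT.lf (nat_lit 0) (nat_lit 4126903511) (nat_lit 228) (nat_lit 260512991) (nat_lit 304) (nat_lit 4934500974) (nat_lit 21) (nat_lit 5) (nat_lit 24) (nat_lit 5) (nat_lit 25) (nat_lit 5) (nat_lit 255) (nat_lit 242) (nat_lit 223)) (XT.nd (nat_lit 78) (nat_lit 228) (nat_lit 0) (XT.lf (nat_lit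 0) (nat_lit 6277097329) (nat_lit 304) (nat_lit 1199227201) (nat_lit 76) (nat_lit 2248899873) (nat_lit 21) (nat_lit 5) (nat_lit 25) (nat_lit 5) (nat_lit 22) (nat_lit 5) (nat_lit 256) (nat_lit 242) (nat_lit 222)) (XT.lf (nat_lit 0) (nat_lit 3170091088) (nat_lit 228) (nat_lit 5142319454) (nat_lit 304) (nat_lit 1849802480) (nat_lit 18) (nat_lit 5) (nat_lit 21) (nat_lit 5) (nat_lit 22) (nat_lit 5) (nat_lit 257) (nat_lit 242) (nat_lit 221)))) (XT.nd (nat_lit 78) (nat_lit 228) (nat_lit 0) (XT.lf (nat_lit 0) (nat_lit 7861689952) (nat_lit 228) (nat_lit 2597361695) (nat_lit 304) (nat_lit 180130496) (nat_lit 18) (nat_lit 5) (nat_lit 21) (nat_lit 5) (nat_lit 22) (nat_lit 5) (nat_lit 258) (nat_lit 242) (nat_lit 220)) (XT.nd (nat_lit 78) (nat_lit 0) (nat_lit 0) (XT.lf (nat_lit 0) (nat_lit 1508050870) (nat_lit 228) (nat_lit 9432227174) (nat_lit 76) (nat_lit 214390451) (nat_lit 15) (nat_lit 5) (nat_lit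 18) (nat_lit 5) (nat_lit 16) (nat_lit 5) (nat_lit 259) (nat_lit 242) (nat_lit 219)) (XT.lf (nat_lit 0) (nat_lit 3389533319) (nat_lit 228) (nat_lit 5136710147) (nat_lit 76) (nat_lit 3180053478) (nat_lit 15) (nat_lit 5) (nat_lit 18) (nat_lit 5) (nat_lit 16) (nat_lit 5) (nat_lit 260) (nat_lit 242) (nat_lit 218))))) (XT.nd (nat_lit 234) (nat_lit 380) (nat_lit 0) (XT.nd (nat_lit 78) (nat_lit 152) (nat_lit 0) (XT.lf (nat_lit 0) (nat_lit 5349867967) (nat_lit 228) (nat_lit 587926308) (nat_lit 76) (nat_lit 6370657438) (nat_lit 15) (nat_lit 5) (nat_lit 18) (nat_lit 5) (nat_lit 16) (nat_lit 5) (nat_lit 261) (nat_lit 242) (nat_lit 217)) (XT.nd (nat_lit 78) (nat_lit 0) (nat_lit 0) (XT.lf (nat_lit 0) (nat_lit 4464407862) (nat_lit 152) (nat_lit 3043632866) (nat_lit 228) (nat_lit 5448070869) (nat_lit 13) (nat_lit 5) (nat_lit 15) (nat_lit 5) (nat_lit 16) (nat_lit 5) (nat_lit 262) (nat_lit 242) (nat_lit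 216)) (XT.lf (nat_lit 0) (nat_lit 9793492732) (nat_lit 228) (nat_lit 3789090192) (nat_lit 76) (nat_lit 77199499) (nat_lit 13) (nat_lit 5) (nat_lit 16) (nat_lit 5) (nat_lit 14) (nat_lit 4) (nat_lit 263) (nat_lit 242) (nat_lit 215)))) (XT.nd (nat_lit 156) (nat_lit 228) (nat_lit 0) (XT.nd (nat_lit 78) (nat_lit 0) (nat_lit 0) (XT.lf (nat_lit 0) (nat_lit 1189860273) (nat_lit 152) (nat_lit 11120480488) (nat_lit 228) (nat_lit 2106047464) (nat_lit 11) (nat_lit 5) (nat_lit 13) (nat_lit 5) (nat_lit 14) (nat_lit 4) (nat_lit 264) (nat_lit 242) (nat_lit 214)) (XT.lf (nat_lit 0) (nat_lit 6704311186) (nat_lit 152) (nat_lit 8371209606) (nat_lit 228) (nat_lit 154730094) (nat_lit 11) (nat_lit 5) (nat_lit 13) (nat_lit 5) (nat_lit 14) (nat_lit 4) (nat_lit 265) (nat_lit 242) (nat_lit 213))) (XT.nd (nat_lit 78) (nat_lit 152) (nat_lit 0) (XT.lf (nat_lit 0) (nat_lit 1800798482) (nat_lit 228) (nat_lit 3572043239)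 (nat_lit 76) (nat_lit 10737378495) (nat_lit 10) (nat_lit 5) (nat_lit 13) (nat_lit 5) (nat_lit 11) (nat_lit 5) (nat_lit 266) (nat_lit 242) (nat_lit 212)) (XT.lf (nat_lit 0) (nat_lit 1793711204) (nat_lit 152) (nat_lit 2103640653) (nat_lit 228) (nat_lit 13163865059) (nat_lit 8) (nat_lit 5) (nat_lit 10) (nat_lit 5) (nat_lit 11) (nat_lit 5) (nat_lit 267) (nat_lit 242) (nat_lit 211))))))) (XT.nd (nat_lit 1014) (nat_lit 152) (nat_lit 0) (XT.nd (nat_lit 468) (nat_lit 228) (nat_lit 0) (XT.nd (nat_lit 234) (nat_lit 0) (nat_lit 0) (XT.nd (nat_lit 78) (nat_lit 76) (nat_lit 0) (XT.lf (nat_lit 0) (nat_lit 6247543364) (nat_lit 228) (nat_lit 10397575036) (nat_lit 76) (nat_lit 1436659898) (nat_lit 8) (nat_lit 5) (nat_lit 11) (nat_lit 5) (nat_lit 9) (nat_lit 4) (nat_lit 268) (nat_lit 242) (nat_lit 210)) (XT.nd (nat_lit 78) (nat_lit 76) (nat_lit 0) (XT.lf (nat_lit 0) (nat_lit 8795380378) (nat_lit 228)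 (nat_lit 5259456352) (nat_lit 76) (nat_lit 5128708976) (nat_lit 8) (nat_lit 5) (nat_lit 11) (nat_lit 5) (nat_lit 9) (nat_lit 4) (nat_lit 269) (nat_lit 242) (nat_lit 209)) (XT.lf (nat_lit 0) (nat_lit 239891394) (nat_lit 76) (nat_lit 11271246583) (nat_lit 152) (nat_lit 8865496013) (nat_lit 7) (nat_lit 5) (nat_lit 8) (nat_lit 5) (nat_lit 9) (nat_lit 4) (nat_lit 270) (nat_lit 242) (nat_lit 208)))) (XT.nd (nat_lit 78) (nat_lit 0) (nat_lit 0) (XT.lf (nat_lit 0) (nat_lit 6418041218) (nat_lit 76) (nat_lit 8129879999) (nat_lit 152) (nat_lit 7109231152) (nat_lit 7) (nat_lit 5) (nat_lit 8) (nat_lit 5) (nat_lit 9) (nat_lit 4) (nat_lit 271) (nat_lit 242) (nat_lit 207)) (XT.nd (nat_lit 78) (nat_lit 0) (nat_lit 0) (XT.lf (nat_lit 0) (nat_lit 13034650725) (nat_lit 76) (nat_lit 4755924331) (nat_lit 152) (nat_lit 5252766108) (nat_lit 7) (nat_lit 5) (nat_lit 8) (nat_lit 5) (nat_lit 9) (nat_lit 4) (nat_lit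 272) (nat_lit 242) (nat_lit 206)) (XT.lf (nat_lit 0) (nat_lit 20128929453) (nat_lit 76) (nat_lit 1129385766) (nat_lit 152) (nat_lit 3285099605) (nat_lit 7) (nat_lit 5) (nat_lit 8) (nat_lit 5) (nat_lit 9) (nat_lit 4) (nat_lit 273) (nat_lit 242) (nat_lit 205))))) (XT.nd (nat_lit 234) (nat_lit 76) (nat_lit 0) (XT.nd (nat_lit 78) (nat_lit 76) (nat_lit 0) (XT.lf (nat_lit 0) (nat_lit 1589521118) (nat_lit 76) (nat_lit 23487046241) (nat_lit 76) (nat_lit 1081305233) (nat_lit 6) (nat_lit 4) (nat_lit 7) (nat_lit 5) (nat_lit 7) (nat_lit 4) (nat_lit 274) (nat_lit 242) (nat_lit 204)) (XT.nd (nat_lit 78) (nat_lit 0) (nat_lit 0) (XT.lf (nat_lit 0) (nat_lit 1355025211) (nat_lit 152) (nat_lit 19681453594) (nat_lit 76) (nat_lit 6853006470) (nat_lit 5) (nat_lit 5) (nat_lit 7) (nat_lit 5) (nat_lit 6) (nat_lit 4) (nat_lit 275) (nat_lit 242) (nat_lit 203)) (XT.lf (nat_lit 0) (nat_lit 3898245172) (nat_lit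 152) (nat_lit 14478745911) (nat_lit 76) (nat_lit 11382936005) (nat_lit 5) (nat_lit 5) (nat_lit 7) (nat_lit 5) (nat_lit 6) (nat_lit 4) (nat_lit 276) (nat_lit 242) (nat_lit 202)))) (XT.nd (nat_lit 156) (nat_lit 76) (nat_lit 0) (XT.nd (nat_lit 78) (nat_lit 0) (nat_lit 0) (XT.lf (nat_lit 0) (nat_lit 6617516852) (nat_lit 152) (nat_lit 8903392148) (nat_lit 76) (nat_lit 16261453564) (nat_lit 5) (nat_lit 5) (nat_lit 7) (nat_lit 5) (nat_lit 6) (nat_lit 4) (nat_lit 277) (nat_lit 242) (nat_lit 201)) (XT.lf (nat_lit 0) (nat_lit 9528954452) (nat_lit 152) (nat_lit 2922353173) (nat_lit 76) (nat_lit 21517468883) (nat_lit 5) (nat_lit 5) (nat_lit 7) (nat_lit 5) (nat_lit 6) (nat_lit 4) (nat_lit 278) (nat_lit 242) (nat_lit 200))) (XT.nd (nat_lit 78) (nat_lit 0) (nat_lit 0) (XT.lf (nat_lit 0) (nat_lit 3684108223) (nat_lit 76) (nat_lit 9054305604) (nat_lit 152) (nat_lit 23586623386) (nat_lit 4) (nat_lit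 5) (nat_lit 5) (nat_lit 5) (nat_lit 6) (nat_lit 4) (nat_lit 279) (nat_lit 242) (nat_lit 199)) (XT.lf (nat_lit 0) (nat_lit 10948874324) (nat_lit 76) (nat_lit 5313026636) (nat_lit 152) (nat_lit 22603447791) (nat_lit 4) (nat_lit 5) (nat_lit 5) (nat_lit 5) (nat_lit 6) (nat_lit 4) (nat_lit 280) (nat_lit 242) (nat_lit 198)))))) (XT.nd (nat_lit 546) (nat_lit 76) (nat_lit 0) (XT.nd (nat_lit 234) (nat_lit 76) (nat_lit 0) (XT.nd (nat_lit 78) (nat_lit 0) (nat_lit 0) (XT.lf (nat_lit 0) (nat_lit 18761109655) (nat_lit 76) (nat_lit 1285202492) (nat_lit 152) (nat_lit 21564371359) (nat_lit 4) (nat_lit 5) (nat_lit 5) (nat_lit 5) (nat_lit 6) (nat_lit 4) (nat_lit 281) (nat_lit 242) (nat_lit 197)) (XT.nd (nat_lit 78) (nat_lit 0) (nat_lit 0) (XT.lf (nat_lit 0) (nat_lit 24187499106) (nat_lit 152) (nat_lit 17483626763) (nat_lit 0) (nat_lit 2900310217) (nat_lit 4) (nat_lit 5) (nat_lit 6) (nat_lit 4) (nat_lit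 4) (nat_lit 4) (nat_lit 282) (nat_lit 242) (nat_lit 196)) (XT.lf (nat_lit 0) (nat_lit 28675134402) (nat_lit 152) (nat_lit 11751967156) (nat_lit 0) (nat_lit 7340839557) (nat_lit 4) (nat_lit 5) (nat_lit 6) (nat_lit 4) (nat_lit 4) (nat_lit 4) (nat_lit 283) (nat_lit 242) (nat_lit 195)))) (XT.nd (nat_lit 156) (nat_lit 0) (nat_lit 0) (XT.nd (nat_lit 78) (nat_lit 76) (nat_lit 0) (XT.lf (nat_lit 0) (nat_lit 33504902279) (nat_lit 152) (nat_lit 5589720488) (nat_lit 0) (nat_lit 12126990808) (nat_lit 4) (nat_lit 5) (nat_lit 6) (nat_lit 4) (nat_lit 4) (nat_lit 4) (nat_lit 284) (nat_lit 242) (nat_lit 194)) (XT.lf (nat_lit 0) (nat_lit 1094375343) (nat_lit 76) (nat_lit 37637367995) (nat_lit 76) (nat_lit 16219070758) (nat_lit 3) (nat_lit 4) (nat_lit 4) (nat_lit 5) (nat_lit 4) (nat_lit 4) (nat_lit 285) (nat_lit 242) (nat_lit 193))) (XT.nd (nat_lit 78) (nat_lit 0) (nat_lit 0) (XT.lf (nat_lit 0) (nat_lit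 8605870622) (nat_lit 76) (nat_lit 35908616995) (nat_lit 76) (nat_lit 14452925531) (nat_lit 3) (nat_lit 4) (nat_lit 4) (nat_lit 5) (nat_lit 4) (nat_lit 4) (nat_lit 286) (nat_lit 242) (nat_lit 192)) (XT.lf (nat_lit 0) (nat_lit 16694933138) (nat_lit 76) (nat_lit 34050958181) (nat_lit 76) (nat_lit 12560642434) (nat_lit 3) (nat_lit 4) (nat_lit 4) (nat_lit 5) (nat_lit 4) (nat_lit 4) (nat_lit 287) (nat_lit 242) (nat_lit 191))))) (XT.nd (nat_lit 234) (nat_lit 76) (nat_lit 0) (XT.nd (nat_lit 78) (nat_lit 0) (nat_lit 0) (XT.lf (nat_lit 0) (nat_lit 25409498076) (nat_lit 76) (nat_lit 32053383206) (nat_lit 76) (nat_lit 10531007936) (nat_lit 3) (nat_lit 4) (nat_lit 4) (nat_lit 5) (nat_lit 4) (nat_lit 4) (nat_lit 288) (nat_lit 242) (nat_lit 190)) (XT.nd (nat_lit 78) (nat_lit 0) (nat_lit 0) (XT.lf (nat_lit 0) (nat_lit 34801207303) (nat_lit 76) (nat_lit 29904054588) (nat_lit 76) (nat_lit 8351994575)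 (nat_lit 3) (nat_lit 4) (nat_lit 4) (nat_lit 5) (nat_lit 4) (nat_lit 4) (nat_lit 289) (nat_lit 242) (nat_lit 189)) (XT.lf (nat_lit 0) (nat_lit 44925715392) (nat_lit 76) (nat_lit 27590235565) (nat_lit 76) (nat_lit 6010689679) (nat_lit 3) (nat_lit 4) (nat_lit 4) (nat_lit 5) (nat_lit 4) (nat_lit 4) (nat_lit 290) (nat_lit 242) (nat_lit 188)))) (XT.nd (nat_lit 156) (nat_lit 76) (nat_lit 0) (XT.nd (nat_lit 78) (nat_lit 0) (nat_lit 0) (XT.lf (nat_lit 0) (nat_lit 55843019427) (nat_lit 76) (nat_lit 25098214617) (nat_lit 76) (nat_lit 3493218848) (nat_lit 3) (nat_lit 4) (nat_lit 4) (nat_lit 5) (nat_lit 4) (nat_lit 4) (nat_lit 291) (nat_lit 242) (nat_lit 187)) (XT.lf (nat_lit 0) (nat_lit 67617814545) (nat_lit 76) (nat_lit 22413224212) (nat_lit 76) (nat_lit 784663737) (nat_lit 3) (nat_lit 4) (nat_lit 4) (nat_lit 5) (nat_lit 4) (nat_lit 4) (nat_lit 292) (nat_lit 242) (nat_lit 186))) (XT.nd (nat_lit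 78) (nat_lit 0) (nat_lit 0) (XT.lf (nat_lit 0) (nat_lit 2024423782) (nat_lit 152) (nat_lit 17439578178) (nat_lit 76) (nat_lit 78240102191) (nat_lit 2) (nat_lit 5) (nat_lit 4) (nat_lit 5) (nat_lit 3) (nat_lit 4) (nat_lit 293) (nat_lit 242) (nat_lit 185)) (XT.lf (nat_lit 0) (nat_lit 5007446331) (nat_lit 152) (nat_lit 11255094215) (nat_lit 76) (nat_lit 88880120410) (nat_lit 2) (nat_lit 5) (nat_lit 4) (nat_lit 5) (nat_lit 3) (nat_lit 4) (nat_lit 294) (nat_lit 242) (nat_lit 184))))))))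
noncomputable def xc57 : XT := (XT.nd (nat_lit 2106) (nat_lit 0) (nat_lit 0) (XT.nd (nat_lit 1014) (nat_lit 0) (nat_lit 0) (XT.nd (nat_lit 468) (nat_lit 0) (nat_lit 0) (XT.nd (nat_lit 234) (nat_lit 0) (nat_lit 0) (XT.nd (nat_lit 78) (nat_lit 76) (nat_lit 0) (XT.lf (nat_lit 0) (nat_lit 8221333137) (nat_lit 152) (nat_lit 4588916082) (nat_lit 76) (nat_lit 100366713719) (nat_lit 2) (nat_lit 5) (nat_lit 4) (nat_lit 5) (nat_lit 3) (nat_lit 4) (nat_lit 295) (nat_lit 242) (nat_lit 183)) (XT.nd (nat_lit 78) (nat_lit 0) (nat_lit 0) (XT.lf (nat_lit 0) (nat_lit 2735289769) (nat_lit 76) (nat_lit 9015623470) (nat_lit 152) (nat_lit 110098444833) (nat_lit 1) (nat_lit 5) (nat_lit 2) (nat_lit 5) (nat_lit 3) (nat_lit 4) (nat_lit 296) (nat_lit 242) (nat_lit 182)) (XT.lf (nat_lit 0) (nat_lit 10894617257) (nat_lit 76) (nat_lit 4786760036) (nat_lit 152) (nat_lit 115524719067) (nat_lit 1) (nat_lit 5) (nat_lit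 2) (nat_lit 5) (nat_lit 3) (nat_lit 4) (nat_lit 297) (nat_lit 242) (nat_lit 181)))) (XT.nd (nat_lit 78) (nat_lit 0) (nat_lit 0) (XT.lf (nat_lit 0) (nat_lit 19695773764) (nat_lit 76) (nat_lit 224068081) (nat_lit 152) (nat_lit 121392077303) (nat_lit 1) (nat_lit 5) (nat_lit 2) (nat_lit 5) (nat_lit 3) (nat_lit 4) (nat_lit 298) (nat_lit 242) (nat_lit 180)) (XT.nd (nat_lit 78) (nat_lit 0) (nat_lit 0) (XT.lf (nat_lit 0) (nat_lit 24604446584) (nat_lit 152) (nat_lit 123148821364) (nat_lit 0) (nat_lit 4464403015) (nat_lit 1) (nat_lit 5) (nat_lit 3) (nat_lit 4) (nat_lit 1) (nat_lit 4) (nat_lit 299) (nat_lit 242) (nat_lit 179)) (XT.lf (nat_lit 0) (nat_lit 29664028899) (nat_lit 152) (nat_lit 124819666334) (nat_lit 0) (nat_lit 9512197109) (nat_lit 1) (nat_lit 5) (nat_lit 3) (nat_lit 4) (nat_lit 1) (nat_lit 4) (nat_lit 300) (nat_lit 242) (nat_lit 178))))) (XT.nd (nat_lit 234) (nat_lit 0) (nat_lit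 0) (XT.nd (nat_lit 78) (nat_lit 0) (nat_lit 0) (XT.lf (nat_lit 0) (nat_lit 35123182656) (nat_lit 152) (nat_lit 126633192756) (nat_lit 0) (nat_lit 14960435848) (nat_lit 1) (nat_lit 5) (nat_lit 3) (nat_lit 4) (nat_lit 1) (nat_lit 4) (nat_lit 301) (nat_lit 242) (nat_lit 177)) (XT.nd (nat_lit 78) (nat_lit 0) (nat_lit 0) (XT.lf (nat_lit 0) (nat_lit 41014258397) (nat_lit 152) (nat_lit 128600147452) (nat_lit 0) (nat_lit 20841405090) (nat_lit 1) (nat_lit 5) (nat_lit 3) (nat_lit 4) (nat_lit 1) (nat_lit 4) (nat_lit 302) (nat_lit 242) (nat_lit 176)) (XT.lf (nat_lit 0) (nat_lit 47372166200) (nat_lit 152) (nat_lit 130732186451) (nat_lit 0) (nat_lit 27189955024) (nat_lit 1) (nat_lit 5) (nat_lit 3) (nat_lit 4) (nat_lit 1) (nat_lit 4) (nat_lit 303) (nat_lit 242) (nat_lit 175)))) (XT.nd (nat_lit 156) (nat_lit 0) (nat_lit 0) (XT.nd (nat_lit 78) (nat_lit 0) (nat_lit 0) (XT.lf (nat_lit 0) (nat_lit 54234582555)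 (nat_lit 152) (nat_lit 133041944057) (nat_lit 0) (nat_lit 34043706686) (nat_lit 1) (nat_lit 5) (nat_lit 3) (nat_lit 4) (nat_lit 1) (nat_lit 4) (nat_lit 304) (nat_lit 242) (nat_lit 174)) (XT.lf (nat_lit 0) (nat_lit 61642173634) (nat_lit 152) (nat_lit 135543107723) (nat_lit 0) (nat_lit 41443274901) (nat_lit 1) (nat_lit 5) (nat_lit 3) (nat_lit 4) (nat_lit 1) (nat_lit 4) (nat_lit 305) (nat_lit 242) (nat_lit 173))) (XT.nd (nat_lit 78) (nat_lit 0) (nat_lit 0) (XT.lf (nat_lit 0) (nat_lit 69638836274) (nat_lit 152) (nat_lit 138250499160) (nat_lit 0) (nat_lit 49432508962) (nat_lit 1) (nat_lit 5) (nat_lit 3) (nat_lit 4) (nat_lit 1) (nat_lit 4) (nat_lit 306) (nat_lit 242) (nat_lit 172)) (XT.lf (nat_lit 0) (nat_lit 78271958103) (nat_lit 152) (nat_lit 141180162169) (nat_lit 0) (nat_lit 58058752478) (nat_lit 1) (nat_lit 5) (nat_lit 3) (nat_lit 4) (nat_lit 1) (nat_lit 4) (nat_lit 307) (nat_lit 242)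 (nat_lit 171)))))) (XT.nd (nat_lit 546) (nat_lit 0) (nat_lit 0) (XT.nd (nat_lit 234) (nat_lit 0) (nat_lit 0) (XT.nd (nat_lit 78) (nat_lit 0) (nat_lit 0) (XT.lf (nat_lit 0) (nat_lit 87592698363) (nat_lit 152) (nat_lit 144349457716) (nat_lit 0) (nat_lit 67373123930) (nat_lit 1) (nat_lit 5) (nat_lit 3) (nat_lit 4) (nat_lit 1) (nat_lit 4) (nat_lit 308) (nat_lit 242) (nat_lit 170)) (XT.nd (nat_lit 78) (nat_lit 0) (nat_lit 0) (XT.lf (nat_lit 0) (nat_lit 97656291070) (nat_lit 152) (nat_lit 147777166811) (nat_lit 0) (nat_lit 77430819592) (nat_lit 1) (nat_lit 5) (nat_lit 3) (nat_lit 4) (nat_lit 1) (nat_lit 4) (nat_lit 309) (nat_lit 242) (nat_lit 169)) (XT.lf (nat_lit 0) (nat_lit 108522372329) (nat_lit 152) (nat_lit 151483601805) (nat_lit 0) (nat_lit 88291440625) (nat_lit 1) (nat_lit 5) (nat_lit 3) (nat_lit 4) (nat_lit 1) (nat_lit 4) (nat_lit 310) (nat_lit 242) (nat_lit 168)))) (XT.nd (nat_lit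 156) (nat_lit 0) (nat_lit 0) (XT.nd (nat_lit 78) (nat_lit 0) (nat_lit 0) (XT.lf (nat_lit 0) (nat_lit 120255333732) (nat_lit 152) (nat_lit 155490726757) (nat_lit 0) (nat_lit 100019346263) (nat_lit 1) (nat_lit 5) (nat_lit 3) (nat_lit 4) (nat_lit 1) (nat_lit 4) (nat_lit 311) (nat_lit 242) (nat_lit 167)) (XT.lf (nat_lit 0) (nat_lit 132924703941) (nat_lit 152) (nat_lit 159822287593) (nat_lit 0) (nat_lit 112684035207) (nat_lit 1) (nat_lit 5) (nat_lit 3) (nat_lit 4) (nat_lit 1) (nat_lit 4) (nat_lit 312) (nat_lit 242) (nat_lit 166))) (XT.nd (nat_lit 78) (nat_lit 0) (nat_lit 0) (XT.lf (nat_lit 0) (nat_lit 146605560703) (nat_lit 152) (nat_lit 164503952820) (nat_lit 0) (nat_lit 126360557465) (nat_lit 1) (nat_lit 5) (nat_lit 3) (nat_lit 4) (nat_lit 1) (nat_lit 4) (nat_lit 313) (nat_lit 242) (nat_lit 165)) (XT.lf (nat_lit 0) (nat_lit 161378975764) (nat_lit 152) (nat_lit 169563465642) (nat_lit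 0) (nat_lit 141129959096) (nat_lit 1) (nat_lit 5) (nat_lit 3) (nat_lit 4) (nat_lit 1) (nat_lit 4) (nat_lit 314) (nat_lit 242) (nat_lit 164))))) (XT.nd (nat_lit 234) (nat_lit 0) (nat_lit 0) (XT.nd (nat_lit 78) (nat_lit 0) (nat_lit 0) (XT.lf (nat_lit 0) (nat_lit 177332495286) (nat_lit 152) (nat_lit 175030808355) (nat_lit 0) (nat_lit 157079762480) (nat_lit 1) (nat_lit 5) (nat_lit 3) (nat_lit 4) (nat_lit 1) (nat_lit 4) (nat_lit 315) (nat_lit 242) (nat_lit 163)) (XT.nd (nat_lit 78) (nat_lit 0) (nat_lit 0) (XT.lf (nat_lit 0) (nat_lit 194560658644) (nat_lit 152) (nat_lit 180938380027) (nat_lit 0) (nat_lit 174304484969) (nat_lit 1) (nat_lit 5) (nat_lit 3) (nat_lit 4) (nat_lit 1) (nat_lit 4) (nat_lit 316) (nat_lit 242) (nat_lit 162)) (XT.lf (nat_lit 0) (nat_lit 213165558658) (nat_lit 152) (nat_lit 187321188492) (nat_lit 0) (nat_lit 192906198993) (nat_lit 1) (nat_lit 5) (nat_lit 3) (nat_lit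 4) (nat_lit 1) (nat_lit 4) (nat_lit 317) (nat_lit 242) (nat_lit 161)))) (XT.nd (nat_lit 156) (nat_lit 0) (nat_lit 0) (XT.nd (nat_lit 78) (nat_lit 0) (nat_lit 0) (XT.lf (nat_lit 0) (nat_lit 233257446587) (nat_lit 152) (nat_lit 194217057798) (nat_lit 0) (nat_lit 212995136932) (nat_lit 1) (nat_lit 5) (nat_lit 3) (nat_lit 4) (nat_lit 1) (nat_lit 4) (nat_lit 318) (nat_lit 242) (nat_lit 160)) (XT.lf (nat_lit 0) (nat_lit 254955385472) (nat_lit 152) (nat_lit 201666852357) (nat_lit 0) (nat_lit 234690344344) (nat_lit 1) (nat_lit 5) (nat_lit 3) (nat_lit 4) (nat_lit 1) (nat_lit 4) (nat_lit 319) (nat_lit 242) (nat_lit 159))) (XT.nd (nat_lit 78) (nat_lit 0) (nat_lit 0) (XT.lf (nat_lit 0) (nat_lit 278387955690) (nat_lit 152) (nat_lit 209714719099) (nat_lit 0) (nat_lit 258120385421) (nat_lit 1) (nat_lit 5) (nat_lit 3) (nat_lit 4) (nat_lit 1) (nat_lit 4) (nat_lit 320) (nat_lit 242) (nat_lit 158))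 (XT.lf (nat_lit 0) (nat_lit 303694016917) (nat_lit 152) (nat_lit 218408349087) (nat_lit 0) (nat_lit 283424104850) (nat_lit 1) (nat_lit 5) (nat_lit 3) (nat_lit 4) (nat_lit 1) (nat_lit 4) (nat_lit 321) (nat_lit 242) (nat_lit 157))))))) (XT.nd (nat_lit 1014) (nat_lit 0) (nat_lit 0) (XT.nd (nat_lit 468) (nat_lit 0) (nat_lit 0) (XT.nd (nat_lit 234) (nat_lit 0) (nat_lit 0) (XT.nd (nat_lit 78) (nat_lit 0) (nat_lit 0) (XT.lf (nat_lit 0) (nat_lit 331023530998) (nat_lit 152) (nat_lit 227799260128) (nat_lit 0) (nat_lit 310751450599) (nat_lit 1) (nat_lit 5) (nat_lit 3) (nat_lit 4) (nat_lit 1) (nat_lit 4) (nat_lit 322) (nat_lit 242) (nat_lit 156)) (XT.nd (nat_lit 78) (nat_lit 0) (nat_lit 0) (XT.lf (nat_lit 0) (nat_lit 360538450608) (nat_lit 152) (nat_lit 237943102065) (nat_lit 0) (nat_lit 340264362495) (nat_lit 1) (nat_lit 5) (nat_lit 3) (nat_lit 4) (nat_lit 1) (nat_lit 4) (nat_lit 323) (nat_lit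 242) (nat_lit 155)) (XT.lf (nat_lit 0) (nat_lit 392413678974) (nat_lit 152) (nat_lit 248899986555) (nat_lit 0) (nat_lit 372137731867) (nat_lit 1) (nat_lit 5) (nat_lit 3) (nat_lit 4) (nat_lit 1) (nat_lit 4) (nat_lit 324) (nat_lit 242) (nat_lit 154)))) (XT.nd (nat_lit 78) (nat_lit 0) (nat_lit 0) (XT.lf (nat_lit 0) (nat_lit 426838106339) (nat_lit 152) (nat_lit 260734843281) (nat_lit 0) (nat_lit 406560437941) (nat_lit 1) (nat_lit 5) (nat_lit 3) (nat_lit 4) (nat_lit 1) (nat_lit 4) (nat_lit 325) (nat_lit 242) (nat_lit 153)) (XT.nd (nat_lit 78) (nat_lit 0) (nat_lit 0) (XT.lf (nat_lit 0) (nat_lit 464015729310) (nat_lit 152) (nat_lit 273517804731) (nat_lit 0) (nat_lit 443736467124) (nat_lit 1) (nat_lit 5) (nat_lit 3) (nat_lit 4) (nat_lit 1) (nat_lit 4) (nat_lit 326) (nat_lit 242) (nat_lit 152)) (XT.lf (nat_lit 0) (nat_lit 504166859726) (nat_lit 152) (nat_lit 287324621785) (nat_lit 0) (nat_lit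 483886121810) (nat_lit 1) (nat_lit 5) (nat_lit 3) (nat_lit 4) (nat_lit 1) (nat_lit 4) (nat_lit 327) (nat_lit 242) (nat_lit 151))))) (XT.nd (nat_lit 234) (nat_lit 0) (nat_lit 0) (XT.nd (nat_lit 78) (nat_lit 0) (nat_lit 0) (XT.lf (nat_lit 0) (nat_lit 547529430212) (nat_lit 152) (nat_lit 302237112619) (nat_lit 0) (nat_lit 527247325879) (nat_lit 1) (nat_lit 5) (nat_lit 3) (nat_lit 4) (nat_lit 1) (nat_lit 4) (nat_lit 328) (nat_lit 242) (nat_lit 150)) (XT.nd (nat_lit 78) (nat_lit 0) (nat_lit 0) (XT.lf (nat_lit 0) (nat_lit 594360404148) (nat_lit 152) (nat_lit 318343647549) (nat_lit 0) (nat_lit 574077034616) (nat_lit 1) (nat_lit 5) (nat_lit 3) (nat_lit 4) (nat_lit 1) (nat_lit 4) (nat_lit 329) (nat_lit 242) (nat_lit 149)) (XT.lf (nat_lit 0) (nat_lit 644937298418) (nat_lit 152) (nat_lit 335739672708) (nat_lit 0) (nat_lit 624652757403) (nat_lit 1) (nat_lit 5) (nat_lit 3) (nat_lit 4) (nat_lit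 1) (nat_lit 4) (nat_lit 330) (nat_lit 242) (nat_lit 148)))) (XT.nd (nat_lit 156) (nat_lit 0) (nat_lit 0) (XT.nd (nat_lit 78) (nat_lit 0) (nat_lit 0) (XT.lf (nat_lit 0) (nat_lit 699559827950) (nat_lit 152) (nat_lit 354528275652) (nat_lit 0) (nat_lit 679274202230) (nat_lit 1) (nat_lit 5) (nat_lit 3) (nat_lit 4) (nat_lit 1) (nat_lit 4) (nat_lit 331) (nat_lit 242) (nat_lit 147)) (XT.lf (nat_lit 0) (nat_lit 758551681808) (nat_lit 152) (nat_lit 374820796252) (nat_lit 0) (nat_lit 738265051731) (nat_lit 1) (nat_lit 5) (nat_lit 3) (nat_lit 4) (nat_lit 1) (nat_lit 4) (nat_lit 332) (nat_lit 242) (nat_lit 146))) (XT.nd (nat_lit 78) (nat_lit 0) (nat_lit 0) (XT.lf (nat_lit 0) (nat_lit 822262441348) (nat_lit 152) (nat_lit 396737486480) (nat_lit 0) (nat_lit 801974881311) (nat_lit 1) (nat_lit 5) (nat_lit 3) (nat_lit 4) (nat_lit 1) (nat_lit 4) (nat_lit 333) (nat_lit 242) (nat_lit 145)) (XT.lf (nat_lit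 0) (nat_lit 891069651812) (nat_lit 152) (nat_lit 420408223019) (nat_lit 0) (nat_lit 870781230701) (nat_lit 1) (nat_lit 5) (nat_lit 3) (nat_lit 4) (nat_lit 1) (nat_lit 4) (nat_lit 334) (nat_lit 242) (nat_lit 144)))))) (XT.nd (nat_lit 546) (nat_lit 0) (nat_lit 0) (XT.nd (nat_lit 234) (nat_lit 0) (nat_lit 0) (XT.nd (nat_lit 78) (nat_lit 0) (nat_lit 0) (XT.lf (nat_lit 0) (nat_lit 965381059632) (nat_lit 152) (nat_lit 445973276902) (nat_lit 0) (nat_lit 945091841230) (nat_lit 1) (nat_lit 5) (nat_lit 3) (nat_lit 4) (nat_lit 1) (nat_lit 4) (nat_lit 335) (nat_lit 242) (nat_lit 143)) (XT.nd (nat_lit 78) (nat_lit 0) (nat_lit 0) (XT.lf (nat_lit 0) (nat_lit 1045637028708) (nat_lit 152) (nat_lit 473584144743) (nat_lit 0) (nat_lit 1025347072073) (nat_lit 1) (nat_lit 5) (nat_lit 3) (nat_lit 4) (nat_lit 1) (nat_lit 4) (nat_lit 336) (nat_lit 242) (nat_lit 142)) (XT.lf (nat_lit 0) (nat_lit 1132313149965)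 (nat_lit 152) (nat_lit 503404446499) (nat_lit 0) (nat_lit 1112022509782) (nat_lit 1) (nat_lit 5) (nat_lit 3) (nat_lit 4) (nat_lit 1) (nat_lit 4) (nat_lit 337) (nat_lit 242) (nat_lit 141)))) (XT.nd (nat_lit 156) (nat_lit 0) (nat_lit 0) (XT.nd (nat_lit 78) (nat_lit 0) (nat_lit 0) (XT.lf (nat_lit 0) (nat_lit 1225923059679) (nat_lit 152) (nat_lit 535610895072) (nat_lit 0) (nat_lit 1205631786581) (nat_lit 1) (nat_lit 5) (nat_lit 3) (nat_lit 4) (nat_lit 1) (nat_lit 4) (nat_lit 338) (nat_lit 242) (nat_lit 140)) (XT.lf (nat_lit 0) (nat_lit 1327021483241) (nat_lit 152) (nat_lit 570394343488) (nat_lit 0) (nat_lit 1306729624110) (nat_lit 1) (nat_lit 5) (nat_lit 3) (nat_lit 4) (nat_lit 1) (nat_lit 4) (nat_lit 339) (nat_lit 242) (nat_lit 139))) (XT.nd (nat_lit 78) (nat_lit 0) (nat_lit 0) (XT.lf (nat_lit 0) (nat_lit 1436207522419) (nat_lit 152) (nat_lit 607960915887) (nat_lit 0) (nat_lit 1415915120665)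 (nat_lit 1) (nat_lit 5) (nat_lit 3) (nat_lit 4) (nat_lit 1) (nat_lit 4) (nat_lit 340) (nat_lit 242) (nat_lit 138)) (XT.lf (nat_lit 0) (nat_lit 1554128205594) (nat_lit 152) (nat_lit 648533228994) (nat_lit 0) (nat_lit 1533835301412) (nat_lit 1) (nat_lit 5) (nat_lit 3) (nat_lit 4) (nat_lit 1) (nat_lit 4) (nat_lit 341) (nat_lit 242) (nat_lit 137))))) (XT.nd (nat_lit 29874) (nat_lit 0) (nat_lit 2736) (XT.nd (nat_lit 78) (nat_lit 0) (nat_lit 0) (XT.lf (nat_lit 0) (nat_lit 1681482322000) (nat_lit 152) (nat_lit 692351711331) (nat_lit 0) (nat_lit 1661188952606) (nat_lit 1) (nat_lit 5) (nat_lit 3) (nat_lit 4) (nat_lit 1) (nat_lit 4) (nat_lit 342) (nat_lit 242) (nat_lit 136)) (XT.nd (nat_lit 29718) (nat_lit 0) (nat_lit 2736) (XT.lf (nat_lit 0) (nat_lit 1819024562696) (nat_lit 152) (nat_lit 739676027978) (nat_lit 0) (nat_lit 1798730762551) (nat_lit 1) (nat_lit 5) (nat_lit 3) (nat_lit 4) (nat_lit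 1) (nat_lit 4) (nat_lit 343) (nat_lit 242) (nat_lit 135)) (XT.lf (nat_lit 0) (nat_lit 11261386) (nat_lit 0) (nat_lit 11261386) (nat_lit 228) (nat_lit 3338692540) (nat_lit 37) (nat_lit 5) (nat_lit 37) (nat_lit 3) (nat_lit 40) (nat_lit 3) (nat_lit 243) (nat_lit 243) (nat_lit 234)))) (XT.nd (nat_lit 156) (nat_lit 0) (nat_lit 0) (XT.nd (nat_lit 78) (nat_lit 0) (nat_lit 0) (XT.lf (nat_lit 0) (nat_lit 1838740562) (nat_lit 228) (nat_lit 4046376690) (nat_lit 304) (nat_lit 936388971) (nat_lit 37) (nat_lit 5) (nat_lit 40) (nat_lit 3) (nat_lit 41) (nat_lit 5) (nat_lit 244) (nat_lit 243) (nat_lit 233)) (XT.lf (nat_lit 0) (nat_lit 3601739691) (nat_lit 228) (nat_lit 1288527785) (nat_lit 304) (nat_lit 2054824001) (nat_lit 37) (nat_lit 5) (nat_lit 40) (nat_lit 3) (nat_lit 41) (nat_lit 5) (nat_lit 245) (nat_lit 243) (nat_lit 232))) (XT.nd (nat_lit 78) (nat_lit 0) (nat_lit 0) (XT.lf (nat_lit 76) (nat_lit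 1674277483) (nat_lit 0) (nat_lit 3709937593) (nat_lit 304) (nat_lit 1706525690) (nat_lit 38) (nat_lit 5) (nat_lit 37) (nat_lit 5) (nat_lit 41) (nat_lit 5) (nat_lit 246) (nat_lit 243) (nat_lit 231)) (XT.lf (nat_lit 76) (nat_lit 4850478309) (nat_lit 0) (nat_lit 2341867491) (nat_lit 304) (nat_lit 67322097) (nat_lit 38) (nat_lit 5) (nat_lit 37) (nat_lit 5) (nat_lit 41) (nat_lit 5) (nat_lit 247) (nat_lit 243) (nat_lit 230))))))))
noncomputable def xc58 : XT := (XT.nd (nat_lit 2106) (nat_lit 456) (nat_lit 0) (XT.nd (nat_lit 1014) (nat_lit 608) (nat_lit 0) (XT.nd (nat_lit 468) (nat_lit 684) (nat_lit 0) (XT.nd (nat_lit 234) (nat_lit 684) (nat_lit 0) (XT.nd (nat_lit 78) (nat_lit 0) (nat_lit 76) (XT.lf (nat_lit 76) (nat_lit 735086135) (nat_lit 0) (nat_lit 753860504) (nat_lit 380) (nat_lit 5962142864) (nat_lit 34) (nat_lit 5) (nat_lit 33) (nat_lit 5) (nat_lit 38) (nat_lit 5) (nat_lit 248) (nat_lit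 243) (nat_lit 229)) (XT.nd (nat_lit 78) (nat_lit 0) (nat_lit 0) (XT.lf (nat_lit 0) (nat_lit 3119736630) (nat_lit 304) (nat_lit 3521927212) (nat_lit 76) (nat_lit 1021530939) (nat_lit 34) (nat_lit 5) (nat_lit 38) (nat_lit 5) (nat_lit 35) (nat_lit 5) (nat_lit 249) (nat_lit 243) (nat_lit 228)) (XT.lf (nat_lit 0) (nat_lit 4773679743) (nat_lit 304) (nat_lit 194417430) (nat_lit 76) (nat_lit 2934424984) (nat_lit 34) (nat_lit 5) (nat_lit 38) (nat_lit 5) (nat_lit 35) (nat_lit 5) (nat_lit 250) (nat_lit 243) (nat_lit 227)))) (XT.nd (nat_lit 78) (nat_lit 456) (nat_lit 0) (XT.lf (nat_lit 0) (nat_lit 3478377441) (nat_lit 304) (nat_lit 3047724379) (nat_lit 380) (nat_lit 1639146075) (nat_lit 30) (nat_lit 5) (nat_lit 34) (nat_lit 5) (nat_lit 35) (nat_lit 5) (nat_lit 251) (nat_lit 243) (nat_lit 226)) (XT.nd (nat_lit 78) (nat_lit 456) (nat_lit 0) (XT.lf (nat_lit 0) (nat_lit 7363537368) (nat_lit 304)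 (nat_lit 949482551) (nat_lit 380) (nat_lit 145858381) (nat_lit 30) (nat_lit 5) (nat_lit 34) (nat_lit 5) (nat_lit 35) (nat_lit 5) (nat_lit 252) (nat_lit 243) (nat_lit 225)) (XT.lf (nat_lit 0) (nat_lit 1388696412) (nat_lit 456) (nat_lit 6016662116) (nat_lit 76) (nat_lit 1369430259) (nat_lit 24) (nat_lit 5) (nat_lit 30) (nat_lit 5) (nat_lit 25) (nat_lit 5) (nat_lit 253) (nat_lit 243) (nat_lit 224))))) (XT.nd (nat_lit 234) (nat_lit 456) (nat_lit 0) (XT.nd (nat_lit 78) (nat_lit 228) (nat_lit 0) (XT.lf (nat_lit 0) (nat_lit 2992801821) (nat_lit 456) (nat_lit 2260280862) (nat_lit 76) (nat_lit 3867348844) (nat_lit 24) (nat_lit 5) (nat_lit 30) (nat_lit 5) (nat_lit 25) (nat_lit 5) (nat_lit 254) (nat_lit 243) (nat_lit 223)) (XT.nd (nat_lit 78) (nat_lit 0) (nat_lit 0) (XT.lf (nat_lit 0) (nat_lit 1794098764) (nat_lit 228) (nat_lit 2881023942) (nat_lit 304) (nat_lit 4823663688) (nat_lit 21) (nat_lit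 5) (nat_lit 24) (nat_lit 5) (nat_lit 25) (nat_lit 5) (nat_lit 255) (nat_lit 243) (nat_lit 222)) (XT.lf (nat_lit 0) (nat_lit 6211448425) (nat_lit 228) (nat_lit 253865390) (nat_lit 304) (nat_lit 3445206843) (nat_lit 21) (nat_lit 5) (nat_lit 24) (nat_lit 5) (nat_lit 25) (nat_lit 5) (nat_lit 256) (nat_lit 243) (nat_lit 221)))) (XT.nd (nat_lit 156) (nat_lit 228) (nat_lit 0) (XT.nd (nat_lit 78) (nat_lit 0) (nat_lit 0) (XT.lf (nat_lit 0) (nat_lit 499138502) (nat_lit 228) (nat_lit 7891728218) (nat_lit 304) (nat_lit 1965856863) (nat_lit 18) (nat_lit 5) (nat_lit 21) (nat_lit 5) (nat_lit 22) (nat_lit 5) (nat_lit 257) (nat_lit 243) (nat_lit 220)) (XT.lf (nat_lit 0) (nat_lit 5148240036) (nat_lit 228) (nat_lit 5351747240) (nat_lit 304) (nat_lit 337108444) (nat_lit 18) (nat_lit 5) (nat_lit 21) (nat_lit 5) (nat_lit 22) (nat_lit 5) (nat_lit 258) (nat_lit 243) (nat_lit 219))) (XT.nd (nat_lit 78) (nat_lit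 152) (nat_lit 0) (XT.lf (nat_lit 0) (nat_lit 1275935588) (nat_lit 304) (nat_lit 1307330766) (nat_lit 76) (nat_lit 8776601053) (nat_lit 17) (nat_lit 5) (nat_lit 21) (nat_lit 5) (nat_lit 18) (nat_lit 5) (nat_lit 259) (nat_lit 243) (nat_lit 218)) (XT.lf (nat_lit 0) (nat_lit 3026878777) (nat_lit 228) (nat_lit 8423632651) (nat_lit 76) (nat_lit 471746190) (nat_lit 15) (nat_lit 5) (nat_lit 18) (nat_lit 5) (nat_lit 16) (nat_lit 5) (nat_lit 260) (nat_lit 243) (nat_lit 217)))))) (XT.nd (nat_lit 546) (nat_lit 228) (nat_lit 0) (XT.nd (nat_lit 234) (nat_lit 228) (nat_lit 0) (XT.nd (nat_lit 78) (nat_lit 152) (nat_lit 0) (XT.lf (nat_lit 0) (nat_lit 4955310649) (nat_lit 228) (nat_lit 3915079647) (nat_lit 76) (nat_lit 3656869333) (nat_lit 15) (nat_lit 5) (nat_lit 18) (nat_lit 5) (nat_lit 16) (nat_lit 5) (nat_lit 261) (nat_lit 243) (nat_lit 216)) (XT.nd (nat_lit 78) (nat_lit 0) (nat_lit 0) (XT.lf (nat_lit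 0) (nat_lit 922840191) (nat_lit 152) (nat_lit 6075928824) (nat_lit 228) (nat_lit 6185600816) (nat_lit 13) (nat_lit 5) (nat_lit 15) (nat_lit 5) (nat_lit 16) (nat_lit 5) (nat_lit 262) (nat_lit 243) (nat_lit 215)) (XT.lf (nat_lit 0) (nat_lit 6294927615) (nat_lit 152) (nat_lit 2959114295) (nat_lit 228) (nat_lit 4636666008) (nat_lit 13) (nat_lit 5) (nat_lit 15) (nat_lit 5) (nat_lit 16) (nat_lit 5) (nat_lit 263) (nat_lit 243) (nat_lit 214)))) (XT.nd (nat_lit 156) (nat_lit 76) (nat_lit 0) (XT.nd (nat_lit 78) (nat_lit 152) (nat_lit 0) (XT.lf (nat_lit 0) (nat_lit 11644793033) (nat_lit 228) (nat_lit 2640947869) (nat_lit 76) (nat_lit 371894766) (nat_lit 13) (nat_lit 5) (nat_lit 16) (nat_lit 5) (nat_lit 14) (nat_lit 4) (nat_lit 264) (nat_lit 243) (nat_lit 213)) (XT.lf (nat_lit 0) (nat_lit 2699577632) (nat_lit 152) (nat_lit 11618332875) (nat_lit 228) (nat_lit 1161169675) (nat_lit 11) (nat_lit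 5) (nat_lit 13) (nat_lit 5) (nat_lit 14) (nat_lit 4) (nat_lit 265) (nat_lit 243) (nat_lit 212))) (XT.nd (nat_lit 78) (nat_lit 0) (nat_lit 0) (XT.lf (nat_lit 0) (nat_lit 820571988) (nat_lit 228) (nat_lit 7835133630) (nat_lit 76) (nat_lit 7707396846) (nat_lit 10) (nat_lit 5) (nat_lit 13) (nat_lit 5) (nat_lit 11) (nat_lit 5) (nat_lit 266) (nat_lit 243) (nat_lit 211)) (XT.lf (nat_lit 0) (nat_lit 2851641107) (nat_lit 228) (nat_lit 2590341623) (nat_lit 76) (nat_lit 11877527317) (nat_lit 10) (nat_lit 5) (nat_lit 13) (nat_lit 5) (nat_lit 11) (nat_lit 5) (nat_lit 267) (nat_lit 243) (nat_lit 210))))) (XT.nd (nat_lit 234) (nat_lit 76) (nat_lit 0) (XT.nd (nat_lit 78) (nat_lit 0) (nat_lit 0) (XT.lf (nat_lit 0) (nat_lit 3172585453) (nat_lit 152) (nat_lit 1905875359) (nat_lit 228) (nat_lit 13271639750) (nat_lit 8) (nat_lit 5) (nat_lit 10) (nat_lit 5) (nat_lit 11) (nat_lit 5) (nat_lit 268) (nat_lit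 243) (nat_lit 209)) (XT.nd (nat_lit 78) (nat_lit 0) (nat_lit 0) (XT.lf (nat_lit 0) (nat_lit 7560425051) (nat_lit 228) (nat_lit 10023281602) (nat_lit 76) (nat_lit 1873578723) (nat_lit 8) (nat_lit 5) (nat_lit 11) (nat_lit 5) (nat_lit 9) (nat_lit 4) (nat_lit 269) (nat_lit 243) (nat_lit 208)) (XT.lf (nat_lit 0) (nat_lit 10251861009) (nat_lit 228) (nat_lit 4563454123) (nat_lit 76) (nat_lit 5837140910) (nat_lit 8) (nat_lit 5) (nat_lit 11) (nat_lit 5) (nat_lit 9) (nat_lit 4) (nat_lit 270) (nat_lit 243) (nat_lit 207)))) (XT.nd (nat_lit 156) (nat_lit 0) (nat_lit 0) (XT.nd (nat_lit 78) (nat_lit 0) (nat_lit 0) (XT.lf (nat_lit 0) (nat_lit 1347569070) (nat_lit 76) (nat_lit 11807721588) (nat_lit 152) (nat_lit 8788478579) (nat_lit 7) (nat_lit 5) (nat_lit 8) (nat_lit 5) (nat_lit 9) (nat_lit 4) (nat_lit 271) (nat_lit 243) (nat_lit 206)) (XT.lf (nat_lit 0) (nat_lit 7939342260) (nat_lit 76) (nat_lit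 8442099360) (nat_lit 152) (nat_lit 6949953797) (nat_lit 7) (nat_lit 5) (nat_lit 8) (nat_lit 5) (nat_lit 9) (nat_lit 4) (nat_lit 272) (nat_lit 243) (nat_lit 205))) (XT.nd (nat_lit 78) (nat_lit 0) (nat_lit 0) (XT.lf (nat_lit 0) (nat_lit 15010624399) (nat_lit 76) (nat_lit 4823276945) (nat_lit 152) (nat_lit 4998898648) (nat_lit 7) (nat_lit 5) (nat_lit 8) (nat_lit 5) (nat_lit 9) (nat_lit 4) (nat_lit 273) (nat_lit 243) (nat_lit 204)) (XT.lf (nat_lit 0) (nat_lit 22603319379) (nat_lit 76) (nat_lit 929809468) (nat_lit 152) (nat_lit 2923751326) (nat_lit 7) (nat_lit 5) (nat_lit 8) (nat_lit 5) (nat_lit 9) (nat_lit 4) (nat_lit 274) (nat_lit 243) (nat_lit 203))))))) (XT.nd (nat_lit 1014) (nat_lit 152) (nat_lit 0) (XT.nd (nat_lit 468) (nat_lit 76) (nat_lit 0) (XT.nd (nat_lit 234) (nat_lit 76) (nat_lit 0) (XT.nd (nat_lit 78) (nat_lit 76) (nat_lit 0) (XT.lf (nat_lit 0) (nat_lit 2600828633) (nat_lit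 76) (nat_lit 25041202996) (nat_lit 76) (nat_lit 559949618) (nat_lit 6) (nat_lit 4) (nat_lit 7) (nat_lit 5) (nat_lit 7) (nat_lit 4) (nat_lit 275) (nat_lit 243) (nat_lit 202)) (XT.nd (nat_lit 78) (nat_lit 0) (nat_lit 0) (XT.lf (nat_lit 0) (nat_lit 1998105388) (nat_lit 152) (nat_lit 20405925503) (nat_lit 76) (nat_lit 7670603322) (nat_lit 5) (nat_lit 5) (nat_lit 7) (nat_lit 5) (nat_lit 6) (nat_lit 4) (nat_lit 276) (nat_lit 243) (nat_lit 201)) (XT.lf (nat_lit 0) (nat_lit 4705177157) (nat_lit 152) (nat_lit 14849967455) (nat_lit 76) (nat_lit 12542974898) (nat_lit 5) (nat_lit 5) (nat_lit 7) (nat_lit 5) (nat_lit 6) (nat_lit 4) (nat_lit 277) (nat_lit 243) (nat_lit 200)))) (XT.nd (nat_lit 78) (nat_lit 76) (nat_lit 0) (XT.lf (nat_lit 0) (nat_lit 7605318543) (nat_lit 152) (nat_lit 8886887475) (nat_lit 76) (nat_lit 17793299491) (nat_lit 5) (nat_lit 5) (nat_lit 7) (nat_lit 5) (nat_lit 6) (nat_lit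 4) (nat_lit 278) (nat_lit 243) (nat_lit 199)) (XT.nd (nat_lit 78) (nat_lit 76) (nat_lit 0) (XT.lf (nat_lit 0) (nat_lit 10715715571) (nat_lit 152) (nat_lit 2481348793) (nat_lit 76) (nat_lit 23452690136) (nat_lit 5) (nat_lit 5) (nat_lit 7) (nat_lit 5) (nat_lit 6) (nat_lit 4) (nat_lit 279) (nat_lit 243) (nat_lit 198)) (XT.lf (nat_lit 0) (nat_lit 4636546157) (nat_lit 76) (nat_lit 9529763110) (nat_lit 152) (nat_lit 25029646851) (nat_lit 4) (nat_lit 5) (nat_lit 5) (nat_lit 5) (nat_lit 6) (nat_lit 4) (nat_lit 280) (nat_lit 243) (nat_lit 197))))) (XT.nd (nat_lit 234) (nat_lit 76) (nat_lit 0) (XT.nd (nat_lit 78) (nat_lit 0) (nat_lit 0) (XT.lf (nat_lit 0) (nat_lit 12433774340) (nat_lit 76) (nat_lit 5507617893) (nat_lit 152) (nat_lit 24000699164) (nat_lit 4) (nat_lit 5) (nat_lit 5) (nat_lit 5) (nat_lit 6) (nat_lit 4) (nat_lit 281) (nat_lit 243) (nat_lit 196)) (XT.nd (nat_lit 78) (nat_lit 0)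 (nat_lit 0) (XT.lf (nat_lit 0) (nat_lit 20825878122) (nat_lit 76) (nat_lit 1174638253) (nat_lit 152) (nat_lit 22908942874) (nat_lit 4) (nat_lit 5) (nat_lit 5) (nat_lit 5) (nat_lit 6) (nat_lit 4) (nat_lit 282) (nat_lit 243) (nat_lit 195)) (XT.lf (nat_lit 0) (nat_lit 26451787054) (nat_lit 152) (nat_lit 18337106878) (nat_lit 0) (nat_lit 3320026039) (nat_lit 4) (nat_lit 5) (nat_lit 6) (nat_lit 4) (nat_lit 4) (nat_lit 4) (nat_lit 283) (nat_lit 243) (nat_lit 194)))) (XT.nd (nat_lit 156) (nat_lit 76) (nat_lit 0) (XT.nd (nat_lit 78) (nat_lit 0) (nat_lit 0) (XT.lf (nat_lit 0) (nat_lit 31274041469) (nat_lit 152) (nat_lit 12187300430) (nat_lit 0) (nat_lit 8101894688) (nat_lit 4) (nat_lit 5) (nat_lit 6) (nat_lit 4) (nat_lit 4) (nat_lit 4) (nat_lit 284) (nat_lit 243) (nat_lit 193)) (XT.lf (nat_lit 0) (nat_lit 36467605864) (nat_lit 152) (nat_lit 5569468407) (nat_lit 0) (nat_lit 13258064856) (nat_lit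 4) (nat_lit 5) (nat_lit 6) (nat_lit 4) (nat_lit 4) (nat_lit 4) (nat_lit 285) (nat_lit 243) (nat_lit 192))) (XT.nd (nat_lit 78) (nat_lit 0) (nat_lit 0) (XT.lf (nat_lit 0) (nat_lit 1637521427) (nat_lit 76) (nat_lit 40465117921) (nat_lit 76) (nat_lit 17220952629) (nat_lit 3) (nat_lit 4) (nat_lit 4) (nat_lit 5) (nat_lit 4) (nat_lit 4) (nat_lit 286) (nat_lit 243) (nat_lit 191)) (XT.lf (nat_lit 0) (nat_lit 9716188472) (nat_lit 76) (nat_lit 38611640138) (nat_lit 76) (nat_lit 15335415323) (nat_lit 3) (nat_lit 4) (nat_lit 4) (nat_lit 5) (nat_lit 4) (nat_lit 4) (nat_lit 287) (nat_lit 243) (nat_lit 190)))))) (XT.nd (nat_lit 546) (nat_lit 76) (nat_lit 0) (XT.nd (nat_lit 234) (nat_lit 76) (nat_lit 0) (XT.nd (nat_lit 78) (nat_lit 0) (nat_lit 0) (XT.lf (nat_lit 0) (nat_lit 18421127975) (nat_lit 76) (nat_lit 36617936487) (nat_lit 76) (nat_lit 13312026930) (nat_lit 3) (nat_lit 4) (nat_lit 4) (nat_lit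 5) (nat_lit 4) (nat_lit 4) (nat_lit 288) (nat_lit 243) (nat_lit 189)) (XT.nd (nat_lit 78) (nat_lit 0) (nat_lit 0) (XT.lf (nat_lit 0) (nat_lit 27803924761) (nat_lit 76) (nat_lit 34472192429) (nat_lit 76) (nat_lit 11138796999) (nat_lit 3) (nat_lit 4) (nat_lit 4) (nat_lit 5) (nat_lit 4) (nat_lit 4) (nat_lit 289) (nat_lit 243) (nat_lit 188)) (XT.lf (nat_lit 0) (nat_lit 37920180590) (nat_lit 76) (nat_lit 32161692443) (nat_lit 76) (nat_lit 8802847130) (nat_lit 3) (nat_lit 4) (nat_lit 4) (nat_lit 5) (nat_lit 4) (nat_lit 4) (nat_lit 290) (nat_lit 243) (nat_lit 187)))) (XT.nd (nat_lit 156) (nat_lit 76) (nat_lit 0) (XT.nd (nat_lit 78) (nat_lit 0) (nat_lit 0) (XT.lf (nat_lit 0) (nat_lit 48829843644) (nat_lit 76) (nat_lit 29672744677) (nat_lit 76) (nat_lit 6290334658) (nat_lit 3) (nat_lit 4) (nat_lit 4) (nat_lit 5) (nat_lit 4) (nat_lit 4) (nat_lit 291) (nat_lit 243) (nat_lit 186)) (XT.lf (nat_lit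 0) (nat_lit 60597563779) (nat_lit 76) (nat_lit 26990599810) (nat_lit 76) (nat_lit 3586370619) (nat_lit 3) (nat_lit 4) (nat_lit 4) (nat_lit 5) (nat_lit 4) (nat_lit 4) (nat_lit 292) (nat_lit 243) (nat_lit 185))) (XT.nd (nat_lit 78) (nat_lit 76) (nat_lit 0) (XT.lf (nat_lit 0) (nat_lit 73293075631) (nat_lit 76) (nat_lit 24099363652) (nat_lit 76) (nat_lit 674931524) (nat_lit 3) (nat_lit 4) (nat_lit 4) (nat_lit 5) (nat_lit 4) (nat_lit 4) (nat_lit 293) (nat_lit 243) (nat_lit 184)) (XT.lf (nat_lit 0) (nat_lit 2338114627) (nat_lit 152) (nat_lit 18579860126) (nat_lit 76) (nat_lit 84589569040) (nat_lit 2) (nat_lit 5) (nat_lit 4) (nat_lit 5) (nat_lit 3) (nat_lit 4) (nat_lit 294) (nat_lit 243) (nat_lit 183))))) (XT.nd (nat_lit 234) (nat_lit 0) (nat_lit 0) (XT.nd (nat_lit 78) (nat_lit 76) (nat_lit 0) (XT.lf (nat_lit 0) (nat_lit 5548539206) (nat_lit 152) (nat_lit 11919497764) (nat_lit 76) (nat_lit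 96074102890) (nat_lit 2) (nat_lit 5) (nat_lit 4) (nat_lit 5) (nat_lit 3) (nat_lit 4) (nat_lit 295) (nat_lit 243) (nat_lit 182)) (XT.nd (nat_lit 78) (nat_lit 76) (nat_lit 0) (XT.lf (nat_lit 0) (nat_lit 9009129759) (nat_lit 152) (nat_lit 4737507158) (nat_lit 76) (nat_lit 108473433082) (nat_lit 2) (nat_lit 5) (nat_lit 4) (nat_lit 5) (nat_lit 3) (nat_lit 4) (nat_lit 296) (nat_lit 243) (nat_lit 181)) (XT.lf (nat_lit 0) (nat_lit 3167102953) (nat_lit 76) (nat_lit 9649459437) (nat_lit 152) (nat_lit 118770103077) (nat_lit 1) (nat_lit 5) (nat_lit 2) (nat_lit 5) (nat_lit 3) (nat_lit 4) (nat_lit 297) (nat_lit 243) (nat_lit 180)))) (XT.nd (nat_lit 156) (nat_lit 0) (nat_lit 0) (XT.nd (nat_lit 78) (nat_lit 0) (nat_lit 0) (XT.lf (nat_lit 0) (nat_lit 11963399604) (nat_lit 76) (nat_lit 5088762032) (nat_lit 152) (nat_lit 124640569424) (nat_lit 1) (nat_lit 5) (nat_lit 2) (nat_lit 5) (nat_lit 3) (nat_lit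 4) (nat_lit 298) (nat_lit 243) (nat_lit 179)) (XT.lf (nat_lit 0) (nat_lit 21454040263) (nat_lit 76) (nat_lit 167050188) (nat_lit 152) (nat_lit 130986659071) (nat_lit 1) (nat_lit 5) (nat_lit 2) (nat_lit 5) (nat_lit 3) (nat_lit 4) (nat_lit 299) (nat_lit 243) (nat_lit 178))) (XT.nd (nat_lit 78) (nat_lit 0) (nat_lit 0) (XT.lf (nat_lit 0) (nat_lit 26674157540) (nat_lit 152) (nat_lit 132824870253) (nat_lit 0) (nat_lit 4887475969) (nat_lit 1) (nat_lit 5) (nat_lit 3) (nat_lit 4) (nat_lit 1) (nat_lit 4) (nat_lit 300) (nat_lit 243) (nat_lit 177)) (XT.lf (nat_lit 0) (nat_lit 32130998645) (nat_lit 152) (nat_lit 134642409252) (nat_lit 0) (nat_lit 10334210576) (nat_lit 1) (nat_lit 5) (nat_lit 3) (nat_lit 4) (nat_lit 1) (nat_lit 4) (nat_lit 301) (nat_lit 243) (nat_lit 176))))))))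
noncomputable def xc59 : XT := (XT.nd (nat_lit 2106) (nat_lit 0) (nat_lit 0) (XT.nd (nat_lit 1014) (nat_lit 0) (nat_lit 0) (XT.nd (nat_lit 468) (nat_lit 0) (nat_lit 0) (XT.nd (nat_lit 234) (nat_lit 0) (nat_lit 0) (XT.nd (nat_lit 78) (nat_lit 0) (nat_lit 0) (XT.lf (nat_lit 0) (nat_lit 38019933041) (nat_lit 152) (nat_lit 136613079297) (nat_lit 0) (nat_lit 16213787103) (nat_lit 1) (nat_lit 5) (nat_lit 3) (nat_lit 4) (nat_lit 1) (nat_lit 4) (nat_lit 302) (nat_lit 243) (nat_lit 175)) (XT.nd (nat_lit 78) (nat_lit 0) (nat_lit 0) (XT.lf (nat_lit 0) (nat_lit 44375858117) (nat_lit 152) (nat_lit 138748558434) (nat_lit 0) (nat_lit 22561047485) (nat_lit 1) (nat_lit 5) (nat_lit 3) (nat_lit 4) (nat_lit 1) (nat_lit 4) (nat_lit 303) (nat_lit 243) (nat_lit 174)) (XT.lf (nat_lit 0) (nat_lit 51236438615) (nat_lit 152) (nat_lit 141061501354) (nat_lit 0) (nat_lit 29413605118) (nat_lit 1) (nat_lit 5) (nat_lit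 3) (nat_lit 4) (nat_lit 1) (nat_lit 4) (nat_lit 304) (nat_lit 243) (nat_lit 173)))) (XT.nd (nat_lit 78) (nat_lit 0) (nat_lit 0) (XT.lf (nat_lit 0) (nat_lit 58642329825) (nat_lit 152) (nat_lit 143565614384) (nat_lit 0) (nat_lit 36812067751) (nat_lit 1) (nat_lit 5) (nat_lit 3) (nat_lit 4) (nat_lit 1) (nat_lit 4) (nat_lit 305) (nat_lit 243) (nat_lit 172)) (XT.nd (nat_lit 78) (nat_lit 0) (nat_lit 0) (XT.lf (nat_lit 0) (nat_lit 66637418512) (nat_lit 152) (nat_lit 146275736714) (nat_lit 0) (nat_lit 44800278125) (nat_lit 1) (nat_lit 5) (nat_lit 3) (nat_lit 4) (nat_lit 1) (nat_lit 4) (nat_lit 306) (nat_lit 243) (nat_lit 171)) (XT.lf (nat_lit 0) (nat_lit 75269082978) (nat_lit 152) (nat_lit 149207928327) (nat_lit 0) (nat_lit 53425573782) (nat_lit 1) (nat_lit 5) (nat_lit 3) (nat_lit 4) (nat_lit 1) (nat_lit 4) (nat_lit 307) (nat_lit 243) (nat_lit 170))))) (XT.nd (nat_lit 234) (nat_lit 0) (nat_lit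 0) (XT.nd (nat_lit 78) (nat_lit 0) (nat_lit 0) (XT.lf (nat_lit 0) (nat_lit 84588473828) (nat_lit 152) (nat_lit 152379565175) (nat_lit 0) (nat_lit 62739067587) (nat_lit 1) (nat_lit 5) (nat_lit 3) (nat_lit 4) (nat_lit 1) (nat_lit 4) (nat_lit 308) (nat_lit 243) (nat_lit 169)) (XT.nd (nat_lit 78) (nat_lit 0) (nat_lit 0) (XT.lf (nat_lit 0) (nat_lit 94650817081) (nat_lit 152) (nat_lit 155809442141) (nat_lit 0) (nat_lit 72795950613) (nat_lit 1) (nat_lit 5) (nat_lit 3) (nat_lit 4) (nat_lit 1) (nat_lit 4) (nat_lit 309) (nat_lit 243) (nat_lit 168)) (XT.lf (nat_lit 0) (nat_lit 105515741438) (nat_lit 152) (nat_lit 159517884422) (nat_lit 0) (nat_lit 83655819205) (nat_lit 1) (nat_lit 5) (nat_lit 3) (nat_lit 4) (nat_lit 1) (nat_lit 4) (nat_lit 310) (nat_lit 243) (nat_lit 167)))) (XT.nd (nat_lit 156) (nat_lit 0) (nat_lit 0) (XT.nd (nat_lit 78) (nat_lit 0) (nat_lit 0) (XT.lf (nat_lit 0) (nat_lit 117247631636)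 (nat_lit 152) (nat_lit 163526867974) (nat_lit 0) (nat_lit 95383028139) (nat_lit 1) (nat_lit 5) (nat_lit 3) (nat_lit 4) (nat_lit 1) (nat_lit 4) (nat_lit 311) (nat_lit 243) (nat_lit 166)) (XT.lf (nat_lit 0) (nat_lit 129916009987) (nat_lit 152) (nat_lit 167860149735) (nat_lit 0) (nat_lit 108047071986) (nat_lit 1) (nat_lit 5) (nat_lit 3) (nat_lit 4) (nat_lit 1) (nat_lit 4) (nat_lit 312) (nat_lit 243) (nat_lit 165))) (XT.nd (nat_lit 78) (nat_lit 0) (nat_lit 0) (XT.lf (nat_lit 0) (nat_lit 143595948364) (nat_lit 152) (nat_lit 172543408412) (nat_lit 0) (nat_lit 121722996933) (nat_lit 1) (nat_lit 5) (nat_lit 3) (nat_lit 4) (nat_lit 1) (nat_lit 4) (nat_lit 313) (nat_lit 243) (nat_lit 164)) (XT.lf (nat_lit 0) (nat_lit 158368513067) (nat_lit 152) (nat_lit 177604396650) (nat_lit 0) (nat_lit 136491845497) (nat_lit 1) (nat_lit 5) (nat_lit 3) (nat_lit 4) (nat_lit 1) (nat_lit 4) (nat_lit 314) (nat_lit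 243) (nat_lit 163)))))) (XT.nd (nat_lit 546) (nat_lit 0) (nat_lit 0) (XT.nd (nat_lit 234) (nat_lit 0) (nat_lit 0) (XT.nd (nat_lit 78) (nat_lit 0) (nat_lit 0) (XT.lf (nat_lit 0) (nat_lit 174321245220) (nat_lit 152) (nat_lit 183073105489) (nat_lit 0) (nat_lit 152441136782) (nat_lit 1) (nat_lit 5) (nat_lit 3) (nat_lit 4) (nat_lit 1) (nat_lit 4) (nat_lit 315) (nat_lit 243) (nat_lit 162)) (XT.nd (nat_lit 78) (nat_lit 0) (nat_lit 0) (XT.lf (nat_lit 0) (nat_lit 191548679534) (nat_lit 152) (nat_lit 188981942093) (nat_lit 0) (nat_lit 169665385106) (nat_lit 1) (nat_lit 5) (nat_lit 3) (nat_lit 4) (nat_lit 1) (nat_lit 4) (nat_lit 316) (nat_lit 243) (nat_lit 161)) (XT.lf (nat_lit 0) (nat_lit 210152904507) (nat_lit 152) (nat_lit 195365921791) (nat_lit 0) (nat_lit 188266660088) (nat_lit 1) (nat_lit 5) (nat_lit 3) (nat_lit 4) (nat_lit 1) (nat_lit 4) (nat_lit 317) (nat_lit 243) (nat_lit 160)))) (XT.nd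 (nat_lit 156) (nat_lit 0) (nat_lit 0) (XT.nd (nat_lit 78) (nat_lit 0) (nat_lit 0) (XT.lf (nat_lit 0) (nat_lit 230244167398) (nat_lit 152) (nat_lit 202262875572) (nat_lit 0) (nat_lit 208355191507) (nat_lit 1) (nat_lit 5) (nat_lit 3) (nat_lit 4) (nat_lit 1) (nat_lit 4) (nat_lit 318) (nat_lit 243) (nat_lit 159)) (XT.lf (nat_lit 0) (nat_lit 251941527544) (nat_lit 152) (nat_lit 209713674275) (nat_lit 0) (nat_lit 230050022511) (nat_lit 1) (nat_lit 5) (nat_lit 3) (nat_lit 4) (nat_lit 1) (nat_lit 4) (nat_lit 319) (nat_lit 243) (nat_lit 158))) (XT.nd (nat_lit 78) (nat_lit 0) (nat_lit 0) (XT.lf (nat_lit 0) (nat_lit 275373561893) (nat_lit 152) (nat_lit 217762470780) (nat_lit 0) (nat_lit 253479715062) (nat_lit 1) (nat_lit 5) (nat_lit 3) (nat_lit 4) (nat_lit 1) (nat_lit 4) (nat_lit 320) (nat_lit 243) (nat_lit 157)) (XT.lf (nat_lit 0) (nat_lit 300679126944) (nat_lit 152) (nat_lit 226456961659)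 (nat_lit 0) (nat_lit 278783111783) (nat_lit 1) (nat_lit 5) (nat_lit 3) (nat_lit 4) (nat_lit 1) (nat_lit 4) (nat_lit 321) (nat_lit 243) (nat_lit 156))))) (XT.nd (nat_lit 234) (nat_lit 0) (nat_lit 0) (XT.nd (nat_lit 78) (nat_lit 0) (nat_lit 0) (XT.lf (nat_lit 0) (nat_lit 328008181603) (nat_lit 152) (nat_lit 235848669822) (nat_lit 0) (nat_lit 306110158728) (nat_lit 1) (nat_lit 5) (nat_lit 3) (nat_lit 4) (nat_lit 1) (nat_lit 4) (nat_lit 322) (nat_lit 243) (nat_lit 155)) (XT.nd (nat_lit 78) (nat_lit 0) (nat_lit 0) (XT.lf (nat_lit 0) (nat_lit 357522675822) (nat_lit 152) (nat_lit 245993249834) (nat_lit 0) (nat_lit 335622793952) (nat_lit 1) (nat_lit 5) (nat_lit 3) (nat_lit 4) (nat_lit 1) (nat_lit 4) (nat_lit 323) (nat_lit 243) (nat_lit 154)) (XT.lf (nat_lit 0) (nat_lit 389397510309) (nat_lit 152) (nat_lit 256950817727) (nat_lit 0) (nat_lit 367495907148) (nat_lit 1) (nat_lit 5) (nat_lit 3)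 (nat_lit 4) (nat_lit 1) (nat_lit 4) (nat_lit 324) (nat_lit 243) (nat_lit 153)))) (XT.nd (nat_lit 156) (nat_lit 0) (nat_lit 0) (XT.nd (nat_lit 78) (nat_lit 0) (nat_lit 0) (XT.lf (nat_lit 0) (nat_lit 423821572970) (nat_lit 152) (nat_lit 268786307234) (nat_lit 0) (nat_lit 401918376021) (nat_lit 1) (nat_lit 5) (nat_lit 3) (nat_lit 4) (nat_lit 1) (nat_lit 4) (nat_lit 325) (nat_lit 243) (nat_lit 152)) (XT.lf (nat_lit 0) (nat_lit 460998858252) (nat_lit 152) (nat_lit 281569854592) (nat_lit 0) (nat_lit 439094185573) (nat_lit 1) (nat_lit 5) (nat_lit 3) (nat_lit 4) (nat_lit 1) (nat_lit 4) (nat_lit 326) (nat_lit 243) (nat_lit 151))) (XT.nd (nat_lit 78) (nat_lit 0) (nat_lit 0) (XT.lf (nat_lit 0) (nat_lit 501149675994) (nat_lit 152) (nat_lit 295377214153) (nat_lit 0) (nat_lit 479243636898) (nat_lit 1) (nat_lit 5) (nat_lit 3) (nat_lit 4) (nat_lit 1) (nat_lit 4) (nat_lit 327) (nat_lit 243) (nat_lit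 150)) (XT.lf (nat_lit 0) (nat_lit 544511956966) (nat_lit 152) (nat_lit 310290207309) (nat_lit 0) (nat_lit 522604652670) (nat_lit 1) (nat_lit 5) (nat_lit 3) (nat_lit 4) (nat_lit 1) (nat_lit 4) (nat_lit 328) (nat_lit 243) (nat_lit 149))))))) (XT.nd (nat_lit 1014) (nat_lit 0) (nat_lit 0) (XT.nd (nat_lit 468) (nat_lit 0) (nat_lit 0) (XT.nd (nat_lit 234) (nat_lit 0) (nat_lit 0) (XT.nd (nat_lit 78) (nat_lit 0) (nat_lit 0) (XT.lf (nat_lit 0) (nat_lit 591342662834) (nat_lit 152) (nat_lit 326397207352) (nat_lit 0) (nat_lit 569434187056) (nat_lit 1) (nat_lit 5) (nat_lit 3) (nat_lit 4) (nat_lit 1) (nat_lit 4) (nat_lit 329) (nat_lit 243) (nat_lit 148)) (XT.nd (nat_lit 78) (nat_lit 0) (nat_lit 0) (XT.lf (nat_lit 0) (nat_lit 641919308893) (nat_lit 152) (nat_lit 343793663171) (nat_lit 0) (nat_lit 620009748409) (nat_lit 1) (nat_lit 5) (nat_lit 3) (nat_lit 4) (nat_lit 1) (nat_lit 4) (nat_lit 330)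 (nat_lit 243) (nat_lit 147)) (XT.lf (nat_lit 0) (nat_lit 696541608599) (nat_lit 152) (nat_lit 362582664875) (nat_lit 0) (nat_lit 674631043759) (nat_lit 1) (nat_lit 5) (nat_lit 3) (nat_lit 4) (nat_lit 1) (nat_lit 4) (nat_lit 331) (nat_lit 243) (nat_lit 146)))) (XT.nd (nat_lit 78) (nat_lit 0) (nat_lit 0) (XT.lf (nat_lit 0) (nat_lit 755533249656) (nat_lit 152) (nat_lit 382875554696) (nat_lit 0) (nat_lit 733621754856) (nat_lit 1) (nat_lit 5) (nat_lit 3) (nat_lit 4) (nat_lit 1) (nat_lit 4) (nat_lit 332) (nat_lit 243) (nat_lit 145)) (XT.nd (nat_lit 78) (nat_lit 0) (nat_lit 0) (XT.lf (nat_lit 0) (nat_lit 819243812158) (nat_lit 152) (nat_lit 404792586795) (nat_lit 0) (nat_lit 797331456284) (nat_lit 1) (nat_lit 5) (nat_lit 3) (nat_lit 4) (nat_lit 1) (nat_lit 4) (nat_lit 333) (nat_lit 243) (nat_lit 144)) (XT.lf (nat_lit 0) (nat_lit 888050840179) (nat_lit 152) (nat_lit 428463639883) (nat_lit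 0) (nat_lit 866137687014) (nat_lit 1) (nat_lit 5) (nat_lit 3) (nat_lit 4) (nat_lit 1) (nat_lit 4) (nat_lit 334) (nat_lit 243) (nat_lit 143))))) (XT.nd (nat_lit 234) (nat_lit 0) (nat_lit 0) (XT.nd (nat_lit 78) (nat_lit 0) (nat_lit 0) (XT.lf (nat_lit 0) (nat_lit 962362079072) (nat_lit 152) (nat_lit 454028986865) (nat_lit 0) (nat_lit 940448187674) (nat_lit 1) (nat_lit 5) (nat_lit 3) (nat_lit 4) (nat_lit 1) (nat_lit 4) (nat_lit 335) (nat_lit 243) (nat_lit 142)) (XT.nd (nat_lit 78) (nat_lit 0) (nat_lit 0) (XT.lf (nat_lit 0) (nat_lit 1042617891731) (nat_lit 152) (nat_lit 481640126095) (nat_lit 0) (nat_lit 1020703316786) (nat_lit 1) (nat_lit 5) (nat_lit 3) (nat_lit 4) (nat_lit 1) (nat_lit 4) (nat_lit 336) (nat_lit 243) (nat_lit 141)) (XT.lf (nat_lit 0) (nat_lit 1129293868160) (nat_lit 152) (nat_lit 511460679138) (nat_lit 0) (nat_lit 1107378660299) (nat_lit 1) (nat_lit 5) (nat_lit 3) (nat_lit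 4) (nat_lit 1) (nat_lit 4) (nat_lit 337) (nat_lit 243) (nat_lit 140)))) (XT.nd (nat_lit 156) (nat_lit 0) (nat_lit 0) (XT.nd (nat_lit 78) (nat_lit 0) (nat_lit 0) (XT.lf (nat_lit 0) (nat_lit 1222903643773) (nat_lit 152) (nat_lit 543667360382) (nat_lit 0) (nat_lit 1200987849880) (nat_lit 1) (nat_lit 5) (nat_lit 3) (nat_lit 4) (nat_lit 1) (nat_lit 4) (nat_lit 338) (nat_lit 243) (nat_lit 139)) (XT.lf (nat_lit 0) (nat_lit 1324001943167) (nat_lit 152) (nat_lit 578451024236) (nat_lit 0) (nat_lit 1302085606651) (nat_lit 1) (nat_lit 5) (nat_lit 3) (nat_lit 4) (nat_lit 1) (nat_lit 4) (nat_lit 339) (nat_lit 243) (nat_lit 138))) (XT.nd (nat_lit 78) (nat_lit 0) (nat_lit 0) (XT.lf (nat_lit 0) (nat_lit 1433187867376) (nat_lit 152) (nat_lit 616017796113) (nat_lit 0) (nat_lit 1411271028431) (nat_lit 1) (nat_lit 5) (nat_lit 3) (nat_lit 4) (nat_lit 1) (nat_lit 4) (nat_lit 340) (nat_lit 243) (nat_lit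 137)) (XT.lf (nat_lit 0) (nat_lit 1551108444097) (nat_lit 152) (nat_lit 656590293923) (nat_lit 0) (nat_lit 1529191139941) (nat_lit 1) (nat_lit 5) (nat_lit 3) (nat_lit 4) (nat_lit 1) (nat_lit 4) (nat_lit 341) (nat_lit 243) (nat_lit 136)))))) (XT.nd (nat_lit 30264) (nat_lit 0) (nat_lit 1748) (XT.nd (nat_lit 29952) (nat_lit 0) (nat_lit 2432) (XT.nd (nat_lit 78) (nat_lit 0) (nat_lit 0) (XT.lf (nat_lit 0) (nat_lit 1678462461935) (nat_lit 152) (nat_lit 700408947281) (nat_lit 0) (nat_lit 1656544727027) (nat_lit 1) (nat_lit 5) (nat_lit 3) (nat_lit 4) (nat_lit 1) (nat_lit 4) (nat_lit 342) (nat_lit 243) (nat_lit 135)) (XT.nd (nat_lit 29796) (nat_lit 0) (nat_lit 2736) (XT.lf (nat_lit 0) (nat_lit 1816004611365) (nat_lit 152) (nat_lit 747733422281) (nat_lit 0) (nat_lit 1794086477613) (nat_lit 1) (nat_lit 5) (nat_lit 3) (nat_lit 4) (nat_lit 1) (nat_lit 4) (nat_lit 343) (nat_lit 243) (nat_lit 134))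 (XT.lf (nat_lit 0) (nat_lit 874993397) (nat_lit 0) (nat_lit 874993397) (nat_lit 228) (nat_lit 1716239202) (nat_lit 37) (nat_lit 5) (nat_lit 37) (nat_lit 3) (nat_lit 40) (nat_lit 3) (nat_lit 244) (nat_lit 244) (nat_lit 232)))) (XT.nd (nat_lit 156) (nat_lit 304) (nat_lit 0) (XT.nd (nat_lit 78) (nat_lit 0) (nat_lit 0) (XT.lf (nat_lit 0) (nat_lit 4622626003) (nat_lit 0) (nat_lit 533282011) (nat_lit 228) (nat_lit 1909873317) (nat_lit 37) (nat_lit 5) (nat_lit 37) (nat_lit 3) (nat_lit 40) (nat_lit 3) (nat_lit 245) (nat_lit 244) (nat_lit 231)) (XT.lf (nat_lit 76) (nat_lit 425759446) (nat_lit 0) (nat_lit 6397731873) (nat_lit 304) (nat_lit 398222246) (nat_lit 38) (nat_lit 5) (nat_lit 37) (nat_lit 5) (nat_lit 41) (nat_lit 5) (nat_lit 246) (nat_lit 244) (nat_lit 230))) (XT.nd (nat_lit 78) (nat_lit 0) (nat_lit 0) (XT.lf (nat_lit 0) (nat_lit 1108441792) (nat_lit 304) (nat_lit 3866311744) (nat_lit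 380) (nat_lit 2420072212) (nat_lit 33) (nat_lit 5) (nat_lit 37) (nat_lit 5) (nat_lit 38) (nat_lit 5) (nat_lit 247) (nat_lit 244) (nat_lit 229)) (XT.lf (nat_lit 0) (nat_lit 2578422632) (nat_lit 304) (nat_lit 804673111) (nat_lit 380) (nat_lit 4210522227) (nat_lit 33) (nat_lit 5) (nat_lit 37) (nat_lit 5) (nat_lit 38) (nat_lit 5) (nat_lit 248) (nat_lit 244) (nat_lit 228))))) (XT.nd (nat_lit 234) (nat_lit 456) (nat_lit 0) (XT.nd (nat_lit 78) (nat_lit 228) (nat_lit 0) (XT.lf (nat_lit 76) (nat_lit 2543940272) (nat_lit 0) (nat_lit 1557593515) (nat_lit 380) (nat_lit 3713606109) (nat_lit 34) (nat_lit 5) (nat_lit 33) (nat_lit 5) (nat_lit 38) (nat_lit 5) (nat_lit 249) (nat_lit 244) (nat_lit 227)) (XT.nd (nat_lit 78) (nat_lit 304) (nat_lit 0) (XT.lf (nat_lit 0) (nat_lit 5661530419) (nat_lit 304) (nat_lit 1951863441) (nat_lit 76) (nat_lit 449332041) (nat_lit 34) (nat_lit 5) (nat_lit 38) (nat_lit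 5) (nat_lit 35) (nat_lit 5) (nat_lit 250) (nat_lit 244) (nat_lit 226)) (XT.lf (nat_lit 0) (nat_lit 1583908963) (nat_lit 304) (nat_lit 5732179372) (nat_lit 380) (nat_lit 1017880316) (nat_lit 30) (nat_lit 5) (nat_lit 34) (nat_lit 5) (nat_lit 35) (nat_lit 5) (nat_lit 251) (nat_lit 244) (nat_lit 225)))) (XT.nd (nat_lit 156) (nat_lit 0) (nat_lit 0) (XT.nd (nat_lit 78) (nat_lit 380) (nat_lit 0) (XT.lf (nat_lit 0) (nat_lit 400318532) (nat_lit 380) (nat_lit 3214438981) (nat_lit 76) (nat_lit 5016621168) (nat_lit 29) (nat_lit 5) (nat_lit 34) (nat_lit 5) (nat_lit 30) (nat_lit 5) (nat_lit 252) (nat_lit 244) (nat_lit 224)) (XT.lf (nat_lit 0) (nat_lit 517841408) (nat_lit 380) (nat_lit 1272780437) (nat_lit 456) (nat_lit 7167889156) (nat_lit 24) (nat_lit 5) (nat_lit 29) (nat_lit 5) (nat_lit 30) (nat_lit 5) (nat_lit 253) (nat_lit 244) (nat_lit 223))) (XT.nd (nat_lit 78) (nat_lit 0) (nat_lit 0) (XT.lf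 (nat_lit 0) (nat_lit 3319279799) (nat_lit 456) (nat_lit 4698033811) (nat_lit 76) (nat_lit 1293381538) (nat_lit 24) (nat_lit 5) (nat_lit 30) (nat_lit 5) (nat_lit 25) (nat_lit 5) (nat_lit 254) (nat_lit 244) (nat_lit 222)) (XT.lf (nat_lit 0) (nat_lit 4916936775) (nat_lit 456) (nat_lit 774472522) (nat_lit 76) (nat_lit 4004881991) (nat_lit 24) (nat_lit 5) (nat_lit 30) (nat_lit 5) (nat_lit 25) (nat_lit 5) (nat_lit 255) (nat_lit 244) (nat_lit 221))))))))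
noncomputable def xc60 : XT := (XT.nd (nat_lit 2028) (nat_lit 228) (nat_lit 0) (XT.nd (nat_lit 1014) (nat_lit 456) (nat_lit 0) (XT.nd (nat_lit 468) (nat_lit 380) (nat_lit 0) (XT.nd (nat_lit 234) (nat_lit 228) (nat_lit 0) (XT.nd (nat_lit 78) (nat_lit 228) (nat_lit 0) (XT.lf (nat_lit 0) (nat_lit 3562064289) (nat_lit 228) (nat_lit 3086053413) (nat_lit 304) (nat_lit 3465062145) (nat_lit 21) (nat_lit 5) (nat_lit 24) (nat_lit 5) (nat_lit 25) (nat_lit 5) (nat_lit 256) (nat_lit 244) (nat_lit 220)) (XT.nd (nat_lit 78) (nat_lit 228) (nat_lit 0) (XT.lf (nat_lit 0) (nat_lit 8212473210) (nat_lit 228) (nat_lit 250607543) (nat_lit 304) (nat_lit 2105550577) (nat_lit 21) (nat_lit 5) (nat_lit 24) (nat_lit 5) (nat_lit 25) (nat_lit 5) (nat_lit 257) (nat_lit 244) (nat_lit 219)) (XT.lf (nat_lit 0) (nat_lit 2135867416) (nat_lit 228) (nat_lit 8336068539) (nat_lit 304) (nat_lit 585460380) (nat_lit 18) (nat_lit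 5) (nat_lit 21) (nat_lit 5) (nat_lit 22) (nat_lit 5) (nat_lit 258) (nat_lit 244) (nat_lit 218)))) (XT.nd (nat_lit 78) (nat_lit 152) (nat_lit 0) (XT.lf (nat_lit 0) (nat_lit 1006676973) (nat_lit 304) (nat_lit 4572539476) (nat_lit 76) (nat_lit 6004414445) (nat_lit 17) (nat_lit 5) (nat_lit 21) (nat_lit 5) (nat_lit 18) (nat_lit 5) (nat_lit 259) (nat_lit 244) (nat_lit 217)) (XT.nd (nat_lit 78) (nat_lit 0) (nat_lit 0) (XT.lf (nat_lit 0) (nat_lit 36841082) (nat_lit 152) (nat_lit 2594408606) (nat_lit 228) (nat_lit 9525176076) (nat_lit 15) (nat_lit 5) (nat_lit 17) (nat_lit 5) (nat_lit 18) (nat_lit 5) (nat_lit 260) (nat_lit 244) (nat_lit 216)) (XT.lf (nat_lit 0) (nat_lit 4467746362) (nat_lit 228) (nat_lit 7585886863) (nat_lit 76) (nat_lit 715422531) (nat_lit 15) (nat_lit 5) (nat_lit 18) (nat_lit 5) (nat_lit 16) (nat_lit 5) (nat_lit 261) (nat_lit 244) (nat_lit 215))))) (XT.nd (nat_lit 234) (nat_lit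 228) (nat_lit 0) (XT.nd (nat_lit 78) (nat_lit 152) (nat_lit 0) (XT.lf (nat_lit 0) (nat_lit 6461658911) (nat_lit 228) (nat_lit 2828622685) (nat_lit 76) (nat_lit 4140100959) (nat_lit 15) (nat_lit 5) (nat_lit 18) (nat_lit 5) (nat_lit 16) (nat_lit 5) (nat_lit 262) (nat_lit 244) (nat_lit 214)) (XT.nd (nat_lit 78) (nat_lit 0) (nat_lit 0) (XT.lf (nat_lit 0) (nat_lit 2360896225) (nat_lit 152) (nat_lit 6258290908) (nat_lit 228) (nat_lit 5525587279) (nat_lit 13) (nat_lit 5) (nat_lit 15) (nat_lit 5) (nat_lit 16) (nat_lit 5) (nat_lit 263) (nat_lit 244) (nat_lit 213)) (XT.lf (nat_lit 0) (nat_lit 8061696657) (nat_lit 152) (nat_lit 2914628419) (nat_lit 228) (nat_lit 3938282990) (nat_lit 13) (nat_lit 5) (nat_lit 15) (nat_lit 5) (nat_lit 16) (nat_lit 5) (nat_lit 264) (nat_lit 244) (nat_lit 212)))) (XT.nd (nat_lit 156) (nat_lit 76) (nat_lit 0) (XT.nd (nat_lit 78) (nat_lit 152) (nat_lit 0) (XT.lf (nat_lit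 0) (nat_lit 13491860772) (nat_lit 228) (nat_lit 1607993985) (nat_lit 76) (nat_lit 649005149) (nat_lit 13) (nat_lit 5) (nat_lit 16) (nat_lit 5) (nat_lit 14) (nat_lit 4) (nat_lit 265) (nat_lit 244) (nat_lit 211)) (XT.lf (nat_lit 0) (nat_lit 4128274070) (nat_lit 152) (nat_lit 12211906113) (nat_lit 228) (nat_lit 299535141) (nat_lit 11) (nat_lit 5) (nat_lit 13) (nat_lit 5) (nat_lit 14) (nat_lit 4) (nat_lit 266) (nat_lit 244) (nat_lit 210))) (XT.nd (nat_lit 78) (nat_lit 0) (nat_lit 0) (XT.lf (nat_lit 0) (nat_lit 1725827698) (nat_lit 228) (nat_lit 7288365547) (nat_lit 76) (nat_lit 8584320578) (nat_lit 10) (nat_lit 5) (nat_lit 13) (nat_lit 5) (nat_lit 11) (nat_lit 5) (nat_lit 267) (nat_lit 244) (nat_lit 209)) (XT.lf (nat_lit 0) (nat_lit 3857189017) (nat_lit 228) (nat_lit 1710921939) (nat_lit 76) (nat_lit 13068777636) (nat_lit 10) (nat_lit 5) (nat_lit 13) (nat_lit 5) (nat_lit 11) (nat_lit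 5) (nat_lit 268) (nat_lit 244) (nat_lit 208)))))) (XT.nd (nat_lit 468) (nat_lit 228) (nat_lit 0) (XT.nd (nat_lit 234) (nat_lit 76) (nat_lit 0) (XT.nd (nat_lit 78) (nat_lit 0) (nat_lit 0) (XT.lf (nat_lit 0) (nat_lit 4485529252) (nat_lit 152) (nat_lit 1744510899) (nat_lit 228) (nat_lit 13522898954) (nat_lit 8) (nat_lit 5) (nat_lit 10) (nat_lit 5) (nat_lit 11) (nat_lit 5) (nat_lit 269) (nat_lit 244) (nat_lit 207)) (XT.nd (nat_lit 78) (nat_lit 0) (nat_lit 0) (XT.lf (nat_lit 0) (nat_lit 8862342574) (nat_lit 228) (nat_lit 9791108262) (nat_lit 76) (nat_lit 2299516147) (nat_lit 8) (nat_lit 5) (nat_lit 11) (nat_lit 5) (nat_lit 9) (nat_lit 4) (nat_lit 270) (nat_lit 244) (nat_lit 206)) (XT.lf (nat_lit 0) (nat_lit 11717457593) (nat_lit 228) (nat_lit 3971089834) (nat_lit 76) (nat_lit 6559715078) (nat_lit 8) (nat_lit 5) (nat_lit 11) (nat_lit 5) (nat_lit 9) (nat_lit 4) (nat_lit 271) (nat_lit 244)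 (nat_lit 205)))) (XT.nd (nat_lit 78) (nat_lit 0) (nat_lit 0) (XT.lf (nat_lit 0) (nat_lit 2388576212) (nat_lit 76) (nat_lit 12439217983) (nat_lit 152) (nat_lit 8817468118) (nat_lit 7) (nat_lit 5) (nat_lit 8) (nat_lit 5) (nat_lit 9) (nat_lit 4) (nat_lit 272) (nat_lit 244) (nat_lit 204)) (XT.nd (nat_lit 78) (nat_lit 0) (nat_lit 0) (XT.lf (nat_lit 0) (nat_lit 9438565211) (nat_lit 76) (nat_lit 8827540150) (nat_lit 152) (nat_lit 6881793853) (nat_lit 7) (nat_lit 5) (nat_lit 8) (nat_lit 5) (nat_lit 9) (nat_lit 4) (nat_lit 273) (nat_lit 244) (nat_lit 203)) (XT.lf (nat_lit 0) (nat_lit 17011544323) (nat_lit 76) (nat_lit 4940688027) (nat_lit 152) (nat_lit 4820888089) (nat_lit 7) (nat_lit 5) (nat_lit 8) (nat_lit 5) (nat_lit 9) (nat_lit 4) (nat_lit 274) (nat_lit 244) (nat_lit 202))))) (XT.nd (nat_lit 234) (nat_lit 76) (nat_lit 0) (XT.nd (nat_lit 78) (nat_lit 152) (nat_lit 0) (XT.lf (nat_lit 0)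 (nat_lit 25152390460) (nat_lit 76) (nat_lit 755628416) (nat_lit 152) (nat_lit 2622538051) (nat_lit 7) (nat_lit 5) (nat_lit 8) (nat_lit 5) (nat_lit 9) (nat_lit 4) (nat_lit 275) (nat_lit 244) (nat_lit 201)) (XT.nd (nat_lit 78) (nat_lit 76) (nat_lit 0) (XT.lf (nat_lit 0) (nat_lit 3566907463) (nat_lit 76) (nat_lit 26766029634) (nat_lit 76) (nat_lit 83603583) (nat_lit 6) (nat_lit 4) (nat_lit 7) (nat_lit 5) (nat_lit 7) (nat_lit 4) (nat_lit 276) (nat_lit 244) (nat_lit 200)) (XT.lf (nat_lit 0) (nat_lit 2616354162) (nat_lit 152) (nat_lit 21309623498) (nat_lit 76) (nat_lit 8515181229) (nat_lit 5) (nat_lit 5) (nat_lit 7) (nat_lit 5) (nat_lit 6) (nat_lit 4) (nat_lit 277) (nat_lit 244) (nat_lit 199)))) (XT.nd (nat_lit 156) (nat_lit 76) (nat_lit 0) (XT.nd (nat_lit 78) (nat_lit 0) (nat_lit 0) (XT.lf (nat_lit 0) (nat_lit 5506036091) (nat_lit 152) (nat_lit 15363172218) (nat_lit 76) (nat_lit 13760236632)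 (nat_lit 5) (nat_lit 5) (nat_lit 7) (nat_lit 5) (nat_lit 6) (nat_lit 4) (nat_lit 278) (nat_lit 244) (nat_lit 198)) (XT.lf (nat_lit 0) (nat_lit 8606748436) (nat_lit 152) (nat_lit 8973030479) (nat_lit 76) (nat_lit 19414748396) (nat_lit 5) (nat_lit 5) (nat_lit 7) (nat_lit 5) (nat_lit 6) (nat_lit 4) (nat_lit 279) (nat_lit 244) (nat_lit 197))) (XT.nd (nat_lit 78) (nat_lit 76) (nat_lit 0) (XT.lf (nat_lit 0) (nat_lit 11936865788) (nat_lit 152) (nat_lit 2101330775) (nat_lit 76) (nat_lit 25512224741) (nat_lit 5) (nat_lit 5) (nat_lit 7) (nat_lit 5) (nat_lit 6) (nat_lit 4) (nat_lit 280) (nat_lit 244) (nat_lit 196)) (XT.lf (nat_lit 0) (nat_lit 5571349545) (nat_lit 76) (nat_lit 10078763720) (nat_lit 152) (nat_lit 26651440404) (nat_lit 4) (nat_lit 5) (nat_lit 5) (nat_lit 5) (nat_lit 6) (nat_lit 4) (nat_lit 281) (nat_lit 244) (nat_lit 195))))))) (XT.nd (nat_lit 1014) (nat_lit 152) (nat_lit 0) (XT.nd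 (nat_lit 468) (nat_lit 0) (nat_lit 0) (XT.nd (nat_lit 234) (nat_lit 76) (nat_lit 0) (XT.nd (nat_lit 78) (nat_lit 0) (nat_lit 0) (XT.lf (nat_lit 0) (nat_lit 13950587116) (nat_lit 76) (nat_lit 5750652845) (nat_lit 152) (nat_lit 25568367880) (nat_lit 4) (nat_lit 5) (nat_lit 5) (nat_lit 5) (nat_lit 6) (nat_lit 4) (nat_lit 282) (nat_lit 244) (nat_lit 194)) (XT.nd (nat_lit 78) (nat_lit 0) (nat_lit 0) (XT.lf (nat_lit 0) (nat_lit 22975384325) (nat_lit 76) (nat_lit 1085669980) (nat_lit 152) (nat_lit 24415373843) (nat_lit 4) (nat_lit 5) (nat_lit 5) (nat_lit 5) (nat_lit 6) (nat_lit 4) (nat_lit 283) (nat_lit 244) (nat_lit 193)) (XT.lf (nat_lit 0) (nat_lit 28850241421) (nat_lit 152) (nat_lit 19336645708) (nat_lit 0) (nat_lit 3746542906) (nat_lit 4) (nat_lit 5) (nat_lit 6) (nat_lit 4) (nat_lit 4) (nat_lit 4) (nat_lit 284) (nat_lit 244) (nat_lit 192)))) (XT.nd (nat_lit 78) (nat_lit 76) (nat_lit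 0) (XT.lf (nat_lit 0) (nat_lit 34037364233) (nat_lit 152) (nat_lit 12729479168) (nat_lit 0) (nat_lit 8899041434) (nat_lit 4) (nat_lit 5) (nat_lit 6) (nat_lit 4) (nat_lit 4) (nat_lit 4) (nat_lit 285) (nat_lit 244) (nat_lit 191)) (XT.nd (nat_lit 78) (nat_lit 76) (nat_lit 0) (XT.lf (nat_lit 0) (nat_lit 39627050858) (nat_lit 152) (nat_lit 5614280234) (nat_lit 0) (nat_lit 14456668536) (nat_lit 4) (nat_lit 5) (nat_lit 6) (nat_lit 4) (nat_lit 4) (nat_lit 4) (nat_lit 286) (nat_lit 244) (nat_lit 190)) (XT.lf (nat_lit 0) (nat_lit 2159123326) (nat_lit 76) (nat_lit 43545229006) (nat_lit 76) (nat_lit 18345161941) (nat_lit 3) (nat_lit 4) (nat_lit 4) (nat_lit 5) (nat_lit 4) (nat_lit 4) (nat_lit 287) (nat_lit 244) (nat_lit 189))))) (XT.nd (nat_lit 234) (nat_lit 0) (nat_lit 0) (XT.nd (nat_lit 78) (nat_lit 0) (nat_lit 0) (XT.lf (nat_lit 0) (nat_lit 10855150388) (nat_lit 76) (nat_lit 41555109915) (nat_lit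 76) (nat_lit 16327556977) (nat_lit 3) (nat_lit 4) (nat_lit 4) (nat_lit 5) (nat_lit 4) (nat_lit 4) (nat_lit 288) (nat_lit 244) (nat_lit 188)) (XT.nd (nat_lit 78) (nat_lit 0) (nat_lit 0) (XT.lf (nat_lit 0) (nat_lit 20229694915) (nat_lit 76) (nat_lit 39412684894) (nat_lit 76) (nat_lit 14159682073) (nat_lit 3) (nat_lit 4) (nat_lit 4) (nat_lit 5) (nat_lit 4) (nat_lit 4) (nat_lit 289) (nat_lit 244) (nat_lit 187)) (XT.lf (nat_lit 0) (nat_lit 30338309763) (nat_lit 76) (nat_lit 37105258090) (nat_lit 76) (nat_lit 11828690563) (nat_lit 3) (nat_lit 4) (nat_lit 4) (nat_lit 5) (nat_lit 4) (nat_lit 4) (nat_lit 290) (nat_lit 244) (nat_lit 186)))) (XT.nd (nat_lit 156) (nat_lit 0) (nat_lit 0) (XT.nd (nat_lit 78) (nat_lit 0) (nat_lit 0) (XT.lf (nat_lit 0) (nat_lit 41240897834) (nat_lit 76) (nat_lit 34619155862) (nat_lit 76) (nat_lit 9320769163) (nat_lit 3) (nat_lit 4) (nat_lit 4) (nat_lit 5) (nat_lit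 4) (nat_lit 4) (nat_lit 291) (nat_lit 244) (nat_lit 185)) (XT.lf (nat_lit 0) (nat_lit 53002067059) (nat_lit 76) (nat_lit 31939645755) (nat_lit 76) (nat_lit 6621056118) (nat_lit 3) (nat_lit 4) (nat_lit 4) (nat_lit 5) (nat_lit 4) (nat_lit 4) (nat_lit 292) (nat_lit 244) (nat_lit 184))) (XT.nd (nat_lit 78) (nat_lit 0) (nat_lit 0) (XT.lf (nat_lit 0) (nat_lit 65691513254) (nat_lit 76) (nat_lit 29050849188) (nat_lit 76) (nat_lit 3713553128) (nat_lit 3) (nat_lit 4) (nat_lit 4) (nat_lit 5) (nat_lit 4) (nat_lit 4) (nat_lit 293) (nat_lit 244) (nat_lit 183)) (XT.lf (nat_lit 0) (nat_lit 79384433139) (nat_lit 76) (nat_lit 25935647367) (nat_lit 76) (nat_lit 581030545) (nat_lit 3) (nat_lit 4) (nat_lit 4) (nat_lit 5) (nat_lit 4) (nat_lit 4) (nat_lit 294) (nat_lit 244) (nat_lit 182)))))) (XT.nd (nat_lit 546) (nat_lit 0) (nat_lit 0) (XT.nd (nat_lit 234) (nat_lit 76) (nat_lit 0) (XT.nd (nat_lit 78) (nat_lit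 0) (nat_lit 0) (XT.lf (nat_lit 0) (nat_lit 2655253768) (nat_lit 152) (nat_lit 19847726725) (nat_lit 76) (nat_lit 91434116829) (nat_lit 2) (nat_lit 5) (nat_lit 4) (nat_lit 5) (nat_lit 3) (nat_lit 4) (nat_lit 295) (nat_lit 244) (nat_lit 181)) (XT.nd (nat_lit 78) (nat_lit 0) (nat_lit 0) (XT.lf (nat_lit 0) (nat_lit 6112876019) (nat_lit 152) (nat_lit 12670722205) (nat_lit 76) (nat_lit 103831681366) (nat_lit 2) (nat_lit 5) (nat_lit 4) (nat_lit 5) (nat_lit 3) (nat_lit 4) (nat_lit 296) (nat_lit 244) (nat_lit 180)) (XT.lf (nat_lit 0) (nat_lit 9841391322) (nat_lit 152) (nat_lit 4929160156) (nat_lit 76) (nat_lit 117217650548) (nat_lit 2) (nat_lit 5) (nat_lit 4) (nat_lit 5) (nat_lit 3) (nat_lit 4) (nat_lit 297) (nat_lit 244) (nat_lit 179)))) (XT.nd (nat_lit 156) (nat_lit 0) (nat_lit 0) (XT.nd (nat_lit 78) (nat_lit 0) (nat_lit 0) (XT.lf (nat_lit 0) (nat_lit 3603075788) (nat_lit 76) (nat_lit 10346472852)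 (nat_lit 152) (nat_lit 128154926907) (nat_lit 1) (nat_lit 5) (nat_lit 2) (nat_lit 5) (nat_lit 3) (nat_lit 4) (nat_lit 298) (nat_lit 244) (nat_lit 178)) (XT.lf (nat_lit 0) (nat_lit 13089549903) (nat_lit 76) (nat_lit 5426471013) (nat_lit 152) (nat_lit 134503681259) (nat_lit 1) (nat_lit 5) (nat_lit 2) (nat_lit 5) (nat_lit 3) (nat_lit 4) (nat_lit 299) (nat_lit 244) (nat_lit 177))) (XT.nd (nat_lit 78) (nat_lit 0) (nat_lit 0) (XT.lf (nat_lit 0) (nat_lit 23326917494) (nat_lit 76) (nat_lit 116162369) (nat_lit 152) (nat_lit 141365467984) (nat_lit 1) (nat_lit 5) (nat_lit 2) (nat_lit 5) (nat_lit 3) (nat_lit 4) (nat_lit 300) (nat_lit 244) (nat_lit 176)) (XT.lf (nat_lit 0) (nat_lit 28894985916) (nat_lit 152) (nat_lit 143300090994) (nat_lit 0) (nat_lit 5334990433) (nat_lit 1) (nat_lit 5) (nat_lit 3) (nat_lit 4) (nat_lit 1) (nat_lit 4) (nat_lit 301) (nat_lit 244) (nat_lit 175))))) (XT.nd (nat_lit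 234) (nat_lit 0) (nat_lit 0) (XT.nd (nat_lit 78) (nat_lit 0) (nat_lit 0) (XT.lf (nat_lit 0) (nat_lit 34781937585) (nat_lit 152) (nat_lit 145274201178) (nat_lit 0) (nat_lit 11213277409) (nat_lit 1) (nat_lit 5) (nat_lit 3) (nat_lit 4) (nat_lit 1) (nat_lit 4) (nat_lit 302) (nat_lit 244) (nat_lit 174)) (XT.nd (nat_lit 78) (nat_lit 0) (nat_lit 0) (XT.lf (nat_lit 0) (nat_lit 41136026803) (nat_lit 152) (nat_lit 147412865628) (nat_lit 0) (nat_lit 17559343763) (nat_lit 1) (nat_lit 5) (nat_lit 3) (nat_lit 4) (nat_lit 1) (nat_lit 4) (nat_lit 303) (nat_lit 244) (nat_lit 173)) (XT.lf (nat_lit 0) (nat_lit 47994907432) (nat_lit 152) (nat_lit 149728757911) (nat_lit 0) (nat_lit 24410795814) (nat_lit 1) (nat_lit 5) (nat_lit 3) (nat_lit 4) (nat_lit 1) (nat_lit 4) (nat_lit 304) (nat_lit 244) (nat_lit 172)))) (XT.nd (nat_lit 156) (nat_lit 0) (nat_lit 0) (XT.nd (nat_lit 78) (nat_lit 0) (nat_lit 0) (XT.lf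 (nat_lit 0) (nat_lit 55399224691) (nat_lit 152) (nat_lit 152235601835) (nat_lit 0) (nat_lit 31808234759) (nat_lit 1) (nat_lit 5) (nat_lit 3) (nat_lit 4) (nat_lit 1) (nat_lit 4) (nat_lit 305) (nat_lit 244) (nat_lit 171)) (XT.lf (nat_lit 0) (nat_lit 63392856014) (nat_lit 152) (nat_lit 154948252769) (nat_lit 0) (nat_lit 39795497274) (nat_lit 1) (nat_lit 5) (nat_lit 3) (nat_lit 4) (nat_lit 1) (nat_lit 4) (nat_lit 306) (nat_lit 244) (nat_lit 170))) (XT.nd (nat_lit 78) (nat_lit 0) (nat_lit 0) (XT.lf (nat_lit 0) (nat_lit 72023171070) (nat_lit 152) (nat_lit 157882785683) (nat_lit 0) (nat_lit 48419915285) (nat_lit 1) (nat_lit 5) (nat_lit 3) (nat_lit 4) (nat_lit 1) (nat_lit 4) (nat_lit 307) (nat_lit 244) (nat_lit 169)) (XT.lf (nat_lit 0) (nat_lit 81341312465) (nat_lit 152) (nat_lit 161056590401) (nat_lit 0) (nat_lit 57732596454) (nat_lit 1) (nat_lit 5) (nat_lit 3) (nat_lit 4) (nat_lit 1) (nat_lit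 4) (nat_lit 308) (nat_lit 244) (nat_lit 168))))))))
noncomputable def xc61 : XT := (XT.nd (nat_lit 2106) (nat_lit 0) (nat_lit 0) (XT.nd (nat_lit 1014) (nat_lit 0) (nat_lit 0) (XT.nd (nat_lit 468) (nat_lit 0) (nat_lit 0) (XT.nd (nat_lit 234) (nat_lit 0) (nat_lit 0) (XT.nd (nat_lit 78) (nat_lit 0) (nat_lit 0) (XT.lf (nat_lit 0) (nat_lit 91402498816) (nat_lit 152) (nat_lit 164488474654) (nat_lit 0) (nat_lit 67788727039) (nat_lit 1) (nat_lit 5) (nat_lit 3) (nat_lit 4) (nat_lit 1) (nat_lit 4) (nat_lit 309) (nat_lit 244) (nat_lit 167)) (XT.nd (nat_lit 78) (nat_lit 0) (nat_lit 0) (XT.lf (nat_lit 0) (nat_lit 102266351967) (nat_lit 152) (nat_lit 168198775536) (nat_lit 0) (nat_lit 78647898926) (nat_lit 1) (nat_lit 5) (nat_lit 3) (nat_lit 4) (nat_lit 1) (nat_lit 4) (nat_lit 310) (nat_lit 244) (nat_lit 166)) (XT.lf (nat_lit 0) (nat_lit 113997250309) (nat_lit 152) (nat_lit 172209480013) (nat_lit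 0) (nat_lit 90374462763) (nat_lit 1) (nat_lit 5) (nat_lit 3) (nat_lit 4) (nat_lit 1) (nat_lit 4) (nat_lit 311) (nat_lit 244) (nat_lit 165)))) (XT.nd (nat_lit 78) (nat_lit 0) (nat_lit 0) (XT.lf (nat_lit 0) (nat_lit 126664710274) (nat_lit 152) (nat_lit 176544355224) (nat_lit 0) (nat_lit 103037909299) (nat_lit 1) (nat_lit 5) (nat_lit 3) (nat_lit 4) (nat_lit 1) (nat_lit 4) (nat_lit 312) (nat_lit 244) (nat_lit 164)) (XT.nd (nat_lit 78) (nat_lit 0) (nat_lit 0) (XT.lf (nat_lit 0) (nat_lit 140343798293) (nat_lit 152) (nat_lit 181229089317) (nat_lit 0) (nat_lit 116713281180) (nat_lit 1) (nat_lit 5) (nat_lit 3) (nat_lit 4) (nat_lit 1) (nat_lit 4) (nat_lit 313) (nat_lit 244) (nat_lit 163)) (XT.lf (nat_lit 0) (nat_lit 155115575628) (nat_lit 152) (nat_lit 186291443681) (nat_lit 0) (nat_lit 131481617646) (nat_lit 1) (nat_lit 5) (nat_lit 3) (nat_lit 4) (nat_lit 1) (nat_lit 4) (nat_lit 314) (nat_lit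 244) (nat_lit 162))))) (XT.nd (nat_lit 234) (nat_lit 0) (nat_lit 0) (XT.nd (nat_lit 78) (nat_lit 0) (nat_lit 0) (XT.lf (nat_lit 0) (nat_lit 171067578737) (nat_lit 152) (nat_lit 191761417452) (nat_lit 0) (nat_lit 147430434765) (nat_lit 1) (nat_lit 5) (nat_lit 3) (nat_lit 4) (nat_lit 1) (nat_lit 4) (nat_lit 315) (nat_lit 244) (nat_lit 161)) (XT.nd (nat_lit 78) (nat_lit 0) (nat_lit 0) (XT.lf (nat_lit 0) (nat_lit 188294338009) (nat_lit 152) (nat_lit 197671425290) (nat_lit 0) (nat_lit 164654244047) (nat_lit 1) (nat_lit 5) (nat_lit 3) (nat_lit 4) (nat_lit 1) (nat_lit 4) (nat_lit 316) (nat_lit 244) (nat_lit 160)) (XT.lf (nat_lit 0) (nat_lit 206897937944) (nat_lit 152) (nat_lit 204056489462) (nat_lit 0) (nat_lit 183255112509) (nat_lit 1) (nat_lit 5) (nat_lit 3) (nat_lit 4) (nat_lit 1) (nat_lit 4) (nat_lit 317) (nat_lit 244) (nat_lit 159)))) (XT.nd (nat_lit 156) (nat_lit 0) (nat_lit 0) (XT.nd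 (nat_lit 78) (nat_lit 0) (nat_lit 0) (XT.lf (nat_lit 0) (nat_lit 226988622097) (nat_lit 152) (nat_lit 210954447387) (nat_lit 0) (nat_lit 203343267520) (nat_lit 1) (nat_lit 5) (nat_lit 3) (nat_lit 4) (nat_lit 1) (nat_lit 4) (nat_lit 318) (nat_lit 244) (nat_lit 158)) (XT.lf (nat_lit 0) (nat_lit 248685446373) (nat_lit 152) (nat_lit 218406175852) (nat_lit 0) (nat_lit 225037749998) (nat_lit 1) (nat_lit 5) (nat_lit 3) (nat_lit 4) (nat_lit 1) (nat_lit 4) (nat_lit 319) (nat_lit 244) (nat_lit 157))) (XT.nd (nat_lit 78) (nat_lit 0) (nat_lit 0) (XT.lf (nat_lit 0) (nat_lit 272116984546) (nat_lit 152) (nat_lit 226455833249) (nat_lit 0) (nat_lit 248467119840) (nat_lit 1) (nat_lit 5) (nat_lit 3) (nat_lit 4) (nat_lit 1) (nat_lit 4) (nat_lit 320) (nat_lit 244) (nat_lit 156)) (XT.lf (nat_lit 0) (nat_lit 297422090176) (nat_lit 152) (nat_lit 235151121250) (nat_lit 0) (nat_lit 273770217757) (nat_lit 1)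 (nat_lit 5) (nat_lit 3) (nat_lit 4) (nat_lit 1) (nat_lit 4) (nat_lit 321) (nat_lit 244) (nat_lit 155)))))) (XT.nd (nat_lit 546) (nat_lit 0) (nat_lit 0) (XT.nd (nat_lit 234) (nat_lit 0) (nat_lit 0) (XT.nd (nat_lit 78) (nat_lit 0) (nat_lit 0) (XT.lf (nat_lit 0) (nat_lit 324750719445) (nat_lit 152) (nat_lit 244543567488) (nat_lit 0) (nat_lit 301096988030) (nat_lit 1) (nat_lit 5) (nat_lit 3) (nat_lit 4) (nat_lit 1) (nat_lit 4) (nat_lit 322) (nat_lit 244) (nat_lit 154)) (XT.nd (nat_lit 78) (nat_lit 0) (nat_lit 0) (XT.lf (nat_lit 0) (nat_lit 354264819784) (nat_lit 152) (nat_lit 254688830903) (nat_lit 0) (nat_lit 330609367079) (nat_lit 1) (nat_lit 5) (nat_lit 3) (nat_lit 4) (nat_lit 1) (nat_lit 4) (nat_lit 323) (nat_lit 244) (nat_lit 153)) (XT.lf (nat_lit 0) (nat_lit 386139289566) (nat_lit 152) (nat_lit 265647031577) (nat_lit 0) (nat_lit 362482243073) (nat_lit 1) (nat_lit 5) (nat_lit 3)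 (nat_lit 4) (nat_lit 1) (nat_lit 4) (nat_lit 324) (nat_lit 244) (nat_lit 152)))) (XT.nd (nat_lit 156) (nat_lit 0) (nat_lit 0) (XT.nd (nat_lit 78) (nat_lit 0) (nat_lit 0) (XT.lf (nat_lit 0) (nat_lit 420563014539) (nat_lit 152) (nat_lit 277483106992) (nat_lit 0) (nat_lit 396904492316) (nat_lit 1) (nat_lit 5) (nat_lit 3) (nat_lit 4) (nat_lit 1) (nat_lit 4) (nat_lit 325) (nat_lit 244) (nat_lit 151)) (XT.lf (nat_lit 0) (nat_lit 457739987147) (nat_lit 152) (nat_lit 290267196857) (nat_lit 0) (nat_lit 434080098507) (nat_lit 1) (nat_lit 5) (nat_lit 3) (nat_lit 4) (nat_lit 1) (nat_lit 4) (nat_lit 326) (nat_lit 244) (nat_lit 150))) (XT.nd (nat_lit 78) (nat_lit 0) (nat_lit 0) (XT.lf (nat_lit 0) (nat_lit 497890515374) (nat_lit 152) (nat_lit 304075058741) (nat_lit 0) (nat_lit 474229361534) (nat_lit 1) (nat_lit 5) (nat_lit 3) (nat_lit 4) (nat_lit 1) (nat_lit 4) (nat_lit 327) (nat_lit 244) (nat_lit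 149)) (XT.lf (nat_lit 0) (nat_lit 541252528278) (nat_lit 152) (nat_lit 318988517009) (nat_lit 0) (nat_lit 517590202957) (nat_lit 1) (nat_lit 5) (nat_lit 3) (nat_lit 4) (nat_lit 1) (nat_lit 4) (nat_lit 328) (nat_lit 244) (nat_lit 148))))) (XT.nd (nat_lit 234) (nat_lit 0) (nat_lit 0) (XT.nd (nat_lit 78) (nat_lit 0) (nat_lit 0) (XT.lf (nat_lit 0) (nat_lit 588082985935) (nat_lit 152) (nat_lit 335095947712) (nat_lit 0) (nat_lit 564419575908) (nat_lit 1) (nat_lit 5) (nat_lit 3) (nat_lit 4) (nat_lit 1) (nat_lit 4) (nat_lit 329) (nat_lit 244) (nat_lit 147)) (XT.nd (nat_lit 78) (nat_lit 0) (nat_lit 0) (XT.lf (nat_lit 0) (nat_lit 638659402169) (nat_lit 152) (nat_lit 352492802290) (nat_lit 0) (nat_lit 614994987785) (nat_lit 1) (nat_lit 5) (nat_lit 3) (nat_lit 4) (nat_lit 1) (nat_lit 4) (nat_lit 330) (nat_lit 244) (nat_lit 146)) (XT.lf (nat_lit 0) (nat_lit 693281489074) (nat_lit 152) (nat_lit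 371282173216) (nat_lit 0) (nat_lit 669616144730) (nat_lit 1) (nat_lit 5) (nat_lit 3) (nat_lit 4) (nat_lit 1) (nat_lit 4) (nat_lit 331) (nat_lit 244) (nat_lit 145)))) (XT.nd (nat_lit 156) (nat_lit 0) (nat_lit 0) (XT.nd (nat_lit 78) (nat_lit 0) (nat_lit 0) (XT.lf (nat_lit 0) (nat_lit 752272933093) (nat_lit 152) (nat_lit 391575404908) (nat_lit 0) (nat_lit 728606727675) (nat_lit 1) (nat_lit 5) (nat_lit 3) (nat_lit 4) (nat_lit 1) (nat_lit 4) (nat_lit 332) (nat_lit 244) (nat_lit 144)) (XT.lf (nat_lit 0) (nat_lit 815983313152) (nat_lit 152) (nat_lit 413492753556) (nat_lit 0) (nat_lit 792316310443) (nat_lit 1) (nat_lit 5) (nat_lit 3) (nat_lit 4) (nat_lit 1) (nat_lit 4) (nat_lit 333) (nat_lit 244) (nat_lit 143))) (XT.nd (nat_lit 78) (nat_lit 0) (nat_lit 0) (XT.lf (nat_lit 0) (nat_lit 884790172245) (nat_lit 152) (nat_lit 437164099743) (nat_lit 0) (nat_lit 861122431304) (nat_lit 1) (nat_lit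 5) (nat_lit 3) (nat_lit 4) (nat_lit 1) (nat_lit 4) (nat_lit 334) (nat_lit 244) (nat_lit 142)) (XT.lf (nat_lit 0) (nat_lit 959101254722) (nat_lit 152) (nat_lit 462729718115) (nat_lit 0) (nat_lit 935432830232) (nat_lit 1) (nat_lit 5) (nat_lit 3) (nat_lit 4) (nat_lit 1) (nat_lit 4) (nat_lit 335) (nat_lit 244) (nat_lit 141))))))) (XT.nd (nat_lit 30810) (nat_lit 0) (nat_lit 1064) (XT.nd (nat_lit 468) (nat_lit 0) (nat_lit 0) (XT.nd (nat_lit 234) (nat_lit 0) (nat_lit 0) (XT.nd (nat_lit 78) (nat_lit 0) (nat_lit 0) (XT.lf (nat_lit 0) (nat_lit 1039356922553) (nat_lit 152) (nat_lit 490341108630) (nat_lit 0) (nat_lit 1015687865148) (nat_lit 1) (nat_lit 5) (nat_lit 3) (nat_lit 4) (nat_lit 1) (nat_lit 4) (nat_lit 336) (nat_lit 244) (nat_lit 140)) (XT.nd (nat_lit 78) (nat_lit 0) (nat_lit 0) (XT.lf (nat_lit 0) (nat_lit 1126032764881) (nat_lit 152) (nat_lit 520161894345) (nat_lit 0) (nat_lit 1102363121443)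 (nat_lit 1) (nat_lit 5) (nat_lit 3) (nat_lit 4) (nat_lit 1) (nat_lit 4) (nat_lit 337) (nat_lit 244) (nat_lit 139)) (XT.lf (nat_lit 0) (nat_lit 1219642416327) (nat_lit 152) (nat_lit 552368791027) (nat_lit 0) (nat_lit 1195972230266) (nat_lit 1) (nat_lit 5) (nat_lit 3) (nat_lit 4) (nat_lit 1) (nat_lit 4) (nat_lit 338) (nat_lit 244) (nat_lit 138)))) (XT.nd (nat_lit 78) (nat_lit 0) (nat_lit 0) (XT.lf (nat_lit 0) (nat_lit 1320740600751) (nat_lit 152) (nat_lit 587152654359) (nat_lit 0) (nat_lit 1297069912262) (nat_lit 1) (nat_lit 5) (nat_lit 3) (nat_lit 4) (nat_lit 1) (nat_lit 4) (nat_lit 339) (nat_lit 244) (nat_lit 137)) (XT.nd (nat_lit 78) (nat_lit 0) (nat_lit 0) (XT.lf (nat_lit 0) (nat_lit 1429926418506) (nat_lit 152) (nat_lit 624719610940) (nat_lit 0) (nat_lit 1406255264805) (nat_lit 1) (nat_lit 5) (nat_lit 3) (nat_lit 4) (nat_lit 1) (nat_lit 4) (nat_lit 340) (nat_lit 244) (nat_lit 136))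 (XT.lf (nat_lit 0) (nat_lit 1547846896659) (nat_lit 152) (nat_lit 665292279770) (nat_lit 0) (nat_lit 1524175312207) (nat_lit 1) (nat_lit 5) (nat_lit 3) (nat_lit 4) (nat_lit 1) (nat_lit 4) (nat_lit 341) (nat_lit 244) (nat_lit 135))))) (XT.nd (nat_lit 30030) (nat_lit 0) (nat_lit 2356) (XT.nd (nat_lit 78) (nat_lit 0) (nat_lit 0) (XT.lf (nat_lit 0) (nat_lit 1675200823230) (nat_lit 152) (nat_lit 709111091481) (nat_lit 0) (nat_lit 1651528839934) (nat_lit 1) (nat_lit 5) (nat_lit 3) (nat_lit 4) (nat_lit 1) (nat_lit 4) (nat_lit 342) (nat_lit 244) (nat_lit 134)) (XT.nd (nat_lit 29874) (nat_lit 0) (nat_lit 2736) (XT.lf (nat_lit 0) (nat_lit 1812742888154) (nat_lit 152) (nat_lit 756435713105) (nat_lit 0) (nat_lit 1789070535558) (nat_lit 1) (nat_lit 5) (nat_lit 3) (nat_lit 4) (nat_lit 1) (nat_lit 4) (nat_lit 343) (nat_lit 244) (nat_lit 133)) (XT.lf (nat_lit 0) (nat_lit 1684731467) (nat_lit 0) (nat_lit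 1684731467) (nat_lit 228) (nat_lit 233554851) (nat_lit 37) (nat_lit 5) (nat_lit 37) (nat_lit 3) (nat_lit 40) (nat_lit 3) (nat_lit 245) (nat_lit 245) (nat_lit 230)))) (XT.nd (nat_lit 156) (nat_lit 0) (nat_lit 76) (XT.nd (nat_lit 78) (nat_lit 0) (nat_lit 0) (XT.lf (nat_lit 0) (nat_lit 890418385) (nat_lit 380) (nat_lit 1031066861) (nat_lit 380) (nat_lit 5447558373) (nat_lit 32) (nat_lit 3) (nat_lit 37) (nat_lit 3) (nat_lit 37) (nat_lit 5) (nat_lit 246) (nat_lit 245) (nat_lit 229)) (XT.lf (nat_lit 76) (nat_lit 2013532185) (nat_lit 0) (nat_lit 230949839) (nat_lit 380) (nat_lit 5308388505) (nat_lit 33) (nat_lit 5) (nat_lit 32) (nat_lit 3) (nat_lit 37) (nat_lit 5) (nat_lit 247) (nat_lit 245) (nat_lit 228))) (XT.nd (nat_lit 78) (nat_lit 0) (nat_lit 0) (XT.lf (nat_lit 0) (nat_lit 3648499873) (nat_lit 304) (nat_lit 2513113889) (nat_lit 380) (nat_lit 1596128372) (nat_lit 33) (nat_lit 5) (nat_lit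 37) (nat_lit 5) (nat_lit 38) (nat_lit 5) (nat_lit 248) (nat_lit 245) (nat_lit 227)) (XT.lf (nat_lit 76) (nat_lit 705604682) (nat_lit 0) (nat_lit 4365860401) (nat_lit 380) (nat_lit 2916553561) (nat_lit 34) (nat_lit 5) (nat_lit 33) (nat_lit 5) (nat_lit 38) (nat_lit 5) (nat_lit 249) (nat_lit 245) (nat_lit 226)))))) (XT.nd (nat_lit 546) (nat_lit 456) (nat_lit 0) (XT.nd (nat_lit 234) (nat_lit 608) (nat_lit 0) (XT.nd (nat_lit 78) (nat_lit 304) (nat_lit 0) (XT.lf (nat_lit 76) (nat_lit 4247838935) (nat_lit 0) (nat_lit 2319567397) (nat_lit 380) (nat_lit 1674010627) (nat_lit 34) (nat_lit 5) (nat_lit 33) (nat_lit 5) (nat_lit 38) (nat_lit 5) (nat_lit 250) (nat_lit 245) (nat_lit 225)) (XT.nd (nat_lit 78) (nat_lit 304) (nat_lit 0) (XT.lf (nat_lit 76) (nat_lit 8002243761) (nat_lit 0) (nat_lit 79321558) (nat_lit 380) (nat_lit 442963229) (nat_lit 34) (nat_lit 5) (nat_lit 33) (nat_lit 5) (nat_lit 38)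 (nat_lit 5) (nat_lit 251) (nat_lit 245) (nat_lit 224)) (XT.lf (nat_lit 0) (nat_lit 883495891) (nat_lit 380) (nat_lit 5592509452) (nat_lit 76) (nat_lit 2350411558) (nat_lit 29) (nat_lit 5) (nat_lit 34) (nat_lit 5) (nat_lit 30) (nat_lit 5) (nat_lit 252) (nat_lit 245) (nat_lit 223)))) (XT.nd (nat_lit 156) (nat_lit 228) (nat_lit 0) (XT.nd (nat_lit 78) (nat_lit 380) (nat_lit 0) (XT.lf (nat_lit 0) (nat_lit 2217357586) (nat_lit 380) (nat_lit 1924263950) (nat_lit 76) (nat_lit 5016948626) (nat_lit 29) (nat_lit 5) (nat_lit 34) (nat_lit 5) (nat_lit 30) (nat_lit 5) (nat_lit 253) (nat_lit 245) (nat_lit 222)) (XT.lf (nat_lit 0) (nat_lit 2067425955) (nat_lit 380) (nat_lit 1555507200) (nat_lit 456) (nat_lit 5898135905) (nat_lit 24) (nat_lit 5) (nat_lit 29) (nat_lit 5) (nat_lit 30) (nat_lit 5) (nat_lit 254) (nat_lit 245) (nat_lit 221))) (XT.nd (nat_lit 78) (nat_lit 228) (nat_lit 0) (XT.lf (nat_lit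 0) (nat_lit 5144739598) (nat_lit 456) (nat_lit 3530699841) (nat_lit 76) (nat_lit 1237727283) (nat_lit 24) (nat_lit 5) (nat_lit 30) (nat_lit 5) (nat_lit 25) (nat_lit 5) (nat_lit 255) (nat_lit 245) (nat_lit 220)) (XT.lf (nat_lit 0) (nat_lit 623633647) (nat_lit 228) (nat_lit 6146024451) (nat_lit 304) (nat_lit 3569299549) (nat_lit 21) (nat_lit 5) (nat_lit 24) (nat_lit 5) (nat_lit 25) (nat_lit 5) (nat_lit 256) (nat_lit 245) (nat_lit 219))))) (XT.nd (nat_lit 234) (nat_lit 152) (nat_lit 0) (XT.nd (nat_lit 78) (nat_lit 304) (nat_lit 0) (XT.lf (nat_lit 0) (nat_lit 5239722868) (nat_lit 228) (nat_lit 3311116318) (nat_lit 304) (nat_lit 2246644141) (nat_lit 21) (nat_lit 5) (nat_lit 24) (nat_lit 5) (nat_lit 25) (nat_lit 5) (nat_lit 257) (nat_lit 245) (nat_lit 218)) (XT.nd (nat_lit 78) (nat_lit 304) (nat_lit 0) (XT.lf (nat_lit 0) (nat_lit 10159002027) (nat_lit 228) (nat_lit 250451176) (nat_lit 304)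 (nat_lit 889158536) (nat_lit 21) (nat_lit 5) (nat_lit 24) (nat_lit 5) (nat_lit 25) (nat_lit 5) (nat_lit 258) (nat_lit 245) (nat_lit 217)) (XT.lf (nat_lit 0) (nat_lit 651686079) (nat_lit 304) (nat_lit 8173129101) (nat_lit 76) (nat_lit 3006229248) (nat_lit 17) (nat_lit 5) (nat_lit 21) (nat_lit 5) (nat_lit 18) (nat_lit 5) (nat_lit 259) (nat_lit 245) (nat_lit 216)))) (XT.nd (nat_lit 156) (nat_lit 0) (nat_lit 0) (XT.nd (nat_lit 78) (nat_lit 152) (nat_lit 0) (XT.lf (nat_lit 0) (nat_lit 2246797449) (nat_lit 304) (nat_lit 3598606181) (nat_lit 76) (nat_lit 6561065741) (nat_lit 17) (nat_lit 5) (nat_lit 21) (nat_lit 5) (nat_lit 18) (nat_lit 5) (nat_lit 260) (nat_lit 245) (nat_lit 215)) (XT.lf (nat_lit 0) (nat_lit 1345607443) (nat_lit 152) (nat_lit 2601238235) (nat_lit 228) (nat_lit 9083422494) (nat_lit 15) (nat_lit 5) (nat_lit 17) (nat_lit 5) (nat_lit 18) (nat_lit 5) (nat_lit 261) (nat_lit 245)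 (nat_lit 214))) (XT.nd (nat_lit 78) (nat_lit 0) (nat_lit 0) (XT.lf (nat_lit 0) (nat_lit 5852872932) (nat_lit 228) (nat_lit 6896773244) (nat_lit 76) (nat_lit 949213814) (nat_lit 15) (nat_lit 5) (nat_lit 18) (nat_lit 5) (nat_lit 16) (nat_lit 5) (nat_lit 262) (nat_lit 245) (nat_lit 213)) (XT.lf (nat_lit 0) (nat_lit 7930172050) (nat_lit 228) (nat_lit 1854926789) (nat_lit 76) (nat_lit 4634788184) (nat_lit 15) (nat_lit 5) (nat_lit 18) (nat_lit 5) (nat_lit 16) (nat_lit 5) (nat_lit 263) (nat_lit 245) (nat_lit 212))))))))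
noncomputable def xc62 : XT := (XT.nd (nat_lit 2106) (nat_lit 152) (nat_lit 0) (XT.nd (nat_lit 1014) (nat_lit 304) (nat_lit 0) (XT.nd (nat_lit 468) (nat_lit 228) (nat_lit 0) (XT.nd (nat_lit 234) (nat_lit 228) (nat_lit 0) (XT.nd (nat_lit 78) (nat_lit 0) (nat_lit 0) (XT.lf (nat_lit 0) (nat_lit 3719374249) (nat_lit 152) (nat_lit 6498569903) (nat_lit 228) (nat_lit 4977526578) (nat_lit 13) (nat_lit 5) (nat_lit 15) (nat_lit 5) (nat_lit 16) (nat_lit 5) (nat_lit 264) (nat_lit 245) (nat_lit 211)) (XT.nd (nat_lit 78) (nat_lit 0) (nat_lit 0) (XT.lf (nat_lit 0) (nat_lit 9789601210) (nat_lit 152) (nat_lit 2906702138) (nat_lit 228) (nat_lit 3336579255) (nat_lit 13) (nat_lit 5) (nat_lit 15) (nat_lit 5) (nat_lit 16) (nat_lit 5) (nat_lit 265) (nat_lit 245) (nat_lit 210)) (XT.lf (nat_lit 0) (nat_lit 15356089860) (nat_lit 228) (nat_lit 669907069) (nat_lit 76) (nat_lit 912995865) (nat_lit 13) (nat_lit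 5) (nat_lit 16) (nat_lit 5) (nat_lit 14) (nat_lit 4) (nat_lit 266) (nat_lit 245) (nat_lit 209)))) (XT.nd (nat_lit 78) (nat_lit 0) (nat_lit 0) (XT.lf (nat_lit 0) (nat_lit 470101345) (nat_lit 228) (nat_lit 12417929409) (nat_lit 76) (nat_lit 5015301948) (nat_lit 10) (nat_lit 5) (nat_lit 13) (nat_lit 5) (nat_lit 11) (nat_lit 5) (nat_lit 267) (nat_lit 245) (nat_lit 208)) (XT.nd (nat_lit 78) (nat_lit 0) (nat_lit 0) (XT.lf (nat_lit 0) (nat_lit 2583724118) (nat_lit 228) (nat_lit 6865280149) (nat_lit 76) (nat_lit 9494258940) (nat_lit 10) (nat_lit 5) (nat_lit 13) (nat_lit 5) (nat_lit 11) (nat_lit 5) (nat_lit 268) (nat_lit 245) (nat_lit 207)) (XT.lf (nat_lit 0) (nat_lit 4832273587) (nat_lit 228) (nat_lit 916171026) (nat_lit 76) (nat_lit 14320939769) (nat_lit 10) (nat_lit 5) (nat_lit 13) (nat_lit 5) (nat_lit 11) (nat_lit 5) (nat_lit 269) (nat_lit 245) (nat_lit 206))))) (XT.nd (nat_lit 234) (nat_lit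 76) (nat_lit 0) (XT.nd (nat_lit 78) (nat_lit 0) (nat_lit 0) (XT.lf (nat_lit 0) (nat_lit 5752410825) (nat_lit 152) (nat_lit 1615009281) (nat_lit 228) (nat_lit 13909881782) (nat_lit 8) (nat_lit 5) (nat_lit 10) (nat_lit 5) (nat_lit 11) (nat_lit 5) (nat_lit 270) (nat_lit 245) (nat_lit 205)) (XT.nd (nat_lit 78) (nat_lit 0) (nat_lit 0) (XT.lf (nat_lit 0) (nat_lit 10168966742) (nat_lit 228) (nat_lit 9687877831) (nat_lit 76) (nat_lit 2720146786) (nat_lit 8) (nat_lit 5) (nat_lit 11) (nat_lit 5) (nat_lit 9) (nat_lit 4) (nat_lit 271) (nat_lit 245) (nat_lit 204)) (XT.lf (nat_lit 0) (nat_lit 13208221573) (nat_lit 228) (nat_lit 3467926010) (nat_lit 76) (nat_lit 7303630568) (nat_lit 8) (nat_lit 5) (nat_lit 11) (nat_lit 5) (nat_lit 9) (nat_lit 4) (nat_lit 272) (nat_lit 245) (nat_lit 203)))) (XT.nd (nat_lit 156) (nat_lit 0) (nat_lit 0) (XT.nd (nat_lit 78) (nat_lit 0) (nat_lit 0) (XT.lf (nat_lit 0)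 (nat_lit 3379732281) (nat_lit 76) (nat_lit 13165904348) (nat_lit 152) (nat_lit 8944943115) (nat_lit 7) (nat_lit 5) (nat_lit 8) (nat_lit 5) (nat_lit 9) (nat_lit 4) (nat_lit 273) (nat_lit 245) (nat_lit 202)) (XT.lf (nat_lit 0) (nat_lit 10934455958) (nat_lit 76) (nat_lit 9285177553) (nat_lit 152) (nat_lit 6897223980) (nat_lit 7) (nat_lit 5) (nat_lit 8) (nat_lit 5) (nat_lit 9) (nat_lit 4) (nat_lit 274) (nat_lit 245) (nat_lit 201))) (XT.nd (nat_lit 78) (nat_lit 0) (nat_lit 0) (XT.lf (nat_lit 0) (nat_lit 19058398915) (nat_lit 76) (nat_lit 5105789542) (nat_lit 152) (nat_lit 4711083783) (nat_lit 7) (nat_lit 5) (nat_lit 8) (nat_lit 5) (nat_lit 9) (nat_lit 4) (nat_lit 275) (nat_lit 245) (nat_lit 200)) (XT.lf (nat_lit 0) (nat_lit 27799703035) (nat_lit 76) (nat_lit 602973572) (nat_lit 152) (nat_lit 2373567620) (nat_lit 7) (nat_lit 5) (nat_lit 8) (nat_lit 5) (nat_lit 9) (nat_lit 4) (nat_lit 276)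 (nat_lit 245) (nat_lit 199)))))) (XT.nd (nat_lit 546) (nat_lit 76) (nat_lit 0) (XT.nd (nat_lit 234) (nat_lit 76) (nat_lit 0) (XT.nd (nat_lit 78) (nat_lit 0) (nat_lit 0) (XT.lf (nat_lit 0) (nat_lit 338669656) (nat_lit 152) (nat_lit 28320639719) (nat_lit 76) (nat_lit 4154204151) (nat_lit 5) (nat_lit 5) (nat_lit 7) (nat_lit 5) (nat_lit 6) (nat_lit 4) (nat_lit 277) (nat_lit 245) (nat_lit 198)) (XT.nd (nat_lit 78) (nat_lit 0) (nat_lit 0) (XT.lf (nat_lit 0) (nat_lit 3218666904) (nat_lit 152) (nat_lit 22389585383) (nat_lit 76) (nat_lit 9394380674) (nat_lit 5) (nat_lit 5) (nat_lit 7) (nat_lit 5) (nat_lit 6) (nat_lit 4) (nat_lit 278) (nat_lit 245) (nat_lit 197)) (XT.lf (nat_lit 0) (nat_lit 6310411950) (nat_lit 152) (nat_lit 16013700074) (nat_lit 76) (nat_lit 15044374957) (nat_lit 5) (nat_lit 5) (nat_lit 7) (nat_lit 5) (nat_lit 6) (nat_lit 4) (nat_lit 279) (nat_lit 245) (nat_lit 196)))) (XT.nd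 (nat_lit 156) (nat_lit 76) (nat_lit 0) (XT.nd (nat_lit 78) (nat_lit 0) (nat_lit 0) (XT.lf (nat_lit 0) (nat_lit 9632226248) (nat_lit 152) (nat_lit 9155200768) (nat_lit 76) (nat_lit 21137668449) (nat_lit 5) (nat_lit 5) (nat_lit 7) (nat_lit 5) (nat_lit 6) (nat_lit 4) (nat_lit 280) (nat_lit 245) (nat_lit 195)) (XT.lf (nat_lit 0) (nat_lit 13203794622) (nat_lit 152) (nat_lit 1773444507) (nat_lit 76) (nat_lit 27710369554) (nat_lit 5) (nat_lit 5) (nat_lit 7) (nat_lit 5) (nat_lit 6) (nat_lit 4) (nat_lit 281) (nat_lit 245) (nat_lit 194))) (XT.nd (nat_lit 78) (nat_lit 0) (nat_lit 0) (XT.lf (nat_lit 0) (nat_lit 6500493461) (nat_lit 76) (nat_lit 10702125485) (nat_lit 152) (nat_lit 28457271177) (nat_lit 4) (nat_lit 5) (nat_lit 5) (nat_lit 5) (nat_lit 6) (nat_lit 4) (nat_lit 282) (nat_lit 245) (nat_lit 193)) (XT.lf (nat_lit 0) (nat_lit 15514259967) (nat_lit 76) (nat_lit 6041316801) (nat_lit 152)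 (nat_lit 27311722069) (nat_lit 4) (nat_lit 5) (nat_lit 5) (nat_lit 5) (nat_lit 6) (nat_lit 4) (nat_lit 283) (nat_lit 245) (nat_lit 192))))) (XT.nd (nat_lit 234) (nat_lit 76) (nat_lit 0) (XT.nd (nat_lit 78) (nat_lit 0) (nat_lit 0) (XT.lf (nat_lit 0) (nat_lit 25227883480) (nat_lit 76) (nat_lit 1015682587) (nat_lit 152) (nat_lit 26088867417) (nat_lit 4) (nat_lit 5) (nat_lit 5) (nat_lit 5) (nat_lit 6) (nat_lit 4) (nat_lit 284) (nat_lit 245) (nat_lit 191)) (XT.nd (nat_lit 78) (nat_lit 0) (nat_lit 0) (XT.lf (nat_lit 0) (nat_lit 31400297260) (nat_lit 152) (nat_lit 20482831720) (nat_lit 0) (nat_lit 4184224830) (nat_lit 4) (nat_lit 5) (nat_lit 6) (nat_lit 4) (nat_lit 4) (nat_lit 4) (nat_lit 285) (nat_lit 245) (nat_lit 190)) (XT.lf (nat_lit 0) (nat_lit 36984461265) (nat_lit 152) (nat_lit 13376776719) (nat_lit 0) (nat_lit 9738704092) (nat_lit 4) (nat_lit 5) (nat_lit 6) (nat_lit 4) (nat_lit 4)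 (nat_lit 4) (nat_lit 286) (nat_lit 245) (nat_lit 189)))) (XT.nd (nat_lit 156) (nat_lit 0) (nat_lit 0) (XT.nd (nat_lit 78) (nat_lit 76) (nat_lit 0) (XT.lf (nat_lit 0) (nat_lit 43004722235) (nat_lit 152) (nat_lit 5719847855) (nat_lit 0) (nat_lit 15731479189) (nat_lit 4) (nat_lit 5) (nat_lit 6) (nat_lit 4) (nat_lit 4) (nat_lit 4) (nat_lit 287) (nat_lit 245) (nat_lit 188)) (XT.lf (nat_lit 0) (nat_lit 2666729895) (nat_lit 76) (nat_lit 46894160813) (nat_lit 76) (nat_lit 19595467885) (nat_lit 3) (nat_lit 4) (nat_lit 4) (nat_lit 5) (nat_lit 4) (nat_lit 4) (nat_lit 288) (nat_lit 245) (nat_lit 187))) (XT.nd (nat_lit 78) (nat_lit 0) (nat_lit 0) (XT.lf (nat_lit 0) (nat_lit 12033633440) (nat_lit 76) (nat_lit 44754808974) (nat_lit 76) (nat_lit 17432551339) (nat_lit 3) (nat_lit 4) (nat_lit 4) (nat_lit 5) (nat_lit 4) (nat_lit 4) (nat_lit 289) (nat_lit 245) (nat_lit 186)) (XT.lf (nat_lit 0) (nat_lit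 22135173305) (nat_lit 76) (nat_lit 42450227709) (nat_lit 76) (nat_lit 15106150902) (nat_lit 3) (nat_lit 4) (nat_lit 4) (nat_lit 5) (nat_lit 4) (nat_lit 4) (nat_lit 290) (nat_lit 245) (nat_lit 185))))))) (XT.nd (nat_lit 1014) (nat_lit 0) (nat_lit 0) (XT.nd (nat_lit 468) (nat_lit 76) (nat_lit 0) (XT.nd (nat_lit 234) (nat_lit 76) (nat_lit 0) (XT.nd (nat_lit 78) (nat_lit 0) (nat_lit 0) (XT.lf (nat_lit 0) (nat_lit 33031210467) (nat_lit 76) (nat_lit 39966760240) (nat_lit 76) (nat_lit 12602480496) (nat_lit 3) (nat_lit 4) (nat_lit 4) (nat_lit 5) (nat_lit 4) (nat_lit 4) (nat_lit 291) (nat_lit 245) (nat_lit 184)) (XT.nd (nat_lit 78) (nat_lit 0) (nat_lit 0) (XT.lf (nat_lit 0) (nat_lit 44786314034) (nat_lit 76) (nat_lit 37289689724) (nat_lit 76) (nat_lit 9906703556) (nat_lit 3) (nat_lit 4) (nat_lit 4) (nat_lit 5) (nat_lit 4) (nat_lit 4) (nat_lit 292) (nat_lit 245) (nat_lit 183)) (XT.lf (nat_lit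 0) (nat_lit 57470143880) (nat_lit 76) (nat_lit 34403152037) (nat_lit 76) (nat_lit 7002845107) (nat_lit 3) (nat_lit 4) (nat_lit 4) (nat_lit 5) (nat_lit 4) (nat_lit 4) (nat_lit 293) (nat_lit 245) (nat_lit 182)))) (XT.nd (nat_lit 78) (nat_lit 76) (nat_lit 0) (XT.lf (nat_lit 0) (nat_lit 71157863441) (nat_lit 76) (nat_lit 31290041773) (nat_lit 76) (nat_lit 3873697100) (nat_lit 3) (nat_lit 4) (nat_lit 4) (nat_lit 5) (nat_lit 4) (nat_lit 4) (nat_lit 294) (nat_lit 245) (nat_lit 181)) (XT.nd (nat_lit 78) (nat_lit 76) (nat_lit 0) (XT.lf (nat_lit 0) (nat_lit 85930585129) (nat_lit 76) (nat_lit 27931910870) (nat_lit 76) (nat_lit 500716435) (nat_lit 3) (nat_lit 4) (nat_lit 4) (nat_lit 5) (nat_lit 4) (nat_lit 4) (nat_lit 295) (nat_lit 245) (nat_lit 180)) (XT.lf (nat_lit 0) (nat_lit 2979205252) (nat_lit 152) (nat_lit 21248197289) (nat_lit 76) (nat_lit 98815188995) (nat_lit 2) (nat_lit 5) (nat_lit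 4) (nat_lit 5) (nat_lit 3) (nat_lit 4) (nat_lit 296) (nat_lit 245) (nat_lit 179))))) (XT.nd (nat_lit 234) (nat_lit 0) (nat_lit 0) (XT.nd (nat_lit 78) (nat_lit 76) (nat_lit 0) (XT.lf (nat_lit 0) (nat_lit 6705175714) (nat_lit 152) (nat_lit 13510910005) (nat_lit 76) (nat_lit 112199644413) (nat_lit 2) (nat_lit 5) (nat_lit 4) (nat_lit 5) (nat_lit 3) (nat_lit 4) (nat_lit 297) (nat_lit 245) (nat_lit 178)) (XT.nd (nat_lit 78) (nat_lit 76) (nat_lit 0) (XT.lf (nat_lit 0) (nat_lit 10724322640) (nat_lit 152) (nat_lit 5162872620) (nat_lit 76) (nat_lit 126651940867) (nat_lit 2) (nat_lit 5) (nat_lit 4) (nat_lit 5) (nat_lit 3) (nat_lit 4) (nat_lit 298) (nat_lit 245) (nat_lit 177)) (XT.lf (nat_lit 0) (nat_lit 4047875861) (nat_lit 76) (nat_lit 11109938846) (nat_lit 152) (nat_lit 138307197246) (nat_lit 1) (nat_lit 5) (nat_lit 2) (nat_lit 5) (nat_lit 3) (nat_lit 4) (nat_lit 299) (nat_lit 245) (nat_lit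 176)))) (XT.nd (nat_lit 156) (nat_lit 0) (nat_lit 0) (XT.nd (nat_lit 78) (nat_lit 0) (nat_lit 0) (XT.lf (nat_lit 0) (nat_lit 14281671313) (nat_lit 76) (nat_lit 5801096255) (nat_lit 152) (nat_lit 145171268526) (nat_lit 1) (nat_lit 5) (nat_lit 2) (nat_lit 5) (nat_lit 3) (nat_lit 4) (nat_lit 300) (nat_lit 245) (nat_lit 175)) (XT.lf (nat_lit 0) (nat_lit 25327290725) (nat_lit 76) (nat_lit 70369766) (nat_lit 152) (nat_lit 152588865391) (nat_lit 1) (nat_lit 5) (nat_lit 2) (nat_lit 5) (nat_lit 3) (nat_lit 4) (nat_lit 301) (nat_lit 245) (nat_lit 174))) (XT.nd (nat_lit 78) (nat_lit 0) (nat_lit 0) (XT.lf (nat_lit 0) (nat_lit 31281083908) (nat_lit 152) (nat_lit 154634838260) (nat_lit 0) (nat_lit 5810243360) (nat_lit 1) (nat_lit 5) (nat_lit 3) (nat_lit 4) (nat_lit 1) (nat_lit 4) (nat_lit 302) (nat_lit 245) (nat_lit 173)) (XT.lf (nat_lit 0) (nat_lit 37633473258) (nat_lit 152) (nat_lit 156776452074)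 (nat_lit 0) (nat_lit 12155204132) (nat_lit 1) (nat_lit 5) (nat_lit 3) (nat_lit 4) (nat_lit 1) (nat_lit 4) (nat_lit 303) (nat_lit 245) (nat_lit 172)))))) (XT.nd (nat_lit 546) (nat_lit 0) (nat_lit 0) (XT.nd (nat_lit 234) (nat_lit 0) (nat_lit 0) (XT.nd (nat_lit 78) (nat_lit 0) (nat_lit 0) (XT.lf (nat_lit 0) (nat_lit 44490779934) (nat_lit 152) (nat_lit 159095075251) (nat_lit 0) (nat_lit 19005632495) (nat_lit 1) (nat_lit 5) (nat_lit 3) (nat_lit 4) (nat_lit 1) (nat_lit 4) (nat_lit 304) (nat_lit 245) (nat_lit 171)) (XT.nd (nat_lit 78) (nat_lit 0) (nat_lit 0) (XT.lf (nat_lit 0) (nat_lit 51893639829) (nat_lit 152) (nat_lit 161604447779) (nat_lit 0) (nat_lit 26402123582) (nat_lit 1) (nat_lit 5) (nat_lit 3) (nat_lit 4) (nat_lit 1) (nat_lit 4) (nat_lit 305) (nat_lit 245) (nat_lit 170)) (XT.lf (nat_lit 0) (nat_lit 59885921742) (nat_lit 152) (nat_lit 164319440013) (nat_lit 0) (nat_lit 34388508450)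 (nat_lit 1) (nat_lit 5) (nat_lit 3) (nat_lit 4) (nat_lit 1) (nat_lit 4) (nat_lit 306) (nat_lit 245) (nat_lit 169)))) (XT.nd (nat_lit 156) (nat_lit 0) (nat_lit 0) (XT.nd (nat_lit 78) (nat_lit 0) (nat_lit 0) (XT.lf (nat_lit 0) (nat_lit 68514987344) (nat_lit 152) (nat_lit 167256140798) (nat_lit 0) (nat_lit 43012113825) (nat_lit 1) (nat_lit 5) (nat_lit 3) (nat_lit 4) (nat_lit 1) (nat_lit 4) (nat_lit 307) (nat_lit 245) (nat_lit 168)) (XT.lf (nat_lit 0) (nat_lit 77831971837) (nat_lit 152) (nat_lit 170431952803) (nat_lit 0) (nat_lit 52324042553) (nat_lit 1) (nat_lit 5) (nat_lit 3) (nat_lit 4) (nat_lit 1) (nat_lit 4) (nat_lit 308) (nat_lit 245) (nat_lit 167))) (XT.nd (nat_lit 78) (nat_lit 0) (nat_lit 0) (XT.lf (nat_lit 0) (nat_lit 87892086983) (nat_lit 152) (nat_lit 173865695657) (nat_lit 0) (nat_lit 62379476434) (nat_lit 1) (nat_lit 5) (nat_lit 3) (nat_lit 4) (nat_lit 1) (nat_lit 4) (nat_lit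 309) (nat_lit 245) (nat_lit 166)) (XT.lf (nat_lit 0) (nat_lit 98754948277) (nat_lit 152) (nat_lit 177577717464) (nat_lit 0) (nat_lit 73238003225) (nat_lit 1) (nat_lit 5) (nat_lit 3) (nat_lit 4) (nat_lit 1) (nat_lit 4) (nat_lit 310) (nat_lit 245) (nat_lit 165))))) (XT.nd (nat_lit 234) (nat_lit 0) (nat_lit 0) (XT.nd (nat_lit 78) (nat_lit 0) (nat_lit 0) (XT.lf (nat_lit 0) (nat_lit 110484928232) (nat_lit 152) (nat_lit 181590015391) (nat_lit 0) (nat_lit 84963969750) (nat_lit 1) (nat_lit 5) (nat_lit 3) (nat_lit 4) (nat_lit 1) (nat_lit 4) (nat_lit 311) (nat_lit 245) (nat_lit 164)) (XT.nd (nat_lit 78) (nat_lit 0) (nat_lit 0) (XT.lf (nat_lit 0) (nat_lit 123151537840) (nat_lit 152) (nat_lit 185926366018) (nat_lit 0) (nat_lit 97626863219) (nat_lit 1) (nat_lit 5) (nat_lit 3) (nat_lit 4) (nat_lit 1) (nat_lit 4) (nat_lit 312) (nat_lit 245) (nat_lit 163)) (XT.lf (nat_lit 0) (nat_lit 136829838491)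 (nat_lit 152) (nat_lit 190612466238) (nat_lit 0) (nat_lit 111301723001) (nat_lit 1) (nat_lit 5) (nat_lit 3) (nat_lit 4) (nat_lit 1) (nat_lit 4) (nat_lit 313) (nat_lit 245) (nat_lit 162)))) (XT.nd (nat_lit 156) (nat_lit 0) (nat_lit 0) (XT.nd (nat_lit 78) (nat_lit 0) (nat_lit 0) (XT.lf (nat_lit 0) (nat_lit 151600886782) (nat_lit 152) (nat_lit 195676085533) (nat_lit 0) (nat_lit 126069585302) (nat_lit 1) (nat_lit 5) (nat_lit 3) (nat_lit 4) (nat_lit 1) (nat_lit 4) (nat_lit 314) (nat_lit 245) (nat_lit 161)) (XT.lf (nat_lit 0) (nat_lit 167552214850) (nat_lit 152) (nat_lit 201147230537) (nat_lit 0) (nat_lit 142017963379) (nat_lit 1) (nat_lit 5) (nat_lit 3) (nat_lit 4) (nat_lit 1) (nat_lit 4) (nat_lit 315) (nat_lit 245) (nat_lit 160))) (XT.nd (nat_lit 78) (nat_lit 0) (nat_lit 0) (XT.lf (nat_lit 0) (nat_lit 184778349084) (nat_lit 152) (nat_lit 207058322850) (nat_lit 0) (nat_lit 159241366141)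 (nat_lit 1) (nat_lit 5) (nat_lit 3) (nat_lit 4) (nat_lit 1) (nat_lit 4) (nat_lit 316) (nat_lit 245) (nat_lit 159)) (XT.lf (nat_lit 0) (nat_lit 203381370280) (nat_lit 152) (nat_lit 213444391166) (nat_lit 0) (nat_lit 177841858195) (nat_lit 1) (nat_lit 5) (nat_lit 3) (nat_lit 4) (nat_lit 1) (nat_lit 4) (nat_lit 317) (nat_lit 245) (nat_lit 158))))))))
noncomputable def xc63 : XT := (XT.nd (nat_lit 31980) (nat_lit 0) (nat_lit 532) (XT.nd (nat_lit 1014) (nat_lit 0) (nat_lit 0) (XT.nd (nat_lit 468) (nat_lit 0) (nat_lit 0) (XT.nd (nat_lit 234) (nat_lit 0) (nat_lit 0) (XT.nd (nat_lit 78) (nat_lit 0) (nat_lit 0) (XT.lf (nat_lit 0) (nat_lit 223471518562) (nat_lit 152) (nat_lit 220343278854) (nat_lit 0) (nat_lit 197929664680) (nat_lit 1) (nat_lit 5) (nat_lit 3) (nat_lit 4) (nat_lit 1) (nat_lit 4) (nat_lit 318) (nat_lit 245) (nat_lit 157)) (XT.nd (nat_lit 78) (nat_lit 0) (nat_lit 0) (XT.lf (nat_lit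 0) (nat_lit 245167846663) (nat_lit 152) (nat_lit 227795868210) (nat_lit 0) (nat_lit 219623824450) (nat_lit 1) (nat_lit 5) (nat_lit 3) (nat_lit 4) (nat_lit 1) (nat_lit 4) (nat_lit 319) (nat_lit 245) (nat_lit 156)) (XT.lf (nat_lit 0) (nat_lit 268598925415) (nat_lit 152) (nat_lit 235846322728) (nat_lit 0) (nat_lit 243052895488) (nat_lit 1) (nat_lit 5) (nat_lit 3) (nat_lit 4) (nat_lit 1) (nat_lit 4) (nat_lit 320) (nat_lit 245) (nat_lit 155)))) (XT.nd (nat_lit 78) (nat_lit 0) (nat_lit 0) (XT.lf (nat_lit 0) (nat_lit 293903605654) (nat_lit 152) (nat_lit 244542348804) (nat_lit 0) (nat_lit 268355716733) (nat_lit 1) (nat_lit 5) (nat_lit 3) (nat_lit 4) (nat_lit 1) (nat_lit 4) (nat_lit 321) (nat_lit 245) (nat_lit 154)) (XT.nd (nat_lit 78) (nat_lit 0) (nat_lit 0) (XT.lf (nat_lit 0) (nat_lit 321231841043) (nat_lit 152) (nat_lit 253935478446) (nat_lit 0) (nat_lit 295682230830) (nat_lit 1) (nat_lit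 5) (nat_lit 3) (nat_lit 4) (nat_lit 1) (nat_lit 4) (nat_lit 322) (nat_lit 245) (nat_lit 153)) (XT.lf (nat_lit 0) (nat_lit 350745576678) (nat_lit 152) (nat_lit 264081374642) (nat_lit 0) (nat_lit 325194372677) (nat_lit 1) (nat_lit 5) (nat_lit 3) (nat_lit 4) (nat_lit 1) (nat_lit 4) (nat_lit 323) (nat_lit 245) (nat_lit 152))))) (XT.nd (nat_lit 234) (nat_lit 0) (nat_lit 0) (XT.nd (nat_lit 78) (nat_lit 0) (nat_lit 0) (XT.lf (nat_lit 0) (nat_lit 382619708772) (nat_lit 152) (nat_lit 275040161223) (nat_lit 0) (nat_lit 357067029042) (nat_lit 1) (nat_lit 5) (nat_lit 3) (nat_lit 4) (nat_lit 1) (nat_lit 4) (nat_lit 324) (nat_lit 245) (nat_lit 151)) (XT.nd (nat_lit 78) (nat_lit 0) (nat_lit 0) (XT.lf (nat_lit 0) (nat_lit 417043121070) (nat_lit 152) (nat_lit 286876779147) (nat_lit 0) (nat_lit 391489074923) (nat_lit 1) (nat_lit 5) (nat_lit 3) (nat_lit 4) (nat_lit 1) (nat_lit 4) (nat_lit 325) (nat_lit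 245) (nat_lit 150)) (XT.lf (nat_lit 0) (nat_lit 454219804164) (nat_lit 152) (nat_lit 299661371333) (nat_lit 0) (nat_lit 428664492817) (nat_lit 1) (nat_lit 5) (nat_lit 3) (nat_lit 4) (nat_lit 1) (nat_lit 4) (nat_lit 326) (nat_lit 245) (nat_lit 149)))) (XT.nd (nat_lit 156) (nat_lit 0) (nat_lit 0) (XT.nd (nat_lit 78) (nat_lit 0) (nat_lit 0) (XT.lf (nat_lit 0) (nat_lit 494370064324) (nat_lit 152) (nat_lit 313469698330) (nat_lit 0) (nat_lit 468813581494) (nat_lit 1) (nat_lit 5) (nat_lit 3) (nat_lit 4) (nat_lit 1) (nat_lit 4) (nat_lit 327) (nat_lit 245) (nat_lit 148)) (XT.lf (nat_lit 0) (nat_lit 537731829017) (nat_lit 152) (nat_lit 328383587258) (nat_lit 0) (nat_lit 512174261482) (nat_lit 1) (nat_lit 5) (nat_lit 3) (nat_lit 4) (nat_lit 1) (nat_lit 4) (nat_lit 328) (nat_lit 245) (nat_lit 147))) (XT.nd (nat_lit 78) (nat_lit 0) (nat_lit 0) (XT.lf (nat_lit 0) (nat_lit 584562056848) (nat_lit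 152) (nat_lit 344491416720) (nat_lit 0) (nat_lit 559003484957) (nat_lit 1) (nat_lit 5) (nat_lit 3) (nat_lit 4) (nat_lit 1) (nat_lit 4) (nat_lit 329) (nat_lit 245) (nat_lit 146)) (XT.lf (nat_lit 0) (nat_lit 635138260280) (nat_lit 152) (nat_lit 361888640520) (nat_lit 0) (nat_lit 609578758429) (nat_lit 1) (nat_lit 5) (nat_lit 3) (nat_lit 4) (nat_lit 1) (nat_lit 4) (nat_lit 330) (nat_lit 245) (nat_lit 145)))))) (XT.nd (nat_lit 546) (nat_lit 0) (nat_lit 0) (XT.nd (nat_lit 234) (nat_lit 0) (nat_lit 0) (XT.nd (nat_lit 78) (nat_lit 0) (nat_lit 0) (XT.lf (nat_lit 0) (nat_lit 689760150148) (nat_lit 152) (nat_lit 380678353317) (nat_lit 0) (nat_lit 664199787222) (nat_lit 1) (nat_lit 5) (nat_lit 3) (nat_lit 4) (nat_lit 1) (nat_lit 4) (nat_lit 331) (nat_lit 245) (nat_lit 144)) (XT.nd (nat_lit 78) (nat_lit 0) (nat_lit 0) (XT.lf (nat_lit 0) (nat_lit 748751411724) (nat_lit 152) (nat_lit 400971901558)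 (nat_lit 0) (nat_lit 723190251507) (nat_lit 1) (nat_lit 5) (nat_lit 3) (nat_lit 4) (nat_lit 1) (nat_lit 4) (nat_lit 332) (nat_lit 245) (nat_lit 143)) (XT.lf (nat_lit 0) (nat_lit 812461622855) (nat_lit 152) (nat_lit 422889543305) (nat_lit 0) (nat_lit 786899724406) (nat_lit 1) (nat_lit 5) (nat_lit 3) (nat_lit 4) (nat_lit 1) (nat_lit 4) (nat_lit 333) (nat_lit 245) (nat_lit 142)))) (XT.nd (nat_lit 156) (nat_lit 0) (nat_lit 0) (XT.nd (nat_lit 78) (nat_lit 0) (nat_lit 0) (XT.lf (nat_lit 0) (nat_lit 881268325533) (nat_lit 152) (nat_lit 446561160882) (nat_lit 0) (nat_lit 855705743535) (nat_lit 1) (nat_lit 5) (nat_lit 3) (nat_lit 4) (nat_lit 1) (nat_lit 4) (nat_lit 334) (nat_lit 245) (nat_lit 141)) (XT.lf (nat_lit 0) (nat_lit 955579263181) (nat_lit 152) (nat_lit 472127030539) (nat_lit 0) (nat_lit 930016048268) (nat_lit 1) (nat_lit 5) (nat_lit 3) (nat_lit 4) (nat_lit 1) (nat_lit 4) (nat_lit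 335) (nat_lit 245) (nat_lit 140))) (XT.nd (nat_lit 78) (nat_lit 0) (nat_lit 0) (XT.lf (nat_lit 0) (nat_lit 1035834796911) (nat_lit 152) (nat_lit 499738653727) (nat_lit 0) (nat_lit 1010270995966) (nat_lit 1) (nat_lit 5) (nat_lit 3) (nat_lit 4) (nat_lit 1) (nat_lit 4) (nat_lit 336) (nat_lit 245) (nat_lit 139)) (XT.lf (nat_lit 0) (nat_lit 1122510515071) (nat_lit 152) (nat_lit 529559654879) (nat_lit 0) (nat_lit 1096946171503) (nat_lit 1) (nat_lit 5) (nat_lit 3) (nat_lit 4) (nat_lit 1) (nat_lit 4) (nat_lit 337) (nat_lit 245) (nat_lit 138))))) (XT.nd (nat_lit 234) (nat_lit 0) (nat_lit 0) (XT.nd (nat_lit 78) (nat_lit 0) (nat_lit 0) (XT.lf (nat_lit 0) (nat_lit 1216120051547) (nat_lit 152) (nat_lit 561766751039) (nat_lit 0) (nat_lit 1190555205551) (nat_lit 1) (nat_lit 5) (nat_lit 3) (nat_lit 4) (nat_lit 1) (nat_lit 4) (nat_lit 338) (nat_lit 245) (nat_lit 137)) (XT.nd (nat_lit 78) (nat_lit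 0) (nat_lit 0) (XT.lf (nat_lit 0) (nat_lit 1317218129518) (nat_lit 152) (nat_lit 596550799074) (nat_lit 0) (nat_lit 1291652818310) (nat_lit 1) (nat_lit 5) (nat_lit 3) (nat_lit 4) (nat_lit 1) (nat_lit 4) (nat_lit 339) (nat_lit 245) (nat_lit 136)) (XT.lf (nat_lit 0) (nat_lit 1426403848705) (nat_lit 152) (nat_lit 634117926676) (nat_lit 0) (nat_lit 1400838106745) (nat_lit 1) (nat_lit 5) (nat_lit 3) (nat_lit 4) (nat_lit 1) (nat_lit 4) (nat_lit 340) (nat_lit 245) (nat_lit 135)))) (XT.nd (nat_lit 156) (nat_lit 0) (nat_lit 0) (XT.nd (nat_lit 78) (nat_lit 0) (nat_lit 0) (XT.lf (nat_lit 0) (nat_lit 1544324235591) (nat_lit 152) (nat_lit 674690753859) (nat_lit 0) (nat_lit 1518758094788) (nat_lit 1) (nat_lit 5) (nat_lit 3) (nat_lit 4) (nat_lit 1) (nat_lit 4) (nat_lit 341) (nat_lit 245) (nat_lit 134)) (XT.lf (nat_lit 0) (nat_lit 1671678077656) (nat_lit 152) (nat_lit 718509712193) (nat_lit 0) (nat_lit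 1646111567553) (nat_lit 1) (nat_lit 5) (nat_lit 3) (nat_lit 4) (nat_lit 1) (nat_lit 4) (nat_lit 342) (nat_lit 245) (nat_lit 133))) (XT.nd (nat_lit 29952) (nat_lit 0) (nat_lit 2356) (XT.lf (nat_lit 0) (nat_lit 1809220064333) (nat_lit 152) (nat_lit 765834469578) (nat_lit 0) (nat_lit 1783653212285) (nat_lit 1) (nat_lit 5) (nat_lit 3) (nat_lit 4) (nat_lit 1) (nat_lit 4) (nat_lit 343) (nat_lit 245) (nat_lit 132)) (XT.lf (nat_lit 0) (nat_lit 1079776382) (nat_lit 380) (nat_lit 1344417218) (nat_lit 380) (nat_lit 1344417218) (nat_lit 32) (nat_lit 3) (nat_lit 37) (nat_lit 3) (nat_lit 37) (nat_lit 5) (nat_lit 246) (nat_lit 246) (nat_lit 228))))))) (XT.nd (nat_lit 1014) (nat_lit 912) (nat_lit 0) (XT.nd (nat_lit 468) (nat_lit 608) (nat_lit 0) (XT.nd (nat_lit 234) (nat_lit 304) (nat_lit 0) (XT.nd (nat_lit 78) (nat_lit 0) (nat_lit 0) (XT.lf (nat_lit 76) (nat_lit 233821614) (nat_lit 0) (nat_lit 3176782534)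 (nat_lit 380) (nat_lit 4319487723) (nat_lit 33) (nat_lit 5) (nat_lit 32) (nat_lit 3) (nat_lit 37) (nat_lit 5) (nat_lit 247) (nat_lit 246) (nat_lit 227)) (XT.nd (nat_lit 78) (nat_lit 0) (nat_lit 76) (XT.lf (nat_lit 76) (nat_lit 3476477270) (nat_lit 0) (nat_lit 1241214693) (nat_lit 380) (nat_lit 3225768825) (nat_lit 33) (nat_lit 5) (nat_lit 32) (nat_lit 3) (nat_lit 37) (nat_lit 5) (nat_lit 248) (nat_lit 246) (nat_lit 226)) (XT.lf (nat_lit 0) (nat_lit 6042045447) (nat_lit 304) (nat_lit 1288834815) (nat_lit 380) (nat_lit 851433854) (nat_lit 33) (nat_lit 5) (nat_lit 37) (nat_lit 5) (nat_lit 38) (nat_lit 5) (nat_lit 249) (nat_lit 246) (nat_lit 225)))) (XT.nd (nat_lit 78) (nat_lit 380) (nat_lit 0) (XT.lf (nat_lit 76) (nat_lit 2151296984) (nat_lit 0) (nat_lit 5305283308) (nat_lit 380) (nat_lit 986281576) (nat_lit 34) (nat_lit 5) (nat_lit 33) (nat_lit 5) (nat_lit 38) (nat_lit 5) (nat_lit 250)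 (nat_lit 246) (nat_lit 224)) (XT.nd (nat_lit 78) (nat_lit 0) (nat_lit 0) (XT.lf (nat_lit 0) (nat_lit 185623782) (nat_lit 380) (nat_lit 2860872682) (nat_lit 456) (nat_lit 5683303953) (nat_lit 28) (nat_lit 5) (nat_lit 33) (nat_lit 5) (nat_lit 34) (nat_lit 5) (nat_lit 251) (nat_lit 246) (nat_lit 223)) (XT.lf (nat_lit 76) (nat_lit 791388254) (nat_lit 0) (nat_lit 535319592) (nat_lit 456) (nat_lit 7717691573) (nat_lit 29) (nat_lit 5) (nat_lit 28) (nat_lit 5) (nat_lit 34) (nat_lit 5) (nat_lit 252) (nat_lit 246) (nat_lit 222))))) (XT.nd (nat_lit 234) (nat_lit 304) (nat_lit 0) (XT.nd (nat_lit 78) (nat_lit 380) (nat_lit 0) (XT.lf (nat_lit 0) (nat_lit 2606965907) (nat_lit 380) (nat_lit 4607197106) (nat_lit 76) (nat_lit 2167146116) (nat_lit 29) (nat_lit 5) (nat_lit 34) (nat_lit 5) (nat_lit 30) (nat_lit 5) (nat_lit 253) (nat_lit 246) (nat_lit 221)) (XT.nd (nat_lit 78) (nat_lit 380) (nat_lit 0)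 (XT.lf (nat_lit 0) (nat_lit 3925107623) (nat_lit 380) (nat_lit 751618861) (nat_lit 76) (nat_lit 5074509733) (nat_lit 29) (nat_lit 5) (nat_lit 34) (nat_lit 5) (nat_lit 30) (nat_lit 5) (nat_lit 254) (nat_lit 246) (nat_lit 220)) (XT.lf (nat_lit 0) (nat_lit 3525821776) (nat_lit 380) (nat_lit 1835044078) (nat_lit 456) (nat_lit 4789753253) (nat_lit 24) (nat_lit 5) (nat_lit 29) (nat_lit 5) (nat_lit 30) (nat_lit 5) (nat_lit 255) (nat_lit 246) (nat_lit 219)))) (XT.nd (nat_lit 156) (nat_lit 76) (nat_lit 0) (XT.nd (nat_lit 78) (nat_lit 228) (nat_lit 0) (XT.lf (nat_lit 0) (nat_lit 6893696523) (nat_lit 456) (nat_lit 2490130559) (nat_lit 76) (nat_lit 1200321616) (nat_lit 24) (nat_lit 5) (nat_lit 30) (nat_lit 5) (nat_lit 25) (nat_lit 5) (nat_lit 256) (nat_lit 246) (nat_lit 218)) (XT.lf (nat_lit 0) (nat_lit 1963055299) (nat_lit 228) (nat_lit 6617501436) (nat_lit 304) (nat_lit 2470007425) (nat_lit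 21) (nat_lit 5) (nat_lit 24) (nat_lit 5) (nat_lit 25) (nat_lit 5) (nat_lit 257) (nat_lit 246) (nat_lit 217))) (XT.nd (nat_lit 78) (nat_lit 76) (nat_lit 0) (XT.lf (nat_lit 0) (nat_lit 6852910845) (nat_lit 228) (nat_lit 3557297317) (nat_lit 304) (nat_lit 1144120036) (nat_lit 21) (nat_lit 5) (nat_lit 24) (nat_lit 5) (nat_lit 25) (nat_lit 5) (nat_lit 258) (nat_lit 246) (nat_lit 216)) (XT.lf (nat_lit 0) (nat_lit 215627934) (nat_lit 304) (nat_lit 31641180) (nat_lit 76) (nat_lit 11855763556) (nat_lit 20) (nat_lit 5) (nat_lit 24) (nat_lit 5) (nat_lit 21) (nat_lit 5) (nat_lit 259) (nat_lit 246) (nat_lit 215)))))) (XT.nd (nat_lit 546) (nat_lit 380) (nat_lit 0) (XT.nd (nat_lit 234) (nat_lit 152) (nat_lit 0) (XT.nd (nat_lit 78) (nat_lit 152) (nat_lit 0) (XT.lf (nat_lit 0) (nat_lit 1777512001) (nat_lit 304) (nat_lit 7586482713) (nat_lit 76) (nat_lit 3317374014) (nat_lit 17) (nat_lit 5) (nat_lit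 21) (nat_lit 5) (nat_lit 18) (nat_lit 5) (nat_lit 260) (nat_lit 246) (nat_lit 214)) (XT.nd (nat_lit 78) (nat_lit 152) (nat_lit 0) (XT.lf (nat_lit 0) (nat_lit 3420699611) (nat_lit 304) (nat_lit 2737886605) (nat_lit 76) (nat_lit 7151364358) (nat_lit 17) (nat_lit 5) (nat_lit 21) (nat_lit 5) (nat_lit 18) (nat_lit 5) (nat_lit 261) (nat_lit 246) (nat_lit 213)) (XT.lf (nat_lit 0) (nat_lit 2572785423) (nat_lit 152) (nat_lit 2637249622) (nat_lit 228) (nat_lit 8778059540) (nat_lit 15) (nat_lit 5) (nat_lit 17) (nat_lit 5) (nat_lit 18) (nat_lit 5) (nat_lit 262) (nat_lit 246) (nat_lit 212)))) (XT.nd (nat_lit 156) (nat_lit 152) (nat_lit 0) (XT.nd (nat_lit 78) (nat_lit 0) (nat_lit 0) (XT.lf (nat_lit 0) (nat_lit 7202195754) (nat_lit 228) (nat_lit 6337417222) (nat_lit 76) (nat_lit 1176520501) (nat_lit 15) (nat_lit 5) (nat_lit 18) (nat_lit 5) (nat_lit 16) (nat_lit 5) (nat_lit 263) (nat_lit 246) (nat_lit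 211)) (XT.lf (nat_lit 0) (nat_lit 9380412655) (nat_lit 228) (nat_lit 974526598) (nat_lit 76) (nat_lit 5145728259) (nat_lit 15) (nat_lit 5) (nat_lit 18) (nat_lit 5) (nat_lit 16) (nat_lit 5) (nat_lit 264) (nat_lit 246) (nat_lit 210))) (XT.nd (nat_lit 78) (nat_lit 0) (nat_lit 0) (XT.lf (nat_lit 0) (nat_lit 5019673097) (nat_lit 152) (nat_lit 6795217945) (nat_lit 228) (nat_lit 4526870951) (nat_lit 13) (nat_lit 5) (nat_lit 15) (nat_lit 5) (nat_lit 16) (nat_lit 5) (nat_lit 265) (nat_lit 246) (nat_lit 209)) (XT.lf (nat_lit 0) (nat_lit 11501240517) (nat_lit 152) (nat_lit 2932536874) (nat_lit 228) (nat_lit 2817526194) (nat_lit 13) (nat_lit 5) (nat_lit 15) (nat_lit 5) (nat_lit 16) (nat_lit 5) (nat_lit 266) (nat_lit 246) (nat_lit 208))))) (XT.nd (nat_lit 234) (nat_lit 152) (nat_lit 0) (XT.nd (nat_lit 78) (nat_lit 76) (nat_lit 0) (XT.lf (nat_lit 0) (nat_lit 201106510) (nat_lit 152) (nat_lit 17061215443)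 (nat_lit 228) (nat_lit 971581744) (nat_lit 11) (nat_lit 5) (nat_lit 13) (nat_lit 5) (nat_lit 14) (nat_lit 4) (nat_lit 267) (nat_lit 246) (nat_lit 207)) (XT.nd (nat_lit 78) (nat_lit 0) (nat_lit 0) (XT.lf (nat_lit 0) (nat_lit 1174218902) (nat_lit 228) (nat_lit 12479739093) (nat_lit 76) (nat_lit 5623186027) (nat_lit 10) (nat_lit 5) (nat_lit 13) (nat_lit 5) (nat_lit 11) (nat_lit 5) (nat_lit 268) (nat_lit 246) (nat_lit 206)) (XT.lf (nat_lit 0) (nat_lit 3407560426) (nat_lit 228) (nat_lit 6551887128) (nat_lit 76) (nat_lit 10445151435) (nat_lit 10) (nat_lit 5) (nat_lit 13) (nat_lit 5) (nat_lit 11) (nat_lit 5) (nat_lit 269) (nat_lit 246) (nat_lit 205)))) (XT.nd (nat_lit 156) (nat_lit 0) (nat_lit 0) (XT.nd (nat_lit 78) (nat_lit 152) (nat_lit 0) (XT.lf (nat_lit 0) (nat_lit 5790279898) (nat_lit 228) (nat_lit 190746715) (nat_lit 76) (nat_lit 15643792525) (nat_lit 10) (nat_lit 5) (nat_lit 13) (nat_lit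 5) (nat_lit 11) (nat_lit 5) (nat_lit 270) (nat_lit 246) (nat_lit 204)) (XT.lf (nat_lit 0) (nat_lit 6991100977) (nat_lit 152) (nat_lit 1513532306) (nat_lit 228) (nat_lit 14426951227) (nat_lit 8) (nat_lit 5) (nat_lit 10) (nat_lit 5) (nat_lit 11) (nat_lit 5) (nat_lit 271) (nat_lit 246) (nat_lit 203))) (XT.nd (nat_lit 78) (nat_lit 0) (nat_lit 0) (XT.lf (nat_lit 0) (nat_lit 11494861278) (nat_lit 228) (nat_lit 9702860826) (nat_lit 76) (nat_lit 3140664347) (nat_lit 8) (nat_lit 5) (nat_lit 11) (nat_lit 5) (nat_lit 9) (nat_lit 4) (nat_lit 272) (nat_lit 246) (nat_lit 202)) (XT.lf (nat_lit 0) (nat_lit 14739302629) (nat_lit 228) (nat_lit 3041612654) (nat_lit 76) (nat_lit 8075796771) (nat_lit 8) (nat_lit 5) (nat_lit 11) (nat_lit 5) (nat_lit 9) (nat_lit 4) (nat_lit 273) (nat_lit 246) (nat_lit 201))))))))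
noncomputable def xc64 : XT := (XT.nd (nat_lit 2028) (nat_lit 76) (nat_lit 0) (XT.nd (nat_lit 1014) (nat_lit 152) (nat_lit 0) (XT.nd (nat_lit 468) (nat_lit 76) (nat_lit 0) (XT.nd (nat_lit 234) (nat_lit 152) (nat_lit 0) (XT.nd (nat_lit 78) (nat_lit 0) (nat_lit 0) (XT.lf (nat_lit 0) (nat_lit 4336041910) (nat_lit 76) (nat_lit 13989023169) (nat_lit 152) (nat_lit 9165063211) (nat_lit 7) (nat_lit 5) (nat_lit 8) (nat_lit 5) (nat_lit 9) (nat_lit 4) (nat_lit 274) (nat_lit 246) (nat_lit 200)) (XT.nd (nat_lit 78) (nat_lit 0) (nat_lit 0) (XT.lf (nat_lit 0) (nat_lit 12444333774) (nat_lit 76) (nat_lit 9814886640) (nat_lit 152) (nat_lit 6990228423) (nat_lit 7) (nat_lit 5) (nat_lit 8) (nat_lit 5) (nat_lit 9) (nat_lit 4) (nat_lit 275) (nat_lit 246) (nat_lit 199)) (XT.lf (nat_lit 0) (nat_lit 21171146142) (nat_lit 76) (nat_lit 5316933153) (nat_lit 152) (nat_lit 4663180231) (nat_lit 7) (nat_lit 5) (nat_lit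 8) (nat_lit 5) (nat_lit 9) (nat_lit 4) (nat_lit 276) (nat_lit 246) (nat_lit 198)))) (XT.nd (nat_lit 78) (nat_lit 152) (nat_lit 0) (XT.lf (nat_lit 0) (nat_lit 30568193458) (nat_lit 76) (nat_lit 468508168) (nat_lit 152) (nat_lit 2170128719) (nat_lit 7) (nat_lit 5) (nat_lit 8) (nat_lit 5) (nat_lit 9) (nat_lit 4) (nat_lit 277) (nat_lit 246) (nat_lit 197)) (XT.nd (nat_lit 78) (nat_lit 0) (nat_lit 0) (XT.lf (nat_lit 0) (nat_lit 729656200) (nat_lit 152) (nat_lit 30007764976) (nat_lit 76) (nat_lit 4669859877) (nat_lit 5) (nat_lit 5) (nat_lit 7) (nat_lit 5) (nat_lit 6) (nat_lit 4) (nat_lit 278) (nat_lit 246) (nat_lit 196)) (XT.lf (nat_lit 0) (nat_lit 3813098193) (nat_lit 152) (nat_lit 23645080065) (nat_lit 76) (nat_lit 10315671308) (nat_lit 5) (nat_lit 5) (nat_lit 7) (nat_lit 5) (nat_lit 6) (nat_lit 4) (nat_lit 279) (nat_lit 246) (nat_lit 195))))) (XT.nd (nat_lit 234) (nat_lit 76) (nat_lit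 0) (XT.nd (nat_lit 78) (nat_lit 0) (nat_lit 0) (XT.lf (nat_lit 0) (nat_lit 7127224477) (nat_lit 152) (nat_lit 16798803350) (nat_lit 76) (nat_lit 16405091787) (nat_lit 5) (nat_lit 5) (nat_lit 7) (nat_lit 5) (nat_lit 6) (nat_lit 4) (nat_lit 280) (nat_lit 246) (nat_lit 194)) (XT.nd (nat_lit 78) (nat_lit 0) (nat_lit 0) (XT.lf (nat_lit 0) (nat_lit 10691674321) (nat_lit 152) (nat_lit 9428364302) (nat_lit 76) (nat_lit 22974206771) (nat_lit 5) (nat_lit 5) (nat_lit 7) (nat_lit 5) (nat_lit 6) (nat_lit 4) (nat_lit 281) (nat_lit 246) (nat_lit 193)) (XT.lf (nat_lit 0) (nat_lit 14527570389) (nat_lit 152) (nat_lit 1490086245) (nat_lit 76) (nat_lit 30061944346) (nat_lit 5) (nat_lit 5) (nat_lit 7) (nat_lit 5) (nat_lit 6) (nat_lit 4) (nat_lit 282) (nat_lit 246) (nat_lit 192)))) (XT.nd (nat_lit 156) (nat_lit 0) (nat_lit 0) (XT.nd (nat_lit 78) (nat_lit 0) (nat_lit 0) (XT.lf (nat_lit 0) (nat_lit 7435001347)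 (nat_lit 76) (nat_lit 11401454532) (nat_lit 152) (nat_lit 30454116537) (nat_lit 4) (nat_lit 5) (nat_lit 5) (nat_lit 5) (nat_lit 6) (nat_lit 4) (nat_lit 283) (nat_lit 246) (nat_lit 191)) (XT.lf (nat_lit 0) (nat_lit 17139167810) (nat_lit 76) (nat_lit 6379399005) (nat_lit 152) (nat_lit 29237644711) (nat_lit 4) (nat_lit 5) (nat_lit 5) (nat_lit 5) (nat_lit 6) (nat_lit 4) (nat_lit 284) (nat_lit 246) (nat_lit 190))) (XT.nd (nat_lit 78) (nat_lit 0) (nat_lit 0) (XT.lf (nat_lit 0) (nat_lit 27601454015) (nat_lit 76) (nat_lit 962471323) (nat_lit 152) (nat_lit 27936147991) (nat_lit 4) (nat_lit 5) (nat_lit 5) (nat_lit 5) (nat_lit 6) (nat_lit 4) (nat_lit 285) (nat_lit 246) (nat_lit 189)) (XT.lf (nat_lit 0) (nat_lit 34119828349) (nat_lit 152) (nat_lit 21777883459) (nat_lit 0) (nat_lit 4637239986) (nat_lit 4) (nat_lit 5) (nat_lit 6) (nat_lit 4) (nat_lit 4) (nat_lit 4) (nat_lit 286) (nat_lit 246) (nat_lit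 188)))))) (XT.nd (nat_lit 468) (nat_lit 76) (nat_lit 0) (XT.nd (nat_lit 234) (nat_lit 0) (nat_lit 0) (XT.nd (nat_lit 78) (nat_lit 76) (nat_lit 0) (XT.lf (nat_lit 0) (nat_lit 40135354563) (nat_lit 152) (nat_lit 14128794043) (nat_lit 0) (nat_lit 10627316318) (nat_lit 4) (nat_lit 5) (nat_lit 6) (nat_lit 4) (nat_lit 4) (nat_lit 4) (nat_lit 287) (nat_lit 246) (nat_lit 187)) (XT.nd (nat_lit 78) (nat_lit 76) (nat_lit 0) (XT.lf (nat_lit 0) (nat_lit 46623004085) (nat_lit 152) (nat_lit 5882875671) (nat_lit 0) (nat_lit 17091401134) (nat_lit 4) (nat_lit 5) (nat_lit 6) (nat_lit 4) (nat_lit 4) (nat_lit 4) (nat_lit 288) (nat_lit 246) (nat_lit 186)) (XT.lf (nat_lit 0) (nat_lit 3167171083) (nat_lit 76) (nat_lit 50530221703) (nat_lit 76) (nat_lit 20976799579) (nat_lit 3) (nat_lit 4) (nat_lit 4) (nat_lit 5) (nat_lit 4) (nat_lit 4) (nat_lit 289) (nat_lit 246) (nat_lit 185)))) (XT.nd (nat_lit 78) (nat_lit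 0) (nat_lit 0) (XT.lf (nat_lit 0) (nat_lit 13262160039) (nat_lit 76) (nat_lit 48228275196) (nat_lit 76) (nat_lit 18654650135) (nat_lit 3) (nat_lit 4) (nat_lit 4) (nat_lit 5) (nat_lit 4) (nat_lit 4) (nat_lit 290) (nat_lit 246) (nat_lit 184)) (XT.nd (nat_lit 78) (nat_lit 0) (nat_lit 0) (XT.lf (nat_lit 0) (nat_lit 24152131543) (nat_lit 76) (nat_lit 45747247318) (nat_lit 76) (nat_lit 16154915834) (nat_lit 3) (nat_lit 4) (nat_lit 4) (nat_lit 5) (nat_lit 4) (nat_lit 4) (nat_lit 291) (nat_lit 246) (nat_lit 183)) (XT.lf (nat_lit 0) (nat_lit 35901618761) (nat_lit 76) (nat_lit 43072435682) (nat_lit 76) (nat_lit 13462783435) (nat_lit 3) (nat_lit 4) (nat_lit 4) (nat_lit 5) (nat_lit 4) (nat_lit 4) (nat_lit 292) (nat_lit 246) (nat_lit 182))))) (XT.nd (nat_lit 234) (nat_lit 76) (nat_lit 0) (XT.nd (nat_lit 78) (nat_lit 0) (nat_lit 0) (XT.lf (nat_lit 0) (nat_lit 48580248283) (nat_lit 76) (nat_lit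 40187989552) (nat_lit 76) (nat_lit 10562299562) (nat_lit 3) (nat_lit 4) (nat_lit 4) (nat_lit 5) (nat_lit 4) (nat_lit 4) (nat_lit 293) (nat_lit 246) (nat_lit 181)) (XT.nd (nat_lit 78) (nat_lit 0) (nat_lit 0) (XT.lf (nat_lit 0) (nat_lit 62263152730) (nat_lit 76) (nat_lit 37076815914) (nat_lit 76) (nat_lit 7436276162) (nat_lit 3) (nat_lit 4) (nat_lit 4) (nat_lit 5) (nat_lit 4) (nat_lit 4) (nat_lit 294) (nat_lit 246) (nat_lit 180)) (XT.lf (nat_lit 0) (nat_lit 77031415979) (nat_lit 76) (nat_lit 33720478183) (nat_lit 76) (nat_lit 4066188651) (nat_lit 3) (nat_lit 4) (nat_lit 4) (nat_lit 5) (nat_lit 4) (nat_lit 4) (nat_lit 295) (nat_lit 246) (nat_lit 179)))) (XT.nd (nat_lit 156) (nat_lit 0) (nat_lit 0) (XT.nd (nat_lit 78) (nat_lit 76) (nat_lit 0) (XT.lf (nat_lit 0) (nat_lit 92972553664) (nat_lit 76) (nat_lit 30099086951) (nat_lit 76) (nat_lit 432066141) (nat_lit 3) (nat_lit 4) (nat_lit 4)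 (nat_lit 5) (nat_lit 4) (nat_lit 4) (nat_lit 296) (nat_lit 246) (nat_lit 178)) (XT.lf (nat_lit 0) (nat_lit 3313161685) (nat_lit 152) (nat_lit 22787432724) (nat_lit 76) (nat_lit 106777282390) (nat_lit 2) (nat_lit 5) (nat_lit 4) (nat_lit 5) (nat_lit 3) (nat_lit 4) (nat_lit 297) (nat_lit 246) (nat_lit 177))) (XT.nd (nat_lit 78) (nat_lit 0) (nat_lit 0) (XT.lf (nat_lit 0) (nat_lit 7330126820) (nat_lit 152) (nat_lit 14443060261) (nat_lit 76) (nat_lit 121228281035) (nat_lit 2) (nat_lit 5) (nat_lit 4) (nat_lit 5) (nat_lit 3) (nat_lit 4) (nat_lit 298) (nat_lit 246) (nat_lit 176)) (XT.lf (nat_lit 0) (nat_lit 11664247199) (nat_lit 152) (nat_lit 5438196370) (nat_lit 76) (nat_lit 136832860090) (nat_lit 2) (nat_lit 5) (nat_lit 4) (nat_lit 5) (nat_lit 3) (nat_lit 4) (nat_lit 299) (nat_lit 246) (nat_lit 175))))))) (XT.nd (nat_lit 1014) (nat_lit 0) (nat_lit 0) (XT.nd (nat_lit 468) (nat_lit 0) (nat_lit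 0) (XT.nd (nat_lit 234) (nat_lit 0) (nat_lit 0) (XT.nd (nat_lit 78) (nat_lit 0) (nat_lit 0) (XT.lf (nat_lit 0) (nat_lit 4505925761) (nat_lit 76) (nat_lit 11943648361) (nat_lit 152) (nat_lit 149285932994) (nat_lit 1) (nat_lit 5) (nat_lit 2) (nat_lit 5) (nat_lit 3) (nat_lit 4) (nat_lit 300) (nat_lit 246) (nat_lit 174)) (XT.nd (nat_lit 78) (nat_lit 0) (nat_lit 0) (XT.lf (nat_lit 0) (nat_lit 15548482639) (nat_lit 76) (nat_lit 6214178777) (nat_lit 152) (nat_lit 156705488497) (nat_lit 1) (nat_lit 5) (nat_lit 2) (nat_lit 5) (nat_lit 3) (nat_lit 4) (nat_lit 301) (nat_lit 246) (nat_lit 173)) (XT.lf (nat_lit 0) (nat_lit 27468545854) (nat_lit 76) (nat_lit 28772331) (nat_lit 152) (nat_lit 164722380630) (nat_lit 1) (nat_lit 5) (nat_lit 2) (nat_lit 5) (nat_lit 3) (nat_lit 4) (nat_lit 302) (nat_lit 246) (nat_lit 172)))) (XT.nd (nat_lit 78) (nat_lit 0) (nat_lit 0) (XT.lf (nat_lit 0) (nat_lit 33847441608)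 (nat_lit 152) (nat_lit 166894805694) (nat_lit 0) (nat_lit 6316604060) (nat_lit 1) (nat_lit 5) (nat_lit 3) (nat_lit 4) (nat_lit 1) (nat_lit 4) (nat_lit 303) (nat_lit 246) (nat_lit 171)) (XT.nd (nat_lit 78) (nat_lit 0) (nat_lit 0) (XT.lf (nat_lit 0) (nat_lit 40703290921) (nat_lit 152) (nat_lit 169215957475) (nat_lit 0) (nat_lit 13166084565) (nat_lit 1) (nat_lit 5) (nat_lit 3) (nat_lit 4) (nat_lit 1) (nat_lit 4) (nat_lit 304) (nat_lit 246) (nat_lit 170)) (XT.lf (nat_lit 0) (nat_lit 48104801406) (nat_lit 152) (nat_lit 171727671303) (nat_lit 0) (nat_lit 20561698005) (nat_lit 1) (nat_lit 5) (nat_lit 3) (nat_lit 4) (nat_lit 1) (nat_lit 4) (nat_lit 305) (nat_lit 246) (nat_lit 169))))) (XT.nd (nat_lit 234) (nat_lit 0) (nat_lit 0) (XT.nd (nat_lit 78) (nat_lit 0) (nat_lit 0) (XT.lf (nat_lit 0) (nat_lit 56095833864) (nat_lit 152) (nat_lit 174444831408) (nat_lit 0) (nat_lit 28547270237) (nat_lit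 1) (nat_lit 5) (nat_lit 3) (nat_lit 4) (nat_lit 1) (nat_lit 4) (nat_lit 306) (nat_lit 246) (nat_lit 168)) (XT.nd (nat_lit 78) (nat_lit 0) (nat_lit 0) (XT.lf (nat_lit 0) (nat_lit 64723742564) (nat_lit 152) (nat_lit 177383539480) (nat_lit 0) (nat_lit 37170123171) (nat_lit 1) (nat_lit 5) (nat_lit 3) (nat_lit 4) (nat_lit 1) (nat_lit 4) (nat_lit 307) (nat_lit 246) (nat_lit 167)) (XT.lf (nat_lit 0) (nat_lit 74039655852) (nat_lit 152) (nat_lit 180561210085) (nat_lit 0) (nat_lit 46481355195) (nat_lit 1) (nat_lit 5) (nat_lit 3) (nat_lit 4) (nat_lit 1) (nat_lit 4) (nat_lit 308) (nat_lit 246) (nat_lit 166)))) (XT.nd (nat_lit 156) (nat_lit 0) (nat_lit 0) (XT.nd (nat_lit 78) (nat_lit 0) (nat_lit 0) (XT.lf (nat_lit 0) (nat_lit 84098779140) (nat_lit 152) (nat_lit 183996673864) (nat_lit 0) (nat_lit 56536143979) (nat_lit 1) (nat_lit 5) (nat_lit 3) (nat_lit 4) (nat_lit 1) (nat_lit 4) (nat_lit 309)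 (nat_lit 246) (nat_lit 165)) (XT.lf (nat_lit 0) (nat_lit 94960722049) (nat_lit 152) (nat_lit 187710289121) (nat_lit 0) (nat_lit 67394073458) (nat_lit 1) (nat_lit 5) (nat_lit 3) (nat_lit 4) (nat_lit 1) (nat_lit 4) (nat_lit 310) (nat_lit 246) (nat_lit 164))) (XT.nd (nat_lit 78) (nat_lit 0) (nat_lit 0) (XT.lf (nat_lit 0) (nat_lit 106689851646) (nat_lit 152) (nat_lit 191724062464) (nat_lit 0) (nat_lit 79119486917) (nat_lit 1) (nat_lit 5) (nat_lit 3) (nat_lit 4) (nat_lit 1) (nat_lit 4) (nat_lit 311) (nat_lit 246) (nat_lit 163)) (XT.lf (nat_lit 0) (nat_lit 119355673886) (nat_lit 152) (nat_lit 196061779218) (nat_lit 0) (nat_lit 91781868288) (nat_lit 1) (nat_lit 5) (nat_lit 3) (nat_lit 4) (nat_lit 1) (nat_lit 4) (nat_lit 312) (nat_lit 246) (nat_lit 162)))))) (XT.nd (nat_lit 546) (nat_lit 0) (nat_lit 0) (XT.nd (nat_lit 234) (nat_lit 0) (nat_lit 0) (XT.nd (nat_lit 78) (nat_lit 0) (nat_lit 0)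 (XT.lf (nat_lit 0) (nat_lit 133033245492) (nat_lit 152) (nat_lit 200749144370) (nat_lit 0) (nat_lit 105456253905) (nat_lit 1) (nat_lit 5) (nat_lit 3) (nat_lit 4) (nat_lit 1) (nat_lit 4) (nat_lit 313) (nat_lit 246) (nat_lit 161)) (XT.nd (nat_lit 78) (nat_lit 0) (nat_lit 0) (XT.lf (nat_lit 0) (nat_lit 147803618742) (nat_lit 152) (nat_lit 205813934898) (nat_lit 0) (nat_lit 120223677163) (nat_lit 1) (nat_lit 5) (nat_lit 3) (nat_lit 4) (nat_lit 1) (nat_lit 4) (nat_lit 314) (nat_lit 246) (nat_lit 160)) (XT.lf (nat_lit 0) (nat_lit 163754321772) (nat_lit 152) (nat_lit 211286164377) (nat_lit 0) (nat_lit 136171648721) (nat_lit 1) (nat_lit 5) (nat_lit 3) (nat_lit 4) (nat_lit 1) (nat_lit 4) (nat_lit 315) (nat_lit 246) (nat_lit 159)))) (XT.nd (nat_lit 156) (nat_lit 0) (nat_lit 0) (XT.nd (nat_lit 78) (nat_lit 0) (nat_lit 0) (XT.lf (nat_lit 0) (nat_lit 180979877267) (nat_lit 152) (nat_lit 217198260833)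 (nat_lit 0) (nat_lit 153394675074) (nat_lit 1) (nat_lit 5) (nat_lit 3) (nat_lit 4) (nat_lit 1) (nat_lit 4) (nat_lit 316) (nat_lit 246) (nat_lit 158)) (XT.lf (nat_lit 0) (nat_lit 199582362593) (nat_lit 152) (nat_lit 223585258912) (nat_lit 0) (nat_lit 171994818603) (nat_lit 1) (nat_lit 5) (nat_lit 3) (nat_lit 4) (nat_lit 1) (nat_lit 4) (nat_lit 317) (nat_lit 246) (nat_lit 157))) (XT.nd (nat_lit 78) (nat_lit 0) (nat_lit 0) (XT.lf (nat_lit 0) (nat_lit 219672014701) (nat_lit 152) (nat_lit 230485007491) (nat_lit 0) (nat_lit 192082302379) (nat_lit 1) (nat_lit 5) (nat_lit 3) (nat_lit 4) (nat_lit 1) (nat_lit 4) (nat_lit 318) (nat_lit 246) (nat_lit 156)) (XT.lf (nat_lit 0) (nat_lit 241367883380) (nat_lit 152) (nat_lit 237938393969) (nat_lit 0) (nat_lit 213776163344) (nat_lit 1) (nat_lit 5) (nat_lit 3) (nat_lit 4) (nat_lit 1) (nat_lit 4) (nat_lit 319) (nat_lit 246) (nat_lit 155))))) (XT.nd (nat_lit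 234) (nat_lit 0) (nat_lit 0) (XT.nd (nat_lit 78) (nat_lit 0) (nat_lit 0) (XT.lf (nat_lit 0) (nat_lit 264798536741) (nat_lit 152) (nat_lit 245989586562) (nat_lit 0) (nat_lit 237204957711) (nat_lit 1) (nat_lit 5) (nat_lit 3) (nat_lit 4) (nat_lit 1) (nat_lit 4) (nat_lit 320) (nat_lit 246) (nat_lit 154)) (XT.nd (nat_lit 78) (nat_lit 0) (nat_lit 0) (XT.lf (nat_lit 0) (nat_lit 290102823101) (nat_lit 152) (nat_lit 254686296042) (nat_lit 0) (nat_lit 262507522779) (nat_lit 1) (nat_lit 5) (nat_lit 3) (nat_lit 4) (nat_lit 1) (nat_lit 4) (nat_lit 321) (nat_lit 246) (nat_lit 153)) (XT.lf (nat_lit 0) (nat_lit 317430693785) (nat_lit 152) (nat_lit 264080058464) (nat_lit 0) (nat_lit 289833799676) (nat_lit 1) (nat_lit 5) (nat_lit 3) (nat_lit 4) (nat_lit 1) (nat_lit 4) (nat_lit 322) (nat_lit 246) (nat_lit 152)))) (XT.nd (nat_lit 156) (nat_lit 0) (nat_lit 0) (XT.nd (nat_lit 78) (nat_lit 0) (nat_lit 0)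 (XT.lf (nat_lit 0) (nat_lit 346944091732) (nat_lit 152) (nat_lit 274226540569) (nat_lit 0) (nat_lit 319345721893) (nat_lit 1) (nat_lit 5) (nat_lit 3) (nat_lit 4) (nat_lit 1) (nat_lit 4) (nat_lit 323) (nat_lit 246) (nat_lit 151)) (XT.lf (nat_lit 0) (nat_lit 378817911151) (nat_lit 152) (nat_lit 285185869658) (nat_lit 0) (nat_lit 351218174896) (nat_lit 1) (nat_lit 5) (nat_lit 3) (nat_lit 4) (nat_lit 1) (nat_lit 4) (nat_lit 324) (nat_lit 246) (nat_lit 150))) (XT.nd (nat_lit 78) (nat_lit 0) (nat_lit 0) (XT.lf (nat_lit 0) (nat_lit 413241033936) (nat_lit 152) (nat_lit 297022989903) (nat_lit 0) (nat_lit 385640032480) (nat_lit 1) (nat_lit 5) (nat_lit 3) (nat_lit 4) (nat_lit 1) (nat_lit 4) (nat_lit 325) (nat_lit 246) (nat_lit 149)) (XT.lf (nat_lit 0) (nat_lit 450417448961) (nat_lit 152) (nat_lit 309808047202) (nat_lit 0) (nat_lit 422815276024) (nat_lit 1) (nat_lit 5) (nat_lit 3) (nat_lit 4)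 (nat_lit 1) (nat_lit 4) (nat_lit 326) (nat_lit 246) (nat_lit 148))))))))
noncomputable def xc65 : XT := (XT.nd (nat_lit 32058) (nat_lit 0) (nat_lit 304) (XT.nd (nat_lit 1014) (nat_lit 0) (nat_lit 0) (XT.nd (nat_lit 468) (nat_lit 0) (nat_lit 0) (XT.nd (nat_lit 234) (nat_lit 0) (nat_lit 0) (XT.nd (nat_lit 78) (nat_lit 0) (nat_lit 0) (XT.lf (nat_lit 0) (nat_lit 490567460910) (nat_lit 152) (nat_lit 323616804858) (nat_lit 0) (nat_lit 462964203267) (nat_lit 1) (nat_lit 5) (nat_lit 3) (nat_lit 4) (nat_lit 1) (nat_lit 4) (nat_lit 327) (nat_lit 246) (nat_lit 147)) (XT.nd (nat_lit 78) (nat_lit 0) (nat_lit 0) (XT.lf (nat_lit 0) (nat_lit 533928995777) (nat_lit 152) (nat_lit 338531092546) (nat_lit 0) (nat_lit 506324733778) (nat_lit 1) (nat_lit 5) (nat_lit 3) (nat_lit 4) (nat_lit 1) (nat_lit 4) (nat_lit 328) (nat_lit 246) (nat_lit 146)) (XT.lf (nat_lit 0) (nat_lit 580759010808) (nat_lit 152) (nat_lit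 354639291230) (nat_lit 0) (nat_lit 553153818848) (nat_lit 1) (nat_lit 5) (nat_lit 3) (nat_lit 4) (nat_lit 1) (nat_lit 4) (nat_lit 329) (nat_lit 246) (nat_lit 145)))) (XT.nd (nat_lit 78) (nat_lit 0) (nat_lit 0) (XT.lf (nat_lit 0) (nat_lit 631335017202) (nat_lit 152) (nat_lit 372036856901) (nat_lit 0) (nat_lit 603728964168) (nat_lit 1) (nat_lit 5) (nat_lit 3) (nat_lit 4) (nat_lit 1) (nat_lit 4) (nat_lit 330) (nat_lit 246) (nat_lit 144)) (XT.nd (nat_lit 78) (nat_lit 0) (nat_lit 0) (XT.lf (nat_lit 0) (nat_lit 685956724627) (nat_lit 152) (nat_lit 390826886246) (nat_lit 0) (nat_lit 658349874302) (nat_lit 1) (nat_lit 5) (nat_lit 3) (nat_lit 4) (nat_lit 1) (nat_lit 4) (nat_lit 331) (nat_lit 246) (nat_lit 143)) (XT.lf (nat_lit 0) (nat_lit 744947817274) (nat_lit 152) (nat_lit 411120727587) (nat_lit 0) (nat_lit 717340228717) (nat_lit 1) (nat_lit 5) (nat_lit 3) (nat_lit 4) (nat_lit 1) (nat_lit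 4) (nat_lit 332) (nat_lit 246) (nat_lit 142))))) (XT.nd (nat_lit 234) (nat_lit 0) (nat_lit 0) (XT.nd (nat_lit 78) (nat_lit 0) (nat_lit 0) (XT.lf (nat_lit 0) (nat_lit 808657871990) (nat_lit 152) (nat_lit 433038640723) (nat_lit 0) (nat_lit 781049599884) (nat_lit 1) (nat_lit 5) (nat_lit 3) (nat_lit 4) (nat_lit 1) (nat_lit 4) (nat_lit 333) (nat_lit 246) (nat_lit 141)) (XT.nd (nat_lit 78) (nat_lit 0) (nat_lit 0) (XT.lf (nat_lit 0) (nat_lit 877464429839) (nat_lit 152) (nat_lit 456710509586) (nat_lit 0) (nat_lit 849855524818) (nat_lit 1) (nat_lit 5) (nat_lit 3) (nat_lit 4) (nat_lit 1) (nat_lit 4) (nat_lit 334) (nat_lit 246) (nat_lit 140)) (XT.lf (nat_lit 0) (nat_lit 951775233386) (nat_lit 152) (nat_lit 482276611915) (nat_lit 0) (nat_lit 924165742333) (nat_lit 1) (nat_lit 5) (nat_lit 3) (nat_lit 4) (nat_lit 1) (nat_lit 4) (nat_lit 335) (nat_lit 246) (nat_lit 139)))) (XT.nd (nat_lit 156) (nat_lit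 0) (nat_lit 0) (XT.nd (nat_lit 78) (nat_lit 0) (nat_lit 0) (XT.lf (nat_lit 0) (nat_lit 1032030642949) (nat_lit 152) (nat_lit 509888450540) (nat_lit 0) (nat_lit 1004420609273) (nat_lit 1) (nat_lit 5) (nat_lit 3) (nat_lit 4) (nat_lit 1) (nat_lit 4) (nat_lit 336) (nat_lit 246) (nat_lit 138)) (XT.lf (nat_lit 0) (nat_lit 1118706246140) (nat_lit 152) (nat_lit 539709651171) (nat_lit 0) (nat_lit 1091095710035) (nat_lit 1) (nat_lit 5) (nat_lit 3) (nat_lit 4) (nat_lit 1) (nat_lit 4) (nat_lit 337) (nat_lit 246) (nat_lit 137))) (XT.nd (nat_lit 78) (nat_lit 0) (nat_lit 0) (XT.lf (nat_lit 0) (nat_lit 1212315676162) (nat_lit 152) (nat_lit 571916932034) (nat_lit 0) (nat_lit 1184704674846) (nat_lit 1) (nat_lit 5) (nat_lit 3) (nat_lit 4) (nat_lit 1) (nat_lit 4) (nat_lit 338) (nat_lit 246) (nat_lit 136)) (XT.lf (nat_lit 0) (nat_lit 1313413655565) (nat_lit 152) (nat_lit 606701151090) (nat_lit 0) (nat_lit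 1285802223497) (nat_lit 1) (nat_lit 5) (nat_lit 3) (nat_lit 4) (nat_lit 1) (nat_lit 4) (nat_lit 339) (nat_lit 246) (nat_lit 135)))))) (XT.nd (nat_lit 30498) (nat_lit 0) (nat_lit 1748) (XT.nd (nat_lit 234) (nat_lit 0) (nat_lit 0) (XT.nd (nat_lit 78) (nat_lit 0) (nat_lit 0) (XT.lf (nat_lit 0) (nat_lit 1422599283484) (nat_lit 152) (nat_lit 644268437045) (nat_lit 0) (nat_lit 1394987452573) (nat_lit 1) (nat_lit 5) (nat_lit 3) (nat_lit 4) (nat_lit 1) (nat_lit 4) (nat_lit 340) (nat_lit 246) (nat_lit 134)) (XT.nd (nat_lit 78) (nat_lit 0) (nat_lit 0) (XT.lf (nat_lit 0) (nat_lit 1540519585865) (nat_lit 152) (nat_lit 684841410851) (nat_lit 0) (nat_lit 1512907385653) (nat_lit 1) (nat_lit 5) (nat_lit 3) (nat_lit 4) (nat_lit 1) (nat_lit 4) (nat_lit 341) (nat_lit 246) (nat_lit 133)) (XT.lf (nat_lit 0) (nat_lit 1667873349683) (nat_lit 152) (nat_lit 728660504947) (nat_lit 0) (nat_lit 1640260807527)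 (nat_lit 1) (nat_lit 5) (nat_lit 3) (nat_lit 4) (nat_lit 1) (nat_lit 4) (nat_lit 342) (nat_lit 246) (nat_lit 132)))) (XT.nd (nat_lit 30108) (nat_lit 0) (nat_lit 2356) (XT.nd (nat_lit 30030) (nat_lit 0) (nat_lit 2356) (XT.lf (nat_lit 0) (nat_lit 1805415263910) (nat_lit 152) (nat_lit 775985388038) (nat_lit 0) (nat_lit 1777802405139) (nat_lit 1) (nat_lit 5) (nat_lit 3) (nat_lit 4) (nat_lit 1) (nat_lit 4) (nat_lit 343) (nat_lit 246) (nat_lit 131)) (XT.lf (nat_lit 0) (nat_lit 2297329269) (nat_lit 380) (nat_lit 833601558) (nat_lit 380) (nat_lit 833601558) (nat_lit 32) (nat_lit 3) (nat_lit 37) (nat_lit 3) (nat_lit 37) (nat_lit 5) (nat_lit 247) (nat_lit 247) (nat_lit 226))) (XT.nd (nat_lit 78) (nat_lit 0) (nat_lit 0) (XT.lf (nat_lit 76) (nat_lit 1457955593) (nat_lit 0) (nat_lit 4349248161) (nat_lit 380) (nat_lit 2343481222) (nat_lit 33) (nat_lit 5) (nat_lit 32) (nat_lit 3) (nat_lit 37) (nat_lit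 5) (nat_lit 248) (nat_lit 247) (nat_lit 225)) (XT.lf (nat_lit 76) (nat_lit 4870732720) (nat_lit 0) (nat_lit 2190810966) (nat_lit 380) (nat_lit 1334232628) (nat_lit 33) (nat_lit 5) (nat_lit 32) (nat_lit 3) (nat_lit 37) (nat_lit 5) (nat_lit 249) (nat_lit 247) (nat_lit 224))))) (XT.nd (nat_lit 234) (nat_lit 304) (nat_lit 0) (XT.nd (nat_lit 78) (nat_lit 380) (nat_lit 0) (XT.lf (nat_lit 0) (nat_lit 8327248575) (nat_lit 304) (nat_lit 169952416) (nat_lit 380) (nat_lit 171619217) (nat_lit 33) (nat_lit 5) (nat_lit 37) (nat_lit 5) (nat_lit 38) (nat_lit 5) (nat_lit 250) (nat_lit 247) (nat_lit 223)) (XT.nd (nat_lit 78) (nat_lit 0) (nat_lit 0) (XT.lf (nat_lit 0) (nat_lit 750244428) (nat_lit 380) (nat_lit 5464910531) (nat_lit 456) (nat_lit 2743696051) (nat_lit 28) (nat_lit 5) (nat_lit 33) (nat_lit 5) (nat_lit 34) (nat_lit 5) (nat_lit 251) (nat_lit 247) (nat_lit 222)) (XT.lf (nat_lit 0) (nat_lit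 1832088229) (nat_lit 380) (nat_lit 1882000051) (nat_lit 456) (nat_lit 5564569111) (nat_lit 28) (nat_lit 5) (nat_lit 33) (nat_lit 5) (nat_lit 34) (nat_lit 5) (nat_lit 252) (nat_lit 247) (nat_lit 221)))) (XT.nd (nat_lit 156) (nat_lit 304) (nat_lit 0) (XT.nd (nat_lit 78) (nat_lit 0) (nat_lit 76) (XT.lf (nat_lit 76) (nat_lit 2031866003) (nat_lit 0) (nat_lit 940043567) (nat_lit 456) (nat_lit 6655325951) (nat_lit 29) (nat_lit 5) (nat_lit 28) (nat_lit 5) (nat_lit 34) (nat_lit 5) (nat_lit 253) (nat_lit 247) (nat_lit 220)) (XT.lf (nat_lit 0) (nat_lit 4232524504) (nat_lit 380) (nat_lit 3747452314) (nat_lit 76) (nat_lit 2022189303) (nat_lit 29) (nat_lit 5) (nat_lit 34) (nat_lit 5) (nat_lit 30) (nat_lit 5) (nat_lit 254) (nat_lit 247) (nat_lit 219))) (XT.nd (nat_lit 78) (nat_lit 0) (nat_lit 0) (XT.lf (nat_lit 0) (nat_lit 342730236) (nat_lit 380) (nat_lit 5216666930) (nat_lit 456) (nat_lit 4851234331)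 (nat_lit 24) (nat_lit 5) (nat_lit 29) (nat_lit 5) (nat_lit 30) (nat_lit 5) (nat_lit 255) (nat_lit 247) (nat_lit 218)) (XT.lf (nat_lit 0) (nat_lit 4916428108) (nat_lit 380) (nat_lit 2114817686) (nat_lit 456) (nat_lit 3818137968) (nat_lit 24) (nat_lit 5) (nat_lit 29) (nat_lit 5) (nat_lit 30) (nat_lit 5) (nat_lit 256) (nat_lit 247) (nat_lit 217))))))) (XT.nd (nat_lit 1014) (nat_lit 380) (nat_lit 0) (XT.nd (nat_lit 468) (nat_lit 532) (nat_lit 0) (XT.nd (nat_lit 234) (nat_lit 304) (nat_lit 0) (XT.nd (nat_lit 78) (nat_lit 228) (nat_lit 0) (XT.lf (nat_lit 0) (nat_lit 8591778113) (nat_lit 456) (nat_lit 1555060079) (nat_lit 76) (nat_lit 1179385883) (nat_lit 24) (nat_lit 5) (nat_lit 30) (nat_lit 5) (nat_lit 25) (nat_lit 5) (nat_lit 257) (nat_lit 247) (nat_lit 216)) (XT.nd (nat_lit 78) (nat_lit 0) (nat_lit 0) (XT.lf (nat_lit 0) (nat_lit 3225664674) (nat_lit 228) (nat_lit 7129579045) (nat_lit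 304) (nat_lit 1480334281) (nat_lit 21) (nat_lit 5) (nat_lit 24) (nat_lit 5) (nat_lit 25) (nat_lit 5) (nat_lit 258) (nat_lit 247) (nat_lit 215)) (XT.lf (nat_lit 0) (nat_lit 8424814964) (nat_lit 228) (nat_lit 3825841745) (nat_lit 304) (nat_lit 136322103) (nat_lit 21) (nat_lit 5) (nat_lit 24) (nat_lit 5) (nat_lit 25) (nat_lit 5) (nat_lit 259) (nat_lit 247) (nat_lit 214)))) (XT.nd (nat_lit 78) (nat_lit 0) (nat_lit 0) (XT.lf (nat_lit 0) (nat_lit 1025388303) (nat_lit 228) (nat_lit 199127070) (nat_lit 304) (nat_lit 11757925256) (nat_lit 17) (nat_lit 5) (nat_lit 20) (nat_lit 5) (nat_lit 21) (nat_lit 5) (nat_lit 260) (nat_lit 247) (nat_lit 213)) (XT.nd (nat_lit 78) (nat_lit 0) (nat_lit 0) (XT.lf (nat_lit 0) (nat_lit 2840229966) (nat_lit 304) (nat_lit 7129875339) (nat_lit 76) (nat_lit 3643331859) (nat_lit 17) (nat_lit 5) (nat_lit 21) (nat_lit 5) (nat_lit 18) (nat_lit 5) (nat_lit 261) (nat_lit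 247) (nat_lit 212)) (XT.lf (nat_lit 0) (nat_lit 4546686140) (nat_lit 304) (nat_lit 1972171245) (nat_lit 76) (nat_lit 7779554918) (nat_lit 17) (nat_lit 5) (nat_lit 21) (nat_lit 5) (nat_lit 18) (nat_lit 5) (nat_lit 262) (nat_lit 247) (nat_lit 211))))) (XT.nd (nat_lit 234) (nat_lit 380) (nat_lit 0) (XT.nd (nat_lit 78) (nat_lit 0) (nat_lit 0) (XT.lf (nat_lit 0) (nat_lit 3738424260) (nat_lit 152) (nat_lit 2700692151) (nat_lit 228) (nat_lit 8595499131) (nat_lit 15) (nat_lit 5) (nat_lit 17) (nat_lit 5) (nat_lit 18) (nat_lit 5) (nat_lit 263) (nat_lit 247) (nat_lit 210)) (XT.nd (nat_lit 78) (nat_lit 0) (nat_lit 0) (XT.lf (nat_lit 0) (nat_lit 8533766637) (nat_lit 228) (nat_lit 5891823254) (nat_lit 76) (nat_lit 1400417160) (nat_lit 15) (nat_lit 5) (nat_lit 18) (nat_lit 5) (nat_lit 16) (nat_lit 5) (nat_lit 264) (nat_lit 247) (nat_lit 209)) (XT.lf (nat_lit 0) (nat_lit 10830285688) (nat_lit 228)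 (nat_lit 170463405) (nat_lit 76) (nat_lit 5677548575) (nat_lit 15) (nat_lit 5) (nat_lit 18) (nat_lit 5) (nat_lit 16) (nat_lit 5) (nat_lit 265) (nat_lit 247) (nat_lit 208)))) (XT.nd (nat_lit 156) (nat_lit 228) (nat_lit 0) (XT.nd (nat_lit 78) (nat_lit 0) (nat_lit 0) (XT.lf (nat_lit 0) (nat_lit 6280942510) (nat_lit 152) (nat_lit 7147445163) (nat_lit 228) (nat_lit 4161261922) (nat_lit 13) (nat_lit 5) (nat_lit 15) (nat_lit 5) (nat_lit 16) (nat_lit 5) (nat_lit 266) (nat_lit 247) (nat_lit 207)) (XT.lf (nat_lit 0) (nat_lit 13217354171) (nat_lit 152) (nat_lit 2989926660) (nat_lit 228) (nat_lit 2369077637) (nat_lit 13) (nat_lit 5) (nat_lit 15) (nat_lit 5) (nat_lit 16) (nat_lit 5) (nat_lit 267) (nat_lit 247) (nat_lit 206))) (XT.nd (nat_lit 78) (nat_lit 76) (nat_lit 0) (XT.lf (nat_lit 0) (nat_lit 1042558846) (nat_lit 152) (nat_lit 18197509280) (nat_lit 228) (nat_lit 399672492) (nat_lit 11) (nat_lit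 5) (nat_lit 13) (nat_lit 5) (nat_lit 14) (nat_lit 4) (nat_lit 268) (nat_lit 247) (nat_lit 205)) (XT.lf (nat_lit 0) (nat_lit 1839580838) (nat_lit 228) (nat_lit 12679400227) (nat_lit 76) (nat_lit 6250218483) (nat_lit 10) (nat_lit 5) (nat_lit 13) (nat_lit 5) (nat_lit 11) (nat_lit 5) (nat_lit 269) (nat_lit 247) (nat_lit 204)))))) (XT.nd (nat_lit 546) (nat_lit 152) (nat_lit 0) (XT.nd (nat_lit 234) (nat_lit 76) (nat_lit 0) (XT.nd (nat_lit 78) (nat_lit 152) (nat_lit 0) (XT.lf (nat_lit 0) (nat_lit 4209261949) (nat_lit 228) (nat_lit 6336484400) (nat_lit 76) (nat_lit 11444816859) (nat_lit 10) (nat_lit 5) (nat_lit 13) (nat_lit 5) (nat_lit 11) (nat_lit 5) (nat_lit 270) (nat_lit 247) (nat_lit 203)) (XT.nd (nat_lit 78) (nat_lit 0) (nat_lit 0) (XT.lf (nat_lit 0) (nat_lit 503976432) (nat_lit 152) (nat_lit 6251550844) (nat_lit 228) (nat_lit 16555341352) (nat_lit 8) (nat_lit 5) (nat_lit 10) (nat_lit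 5) (nat_lit 11) (nat_lit 5) (nat_lit 271) (nat_lit 247) (nat_lit 202)) (XT.lf (nat_lit 0) (nat_lit 8217824999) (nat_lit 152) (nat_lit 1436845928) (nat_lit 228) (nat_lit 15070372503) (nat_lit 8) (nat_lit 5) (nat_lit 10) (nat_lit 5) (nat_lit 11) (nat_lit 5) (nat_lit 272) (nat_lit 247) (nat_lit 201)))) (XT.nd (nat_lit 156) (nat_lit 76) (nat_lit 0) (XT.nd (nat_lit 78) (nat_lit 0) (nat_lit 0) (XT.lf (nat_lit 0) (nat_lit 12853731041) (nat_lit 228) (nat_lit 9827471695) (nat_lit 76) (nat_lit 3565876530) (nat_lit 8) (nat_lit 5) (nat_lit 11) (nat_lit 5) (nat_lit 9) (nat_lit 4) (nat_lit 273) (nat_lit 247) (nat_lit 200)) (XT.lf (nat_lit 0) (nat_lit 16325188377) (nat_lit 228) (nat_lit 2681591669) (nat_lit 76) (nat_lit 8882933693) (nat_lit 8) (nat_lit 5) (nat_lit 11) (nat_lit 5) (nat_lit 9) (nat_lit 4) (nat_lit 274) (nat_lit 247) (nat_lit 199))) (XT.nd (nat_lit 78) (nat_lit 0) (nat_lit 0) (XT.lf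 (nat_lit 0) (nat_lit 5271000576) (nat_lit 76) (nat_lit 14910825469) (nat_lit 152) (nat_lit 9473478014) (nat_lit 7) (nat_lit 5) (nat_lit 8) (nat_lit 5) (nat_lit 9) (nat_lit 4) (nat_lit 275) (nat_lit 247) (nat_lit 198)) (XT.lf (nat_lit 0) (nat_lit 13984394655) (nat_lit 76) (nat_lit 10417374281) (nat_lit 152) (nat_lit 7156122387) (nat_lit 7) (nat_lit 5) (nat_lit 8) (nat_lit 5) (nat_lit 9) (nat_lit 4) (nat_lit 276) (nat_lit 247) (nat_lit 197))))) (XT.nd (nat_lit 234) (nat_lit 0) (nat_lit 0) (XT.nd (nat_lit 78) (nat_lit 152) (nat_lit 0) (XT.lf (nat_lit 0) (nat_lit 23369017629) (nat_lit 76) (nat_lit 5573118092) (nat_lit 152) (nat_lit 4672045473) (nat_lit 7) (nat_lit 5) (nat_lit 8) (nat_lit 5) (nat_lit 9) (nat_lit 4) (nat_lit 277) (nat_lit 247) (nat_lit 196)) (XT.nd (nat_lit 78) (nat_lit 152) (nat_lit 0) (XT.lf (nat_lit 0) (nat_lit 33480482079) (nat_lit 76) (nat_lit 349350199) (nat_lit 152)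 (nat_lit 2006526817) (nat_lit 7) (nat_lit 5) (nat_lit 8) (nat_lit 5) (nat_lit 9) (nat_lit 4) (nat_lit 278) (nat_lit 247) (nat_lit 195)) (XT.lf (nat_lit 0) (nat_lit 1100008267) (nat_lit 152) (nat_lit 31912393444) (nat_lit 76) (nat_lit 5200615501) (nat_lit 5) (nat_lit 5) (nat_lit 7) (nat_lit 5) (nat_lit 6) (nat_lit 4) (nat_lit 279) (nat_lit 247) (nat_lit 194)))) (XT.nd (nat_lit 156) (nat_lit 0) (nat_lit 0) (XT.nd (nat_lit 78) (nat_lit 0) (nat_lit 0) (XT.lf (nat_lit 0) (nat_lit 4407016021) (nat_lit 152) (nat_lit 25077433942) (nat_lit 76) (nat_lit 11286449858) (nat_lit 5) (nat_lit 5) (nat_lit 7) (nat_lit 5) (nat_lit 6) (nat_lit 4) (nat_lit 280) (nat_lit 247) (nat_lit 193)) (XT.lf (nat_lit 0) (nat_lit 7964874633) (nat_lit 152) (nat_lit 17717473796) (nat_lit 76) (nat_lit 17852244358) (nat_lit 5) (nat_lit 5) (nat_lit 7) (nat_lit 5) (nat_lit 6) (nat_lit 4) (nat_lit 281) (nat_lit 247) (nat_lit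 192))) (XT.nd (nat_lit 78) (nat_lit 0) (nat_lit 0) (XT.lf (nat_lit 0) (nat_lit 11794667708) (nat_lit 152) (nat_lit 9788898425) (nat_lit 76) (nat_lit 24936907412) (nat_lit 5) (nat_lit 5) (nat_lit 7) (nat_lit 5) (nat_lit 6) (nat_lit 4) (nat_lit 282) (nat_lit 247) (nat_lit 191)) (XT.lf (nat_lit 0) (nat_lit 15919090318) (nat_lit 152) (nat_lit 1244723681) (nat_lit 76) (nat_lit 32582422209) (nat_lit 5) (nat_lit 5) (nat_lit 7) (nat_lit 5) (nat_lit 6) (nat_lit 4) (nat_lit 283) (nat_lit 247) (nat_lit 190))))))))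
noncomputable def xc66 : XT := (XT.nd (nat_lit 2028) (nat_lit 0) (nat_lit 0) (XT.nd (nat_lit 1014) (nat_lit 152) (nat_lit 0) (XT.nd (nat_lit 468) (nat_lit 76) (nat_lit 0) (XT.nd (nat_lit 234) (nat_lit 0) (nat_lit 0) (XT.nd (nat_lit 78) (nat_lit 0) (nat_lit 0) (XT.lf (nat_lit 0) (nat_lit 8385141312) (nat_lit 76) (nat_lit 12179105023) (nat_lit 152) (nat_lit 32650617041) (nat_lit 4) (nat_lit 5) (nat_lit 5) (nat_lit 5) (nat_lit 6) (nat_lit 4) (nat_lit 284) (nat_lit 247) (nat_lit 189)) (XT.nd (nat_lit 78) (nat_lit 0) (nat_lit 0) (XT.lf (nat_lit 0) (nat_lit 18839319621) (nat_lit 76) (nat_lit 6765245489) (nat_lit 152) (nat_lit 31354592567) (nat_lit 4) (nat_lit 5) (nat_lit 5) (nat_lit 5) (nat_lit 6) (nat_lit 4) (nat_lit 285) (nat_lit 247) (nat_lit 188)) (XT.lf (nat_lit 0) (nat_lit 30114216990) (nat_lit 76) (nat_lit 924186217) (nat_lit 152) (nat_lit 29965425274) (nat_lit 4) (nat_lit 5) (nat_lit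 5) (nat_lit 5) (nat_lit 6) (nat_lit 4) (nat_lit 286) (nat_lit 247) (nat_lit 187)))) (XT.nd (nat_lit 78) (nat_lit 0) (nat_lit 0) (XT.lf (nat_lit 0) (nat_lit 37027318688) (nat_lit 152) (nat_lit 23225554123) (nat_lit 0) (nat_lit 5109622794) (nat_lit 4) (nat_lit 5) (nat_lit 6) (nat_lit 4) (nat_lit 4) (nat_lit 4) (nat_lit 287) (nat_lit 247) (nat_lit 186)) (XT.nd (nat_lit 78) (nat_lit 0) (nat_lit 0) (XT.lf (nat_lit 0) (nat_lit 43510908920) (nat_lit 152) (nat_lit 14986356814) (nat_lit 0) (nat_lit 11571393854) (nat_lit 4) (nat_lit 5) (nat_lit 6) (nat_lit 4) (nat_lit 4) (nat_lit 4) (nat_lit 288) (nat_lit 247) (nat_lit 185)) (XT.lf (nat_lit 0) (nat_lit 50505368479) (nat_lit 152) (nat_lit 6100967991) (nat_lit 0) (nat_lit 18545650475) (nat_lit 4) (nat_lit 5) (nat_lit 6) (nat_lit 4) (nat_lit 4) (nat_lit 4) (nat_lit 289) (nat_lit 247) (nat_lit 184))))) (XT.nd (nat_lit 234) (nat_lit 0) (nat_lit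 0) (XT.nd (nat_lit 78) (nat_lit 0) (nat_lit 0) (XT.lf (nat_lit 0) (nat_lit 3666689143) (nat_lit 76) (nat_lit 54473640831) (nat_lit 76) (nat_lit 22495216404) (nat_lit 3) (nat_lit 4) (nat_lit 4) (nat_lit 5) (nat_lit 4) (nat_lit 4) (nat_lit 290) (nat_lit 247) (nat_lit 183)) (XT.nd (nat_lit 78) (nat_lit 0) (nat_lit 0) (XT.lf (nat_lit 0) (nat_lit 14551044298) (nat_lit 76) (nat_lit 51994871834) (nat_lit 76) (nat_lit 19999126645) (nat_lit 3) (nat_lit 4) (nat_lit 4) (nat_lit 5) (nat_lit 4) (nat_lit 4) (nat_lit 291) (nat_lit 247) (nat_lit 182)) (XT.lf (nat_lit 0) (nat_lit 26295331193) (nat_lit 76) (nat_lit 49322151754) (nat_lit 76) (nat_lit 17310368822) (nat_lit 3) (nat_lit 4) (nat_lit 4) (nat_lit 5) (nat_lit 4) (nat_lit 4) (nat_lit 292) (nat_lit 247) (nat_lit 181)))) (XT.nd (nat_lit 156) (nat_lit 0) (nat_lit 0) (XT.nd (nat_lit 78) (nat_lit 0) (nat_lit 0) (XT.lf (nat_lit 0) (nat_lit 38969145601)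 (nat_lit 76) (nat_lit 46439642250) (nat_lit 76) (nat_lit 14413009556) (nat_lit 3) (nat_lit 4) (nat_lit 4) (nat_lit 5) (nat_lit 4) (nat_lit 4) (nat_lit 293) (nat_lit 247) (nat_lit 180)) (XT.lf (nat_lit 0) (nat_lit 52647591609) (nat_lit 76) (nat_lit 43330261784) (nat_lit 76) (nat_lit 11289879310) (nat_lit 3) (nat_lit 4) (nat_lit 4) (nat_lit 5) (nat_lit 4) (nat_lit 4) (nat_lit 294) (nat_lit 247) (nat_lit 179))) (XT.nd (nat_lit 78) (nat_lit 0) (nat_lit 0) (XT.lf (nat_lit 0) (nat_lit 67411726673) (nat_lit 76) (nat_lit 39975584398) (nat_lit 76) (nat_lit 7922470647) (nat_lit 3) (nat_lit 4) (nat_lit 4) (nat_lit 5) (nat_lit 4) (nat_lit 4) (nat_lit 295) (nat_lit 247) (nat_lit 178)) (XT.lf (nat_lit 0) (nat_lit 83349041965) (nat_lit 76) (nat_lit 36355730522) (nat_lit 76) (nat_lit 4290828551) (nat_lit 3) (nat_lit 4) (nat_lit 4) (nat_lit 5) (nat_lit 4) (nat_lit 4) (nat_lit 296) (nat_lit 247) (nat_lit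 177)))))) (XT.nd (nat_lit 468) (nat_lit 0) (nat_lit 0) (XT.nd (nat_lit 234) (nat_lit 76) (nat_lit 0) (XT.nd (nat_lit 78) (nat_lit 76) (nat_lit 0) (XT.lf (nat_lit 0) (nat_lit 100553980835) (nat_lit 76) (nat_lit 32449249170) (nat_lit 76) (nat_lit 373432180) (nat_lit 3) (nat_lit 4) (nat_lit 4) (nat_lit 5) (nat_lit 4) (nat_lit 4) (nat_lit 297) (nat_lit 247) (nat_lit 176)) (XT.nd (nat_lit 78) (nat_lit 0) (nat_lit 0) (XT.lf (nat_lit 0) (nat_lit 3660193368) (nat_lit 152) (nat_lit 24472721282) (nat_lit 76) (nat_lit 115368228934) (nat_lit 2) (nat_lit 5) (nat_lit 4) (nat_lit 5) (nat_lit 3) (nat_lit 4) (nat_lit 298) (nat_lit 247) (nat_lit 175)) (XT.lf (nat_lit 0) (nat_lit 7992443214) (nat_lit 152) (nat_lit 15470999471) (nat_lit 76) (nat_lit 130971695327) (nat_lit 2) (nat_lit 5) (nat_lit 4) (nat_lit 5) (nat_lit 3) (nat_lit 4) (nat_lit 299) (nat_lit 247) (nat_lit 174)))) (XT.nd (nat_lit 78) (nat_lit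 76) (nat_lit 0) (XT.lf (nat_lit 0) (nat_lit 12667670539) (nat_lit 152) (nat_lit 5755191328) (nat_lit 76) (nat_lit 147821296127) (nat_lit 2) (nat_lit 5) (nat_lit 4) (nat_lit 5) (nat_lit 3) (nat_lit 4) (nat_lit 300) (nat_lit 247) (nat_lit 173)) (XT.nd (nat_lit 78) (nat_lit 0) (nat_lit 0) (XT.lf (nat_lit 0) (nat_lit 4981471693) (nat_lit 76) (nat_lit 12851913214) (nat_lit 152) (nat_lit 161155213642) (nat_lit 1) (nat_lit 5) (nat_lit 2) (nat_lit 5) (nat_lit 3) (nat_lit 4) (nat_lit 301) (nat_lit 247) (nat_lit 172)) (XT.lf (nat_lit 0) (nat_lit 16898909279) (nat_lit 76) (nat_lit 6667584361) (nat_lit 152) (nat_lit 169173784991) (nat_lit 1) (nat_lit 5) (nat_lit 2) (nat_lit 5) (nat_lit 3) (nat_lit 4) (nat_lit 302) (nat_lit 247) (nat_lit 171))))) (XT.nd (nat_lit 234) (nat_lit 0) (nat_lit 0) (XT.nd (nat_lit 78) (nat_lit 0) (nat_lit 0) (XT.lf (nat_lit 0) (nat_lit 29755496110) (nat_lit 152) (nat_lit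 177827887100) (nat_lit 0) (nat_lit 8944437) (nat_lit 1) (nat_lit 5) (nat_lit 3) (nat_lit 4) (nat_lit 1) (nat_lit 4) (nat_lit 303) (nat_lit 247) (nat_lit 170)) (XT.nd (nat_lit 78) (nat_lit 0) (nat_lit 0) (XT.lf (nat_lit 0) (nat_lit 36609996013) (nat_lit 152) (nat_lit 180151380181) (nat_lit 0) (nat_lit 6857547295) (nat_lit 1) (nat_lit 5) (nat_lit 3) (nat_lit 4) (nat_lit 1) (nat_lit 4) (nat_lit 304) (nat_lit 247) (nat_lit 169)) (XT.lf (nat_lit 0) (nat_lit 44010257043) (nat_lit 152) (nat_lit 182665261880) (nat_lit 0) (nat_lit 14252348099) (nat_lit 1) (nat_lit 5) (nat_lit 3) (nat_lit 4) (nat_lit 1) (nat_lit 4) (nat_lit 305) (nat_lit 247) (nat_lit 168)))) (XT.nd (nat_lit 156) (nat_lit 0) (nat_lit 0) (XT.nd (nat_lit 78) (nat_lit 0) (nat_lit 0) (XT.lf (nat_lit 0) (nat_lit 52000132600) (nat_lit 152) (nat_lit 185384429273) (nat_lit 0) (nat_lit 22237167891) (nat_lit 1) (nat_lit 5) (nat_lit 3)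 (nat_lit 4) (nat_lit 1) (nat_lit 4) (nat_lit 306) (nat_lit 247) (nat_lit 167)) (XT.lf (nat_lit 0) (nat_lit 60626970094) (nat_lit 152) (nat_lit 188324995945) (nat_lit 0) (nat_lit 30859324120) (nat_lit 1) (nat_lit 5) (nat_lit 3) (nat_lit 4) (nat_lit 1) (nat_lit 4) (nat_lit 307) (nat_lit 247) (nat_lit 166))) (XT.nd (nat_lit 78) (nat_lit 0) (nat_lit 0) (XT.lf (nat_lit 0) (nat_lit 69941891525) (nat_lit 152) (nat_lit 191504387475) (nat_lit 0) (nat_lit 40169911047) (nat_lit 1) (nat_lit 5) (nat_lit 3) (nat_lit 4) (nat_lit 1) (nat_lit 4) (nat_lit 308) (nat_lit 247) (nat_lit 165)) (XT.lf (nat_lit 0) (nat_lit 80000096427) (nat_lit 152) (nat_lit 194941444704) (nat_lit 0) (nat_lit 50224102520) (nat_lit 1) (nat_lit 5) (nat_lit 3) (nat_lit 4) (nat_lit 1) (nat_lit 4) (nat_lit 309) (nat_lit 247) (nat_lit 164))))))) (XT.nd (nat_lit 1014) (nat_lit 0) (nat_lit 0) (XT.nd (nat_lit 468) (nat_lit 0) (nat_lit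 0) (XT.nd (nat_lit 234) (nat_lit 0) (nat_lit 0) (XT.nd (nat_lit 78) (nat_lit 0) (nat_lit 0) (XT.lf (nat_lit 0) (nat_lit 90861188978) (nat_lit 152) (nat_lit 198656535377) (nat_lit 0) (nat_lit 61081478932) (nat_lit 1) (nat_lit 5) (nat_lit 3) (nat_lit 4) (nat_lit 1) (nat_lit 4) (nat_lit 310) (nat_lit 247) (nat_lit 163)) (XT.nd (nat_lit 78) (nat_lit 0) (nat_lit 0) (XT.lf (nat_lit 0) (nat_lit 102589531208) (nat_lit 152) (nat_lit 202671674847) (nat_lit 0) (nat_lit 72806380293) (nat_lit 1) (nat_lit 5) (nat_lit 3) (nat_lit 4) (nat_lit 1) (nat_lit 4) (nat_lit 311) (nat_lit 247) (nat_lit 162)) (XT.lf (nat_lit 0) (nat_lit 115254624403) (nat_lit 152) (nat_lit 207010656532) (nat_lit 0) (nat_lit 85468287498) (nat_lit 1) (nat_lit 5) (nat_lit 3) (nat_lit 4) (nat_lit 1) (nat_lit 4) (nat_lit 312) (nat_lit 247) (nat_lit 161)))) (XT.nd (nat_lit 78) (nat_lit 0) (nat_lit 0) (XT.lf (nat_lit 0) (nat_lit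 128931520968) (nat_lit 152) (nat_lit 211699192917) (nat_lit 0) (nat_lit 99142234073) (nat_lit 1) (nat_lit 5) (nat_lit 3) (nat_lit 4) (nat_lit 1) (nat_lit 4) (nat_lit 313) (nat_lit 247) (nat_lit 160)) (XT.nd (nat_lit 78) (nat_lit 0) (nat_lit 0) (XT.lf (nat_lit 0) (nat_lit 143701269180) (nat_lit 152) (nat_lit 216765067920) (nat_lit 0) (nat_lit 113909250812) (nat_lit 1) (nat_lit 5) (nat_lit 3) (nat_lit 4) (nat_lit 1) (nat_lit 4) (nat_lit 314) (nat_lit 247) (nat_lit 159)) (XT.lf (nat_lit 0) (nat_lit 159651393470) (nat_lit 152) (nat_lit 222238301543) (nat_lit 0) (nat_lit 129856845961) (nat_lit 1) (nat_lit 5) (nat_lit 3) (nat_lit 4) (nat_lit 1) (nat_lit 4) (nat_lit 315) (nat_lit 247) (nat_lit 158))))) (XT.nd (nat_lit 234) (nat_lit 0) (nat_lit 0) (XT.nd (nat_lit 78) (nat_lit 0) (nat_lit 0) (XT.lf (nat_lit 0) (nat_lit 176876413096) (nat_lit 152) (nat_lit 228151327762) (nat_lit 0) (nat_lit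 147079523789) (nat_lit 1) (nat_lit 5) (nat_lit 3) (nat_lit 4) (nat_lit 1) (nat_lit 4) (nat_lit 316) (nat_lit 247) (nat_lit 157)) (XT.nd (nat_lit 78) (nat_lit 0) (nat_lit 0) (XT.lf (nat_lit 0) (nat_lit 195478402247) (nat_lit 152) (nat_lit 234539186732) (nat_lit 0) (nat_lit 165679344609) (nat_lit 1) (nat_lit 5) (nat_lit 3) (nat_lit 4) (nat_lit 1) (nat_lit 4) (nat_lit 317) (nat_lit 247) (nat_lit 156)) (XT.lf (nat_lit 0) (nat_lit 215567594933) (nat_lit 152) (nat_lit 241439732432) (nat_lit 0) (nat_lit 185766529581) (nat_lit 1) (nat_lit 5) (nat_lit 3) (nat_lit 4) (nat_lit 1) (nat_lit 4) (nat_lit 318) (nat_lit 247) (nat_lit 155)))) (XT.nd (nat_lit 156) (nat_lit 0) (nat_lit 0) (XT.nd (nat_lit 78) (nat_lit 0) (nat_lit 0) (XT.lf (nat_lit 0) (nat_lit 237263038221) (nat_lit 152) (nat_lit 248893856986) (nat_lit 0) (nat_lit 207460113875) (nat_lit 1) (nat_lit 5) (nat_lit 3) (nat_lit 4) (nat_lit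 1) (nat_lit 4) (nat_lit 319) (nat_lit 247) (nat_lit 154)) (XT.lf (nat_lit 0) (nat_lit 260693297703) (nat_lit 152) (nat_lit 256945732983) (nat_lit 0) (nat_lit 230888652065) (nat_lit 1) (nat_lit 5) (nat_lit 3) (nat_lit 4) (nat_lit 1) (nat_lit 4) (nat_lit 320) (nat_lit 247) (nat_lit 153))) (XT.nd (nat_lit 78) (nat_lit 0) (nat_lit 0) (XT.lf (nat_lit 0) (nat_lit 285997219358) (nat_lit 152) (nat_lit 265643075243) (nat_lit 0) (nat_lit 256190979932) (nat_lit 1) (nat_lit 5) (nat_lit 3) (nat_lit 4) (nat_lit 1) (nat_lit 4) (nat_lit 321) (nat_lit 247) (nat_lit 152)) (XT.lf (nat_lit 0) (nat_lit 313324752354) (nat_lit 152) (nat_lit 275037423573) (nat_lit 0) (nat_lit 283517037199) (nat_lit 1) (nat_lit 5) (nat_lit 3) (nat_lit 4) (nat_lit 1) (nat_lit 4) (nat_lit 322) (nat_lit 247) (nat_lit 151)))))) (XT.nd (nat_lit 546) (nat_lit 0) (nat_lit 0) (XT.nd (nat_lit 234) (nat_lit 0) (nat_lit 0) (XT.nd (nat_lit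 78) (nat_lit 0) (nat_lit 0) (XT.lf (nat_lit 0) (nat_lit 342837837627) (nat_lit 152) (nat_lit 285184448185) (nat_lit 0) (nat_lit 313028756054) (nat_lit 1) (nat_lit 5) (nat_lit 3) (nat_lit 4) (nat_lit 1) (nat_lit 4) (nat_lit 323) (nat_lit 247) (nat_lit 150)) (XT.nd (nat_lit 78) (nat_lit 0) (nat_lit 0) (XT.lf (nat_lit 0) (nat_lit 374711367532) (nat_lit 152) (nat_lit 296144279596) (nat_lit 0) (nat_lit 344901020760) (nat_lit 1) (nat_lit 5) (nat_lit 3) (nat_lit 4) (nat_lit 1) (nat_lit 4) (nat_lit 324) (nat_lit 247) (nat_lit 149)) (XT.lf (nat_lit 0) (nat_lit 409134222249) (nat_lit 152) (nat_lit 307981864954) (nat_lit 0) (nat_lit 379322703994) (nat_lit 1) (nat_lit 5) (nat_lit 3) (nat_lit 4) (nat_lit 1) (nat_lit 4) (nat_lit 325) (nat_lit 247) (nat_lit 148)))) (XT.nd (nat_lit 156) (nat_lit 0) (nat_lit 0) (XT.nd (nat_lit 78) (nat_lit 0) (nat_lit 0) (XT.lf (nat_lit 0) (nat_lit 446310389063) (nat_lit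 152) (nat_lit 320767352913) (nat_lit 0) (nat_lit 416497786103) (nat_lit 1) (nat_lit 5) (nat_lit 3) (nat_lit 4) (nat_lit 1) (nat_lit 4) (nat_lit 326) (nat_lit 247) (nat_lit 147)) (XT.lf (nat_lit 0) (nat_lit 486460171186) (nat_lit 152) (nat_lit 334576509329) (nat_lit 0) (nat_lit 456646563869) (nat_lit 1) (nat_lit 5) (nat_lit 3) (nat_lit 4) (nat_lit 1) (nat_lit 4) (nat_lit 327) (nat_lit 247) (nat_lit 146))) (XT.nd (nat_lit 78) (nat_lit 0) (nat_lit 0) (XT.lf (nat_lit 0) (nat_lit 529821493253) (nat_lit 152) (nat_lit 349491166238) (nat_lit 0) (nat_lit 500006955976) (nat_lit 1) (nat_lit 5) (nat_lit 3) (nat_lit 4) (nat_lit 1) (nat_lit 4) (nat_lit 328) (nat_lit 247) (nat_lit 145)) (XT.lf (nat_lit 0) (nat_lit 576651311245) (nat_lit 152) (nat_lit 365599706793) (nat_lit 0) (nat_lit 546835912894) (nat_lit 1) (nat_lit 5) (nat_lit 3) (nat_lit 4) (nat_lit 1) (nat_lit 4) (nat_lit 329) (nat_lit 247)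 (nat_lit 144))))) (XT.nd (nat_lit 234) (nat_lit 0) (nat_lit 0) (XT.nd (nat_lit 78) (nat_lit 0) (nat_lit 0) (XT.lf (nat_lit 0) (nat_lit 627227135196) (nat_lit 152) (nat_lit 382997589013) (nat_lit 0) (nat_lit 597410939555) (nat_lit 1) (nat_lit 5) (nat_lit 3) (nat_lit 4) (nat_lit 1) (nat_lit 4) (nat_lit 330) (nat_lit 247) (nat_lit 143)) (XT.nd (nat_lit 78) (nat_lit 0) (nat_lit 0) (XT.lf (nat_lit 0) (nat_lit 681848673693) (nat_lit 152) (nat_lit 401787911458) (nat_lit 0) (nat_lit 652031739819) (nat_lit 1) (nat_lit 5) (nat_lit 3) (nat_lit 4) (nat_lit 1) (nat_lit 4) (nat_lit 331) (nat_lit 247) (nat_lit 142)) (XT.lf (nat_lit 0) (nat_lit 740839609925) (nat_lit 152) (nat_lit 422082024187) (nat_lit 0) (nat_lit 711021992503) (nat_lit 1) (nat_lit 5) (nat_lit 3) (nat_lit 4) (nat_lit 1) (nat_lit 4) (nat_lit 332) (nat_lit 247) (nat_lit 141)))) (XT.nd (nat_lit 156) (nat_lit 0) (nat_lit 0) (XT.nd (nat_lit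 78) (nat_lit 0) (nat_lit 0) (XT.lf (nat_lit 0) (nat_lit 804549519812) (nat_lit 152) (nat_lit 444000188610) (nat_lit 0) (nat_lit 774731269474) (nat_lit 1) (nat_lit 5) (nat_lit 3) (nat_lit 4) (nat_lit 1) (nat_lit 4) (nat_lit 333) (nat_lit 247) (nat_lit 140)) (XT.lf (nat_lit 0) (nat_lit 873355943560) (nat_lit 152) (nat_lit 467672290144) (nat_lit 0) (nat_lit 843537107190) (nat_lit 1) (nat_lit 5) (nat_lit 3) (nat_lit 4) (nat_lit 1) (nat_lit 4) (nat_lit 334) (nat_lit 247) (nat_lit 139))) (XT.nd (nat_lit 78) (nat_lit 0) (nat_lit 0) (XT.lf (nat_lit 0) (nat_lit 947666622940) (nat_lit 152) (nat_lit 493238607911) (nat_lit 0) (nat_lit 917847243947) (nat_lit 1) (nat_lit 5) (nat_lit 3) (nat_lit 4) (nat_lit 1) (nat_lit 4) (nat_lit 335) (nat_lit 247) (nat_lit 138)) (XT.lf (nat_lit 0) (nat_lit 1027921917533) (nat_lit 152) (nat_lit 520850646015) (nat_lit 0) (nat_lit 998102036112) (nat_lit 1) (nat_lit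 5) (nat_lit 3) (nat_lit 4) (nat_lit 1) (nat_lit 4) (nat_lit 336) (nat_lit 247) (nat_lit 137))))))))
noncomputable def xc67 : XT := (XT.nd (nat_lit 32214) (nat_lit 0) (nat_lit 152) (XT.nd (nat_lit 31122) (nat_lit 0) (nat_lit 912) (XT.nd (nat_lit 30576) (nat_lit 0) (nat_lit 1976) (XT.nd (nat_lit 234) (nat_lit 0) (nat_lit 0) (XT.nd (nat_lit 78) (nat_lit 0) (nat_lit 0) (XT.lf (nat_lit 0) (nat_lit 1114597414270) (nat_lit 152) (nat_lit 550672031348) (nat_lit 0) (nat_lit 1084777067637) (nat_lit 1) (nat_lit 5) (nat_lit 3) (nat_lit 4) (nat_lit 1) (nat_lit 4) (nat_lit 337) (nat_lit 247) (nat_lit 136)) (XT.nd (nat_lit 78) (nat_lit 0) (nat_lit 0) (XT.lf (nat_lit 0) (nat_lit 1208206745724) (nat_lit 152) (nat_lit 582879483233) (nat_lit 0) (nat_lit 1178385968340) (nat_lit 1) (nat_lit 5) (nat_lit 3) (nat_lit 4) (nat_lit 1) (nat_lit 4) (nat_lit 338) (nat_lit 247) (nat_lit 135)) (XT.lf (nat_lit 0)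 (nat_lit 1309304633860) (nat_lit 152) (nat_lit 617663860641) (nat_lit 0) (nat_lit 1279483457632) (nat_lit 1) (nat_lit 5) (nat_lit 3) (nat_lit 4) (nat_lit 1) (nat_lit 4) (nat_lit 339) (nat_lit 247) (nat_lit 134)))) (XT.nd (nat_lit 78) (nat_lit 0) (nat_lit 0) (XT.lf (nat_lit 0) (nat_lit 1418490177274) (nat_lit 152) (nat_lit 655231293219) (nat_lit 0) (nat_lit 1388668631745) (nat_lit 1) (nat_lit 5) (nat_lit 3) (nat_lit 4) (nat_lit 1) (nat_lit 4) (nat_lit 340) (nat_lit 247) (nat_lit 133)) (XT.nd (nat_lit 78) (nat_lit 0) (nat_lit 0) (XT.lf (nat_lit 0) (nat_lit 1536410401408) (nat_lit 152) (nat_lit 695804402787) (nat_lit 0) (nat_lit 1506588513935) (nat_lit 1) (nat_lit 5) (nat_lit 3) (nat_lit 4) (nat_lit 1) (nat_lit 4) (nat_lit 341) (nat_lit 247) (nat_lit 132)) (XT.lf (nat_lit 0) (nat_lit 1663764092775) (nat_lit 152) (nat_lit 739623622588) (nat_lit 0) (nat_lit 1633941888687) (nat_lit 1) (nat_lit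 5) (nat_lit 3) (nat_lit 4) (nat_lit 1) (nat_lit 4) (nat_lit 342) (nat_lit 247) (nat_lit 131))))) (XT.nd (nat_lit 234) (nat_lit 0) (nat_lit 0) (XT.nd (nat_lit 78) (nat_lit 380) (nat_lit 0) (XT.lf (nat_lit 0) (nat_lit 3450912229) (nat_lit 380) (nat_lit 370137902) (nat_lit 380) (nat_lit 370137902) (nat_lit 32) (nat_lit 3) (nat_lit 37) (nat_lit 3) (nat_lit 37) (nat_lit 5) (nat_lit 248) (nat_lit 248) (nat_lit 224)) (XT.nd (nat_lit 78) (nat_lit 380) (nat_lit 0) (XT.lf (nat_lit 76) (nat_lit 2608052474) (nat_lit 0) (nat_lit 5484501993) (nat_lit 380) (nat_lit 540591477) (nat_lit 33) (nat_lit 5) (nat_lit 32) (nat_lit 3) (nat_lit 37) (nat_lit 5) (nat_lit 249) (nat_lit 248) (nat_lit 223)) (XT.lf (nat_lit 0) (nat_lit 381854536) (nat_lit 380) (nat_lit 2702775152) (nat_lit 456) (nat_lit 5825004031) (nat_lit 27) (nat_lit 5) (nat_lit 32) (nat_lit 3) (nat_lit 33) (nat_lit 5) (nat_lit 250) (nat_lit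 248) (nat_lit 222)))) (XT.nd (nat_lit 156) (nat_lit 0) (nat_lit 76) (XT.nd (nat_lit 78) (nat_lit 0) (nat_lit 76) (XT.lf (nat_lit 76) (nat_lit 863730620) (nat_lit 0) (nat_lit 422842167) (nat_lit 456) (nat_lit 7926503588) (nat_lit 28) (nat_lit 5) (nat_lit 27) (nat_lit 5) (nat_lit 33) (nat_lit 5) (nat_lit 251) (nat_lit 248) (nat_lit 221)) (XT.lf (nat_lit 0) (nat_lit 2321018191) (nat_lit 380) (nat_lit 4783823330) (nat_lit 456) (nat_lit 2432266589) (nat_lit 28) (nat_lit 5) (nat_lit 33) (nat_lit 5) (nat_lit 34) (nat_lit 5) (nat_lit 252) (nat_lit 248) (nat_lit 220))) (XT.nd (nat_lit 78) (nat_lit 0) (nat_lit 0) (XT.lf (nat_lit 0) (nat_lit 3377501777) (nat_lit 380) (nat_lit 997115571) (nat_lit 456) (nat_lit 5518137283) (nat_lit 28) (nat_lit 5) (nat_lit 33) (nat_lit 5) (nat_lit 34) (nat_lit 5) (nat_lit 253) (nat_lit 248) (nat_lit 219)) (XT.lf (nat_lit 76) (nat_lit 3203645982) (nat_lit 0) (nat_lit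 1325516606) (nat_lit 456) (nat_lit 5747610612) (nat_lit 29) (nat_lit 5) (nat_lit 28) (nat_lit 5) (nat_lit 34) (nat_lit 5) (nat_lit 254) (nat_lit 248) (nat_lit 218)))))) (XT.nd (nat_lit 546) (nat_lit 304) (nat_lit 0) (XT.nd (nat_lit 234) (nat_lit 532) (nat_lit 0) (XT.nd (nat_lit 78) (nat_lit 380) (nat_lit 0) (XT.lf (nat_lit 0) (nat_lit 5785976708) (nat_lit 380) (nat_lit 2994161599) (nat_lit 76) (nat_lit 1911049063) (nat_lit 29) (nat_lit 5) (nat_lit 34) (nat_lit 5) (nat_lit 30) (nat_lit 5) (nat_lit 255) (nat_lit 248) (nat_lit 217)) (XT.nd (nat_lit 78) (nat_lit 0) (nat_lit 0) (XT.lf (nat_lit 0) (nat_lit 1396575128) (nat_lit 380) (nat_lit 5757120730) (nat_lit 456) (nat_lit 3984892757) (nat_lit 24) (nat_lit 5) (nat_lit 29) (nat_lit 5) (nat_lit 30) (nat_lit 5) (nat_lit 256) (nat_lit 248) (nat_lit 216)) (XT.lf (nat_lit 0) (nat_lit 6260137239) (nat_lit 380) (nat_lit 2398003513) (nat_lit 456)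 (nat_lit 2962070190) (nat_lit 24) (nat_lit 5) (nat_lit 29) (nat_lit 5) (nat_lit 30) (nat_lit 5) (nat_lit 257) (nat_lit 248) (nat_lit 215)))) (XT.nd (nat_lit 156) (nat_lit 304) (nat_lit 0) (XT.nd (nat_lit 78) (nat_lit 228) (nat_lit 0) (XT.lf (nat_lit 0) (nat_lit 10262132938) (nat_lit 456) (nat_lit 707001816) (nat_lit 76) (nat_lit 1173461152) (nat_lit 24) (nat_lit 5) (nat_lit 30) (nat_lit 5) (nat_lit 25) (nat_lit 5) (nat_lit 258) (nat_lit 248) (nat_lit 214)) (XT.lf (nat_lit 0) (nat_lit 4431561599) (nat_lit 228) (nat_lit 7685094112) (nat_lit 304) (nat_lit 580865157) (nat_lit 21) (nat_lit 5) (nat_lit 24) (nat_lit 5) (nat_lit 25) (nat_lit 5) (nat_lit 259) (nat_lit 248) (nat_lit 213))) (XT.nd (nat_lit 78) (nat_lit 228) (nat_lit 0) (XT.lf (nat_lit 0) (nat_lit 755485758) (nat_lit 304) (nat_lit 3342015842) (nat_lit 76) (nat_lit 9200291186) (nat_lit 20) (nat_lit 5) (nat_lit 24) (nat_lit 5)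 (nat_lit 21) (nat_lit 5) (nat_lit 260) (nat_lit 248) (nat_lit 212)) (XT.lf (nat_lit 0) (nat_lit 2017364704) (nat_lit 228) (nat_lit 156022677) (nat_lit 304) (nat_lit 11771427764) (nat_lit 17) (nat_lit 5) (nat_lit 20) (nat_lit 5) (nat_lit 21) (nat_lit 5) (nat_lit 261) (nat_lit 248) (nat_lit 211))))) (XT.nd (nat_lit 234) (nat_lit 152) (nat_lit 0) (XT.nd (nat_lit 78) (nat_lit 152) (nat_lit 0) (XT.lf (nat_lit 0) (nat_lit 3856643327) (nat_lit 304) (nat_lit 6788463248) (nat_lit 76) (nat_lit 3986725640) (nat_lit 17) (nat_lit 5) (nat_lit 21) (nat_lit 5) (nat_lit 18) (nat_lit 5) (nat_lit 262) (nat_lit 248) (nat_lit 210)) (XT.nd (nat_lit 78) (nat_lit 152) (nat_lit 0) (XT.lf (nat_lit 0) (nat_lit 5641157109) (nat_lit 304) (nat_lit 1285683724) (nat_lit 76) (nat_lit 8450000082) (nat_lit 17) (nat_lit 5) (nat_lit 21) (nat_lit 5) (nat_lit 18) (nat_lit 5) (nat_lit 263) (nat_lit 248) (nat_lit 209)) (XT.lf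 (nat_lit 0) (nat_lit 4860385720) (nat_lit 152) (nat_lit 2790257948) (nat_lit 228) (nat_lit 8524561239) (nat_lit 15) (nat_lit 5) (nat_lit 17) (nat_lit 5) (nat_lit 18) (nat_lit 5) (nat_lit 264) (nat_lit 248) (nat_lit 208)))) (XT.nd (nat_lit 156) (nat_lit 0) (nat_lit 0) (XT.nd (nat_lit 78) (nat_lit 152) (nat_lit 0) (XT.lf (nat_lit 0) (nat_lit 9864097617) (nat_lit 228) (nat_lit 5546479002) (nat_lit 76) (nat_lit 1623711695) (nat_lit 15) (nat_lit 5) (nat_lit 18) (nat_lit 5) (nat_lit 16) (nat_lit 5) (nat_lit 265) (nat_lit 248) (nat_lit 207)) (XT.lf (nat_lit 0) (nat_lit 602219529) (nat_lit 152) (nat_lit 11708629490) (nat_lit 228) (nat_lit 5647035920) (nat_lit 13) (nat_lit 5) (nat_lit 15) (nat_lit 5) (nat_lit 16) (nat_lit 5) (nat_lit 266) (nat_lit 248) (nat_lit 206))) (XT.nd (nat_lit 78) (nat_lit 0) (nat_lit 0) (XT.lf (nat_lit 0) (nat_lit 7520468293) (nat_lit 152) (nat_lit 7555154513) (nat_lit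 228) (nat_lit 3870227086) (nat_lit 13) (nat_lit 5) (nat_lit 15) (nat_lit 5) (nat_lit 16) (nat_lit 5) (nat_lit 267) (nat_lit 248) (nat_lit 205)) (XT.lf (nat_lit 0) (nat_lit 14957196563) (nat_lit 152) (nat_lit 3077189067) (nat_lit 228) (nat_lit 1980885525) (nat_lit 13) (nat_lit 5) (nat_lit 15) (nat_lit 5) (nat_lit 16) (nat_lit 5) (nat_lit 268) (nat_lit 248) (nat_lit 204))))))) (XT.nd (nat_lit 1014) (nat_lit 152) (nat_lit 0) (XT.nd (nat_lit 468) (nat_lit 228) (nat_lit 0) (XT.nd (nat_lit 234) (nat_lit 152) (nat_lit 0) (XT.nd (nat_lit 78) (nat_lit 0) (nat_lit 0) (XT.lf (nat_lit 0) (nat_lit 119043092) (nat_lit 228) (nat_lit 19335021512) (nat_lit 76) (nat_lit 1711282051) (nat_lit 10) (nat_lit 5) (nat_lit 13) (nat_lit 5) (nat_lit 11) (nat_lit 5) (nat_lit 269) (nat_lit 248) (nat_lit 203)) (XT.nd (nat_lit 78) (nat_lit 0) (nat_lit 0) (XT.lf (nat_lit 0) (nat_lit 2476651647) (nat_lit 228) (nat_lit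 13008980302) (nat_lit 76) (nat_lit 6902137174) (nat_lit 10) (nat_lit 5) (nat_lit 13) (nat_lit 5) (nat_lit 11) (nat_lit 5) (nat_lit 270) (nat_lit 248) (nat_lit 202)) (XT.lf (nat_lit 0) (nat_lit 4999618036) (nat_lit 228) (nat_lit 6209355056) (nat_lit 76) (nat_lit 12501051479) (nat_lit 10) (nat_lit 5) (nat_lit 13) (nat_lit 5) (nat_lit 11) (nat_lit 5) (nat_lit 271) (nat_lit 248) (nat_lit 201)))) (XT.nd (nat_lit 78) (nat_lit 0) (nat_lit 0) (XT.lf (nat_lit 0) (nat_lit 1162290792) (nat_lit 152) (nat_lit 6568555502) (nat_lit 228) (nat_lit 17406866046) (nat_lit 8) (nat_lit 5) (nat_lit 10) (nat_lit 5) (nat_lit 11) (nat_lit 5) (nat_lit 272) (nat_lit 248) (nat_lit 200)) (XT.nd (nat_lit 78) (nat_lit 0) (nat_lit 0) (XT.lf (nat_lit 0) (nat_lit 9447469744) (nat_lit 152) (nat_lit 1382238594) (nat_lit 228) (nat_lit 15838129512) (nat_lit 8) (nat_lit 5) (nat_lit 10) (nat_lit 5) (nat_lit 11) (nat_lit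 5) (nat_lit 273) (nat_lit 248) (nat_lit 199)) (XT.lf (nat_lit 0) (nat_lit 14258642060) (nat_lit 228) (nat_lit 10055012026) (nat_lit 76) (nat_lit 4000288486) (nat_lit 8) (nat_lit 5) (nat_lit 11) (nat_lit 5) (nat_lit 9) (nat_lit 4) (nat_lit 274) (nat_lit 248) (nat_lit 198))))) (XT.nd (nat_lit 234) (nat_lit 152) (nat_lit 0) (XT.nd (nat_lit 78) (nat_lit 76) (nat_lit 0) (XT.lf (nat_lit 0) (nat_lit 17979918758) (nat_lit 228) (nat_lit 2378843628) (nat_lit 76) (nat_lit 9731662680) (nat_lit 8) (nat_lit 5) (nat_lit 11) (nat_lit 5) (nat_lit 9) (nat_lit 4) (nat_lit 275) (nat_lit 248) (nat_lit 197)) (XT.nd (nat_lit 78) (nat_lit 0) (nat_lit 0) (XT.lf (nat_lit 0) (nat_lit 6196860419) (nat_lit 76) (nat_lit 15934521794) (nat_lit 152) (nat_lit 9867167079) (nat_lit 7) (nat_lit 5) (nat_lit 8) (nat_lit 5) (nat_lit 9) (nat_lit 4) (nat_lit 276) (nat_lit 248) (nat_lit 196)) (XT.lf (nat_lit 0) (nat_lit 15569979372)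 (nat_lit 76) (nat_lit 11094125600) (nat_lit 152) (nat_lit 7391399978) (nat_lit 7) (nat_lit 5) (nat_lit 8) (nat_lit 5) (nat_lit 9) (nat_lit 4) (nat_lit 277) (nat_lit 248) (nat_lit 195)))) (XT.nd (nat_lit 156) (nat_lit 152) (nat_lit 0) (XT.nd (nat_lit 78) (nat_lit 0) (nat_lit 0) (XT.lf (nat_lit 0) (nat_lit 25670791951) (nat_lit 76) (nat_lit 5873931777) (nat_lit 152) (nat_lit 4733575593) (nat_lit 7) (nat_lit 5) (nat_lit 8) (nat_lit 5) (nat_lit 9) (nat_lit 4) (nat_lit 278) (nat_lit 248) (nat_lit 194)) (XT.lf (nat_lit 0) (nat_lit 36559154823) (nat_lit 76) (nat_lit 243005842) (nat_lit 152) (nat_lit 1877943853) (nat_lit 7) (nat_lit 5) (nat_lit 8) (nat_lit 5) (nat_lit 9) (nat_lit 4) (nat_lit 279) (nat_lit 248) (nat_lit 193))) (XT.nd (nat_lit 78) (nat_lit 0) (nat_lit 0) (XT.lf (nat_lit 0) (nat_lit 1455481126) (nat_lit 152) (nat_lit 34040151097) (nat_lit 76) (nat_lit 5751409969) (nat_lit 5)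 (nat_lit 5) (nat_lit 7) (nat_lit 5) (nat_lit 6) (nat_lit 4) (nat_lit 280) (nat_lit 248) (nat_lit 192)) (XT.lf (nat_lit 0) (nat_lit 5007236745) (nat_lit 152) (nat_lit 26689893637) (nat_lit 76) (nat_lit 12314129947) (nat_lit 5) (nat_lit 5) (nat_lit 7) (nat_lit 5) (nat_lit 6) (nat_lit 4) (nat_lit 281) (nat_lit 248) (nat_lit 191)))))) (XT.nd (nat_lit 546) (nat_lit 76) (nat_lit 0) (XT.nd (nat_lit 234) (nat_lit 76) (nat_lit 0) (XT.nd (nat_lit 78) (nat_lit 0) (nat_lit 0) (XT.lf (nat_lit 0) (nat_lit 8831378901) (nat_lit 152) (nat_lit 18770302236) (nat_lit 76) (nat_lit 19395946221) (nat_lit 5) (nat_lit 5) (nat_lit 7) (nat_lit 5) (nat_lit 6) (nat_lit 4) (nat_lit 282) (nat_lit 248) (nat_lit 190)) (XT.nd (nat_lit 78) (nat_lit 0) (nat_lit 0) (XT.lf (nat_lit 0) (nat_lit 12950569179) (nat_lit 152) (nat_lit 10234445981) (nat_lit 76) (nat_lit 27038825111) (nat_lit 5) (nat_lit 5) (nat_lit 7) (nat_lit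 5) (nat_lit 6) (nat_lit 4) (nat_lit 283) (nat_lit 248) (nat_lit 189)) (XT.lf (nat_lit 0) (nat_lit 17389217594) (nat_lit 152) (nat_lit 1031742021) (nat_lit 76) (nat_lit 35288057750) (nat_lit 5) (nat_lit 5) (nat_lit 7) (nat_lit 5) (nat_lit 6) (nat_lit 4) (nat_lit 284) (nat_lit 248) (nat_lit 188)))) (XT.nd (nat_lit 156) (nat_lit 0) (nat_lit 0) (XT.nd (nat_lit 78) (nat_lit 0) (nat_lit 0) (XT.lf (nat_lit 0) (nat_lit 9360599271) (nat_lit 76) (nat_lit 13038150614) (nat_lit 152) (nat_lit 35057051847) (nat_lit 4) (nat_lit 5) (nat_lit 5) (nat_lit 5) (nat_lit 6) (nat_lit 4) (nat_lit 285) (nat_lit 248) (nat_lit 187)) (XT.lf (nat_lit 0) (nat_lit 20628545426) (nat_lit 76) (nat_lit 7199721784) (nat_lit 152) (nat_lit 33672576123) (nat_lit 4) (nat_lit 5) (nat_lit 5) (nat_lit 5) (nat_lit 6) (nat_lit 4) (nat_lit 286) (nat_lit 248) (nat_lit 186))) (XT.nd (nat_lit 78) (nat_lit 0) (nat_lit 0) (XT.lf (nat_lit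 0) (nat_lit 32784539752) (nat_lit 76) (nat_lit 899284685) (nat_lit 152) (nat_lit 32186377955) (nat_lit 4) (nat_lit 5) (nat_lit 5) (nat_lit 5) (nat_lit 6) (nat_lit 4) (nat_lit 287) (nat_lit 248) (nat_lit 185)) (XT.lf (nat_lit 0) (nat_lit 40142028250) (nat_lit 152) (nat_lit 24831060720) (nat_lit 0) (nat_lit 5605329869) (nat_lit 4) (nat_lit 5) (nat_lit 6) (nat_lit 4) (nat_lit 4) (nat_lit 4) (nat_lit 288) (nat_lit 248) (nat_lit 184))))) (XT.nd (nat_lit 234) (nat_lit 0) (nat_lit 0) (XT.nd (nat_lit 78) (nat_lit 76) (nat_lit 0) (XT.lf (nat_lit 0) (nat_lit 47133007621) (nat_lit 152) (nat_lit 15951434125) (nat_lit 0) (nat_lit 12577602817) (nat_lit 4) (nat_lit 5) (nat_lit 6) (nat_lit 4) (nat_lit 4) (nat_lit 4) (nat_lit 289) (nat_lit 248) (nat_lit 183)) (XT.nd (nat_lit 78) (nat_lit 76) (nat_lit 0) (XT.lf (nat_lit 0) (nat_lit 54676562760) (nat_lit 152) (nat_lit 6372535027) (nat_lit 0) (nat_lit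 20103837194) (nat_lit 4) (nat_lit 5) (nat_lit 6) (nat_lit 4) (nat_lit 4) (nat_lit 4) (nat_lit 290) (nat_lit 248) (nat_lit 182)) (XT.lf (nat_lit 0) (nat_lit 4171053402) (nat_lit 76) (nat_lit 58746656748) (nat_lit 76) (nat_lit 24157893438) (nat_lit 3) (nat_lit 4) (nat_lit 4) (nat_lit 5) (nat_lit 4) (nat_lit 4) (nat_lit 291) (nat_lit 248) (nat_lit 181)))) (XT.nd (nat_lit 156) (nat_lit 0) (nat_lit 0) (XT.nd (nat_lit 78) (nat_lit 0) (nat_lit 0) (XT.lf (nat_lit 0) (nat_lit 15910525182) (nat_lit 76) (nat_lit 56075873295) (nat_lit 76) (nat_lit 21472260223) (nat_lit 3) (nat_lit 4) (nat_lit 4) (nat_lit 5) (nat_lit 4) (nat_lit 4) (nat_lit 292) (nat_lit 248) (nat_lit 180)) (XT.lf (nat_lit 0) (nat_lit 28579881151) (nat_lit 76) (nat_lit 53195156963) (nat_lit 76) (nat_lit 18577794111) (nat_lit 3) (nat_lit 4) (nat_lit 4) (nat_lit 5) (nat_lit 4) (nat_lit 4) (nat_lit 293) (nat_lit 248) (nat_lit 179)))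 (XT.nd (nat_lit 78) (nat_lit 0) (nat_lit 0) (XT.lf (nat_lit 0) (nat_lit 42254198974) (nat_lit 76) (nat_lit 50087436842) (nat_lit 76) (nat_lit 15457342713) (nat_lit 3) (nat_lit 4) (nat_lit 4) (nat_lit 5) (nat_lit 4) (nat_lit 4) (nat_lit 294) (nat_lit 248) (nat_lit 178)) (XT.lf (nat_lit 0) (nat_lit 57014511645) (nat_lit 76) (nat_lit 46734296812) (nat_lit 76) (nat_lit 12092414463) (nat_lit 3) (nat_lit 4) (nat_lit 4) (nat_lit 5) (nat_lit 4) (nat_lit 4) (nat_lit 295) (nat_lit 248) (nat_lit 177))))))))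
noncomputable def xc68 : XT := (XT.nd (nat_lit 2028) (nat_lit 0) (nat_lit 0) (XT.nd (nat_lit 1014) (nat_lit 0) (nat_lit 0) (XT.nd (nat_lit 468) (nat_lit 76) (nat_lit 0) (XT.nd (nat_lit 234) (nat_lit 76) (nat_lit 0) (XT.nd (nat_lit 78) (nat_lit 0) (nat_lit 0) (XT.lf (nat_lit 0) (nat_lit 72948287685) (nat_lit 76) (nat_lit 43115866413) (nat_lit 76) (nat_lit 8463069046) (nat_lit 3) (nat_lit 4) (nat_lit 4) (nat_lit 5) (nat_lit 4) (nat_lit 4) (nat_lit 296) (nat_lit 248) (nat_lit 176)) (XT.nd (nat_lit 78) (nat_lit 0) (nat_lit 0) (XT.lf (nat_lit 0) (nat_lit 90149949468) (nat_lit 76) (nat_lit 39210703097) (nat_lit 76) (nat_lit 4547799231) (nat_lit 3) (nat_lit 4) (nat_lit 4) (nat_lit 5) (nat_lit 4) (nat_lit 4) (nat_lit 297) (nat_lit 248) (nat_lit 175)) (XT.lf (nat_lit 0) (nat_lit 108721432770) (nat_lit 76) (nat_lit 34995665153) (nat_lit 76) (nat_lit 323403418) (nat_lit 3) (nat_lit 4) (nat_lit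 4) (nat_lit 5) (nat_lit 4) (nat_lit 4) (nat_lit 298) (nat_lit 248) (nat_lit 174)))) (XT.nd (nat_lit 78) (nat_lit 0) (nat_lit 0) (XT.lf (nat_lit 0) (nat_lit 4023292401) (nat_lit 152) (nat_lit 26312478233) (nat_lit 76) (nat_lit 124639494479) (nat_lit 2) (nat_lit 5) (nat_lit 4) (nat_lit 5) (nat_lit 3) (nat_lit 4) (nat_lit 299) (nat_lit 248) (nat_lit 173)) (XT.nd (nat_lit 78) (nat_lit 0) (nat_lit 0) (XT.lf (nat_lit 0) (nat_lit 8696916045) (nat_lit 152) (nat_lit 16599363918) (nat_lit 76) (nat_lit 141488141351) (nat_lit 2) (nat_lit 5) (nat_lit 4) (nat_lit 5) (nat_lit 3) (nat_lit 4) (nat_lit 300) (nat_lit 248) (nat_lit 172)) (XT.lf (nat_lit 0) (nat_lit 13741341010) (nat_lit 152) (nat_lit 6114388569) (nat_lit 76) (nat_lit 159682842779) (nat_lit 2) (nat_lit 5) (nat_lit 4) (nat_lit 5) (nat_lit 3) (nat_lit 4) (nat_lit 301) (nat_lit 248) (nat_lit 171))))) (XT.nd (nat_lit 234) (nat_lit 0) (nat_lit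 0) (XT.nd (nat_lit 78) (nat_lit 0) (nat_lit 0) (XT.lf (nat_lit 0) (nat_lit 5478645011) (nat_lit 76) (nat_lit 13839576717) (nat_lit 152) (nat_lit 173984535747) (nat_lit 1) (nat_lit 5) (nat_lit 2) (nat_lit 5) (nat_lit 3) (nat_lit 4) (nat_lit 302) (nat_lit 248) (nat_lit 170)) (XT.nd (nat_lit 78) (nat_lit 0) (nat_lit 0) (XT.lf (nat_lit 0) (nat_lit 18342169783) (nat_lit 76) (nat_lit 7163500781) (nat_lit 152) (nat_lit 182649266507) (nat_lit 1) (nat_lit 5) (nat_lit 2) (nat_lit 5) (nat_lit 3) (nat_lit 4) (nat_lit 303) (nat_lit 248) (nat_lit 169)) (XT.lf (nat_lit 0) (nat_lit 32186638647) (nat_lit 152) (nat_lit 191966145875) (nat_lit 0) (nat_lit 42636761) (nat_lit 1) (nat_lit 5) (nat_lit 3) (nat_lit 4) (nat_lit 1) (nat_lit 4) (nat_lit 304) (nat_lit 248) (nat_lit 168)))) (XT.nd (nat_lit 156) (nat_lit 0) (nat_lit 0) (XT.nd (nat_lit 78) (nat_lit 0) (nat_lit 0) (XT.lf (nat_lit 0) (nat_lit 39585742776)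 (nat_lit 152) (nat_lit 194482034861) (nat_lit 0) (nat_lit 7436685124) (nat_lit 1) (nat_lit 5) (nat_lit 3) (nat_lit 4) (nat_lit 1) (nat_lit 4) (nat_lit 305) (nat_lit 248) (nat_lit 167)) (XT.lf (nat_lit 0) (nat_lit 47574547127) (nat_lit 152) (nat_lit 197203060854) (nat_lit 0) (nat_lit 15420808211) (nat_lit 1) (nat_lit 5) (nat_lit 3) (nat_lit 4) (nat_lit 1) (nat_lit 4) (nat_lit 306) (nat_lit 248) (nat_lit 166))) (XT.nd (nat_lit 78) (nat_lit 0) (nat_lit 0) (XT.lf (nat_lit 0) (nat_lit 56200392764) (nat_lit 152) (nat_lit 200145348451) (nat_lit 0) (nat_lit 24042319344) (nat_lit 1) (nat_lit 5) (nat_lit 3) (nat_lit 4) (nat_lit 1) (nat_lit 4) (nat_lit 307) (nat_lit 248) (nat_lit 165)) (XT.lf (nat_lit 0) (nat_lit 65514395809) (nat_lit 152) (nat_lit 203326333432) (nat_lit 0) (nat_lit 33352308959) (nat_lit 1) (nat_lit 5) (nat_lit 3) (nat_lit 4) (nat_lit 1) (nat_lit 4) (nat_lit 308) (nat_lit 248)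 (nat_lit 164)))))) (XT.nd (nat_lit 468) (nat_lit 0) (nat_lit 0) (XT.nd (nat_lit 234) (nat_lit 0) (nat_lit 0) (XT.nd (nat_lit 78) (nat_lit 0) (nat_lit 0) (XT.lf (nat_lit 0) (nat_lit 75571750354) (nat_lit 152) (nat_lit 206764866077) (nat_lit 0) (nat_lit 43405947366) (nat_lit 1) (nat_lit 5) (nat_lit 3) (nat_lit 4) (nat_lit 1) (nat_lit 4) (nat_lit 309) (nat_lit 248) (nat_lit 163)) (XT.nd (nat_lit 78) (nat_lit 0) (nat_lit 0) (XT.lf (nat_lit 0) (nat_lit 86432055537) (nat_lit 152) (nat_lit 210481322877) (nat_lit 0) (nat_lit 54262811680) (nat_lit 1) (nat_lit 5) (nat_lit 3) (nat_lit 4) (nat_lit 1) (nat_lit 4) (nat_lit 310) (nat_lit 248) (nat_lit 162)) (XT.lf (nat_lit 0) (nat_lit 98159668722) (nat_lit 152) (nat_lit 214497727278) (nat_lit 0) (nat_lit 65987238875) (nat_lit 1) (nat_lit 5) (nat_lit 3) (nat_lit 4) (nat_lit 1) (nat_lit 4) (nat_lit 311) (nat_lit 248) (nat_lit 161)))) (XT.nd (nat_lit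 78) (nat_lit 0) (nat_lit 0) (XT.lf (nat_lit 0) (nat_lit 110824086876) (nat_lit 152) (nat_lit 218837880196) (nat_lit 0) (nat_lit 78648707038) (nat_lit 1) (nat_lit 5) (nat_lit 3) (nat_lit 4) (nat_lit 1) (nat_lit 4) (nat_lit 312) (nat_lit 248) (nat_lit 160)) (XT.nd (nat_lit 78) (nat_lit 0) (nat_lit 0) (XT.lf (nat_lit 0) (nat_lit 124500358403) (nat_lit 152) (nat_lit 223527501056) (nat_lit 0) (nat_lit 92322247093) (nat_lit 1) (nat_lit 5) (nat_lit 3) (nat_lit 4) (nat_lit 1) (nat_lit 4) (nat_lit 313) (nat_lit 248) (nat_lit 159)) (XT.lf (nat_lit 0) (nat_lit 139269527875) (nat_lit 152) (nat_lit 228594380203) (nat_lit 0) (nat_lit 107088887424) (nat_lit 1) (nat_lit 5) (nat_lit 3) (nat_lit 4) (nat_lit 1) (nat_lit 4) (nat_lit 314) (nat_lit 248) (nat_lit 158))))) (XT.nd (nat_lit 234) (nat_lit 0) (nat_lit 0) (XT.nd (nat_lit 78) (nat_lit 0) (nat_lit 0) (XT.lf (nat_lit 0) (nat_lit 155219116297) (nat_lit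 152) (nat_lit 234068543589) (nat_lit 0) (nat_lit 123036134047) (nat_lit 1) (nat_lit 5) (nat_lit 3) (nat_lit 4) (nat_lit 1) (nat_lit 4) (nat_lit 315) (nat_lit 248) (nat_lit 157)) (XT.nd (nat_lit 78) (nat_lit 0) (nat_lit 0) (XT.lf (nat_lit 0) (nat_lit 172443639747) (nat_lit 152) (nat_lit 239982430698) (nat_lit 0) (nat_lit 140258489167) (nat_lit 1) (nat_lit 5) (nat_lit 3) (nat_lit 4) (nat_lit 1) (nat_lit 4) (nat_lit 316) (nat_lit 248) (nat_lit 156)) (XT.lf (nat_lit 0) (nat_lit 191045169476) (nat_lit 152) (nat_lit 246371086790) (nat_lit 0) (nat_lit 158858011182) (nat_lit 1) (nat_lit 5) (nat_lit 3) (nat_lit 4) (nat_lit 1) (nat_lit 4) (nat_lit 317) (nat_lit 248) (nat_lit 155)))) (XT.nd (nat_lit 156) (nat_lit 0) (nat_lit 0) (XT.nd (nat_lit 78) (nat_lit 0) (nat_lit 0) (XT.lf (nat_lit 0) (nat_lit 211133936772) (nat_lit 152) (nat_lit 253272370566) (nat_lit 0) (nat_lit 178944919483) (nat_lit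 1) (nat_lit 5) (nat_lit 3) (nat_lit 4) (nat_lit 1) (nat_lit 4) (nat_lit 318) (nat_lit 248) (nat_lit 154)) (XT.lf (nat_lit 0) (nat_lit 232828986180) (nat_lit 152) (nat_lit 260727178523) (nat_lit 0) (nat_lit 200638247600) (nat_lit 1) (nat_lit 5) (nat_lit 3) (nat_lit 4) (nat_lit 1) (nat_lit 4) (nat_lit 319) (nat_lit 248) (nat_lit 153))) (XT.nd (nat_lit 78) (nat_lit 0) (nat_lit 0) (XT.lf (nat_lit 0) (nat_lit 256258880957) (nat_lit 152) (nat_lit 268779687300) (nat_lit 0) (nat_lit 224066548589) (nat_lit 1) (nat_lit 5) (nat_lit 3) (nat_lit 4) (nat_lit 1) (nat_lit 4) (nat_lit 320) (nat_lit 248) (nat_lit 152)) (XT.lf (nat_lit 0) (nat_lit 281562464925) (nat_lit 152) (nat_lit 277477615469) (nat_lit 0) (nat_lit 249368656827) (nat_lit 1) (nat_lit 5) (nat_lit 3) (nat_lit 4) (nat_lit 1) (nat_lit 4) (nat_lit 321) (nat_lit 248) (nat_lit 151))))))) (XT.nd (nat_lit 1014) (nat_lit 0) (nat_lit 0) (XT.nd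 (nat_lit 468) (nat_lit 0) (nat_lit 0) (XT.nd (nat_lit 234) (nat_lit 0) (nat_lit 0) (XT.nd (nat_lit 78) (nat_lit 0) (nat_lit 0) (XT.lf (nat_lit 0) (nat_lit 308889685246) (nat_lit 152) (nat_lit 286872506307) (nat_lit 0) (nat_lit 276694510731) (nat_lit 1) (nat_lit 5) (nat_lit 3) (nat_lit 4) (nat_lit 1) (nat_lit 4) (nat_lit 322) (nat_lit 248) (nat_lit 150)) (XT.nd (nat_lit 78) (nat_lit 0) (nat_lit 0) (XT.lf (nat_lit 0) (nat_lit 338402481004) (nat_lit 152) (nat_lit 297020033241) (nat_lit 0) (nat_lit 306206041290) (nat_lit 1) (nat_lit 5) (nat_lit 3) (nat_lit 4) (nat_lit 1) (nat_lit 4) (nat_lit 323) (nat_lit 248) (nat_lit 149)) (XT.lf (nat_lit 0) (nat_lit 370275742842) (nat_lit 152) (nat_lit 307980329764) (nat_lit 0) (nat_lit 338078131645) (nat_lit 1) (nat_lit 5) (nat_lit 3) (nat_lit 4) (nat_lit 1) (nat_lit 4) (nat_lit 324) (nat_lit 248) (nat_lit 148)))) (XT.nd (nat_lit 78) (nat_lit 0) (nat_lit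 0) (XT.lf (nat_lit 0) (nat_lit 404698349347) (nat_lit 152) (nat_lit 319818345782) (nat_lit 0) (nat_lit 372499653445) (nat_lit 1) (nat_lit 5) (nat_lit 3) (nat_lit 4) (nat_lit 1) (nat_lit 4) (nat_lit 325) (nat_lit 248) (nat_lit 147)) (XT.nd (nat_lit 78) (nat_lit 0) (nat_lit 0) (XT.lf (nat_lit 0) (nat_lit 441874286336) (nat_lit 152) (nat_lit 332604232501) (nat_lit 0) (nat_lit 409674586077) (nat_lit 1) (nat_lit 5) (nat_lit 3) (nat_lit 4) (nat_lit 1) (nat_lit 4) (nat_lit 326) (nat_lit 248) (nat_lit 146)) (XT.lf (nat_lit 0) (nat_lit 482023855658) (nat_lit 152) (nat_lit 346413758137) (nat_lit 0) (nat_lit 449823225439) (nat_lit 1) (nat_lit 5) (nat_lit 3) (nat_lit 4) (nat_lit 1) (nat_lit 4) (nat_lit 327) (nat_lit 248) (nat_lit 145))))) (XT.nd (nat_lit 234) (nat_lit 0) (nat_lit 0) (XT.nd (nat_lit 78) (nat_lit 0) (nat_lit 0) (XT.lf (nat_lit 0) (nat_lit 525384980687) (nat_lit 152) (nat_lit 361328756919)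 (nat_lit 0) (nat_lit 493183489394) (nat_lit 1) (nat_lit 5) (nat_lit 3) (nat_lit 4) (nat_lit 1) (nat_lit 4) (nat_lit 328) (nat_lit 248) (nat_lit 144)) (XT.nd (nat_lit 78) (nat_lit 0) (nat_lit 0) (XT.lf (nat_lit 0) (nat_lit 572214616237) (nat_lit 152) (nat_lit 377437614022) (nat_lit 0) (nat_lit 540012327653) (nat_lit 1) (nat_lit 5) (nat_lit 3) (nat_lit 4) (nat_lit 1) (nat_lit 4) (nat_lit 329) (nat_lit 248) (nat_lit 143)) (XT.lf (nat_lit 0) (nat_lit 622790271259) (nat_lit 152) (nat_lit 394835789341) (nat_lit 0) (nat_lit 590587244443) (nat_lit 1) (nat_lit 5) (nat_lit 3) (nat_lit 4) (nat_lit 1) (nat_lit 4) (nat_lit 330) (nat_lit 248) (nat_lit 142)))) (XT.nd (nat_lit 156) (nat_lit 0) (nat_lit 0) (XT.nd (nat_lit 78) (nat_lit 0) (nat_lit 0) (XT.lf (nat_lit 0) (nat_lit 677411653340) (nat_lit 152) (nat_lit 413626383175) (nat_lit 0) (nat_lit 645207942976) (nat_lit 1) (nat_lit 5) (nat_lit 3)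 (nat_lit 4) (nat_lit 1) (nat_lit 4) (nat_lit 331) (nat_lit 248) (nat_lit 141)) (XT.lf (nat_lit 0) (nat_lit 736402444744) (nat_lit 152) (nat_lit 433920747190) (nat_lit 0) (nat_lit 704198101464) (nat_lit 1) (nat_lit 5) (nat_lit 3) (nat_lit 4) (nat_lit 1) (nat_lit 4) (nat_lit 332) (nat_lit 248) (nat_lit 140))) (XT.nd (nat_lit 78) (nat_lit 0) (nat_lit 0) (XT.lf (nat_lit 0) (nat_lit 800112220530) (nat_lit 152) (nat_lit 455839144285) (nat_lit 0) (nat_lit 767907291218) (nat_lit 1) (nat_lit 5) (nat_lit 3) (nat_lit 4) (nat_lit 1) (nat_lit 4) (nat_lit 333) (nat_lit 248) (nat_lit 139)) (XT.lf (nat_lit 0) (nat_lit 868918520111) (nat_lit 152) (nat_lit 479511461257) (nat_lit 0) (nat_lit 836713048176) (nat_lit 1) (nat_lit 5) (nat_lit 3) (nat_lit 4) (nat_lit 1) (nat_lit 4) (nat_lit 334) (nat_lit 248) (nat_lit 138)))))) (XT.nd (nat_lit 546) (nat_lit 0) (nat_lit 0) (XT.nd (nat_lit 234) (nat_lit 0)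 (nat_lit 0) (XT.nd (nat_lit 78) (nat_lit 0) (nat_lit 0) (XT.lf (nat_lit 0) (nat_lit 943229084521) (nat_lit 152) (nat_lit 505077978502) (nat_lit 0) (nat_lit 911023110157) (nat_lit 1) (nat_lit 5) (nat_lit 3) (nat_lit 4) (nat_lit 1) (nat_lit 4) (nat_lit 335) (nat_lit 248) (nat_lit 137)) (XT.nd (nat_lit 78) (nat_lit 0) (nat_lit 0) (XT.lf (nat_lit 0) (nat_lit 1023484272660) (nat_lit 152) (nat_lit 532690201309) (nat_lit 0) (nat_lit 991277833085) (nat_lit 1) (nat_lit 5) (nat_lit 3) (nat_lit 4) (nat_lit 1) (nat_lit 4) (nat_lit 336) (nat_lit 248) (nat_lit 136)) (XT.lf (nat_lit 0) (nat_lit 1110159670829) (nat_lit 152) (nat_lit 562511757664) (nat_lit 0) (nat_lit 1077952800503) (nat_lit 1) (nat_lit 5) (nat_lit 3) (nat_lit 4) (nat_lit 1) (nat_lit 4) (nat_lit 337) (nat_lit 248) (nat_lit 135)))) (XT.nd (nat_lit 156) (nat_lit 0) (nat_lit 0) (XT.nd (nat_lit 78) (nat_lit 0) (nat_lit 0) (XT.lf (nat_lit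 0) (nat_lit 1203768911017) (nat_lit 152) (nat_lit 594719367901) (nat_lit 0) (nat_lit 1171561641846) (nat_lit 1) (nat_lit 5) (nat_lit 3) (nat_lit 4) (nat_lit 1) (nat_lit 4) (nat_lit 338) (nat_lit 248) (nat_lit 134)) (XT.lf (nat_lit 0) (nat_lit 1304866714646) (nat_lit 152) (nat_lit 629503891932) (nat_lit 0) (nat_lit 1272659076176) (nat_lit 1) (nat_lit 5) (nat_lit 3) (nat_lit 4) (nat_lit 1) (nat_lit 4) (nat_lit 339) (nat_lit 248) (nat_lit 133))) (XT.nd (nat_lit 78) (nat_lit 0) (nat_lit 0) (XT.lf (nat_lit 0) (nat_lit 1414052179813) (nat_lit 152) (nat_lit 667071460271) (nat_lit 0) (nat_lit 1381844199398) (nat_lit 1) (nat_lit 5) (nat_lit 3) (nat_lit 4) (nat_lit 1) (nat_lit 4) (nat_lit 340) (nat_lit 248) (nat_lit 132)) (XT.lf (nat_lit 0) (nat_lit 1531972331497) (nat_lit 152) (nat_lit 707644695545) (nat_lit 0) (nat_lit 1499764034467) (nat_lit 1) (nat_lit 5) (nat_lit 3) (nat_lit 4) (nat_lit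 1) (nat_lit 4) (nat_lit 341) (nat_lit 248) (nat_lit 131))))) (XT.nd (nat_lit 30420) (nat_lit 0) (nat_lit 1976) (XT.nd (nat_lit 30264) (nat_lit 0) (nat_lit 1976) (XT.lf (nat_lit 0) (nat_lit 1659325955781) (nat_lit 152) (nat_lit 751464031741) (nat_lit 0) (nat_lit 1627117365588) (nat_lit 1) (nat_lit 5) (nat_lit 3) (nat_lit 4) (nat_lit 1) (nat_lit 4) (nat_lit 342) (nat_lit 248) (nat_lit 130)) (XT.nd (nat_lit 78) (nat_lit 0) (nat_lit 0) (XT.lf (nat_lit 0) (nat_lit 53384166) (nat_lit 0) (nat_lit 53384166) (nat_lit 380) (nat_lit 4341692349) (nat_lit 27) (nat_lit 5) (nat_lit 27) (nat_lit 3) (nat_lit 32) (nat_lit 3) (nat_lit 249) (nat_lit 249) (nat_lit 222)) (XT.lf (nat_lit 0) (nat_lit 1066425109) (nat_lit 380) (nat_lit 5502673928) (nat_lit 456) (nat_lit 2607139359) (nat_lit 27) (nat_lit 5) (nat_lit 32) (nat_lit 3) (nat_lit 33) (nat_lit 5) (nat_lit 250) (nat_lit 249) (nat_lit 221)))) (XT.nd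 (nat_lit 156) (nat_lit 0) (nat_lit 76) (XT.nd (nat_lit 78) (nat_lit 0) (nat_lit 0) (XT.lf (nat_lit 0) (nat_lit 1913382458) (nat_lit 380) (nat_lit 2001973384) (nat_lit 456) (nat_lit 5569379565) (nat_lit 27) (nat_lit 5) (nat_lit 32) (nat_lit 3) (nat_lit 33) (nat_lit 5) (nat_lit 251) (nat_lit 249) (nat_lit 220)) (XT.lf (nat_lit 76) (nat_lit 1826637058) (nat_lit 0) (nat_lit 974153544) (nat_lit 456) (nat_lit 7020140891) (nat_lit 28) (nat_lit 5) (nat_lit 27) (nat_lit 5) (nat_lit 33) (nat_lit 5) (nat_lit 252) (nat_lit 249) (nat_lit 219))) (XT.nd (nat_lit 78) (nat_lit 0) (nat_lit 0) (XT.lf (nat_lit 0) (nat_lit 3801927877) (nat_lit 380) (nat_lit 4207784304) (nat_lit 456) (nat_lit 2171665177) (nat_lit 28) (nat_lit 5) (nat_lit 33) (nat_lit 5) (nat_lit 34) (nat_lit 5) (nat_lit 253) (nat_lit 249) (nat_lit 218)) (XT.lf (nat_lit 0) (nat_lit 4846987318) (nat_lit 380) (nat_lit 189158064) (nat_lit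 456) (nat_lit 5538122766) (nat_lit 28) (nat_lit 5) (nat_lit 33) (nat_lit 5) (nat_lit 34) (nat_lit 5) (nat_lit 254) (nat_lit 249) (nat_lit 217))))))))
noncomputable def xc69 : XT := (XT.nd (nat_lit 2106) (nat_lit 304) (nat_lit 0) (XT.nd (nat_lit 1014) (nat_lit 608) (nat_lit 0) (XT.nd (nat_lit 468) (nat_lit 532) (nat_lit 0) (XT.nd (nat_lit 234) (nat_lit 304) (nat_lit 0) (XT.nd (nat_lit 78) (nat_lit 304) (nat_lit 0) (XT.lf (nat_lit 76) (nat_lit 4325190318) (nat_lit 0) (nat_lit 1697564068) (nat_lit 456) (nat_lit 4972730318) (nat_lit 29) (nat_lit 5) (nat_lit 28) (nat_lit 5) (nat_lit 34) (nat_lit 5) (nat_lit 255) (nat_lit 249) (nat_lit 216)) (XT.nd (nat_lit 78) (nat_lit 380) (nat_lit 0) (XT.lf (nat_lit 0) (nat_lit 7290393119) (nat_lit 380) (nat_lit 2330842247) (nat_lit 76) (nat_lit 1829952036) (nat_lit 29) (nat_lit 5) (nat_lit 34) (nat_lit 5) (nat_lit 30) (nat_lit 5) (nat_lit 256) (nat_lit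 249) (nat_lit 215)) (XT.lf (nat_lit 0) (nat_lit 2388296399) (nat_lit 380) (nat_lit 6323246326) (nat_lit 456) (nat_lit 3228203794) (nat_lit 24) (nat_lit 5) (nat_lit 29) (nat_lit 5) (nat_lit 30) (nat_lit 5) (nat_lit 257) (nat_lit 249) (nat_lit 214)))) (XT.nd (nat_lit 78) (nat_lit 304) (nat_lit 0) (XT.lf (nat_lit 0) (nat_lit 7575758645) (nat_lit 380) (nat_lit 2687580774) (nat_lit 456) (nat_lit 2203220635) (nat_lit 24) (nat_lit 5) (nat_lit 29) (nat_lit 5) (nat_lit 30) (nat_lit 5) (nat_lit 258) (nat_lit 249) (nat_lit 213)) (XT.nd (nat_lit 78) (nat_lit 76) (nat_lit 0) (XT.lf (nat_lit 0) (nat_lit 73863321) (nat_lit 228) (nat_lit 11853791509) (nat_lit 304) (nat_lit 1109280971) (nat_lit 21) (nat_lit 5) (nat_lit 24) (nat_lit 5) (nat_lit 25) (nat_lit 5) (nat_lit 259) (nat_lit 249) (nat_lit 212)) (XT.lf (nat_lit 0) (nat_lit 233074006) (nat_lit 304) (nat_lit 8047722419) (nat_lit 76) (nat_lit 5359263108)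 (nat_lit 20) (nat_lit 5) (nat_lit 24) (nat_lit 5) (nat_lit 21) (nat_lit 5) (nat_lit 260) (nat_lit 249) (nat_lit 211))))) (XT.nd (nat_lit 234) (nat_lit 304) (nat_lit 0) (XT.nd (nat_lit 78) (nat_lit 228) (nat_lit 0) (XT.lf (nat_lit 0) (nat_lit 1583541814) (nat_lit 304) (nat_lit 2808982494) (nat_lit 76) (nat_lit 9900138201) (nat_lit 20) (nat_lit 5) (nat_lit 24) (nat_lit 5) (nat_lit 21) (nat_lit 5) (nat_lit 261) (nat_lit 249) (nat_lit 210)) (XT.nd (nat_lit 78) (nat_lit 0) (nat_lit 0) (XT.lf (nat_lit 0) (nat_lit 2958885342) (nat_lit 228) (nat_lit 117891873) (nat_lit 304) (nat_lit 11918276148) (nat_lit 17) (nat_lit 5) (nat_lit 20) (nat_lit 5) (nat_lit 21) (nat_lit 5) (nat_lit 262) (nat_lit 249) (nat_lit 209)) (XT.lf (nat_lit 0) (nat_lit 4841782272) (nat_lit 304) (nat_lit 6549816955) (nat_lit 76) (nat_lit 4350182923) (nat_lit 17) (nat_lit 5) (nat_lit 21) (nat_lit 5) (nat_lit 18) (nat_lit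 5) (nat_lit 263) (nat_lit 249) (nat_lit 208)))) (XT.nd (nat_lit 156) (nat_lit 152) (nat_lit 0) (XT.nd (nat_lit 78) (nat_lit 152) (nat_lit 0) (XT.lf (nat_lit 0) (nat_lit 6718938084) (nat_lit 304) (nat_lit 664720503) (nat_lit 76) (nat_lit 9167221599) (nat_lit 17) (nat_lit 5) (nat_lit 21) (nat_lit 5) (nat_lit 18) (nat_lit 5) (nat_lit 264) (nat_lit 249) (nat_lit 207)) (XT.lf (nat_lit 0) (nat_lit 5954709992) (nat_lit 152) (nat_lit 2905034161) (nat_lit 228) (nat_lit 8556167923) (nat_lit 15) (nat_lit 5) (nat_lit 17) (nat_lit 5) (nat_lit 18) (nat_lit 5) (nat_lit 265) (nat_lit 249) (nat_lit 206))) (XT.nd (nat_lit 78) (nat_lit 152) (nat_lit 0) (XT.lf (nat_lit 0) (nat_lit 11208463466) (nat_lit 228) (nat_lit 5290017186) (nat_lit 76) (nat_lit 1848997144) (nat_lit 15) (nat_lit 5) (nat_lit 18) (nat_lit 5) (nat_lit 16) (nat_lit 5) (nat_lit 266) (nat_lit 249) (nat_lit 205)) (XT.lf (nat_lit 0) (nat_lit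 1332851149) (nat_lit 152) (nat_lit 12493388124) (nat_lit 228) (nat_lit 5521080469) (nat_lit 13) (nat_lit 5) (nat_lit 15) (nat_lit 5) (nat_lit 16) (nat_lit 5) (nat_lit 267) (nat_lit 249) (nat_lit 204)))))) (XT.nd (nat_lit 546) (nat_lit 228) (nat_lit 0) (XT.nd (nat_lit 234) (nat_lit 152) (nat_lit 0) (XT.nd (nat_lit 78) (nat_lit 228) (nat_lit 0) (XT.lf (nat_lit 0) (nat_lit 8754007662) (nat_lit 152) (nat_lit 8018889350) (nat_lit 228) (nat_lit 3644920879) (nat_lit 13) (nat_lit 5) (nat_lit 15) (nat_lit 5) (nat_lit 16) (nat_lit 5) (nat_lit 268) (nat_lit 249) (nat_lit 203)) (XT.nd (nat_lit 78) (nat_lit 228) (nat_lit 0) (XT.lf (nat_lit 0) (nat_lit 16738866644) (nat_lit 152) (nat_lit 3193107227) (nat_lit 228) (nat_lit 1644056020) (nat_lit 13) (nat_lit 5) (nat_lit 15) (nat_lit 5) (nat_lit 16) (nat_lit 5) (nat_lit 269) (nat_lit 249) (nat_lit 202)) (XT.lf (nat_lit 0) (nat_lit 582181671) (nat_lit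 228) (nat_lit 20247775138) (nat_lit 76) (nat_lit 1988833886) (nat_lit 10) (nat_lit 5) (nat_lit 13) (nat_lit 5) (nat_lit 11) (nat_lit 5) (nat_lit 270) (nat_lit 249) (nat_lit 201)))) (XT.nd (nat_lit 156) (nat_lit 152) (nat_lit 0) (XT.nd (nat_lit 78) (nat_lit 0) (nat_lit 0) (XT.lf (nat_lit 0) (nat_lit 3094797789) (nat_lit 228) (nat_lit 13462617157) (nat_lit 76) (nat_lit 7584538954) (nat_lit 10) (nat_lit 5) (nat_lit 13) (nat_lit 5) (nat_lit 11) (nat_lit 5) (nat_lit 271) (nat_lit 249) (nat_lit 200)) (XT.lf (nat_lit 0) (nat_lit 5788489341) (nat_lit 228) (nat_lit 6162509415) (nat_lit 76) (nat_lit 13621719677) (nat_lit 10) (nat_lit 5) (nat_lit 13) (nat_lit 5) (nat_lit 11) (nat_lit 5) (nat_lit 272) (nat_lit 249) (nat_lit 199))) (XT.nd (nat_lit 78) (nat_lit 0) (nat_lit 0) (XT.lf (nat_lit 0) (nat_lit 1785106226) (nat_lit 152) (nat_lit 6937044564) (nat_lit 228) (nat_lit 18393977561) (nat_lit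 8) (nat_lit 5) (nat_lit 10) (nat_lit 5) (nat_lit 11) (nat_lit 5) (nat_lit 273) (nat_lit 249) (nat_lit 198)) (XT.lf (nat_lit 0) (nat_lit 10693852667) (nat_lit 152) (nat_lit 1347451590) (nat_lit 228) (nat_lit 16729774531) (nat_lit 8) (nat_lit 5) (nat_lit 10) (nat_lit 5) (nat_lit 11) (nat_lit 5) (nat_lit 274) (nat_lit 249) (nat_lit 197))))) (XT.nd (nat_lit 234) (nat_lit 152) (nat_lit 0) (XT.nd (nat_lit 78) (nat_lit 76) (nat_lit 0) (XT.lf (nat_lit 0) (nat_lit 15722217972) (nat_lit 228) (nat_lit 10380454307) (nat_lit 76) (nat_lit 4448176649) (nat_lit 8) (nat_lit 5) (nat_lit 11) (nat_lit 5) (nat_lit 9) (nat_lit 4) (nat_lit 275) (nat_lit 249) (nat_lit 196)) (XT.nd (nat_lit 78) (nat_lit 76) (nat_lit 0) (XT.lf (nat_lit 0) (nat_lit 19717279432) (nat_lit 228) (nat_lit 2125670858) (nat_lit 76) (nat_lit 10628589290) (nat_lit 8) (nat_lit 5) (nat_lit 11) (nat_lit 5) (nat_lit 9) (nat_lit 4) (nat_lit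 276) (nat_lit 249) (nat_lit 195)) (XT.lf (nat_lit 0) (nat_lit 7124862164) (nat_lit 76) (nat_lit 17064247775) (nat_lit 152) (nat_lit 10344306927) (nat_lit 7) (nat_lit 5) (nat_lit 8) (nat_lit 5) (nat_lit 9) (nat_lit 4) (nat_lit 277) (nat_lit 249) (nat_lit 194)))) (XT.nd (nat_lit 156) (nat_lit 152) (nat_lit 0) (XT.nd (nat_lit 78) (nat_lit 0) (nat_lit 0) (XT.lf (nat_lit 0) (nat_lit 17215811899) (nat_lit 76) (nat_lit 11847363276) (nat_lit 152) (nat_lit 7693606867) (nat_lit 7) (nat_lit 5) (nat_lit 8) (nat_lit 5) (nat_lit 9) (nat_lit 4) (nat_lit 278) (nat_lit 249) (nat_lit 193)) (XT.lf (nat_lit 0) (nat_lit 28095042508) (nat_lit 76) (nat_lit 6219501530) (nat_lit 152) (nat_lit 4844571724) (nat_lit 7) (nat_lit 5) (nat_lit 8) (nat_lit 5) (nat_lit 9) (nat_lit 4) (nat_lit 279) (nat_lit 249) (nat_lit 192))) (XT.nd (nat_lit 78) (nat_lit 152) (nat_lit 0) (XT.lf (nat_lit 0) (nat_lit 39827023506) (nat_lit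 76) (nat_lit 147312246) (nat_lit 152) (nat_lit 1780318328) (nat_lit 7) (nat_lit 5) (nat_lit 8) (nat_lit 5) (nat_lit 9) (nat_lit 4) (nat_lit 280) (nat_lit 249) (nat_lit 191)) (XT.lf (nat_lit 0) (nat_lit 1801233914) (nat_lit 152) (nat_lit 36398793721) (nat_lit 76) (nat_lit 6327045082) (nat_lit 5) (nat_lit 5) (nat_lit 7) (nat_lit 5) (nat_lit 6) (nat_lit 4) (nat_lit 281) (nat_lit 249) (nat_lit 190))))))) (XT.nd (nat_lit 1014) (nat_lit 152) (nat_lit 0) (XT.nd (nat_lit 468) (nat_lit 76) (nat_lit 0) (XT.nd (nat_lit 234) (nat_lit 76) (nat_lit 0) (XT.nd (nat_lit 78) (nat_lit 0) (nat_lit 0) (XT.lf (nat_lit 0) (nat_lit 5620143738) (nat_lit 152) (nat_lit 28487520810) (nat_lit 76) (nat_lit 13406225449) (nat_lit 5) (nat_lit 5) (nat_lit 7) (nat_lit 5) (nat_lit 6) (nat_lit 4) (nat_lit 282) (nat_lit 249) (nat_lit 189)) (XT.nd (nat_lit 78) (nat_lit 0) (nat_lit 0) (XT.lf (nat_lit 0) (nat_lit 9734489263)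 (nat_lit 152) (nat_lit 19959366861) (nat_lit 76) (nat_lit 21046663684) (nat_lit 5) (nat_lit 5) (nat_lit 7) (nat_lit 5) (nat_lit 6) (nat_lit 4) (nat_lit 283) (nat_lit 249) (nat_lit 188)) (XT.lf (nat_lit 0) (nat_lit 14168651796) (nat_lit 152) (nat_lit 10763794665) (nat_lit 76) (nat_lit 29293636458) (nat_lit 5) (nat_lit 5) (nat_lit 7) (nat_lit 5) (nat_lit 6) (nat_lit 4) (nat_lit 284) (nat_lit 249) (nat_lit 187)))) (XT.nd (nat_lit 78) (nat_lit 76) (nat_lit 0) (XT.lf (nat_lit 0) (nat_lit 18948907856) (nat_lit 152) (nat_lit 846311944) (nat_lit 76) (nat_lit 38196014720) (nat_lit 5) (nat_lit 5) (nat_lit 7) (nat_lit 5) (nat_lit 6) (nat_lit 4) (nat_lit 285) (nat_lit 249) (nat_lit 186)) (XT.nd (nat_lit 78) (nat_lit 0) (nat_lit 0) (XT.lf (nat_lit 0) (nat_lit 10370632615) (nat_lit 76) (nat_lit 13982366234) (nat_lit 152) (nat_lit 37685334654) (nat_lit 4) (nat_lit 5) (nat_lit 5) (nat_lit 5) (nat_lit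 6) (nat_lit 4) (nat_lit 286) (nat_lit 249) (nat_lit 185)) (XT.lf (nat_lit 0) (nat_lit 22520667396) (nat_lit 76) (nat_lit 7684184315) (nat_lit 152) (nat_lit 36203158749) (nat_lit 4) (nat_lit 5) (nat_lit 5) (nat_lit 5) (nat_lit 6) (nat_lit 4) (nat_lit 287) (nat_lit 249) (nat_lit 184))))) (XT.nd (nat_lit 234) (nat_lit 76) (nat_lit 0) (XT.nd (nat_lit 78) (nat_lit 0) (nat_lit 0) (XT.lf (nat_lit 0) (nat_lit 35631227318) (nat_lit 76) (nat_lit 886491152) (nat_lit 152) (nat_lit 34610155354) (nat_lit 4) (nat_lit 5) (nat_lit 5) (nat_lit 5) (nat_lit 6) (nat_lit 4) (nat_lit 288) (nat_lit 249) (nat_lit 183)) (XT.nd (nat_lit 78) (nat_lit 0) (nat_lit 0) (XT.lf (nat_lit 0) (nat_lit 43484155313) (nat_lit 152) (nat_lit 26601035175) (nat_lit 0) (nat_lit 6128290938) (nat_lit 4) (nat_lit 5) (nat_lit 6) (nat_lit 4) (nat_lit 4) (nat_lit 4) (nat_lit 289) (nat_lit 249) (nat_lit 182)) (XT.lf (nat_lit 0) (nat_lit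 51024726753) (nat_lit 152) (nat_lit 17027076260) (nat_lit 0) (nat_lit 13652824635) (nat_lit 4) (nat_lit 5) (nat_lit 6) (nat_lit 4) (nat_lit 4) (nat_lit 4) (nat_lit 290) (nat_lit 249) (nat_lit 181)))) (XT.nd (nat_lit 156) (nat_lit 0) (nat_lit 0) (XT.nd (nat_lit 78) (nat_lit 76) (nat_lit 0) (XT.lf (nat_lit 0) (nat_lit 59162797523) (nat_lit 152) (nat_lit 6696715057) (nat_lit 0) (nat_lit 21776045644) (nat_lit 4) (nat_lit 5) (nat_lit 6) (nat_lit 4) (nat_lit 4) (nat_lit 4) (nat_lit 291) (nat_lit 249) (nat_lit 180)) (XT.lf (nat_lit 0) (nat_lit 4685661136) (nat_lit 76) (nat_lit 63373622356) (nat_lit 76) (nat_lit 25973120697) (nat_lit 3) (nat_lit 4) (nat_lit 4) (nat_lit 5) (nat_lit 4) (nat_lit 4) (nat_lit 292) (nat_lit 249) (nat_lit 179))) (XT.nd (nat_lit 78) (nat_lit 0) (nat_lit 0) (XT.lf (nat_lit 0) (nat_lit 17350888921) (nat_lit 76) (nat_lit 60494566369) (nat_lit 76) (nat_lit 23081333432)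 (nat_lit 3) (nat_lit 4) (nat_lit 4) (nat_lit 5) (nat_lit 4) (nat_lit 4) (nat_lit 293) (nat_lit 249) (nat_lit 178)) (XT.lf (nat_lit 0) (nat_lit 31021384351) (nat_lit 76) (nat_lit 57388383604) (nat_lit 76) (nat_lit 19963362448) (nat_lit 3) (nat_lit 4) (nat_lit 4) (nat_lit 5) (nat_lit 4) (nat_lit 4) (nat_lit 294) (nat_lit 249) (nat_lit 177)))))) (XT.nd (nat_lit 546) (nat_lit 76) (nat_lit 0) (XT.nd (nat_lit 234) (nat_lit 76) (nat_lit 0) (XT.nd (nat_lit 78) (nat_lit 0) (nat_lit 0) (XT.lf (nat_lit 0) (nat_lit 45778157769) (nat_lit 76) (nat_lit 54036667052) (nat_lit 76) (nat_lit 16600730877) (nat_lit 3) (nat_lit 4) (nat_lit 4) (nat_lit 5) (nat_lit 4) (nat_lit 4) (nat_lit 295) (nat_lit 249) (nat_lit 176)) (XT.nd (nat_lit 78) (nat_lit 0) (nat_lit 0) (XT.lf (nat_lit 0) (nat_lit 61708656723) (nat_lit 76) (nat_lit 50419554689) (nat_lit 76) (nat_lit 12973512016) (nat_lit 3) (nat_lit 4) (nat_lit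 4) (nat_lit 5) (nat_lit 4) (nat_lit 4) (nat_lit 296) (nat_lit 249) (nat_lit 175)) (XT.lf (nat_lit 0) (nat_lit 78907284168) (nat_lit 76) (nat_lit 46515611775) (nat_lit 76) (nat_lit 9060211233) (nat_lit 3) (nat_lit 4) (nat_lit 4) (nat_lit 5) (nat_lit 4) (nat_lit 4) (nat_lit 297) (nat_lit 249) (nat_lit 174)))) (XT.nd (nat_lit 156) (nat_lit 76) (nat_lit 0) (XT.nd (nat_lit 78) (nat_lit 0) (nat_lit 0) (XT.lf (nat_lit 0) (nat_lit 97475957897) (nat_lit 76) (nat_lit 42301703834) (nat_lit 76) (nat_lit 4837638598) (nat_lit 3) (nat_lit 4) (nat_lit 4) (nat_lit 5) (nat_lit 4) (nat_lit 4) (nat_lit 298) (nat_lit 249) (nat_lit 173)) (XT.lf (nat_lit 0) (nat_lit 117524714494) (nat_lit 76) (nat_lit 37752859559) (nat_lit 76) (nat_lit 280771458) (nat_lit 3) (nat_lit 4) (nat_lit 4) (nat_lit 5) (nat_lit 4) (nat_lit 4) (nat_lit 299) (nat_lit 249) (nat_lit 172))) (XT.nd (nat_lit 78) (nat_lit 0) (nat_lit 0)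 (XT.lf (nat_lit 0) (nat_lit 4405412620) (nat_lit 152) (nat_lit 28316258427) (nat_lit 76) (nat_lit 134646496999) (nat_lit 2) (nat_lit 5) (nat_lit 4) (nat_lit 5) (nat_lit 3) (nat_lit 4) (nat_lit 300) (nat_lit 249) (nat_lit 171)) (XT.lf (nat_lit 0) (nat_lit 9448462687) (nat_lit 152) (nat_lit 17833592601) (nat_lit 76) (nat_lit 152840380587) (nat_lit 2) (nat_lit 5) (nat_lit 4) (nat_lit 5) (nat_lit 3) (nat_lit 4) (nat_lit 301) (nat_lit 249) (nat_lit 170))))) (XT.nd (nat_lit 234) (nat_lit 0) (nat_lit 0) (XT.nd (nat_lit 78) (nat_lit 76) (nat_lit 0) (XT.lf (nat_lit 0) (nat_lit 14892308808) (nat_lit 152) (nat_lit 6516761479) (nat_lit 76) (nat_lit 172488199763) (nat_lit 2) (nat_lit 5) (nat_lit 4) (nat_lit 5) (nat_lit 3) (nat_lit 4) (nat_lit 302) (nat_lit 249) (nat_lit 169)) (XT.nd (nat_lit 78) (nat_lit 0) (nat_lit 0) (XT.lf (nat_lit 0) (nat_lit 6001517873) (nat_lit 76) (nat_lit 14912029587)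 (nat_lit 152) (nat_lit 187849204826) (nat_lit 1) (nat_lit 5) (nat_lit 2) (nat_lit 5) (nat_lit 3) (nat_lit 4) (nat_lit 303) (nat_lit 249) (nat_lit 168)) (XT.lf (nat_lit 0) (nat_lit 19887859348) (nat_lit 76) (nat_lit 7704438930) (nat_lit 152) (nat_lit 197211120994) (nat_lit 1) (nat_lit 5) (nat_lit 2) (nat_lit 5) (nat_lit 3) (nat_lit 4) (nat_lit 304) (nat_lit 249) (nat_lit 167)))) (XT.nd (nat_lit 156) (nat_lit 0) (nat_lit 0) (XT.nd (nat_lit 78) (nat_lit 0) (nat_lit 0) (XT.lf (nat_lit 0) (nat_lit 34805039260) (nat_lit 152) (nat_lit 207248015569) (nat_lit 0) (nat_lit 74319966) (nat_lit 1) (nat_lit 5) (nat_lit 3) (nat_lit 4) (nat_lit 1) (nat_lit 4) (nat_lit 305) (nat_lit 249) (nat_lit 166)) (XT.lf (nat_lit 0) (nat_lit 42792851754) (nat_lit 152) (nat_lit 209970762487) (nat_lit 0) (nat_lit 8057797956) (nat_lit 1) (nat_lit 5) (nat_lit 3) (nat_lit 4) (nat_lit 1) (nat_lit 4) (nat_lit 306) (nat_lit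 249) (nat_lit 165))) (XT.nd (nat_lit 78) (nat_lit 0) (nat_lit 0) (XT.lf (nat_lit 0) (nat_lit 51417779005) (nat_lit 152) (nat_lit 212914643534) (nat_lit 0) (nat_lit 16678711778) (nat_lit 1) (nat_lit 5) (nat_lit 3) (nat_lit 4) (nat_lit 1) (nat_lit 4) (nat_lit 307) (nat_lit 249) (nat_lit 164)) (XT.lf (nat_lit 0) (nat_lit 60730931692) (nat_lit 152) (nat_lit 216097103931) (nat_lit 0) (nat_lit 25988148327) (nat_lit 1) (nat_lit 5) (nat_lit 3) (nat_lit 4) (nat_lit 1) (nat_lit 4) (nat_lit 308) (nat_lit 249) (nat_lit 163))))))))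
noncomputable def xc70 : XT := (XT.nd (nat_lit 2106) (nat_lit 0) (nat_lit 0) (XT.nd (nat_lit 1014) (nat_lit 0) (nat_lit 0) (XT.nd (nat_lit 468) (nat_lit 0) (nat_lit 0) (XT.nd (nat_lit 234) (nat_lit 0) (nat_lit 0) (XT.nd (nat_lit 78) (nat_lit 0) (nat_lit 0) (XT.lf (nat_lit 0) (nat_lit 70787498869) (nat_lit 152) (nat_lit 219537002703) (nat_lit 0) (nat_lit 36041274634) (nat_lit 1) (nat_lit 5) (nat_lit 3) (nat_lit 4) (nat_lit 1) (nat_lit 4) (nat_lit 309) (nat_lit 249) (nat_lit 162)) (XT.nd (nat_lit 78) (nat_lit 0) (nat_lit 0) (XT.lf (nat_lit 0) (nat_lit 81647075007) (nat_lit 152) (nat_lit 223254724434) (nat_lit 0) (nat_lit 46897664783) (nat_lit 1) (nat_lit 5) (nat_lit 3) (nat_lit 4) (nat_lit 1) (nat_lit 4) (nat_lit 310) (nat_lit 249) (nat_lit 161)) (XT.lf (nat_lit 0) (nat_lit 93374013151) (nat_lit 152) (nat_lit 227272300068) (nat_lit 0) (nat_lit 58621652936) (nat_lit 1) (nat_lit 5) (nat_lit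 3) (nat_lit 4) (nat_lit 1) (nat_lit 4) (nat_lit 311) (nat_lit 249) (nat_lit 160)))) (XT.nd (nat_lit 78) (nat_lit 0) (nat_lit 0) (XT.lf (nat_lit 0) (nat_lit 106037806267) (nat_lit 152) (nat_lit 231613537461) (nat_lit 0) (nat_lit 71282714579) (nat_lit 1) (nat_lit 5) (nat_lit 3) (nat_lit 4) (nat_lit 1) (nat_lit 4) (nat_lit 312) (nat_lit 249) (nat_lit 159)) (XT.nd (nat_lit 78) (nat_lit 0) (nat_lit 0) (XT.lf (nat_lit 0) (nat_lit 119713499055) (nat_lit 152) (nat_lit 236304162465) (nat_lit 0) (nat_lit 84955878226) (nat_lit 1) (nat_lit 5) (nat_lit 3) (nat_lit 4) (nat_lit 1) (nat_lit 4) (nat_lit 313) (nat_lit 249) (nat_lit 158)) (XT.lf (nat_lit 0) (nat_lit 134482132658) (nat_lit 152) (nat_lit 241371971375) (nat_lit 0) (nat_lit 99722170031) (nat_lit 1) (nat_lit 5) (nat_lit 3) (nat_lit 4) (nat_lit 1) (nat_lit 4) (nat_lit 314) (nat_lit 249) (nat_lit 157))))) (XT.nd (nat_lit 234) (nat_lit 0) (nat_lit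 0) (XT.nd (nat_lit 78) (nat_lit 0) (nat_lit 0) (XT.lf (nat_lit 0) (nat_lit 150431224904) (nat_lit 152) (nat_lit 246846995651) (nat_lit 0) (nat_lit 115669093946) (nat_lit 1) (nat_lit 5) (nat_lit 3) (nat_lit 4) (nat_lit 1) (nat_lit 4) (nat_lit 315) (nat_lit 249) (nat_lit 156)) (XT.nd (nat_lit 78) (nat_lit 0) (nat_lit 0) (XT.lf (nat_lit 0) (nat_lit 167655288933) (nat_lit 152) (nat_lit 252761679883) (nat_lit 0) (nat_lit 132891150261) (nat_lit 1) (nat_lit 5) (nat_lit 3) (nat_lit 4) (nat_lit 1) (nat_lit 4) (nat_lit 316) (nat_lit 249) (nat_lit 155)) (XT.lf (nat_lit 0) (nat_lit 186256393271) (nat_lit 152) (nat_lit 259151074050) (nat_lit 0) (nat_lit 151490395605) (nat_lit 1) (nat_lit 5) (nat_lit 3) (nat_lit 4) (nat_lit 1) (nat_lit 4) (nat_lit 317) (nat_lit 249) (nat_lit 154)))) (XT.nd (nat_lit 156) (nat_lit 0) (nat_lit 0) (XT.nd (nat_lit 78) (nat_lit 0) (nat_lit 0) (XT.lf (nat_lit 0) (nat_lit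 206344766687) (nat_lit 152) (nat_lit 266053041229) (nat_lit 0) (nat_lit 171577047729) (nat_lit 1) (nat_lit 5) (nat_lit 3) (nat_lit 4) (nat_lit 1) (nat_lit 4) (nat_lit 318) (nat_lit 249) (nat_lit 153)) (XT.lf (nat_lit 0) (nat_lit 228039451391) (nat_lit 152) (nat_lit 273508481967) (nat_lit 0) (nat_lit 193270138646) (nat_lit 1) (nat_lit 5) (nat_lit 3) (nat_lit 4) (nat_lit 1) (nat_lit 4) (nat_lit 319) (nat_lit 249) (nat_lit 152))) (XT.nd (nat_lit 78) (nat_lit 0) (nat_lit 0) (XT.lf (nat_lit 0) (nat_lit 251469008480) (nat_lit 152) (nat_lit 281561576652) (nat_lit 0) (nat_lit 216698220005) (nat_lit 1) (nat_lit 5) (nat_lit 3) (nat_lit 4) (nat_lit 1) (nat_lit 4) (nat_lit 320) (nat_lit 249) (nat_lit 151)) (XT.lf (nat_lit 0) (nat_lit 276772279773) (nat_lit 152) (nat_lit 290260047328) (nat_lit 0) (nat_lit 242000124881) (nat_lit 1) (nat_lit 5) (nat_lit 3) (nat_lit 4) (nat_lit 1) (nat_lit 4) (nat_lit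 321) (nat_lit 249) (nat_lit 150)))))) (XT.nd (nat_lit 546) (nat_lit 0) (nat_lit 0) (XT.nd (nat_lit 234) (nat_lit 0) (nat_lit 0) (XT.nd (nat_lit 78) (nat_lit 0) (nat_lit 0) (XT.lf (nat_lit 0) (nat_lit 304099210580) (nat_lit 152) (nat_lit 299655440488) (nat_lit 0) (nat_lit 269325790488) (nat_lit 1) (nat_lit 5) (nat_lit 3) (nat_lit 4) (nat_lit 1) (nat_lit 4) (nat_lit 322) (nat_lit 249) (nat_lit 149)) (XT.nd (nat_lit 78) (nat_lit 0) (nat_lit 0) (XT.lf (nat_lit 0) (nat_lit 333611738271) (nat_lit 152) (nat_lit 309803432535) (nat_lit 0) (nat_lit 298837146697) (nat_lit 1) (nat_lit 5) (nat_lit 3) (nat_lit 4) (nat_lit 1) (nat_lit 4) (nat_lit 323) (nat_lit 249) (nat_lit 148)) (XT.lf (nat_lit 0) (nat_lit 365484751897) (nat_lit 152) (nat_lit 320764159718) (nat_lit 0) (nat_lit 330709075618) (nat_lit 1) (nat_lit 5) (nat_lit 3) (nat_lit 4) (nat_lit 1) (nat_lit 4) (nat_lit 324) (nat_lit 249) (nat_lit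 147)))) (XT.nd (nat_lit 156) (nat_lit 0) (nat_lit 0) (XT.nd (nat_lit 78) (nat_lit 0) (nat_lit 0) (XT.lf (nat_lit 0) (nat_lit 399907128577) (nat_lit 152) (nat_lit 332602574495) (nat_lit 0) (nat_lit 365130447941) (nat_lit 1) (nat_lit 5) (nat_lit 3) (nat_lit 4) (nat_lit 1) (nat_lit 4) (nat_lit 325) (nat_lit 249) (nat_lit 146)) (XT.lf (nat_lit 0) (nat_lit 437082852765) (nat_lit 152) (nat_lit 345388830436) (nat_lit 0) (nat_lit 402305242169) (nat_lit 1) (nat_lit 5) (nat_lit 3) (nat_lit 4) (nat_lit 1) (nat_lit 4) (nat_lit 326) (nat_lit 249) (nat_lit 145))) (XT.nd (nat_lit 78) (nat_lit 0) (nat_lit 0) (XT.lf (nat_lit 0) (nat_lit 477232225049) (nat_lit 152) (nat_lit 359198697944) (nat_lit 0) (nat_lit 442453753378) (nat_lit 1) (nat_lit 5) (nat_lit 3) (nat_lit 4) (nat_lit 1) (nat_lit 4) (nat_lit 327) (nat_lit 249) (nat_lit 144)) (XT.lf (nat_lit 0) (nat_lit 520593167635) (nat_lit 152) (nat_lit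 374114013273) (nat_lit 0) (nat_lit 485813898673) (nat_lit 1) (nat_lit 5) (nat_lit 3) (nat_lit 4) (nat_lit 1) (nat_lit 4) (nat_lit 328) (nat_lit 249) (nat_lit 143))))) (XT.nd (nat_lit 234) (nat_lit 0) (nat_lit 0) (XT.nd (nat_lit 78) (nat_lit 0) (nat_lit 0) (XT.lf (nat_lit 0) (nat_lit 567422634256) (nat_lit 152) (nat_lit 390223163476) (nat_lit 0) (nat_lit 532642627062) (nat_lit 1) (nat_lit 5) (nat_lit 3) (nat_lit 4) (nat_lit 1) (nat_lit 4) (nat_lit 329) (nat_lit 249) (nat_lit 142)) (XT.nd (nat_lit 78) (nat_lit 0) (nat_lit 0) (XT.lf (nat_lit 0) (nat_lit 617998132864) (nat_lit 152) (nat_lit 407621610185) (nat_lit 0) (nat_lit 583217442122) (nat_lit 1) (nat_lit 5) (nat_lit 3) (nat_lit 4) (nat_lit 1) (nat_lit 4) (nat_lit 330) (nat_lit 249) (nat_lit 141)) (XT.lf (nat_lit 0) (nat_lit 672619370116) (nat_lit 152) (nat_lit 426412455304) (nat_lit 0) (nat_lit 637838046459) (nat_lit 1) (nat_lit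 5) (nat_lit 3) (nat_lit 4) (nat_lit 1) (nat_lit 4) (nat_lit 331) (nat_lit 249) (nat_lit 140)))) (XT.nd (nat_lit 156) (nat_lit 0) (nat_lit 0) (XT.nd (nat_lit 78) (nat_lit 0) (nat_lit 0) (XT.lf (nat_lit 0) (nat_lit 731610027419) (nat_lit 152) (nat_lit 446707051992) (nat_lit 0) (nat_lit 696828117729) (nat_lit 1) (nat_lit 5) (nat_lit 3) (nat_lit 4) (nat_lit 1) (nat_lit 4) (nat_lit 332) (nat_lit 249) (nat_lit 139)) (XT.lf (nat_lit 0) (nat_lit 795319679037) (nat_lit 152) (nat_lit 468625664524) (nat_lit 0) (nat_lit 760537226725) (nat_lit 1) (nat_lit 5) (nat_lit 3) (nat_lit 4) (nat_lit 1) (nat_lit 4) (nat_lit 333) (nat_lit 249) (nat_lit 138))) (XT.nd (nat_lit 78) (nat_lit 0) (nat_lit 0) (XT.lf (nat_lit 0) (nat_lit 864125863648) (nat_lit 152) (nat_lit 492298180974) (nat_lit 0) (nat_lit 829342908907) (nat_lit 1) (nat_lit 5) (nat_lit 3) (nat_lit 4) (nat_lit 1) (nat_lit 4) (nat_lit 334) (nat_lit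 249) (nat_lit 137)) (XT.lf (nat_lit 0) (nat_lit 938436321605) (nat_lit 152) (nat_lit 517864882922) (nat_lit 0) (nat_lit 903652901652) (nat_lit 1) (nat_lit 5) (nat_lit 3) (nat_lit 4) (nat_lit 1) (nat_lit 4) (nat_lit 335) (nat_lit 249) (nat_lit 136))))))) (XT.nd (nat_lit 31278) (nat_lit 0) (nat_lit 912) (XT.nd (nat_lit 468) (nat_lit 0) (nat_lit 0) (XT.nd (nat_lit 234) (nat_lit 0) (nat_lit 0) (XT.nd (nat_lit 78) (nat_lit 0) (nat_lit 0) (XT.lf (nat_lit 0) (nat_lit 1018691411176) (nat_lit 152) (nat_lit 545477276750) (nat_lit 0) (nat_lit 983907560472) (nat_lit 1) (nat_lit 5) (nat_lit 3) (nat_lit 4) (nat_lit 1) (nat_lit 4) (nat_lit 336) (nat_lit 249) (nat_lit 135)) (XT.nd (nat_lit 78) (nat_lit 0) (nat_lit 0) (XT.lf (nat_lit 0) (nat_lit 1105366718078) (nat_lit 152) (nat_lit 575298991458) (nat_lit 0) (nat_lit 1070582468530) (nat_lit 1) (nat_lit 5) (nat_lit 3) (nat_lit 4) (nat_lit 1) (nat_lit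 4) (nat_lit 337) (nat_lit 249) (nat_lit 134)) (XT.lf (nat_lit 0) (nat_lit 1198975873760) (nat_lit 152) (nat_lit 607506748318) (nat_lit 0) (nat_lit 1164191254911) (nat_lit 1) (nat_lit 5) (nat_lit 3) (nat_lit 4) (nat_lit 1) (nat_lit 4) (nat_lit 338) (nat_lit 249) (nat_lit 133)))) (XT.nd (nat_lit 78) (nat_lit 0) (nat_lit 0) (XT.lf (nat_lit 0) (nat_lit 1300073599143) (nat_lit 152) (nat_lit 642291408111) (nat_lit 0) (nat_lit 1265288638350) (nat_lit 1) (nat_lit 5) (nat_lit 3) (nat_lit 4) (nat_lit 1) (nat_lit 4) (nat_lit 339) (nat_lit 249) (nat_lit 132)) (XT.nd (nat_lit 78) (nat_lit 0) (nat_lit 0) (XT.lf (nat_lit 0) (nat_lit 1409258991859) (nat_lit 152) (nat_lit 679859102156) (nat_lit 0) (nat_lit 1374473714452) (nat_lit 1) (nat_lit 5) (nat_lit 3) (nat_lit 4) (nat_lit 1) (nat_lit 4) (nat_lit 340) (nat_lit 249) (nat_lit 131)) (XT.lf (nat_lit 0) (nat_lit 1527179076459) (nat_lit 152) (nat_lit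 720432453824) (nat_lit 0) (nat_lit 1492393505889) (nat_lit 1) (nat_lit 5) (nat_lit 3) (nat_lit 4) (nat_lit 1) (nat_lit 4) (nat_lit 341) (nat_lit 249) (nat_lit 130))))) (XT.nd (nat_lit 30498) (nat_lit 0) (nat_lit 1976) (XT.nd (nat_lit 30342) (nat_lit 0) (nat_lit 1976) (XT.lf (nat_lit 0) (nat_lit 1654532638628) (nat_lit 152) (nat_lit 764251897791) (nat_lit 0) (nat_lit 1619746796612) (nat_lit 1) (nat_lit 5) (nat_lit 3) (nat_lit 4) (nat_lit 1) (nat_lit 4) (nat_lit 342) (nat_lit 249) (nat_lit 129)) (XT.nd (nat_lit 78) (nat_lit 0) (nat_lit 0) (XT.lf (nat_lit 0) (nat_lit 437467035) (nat_lit 0) (nat_lit 437467035) (nat_lit 380) (nat_lit 3859838202) (nat_lit 27) (nat_lit 5) (nat_lit 27) (nat_lit 3) (nat_lit 32) (nat_lit 3) (nat_lit 250) (nat_lit 250) (nat_lit 220)) (XT.lf (nat_lit 0) (nat_lit 2541535006) (nat_lit 380) (nat_lit 5093791750) (nat_lit 456) (nat_lit 2147539408) (nat_lit 27) (nat_lit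 5) (nat_lit 32) (nat_lit 3) (nat_lit 33) (nat_lit 5) (nat_lit 251) (nat_lit 250) (nat_lit 219)))) (XT.nd (nat_lit 156) (nat_lit 0) (nat_lit 76) (XT.nd (nat_lit 78) (nat_lit 0) (nat_lit 0) (XT.lf (nat_lit 0) (nat_lit 3353301100) (nat_lit 380) (nat_lit 1375931169) (nat_lit 456) (nat_lit 5396252986) (nat_lit 27) (nat_lit 5) (nat_lit 32) (nat_lit 3) (nat_lit 33) (nat_lit 5) (nat_lit 252) (nat_lit 250) (nat_lit 218)) (XT.lf (nat_lit 76) (nat_lit 2739064309) (nat_lit 0) (nat_lit 1495744953) (nat_lit 456) (nat_lit 6261036297) (nat_lit 28) (nat_lit 5) (nat_lit 27) (nat_lit 5) (nat_lit 33) (nat_lit 5) (nat_lit 253) (nat_lit 250) (nat_lit 217))) (XT.nd (nat_lit 78) (nat_lit 0) (nat_lit 0) (XT.lf (nat_lit 0) (nat_lit 5216531550) (nat_lit 380) (nat_lit 3722437833) (nat_lit 456) (nat_lit 1955152559) (nat_lit 28) (nat_lit 5) (nat_lit 33) (nat_lit 5) (nat_lit 34) (nat_lit 5) (nat_lit 254) (nat_lit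 250) (nat_lit 216)) (XT.lf (nat_lit 76) (nat_lit 586111571) (nat_lit 0) (nat_lit 5690924658) (nat_lit 456) (nat_lit 5047818280) (nat_lit 29) (nat_lit 5) (nat_lit 28) (nat_lit 5) (nat_lit 34) (nat_lit 5) (nat_lit 255) (nat_lit 250) (nat_lit 215)))))) (XT.nd (nat_lit 546) (nat_lit 532) (nat_lit 0) (XT.nd (nat_lit 234) (nat_lit 304) (nat_lit 0) (XT.nd (nat_lit 78) (nat_lit 304) (nat_lit 0) (XT.lf (nat_lit 76) (nat_lit 5413020236) (nat_lit 0) (nat_lit 2061426577) (nat_lit 456) (nat_lit 4312001811) (nat_lit 29) (nat_lit 5) (nat_lit 28) (nat_lit 5) (nat_lit 34) (nat_lit 5) (nat_lit 256) (nat_lit 250) (nat_lit 214)) (XT.nd (nat_lit 78) (nat_lit 380) (nat_lit 0) (XT.lf (nat_lit 0) (nat_lit 8766575764) (nat_lit 380) (nat_lit 1743259317) (nat_lit 76) (nat_lit 1775747245) (nat_lit 29) (nat_lit 5) (nat_lit 34) (nat_lit 5) (nat_lit 30) (nat_lit 5) (nat_lit 257) (nat_lit 250) (nat_lit 213)) (XT.lf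 (nat_lit 0) (nat_lit 3333814210) (nat_lit 380) (nat_lit 6919603235) (nat_lit 456) (nat_lit 2564409013) (nat_lit 24) (nat_lit 5) (nat_lit 29) (nat_lit 5) (nat_lit 30) (nat_lit 5) (nat_lit 258) (nat_lit 250) (nat_lit 212)))) (XT.nd (nat_lit 156) (nat_lit 76) (nat_lit 0) (XT.nd (nat_lit 78) (nat_lit 228) (nat_lit 0) (XT.lf (nat_lit 0) (nat_lit 8880387946) (nat_lit 380) (nat_lit 2986380942) (nat_lit 456) (nat_lit 1525727282) (nat_lit 24) (nat_lit 5) (nat_lit 29) (nat_lit 5) (nat_lit 30) (nat_lit 5) (nat_lit 259) (nat_lit 250) (nat_lit 211)) (XT.lf (nat_lit 0) (nat_lit 832201316) (nat_lit 228) (nat_lit 12790305423) (nat_lit 304) (nat_lit 389984892) (nat_lit 21) (nat_lit 5) (nat_lit 24) (nat_lit 5) (nat_lit 25) (nat_lit 5) (nat_lit 260) (nat_lit 250) (nat_lit 210))) (XT.nd (nat_lit 78) (nat_lit 0) (nat_lit 0) (XT.lf (nat_lit 0) (nat_lit 962476589) (nat_lit 304) (nat_lit 7950434086) (nat_lit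 76) (nat_lit 5754507601) (nat_lit 20) (nat_lit 5) (nat_lit 24) (nat_lit 5) (nat_lit 21) (nat_lit 5) (nat_lit 261) (nat_lit 250) (nat_lit 209)) (XT.lf (nat_lit 0) (nat_lit 2368333180) (nat_lit 304) (nat_lit 2347491717) (nat_lit 76) (nat_lit 10661133927) (nat_lit 20) (nat_lit 5) (nat_lit 24) (nat_lit 5) (nat_lit 21) (nat_lit 5) (nat_lit 262) (nat_lit 250) (nat_lit 208))))) (XT.nd (nat_lit 234) (nat_lit 304) (nat_lit 0) (XT.nd (nat_lit 78) (nat_lit 0) (nat_lit 0) (XT.lf (nat_lit 0) (nat_lit 3864433156) (nat_lit 228) (nat_lit 83931060) (nat_lit 304) (nat_lit 12190268901) (nat_lit 17) (nat_lit 5) (nat_lit 20) (nat_lit 5) (nat_lit 21) (nat_lit 5) (nat_lit 263) (nat_lit 250) (nat_lit 207)) (XT.nd (nat_lit 78) (nat_lit 0) (nat_lit 0) (XT.lf (nat_lit 0) (nat_lit 5809206712) (nat_lit 304) (nat_lit 6403600534) (nat_lit 76) (nat_lit 4736365623) (nat_lit 17) (nat_lit 5) (nat_lit 21) (nat_lit 5)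 (nat_lit 18) (nat_lit 5) (nat_lit 264) (nat_lit 250) (nat_lit 206)) (XT.lf (nat_lit 0) (nat_lit 7793565962) (nat_lit 304) (nat_lit 97340942) (nat_lit 76) (nat_lit 9935940129) (nat_lit 17) (nat_lit 5) (nat_lit 21) (nat_lit 5) (nat_lit 18) (nat_lit 5) (nat_lit 265) (nat_lit 250) (nat_lit 205)))) (XT.nd (nat_lit 156) (nat_lit 152) (nat_lit 0) (XT.nd (nat_lit 78) (nat_lit 0) (nat_lit 0) (XT.lf (nat_lit 0) (nat_lit 7035933683) (nat_lit 152) (nat_lit 3044463279) (nat_lit 228) (nat_lit 8683084012) (nat_lit 15) (nat_lit 5) (nat_lit 17) (nat_lit 5) (nat_lit 18) (nat_lit 5) (nat_lit 266) (nat_lit 250) (nat_lit 204)) (XT.lf (nat_lit 0) (nat_lit 12581167669) (nat_lit 228) (nat_lit 5112926948) (nat_lit 76) (nat_lit 2078697191) (nat_lit 15) (nat_lit 5) (nat_lit 18) (nat_lit 5) (nat_lit 16) (nat_lit 5) (nat_lit 267) (nat_lit 250) (nat_lit 203))) (XT.nd (nat_lit 78) (nat_lit 0) (nat_lit 0) (XT.lf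 (nat_lit 0) (nat_lit 2024573598) (nat_lit 152) (nat_lit 13362602208) (nat_lit 228) (nat_lit 5467466561) (nat_lit 13) (nat_lit 5) (nat_lit 15) (nat_lit 5) (nat_lit 16) (nat_lit 5) (nat_lit 268) (nat_lit 250) (nat_lit 202)) (XT.lf (nat_lit 0) (nat_lit 9996082308) (nat_lit 152) (nat_lit 8539792196) (nat_lit 228) (nat_lit 3477903118) (nat_lit 13) (nat_lit 5) (nat_lit 15) (nat_lit 5) (nat_lit 16) (nat_lit 5) (nat_lit 269) (nat_lit 250) (nat_lit 201))))))))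
noncomputable def xc71 : XT := (XT.nd (nat_lit 2106) (nat_lit 152) (nat_lit 0) (XT.nd (nat_lit 1014) (nat_lit 152) (nat_lit 0) (XT.nd (nat_lit 468) (nat_lit 228) (nat_lit 0) (XT.nd (nat_lit 234) (nat_lit 152) (nat_lit 0) (XT.nd (nat_lit 78) (nat_lit 228) (nat_lit 0) (XT.lf (nat_lit 0) (nat_lit 18579600081) (nat_lit 152) (nat_lit 3336881451) (nat_lit 228) (nat_lit 1350940288) (nat_lit 13) (nat_lit 5) (nat_lit 15) (nat_lit 5) (nat_lit 16) (nat_lit 5) (nat_lit 270) (nat_lit 250) (nat_lit 200)) (XT.nd (nat_lit 78) (nat_lit 0) (nat_lit 0) (XT.lf (nat_lit 0) (nat_lit 1017658067) (nat_lit 228) (nat_lit 21324003104) (nat_lit 76) (nat_lit 2268524676) (nat_lit 10) (nat_lit 5) (nat_lit 13) (nat_lit 5) (nat_lit 11) (nat_lit 5) (nat_lit 271) (nat_lit 250) (nat_lit 199)) (XT.lf (nat_lit 0) (nat_lit 3702475929) (nat_lit 228) (nat_lit 14036298709) (nat_lit 76) (nat_lit 8302953996) (nat_lit 10) (nat_lit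 5) (nat_lit 13) (nat_lit 5) (nat_lit 11) (nat_lit 5) (nat_lit 272) (nat_lit 250) (nat_lit 198)))) (XT.nd (nat_lit 78) (nat_lit 152) (nat_lit 0) (XT.lf (nat_lit 0) (nat_lit 6584989152) (nat_lit 228) (nat_lit 6189465890) (nat_lit 76) (nat_lit 14814838664) (nat_lit 10) (nat_lit 5) (nat_lit 13) (nat_lit 5) (nat_lit 11) (nat_lit 5) (nat_lit 273) (nat_lit 250) (nat_lit 197)) (XT.nd (nat_lit 78) (nat_lit 0) (nat_lit 0) (XT.lf (nat_lit 0) (nat_lit 2382160413) (nat_lit 152) (nat_lit 7357409896) (nat_lit 228) (nat_lit 19517898227) (nat_lit 8) (nat_lit 5) (nat_lit 10) (nat_lit 5) (nat_lit 11) (nat_lit 5) (nat_lit 274) (nat_lit 250) (nat_lit 196)) (XT.lf (nat_lit 0) (nat_lit 11969958741) (nat_lit 152) (nat_lit 1330619724) (nat_lit 228) (nat_lit 17746306921) (nat_lit 8) (nat_lit 5) (nat_lit 10) (nat_lit 5) (nat_lit 11) (nat_lit 5) (nat_lit 275) (nat_lit 250) (nat_lit 195))))) (XT.nd (nat_lit 234)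 (nat_lit 152) (nat_lit 0) (XT.nd (nat_lit 78) (nat_lit 76) (nat_lit 0) (XT.lf (nat_lit 0) (nat_lit 17256816866) (nat_lit 228) (nat_lit 10800260781) (nat_lit 76) (nat_lit 4913654481) (nat_lit 8) (nat_lit 5) (nat_lit 11) (nat_lit 5) (nat_lit 9) (nat_lit 4) (nat_lit 276) (nat_lit 250) (nat_lit 194)) (XT.nd (nat_lit 78) (nat_lit 76) (nat_lit 0) (XT.lf (nat_lit 0) (nat_lit 21550977950) (nat_lit 228) (nat_lit 1915511684) (nat_lit 76) (nat_lit 11580379860) (nat_lit 8) (nat_lit 5) (nat_lit 11) (nat_lit 5) (nat_lit 9) (nat_lit 4) (nat_lit 277) (nat_lit 250) (nat_lit 193)) (XT.lf (nat_lit 0) (nat_lit 8065438338) (nat_lit 76) (nat_lit 18305042808) (nat_lit 152) (nat_lit 10904161565) (nat_lit 7) (nat_lit 5) (nat_lit 8) (nat_lit 5) (nat_lit 9) (nat_lit 4) (nat_lit 278) (nat_lit 250) (nat_lit 192)))) (XT.nd (nat_lit 156) (nat_lit 152) (nat_lit 0) (XT.nd (nat_lit 78) (nat_lit 0) (nat_lit 0) (XT.lf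 (nat_lit 0) (nat_lit 18936213149) (nat_lit 76) (nat_lit 12680018274) (nat_lit 152) (nat_lit 8061234383) (nat_lit 7) (nat_lit 5) (nat_lit 8) (nat_lit 5) (nat_lit 9) (nat_lit 4) (nat_lit 279) (nat_lit 250) (nat_lit 191)) (XT.lf (nat_lit 0) (nat_lit 30660364703) (nat_lit 76) (nat_lit 6610456038) (nat_lit 152) (nat_lit 5002636505) (nat_lit 7) (nat_lit 5) (nat_lit 8) (nat_lit 5) (nat_lit 9) (nat_lit 4) (nat_lit 280) (nat_lit 250) (nat_lit 190))) (XT.nd (nat_lit 78) (nat_lit 152) (nat_lit 0) (XT.lf (nat_lit 0) (nat_lit 43307369455) (nat_lit 76) (nat_lit 60388323) (nat_lit 152) (nat_lit 1710242908) (nat_lit 7) (nat_lit 5) (nat_lit 8) (nat_lit 5) (nat_lit 9) (nat_lit 4) (nat_lit 281) (nat_lit 250) (nat_lit 189)) (XT.lf (nat_lit 0) (nat_lit 2141932677) (nat_lit 152) (nat_lit 38998137665) (nat_lit 76) (nat_lit 6932250453) (nat_lit 5) (nat_lit 5) (nat_lit 7) (nat_lit 5) (nat_lit 6) (nat_lit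 4) (nat_lit 282) (nat_lit 250) (nat_lit 188)))))) (XT.nd (nat_lit 546) (nat_lit 76) (nat_lit 0) (XT.nd (nat_lit 234) (nat_lit 76) (nat_lit 0) (XT.nd (nat_lit 78) (nat_lit 0) (nat_lit 0) (XT.lf (nat_lit 0) (nat_lit 6251792321) (nat_lit 152) (nat_lit 30477115480) (nat_lit 76) (nat_lit 14570428823) (nat_lit 5) (nat_lit 5) (nat_lit 7) (nat_lit 5) (nat_lit 6) (nat_lit 4) (nat_lit 283) (nat_lit 250) (nat_lit 187)) (XT.nd (nat_lit 78) (nat_lit 0) (nat_lit 0) (XT.lf (nat_lit 0) (nat_lit 10681801259) (nat_lit 152) (nat_lit 21288146770) (nat_lit 76) (nat_lit 22815309129) (nat_lit 5) (nat_lit 5) (nat_lit 7) (nat_lit 5) (nat_lit 6) (nat_lit 4) (nat_lit 284) (nat_lit 250) (nat_lit 186)) (XT.lf (nat_lit 0) (nat_lit 15458211398) (nat_lit 152) (nat_lit 11376778387) (nat_lit 76) (nat_lit 31715749921) (nat_lit 5) (nat_lit 5) (nat_lit 7) (nat_lit 5) (nat_lit 6) (nat_lit 4) (nat_lit 285) (nat_lit 250)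 (nat_lit 185)))) (XT.nd (nat_lit 156) (nat_lit 0) (nat_lit 0) (XT.nd (nat_lit 78) (nat_lit 76) (nat_lit 0) (XT.lf (nat_lit 0) (nat_lit 20609327390) (nat_lit 152) (nat_lit 684276297) (nat_lit 76) (nat_lit 41324494552) (nat_lit 5) (nat_lit 5) (nat_lit 7) (nat_lit 5) (nat_lit 6) (nat_lit 4) (nat_lit 286) (nat_lit 250) (nat_lit 184)) (XT.lf (nat_lit 0) (nat_lit 11424207609) (nat_lit 76) (nat_lit 15016219224) (nat_lit 152) (nat_lit 40549028589) (nat_lit 4) (nat_lit 5) (nat_lit 5) (nat_lit 5) (nat_lit 6) (nat_lit 4) (nat_lit 287) (nat_lit 250) (nat_lit 183))) (XT.nd (nat_lit 78) (nat_lit 0) (nat_lit 0) (XT.lf (nat_lit 0) (nat_lit 24529658182) (nat_lit 76) (nat_lit 8220459516) (nat_lit 152) (nat_lit 38959473637) (nat_lit 4) (nat_lit 5) (nat_lit 5) (nat_lit 5) (nat_lit 6) (nat_lit 4) (nat_lit 288) (nat_lit 250) (nat_lit 182)) (XT.lf (nat_lit 0) (nat_lit 38673704571) (nat_lit 76) (nat_lit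 884762718) (nat_lit 152) (nat_lit 37249395734) (nat_lit 4) (nat_lit 5) (nat_lit 5) (nat_lit 5) (nat_lit 6) (nat_lit 4) (nat_lit 289) (nat_lit 250) (nat_lit 181))))) (XT.nd (nat_lit 234) (nat_lit 76) (nat_lit 0) (XT.nd (nat_lit 78) (nat_lit 0) (nat_lit 0) (XT.lf (nat_lit 0) (nat_lit 47074997480) (nat_lit 152) (nat_lit 28543495216) (nat_lit 0) (nat_lit 6682455688) (nat_lit 4) (nat_lit 5) (nat_lit 6) (nat_lit 4) (nat_lit 4) (nat_lit 4) (nat_lit 290) (nat_lit 250) (nat_lit 180)) (XT.nd (nat_lit 78) (nat_lit 0) (nat_lit 0) (XT.lf (nat_lit 0) (nat_lit 55210510210) (nat_lit 152) (nat_lit 18217369422) (nat_lit 0) (nat_lit 14804218638) (nat_lit 4) (nat_lit 5) (nat_lit 6) (nat_lit 4) (nat_lit 4) (nat_lit 4) (nat_lit 291) (nat_lit 250) (nat_lit 179)) (XT.lf (nat_lit 0) (nat_lit 63991937359) (nat_lit 152) (nat_lit 7073310652) (nat_lit 0) (nat_lit 23572914510) (nat_lit 4) (nat_lit 5) (nat_lit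 6) (nat_lit 4) (nat_lit 4) (nat_lit 4) (nat_lit 292) (nat_lit 250) (nat_lit 178)))) (XT.nd (nat_lit 156) (nat_lit 0) (nat_lit 0) (XT.nd (nat_lit 78) (nat_lit 0) (nat_lit 0) (XT.lf (nat_lit 0) (nat_lit 5215626735) (nat_lit 76) (nat_lit 68381126229) (nat_lit 76) (nat_lit 27950315160) (nat_lit 3) (nat_lit 4) (nat_lit 4) (nat_lit 5) (nat_lit 4) (nat_lit 4) (nat_lit 293) (nat_lit 250) (nat_lit 177)) (XT.lf (nat_lit 0) (nat_lit 18882582912) (nat_lit 76) (nat_lit 65276366942) (nat_lit 76) (nat_lit 24834640855) (nat_lit 3) (nat_lit 4) (nat_lit 4) (nat_lit 5) (nat_lit 4) (nat_lit 4) (nat_lit 294) (nat_lit 250) (nat_lit 176))) (XT.nd (nat_lit 78) (nat_lit 0) (nat_lit 0) (XT.lf (nat_lit 0) (nat_lit 33636079245) (nat_lit 76) (nat_lit 61925968425) (nat_lit 76) (nat_lit 21474135839) (nat_lit 3) (nat_lit 4) (nat_lit 4) (nat_lit 5) (nat_lit 4) (nat_lit 4) (nat_lit 295) (nat_lit 250) (nat_lit 175))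 (XT.lf (nat_lit 0) (nat_lit 49563543860) (nat_lit 76) (nat_lit 58310076465) (nat_lit 76) (nat_lit 17848886010) (nat_lit 3) (nat_lit 4) (nat_lit 4) (nat_lit 5) (nat_lit 4) (nat_lit 4) (nat_lit 296) (nat_lit 250) (nat_lit 174))))))) (XT.nd (nat_lit 1014) (nat_lit 0) (nat_lit 0) (XT.nd (nat_lit 468) (nat_lit 76) (nat_lit 0) (XT.nd (nat_lit 234) (nat_lit 76) (nat_lit 0) (XT.nd (nat_lit 78) (nat_lit 0) (nat_lit 0) (XT.lf (nat_lit 0) (nat_lit 66759361732) (nat_lit 76) (nat_lit 54407263554) (nat_lit 76) (nat_lit 13937408406) (nat_lit 3) (nat_lit 4) (nat_lit 4) (nat_lit 5) (nat_lit 4) (nat_lit 4) (nat_lit 297) (nat_lit 250) (nat_lit 173)) (XT.nd (nat_lit 78) (nat_lit 0) (nat_lit 0) (XT.lf (nat_lit 0) (nat_lit 85325434004) (nat_lit 76) (nat_lit 50194401911) (nat_lit 76) (nat_lit 9716523899) (nat_lit 3) (nat_lit 4) (nat_lit 4) (nat_lit 5) (nat_lit 4) (nat_lit 4) (nat_lit 298) (nat_lit 250)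 (nat_lit 172)) (XT.lf (nat_lit 0) (nat_lit 105371781846) (nat_lit 76) (nat_lit 45646526432) (nat_lit 76) (nat_lit 5161219841) (nat_lit 3) (nat_lit 4) (nat_lit 4) (nat_lit 5) (nat_lit 4) (nat_lit 4) (nat_lit 299) (nat_lit 250) (nat_lit 171)))) (XT.nd (nat_lit 78) (nat_lit 76) (nat_lit 0) (XT.lf (nat_lit 0) (nat_lit 127017198429) (nat_lit 76) (nat_lit 40736686741) (nat_lit 76) (nat_lit 244501837) (nat_lit 3) (nat_lit 4) (nat_lit 4) (nat_lit 5) (nat_lit 4) (nat_lit 4) (nat_lit 300) (nat_lit 250) (nat_lit 170)) (XT.nd (nat_lit 78) (nat_lit 0) (nat_lit 0) (XT.lf (nat_lit 0) (nat_lit 4809506147) (nat_lit 152) (nat_lit 30494780924) (nat_lit 76) (nat_lit 145448946321) (nat_lit 2) (nat_lit 5) (nat_lit 4) (nat_lit 5) (nat_lit 3) (nat_lit 4) (nat_lit 301) (nat_lit 250) (nat_lit 169)) (XT.lf (nat_lit 0) (nat_lit 10252173515) (nat_lit 152) (nat_lit 19179929846) (nat_lit 76) (nat_lit 165096064332)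 (nat_lit 2) (nat_lit 5) (nat_lit 4) (nat_lit 5) (nat_lit 3) (nat_lit 4) (nat_lit 302) (nat_lit 250) (nat_lit 168))))) (XT.nd (nat_lit 234) (nat_lit 0) (nat_lit 0) (XT.nd (nat_lit 78) (nat_lit 76) (nat_lit 0) (XT.lf (nat_lit 0) (nat_lit 16127984079) (nat_lit 152) (nat_lit 6963704097) (nat_lit 76) (nat_lit 186313601391) (nat_lit 2) (nat_lit 5) (nat_lit 4) (nat_lit 5) (nat_lit 3) (nat_lit 4) (nat_lit 303) (nat_lit 250) (nat_lit 167)) (XT.nd (nat_lit 78) (nat_lit 0) (nat_lit 0) (XT.lf (nat_lit 0) (nat_lit 6554154101) (nat_lit 76) (nat_lit 16075230923) (nat_lit 152) (nat_lit 202830764514) (nat_lit 1) (nat_lit 5) (nat_lit 2) (nat_lit 5) (nat_lit 3) (nat_lit 4) (nat_lit 304) (nat_lit 250) (nat_lit 166)) (XT.lf (nat_lit 0) (nat_lit 21546031427) (nat_lit 76) (nat_lit 8293237534) (nat_lit 152) (nat_lit 212945069286) (nat_lit 1) (nat_lit 5) (nat_lit 2) (nat_lit 5) (nat_lit 3) (nat_lit 4) (nat_lit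 305) (nat_lit 250) (nat_lit 165)))) (XT.nd (nat_lit 156) (nat_lit 0) (nat_lit 0) (XT.nd (nat_lit 78) (nat_lit 0) (nat_lit 0) (XT.lf (nat_lit 0) (nat_lit 37626710508) (nat_lit 152) (nat_lit 223763194626) (nat_lit 0) (nat_lit 104504473) (nat_lit 1) (nat_lit 5) (nat_lit 3) (nat_lit 4) (nat_lit 1) (nat_lit 4) (nat_lit 306) (nat_lit 250) (nat_lit 164)) (XT.lf (nat_lit 0) (nat_lit 46250787401) (nat_lit 152) (nat_lit 226708551090) (nat_lit 0) (nat_lit 8724865228) (nat_lit 1) (nat_lit 5) (nat_lit 3) (nat_lit 4) (nat_lit 1) (nat_lit 4) (nat_lit 307) (nat_lit 250) (nat_lit 163))) (XT.nd (nat_lit 78) (nat_lit 0) (nat_lit 0) (XT.lf (nat_lit 0) (nat_lit 55563152720) (nat_lit 152) (nat_lit 229892377613) (nat_lit 0) (nat_lit 18033789678) (nat_lit 1) (nat_lit 5) (nat_lit 3) (nat_lit 4) (nat_lit 1) (nat_lit 4) (nat_lit 308) (nat_lit 250) (nat_lit 162)) (XT.lf (nat_lit 0) (nat_lit 65618990853) (nat_lit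 152) (nat_lit 233333541316) (nat_lit 0) (nat_lit 28086441821) (nat_lit 1) (nat_lit 5) (nat_lit 3) (nat_lit 4) (nat_lit 1) (nat_lit 4) (nat_lit 309) (nat_lit 250) (nat_lit 161)))))) (XT.nd (nat_lit 546) (nat_lit 0) (nat_lit 0) (XT.nd (nat_lit 234) (nat_lit 0) (nat_lit 0) (XT.nd (nat_lit 78) (nat_lit 0) (nat_lit 0) (XT.lf (nat_lit 0) (nat_lit 76477891950) (nat_lit 152) (nat_lit 237052434280) (nat_lit 0) (nat_lit 38942392927) (nat_lit 1) (nat_lit 5) (nat_lit 3) (nat_lit 4) (nat_lit 1) (nat_lit 4) (nat_lit 310) (nat_lit 250) (nat_lit 160)) (XT.nd (nat_lit 78) (nat_lit 0) (nat_lit 0) (XT.lf (nat_lit 0) (nat_lit 88204205056) (nat_lit 152) (nat_lit 241071094390) (nat_lit 0) (nat_lit 50665974560) (nat_lit 1) (nat_lit 5) (nat_lit 3) (nat_lit 4) (nat_lit 1) (nat_lit 4) (nat_lit 311) (nat_lit 250) (nat_lit 159)) (XT.lf (nat_lit 0) (nat_lit 100867419433) (nat_lit 152) (nat_lit 245413335927) (nat_lit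 0) (nat_lit 63326659796) (nat_lit 1) (nat_lit 5) (nat_lit 3) (nat_lit 4) (nat_lit 1) (nat_lit 4) (nat_lit 312) (nat_lit 250) (nat_lit 158)))) (XT.nd (nat_lit 156) (nat_lit 0) (nat_lit 0) (XT.nd (nat_lit 78) (nat_lit 0) (nat_lit 0) (XT.lf (nat_lit 0) (nat_lit 114542576351) (nat_lit 152) (nat_lit 250104890693) (nat_lit 0) (nat_lit 76999474917) (nat_lit 1) (nat_lit 5) (nat_lit 3) (nat_lit 4) (nat_lit 1) (nat_lit 4) (nat_lit 313) (nat_lit 250) (nat_lit 157)) (XT.lf (nat_lit 0) (nat_lit 129310713779) (nat_lit 152) (nat_lit 255173560494) (nat_lit 0) (nat_lit 91765444013) (nat_lit 1) (nat_lit 5) (nat_lit 3) (nat_lit 4) (nat_lit 1) (nat_lit 4) (nat_lit 314) (nat_lit 250) (nat_lit 156))) (XT.nd (nat_lit 78) (nat_lit 0) (nat_lit 0) (XT.lf (nat_lit 0) (nat_lit 145259346603) (nat_lit 152) (nat_lit 260649381892) (nat_lit 0) (nat_lit 107712069123) (nat_lit 1) (nat_lit 5) (nat_lit 3) (nat_lit 4)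 (nat_lit 1) (nat_lit 4) (nat_lit 315) (nat_lit 250) (nat_lit 155)) (XT.lf (nat_lit 0) (nat_lit 162482985241) (nat_lit 152) (nat_lit 266564804199) (nat_lit 0) (nat_lit 124933848767) (nat_lit 1) (nat_lit 5) (nat_lit 3) (nat_lit 4) (nat_lit 1) (nat_lit 4) (nat_lit 316) (nat_lit 250) (nat_lit 154))))) (XT.nd (nat_lit 234) (nat_lit 0) (nat_lit 0) (XT.nd (nat_lit 78) (nat_lit 0) (nat_lit 0) (XT.lf (nat_lit 0) (nat_lit 181083695700) (nat_lit 152) (nat_lit 272954881769) (nat_lit 0) (nat_lit 143532837934) (nat_lit 1) (nat_lit 5) (nat_lit 3) (nat_lit 4) (nat_lit 1) (nat_lit 4) (nat_lit 317) (nat_lit 250) (nat_lit 153)) (XT.nd (nat_lit 78) (nat_lit 0) (nat_lit 0) (XT.lf (nat_lit 0) (nat_lit 201171704411) (nat_lit 152) (nat_lit 279857481729) (nat_lit 0) (nat_lit 163619252858) (nat_lit 1) (nat_lit 5) (nat_lit 3) (nat_lit 4) (nat_lit 1) (nat_lit 4) (nat_lit 318) (nat_lit 250) (nat_lit 152)) (XT.lf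 (nat_lit 0) (nat_lit 222866051427) (nat_lit 152) (nat_lit 287313508375) (nat_lit 0) (nat_lit 185312124144) (nat_lit 1) (nat_lit 5) (nat_lit 3) (nat_lit 4) (nat_lit 1) (nat_lit 4) (nat_lit 319) (nat_lit 250) (nat_lit 151)))) (XT.nd (nat_lit 156) (nat_lit 0) (nat_lit 0) (XT.nd (nat_lit 78) (nat_lit 0) (nat_lit 0) (XT.lf (nat_lit 0) (nat_lit 246295295841) (nat_lit 152) (nat_lit 295367145568) (nat_lit 0) (nat_lit 208740002142) (nat_lit 1) (nat_lit 5) (nat_lit 3) (nat_lit 4) (nat_lit 1) (nat_lit 4) (nat_lit 320) (nat_lit 250) (nat_lit 150)) (XT.lf (nat_lit 0) (nat_lit 271598277620) (nat_lit 152) (nat_lit 304066118566) (nat_lit 0) (nat_lit 234041718720) (nat_lit 1) (nat_lit 5) (nat_lit 3) (nat_lit 4) (nat_lit 1) (nat_lit 4) (nat_lit 321) (nat_lit 250) (nat_lit 149))) (XT.nd (nat_lit 78) (nat_lit 0) (nat_lit 0) (XT.lf (nat_lit 0) (nat_lit 298924940360) (nat_lit 152) (nat_lit 313461976839)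 (nat_lit 0) (nat_lit 261367209978) (nat_lit 1) (nat_lit 5) (nat_lit 3) (nat_lit 4) (nat_lit 1) (nat_lit 4) (nat_lit 322) (nat_lit 250) (nat_lit 148)) (XT.lf (nat_lit 0) (nat_lit 328437219839) (nat_lit 152) (nat_lit 323610399545) (nat_lit 0) (nat_lit 290878404752) (nat_lit 1) (nat_lit 5) (nat_lit 3) (nat_lit 4) (nat_lit 1) (nat_lit 4) (nat_lit 323) (nat_lit 250) (nat_lit 147))))))))
noncomputable def xc72 : XT := (XT.nd (nat_lit 32370) (nat_lit 0) (nat_lit 304) (XT.nd (nat_lit 1014) (nat_lit 0) (nat_lit 0) (XT.nd (nat_lit 468) (nat_lit 0) (nat_lit 0) (XT.nd (nat_lit 234) (nat_lit 0) (nat_lit 0) (XT.nd (nat_lit 78) (nat_lit 0) (nat_lit 0) (XT.lf (nat_lit 0) (nat_lit 360310003640) (nat_lit 152) (nat_lit 334571525488) (nat_lit 0) (nat_lit 322750184196) (nat_lit 1) (nat_lit 5) (nat_lit 3) (nat_lit 4) (nat_lit 1) (nat_lit 4) (nat_lit 324) (nat_lit 250) (nat_lit 146)) (XT.nd (nat_lit 78)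 (nat_lit 0) (nat_lit 0) (XT.lf (nat_lit 0) (nat_lit 394732167519) (nat_lit 152) (nat_lit 346410309487) (nat_lit 0) (nat_lit 357171418115) (nat_lit 1) (nat_lit 5) (nat_lit 3) (nat_lit 4) (nat_lit 1) (nat_lit 4) (nat_lit 325) (nat_lit 250) (nat_lit 145)) (XT.lf (nat_lit 0) (nat_lit 431907694669) (nat_lit 152) (nat_lit 359196907299) (nat_lit 0) (nat_lit 394346084190) (nat_lit 1) (nat_lit 5) (nat_lit 3) (nat_lit 4) (nat_lit 1) (nat_lit 4) (nat_lit 326) (nat_lit 250) (nat_lit 144)))) (XT.nd (nat_lit 78) (nat_lit 0) (nat_lit 0) (XT.lf (nat_lit 0) (nat_lit 472056884510) (nat_lit 152) (nat_lit 373007091355) (nat_lit 0) (nat_lit 434494476741) (nat_lit 1) (nat_lit 5) (nat_lit 3) (nat_lit 4) (nat_lit 1) (nat_lit 4) (nat_lit 327) (nat_lit 250) (nat_lit 143)) (XT.nd (nat_lit 78) (nat_lit 0) (nat_lit 0) (XT.lf (nat_lit 0) (nat_lit 515417658167) (nat_lit 152) (nat_lit 387922699784) (nat_lit 0) (nat_lit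 477854512166) (nat_lit 1) (nat_lit 5) (nat_lit 3) (nat_lit 4) (nat_lit 1) (nat_lit 4) (nat_lit 328) (nat_lit 250) (nat_lit 142)) (XT.lf (nat_lit 0) (nat_lit 562246968374) (nat_lit 152) (nat_lit 404032121376) (nat_lit 0) (nat_lit 524683138824) (nat_lit 1) (nat_lit 5) (nat_lit 3) (nat_lit 4) (nat_lit 1) (nat_lit 4) (nat_lit 329) (nat_lit 250) (nat_lit 141))))) (XT.nd (nat_lit 234) (nat_lit 0) (nat_lit 0) (XT.nd (nat_lit 78) (nat_lit 0) (nat_lit 0) (XT.lf (nat_lit 0) (nat_lit 612822322153) (nat_lit 152) (nat_lit 421430819370) (nat_lit 0) (nat_lit 575257859687) (nat_lit 1) (nat_lit 5) (nat_lit 3) (nat_lit 4) (nat_lit 1) (nat_lit 4) (nat_lit 330) (nat_lit 250) (nat_lit 140)) (XT.nd (nat_lit 78) (nat_lit 0) (nat_lit 0) (XT.lf (nat_lit 0) (nat_lit 667443425304) (nat_lit 152) (nat_lit 440221897162) (nat_lit 0) (nat_lit 629878376806) (nat_lit 1) (nat_lit 5) (nat_lit 3) (nat_lit 4) (nat_lit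 1) (nat_lit 4) (nat_lit 331) (nat_lit 250) (nat_lit 139)) (XT.lf (nat_lit 0) (nat_lit 726433958439) (nat_lit 152) (nat_lit 460516709287) (nat_lit 0) (nat_lit 688868367319) (nat_lit 1) (nat_lit 5) (nat_lit 3) (nat_lit 4) (nat_lit 1) (nat_lit 4) (nat_lit 332) (nat_lit 250) (nat_lit 138)))) (XT.nd (nat_lit 156) (nat_lit 0) (nat_lit 0) (XT.nd (nat_lit 78) (nat_lit 0) (nat_lit 0) (XT.lf (nat_lit 0) (nat_lit 790143495088) (nat_lit 152) (nat_lit 482435521298) (nat_lit 0) (nat_lit 752577401539) (nat_lit 1) (nat_lit 5) (nat_lit 3) (nat_lit 4) (nat_lit 1) (nat_lit 4) (nat_lit 333) (nat_lit 250) (nat_lit 137)) (XT.lf (nat_lit 0) (nat_lit 858949573245) (nat_lit 152) (nat_lit 506108222451) (nat_lit 0) (nat_lit 821383014485) (nat_lit 1) (nat_lit 5) (nat_lit 3) (nat_lit 4) (nat_lit 1) (nat_lit 4) (nat_lit 334) (nat_lit 250) (nat_lit 136))) (XT.nd (nat_lit 78) (nat_lit 0) (nat_lit 0) (XT.lf (nat_lit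 0) (nat_lit 933259932634) (nat_lit 152) (nat_lit 531675095420) (nat_lit 0) (nat_lit 895692943122) (nat_lit 1) (nat_lit 5) (nat_lit 3) (nat_lit 4) (nat_lit 1) (nat_lit 4) (nat_lit 335) (nat_lit 250) (nat_lit 135)) (XT.lf (nat_lit 0) (nat_lit 1013514930938) (nat_lit 152) (nat_lit 559287647600) (nat_lit 0) (nat_lit 975947542582) (nat_lit 1) (nat_lit 5) (nat_lit 3) (nat_lit 4) (nat_lit 1) (nat_lit 4) (nat_lit 336) (nat_lit 250) (nat_lit 134)))))) (XT.nd (nat_lit 30810) (nat_lit 0) (nat_lit 1976) (XT.nd (nat_lit 234) (nat_lit 0) (nat_lit 0) (XT.nd (nat_lit 78) (nat_lit 0) (nat_lit 0) (XT.lf (nat_lit 0) (nat_lit 1100190153334) (nat_lit 152) (nat_lit 589109508931) (nat_lit 0) (nat_lit 1062622395678) (nat_lit 1) (nat_lit 5) (nat_lit 3) (nat_lit 4) (nat_lit 1) (nat_lit 4) (nat_lit 337) (nat_lit 250) (nat_lit 133)) (XT.nd (nat_lit 78) (nat_lit 0) (nat_lit 0) (XT.lf (nat_lit 0) (nat_lit 1193799230769)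 (nat_lit 152) (nat_lit 621317401553) (nat_lit 0) (nat_lit 1156231131169) (nat_lit 1) (nat_lit 5) (nat_lit 3) (nat_lit 4) (nat_lit 1) (nat_lit 4) (nat_lit 338) (nat_lit 250) (nat_lit 132)) (XT.lf (nat_lit 0) (nat_lit 1294896883701) (nat_lit 152) (nat_lit 656102187052) (nat_lit 0) (nat_lit 1257328467486) (nat_lit 1) (nat_lit 5) (nat_lit 3) (nat_lit 4) (nat_lit 1) (nat_lit 4) (nat_lit 339) (nat_lit 250) (nat_lit 131)))) (XT.nd (nat_lit 78) (nat_lit 0) (nat_lit 0) (XT.lf (nat_lit 0) (nat_lit 1404082209334) (nat_lit 152) (nat_lit 693669997491) (nat_lit 0) (nat_lit 1366513499957) (nat_lit 1) (nat_lit 5) (nat_lit 3) (nat_lit 4) (nat_lit 1) (nat_lit 4) (nat_lit 340) (nat_lit 250) (nat_lit 130)) (XT.nd (nat_lit 78) (nat_lit 0) (nat_lit 0) (XT.lf (nat_lit 0) (nat_lit 1522002231819) (nat_lit 152) (nat_lit 734243456931) (nat_lit 0) (nat_lit 1484433250995) (nat_lit 1) (nat_lit 5) (nat_lit 3) (nat_lit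 4) (nat_lit 1) (nat_lit 4) (nat_lit 341) (nat_lit 250) (nat_lit 129)) (XT.lf (nat_lit 0) (nat_lit 1649355736475) (nat_lit 152) (nat_lit 778063000688) (nat_lit 0) (nat_lit 1611786504312) (nat_lit 1) (nat_lit 5) (nat_lit 3) (nat_lit 4) (nat_lit 1) (nat_lit 4) (nat_lit 342) (nat_lit 250) (nat_lit 128))))) (XT.nd (nat_lit 234) (nat_lit 0) (nat_lit 0) (XT.nd (nat_lit 78) (nat_lit 0) (nat_lit 0) (XT.lf (nat_lit 0) (nat_lit 798092085) (nat_lit 0) (nat_lit 798092085) (nat_lit 380) (nat_lit 3457728881) (nat_lit 27) (nat_lit 5) (nat_lit 27) (nat_lit 3) (nat_lit 32) (nat_lit 3) (nat_lit 251) (nat_lit 251) (nat_lit 218)) (XT.nd (nat_lit 78) (nat_lit 0) (nat_lit 0) (XT.lf (nat_lit 0) (nat_lit 3936383774) (nat_lit 380) (nat_lit 4773332047) (nat_lit 456) (nat_lit 1746493538) (nat_lit 27) (nat_lit 5) (nat_lit 32) (nat_lit 3) (nat_lit 33) (nat_lit 5) (nat_lit 252) (nat_lit 251) (nat_lit 217)) (XT.lf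 (nat_lit 0) (nat_lit 4724829972) (nat_lit 380) (nat_lit 811965808) (nat_lit 456) (nat_lit 5297537463) (nat_lit 27) (nat_lit 5) (nat_lit 32) (nat_lit 3) (nat_lit 33) (nat_lit 5) (nat_lit 253) (nat_lit 251) (nat_lit 216)))) (XT.nd (nat_lit 156) (nat_lit 0) (nat_lit 76) (XT.nd (nat_lit 78) (nat_lit 0) (nat_lit 76) (XT.lf (nat_lit 76) (nat_lit 3615165008) (nat_lit 0) (nat_lit 1995770740) (nat_lit 456) (nat_lit 5629618219) (nat_lit 28) (nat_lit 5) (nat_lit 27) (nat_lit 5) (nat_lit 33) (nat_lit 5) (nat_lit 254) (nat_lit 251) (nat_lit 215)) (XT.lf (nat_lit 0) (nat_lit 6585885490) (nat_lit 380) (nat_lit 3315526743) (nat_lit 456) (nat_lit 1776991862) (nat_lit 28) (nat_lit 5) (nat_lit 33) (nat_lit 5) (nat_lit 34) (nat_lit 5) (nat_lit 255) (nat_lit 251) (nat_lit 214))) (XT.nd (nat_lit 78) (nat_lit 0) (nat_lit 0) (XT.lf (nat_lit 76) (nat_lit 1319865953) (nat_lit 0) (nat_lit 6357362876) (nat_lit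 456) (nat_lit 4471507694) (nat_lit 29) (nat_lit 5) (nat_lit 28) (nat_lit 5) (nat_lit 34) (nat_lit 5) (nat_lit 256) (nat_lit 251) (nat_lit 213)) (XT.lf (nat_lit 76) (nat_lit 6482048389) (nat_lit 0) (nat_lit 2421863153) (nat_lit 456) (nat_lit 3749428577) (nat_lit 29) (nat_lit 5) (nat_lit 28) (nat_lit 5) (nat_lit 34) (nat_lit 5) (nat_lit 257) (nat_lit 251) (nat_lit 212))))))) (XT.nd (nat_lit 1014) (nat_lit 608) (nat_lit 0) (XT.nd (nat_lit 468) (nat_lit 532) (nat_lit 0) (XT.nd (nat_lit 234) (nat_lit 304) (nat_lit 0) (XT.nd (nat_lit 78) (nat_lit 380) (nat_lit 0) (XT.lf (nat_lit 0) (nat_lit 10233463550) (nat_lit 380) (nat_lit 1219096683) (nat_lit 76) (nat_lit 1745824039) (nat_lit 29) (nat_lit 5) (nat_lit 34) (nat_lit 5) (nat_lit 30) (nat_lit 5) (nat_lit 258) (nat_lit 251) (nat_lit 211)) (XT.nd (nat_lit 78) (nat_lit 0) (nat_lit 0) (XT.lf (nat_lit 0) (nat_lit 4247342134) (nat_lit 380) (nat_lit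 7550758259) (nat_lit 456) (nat_lit 1979051546) (nat_lit 24) (nat_lit 5) (nat_lit 29) (nat_lit 5) (nat_lit 30) (nat_lit 5) (nat_lit 259) (nat_lit 251) (nat_lit 210)) (XT.lf (nat_lit 0) (nat_lit 10189728970) (nat_lit 380) (nat_lit 3297131015) (nat_lit 456) (nat_lit 915831587) (nat_lit 24) (nat_lit 5) (nat_lit 29) (nat_lit 5) (nat_lit 30) (nat_lit 5) (nat_lit 260) (nat_lit 251) (nat_lit 209)))) (XT.nd (nat_lit 78) (nat_lit 0) (nat_lit 0) (XT.lf (nat_lit 0) (nat_lit 257993649) (nat_lit 304) (nat_lit 13538374687) (nat_lit 76) (nat_lit 1278816298) (nat_lit 20) (nat_lit 5) (nat_lit 24) (nat_lit 5) (nat_lit 21) (nat_lit 5) (nat_lit 261) (nat_lit 251) (nat_lit 208)) (XT.nd (nat_lit 78) (nat_lit 0) (nat_lit 0) (XT.lf (nat_lit 0) (nat_lit 1648833994) (nat_lit 304) (nat_lit 7951089762) (nat_lit 76) (nat_lit 6186150311) (nat_lit 20) (nat_lit 5) (nat_lit 24) (nat_lit 5) (nat_lit 21) (nat_lit 5)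 (nat_lit 262) (nat_lit 251) (nat_lit 207)) (XT.lf (nat_lit 0) (nat_lit 3122021388) (nat_lit 304) (nat_lit 1946977118) (nat_lit 76) (nat_lit 11487433995) (nat_lit 20) (nat_lit 5) (nat_lit 24) (nat_lit 5) (nat_lit 21) (nat_lit 5) (nat_lit 263) (nat_lit 251) (nat_lit 206))))) (XT.nd (nat_lit 234) (nat_lit 152) (nat_lit 0) (XT.nd (nat_lit 78) (nat_lit 152) (nat_lit 0) (XT.lf (nat_lit 0) (nat_lit 4747007722) (nat_lit 228) (nat_lit 53443759) (nat_lit 304) (nat_lit 12581240294) (nat_lit 17) (nat_lit 5) (nat_lit 20) (nat_lit 5) (nat_lit 21) (nat_lit 5) (nat_lit 264) (nat_lit 251) (nat_lit 205)) (XT.nd (nat_lit 78) (nat_lit 152) (nat_lit 0) (XT.lf (nat_lit 0) (nat_lit 6771269945) (nat_lit 304) (nat_lit 6341298576) (nat_lit 76) (nat_lit 5147997837) (nat_lit 17) (nat_lit 5) (nat_lit 21) (nat_lit 5) (nat_lit 18) (nat_lit 5) (nat_lit 265) (nat_lit 251) (nat_lit 204)) (XT.lf (nat_lit 0) (nat_lit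 449379334) (nat_lit 152) (nat_lit 8438967169) (nat_lit 228) (nat_lit 10322542629) (nat_lit 15) (nat_lit 5) (nat_lit 17) (nat_lit 5) (nat_lit 18) (nat_lit 5) (nat_lit 266) (nat_lit 251) (nat_lit 203)))) (XT.nd (nat_lit 156) (nat_lit 152) (nat_lit 0) (XT.nd (nat_lit 78) (nat_lit 0) (nat_lit 0) (XT.lf (nat_lit 0) (nat_lit 8117367099) (nat_lit 152) (nat_lit 3208310453) (nat_lit 228) (nat_lit 8899698029) (nat_lit 15) (nat_lit 5) (nat_lit 17) (nat_lit 5) (nat_lit 18) (nat_lit 5) (nat_lit 267) (nat_lit 251) (nat_lit 202)) (XT.lf (nat_lit 0) (nat_lit 13995777617) (nat_lit 228) (nat_lit 5007307801) (nat_lit 76) (nat_lit 2315106371) (nat_lit 15) (nat_lit 5) (nat_lit 18) (nat_lit 5) (nat_lit 16) (nat_lit 5) (nat_lit 268) (nat_lit 251) (nat_lit 201))) (XT.nd (nat_lit 78) (nat_lit 0) (nat_lit 0) (XT.lf (nat_lit 0) (nat_lit 2688163591) (nat_lit 152) (nat_lit 14319936031) (nat_lit 228) (nat_lit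 5480223671) (nat_lit 13) (nat_lit 5) (nat_lit 15) (nat_lit 5) (nat_lit 16) (nat_lit 5) (nat_lit 269) (nat_lit 251) (nat_lit 200)) (XT.lf (nat_lit 0) (nat_lit 11260235657) (nat_lit 152) (nat_lit 9119573393) (nat_lit 228) (nat_lit 3362949983) (nat_lit 13) (nat_lit 5) (nat_lit 15) (nat_lit 5) (nat_lit 16) (nat_lit 5) (nat_lit 270) (nat_lit 251) (nat_lit 199)))))) (XT.nd (nat_lit 546) (nat_lit 228) (nat_lit 0) (XT.nd (nat_lit 234) (nat_lit 152) (nat_lit 0) (XT.nd (nat_lit 78) (nat_lit 228) (nat_lit 0) (XT.lf (nat_lit 0) (nat_lit 20496029907) (nat_lit 152) (nat_lit 3508089208) (nat_lit 228) (nat_lit 1094954970) (nat_lit 13) (nat_lit 5) (nat_lit 15) (nat_lit 5) (nat_lit 16) (nat_lit 5) (nat_lit 271) (nat_lit 251) (nat_lit 198)) (XT.nd (nat_lit 78) (nat_lit 0) (nat_lit 0) (XT.lf (nat_lit 0) (nat_lit 1432491375) (nat_lit 228) (nat_lit 22563879074) (nat_lit 76) (nat_lit 2553388063) (nat_lit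 10) (nat_lit 5) (nat_lit 13) (nat_lit 5) (nat_lit 11) (nat_lit 5) (nat_lit 272) (nat_lit 251) (nat_lit 197)) (XT.lf (nat_lit 0) (nat_lit 4307396840) (nat_lit 228) (nat_lit 14727680126) (nat_lit 76) (nat_lit 9062913846) (nat_lit 10) (nat_lit 5) (nat_lit 13) (nat_lit 5) (nat_lit 11) (nat_lit 5) (nat_lit 273) (nat_lit 251) (nat_lit 196)))) (XT.nd (nat_lit 156) (nat_lit 0) (nat_lit 0) (XT.nd (nat_lit 78) (nat_lit 152) (nat_lit 0) (XT.lf (nat_lit 0) (nat_lit 7397642762) (nat_lit 228) (nat_lit 6285065310) (nat_lit 76) (nat_lit 16088658655) (nat_lit 10) (nat_lit 5) (nat_lit 13) (nat_lit 5) (nat_lit 11) (nat_lit 5) (nat_lit 274) (nat_lit 251) (nat_lit 195)) (XT.lf (nat_lit 0) (nat_lit 2962175709) (nat_lit 152) (nat_lit 7830606398) (nat_lit 228) (nat_lit 20781321221) (nat_lit 8) (nat_lit 5) (nat_lit 10) (nat_lit 5) (nat_lit 11) (nat_lit 5) (nat_lit 275) (nat_lit 251) (nat_lit 194))) (XT.nd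 (nat_lit 78) (nat_lit 0) (nat_lit 0) (XT.lf (nat_lit 0) (nat_lit 13288150313) (nat_lit 152) (nat_lit 1330220886) (nat_lit 228) (nat_lit 18890077342) (nat_lit 8) (nat_lit 5) (nat_lit 10) (nat_lit 5) (nat_lit 11) (nat_lit 5) (nat_lit 276) (nat_lit 251) (nat_lit 193)) (XT.lf (nat_lit 0) (nat_lit 18874691996) (nat_lit 228) (nat_lit 11312232715) (nat_lit 76) (nat_lit 5400731494) (nat_lit 8) (nat_lit 5) (nat_lit 11) (nat_lit 5) (nat_lit 9) (nat_lit 4) (nat_lit 277) (nat_lit 251) (nat_lit 192))))) (XT.nd (nat_lit 234) (nat_lit 152) (nat_lit 0) (XT.nd (nat_lit 78) (nat_lit 76) (nat_lit 0) (XT.lf (nat_lit 0) (nat_lit 23494805983) (nat_lit 228) (nat_lit 1742781389) (nat_lit 76) (nat_lit 12593833076) (nat_lit 8) (nat_lit 5) (nat_lit 11) (nat_lit 5) (nat_lit 9) (nat_lit 4) (nat_lit 278) (nat_lit 251) (nat_lit 191)) (XT.nd (nat_lit 78) (nat_lit 0) (nat_lit 0) (XT.lf (nat_lit 0) (nat_lit 9028392199)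 (nat_lit 76) (nat_lit 19662840618) (nat_lit 152) (nat_lit 11546993533) (nat_lit 7) (nat_lit 5) (nat_lit 8) (nat_lit 5) (nat_lit 9) (nat_lit 4) (nat_lit 279) (nat_lit 251) (nat_lit 190)) (XT.lf (nat_lit 0) (nat_lit 20745294269) (nat_lit 76) (nat_lit 13595710833) (nat_lit 152) (nat_lit 8493632247) (nat_lit 7) (nat_lit 5) (nat_lit 8) (nat_lit 5) (nat_lit 9) (nat_lit 4) (nat_lit 280) (nat_lit 251) (nat_lit 189)))) (XT.nd (nat_lit 156) (nat_lit 152) (nat_lit 0) (XT.nd (nat_lit 78) (nat_lit 0) (nat_lit 0) (XT.lf (nat_lit 0) (nat_lit 33385586535) (nat_lit 76) (nat_lit 7047895389) (nat_lit 152) (nat_lit 5206087346) (nat_lit 7) (nat_lit 5) (nat_lit 8) (nat_lit 5) (nat_lit 9) (nat_lit 4) (nat_lit 281) (nat_lit 251) (nat_lit 188)) (XT.lf (nat_lit 0) (nat_lit 47005233601) (nat_lit 152) (nat_lit 1645936249) (nat_lit 0) (nat_lit 18436739) (nat_lit 7) (nat_lit 5) (nat_lit 9) (nat_lit 4) (nat_lit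 7) (nat_lit 4) (nat_lit 282) (nat_lit 251) (nat_lit 187))) (XT.nd (nat_lit 78) (nat_lit 0) (nat_lit 0) (XT.lf (nat_lit 0) (nat_lit 2481840146) (nat_lit 152) (nat_lit 41850019239) (nat_lit 76) (nat_lit 7571742839) (nat_lit 5) (nat_lit 5) (nat_lit 7) (nat_lit 5) (nat_lit 6) (nat_lit 4) (nat_lit 283) (nat_lit 251) (nat_lit 186)) (XT.lf (nat_lit 0) (nat_lit 6908003164) (nat_lit 152) (nat_lit 32667164867) (nat_lit 76) (nat_lit 15814685675) (nat_lit 5) (nat_lit 5) (nat_lit 7) (nat_lit 5) (nat_lit 6) (nat_lit 4) (nat_lit 284) (nat_lit 251) (nat_lit 185))))))))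
noncomputable def xc73 : XT := (XT.nd (nat_lit 2106) (nat_lit 0) (nat_lit 0) (XT.nd (nat_lit 1014) (nat_lit 152) (nat_lit 0) (XT.nd (nat_lit 468) (nat_lit 76) (nat_lit 0) (XT.nd (nat_lit 234) (nat_lit 76) (nat_lit 0) (XT.nd (nat_lit 78) (nat_lit 0) (nat_lit 0) (XT.lf (nat_lit 0) (nat_lit 11680852266) (nat_lit 152) (nat_lit 22761457909) (nat_lit 76) (nat_lit 24713332513) (nat_lit 5) (nat_lit 5) (nat_lit 7) (nat_lit 5) (nat_lit 6) (nat_lit 4) (nat_lit 285) (nat_lit 251) (nat_lit 184)) (XT.nd (nat_lit 78) (nat_lit 0) (nat_lit 0) (XT.lf (nat_lit 0) (nat_lit 16828671001) (nat_lit 152) (nat_lit 12074197878) (nat_lit 76) (nat_lit 34320416076) (nat_lit 5) (nat_lit 5) (nat_lit 7) (nat_lit 5) (nat_lit 6) (nat_lit 4) (nat_lit 286) (nat_lit 251) (nat_lit 183)) (XT.lf (nat_lit 0) (nat_lit 22381964961) (nat_lit 152) (nat_lit 542052863) (nat_lit 76) (nat_lit 44692867228) (nat_lit 5) (nat_lit 5)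 (nat_lit 7) (nat_lit 5) (nat_lit 6) (nat_lit 4) (nat_lit 287) (nat_lit 251) (nat_lit 182)))) (XT.nd (nat_lit 78) (nat_lit 0) (nat_lit 0) (XT.lf (nat_lit 0) (nat_lit 12530123286) (nat_lit 76) (nat_lit 16144869036) (nat_lit 152) (nat_lit 43663378828) (nat_lit 4) (nat_lit 5) (nat_lit 5) (nat_lit 5) (nat_lit 6) (nat_lit 4) (nat_lit 288) (nat_lit 251) (nat_lit 181)) (XT.nd (nat_lit 78) (nat_lit 0) (nat_lit 0) (XT.lf (nat_lit 0) (nat_lit 26669789233) (nat_lit 76) (nat_lit 8810829864) (nat_lit 152) (nat_lit 41956257409) (nat_lit 4) (nat_lit 5) (nat_lit 5) (nat_lit 5) (nat_lit 6) (nat_lit 4) (nat_lit 289) (nat_lit 251) (nat_lit 180)) (XT.lf (nat_lit 0) (nat_lit 41932192045) (nat_lit 76) (nat_lit 893260020) (nat_lit 152) (nat_lit 40118260245) (nat_lit 4) (nat_lit 5) (nat_lit 5) (nat_lit 5) (nat_lit 6) (nat_lit 4) (nat_lit 290) (nat_lit 251) (nat_lit 179))))) (XT.nd (nat_lit 234) (nat_lit 76)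 (nat_lit 0) (XT.nd (nat_lit 78) (nat_lit 0) (nat_lit 0) (XT.lf (nat_lit 0) (nat_lit 50937113313) (nat_lit 152) (nat_lit 30667833223) (nat_lit 0) (nat_lit 7271837358) (nat_lit 4) (nat_lit 5) (nat_lit 6) (nat_lit 4) (nat_lit 4) (nat_lit 4) (nat_lit 291) (nat_lit 251) (nat_lit 178)) (XT.nd (nat_lit 78) (nat_lit 0) (nat_lit 0) (XT.lf (nat_lit 0) (nat_lit 59716347354) (nat_lit 152) (nat_lit 19527405634) (nat_lit 0) (nat_lit 16039283180) (nat_lit 4) (nat_lit 5) (nat_lit 6) (nat_lit 4) (nat_lit 4) (nat_lit 4) (nat_lit 292) (nat_lit 251) (nat_lit 177)) (XT.lf (nat_lit 0) (nat_lit 69193696356) (nat_lit 152) (nat_lit 7502737224) (nat_lit 0) (nat_lit 25505717163) (nat_lit 4) (nat_lit 5) (nat_lit 6) (nat_lit 4) (nat_lit 4) (nat_lit 4) (nat_lit 293) (nat_lit 251) (nat_lit 176)))) (XT.nd (nat_lit 156) (nat_lit 0) (nat_lit 0) (XT.nd (nat_lit 78) (nat_lit 0) (nat_lit 0) (XT.lf (nat_lit 0) (nat_lit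 5765861020) (nat_lit 76) (nat_lit 73798130460) (nat_lit 76) (nat_lit 30100044769) (nat_lit 3) (nat_lit 4) (nat_lit 4) (nat_lit 5) (nat_lit 4) (nat_lit 4) (nat_lit 294) (nat_lit 251) (nat_lit 175)) (XT.lf (nat_lit 0) (nat_lit 20516323014) (nat_lit 76) (nat_lit 70448952346) (nat_lit 76) (nat_lit 26741508786) (nat_lit 3) (nat_lit 4) (nat_lit 4) (nat_lit 5) (nat_lit 4) (nat_lit 4) (nat_lit 295) (nat_lit 251) (nat_lit 174))) (XT.nd (nat_lit 78) (nat_lit 0) (nat_lit 0) (XT.lf (nat_lit 0) (nat_lit 36440978055) (nat_lit 76) (nat_lit 66834190389) (nat_lit 76) (nat_lit 23118082135) (nat_lit 3) (nat_lit 4) (nat_lit 4) (nat_lit 5) (nat_lit 4) (nat_lit 4) (nat_lit 296) (nat_lit 251) (nat_lit 173)) (XT.lf (nat_lit 0) (nat_lit 53634194471) (nat_lit 76) (nat_lit 62932423777) (nat_lit 76) (nat_lit 19208292658) (nat_lit 3) (nat_lit 4) (nat_lit 4) (nat_lit 5) (nat_lit 4) (nat_lit 4) (nat_lit 297) (nat_lit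 251) (nat_lit 172)))))) (XT.nd (nat_lit 546) (nat_lit 76) (nat_lit 0) (XT.nd (nat_lit 234) (nat_lit 76) (nat_lit 0) (XT.nd (nat_lit 78) (nat_lit 0) (nat_lit 0) (XT.lf (nat_lit 0) (nat_lit 72197857987) (nat_lit 76) (nat_lit 58720530929) (nat_lit 76) (nat_lit 14988971233) (nat_lit 3) (nat_lit 4) (nat_lit 4) (nat_lit 5) (nat_lit 4) (nat_lit 4) (nat_lit 298) (nat_lit 251) (nat_lit 171)) (XT.nd (nat_lit 78) (nat_lit 0) (nat_lit 0) (XT.lf (nat_lit 0) (nat_lit 92241975500) (nat_lit 76) (nat_lit 54173552482) (nat_lit 76) (nat_lit 10435114472) (nat_lit 3) (nat_lit 4) (nat_lit 4) (nat_lit 5) (nat_lit 4) (nat_lit 4) (nat_lit 299) (nat_lit 251) (nat_lit 170)) (XT.lf (nat_lit 0) (nat_lit 113885326963) (nat_lit 76) (nat_lit 49264543377) (nat_lit 76) (nat_lit 5519736559) (nat_lit 3) (nat_lit 4) (nat_lit 4) (nat_lit 5) (nat_lit 4) (nat_lit 4) (nat_lit 300) (nat_lit 251) (nat_lit 169)))) (XT.nd (nat_lit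 156) (nat_lit 0) (nat_lit 0) (XT.nd (nat_lit 78) (nat_lit 76) (nat_lit 0) (XT.lf (nat_lit 0) (nat_lit 137256169276) (nat_lit 76) (nat_lit 43964413190) (nat_lit 76) (nat_lit 213709328) (nat_lit 3) (nat_lit 4) (nat_lit 4) (nat_lit 5) (nat_lit 4) (nat_lit 4) (nat_lit 301) (nat_lit 251) (nat_lit 168)) (XT.lf (nat_lit 0) (nat_lit 5238557206) (nat_lit 152) (nat_lit 32859965099) (nat_lit 76) (nat_lit 157111207673) (nat_lit 2) (nat_lit 5) (nat_lit 4) (nat_lit 5) (nat_lit 3) (nat_lit 4) (nat_lit 302) (nat_lit 251) (nat_lit 167))) (XT.nd (nat_lit 78) (nat_lit 0) (nat_lit 0) (XT.lf (nat_lit 0) (nat_lit 11113357180) (nat_lit 152) (nat_lit 20645436919) (nat_lit 76) (nat_lit 178328143596) (nat_lit 2) (nat_lit 5) (nat_lit 4) (nat_lit 5) (nat_lit 3) (nat_lit 4) (nat_lit 303) (nat_lit 251) (nat_lit 166)) (XT.lf (nat_lit 0) (nat_lit 17456194828) (nat_lit 152) (nat_lit 7457015875) (nat_lit 76) (nat_lit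 201241276648) (nat_lit 2) (nat_lit 5) (nat_lit 4) (nat_lit 5) (nat_lit 3) (nat_lit 4) (nat_lit 304) (nat_lit 251) (nat_lit 165))))) (XT.nd (nat_lit 234) (nat_lit 0) (nat_lit 0) (XT.nd (nat_lit 78) (nat_lit 0) (nat_lit 0) (XT.lf (nat_lit 0) (nat_lit 7140656180) (nat_lit 76) (nat_lit 17335734109) (nat_lit 152) (nat_lit 219017465131) (nat_lit 1) (nat_lit 5) (nat_lit 2) (nat_lit 5) (nat_lit 3) (nat_lit 4) (nat_lit 305) (nat_lit 251) (nat_lit 164)) (XT.nd (nat_lit 78) (nat_lit 0) (nat_lit 0) (XT.lf (nat_lit 0) (nat_lit 23327278526) (nat_lit 76) (nat_lit 8933071271) (nat_lit 152) (nat_lit 229943859510) (nat_lit 1) (nat_lit 5) (nat_lit 2) (nat_lit 5) (nat_lit 3) (nat_lit 4) (nat_lit 306) (nat_lit 251) (nat_lit 163)) (XT.lf (nat_lit 0) (nat_lit 40668798744) (nat_lit 152) (nat_lit 241608812792) (nat_lit 0) (nat_lit 133645789) (nat_lit 1) (nat_lit 5) (nat_lit 3) (nat_lit 4) (nat_lit 1) (nat_lit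 4) (nat_lit 307) (nat_lit 251) (nat_lit 162)))) (XT.nd (nat_lit 156) (nat_lit 0) (nat_lit 0) (XT.nd (nat_lit 78) (nat_lit 0) (nat_lit 0) (XT.lf (nat_lit 0) (nat_lit 49980435018) (nat_lit 152) (nat_lit 244793904247) (nat_lit 0) (nat_lit 9442096074) (nat_lit 1) (nat_lit 5) (nat_lit 3) (nat_lit 4) (nat_lit 1) (nat_lit 4) (nat_lit 308) (nat_lit 251) (nat_lit 161)) (XT.lf (nat_lit 0) (nat_lit 60035598110) (nat_lit 152) (nat_lit 248236239184) (nat_lit 0) (nat_lit 19494309174) (nat_lit 1) (nat_lit 5) (nat_lit 3) (nat_lit 4) (nat_lit 1) (nat_lit 4) (nat_lit 309) (nat_lit 251) (nat_lit 160))) (XT.nd (nat_lit 78) (nat_lit 0) (nat_lit 0) (XT.lf (nat_lit 0) (nat_lit 70893874169) (nat_lit 152) (nat_lit 251956216623) (nat_lit 0) (nat_lit 30349853761) (nat_lit 1) (nat_lit 5) (nat_lit 3) (nat_lit 4) (nat_lit 1) (nat_lit 4) (nat_lit 310) (nat_lit 251) (nat_lit 159)) (XT.lf (nat_lit 0) (nat_lit 82619608535)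 (nat_lit 152) (nat_lit 255975880876) (nat_lit 0) (nat_lit 42073058986) (nat_lit 1) (nat_lit 5) (nat_lit 3) (nat_lit 4) (nat_lit 1) (nat_lit 4) (nat_lit 311) (nat_lit 251) (nat_lit 158))))))) (XT.nd (nat_lit 1014) (nat_lit 0) (nat_lit 0) (XT.nd (nat_lit 468) (nat_lit 0) (nat_lit 0) (XT.nd (nat_lit 234) (nat_lit 0) (nat_lit 0) (XT.nd (nat_lit 78) (nat_lit 0) (nat_lit 0) (XT.lf (nat_lit 0) (nat_lit 95282287043) (nat_lit 152) (nat_lit 260319052175) (nat_lit 0) (nat_lit 54733395696) (nat_lit 1) (nat_lit 5) (nat_lit 3) (nat_lit 4) (nat_lit 1) (nat_lit 4) (nat_lit 312) (nat_lit 251) (nat_lit 157)) (XT.nd (nat_lit 78) (nat_lit 0) (nat_lit 0) (XT.lf (nat_lit 0) (nat_lit 108956947786) (nat_lit 152) (nat_lit 265011467833) (nat_lit 0) (nat_lit 68405888108) (nat_lit 1) (nat_lit 5) (nat_lit 3) (nat_lit 4) (nat_lit 1) (nat_lit 4) (nat_lit 313) (nat_lit 251) (nat_lit 156)) (XT.lf (nat_lit 0) (nat_lit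 123724625792) (nat_lit 152) (nat_lit 270080934755) (nat_lit 0) (nat_lit 83171558399) (nat_lit 1) (nat_lit 5) (nat_lit 3) (nat_lit 4) (nat_lit 1) (nat_lit 4) (nat_lit 314) (nat_lit 251) (nat_lit 155)))) (XT.nd (nat_lit 78) (nat_lit 0) (nat_lit 0) (XT.lf (nat_lit 0) (nat_lit 139672833226) (nat_lit 152) (nat_lit 275557494229) (nat_lit 0) (nat_lit 99117906839) (nat_lit 1) (nat_lit 5) (nat_lit 3) (nat_lit 4) (nat_lit 1) (nat_lit 4) (nat_lit 315) (nat_lit 251) (nat_lit 154)) (XT.nd (nat_lit 78) (nat_lit 0) (nat_lit 0) (XT.lf (nat_lit 0) (nat_lit 156896077984) (nat_lit 152) (nat_lit 281473599939) (nat_lit 0) (nat_lit 116339430306) (nat_lit 1) (nat_lit 5) (nat_lit 3) (nat_lit 4) (nat_lit 1) (nat_lit 4) (nat_lit 316) (nat_lit 251) (nat_lit 153)) (XT.lf (nat_lit 0) (nat_lit 175496423739) (nat_lit 152) (nat_lit 287864310290) (nat_lit 0) (nat_lit 134938182273) (nat_lit 1) (nat_lit 5) (nat_lit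 3) (nat_lit 4) (nat_lit 1) (nat_lit 4) (nat_lit 317) (nat_lit 251) (nat_lit 152))))) (XT.nd (nat_lit 234) (nat_lit 0) (nat_lit 0) (XT.nd (nat_lit 78) (nat_lit 0) (nat_lit 0) (XT.lf (nat_lit 0) (nat_lit 195584094762) (nat_lit 152) (nat_lit 294767496159) (nat_lit 0) (nat_lit 155024377566) (nat_lit 1) (nat_lit 5) (nat_lit 3) (nat_lit 4) (nat_lit 1) (nat_lit 4) (nat_lit 318) (nat_lit 251) (nat_lit 151)) (XT.nd (nat_lit 78) (nat_lit 0) (nat_lit 0) (XT.lf (nat_lit 0) (nat_lit 217278129103) (nat_lit 152) (nat_lit 302224065312) (nat_lit 0) (nat_lit 176717045491) (nat_lit 1) (nat_lit 5) (nat_lit 3) (nat_lit 4) (nat_lit 1) (nat_lit 4) (nat_lit 319) (nat_lit 251) (nat_lit 150)) (XT.lf (nat_lit 0) (nat_lit 240707084003) (nat_lit 152) (nat_lit 310278204827) (nat_lit 0) (nat_lit 200144735191) (nat_lit 1) (nat_lit 5) (nat_lit 3) (nat_lit 4) (nat_lit 1) (nat_lit 4) (nat_lit 320) (nat_lit 251) (nat_lit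 149)))) (XT.nd (nat_lit 156) (nat_lit 0) (nat_lit 0) (XT.nd (nat_lit 78) (nat_lit 0) (nat_lit 0) (XT.lf (nat_lit 0) (nat_lit 266009797714) (nat_lit 152) (nat_lit 318977642938) (nat_lit 0) (nat_lit 225446277420) (nat_lit 1) (nat_lit 5) (nat_lit 3) (nat_lit 4) (nat_lit 1) (nat_lit 4) (nat_lit 321) (nat_lit 251) (nat_lit 148)) (XT.lf (nat_lit 0) (nat_lit 293336212242) (nat_lit 152) (nat_lit 328373931870) (nat_lit 0) (nat_lit 252771607243) (nat_lit 1) (nat_lit 5) (nat_lit 3) (nat_lit 4) (nat_lit 1) (nat_lit 4) (nat_lit 322) (nat_lit 251) (nat_lit 147))) (XT.nd (nat_lit 78) (nat_lit 0) (nat_lit 0) (XT.lf (nat_lit 0) (nat_lit 322848261896) (nat_lit 152) (nat_lit 338522753336) (nat_lit 0) (nat_lit 282282652540) (nat_lit 1) (nat_lit 5) (nat_lit 3) (nat_lit 4) (nat_lit 1) (nat_lit 4) (nat_lit 323) (nat_lit 251) (nat_lit 146)) (XT.lf (nat_lit 0) (nat_lit 354720832896) (nat_lit 152) (nat_lit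 349484248500) (nat_lit 0) (nat_lit 314154293580) (nat_lit 1) (nat_lit 5) (nat_lit 3) (nat_lit 4) (nat_lit 1) (nat_lit 4) (nat_lit 324) (nat_lit 251) (nat_lit 145)))))) (XT.nd (nat_lit 546) (nat_lit 0) (nat_lit 0) (XT.nd (nat_lit 234) (nat_lit 0) (nat_lit 0) (XT.nd (nat_lit 78) (nat_lit 0) (nat_lit 0) (XT.lf (nat_lit 0) (nat_lit 389142799737) (nat_lit 152) (nat_lit 361323374370) (nat_lit 0) (nat_lit 348575399346) (nat_lit 1) (nat_lit 5) (nat_lit 3) (nat_lit 4) (nat_lit 1) (nat_lit 4) (nat_lit 325) (nat_lit 251) (nat_lit 144)) (XT.nd (nat_lit 78) (nat_lit 0) (nat_lit 0) (XT.lf (nat_lit 0) (nat_lit 426318144444) (nat_lit 152) (nat_lit 374110288730) (nat_lit 0) (nat_lit 385749946763) (nat_lit 1) (nat_lit 5) (nat_lit 3) (nat_lit 4) (nat_lit 1) (nat_lit 4) (nat_lit 326) (nat_lit 251) (nat_lit 143)) (XT.lf (nat_lit 0) (nat_lit 466467165357) (nat_lit 152) (nat_lit 387920765887) (nat_lit 0)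 (nat_lit 425898229443) (nat_lit 1) (nat_lit 5) (nat_lit 3) (nat_lit 4) (nat_lit 1) (nat_lit 4) (nat_lit 327) (nat_lit 251) (nat_lit 142)))) (XT.nd (nat_lit 156) (nat_lit 0) (nat_lit 0) (XT.nd (nat_lit 78) (nat_lit 0) (nat_lit 0) (XT.lf (nat_lit 0) (nat_lit 509827782599) (nat_lit 152) (nat_lit 402836645705) (nat_lit 0) (nat_lit 469258163137) (nat_lit 1) (nat_lit 5) (nat_lit 3) (nat_lit 4) (nat_lit 1) (nat_lit 4) (nat_lit 328) (nat_lit 251) (nat_lit 141)) (XT.lf (nat_lit 0) (nat_lit 556656947977) (nat_lit 152) (nat_lit 418946318583) (nat_lit 0) (nat_lit 516086695599) (nat_lit 1) (nat_lit 5) (nat_lit 3) (nat_lit 4) (nat_lit 1) (nat_lit 4) (nat_lit 329) (nat_lit 251) (nat_lit 140))) (XT.nd (nat_lit 78) (nat_lit 0) (nat_lit 0) (XT.lf (nat_lit 0) (nat_lit 607232167655) (nat_lit 152) (nat_lit 436345249249) (nat_lit 0) (nat_lit 566661329244) (nat_lit 1) (nat_lit 5) (nat_lit 3) (nat_lit 4)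 (nat_lit 1) (nat_lit 4) (nat_lit 330) (nat_lit 251) (nat_lit 139)) (XT.lf (nat_lit 0) (nat_lit 661853146639) (nat_lit 152) (nat_lit 455136542478) (nat_lit 0) (nat_lit 621281765606) (nat_lit 1) (nat_lit 5) (nat_lit 3) (nat_lit 4) (nat_lit 1) (nat_lit 4) (nat_lit 331) (nat_lit 251) (nat_lit 138))))) (XT.nd (nat_lit 234) (nat_lit 0) (nat_lit 0) (XT.nd (nat_lit 78) (nat_lit 0) (nat_lit 0) (XT.lf (nat_lit 0) (nat_lit 720843564804) (nat_lit 152) (nat_lit 475431554082) (nat_lit 0) (nat_lit 680271681343) (nat_lit 1) (nat_lit 5) (nat_lit 3) (nat_lit 4) (nat_lit 1) (nat_lit 4) (nat_lit 332) (nat_lit 251) (nat_lit 137)) (XT.nd (nat_lit 78) (nat_lit 0) (nat_lit 0) (XT.lf (nat_lit 0) (nat_lit 784552994999) (nat_lit 152) (nat_lit 497350550795) (nat_lit 0) (nat_lit 743980646326) (nat_lit 1) (nat_lit 5) (nat_lit 3) (nat_lit 4) (nat_lit 1) (nat_lit 4) (nat_lit 333) (nat_lit 251) (nat_lit 136)) (XT.lf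 (nat_lit 0) (nat_lit 853358974589) (nat_lit 152) (nat_lit 521023422969) (nat_lit 0) (nat_lit 812786195164) (nat_lit 1) (nat_lit 5) (nat_lit 3) (nat_lit 4) (nat_lit 1) (nat_lit 4) (nat_lit 334) (nat_lit 251) (nat_lit 135)))) (XT.nd (nat_lit 156) (nat_lit 0) (nat_lit 0) (XT.nd (nat_lit 78) (nat_lit 0) (nat_lit 0) (XT.lf (nat_lit 0) (nat_lit 927669242710) (nat_lit 152) (nat_lit 546590454291) (nat_lit 0) (nat_lit 887096064442) (nat_lit 1) (nat_lit 5) (nat_lit 3) (nat_lit 4) (nat_lit 1) (nat_lit 4) (nat_lit 335) (nat_lit 251) (nat_lit 134)) (XT.lf (nat_lit 0) (nat_lit 1007924156508) (nat_lit 152) (nat_lit 574203153095) (nat_lit 0) (nat_lit 967350608940) (nat_lit 1) (nat_lit 5) (nat_lit 3) (nat_lit 4) (nat_lit 1) (nat_lit 4) (nat_lit 336) (nat_lit 251) (nat_lit 133))) (XT.nd (nat_lit 78) (nat_lit 0) (nat_lit 0) (XT.lf (nat_lit 0) (nat_lit 1094599300658) (nat_lit 152) (nat_lit 604025150187)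 (nat_lit 0) (nat_lit 1054025411145) (nat_lit 1) (nat_lit 5) (nat_lit 3) (nat_lit 4) (nat_lit 1) (nat_lit 4) (nat_lit 337) (nat_lit 251) (nat_lit 132)) (XT.lf (nat_lit 0) (nat_lit 1188208305642) (nat_lit 152) (nat_lit 636233168515) (nat_lit 0) (nat_lit 1147634099514) (nat_lit 1) (nat_lit 5) (nat_lit 3) (nat_lit 4) (nat_lit 1) (nat_lit 4) (nat_lit 338) (nat_lit 251) (nat_lit 131))))))))
noncomputable def xc74 : XT := (XT.nd (nat_lit 32526) (nat_lit 0) (nat_lit 152) (XT.nd (nat_lit 31434) (nat_lit 0) (nat_lit 684) (XT.nd (nat_lit 30888) (nat_lit 0) (nat_lit 1748) (XT.nd (nat_lit 234) (nat_lit 0) (nat_lit 0) (XT.nd (nat_lit 78) (nat_lit 0) (nat_lit 0) (XT.lf (nat_lit 0) (nat_lit 1289305891491) (nat_lit 152) (nat_lit 671018070408) (nat_lit 0) (nat_lit 1248731392201) (nat_lit 1) (nat_lit 5) (nat_lit 3) (nat_lit 4) (nat_lit 1) (nat_lit 4) (nat_lit 339) (nat_lit 251) (nat_lit 130)) (XT.nd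 (nat_lit 78) (nat_lit 0) (nat_lit 0) (XT.lf (nat_lit 0) (nat_lit 1398491155009) (nat_lit 152) (nat_lit 708585988619) (nat_lit 0) (nat_lit 1357916384273) (nat_lit 1) (nat_lit 5) (nat_lit 3) (nat_lit 4) (nat_lit 1) (nat_lit 4) (nat_lit 340) (nat_lit 251) (nat_lit 129)) (XT.lf (nat_lit 0) (nat_lit 1516411119981) (nat_lit 152) (nat_lit 749159547848) (nat_lit 0) (nat_lit 1475836097905) (nat_lit 1) (nat_lit 5) (nat_lit 3) (nat_lit 4) (nat_lit 1) (nat_lit 4) (nat_lit 341) (nat_lit 251) (nat_lit 128)))) (XT.nd (nat_lit 30498) (nat_lit 0) (nat_lit 1976) (XT.lf (nat_lit 0) (nat_lit 1643764571383) (nat_lit 152) (nat_lit 792979184002) (nat_lit 0) (nat_lit 1603189316585) (nat_lit 1) (nat_lit 5) (nat_lit 3) (nat_lit 4) (nat_lit 1) (nat_lit 4) (nat_lit 342) (nat_lit 251) (nat_lit 127)) (XT.nd (nat_lit 78) (nat_lit 0) (nat_lit 0) (XT.lf (nat_lit 0) (nat_lit 1141112710) (nat_lit 0) (nat_lit 1141112710)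 (nat_lit 380) (nat_lit 3124868130) (nat_lit 27) (nat_lit 5) (nat_lit 27) (nat_lit 3) (nat_lit 32) (nat_lit 3) (nat_lit 252) (nat_lit 252) (nat_lit 216)) (XT.lf (nat_lit 0) (nat_lit 5272835944) (nat_lit 380) (nat_lit 4531087635) (nat_lit 456) (nat_lit 1395087316) (nat_lit 27) (nat_lit 5) (nat_lit 32) (nat_lit 3) (nat_lit 33) (nat_lit 5) (nat_lit 253) (nat_lit 252) (nat_lit 215))))) (XT.nd (nat_lit 234) (nat_lit 228) (nat_lit 0) (XT.nd (nat_lit 78) (nat_lit 0) (nat_lit 0) (XT.lf (nat_lit 0) (nat_lit 6048688099) (nat_lit 380) (nat_lit 299042539) (nat_lit 456) (nat_lit 5266594436) (nat_lit 27) (nat_lit 5) (nat_lit 32) (nat_lit 3) (nat_lit 33) (nat_lit 5) (nat_lit 254) (nat_lit 252) (nat_lit 214)) (XT.nd (nat_lit 78) (nat_lit 0) (nat_lit 76) (XT.lf (nat_lit 76) (nat_lit 4467628855) (nat_lit 0) (nat_lit 2481535101) (nat_lit 456) (nat_lit 5109222089) (nat_lit 28) (nat_lit 5) (nat_lit 27)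 (nat_lit 5) (nat_lit 33) (nat_lit 5) (nat_lit 255) (nat_lit 252) (nat_lit 213)) (XT.lf (nat_lit 0) (nat_lit 7928969820) (nat_lit 380) (nat_lit 2976596971) (nat_lit 456) (nat_lit 1632308875) (nat_lit 28) (nat_lit 5) (nat_lit 33) (nat_lit 5) (nat_lit 34) (nat_lit 5) (nat_lit 256) (nat_lit 252) (nat_lit 212)))) (XT.nd (nat_lit 156) (nat_lit 304) (nat_lit 0) (XT.nd (nat_lit 78) (nat_lit 0) (nat_lit 0) (XT.lf (nat_lit 76) (nat_lit 2014331649) (nat_lit 0) (nat_lit 7046991211) (nat_lit 456) (nat_lit 3988919625) (nat_lit 29) (nat_lit 5) (nat_lit 28) (nat_lit 5) (nat_lit 34) (nat_lit 5) (nat_lit 257) (nat_lit 252) (nat_lit 211)) (XT.lf (nat_lit 76) (nat_lit 7545868204) (nat_lit 0) (nat_lit 2783241190) (nat_lit 456) (nat_lit 3271319267) (nat_lit 29) (nat_lit 5) (nat_lit 28) (nat_lit 5) (nat_lit 34) (nat_lit 5) (nat_lit 258) (nat_lit 252) (nat_lit 210))) (XT.nd (nat_lit 78) (nat_lit 380) (nat_lit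 0) (XT.lf (nat_lit 0) (nat_lit 11708486420) (nat_lit 380) (nat_lit 747674333) (nat_lit 76) (nat_lit 1738042272) (nat_lit 29) (nat_lit 5) (nat_lit 34) (nat_lit 5) (nat_lit 30) (nat_lit 5) (nat_lit 259) (nat_lit 252) (nat_lit 209)) (XT.lf (nat_lit 0) (nat_lit 5141675790) (nat_lit 380) (nat_lit 8221337066) (nat_lit 456) (nat_lit 1459640597) (nat_lit 24) (nat_lit 5) (nat_lit 29) (nat_lit 5) (nat_lit 30) (nat_lit 5) (nat_lit 260) (nat_lit 252) (nat_lit 208)))))) (XT.nd (nat_lit 546) (nat_lit 380) (nat_lit 0) (XT.nd (nat_lit 234) (nat_lit 380) (nat_lit 0) (XT.nd (nat_lit 78) (nat_lit 304) (nat_lit 0) (XT.lf (nat_lit 0) (nat_lit 11518376070) (nat_lit 380) (nat_lit 3622492372) (nat_lit 456) (nat_lit 361565639) (nat_lit 24) (nat_lit 5) (nat_lit 29) (nat_lit 5) (nat_lit 30) (nat_lit 5) (nat_lit 261) (nat_lit 252) (nat_lit 207)) (XT.nd (nat_lit 78) (nat_lit 0) (nat_lit 0) (XT.lf (nat_lit 0)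 (nat_lit 842854695) (nat_lit 304) (nat_lit 14033130726) (nat_lit 76) (nat_lit 1354530956) (nat_lit 20) (nat_lit 5) (nat_lit 24) (nat_lit 5) (nat_lit 21) (nat_lit 5) (nat_lit 262) (nat_lit 252) (nat_lit 206)) (XT.lf (nat_lit 0) (nat_lit 2303168079) (nat_lit 304) (nat_lit 8042441816) (nat_lit 76) (nat_lit 6656421367) (nat_lit 20) (nat_lit 5) (nat_lit 24) (nat_lit 5) (nat_lit 21) (nat_lit 5) (nat_lit 263) (nat_lit 252) (nat_lit 205)))) (XT.nd (nat_lit 156) (nat_lit 152) (nat_lit 0) (XT.nd (nat_lit 78) (nat_lit 228) (nat_lit 0) (XT.lf (nat_lit 0) (nat_lit 3855512141) (nat_lit 304) (nat_lit 1598350910) (nat_lit 76) (nat_lit 12383631522) (nat_lit 20) (nat_lit 5) (nat_lit 24) (nat_lit 5) (nat_lit 21) (nat_lit 5) (nat_lit 264) (nat_lit 252) (nat_lit 204)) (XT.lf (nat_lit 0) (nat_lit 5618383491) (nat_lit 228) (nat_lit 25824725) (nat_lit 304) (nat_lit 13086839210) (nat_lit 17) (nat_lit 5) (nat_lit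 20) (nat_lit 5) (nat_lit 21) (nat_lit 5) (nat_lit 265) (nat_lit 252) (nat_lit 203))) (XT.nd (nat_lit 78) (nat_lit 152) (nat_lit 0) (XT.lf (nat_lit 0) (nat_lit 7739349023) (nat_lit 304) (nat_lit 6355984149) (nat_lit 76) (nat_lit 5587892332) (nat_lit 17) (nat_lit 5) (nat_lit 21) (nat_lit 5) (nat_lit 18) (nat_lit 5) (nat_lit 266) (nat_lit 252) (nat_lit 202)) (XT.lf (nat_lit 0) (nat_lit 965476645) (nat_lit 152) (nat_lit 9040279091) (nat_lit 228) (nat_lit 10705723166) (nat_lit 15) (nat_lit 5) (nat_lit 17) (nat_lit 5) (nat_lit 18) (nat_lit 5) (nat_lit 267) (nat_lit 252) (nat_lit 201))))) (XT.nd (nat_lit 234) (nat_lit 228) (nat_lit 0) (XT.nd (nat_lit 78) (nat_lit 152) (nat_lit 0) (XT.lf (nat_lit 0) (nat_lit 9211336989) (nat_lit 152) (nat_lit 3396636908) (nat_lit 228) (nat_lit 9201837878) (nat_lit 15) (nat_lit 5) (nat_lit 17) (nat_lit 5) (nat_lit 18) (nat_lit 5) (nat_lit 268) (nat_lit 252)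 (nat_lit 200)) (XT.nd (nat_lit 78) (nat_lit 152) (nat_lit 0) (XT.lf (nat_lit 0) (nat_lit 15465333974) (nat_lit 228) (nat_lit 4966660169) (nat_lit 76) (nat_lit 2560425824) (nat_lit 15) (nat_lit 5) (nat_lit 18) (nat_lit 5) (nat_lit 16) (nat_lit 5) (nat_lit 269) (nat_lit 252) (nat_lit 199)) (XT.lf (nat_lit 0) (nat_lit 3333278497) (nat_lit 152) (nat_lit 15369788155) (nat_lit 228) (nat_lit 5554581025) (nat_lit 13) (nat_lit 5) (nat_lit 15) (nat_lit 5) (nat_lit 16) (nat_lit 5) (nat_lit 270) (nat_lit 252) (nat_lit 198)))) (XT.nd (nat_lit 156) (nat_lit 228) (nat_lit 0) (XT.nd (nat_lit 78) (nat_lit 0) (nat_lit 0) (XT.lf (nat_lit 0) (nat_lit 12559259898) (nat_lit 152) (nat_lit 9760488562) (nat_lit 228) (nat_lit 3294892889) (nat_lit 13) (nat_lit 5) (nat_lit 15) (nat_lit 5) (nat_lit 16) (nat_lit 5) (nat_lit 271) (nat_lit 252) (nat_lit 197)) (XT.lf (nat_lit 0) (nat_lit 22504420992) (nat_lit 152)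 (nat_lit 3706652361) (nat_lit 228) (nat_lit 870428134) (nat_lit 13) (nat_lit 5) (nat_lit 15) (nat_lit 5) (nat_lit 16) (nat_lit 5) (nat_lit 272) (nat_lit 252) (nat_lit 196))) (XT.nd (nat_lit 78) (nat_lit 0) (nat_lit 0) (XT.lf (nat_lit 0) (nat_lit 1832945163) (nat_lit 228) (nat_lit 23969431548) (nat_lit 76) (nat_lit 2846292007) (nat_lit 10) (nat_lit 5) (nat_lit 13) (nat_lit 5) (nat_lit 11) (nat_lit 5) (nat_lit 273) (nat_lit 252) (nat_lit 195)) (XT.lf (nat_lit 0) (nat_lit 4916668659) (nat_lit 228) (nat_lit 15535933563) (nat_lit 76) (nat_lit 9870014452) (nat_lit 10) (nat_lit 5) (nat_lit 13) (nat_lit 5) (nat_lit 11) (nat_lit 5) (nat_lit 274) (nat_lit 252) (nat_lit 194))))))) (XT.nd (nat_lit 1014) (nat_lit 152) (nat_lit 0) (XT.nd (nat_lit 468) (nat_lit 152) (nat_lit 0) (XT.nd (nat_lit 234) (nat_lit 76) (nat_lit 0) (XT.nd (nat_lit 78) (nat_lit 152) (nat_lit 0) (XT.lf (nat_lit 0) (nat_lit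 8234528324) (nat_lit 228) (nat_lit 6445314078) (nat_lit 76) (nat_lit 17451739772) (nat_lit 10) (nat_lit 5) (nat_lit 13) (nat_lit 5) (nat_lit 11) (nat_lit 5) (nat_lit 275) (nat_lit 252) (nat_lit 193)) (XT.nd (nat_lit 78) (nat_lit 0) (nat_lit 0) (XT.lf (nat_lit 0) (nat_lit 3533033907) (nat_lit 152) (nat_lit 8358121191) (nat_lit 228) (nat_lit 22188332351) (nat_lit 8) (nat_lit 5) (nat_lit 10) (nat_lit 5) (nat_lit 11) (nat_lit 5) (nat_lit 276) (nat_lit 252) (nat_lit 192)) (XT.lf (nat_lit 0) (nat_lit 14660354321) (nat_lit 152) (nat_lit 1345033261) (nat_lit 228) (nat_lit 20164714485) (nat_lit 8) (nat_lit 5) (nat_lit 10) (nat_lit 5) (nat_lit 11) (nat_lit 5) (nat_lit 277) (nat_lit 252) (nat_lit 191)))) (XT.nd (nat_lit 78) (nat_lit 76) (nat_lit 0) (XT.lf (nat_lit 0) (nat_lit 20588139390) (nat_lit 228) (nat_lit 11915386120) (nat_lit 76) (nat_lit 5913366706) (nat_lit 8) (nat_lit 5) (nat_lit 11)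 (nat_lit 5) (nat_lit 9) (nat_lit 4) (nat_lit 278) (nat_lit 252) (nat_lit 190)) (XT.nd (nat_lit 78) (nat_lit 76) (nat_lit 0) (XT.lf (nat_lit 0) (nat_lit 25562790493) (nat_lit 228) (nat_lit 1602736110) (nat_lit 76) (nat_lit 13675947770) (nat_lit 8) (nat_lit 5) (nat_lit 11) (nat_lit 5) (nat_lit 9) (nat_lit 4) (nat_lit 279) (nat_lit 252) (nat_lit 189)) (XT.lf (nat_lit 0) (nat_lit 10023056231) (nat_lit 76) (nat_lit 21144470735) (nat_lit 152) (nat_lit 12273992936) (nat_lit 7) (nat_lit 5) (nat_lit 8) (nat_lit 5) (nat_lit 9) (nat_lit 4) (nat_lit 280) (nat_lit 252) (nat_lit 188))))) (XT.nd (nat_lit 234) (nat_lit 152) (nat_lit 0) (XT.nd (nat_lit 78) (nat_lit 0) (nat_lit 0) (XT.lf (nat_lit 0) (nat_lit 22657133233) (nat_lit 76) (nat_lit 14598740726) (nat_lit 152) (nat_lit 8990937568) (nat_lit 7) (nat_lit 5) (nat_lit 8) (nat_lit 5) (nat_lit 9) (nat_lit 4) (nat_lit 281) (nat_lit 252) (nat_lit 187))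 (XT.nd (nat_lit 78) (nat_lit 0) (nat_lit 0) (XT.lf (nat_lit 0) (nat_lit 36289966256) (nat_lit 76) (nat_lit 7533368710) (nat_lit 152) (nat_lit 5453884279) (nat_lit 7) (nat_lit 5) (nat_lit 8) (nat_lit 5) (nat_lit 9) (nat_lit 4) (nat_lit 282) (nat_lit 252) (nat_lit 186)) (XT.lf (nat_lit 0) (nat_lit 50911077297) (nat_lit 152) (nat_lit 1550607589) (nat_lit 0) (nat_lit 88836224) (nat_lit 7) (nat_lit 5) (nat_lit 9) (nat_lit 4) (nat_lit 7) (nat_lit 4) (nat_lit 283) (nat_lit 252) (nat_lit 185)))) (XT.nd (nat_lit 156) (nat_lit 0) (nat_lit 0) (XT.nd (nat_lit 78) (nat_lit 0) (nat_lit 0) (XT.lf (nat_lit 0) (nat_lit 2824894264) (nat_lit 152) (nat_lit 44968280175) (nat_lit 76) (nat_lit 8250280920) (nat_lit 5) (nat_lit 5) (nat_lit 7) (nat_lit 5) (nat_lit 6) (nat_lit 4) (nat_lit 284) (nat_lit 252) (nat_lit 184)) (XT.lf (nat_lit 0) (nat_lit 7594446108) (nat_lit 152) (nat_lit 35067815276) (nat_lit 76)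 (nat_lit 17147266690) (nat_lit 5) (nat_lit 5) (nat_lit 7) (nat_lit 5) (nat_lit 6) (nat_lit 4) (nat_lit 285) (nat_lit 252) (nat_lit 183))) (XT.nd (nat_lit 78) (nat_lit 0) (nat_lit 0) (XT.lf (nat_lit 0) (nat_lit 12739211827) (nat_lit 152) (nat_lit 24385409004) (nat_lit 76) (nat_lit 26752812226) (nat_lit 5) (nat_lit 5) (nat_lit 7) (nat_lit 5) (nat_lit 6) (nat_lit 4) (nat_lit 286) (nat_lit 252) (nat_lit 182)) (XT.lf (nat_lit 0) (nat_lit 18289678921) (nat_lit 152) (nat_lit 12857758210) (nat_lit 76) (nat_lit 37123839280) (nat_lit 5) (nat_lit 5) (nat_lit 7) (nat_lit 5) (nat_lit 6) (nat_lit 4) (nat_lit 287) (nat_lit 252) (nat_lit 181)))))) (XT.nd (nat_lit 546) (nat_lit 76) (nat_lit 0) (XT.nd (nat_lit 234) (nat_lit 0) (nat_lit 0) (XT.nd (nat_lit 78) (nat_lit 76) (nat_lit 0) (XT.lf (nat_lit 0) (nat_lit 24278739048) (nat_lit 152) (nat_lit 416550890) (nat_lit 76) (nat_lit 48321805790) (nat_lit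 5) (nat_lit 5) (nat_lit 7) (nat_lit 5) (nat_lit 6) (nat_lit 4) (nat_lit 288) (nat_lit 252) (nat_lit 180)) (XT.nd (nat_lit 78) (nat_lit 0) (nat_lit 0) (XT.lf (nat_lit 0) (nat_lit 13697124257) (nat_lit 76) (nat_lit 17374174843) (nat_lit 152) (nat_lit 47045361987) (nat_lit 4) (nat_lit 5) (nat_lit 5) (nat_lit 5) (nat_lit 6) (nat_lit 4) (nat_lit 289) (nat_lit 252) (nat_lit 179)) (XT.lf (nat_lit 0) (nat_lit 28955771545) (nat_lit 76) (nat_lit 9458026146) (nat_lit 152) (nat_lit 45209899532) (nat_lit 4) (nat_lit 5) (nat_lit 5) (nat_lit 5) (nat_lit 6) (nat_lit 4) (nat_lit 290) (nat_lit 252) (nat_lit 178)))) (XT.nd (nat_lit 156) (nat_lit 0) (nat_lit 0) (XT.nd (nat_lit 78) (nat_lit 0) (nat_lit 0) (XT.lf (nat_lit 0) (nat_lit 45427877755) (nat_lit 76) (nat_lit 911322574) (nat_lit 152) (nat_lit 43232481741) (nat_lit 4) (nat_lit 5) (nat_lit 5) (nat_lit 5) (nat_lit 6) (nat_lit 4) (nat_lit 291) (nat_lit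 252) (nat_lit 177)) (XT.lf (nat_lit 0) (nat_lit 55094486385) (nat_lit 152) (nat_lit 32984821602) (nat_lit 0) (nat_lit 7900553839) (nat_lit 4) (nat_lit 5) (nat_lit 6) (nat_lit 4) (nat_lit 4) (nat_lit 4) (nat_lit 292) (nat_lit 252) (nat_lit 176))) (XT.nd (nat_lit 78) (nat_lit 0) (nat_lit 0) (XT.lf (nat_lit 0) (nat_lit 64569955150) (nat_lit 152) (nat_lit 20963266345) (nat_lit 0) (nat_lit 17365916104) (nat_lit 4) (nat_lit 5) (nat_lit 6) (nat_lit 4) (nat_lit 4) (nat_lit 4) (nat_lit 293) (nat_lit 252) (nat_lit 175)) (XT.lf (nat_lit 0) (nat_lit 74799840218) (nat_lit 152) (nat_lit 7985982369) (nat_lit 0) (nat_lit 27586443304) (nat_lit 4) (nat_lit 5) (nat_lit 6) (nat_lit 4) (nat_lit 4) (nat_lit 4) (nat_lit 294) (nat_lit 252) (nat_lit 174))))) (XT.nd (nat_lit 234) (nat_lit 0) (nat_lit 0) (XT.nd (nat_lit 78) (nat_lit 0) (nat_lit 0) (XT.lf (nat_lit 0) (nat_lit 6341142372) (nat_lit 76) (nat_lit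 79656125387) (nat_lit 76) (nat_lit 32434063779) (nat_lit 3) (nat_lit 4) (nat_lit 4) (nat_lit 5) (nat_lit 4) (nat_lit 4) (nat_lit 295) (nat_lit 252) (nat_lit 173)) (XT.nd (nat_lit 78) (nat_lit 0) (nat_lit 0) (XT.lf (nat_lit 0) (nat_lit 22263195957) (nat_lit 76) (nat_lit 76042409728) (nat_lit 76) (nat_lit 28812325256) (nat_lit 3) (nat_lit 4) (nat_lit 4) (nat_lit 5) (nat_lit 4) (nat_lit 4) (nat_lit 296) (nat_lit 252) (nat_lit 172)) (XT.lf (nat_lit 0) (nat_lit 39454003617) (nat_lit 76) (nat_lit 72141611911) (nat_lit 76) (nat_lit 24904098861) (nat_lit 3) (nat_lit 4) (nat_lit 4) (nat_lit 5) (nat_lit 4) (nat_lit 4) (nat_lit 297) (nat_lit 252) (nat_lit 171)))) (XT.nd (nat_lit 156) (nat_lit 0) (nat_lit 0) (XT.nd (nat_lit 78) (nat_lit 0) (nat_lit 0) (XT.lf (nat_lit 0) (nat_lit 58015436804) (nat_lit 76) (nat_lit 67930616096) (nat_lit 76) (nat_lit 20686224733) (nat_lit 3) (nat_lit 4) (nat_lit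 4) (nat_lit 5) (nat_lit 4) (nat_lit 4) (nat_lit 298) (nat_lit 252) (nat_lit 170)) (XT.lf (nat_lit 0) (nat_lit 78057489196) (nat_lit 76) (nat_lit 63384468235) (nat_lit 76) (nat_lit 16133708063) (nat_lit 3) (nat_lit 4) (nat_lit 4) (nat_lit 5) (nat_lit 4) (nat_lit 4) (nat_lit 299) (nat_lit 252) (nat_lit 169))) (XT.nd (nat_lit 78) (nat_lit 0) (nat_lit 0) (XT.lf (nat_lit 0) (nat_lit 99698928511) (nat_lit 76) (nat_lit 58476228191) (nat_lit 76) (nat_lit 11219570974) (nat_lit 3) (nat_lit 4) (nat_lit 4) (nat_lit 5) (nat_lit 4) (nat_lit 4) (nat_lit 300) (nat_lit 252) (nat_lit 168)) (XT.lf (nat_lit 0) (nat_lit 123068000316) (nat_lit 76) (nat_lit 53176810097) (nat_lit 76) (nat_lit 5914692654) (nat_lit 3) (nat_lit 4) (nat_lit 4) (nat_lit 5) (nat_lit 4) (nat_lit 4) (nat_lit 301) (nat_lit 252) (nat_lit 167))))))))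
noncomputable def xc75 : XT := (XT.nd (nat_lit 2106) (nat_lit 0) (nat_lit 0) (XT.nd (nat_lit 1014) (nat_lit 0) (nat_lit 0) (XT.nd (nat_lit 468) (nat_lit 0) (nat_lit 0) (XT.nd (nat_lit 234) (nat_lit 76) (nat_lit 0) (XT.nd (nat_lit 78) (nat_lit 76) (nat_lit 0) (XT.lf (nat_lit 0) (nat_lit 148303187999) (nat_lit 76) (nat_lit 47454809996) (nat_lit 76) (nat_lit 187636787) (nat_lit 3) (nat_lit 4) (nat_lit 4) (nat_lit 5) (nat_lit 4) (nat_lit 4) (nat_lit 302) (nat_lit 252) (nat_lit 166)) (XT.nd (nat_lit 78) (nat_lit 0) (nat_lit 0) (XT.lf (nat_lit 0) (nat_lit 5695613805) (nat_lit 152) (nat_lit 35424977757) (nat_lit 76) (nat_lit 169702691433) (nat_lit 2) (nat_lit 5) (nat_lit 4) (nat_lit 5) (nat_lit 3) (nat_lit 4) (nat_lit 303) (nat_lit 252) (nat_lit 165)) (XT.lf (nat_lit 0) (nat_lit 12037585034) (nat_lit 152) (nat_lit 22238012104) (nat_lit 76) (nat_lit 192615309107) (nat_lit 2) (nat_lit 5) (nat_lit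 4) (nat_lit 5) (nat_lit 3) (nat_lit 4) (nat_lit 304) (nat_lit 252) (nat_lit 164)))) (XT.nd (nat_lit 78) (nat_lit 76) (nat_lit 0) (XT.lf (nat_lit 0) (nat_lit 18885245303) (nat_lit 152) (nat_lit 7998892174) (nat_lit 76) (nat_lit 217359943616) (nat_lit 2) (nat_lit 5) (nat_lit 4) (nat_lit 5) (nat_lit 3) (nat_lit 4) (nat_lit 305) (nat_lit 252) (nat_lit 163)) (XT.nd (nat_lit 78) (nat_lit 0) (nat_lit 0) (XT.lf (nat_lit 0) (nat_lit 7765209216) (nat_lit 76) (nat_lit 18700717591) (nat_lit 152) (nat_lit 236504774084) (nat_lit 1) (nat_lit 5) (nat_lit 2) (nat_lit 5) (nat_lit 3) (nat_lit 4) (nat_lit 306) (nat_lit 252) (nat_lit 162)) (XT.lf (nat_lit 0) (nat_lit 25242813161) (nat_lit 76) (nat_lit 9627462114) (nat_lit 152) (nat_lit 248307805070) (nat_lit 1) (nat_lit 5) (nat_lit 2) (nat_lit 5) (nat_lit 3) (nat_lit 4) (nat_lit 307) (nat_lit 252) (nat_lit 161))))) (XT.nd (nat_lit 234) (nat_lit 0) (nat_lit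 0) (XT.nd (nat_lit 78) (nat_lit 0) (nat_lit 0) (XT.lf (nat_lit 0) (nat_lit 43949695815) (nat_lit 152) (nat_lit 260889989177) (nat_lit 0) (nat_lit 162153774) (nat_lit 1) (nat_lit 5) (nat_lit 3) (nat_lit 4) (nat_lit 1) (nat_lit 4) (nat_lit 308) (nat_lit 252) (nat_lit 160)) (XT.nd (nat_lit 78) (nat_lit 0) (nat_lit 0) (XT.lf (nat_lit 0) (nat_lit 54004233868) (nat_lit 152) (nat_lit 264333408589) (nat_lit 0) (nat_lit 10213960354) (nat_lit 1) (nat_lit 5) (nat_lit 3) (nat_lit 4) (nat_lit 1) (nat_lit 4) (nat_lit 309) (nat_lit 252) (nat_lit 159)) (XT.lf (nat_lit 0) (nat_lit 64861931188) (nat_lit 152) (nat_lit 268054390171) (nat_lit 0) (nat_lit 21069128533) (nat_lit 1) (nat_lit 5) (nat_lit 3) (nat_lit 4) (nat_lit 1) (nat_lit 4) (nat_lit 310) (nat_lit 252) (nat_lit 158)))) (XT.nd (nat_lit 156) (nat_lit 0) (nat_lit 0) (XT.nd (nat_lit 78) (nat_lit 0) (nat_lit 0) (XT.lf (nat_lit 0) (nat_lit 76587129685)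 (nat_lit 152) (nat_lit 272074984187) (nat_lit 0) (nat_lit 32791985232) (nat_lit 1) (nat_lit 5) (nat_lit 3) (nat_lit 4) (nat_lit 1) (nat_lit 4) (nat_lit 311) (nat_lit 252) (nat_lit 157)) (XT.lf (nat_lit 0) (nat_lit 89249312017) (nat_lit 152) (nat_lit 276419016378) (nat_lit 0) (nat_lit 45451999233) (nat_lit 1) (nat_lit 5) (nat_lit 3) (nat_lit 4) (nat_lit 1) (nat_lit 4) (nat_lit 312) (nat_lit 252) (nat_lit 156))) (XT.nd (nat_lit 78) (nat_lit 0) (nat_lit 0) (XT.lf (nat_lit 0) (nat_lit 102923513339) (nat_lit 152) (nat_lit 281112229157) (nat_lit 0) (nat_lit 59124192841) (nat_lit 1) (nat_lit 5) (nat_lit 3) (nat_lit 4) (nat_lit 1) (nat_lit 4) (nat_lit 313) (nat_lit 252) (nat_lit 155)) (XT.lf (nat_lit 0) (nat_lit 117690765954) (nat_lit 152) (nat_lit 286182434155) (nat_lit 0) (nat_lit 73889586462) (nat_lit 1) (nat_lit 5) (nat_lit 3) (nat_lit 4) (nat_lit 1) (nat_lit 4) (nat_lit 314) (nat_lit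 252) (nat_lit 154)))))) (XT.nd (nat_lit 546) (nat_lit 0) (nat_lit 0) (XT.nd (nat_lit 234) (nat_lit 0) (nat_lit 0) (XT.nd (nat_lit 78) (nat_lit 0) (nat_lit 0) (XT.lf (nat_lit 0) (nat_lit 133638579507) (nat_lit 152) (nat_lit 291659677032) (nat_lit 0) (nat_lit 89835678724) (nat_lit 1) (nat_lit 5) (nat_lit 3) (nat_lit 4) (nat_lit 1) (nat_lit 4) (nat_lit 315) (nat_lit 252) (nat_lit 153)) (XT.nd (nat_lit 78) (nat_lit 0) (nat_lit 0) (XT.lf (nat_lit 0) (nat_lit 150861459562) (nat_lit 152) (nat_lit 297576415523) (nat_lit 0) (nat_lit 107056964990) (nat_lit 1) (nat_lit 5) (nat_lit 3) (nat_lit 4) (nat_lit 1) (nat_lit 4) (nat_lit 316) (nat_lit 252) (nat_lit 152)) (XT.lf (nat_lit 0) (nat_lit 169461467628) (nat_lit 152) (nat_lit 303967711782) (nat_lit 0) (nat_lit 125655497327) (nat_lit 1) (nat_lit 5) (nat_lit 3) (nat_lit 4) (nat_lit 1) (nat_lit 4) (nat_lit 317) (nat_lit 252) (nat_lit 151)))) (XT.nd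 (nat_lit 156) (nat_lit 0) (nat_lit 0) (XT.nd (nat_lit 78) (nat_lit 0) (nat_lit 0) (XT.lf (nat_lit 0) (nat_lit 189548825976) (nat_lit 152) (nat_lit 310871440158) (nat_lit 0) (nat_lit 145741489259) (nat_lit 1) (nat_lit 5) (nat_lit 3) (nat_lit 4) (nat_lit 1) (nat_lit 4) (nat_lit 318) (nat_lit 252) (nat_lit 150)) (XT.lf (nat_lit 0) (nat_lit 211242570804) (nat_lit 152) (nat_lit 318328511633) (nat_lit 0) (nat_lit 167433968886) (nat_lit 1) (nat_lit 5) (nat_lit 3) (nat_lit 4) (nat_lit 1) (nat_lit 4) (nat_lit 319) (nat_lit 252) (nat_lit 149))) (XT.nd (nat_lit 78) (nat_lit 0) (nat_lit 0) (XT.lf (nat_lit 0) (nat_lit 234671257636) (nat_lit 152) (nat_lit 326383116261) (nat_lit 0) (nat_lit 190861484237) (nat_lit 1) (nat_lit 5) (nat_lit 3) (nat_lit 4) (nat_lit 1) (nat_lit 4) (nat_lit 320) (nat_lit 252) (nat_lit 148)) (XT.lf (nat_lit 0) (nat_lit 259973723136) (nat_lit 152) (nat_lit 335082985031)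 (nat_lit 0) (nat_lit 216162865031) (nat_lit 1) (nat_lit 5) (nat_lit 3) (nat_lit 4) (nat_lit 1) (nat_lit 4) (nat_lit 321) (nat_lit 252) (nat_lit 147))))) (XT.nd (nat_lit 234) (nat_lit 0) (nat_lit 0) (XT.nd (nat_lit 78) (nat_lit 0) (nat_lit 0) (XT.lf (nat_lit 0) (nat_lit 287299907839) (nat_lit 152) (nat_lit 344479672723) (nat_lit 0) (nat_lit 243488045377) (nat_lit 1) (nat_lit 5) (nat_lit 3) (nat_lit 4) (nat_lit 1) (nat_lit 4) (nat_lit 322) (nat_lit 252) (nat_lit 146)) (XT.nd (nat_lit 78) (nat_lit 0) (nat_lit 0) (XT.lf (nat_lit 0) (nat_lit 316811744692) (nat_lit 152) (nat_lit 354628863410) (nat_lit 0) (nat_lit 272998952270) (nat_lit 1) (nat_lit 5) (nat_lit 3) (nat_lit 4) (nat_lit 1) (nat_lit 4) (nat_lit 323) (nat_lit 252) (nat_lit 145)) (XT.lf (nat_lit 0) (nat_lit 348684118654) (nat_lit 152) (nat_lit 365590700446) (nat_lit 0) (nat_lit 304870465157) (nat_lit 1) (nat_lit 5) (nat_lit 3)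 (nat_lit 4) (nat_lit 1) (nat_lit 4) (nat_lit 324) (nat_lit 252) (nat_lit 144)))) (XT.nd (nat_lit 156) (nat_lit 0) (nat_lit 0) (XT.nd (nat_lit 78) (nat_lit 0) (nat_lit 0) (XT.lf (nat_lit 0) (nat_lit 383105903052) (nat_lit 152) (nat_lit 377430142865) (nat_lit 0) (nat_lit 339291452265) (nat_lit 1) (nat_lit 5) (nat_lit 3) (nat_lit 4) (nat_lit 1) (nat_lit 4) (nat_lit 325) (nat_lit 252) (nat_lit 143)) (XT.lf (nat_lit 0) (nat_lit 420281078831) (nat_lit 152) (nat_lit 390217350324) (nat_lit 0) (nat_lit 376465889811) (nat_lit 1) (nat_lit 5) (nat_lit 3) (nat_lit 4) (nat_lit 1) (nat_lit 4) (nat_lit 326) (nat_lit 252) (nat_lit 142))) (XT.nd (nat_lit 78) (nat_lit 0) (nat_lit 0) (XT.lf (nat_lit 0) (nat_lit 460429943328) (nat_lit 152) (nat_lit 404028098870) (nat_lit 0) (nat_lit 416614070760) (nat_lit 1) (nat_lit 5) (nat_lit 3) (nat_lit 4) (nat_lit 1) (nat_lit 4) (nat_lit 327) (nat_lit 252) (nat_lit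 141)) (XT.lf (nat_lit 0) (nat_lit 503790415741) (nat_lit 152) (nat_lit 418944229974) (nat_lit 0) (nat_lit 459973910258) (nat_lit 1) (nat_lit 5) (nat_lit 3) (nat_lit 4) (nat_lit 1) (nat_lit 4) (nat_lit 328) (nat_lit 252) (nat_lit 140))))))) (XT.nd (nat_lit 1014) (nat_lit 0) (nat_lit 0) (XT.nd (nat_lit 468) (nat_lit 0) (nat_lit 0) (XT.nd (nat_lit 234) (nat_lit 0) (nat_lit 0) (XT.nd (nat_lit 78) (nat_lit 0) (nat_lit 0) (XT.lf (nat_lit 0) (nat_lit 550619447018) (nat_lit 152) (nat_lit 435054135524) (nat_lit 0) (nat_lit 506802355503) (nat_lit 1) (nat_lit 5) (nat_lit 3) (nat_lit 4) (nat_lit 1) (nat_lit 4) (nat_lit 329) (nat_lit 252) (nat_lit 139)) (XT.nd (nat_lit 78) (nat_lit 0) (nat_lit 0) (XT.lf (nat_lit 0) (nat_lit 601194542529) (nat_lit 152) (nat_lit 452453281627) (nat_lit 0) (nat_lit 557376908390) (nat_lit 1) (nat_lit 5) (nat_lit 3) (nat_lit 4) (nat_lit 1) (nat_lit 4) (nat_lit 330)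 (nat_lit 252) (nat_lit 138)) (XT.lf (nat_lit 0) (nat_lit 655815406543) (nat_lit 152) (nat_lit 471244774335) (nat_lit 0) (nat_lit 611997269976) (nat_lit 1) (nat_lit 5) (nat_lit 3) (nat_lit 4) (nat_lit 1) (nat_lit 4) (nat_lit 331) (nat_lit 252) (nat_lit 137)))) (XT.nd (nat_lit 78) (nat_lit 0) (nat_lit 0) (XT.lf (nat_lit 0) (nat_lit 714805718255) (nat_lit 152) (nat_lit 491539970642) (nat_lit 0) (nat_lit 670987116476) (nat_lit 1) (nat_lit 5) (nat_lit 3) (nat_lit 4) (nat_lit 1) (nat_lit 4) (nat_lit 332) (nat_lit 252) (nat_lit 136)) (XT.nd (nat_lit 78) (nat_lit 0) (nat_lit 0) (XT.lf (nat_lit 0) (nat_lit 778515049882) (nat_lit 152) (nat_lit 513459138376) (nat_lit 0) (nat_lit 734696017352) (nat_lit 1) (nat_lit 5) (nat_lit 3) (nat_lit 4) (nat_lit 1) (nat_lit 4) (nat_lit 333) (nat_lit 252) (nat_lit 135)) (XT.lf (nat_lit 0) (nat_lit 847320938204) (nat_lit 152) (nat_lit 537132168903) (nat_lit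 0) (nat_lit 803501506831) (nat_lit 1) (nat_lit 5) (nat_lit 3) (nat_lit 4) (nat_lit 1) (nat_lit 4) (nat_lit 334) (nat_lit 252) (nat_lit 134))))) (XT.nd (nat_lit 234) (nat_lit 0) (nat_lit 0) (XT.nd (nat_lit 78) (nat_lit 0) (nat_lit 0) (XT.lf (nat_lit 0) (nat_lit 921631121820) (nat_lit 152) (nat_lit 562699346848) (nat_lit 0) (nat_lit 877811321146) (nat_lit 1) (nat_lit 5) (nat_lit 3) (nat_lit 4) (nat_lit 1) (nat_lit 4) (nat_lit 335) (nat_lit 252) (nat_lit 133)) (XT.nd (nat_lit 78) (nat_lit 0) (nat_lit 0) (XT.lf (nat_lit 0) (nat_lit 1001885957371) (nat_lit 152) (nat_lit 590312181413) (nat_lit 0) (nat_lit 958065814753) (nat_lit 1) (nat_lit 5) (nat_lit 3) (nat_lit 4) (nat_lit 1) (nat_lit 4) (nat_lit 336) (nat_lit 252) (nat_lit 132)) (XT.lf (nat_lit 0) (nat_lit 1088561029070) (nat_lit 152) (nat_lit 620134304211) (nat_lit 0) (nat_lit 1044740569837) (nat_lit 1) (nat_lit 5) (nat_lit 3) (nat_lit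 4) (nat_lit 1) (nat_lit 4) (nat_lit 337) (nat_lit 252) (nat_lit 131)))) (XT.nd (nat_lit 156) (nat_lit 0) (nat_lit 0) (XT.nd (nat_lit 78) (nat_lit 0) (nat_lit 0) (XT.lf (nat_lit 0) (nat_lit 1182169966971) (nat_lit 152) (nat_lit 652342438933) (nat_lit 0) (nat_lit 1138349214575) (nat_lit 1) (nat_lit 5) (nat_lit 3) (nat_lit 4) (nat_lit 1) (nat_lit 4) (nat_lit 338) (nat_lit 252) (nat_lit 130)) (XT.lf (nat_lit 0) (nat_lit 1283267490705) (nat_lit 152) (nat_lit 687127448598) (nat_lit 0) (nat_lit 1239446466863) (nat_lit 1) (nat_lit 5) (nat_lit 3) (nat_lit 4) (nat_lit 1) (nat_lit 4) (nat_lit 339) (nat_lit 252) (nat_lit 129))) (XT.nd (nat_lit 78) (nat_lit 0) (nat_lit 0) (XT.lf (nat_lit 0) (nat_lit 1392452696710) (nat_lit 152) (nat_lit 724695466598) (nat_lit 0) (nat_lit 1348631421528) (nat_lit 1) (nat_lit 5) (nat_lit 3) (nat_lit 4) (nat_lit 1) (nat_lit 4) (nat_lit 340) (nat_lit 252) (nat_lit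 128)) (XT.lf (nat_lit 0) (nat_lit 1510372608428) (nat_lit 152) (nat_lit 765269118225) (nat_lit 0) (nat_lit 1466551100525) (nat_lit 1) (nat_lit 5) (nat_lit 3) (nat_lit 4) (nat_lit 1) (nat_lit 4) (nat_lit 341) (nat_lit 252) (nat_lit 127)))))) (XT.nd (nat_lit 31044) (nat_lit 0) (nat_lit 1444) (XT.nd (nat_lit 30732) (nat_lit 0) (nat_lit 1976) (XT.nd (nat_lit 30576) (nat_lit 0) (nat_lit 1976) (XT.lf (nat_lit 0) (nat_lit 1637726010522) (nat_lit 152) (nat_lit 809088839932) (nat_lit 0) (nat_lit 1593904287136) (nat_lit 1) (nat_lit 5) (nat_lit 3) (nat_lit 4) (nat_lit 1) (nat_lit 4) (nat_lit 342) (nat_lit 252) (nat_lit 126)) (XT.nd (nat_lit 78) (nat_lit 0) (nat_lit 0) (XT.lf (nat_lit 0) (nat_lit 1471747799) (nat_lit 0) (nat_lit 1471747799) (nat_lit 380) (nat_lit 2852327521) (nat_lit 27) (nat_lit 5) (nat_lit 27) (nat_lit 3) (nat_lit 32) (nat_lit 3) (nat_lit 253) (nat_lit 253) (nat_lit 214)) (XT.lf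 (nat_lit 0) (nat_lit 6570469975) (nat_lit 380) (nat_lit 4358500078) (nat_lit 456) (nat_lit 1085633168) (nat_lit 27) (nat_lit 5) (nat_lit 32) (nat_lit 3) (nat_lit 33) (nat_lit 5) (nat_lit 254) (nat_lit 253) (nat_lit 213)))) (XT.nd (nat_lit 156) (nat_lit 0) (nat_lit 76) (XT.nd (nat_lit 78) (nat_lit 0) (nat_lit 0) (XT.lf (nat_lit 76) (nat_lit 181555619) (nat_lit 0) (nat_lit 7166326497) (nat_lit 456) (nat_lit 5120861370) (nat_lit 28) (nat_lit 5) (nat_lit 27) (nat_lit 5) (nat_lit 33) (nat_lit 5) (nat_lit 255) (nat_lit 253) (nat_lit 212)) (XT.lf (nat_lit 76) (nat_lit 5307935808) (nat_lit 0) (nat_lit 2959638414) (nat_lit 456) (nat_lit 4685684832) (nat_lit 28) (nat_lit 5) (nat_lit 27) (nat_lit 5) (nat_lit 33) (nat_lit 5) (nat_lit 256) (nat_lit 253) (nat_lit 211))) (XT.nd (nat_lit 78) (nat_lit 0) (nat_lit 0) (XT.lf (nat_lit 0) (nat_lit 9263058917) (nat_lit 380) (nat_lit 2696744695) (nat_lit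 456) (nat_lit 1516972514) (nat_lit 28) (nat_lit 5) (nat_lit 33) (nat_lit 5) (nat_lit 34) (nat_lit 5) (nat_lit 257) (nat_lit 253) (nat_lit 210)) (XT.lf (nat_lit 76) (nat_lit 2680344796) (nat_lit 0) (nat_lit 7765962531) (nat_lit 456) (nat_lit 3587603939) (nat_lit 29) (nat_lit 5) (nat_lit 28) (nat_lit 5) (nat_lit 34) (nat_lit 5) (nat_lit 258) (nat_lit 253) (nat_lit 209))))) (XT.nd (nat_lit 234) (nat_lit 304) (nat_lit 0) (XT.nd (nat_lit 78) (nat_lit 304) (nat_lit 0) (XT.lf (nat_lit 76) (nat_lit 8617006749) (nat_lit 0) (nat_lit 3149615323) (nat_lit 456) (nat_lit 2865960683) (nat_lit 29) (nat_lit 5) (nat_lit 28) (nat_lit 5) (nat_lit 34) (nat_lit 5) (nat_lit 259) (nat_lit 253) (nat_lit 208)) (XT.nd (nat_lit 78) (nat_lit 380) (nat_lit 0) (XT.lf (nat_lit 0) (nat_lit 13207876056) (nat_lit 380) (nat_lit 319705285) (nat_lit 76) (nat_lit 1750673026) (nat_lit 29) (nat_lit 5) (nat_lit 34) (nat_lit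 5) (nat_lit 30) (nat_lit 5) (nat_lit 260) (nat_lit 253) (nat_lit 207)) (XT.lf (nat_lit 0) (nat_lit 6028443911) (nat_lit 380) (nat_lit 8936072620) (nat_lit 456) (nat_lit 995363258) (nat_lit 24) (nat_lit 5) (nat_lit 29) (nat_lit 5) (nat_lit 30) (nat_lit 5) (nat_lit 261) (nat_lit 253) (nat_lit 206)))) (XT.nd (nat_lit 156) (nat_lit 0) (nat_lit 0) (XT.nd (nat_lit 78) (nat_lit 228) (nat_lit 0) (XT.lf (nat_lit 0) (nat_lit 140137659) (nat_lit 456) (nat_lit 3821126739) (nat_lit 76) (nat_lit 12736093605) (nat_lit 23) (nat_lit 5) (nat_lit 29) (nat_lit 5) (nat_lit 24) (nat_lit 5) (nat_lit 262) (nat_lit 253) (nat_lit 205)) (XT.lf (nat_lit 0) (nat_lit 1394012113) (nat_lit 304) (nat_lit 14651396807) (nat_lit 76) (nat_lit 1440096239) (nat_lit 20) (nat_lit 5) (nat_lit 24) (nat_lit 5) (nat_lit 21) (nat_lit 5) (nat_lit 263) (nat_lit 253) (nat_lit 204))) (XT.nd (nat_lit 78) (nat_lit 0) (nat_lit 0) (XT.lf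 (nat_lit 0) (nat_lit 2935318786) (nat_lit 304) (nat_lit 8218814590) (nat_lit 76) (nat_lit 7167826564) (nat_lit 20) (nat_lit 5) (nat_lit 24) (nat_lit 5) (nat_lit 21) (nat_lit 5) (nat_lit 264) (nat_lit 253) (nat_lit 203)) (XT.lf (nat_lit 0) (nat_lit 4578672798) (nat_lit 304) (nat_lit 1293790677) (nat_lit 76) (nat_lit 13354777125) (nat_lit 20) (nat_lit 5) (nat_lit 24) (nat_lit 5) (nat_lit 21) (nat_lit 5) (nat_lit 265) (nat_lit 253) (nat_lit 202))))))))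
noncomputable def xc76 : XT := (XT.nd (nat_lit 2028) (nat_lit 228) (nat_lit 0) (XT.nd (nat_lit 1014) (nat_lit 304) (nat_lit 0) (XT.nd (nat_lit 468) (nat_lit 380) (nat_lit 0) (XT.nd (nat_lit 234) (nat_lit 152) (nat_lit 0) (XT.nd (nat_lit 78) (nat_lit 152) (nat_lit 0) (XT.lf (nat_lit 0) (nat_lit 6489334925) (nat_lit 228) (nat_lit 546280) (nat_lit 304) (nat_lit 13704345068) (nat_lit 17) (nat_lit 5) (nat_lit 20) (nat_lit 5) (nat_lit 21) (nat_lit 5) (nat_lit 266) (nat_lit 253) (nat_lit 201)) (XT.nd (nat_lit 78) (nat_lit 152) (nat_lit 0) (XT.lf (nat_lit 0) (nat_lit 8724046913) (nat_lit 304) (nat_lit 6442122077) (nat_lit 76) (nat_lit 6058976075) (nat_lit 17) (nat_lit 5) (nat_lit 21) (nat_lit 5) (nat_lit 18) (nat_lit 5) (nat_lit 267) (nat_lit 253) (nat_lit 200)) (XT.lf (nat_lit 0) (nat_lit 1454363408) (nat_lit 152) (nat_lit 9700225138) (nat_lit 228) (nat_lit 11182703247) (nat_lit 15) (nat_lit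 5) (nat_lit 17) (nat_lit 5) (nat_lit 18) (nat_lit 5) (nat_lit 268) (nat_lit 253) (nat_lit 199)))) (XT.nd (nat_lit 78) (nat_lit 152) (nat_lit 0) (XT.lf (nat_lit 0) (nat_lit 10329400088) (nat_lit 152) (nat_lit 3609778713) (nat_lit 228) (nat_lit 9586616600) (nat_lit 15) (nat_lit 5) (nat_lit 17) (nat_lit 5) (nat_lit 18) (nat_lit 5) (nat_lit 269) (nat_lit 253) (nat_lit 198)) (XT.nd (nat_lit 78) (nat_lit 152) (nat_lit 0) (XT.lf (nat_lit 0) (nat_lit 17002538529) (nat_lit 228) (nat_lit 4985707442) (nat_lit 76) (nat_lit 2816795336) (nat_lit 15) (nat_lit 5) (nat_lit 18) (nat_lit 5) (nat_lit 16) (nat_lit 5) (nat_lit 270) (nat_lit 253) (nat_lit 197)) (XT.lf (nat_lit 0) (nat_lit 3968649469) (nat_lit 152) (nat_lit 16517287224) (nat_lit 228) (nat_lit 5686824272) (nat_lit 13) (nat_lit 5) (nat_lit 15) (nat_lit 5) (nat_lit 16) (nat_lit 5) (nat_lit 271) (nat_lit 253) (nat_lit 196))))) (XT.nd (nat_lit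 234) (nat_lit 152) (nat_lit 0) (XT.nd (nat_lit 78) (nat_lit 228) (nat_lit 0) (XT.lf (nat_lit 0) (nat_lit 13905397627) (nat_lit 152) (nat_lit 10465323958) (nat_lit 228) (nat_lit 3269481325) (nat_lit 13) (nat_lit 5) (nat_lit 15) (nat_lit 5) (nat_lit 16) (nat_lit 5) (nat_lit 272) (nat_lit 253) (nat_lit 195)) (XT.nd (nat_lit 78) (nat_lit 228) (nat_lit 0) (XT.lf (nat_lit 0) (nat_lit 24620882946) (nat_lit 152) (nat_lit 3932810764) (nat_lit 228) (nat_lit 672467019) (nat_lit 13) (nat_lit 5) (nat_lit 15) (nat_lit 5) (nat_lit 16) (nat_lit 5) (nat_lit 273) (nat_lit 253) (nat_lit 194)) (XT.lf (nat_lit 0) (nat_lit 2224654917) (nat_lit 228) (nat_lit 25544429615) (nat_lit 76) (nat_lit 3149983792) (nat_lit 10) (nat_lit 5) (nat_lit 13) (nat_lit 5) (nat_lit 11) (nat_lit 5) (nat_lit 274) (nat_lit 253) (nat_lit 193)))) (XT.nd (nat_lit 156) (nat_lit 152) (nat_lit 0) (XT.nd (nat_lit 78) (nat_lit 0) (nat_lit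 0) (XT.lf (nat_lit 0) (nat_lit 5536922653) (nat_lit 228) (nat_lit 16461626343) (nat_lit 76) (nat_lit 10729975261) (nat_lit 10) (nat_lit 5) (nat_lit 13) (nat_lit 5) (nat_lit 11) (nat_lit 5) (nat_lit 275) (nat_lit 253) (nat_lit 192)) (XT.lf (nat_lit 0) (nat_lit 9103402165) (nat_lit 228) (nat_lit 6667252255) (nat_lit 76) (nat_lit 18913026780) (nat_lit 10) (nat_lit 5) (nat_lit 13) (nat_lit 5) (nat_lit 11) (nat_lit 5) (nat_lit 276) (nat_lit 253) (nat_lit 191))) (XT.nd (nat_lit 78) (nat_lit 0) (nat_lit 0) (XT.lf (nat_lit 0) (nat_lit 4101928456) (nat_lit 152) (nat_lit 8941951168) (nat_lit 228) (nat_lit 23744353528) (nat_lit 8) (nat_lit 5) (nat_lit 10) (nat_lit 5) (nat_lit 11) (nat_lit 5) (nat_lit 277) (nat_lit 253) (nat_lit 190)) (XT.lf (nat_lit 0) (nat_lit 16098230663) (nat_lit 152) (nat_lit 1374099146) (nat_lit 228) (nat_lit 21575071819) (nat_lit 8) (nat_lit 5) (nat_lit 10) (nat_lit 5)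 (nat_lit 11) (nat_lit 5) (nat_lit 278) (nat_lit 253) (nat_lit 189)))))) (XT.nd (nat_lit 468) (nat_lit 228) (nat_lit 0) (XT.nd (nat_lit 234) (nat_lit 0) (nat_lit 0) (XT.nd (nat_lit 78) (nat_lit 76) (nat_lit 0) (XT.lf (nat_lit 0) (nat_lit 22409635016) (nat_lit 228) (nat_lit 12609850537) (nat_lit 76) (nat_lit 6455517568) (nat_lit 8) (nat_lit 5) (nat_lit 11) (nat_lit 5) (nat_lit 9) (nat_lit 4) (nat_lit 279) (nat_lit 253) (nat_lit 188)) (XT.nd (nat_lit 78) (nat_lit 76) (nat_lit 0) (XT.lf (nat_lit 0) (nat_lit 27769336394) (nat_lit 228) (nat_lit 1491356414) (nat_lit 76) (nat_lit 14833987968) (nat_lit 8) (nat_lit 5) (nat_lit 11) (nat_lit 5) (nat_lit 9) (nat_lit 4) (nat_lit 280) (nat_lit 253) (nat_lit 187)) (XT.lf (nat_lit 0) (nat_lit 11058433527) (nat_lit 76) (nat_lit 22757670085) (nat_lit 152) (nat_lit 13087222317) (nat_lit 7) (nat_lit 5) (nat_lit 8) (nat_lit 5) (nat_lit 9) (nat_lit 4) (nat_lit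 281) (nat_lit 253) (nat_lit 186)))) (XT.nd (nat_lit 78) (nat_lit 0) (nat_lit 0) (XT.lf (nat_lit 0) (nat_lit 24685937964) (nat_lit 76) (nat_lit 15694085994) (nat_lit 152) (nat_lit 9554018079) (nat_lit 7) (nat_lit 5) (nat_lit 8) (nat_lit 5) (nat_lit 9) (nat_lit 4) (nat_lit 282) (nat_lit 253) (nat_lit 185)) (XT.nd (nat_lit 78) (nat_lit 0) (nat_lit 0) (XT.lf (nat_lit 0) (nat_lit 39393380291) (nat_lit 76) (nat_lit 8068858587) (nat_lit 152) (nat_lit 5745570489) (nat_lit 7) (nat_lit 5) (nat_lit 8) (nat_lit 5) (nat_lit 9) (nat_lit 4) (nat_lit 283) (nat_lit 253) (nat_lit 184)) (XT.lf (nat_lit 0) (nat_lit 55108641985) (nat_lit 152) (nat_lit 1480037232) (nat_lit 0) (nat_lit 155034810) (nat_lit 7) (nat_lit 5) (nat_lit 9) (nat_lit 4) (nat_lit 7) (nat_lit 4) (nat_lit 284) (nat_lit 253) (nat_lit 183))))) (XT.nd (nat_lit 234) (nat_lit 76) (nat_lit 0) (XT.nd (nat_lit 78) (nat_lit 0) (nat_lit 0) (XT.lf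 (nat_lit 0) (nat_lit 3174777185) (nat_lit 152) (nat_lit 48368777052) (nat_lit 76) (nat_lit 8972716506) (nat_lit 5) (nat_lit 5) (nat_lit 7) (nat_lit 5) (nat_lit 6) (nat_lit 4) (nat_lit 285) (nat_lit 253) (nat_lit 182)) (XT.nd (nat_lit 78) (nat_lit 0) (nat_lit 0) (XT.lf (nat_lit 0) (nat_lit 8316716037) (nat_lit 152) (nat_lit 37690865001) (nat_lit 76) (nat_lit 18576837944) (nat_lit 5) (nat_lit 5) (nat_lit 7) (nat_lit 5) (nat_lit 6) (nat_lit 4) (nat_lit 286) (nat_lit 253) (nat_lit 181)) (XT.lf (nat_lit 0) (nat_lit 13864565663) (nat_lit 152) (nat_lit 26167375523) (nat_lit 76) (nat_lit 28946546388) (nat_lit 5) (nat_lit 5) (nat_lit 7) (nat_lit 5) (nat_lit 6) (nat_lit 4) (nat_lit 287) (nat_lit 253) (nat_lit 180)))) (XT.nd (nat_lit 156) (nat_lit 76) (nat_lit 0) (XT.nd (nat_lit 78) (nat_lit 0) (nat_lit 0) (XT.lf (nat_lit 0) (nat_lit 19851202207) (nat_lit 152) (nat_lit 13730021273) (nat_lit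 76) (nat_lit 40143291963) (nat_lit 5) (nat_lit 5) (nat_lit 7) (nat_lit 5) (nat_lit 6) (nat_lit 4) (nat_lit 288) (nat_lit 253) (nat_lit 179)) (XT.lf (nat_lit 0) (nat_lit 26312102035) (nat_lit 152) (nat_lit 305099412) (nat_lit 76) (nat_lit 52233425754) (nat_lit 5) (nat_lit 5) (nat_lit 7) (nat_lit 5) (nat_lit 6) (nat_lit 4) (nat_lit 289) (nat_lit 253) (nat_lit 178))) (XT.nd (nat_lit 78) (nat_lit 0) (nat_lit 0) (XT.lf (nat_lit 0) (nat_lit 14934004544) (nat_lit 76) (nat_lit 18710710583) (nat_lit 152) (nat_lit 50713751622) (nat_lit 4) (nat_lit 5) (nat_lit 5) (nat_lit 5) (nat_lit 6) (nat_lit 4) (nat_lit 290) (nat_lit 253) (nat_lit 177)) (XT.lf (nat_lit 0) (nat_lit 31402890997) (nat_lit 76) (nat_lit 10165225415) (nat_lit 152) (nat_lit 48738506936) (nat_lit 4) (nat_lit 5) (nat_lit 5) (nat_lit 5) (nat_lit 6) (nat_lit 4) (nat_lit 291) (nat_lit 253) (nat_lit 176))))))) (XT.nd (nat_lit 1014) (nat_lit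 76) (nat_lit 0) (XT.nd (nat_lit 468) (nat_lit 76) (nat_lit 0) (XT.nd (nat_lit 234) (nat_lit 76) (nat_lit 0) (XT.nd (nat_lit 78) (nat_lit 0) (nat_lit 0) (XT.lf (nat_lit 0) (nat_lit 49183087353) (nat_lit 76) (nat_lit 938447989) (nat_lit 152) (nat_lit 46609427911) (nat_lit 4) (nat_lit 5) (nat_lit 5) (nat_lit 5) (nat_lit 6) (nat_lit 4) (nat_lit 292) (nat_lit 253) (nat_lit 175)) (XT.nd (nat_lit 78) (nat_lit 0) (nat_lit 0) (XT.lf (nat_lit 0) (nat_lit 59572693451) (nat_lit 152) (nat_lit 35506633496) (nat_lit 0) (nat_lit 8572866914) (nat_lit 4) (nat_lit 5) (nat_lit 6) (nat_lit 4) (nat_lit 4) (nat_lit 4) (nat_lit 293) (nat_lit 253) (nat_lit 174)) (XT.lf (nat_lit 0) (nat_lit 69800966519) (nat_lit 152) (nat_lit 22532018547) (nat_lit 0) (nat_lit 18792475290) (nat_lit 4) (nat_lit 5) (nat_lit 6) (nat_lit 4) (nat_lit 4) (nat_lit 4) (nat_lit 294) (nat_lit 253) (nat_lit 173)))) (XT.nd (nat_lit 78)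 (nat_lit 76) (nat_lit 0) (XT.lf (nat_lit 0) (nat_lit 80844396841) (nat_lit 152) (nat_lit 8524574750) (nat_lit 0) (nat_lit 29827882747) (nat_lit 4) (nat_lit 5) (nat_lit 6) (nat_lit 4) (nat_lit 4) (nat_lit 4) (nat_lit 295) (nat_lit 253) (nat_lit 172)) (XT.nd (nat_lit 78) (nat_lit 0) (nat_lit 0) (XT.lf (nat_lit 0) (nat_lit 6946181079) (nat_lit 76) (nat_lit 85989301708) (nat_lit 76) (nat_lit 34965359036) (nat_lit 3) (nat_lit 4) (nat_lit 4) (nat_lit 5) (nat_lit 4) (nat_lit 4) (nat_lit 296) (nat_lit 253) (nat_lit 171)) (XT.lf (nat_lit 0) (nat_lit 24134758409) (nat_lit 76) (nat_lit 82089400924) (nat_lit 76) (nat_lit 31058579938) (nat_lit 3) (nat_lit 4) (nat_lit 4) (nat_lit 5) (nat_lit 4) (nat_lit 4) (nat_lit 297) (nat_lit 253) (nat_lit 170))))) (XT.nd (nat_lit 234) (nat_lit 76) (nat_lit 0) (XT.nd (nat_lit 78) (nat_lit 0) (nat_lit 0) (XT.lf (nat_lit 0) (nat_lit 42694126476) (nat_lit 76) (nat_lit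 77879235695) (nat_lit 76) (nat_lit 26842045901) (nat_lit 3) (nat_lit 4) (nat_lit 4) (nat_lit 5) (nat_lit 4) (nat_lit 4) (nat_lit 298) (nat_lit 253) (nat_lit 169)) (XT.nd (nat_lit 78) (nat_lit 0) (nat_lit 0) (XT.lf (nat_lit 0) (nat_lit 62734266720) (nat_lit 76) (nat_lit 73333856894) (nat_lit 76) (nat_lit 22290770055) (nat_lit 3) (nat_lit 4) (nat_lit 4) (nat_lit 5) (nat_lit 4) (nat_lit 4) (nat_lit 299) (nat_lit 253) (nat_lit 168)) (XT.lf (nat_lit 0) (nat_lit 84373935528) (nat_lit 76) (nat_lit 68426328943) (nat_lit 76) (nat_lit 17377781878) (nat_lit 3) (nat_lit 4) (nat_lit 4) (nat_lit 5) (nat_lit 4) (nat_lit 4) (nat_lit 300) (nat_lit 253) (nat_lit 167)))) (XT.nd (nat_lit 156) (nat_lit 76) (nat_lit 0) (XT.nd (nat_lit 78) (nat_lit 0) (nat_lit 0) (XT.lf (nat_lit 0) (nat_lit 107741367974) (nat_lit 76) (nat_lit 63127570196) (nat_lit 76) (nat_lit 12073967365) (nat_lit 3) (nat_lit 4) (nat_lit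 4) (nat_lit 5) (nat_lit 4) (nat_lit 4) (nat_lit 301) (nat_lit 253) (nat_lit 166)) (XT.lf (nat_lit 0) (nat_lit 132975037732) (nat_lit 76) (nat_lit 57406180600) (nat_lit 76) (nat_lit 6347896505) (nat_lit 3) (nat_lit 4) (nat_lit 4) (nat_lit 5) (nat_lit 4) (nat_lit 4) (nat_lit 302) (nat_lit 253) (nat_lit 165))) (XT.nd (nat_lit 78) (nat_lit 76) (nat_lit 0) (XT.lf (nat_lit 0) (nat_lit 160224477660) (nat_lit 76) (nat_lit 51228255624) (nat_lit 76) (nat_lit 165637025) (nat_lit 3) (nat_lit 4) (nat_lit 4) (nat_lit 5) (nat_lit 4) (nat_lit 4) (nat_lit 303) (nat_lit 253) (nat_lit 164)) (XT.lf (nat_lit 0) (nat_lit 6183817799) (nat_lit 152) (nat_lit 38204291006) (nat_lit 76) (nat_lit 183298271584) (nat_lit 2) (nat_lit 5) (nat_lit 4) (nat_lit 5) (nat_lit 3) (nat_lit 4) (nat_lit 304) (nat_lit 253) (nat_lit 163)))))) (XT.nd (nat_lit 546) (nat_lit 0) (nat_lit 0) (XT.nd (nat_lit 234) (nat_lit 0) (nat_lit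 0) (XT.nd (nat_lit 78) (nat_lit 76) (nat_lit 0) (XT.lf (nat_lit 0) (nat_lit 13030735253) (nat_lit 152) (nat_lit 23966418840) (nat_lit 76) (nat_lit 208042464240) (nat_lit 2) (nat_lit 5) (nat_lit 4) (nat_lit 5) (nat_lit 3) (nat_lit 4) (nat_lit 305) (nat_lit 253) (nat_lit 162)) (XT.nd (nat_lit 78) (nat_lit 76) (nat_lit 0) (XT.lf (nat_lit 0) (nat_lit 20423975498) (nat_lit 152) (nat_lit 8591919999) (nat_lit 76) (nat_lit 234765341332) (nat_lit 2) (nat_lit 5) (nat_lit 4) (nat_lit 5) (nat_lit 3) (nat_lit 4) (nat_lit 306) (nat_lit 253) (nat_lit 161)) (XT.lf (nat_lit 0) (nat_lit 8432122577) (nat_lit 76) (nat_lit 20178020501) (nat_lit 152) (nat_lit 255395930824) (nat_lit 1) (nat_lit 5) (nat_lit 2) (nat_lit 5) (nat_lit 3) (nat_lit 4) (nat_lit 307) (nat_lit 253) (nat_lit 160)))) (XT.nd (nat_lit 156) (nat_lit 0) (nat_lit 0) (XT.nd (nat_lit 78) (nat_lit 0) (nat_lit 0) (XT.lf (nat_lit 0) (nat_lit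 27304549903) (nat_lit 76) (nat_lit 10380293808) (nat_lit 152) (nat_lit 268145369117) (nat_lit 1) (nat_lit 5) (nat_lit 2) (nat_lit 5) (nat_lit 3) (nat_lit 4) (nat_lit 308) (nat_lit 253) (nat_lit 159)) (XT.lf (nat_lit 0) (nat_lit 47489156709) (nat_lit 152) (nat_lit 281720440165) (nat_lit 0) (nat_lit 190400700) (nat_lit 1) (nat_lit 5) (nat_lit 3) (nat_lit 4) (nat_lit 1) (nat_lit 4) (nat_lit 309) (nat_lit 253) (nat_lit 158))) (XT.nd (nat_lit 78) (nat_lit 0) (nat_lit 0) (XT.lf (nat_lit 0) (nat_lit 58346318160) (nat_lit 152) (nat_lit 285442351510) (nat_lit 0) (nat_lit 11045220353) (nat_lit 1) (nat_lit 5) (nat_lit 3) (nat_lit 4) (nat_lit 1) (nat_lit 4) (nat_lit 310) (nat_lit 253) (nat_lit 157)) (XT.lf (nat_lit 0) (nat_lit 70071020482) (nat_lit 152) (nat_lit 289463806417) (nat_lit 0) (nat_lit 22767754344) (nat_lit 1) (nat_lit 5) (nat_lit 3) (nat_lit 4) (nat_lit 1) (nat_lit 4) (nat_lit 311)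 (nat_lit 253) (nat_lit 156))))) (XT.nd (nat_lit 234) (nat_lit 0) (nat_lit 0) (XT.nd (nat_lit 78) (nat_lit 0) (nat_lit 0) (XT.lf (nat_lit 0) (nat_lit 82732743392) (nat_lit 152) (nat_lit 293808635729) (nat_lit 0) (nat_lit 35427469541) (nat_lit 1) (nat_lit 5) (nat_lit 3) (nat_lit 4) (nat_lit 1) (nat_lit 4) (nat_lit 312) (nat_lit 253) (nat_lit 155)) (XT.nd (nat_lit 78) (nat_lit 0) (nat_lit 0) (XT.lf (nat_lit 0) (nat_lit 96406519323) (nat_lit 152) (nat_lit 298502586584) (nat_lit 0) (nat_lit 49099386477) (nat_lit 1) (nat_lit 5) (nat_lit 3) (nat_lit 4) (nat_lit 1) (nat_lit 4) (nat_lit 313) (nat_lit 253) (nat_lit 154)) (XT.lf (nat_lit 0) (nat_lit 111173378058) (nat_lit 152) (nat_lit 303573474985) (nat_lit 0) (nat_lit 63864523921) (nat_lit 1) (nat_lit 5) (nat_lit 3) (nat_lit 4) (nat_lit 1) (nat_lit 4) (nat_lit 314) (nat_lit 253) (nat_lit 153)))) (XT.nd (nat_lit 156) (nat_lit 0) (nat_lit 0)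 (XT.nd (nat_lit 78) (nat_lit 0) (nat_lit 0) (XT.lf (nat_lit 0) (nat_lit 127120826908) (nat_lit 152) (nat_lit 309051350643) (nat_lit 0) (nat_lit 79810378983) (nat_lit 1) (nat_lit 5) (nat_lit 3) (nat_lit 4) (nat_lit 1) (nat_lit 4) (nat_lit 315) (nat_lit 253) (nat_lit 152)) (XT.lf (nat_lit 0) (nat_lit 144343369274) (nat_lit 152) (nat_lit 314968675042) (nat_lit 0) (nat_lit 97031445619) (nat_lit 1) (nat_lit 5) (nat_lit 3) (nat_lit 4) (nat_lit 1) (nat_lit 4) (nat_lit 316) (nat_lit 253) (nat_lit 151))) (XT.nd (nat_lit 78) (nat_lit 0) (nat_lit 0) (XT.lf (nat_lit 0) (nat_lit 162943064665) (nat_lit 152) (nat_lit 321360513809) (nat_lit 0) (nat_lit 115629774594) (nat_lit 1) (nat_lit 5) (nat_lit 3) (nat_lit 4) (nat_lit 1) (nat_lit 4) (nat_lit 317) (nat_lit 253) (nat_lit 150)) (XT.lf (nat_lit 0) (nat_lit 183030133500) (nat_lit 152) (nat_lit 328264744506) (nat_lit 0) (nat_lit 135715578228) (nat_lit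 1) (nat_lit 5) (nat_lit 3) (nat_lit 4) (nat_lit 1) (nat_lit 4) (nat_lit 318) (nat_lit 253) (nat_lit 149))))))))
noncomputable def xc77 : XT := (XT.nd (nat_lit 32760) (nat_lit 0) (nat_lit 456) (XT.nd (nat_lit 1014) (nat_lit 0) (nat_lit 0) (XT.nd (nat_lit 468) (nat_lit 0) (nat_lit 0) (XT.nd (nat_lit 234) (nat_lit 0) (nat_lit 0) (XT.nd (nat_lit 78) (nat_lit 0) (nat_lit 0) (XT.lf (nat_lit 0) (nat_lit 204723610260) (nat_lit 152) (nat_lit 335722281094) (nat_lit 0) (nat_lit 157407883506) (nat_lit 1) (nat_lit 5) (nat_lit 3) (nat_lit 4) (nat_lit 1) (nat_lit 4) (nat_lit 319) (nat_lit 253) (nat_lit 148)) (XT.nd (nat_lit 78) (nat_lit 0) (nat_lit 0) (XT.lf (nat_lit 0) (nat_lit 228152048881) (nat_lit 152) (nat_lit 343777316382) (nat_lit 0) (nat_lit 180835237422) (nat_lit 1) (nat_lit 5) (nat_lit 3) (nat_lit 4) (nat_lit 1) (nat_lit 4) (nat_lit 320) (nat_lit 253) (nat_lit 147)) (XT.lf (nat_lit 0)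 (nat_lit 253454284555) (nat_lit 152) (nat_lit 352477583912) (nat_lit 0) (nat_lit 206136468739) (nat_lit 1) (nat_lit 5) (nat_lit 3) (nat_lit 4) (nat_lit 1) (nat_lit 4) (nat_lit 321) (nat_lit 253) (nat_lit 146)))) (XT.nd (nat_lit 78) (nat_lit 0) (nat_lit 0) (XT.lf (nat_lit 0) (nat_lit 280780256457) (nat_lit 152) (nat_lit 361874640825) (nat_lit 0) (nat_lit 233461510681) (nat_lit 1) (nat_lit 5) (nat_lit 3) (nat_lit 4) (nat_lit 1) (nat_lit 4) (nat_lit 322) (nat_lit 253) (nat_lit 145)) (XT.nd (nat_lit 78) (nat_lit 0) (nat_lit 0) (XT.lf (nat_lit 0) (nat_lit 310291896272) (nat_lit 152) (nat_lit 372024173384) (nat_lit 0) (nat_lit 262972289422) (nat_lit 1) (nat_lit 5) (nat_lit 3) (nat_lit 4) (nat_lit 1) (nat_lit 4) (nat_lit 323) (nat_lit 253) (nat_lit 144)) (XT.lf (nat_lit 0) (nat_lit 342164087791) (nat_lit 152) (nat_lit 382986326968) (nat_lit 0) (nat_lit 294843683650) (nat_lit 1) (nat_lit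 5) (nat_lit 3) (nat_lit 4) (nat_lit 1) (nat_lit 4) (nat_lit 324) (nat_lit 253) (nat_lit 143))))) (XT.nd (nat_lit 234) (nat_lit 0) (nat_lit 0) (XT.nd (nat_lit 78) (nat_lit 0) (nat_lit 0) (XT.lf (nat_lit 0) (nat_lit 376585703261) (nat_lit 152) (nat_lit 394826062486) (nat_lit 0) (nat_lit 329264560887) (nat_lit 1) (nat_lit 5) (nat_lit 3) (nat_lit 4) (nat_lit 1) (nat_lit 4) (nat_lit 325) (nat_lit 253) (nat_lit 142)) (XT.nd (nat_lit 78) (nat_lit 0) (nat_lit 0) (XT.lf (nat_lit 0) (nat_lit 413760722624) (nat_lit 152) (nat_lit 407613541335) (nat_lit 0) (nat_lit 366438896703) (nat_lit 1) (nat_lit 5) (nat_lit 3) (nat_lit 4) (nat_lit 1) (nat_lit 4) (nat_lit 326) (nat_lit 253) (nat_lit 141)) (XT.lf (nat_lit 0) (nat_lit 453909442293) (nat_lit 152) (nat_lit 421424541166) (nat_lit 0) (nat_lit 406586983456) (nat_lit 1) (nat_lit 5) (nat_lit 3) (nat_lit 4) (nat_lit 1) (nat_lit 4) (nat_lit 327) (nat_lit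 253) (nat_lit 140)))) (XT.nd (nat_lit 156) (nat_lit 0) (nat_lit 0) (XT.nd (nat_lit 78) (nat_lit 0) (nat_lit 0) (XT.lf (nat_lit 0) (nat_lit 497269780605) (nat_lit 152) (nat_lit 436340904942) (nat_lit 0) (nat_lit 449946735736) (nat_lit 1) (nat_lit 5) (nat_lit 3) (nat_lit 4) (nat_lit 1) (nat_lit 4) (nat_lit 328) (nat_lit 253) (nat_lit 139)) (XT.lf (nat_lit 0) (nat_lit 544098687715) (nat_lit 152) (nat_lit 452451025930) (nat_lit 0) (nat_lit 496775100223) (nat_lit 1) (nat_lit 5) (nat_lit 3) (nat_lit 4) (nat_lit 1) (nat_lit 4) (nat_lit 329) (nat_lit 253) (nat_lit 138))) (XT.nd (nat_lit 78) (nat_lit 0) (nat_lit 0) (XT.lf (nat_lit 0) (nat_lit 594673668255) (nat_lit 152) (nat_lit 469850371512) (nat_lit 0) (nat_lit 547349578335) (nat_lit 1) (nat_lit 5) (nat_lit 3) (nat_lit 4) (nat_lit 1) (nat_lit 4) (nat_lit 330) (nat_lit 253) (nat_lit 137)) (XT.lf (nat_lit 0) (nat_lit 649294425816) (nat_lit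 152) (nat_lit 488642048923) (nat_lit 0) (nat_lit 601969870684) (nat_lit 1) (nat_lit 5) (nat_lit 3) (nat_lit 4) (nat_lit 1) (nat_lit 4) (nat_lit 331) (nat_lit 253) (nat_lit 136)))))) (XT.nd (nat_lit 546) (nat_lit 0) (nat_lit 0) (XT.nd (nat_lit 234) (nat_lit 0) (nat_lit 0) (XT.nd (nat_lit 78) (nat_lit 0) (nat_lit 0) (XT.lf (nat_lit 0) (nat_lit 708284638960) (nat_lit 152) (nat_lit 508937416250) (nat_lit 0) (nat_lit 660959653076) (nat_lit 1) (nat_lit 5) (nat_lit 3) (nat_lit 4) (nat_lit 1) (nat_lit 4) (nat_lit 332) (nat_lit 253) (nat_lit 135)) (XT.nd (nat_lit 78) (nat_lit 0) (nat_lit 0) (XT.lf (nat_lit 0) (nat_lit 771993879320) (nat_lit 152) (nat_lit 530856742337) (nat_lit 0) (nat_lit 724668494593) (nat_lit 1) (nat_lit 5) (nat_lit 3) (nat_lit 4) (nat_lit 1) (nat_lit 4) (nat_lit 333) (nat_lit 253) (nat_lit 134)) (XT.lf (nat_lit 0) (nat_lit 840799683136) (nat_lit 152) (nat_lit 554529919487)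 (nat_lit 0) (nat_lit 793473929109) (nat_lit 1) (nat_lit 5) (nat_lit 3) (nat_lit 4) (nat_lit 1) (nat_lit 4) (nat_lit 334) (nat_lit 253) (nat_lit 133)))) (XT.nd (nat_lit 156) (nat_lit 0) (nat_lit 0) (XT.nd (nat_lit 78) (nat_lit 0) (nat_lit 0) (XT.lf (nat_lit 0) (nat_lit 915109788505) (nat_lit 152) (nat_lit 580097233194) (nat_lit 0) (nat_lit 867783692533) (nat_lit 1) (nat_lit 5) (nat_lit 3) (nat_lit 4) (nat_lit 1) (nat_lit 4) (nat_lit 335) (nat_lit 253) (nat_lit 132)) (XT.lf (nat_lit 0) (nat_lit 995364551607) (nat_lit 152) (nat_lit 607710193465) (nat_lit 0) (nat_lit 948038139019) (nat_lit 1) (nat_lit 5) (nat_lit 3) (nat_lit 4) (nat_lit 1) (nat_lit 4) (nat_lit 336) (nat_lit 253) (nat_lit 131))) (XT.nd (nat_lit 78) (nat_lit 0) (nat_lit 0) (XT.lf (nat_lit 0) (nat_lit 1082039556222) (nat_lit 152) (nat_lit 637532432657) (nat_lit 0) (nat_lit 1034712850472) (nat_lit 1) (nat_lit 5) (nat_lit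 3) (nat_lit 4) (nat_lit 1) (nat_lit 4) (nat_lit 337) (nat_lit 253) (nat_lit 130)) (XT.lf (nat_lit 0) (nat_lit 1175648432007) (nat_lit 152) (nat_lit 669740675151) (nat_lit 0) (nat_lit 1128321454812) (nat_lit 1) (nat_lit 5) (nat_lit 3) (nat_lit 4) (nat_lit 1) (nat_lit 4) (nat_lit 338) (nat_lit 253) (nat_lit 129))))) (XT.nd (nat_lit 30888) (nat_lit 0) (nat_lit 1976) (XT.nd (nat_lit 78) (nat_lit 0) (nat_lit 0) (XT.lf (nat_lit 0) (nat_lit 1276745898228) (nat_lit 152) (nat_lit 704525784605) (nat_lit 0) (nat_lit 1229418669693) (nat_lit 1) (nat_lit 5) (nat_lit 3) (nat_lit 4) (nat_lit 1) (nat_lit 4) (nat_lit 339) (nat_lit 253) (nat_lit 128)) (XT.nd (nat_lit 78) (nat_lit 0) (nat_lit 0) (XT.lf (nat_lit 0) (nat_lit 1385931050979) (nat_lit 152) (nat_lit 742093895003) (nat_lit 0) (nat_lit 1338603589723) (nat_lit 1) (nat_lit 5) (nat_lit 3) (nat_lit 4) (nat_lit 1) (nat_lit 4) (nat_lit 340) (nat_lit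 253) (nat_lit 127)) (XT.lf (nat_lit 0) (nat_lit 1503850913389) (nat_lit 152) (nat_lit 782667632182) (nat_lit 0) (nat_lit 1456523236649) (nat_lit 1) (nat_lit 5) (nat_lit 3) (nat_lit 4) (nat_lit 1) (nat_lit 4) (nat_lit 341) (nat_lit 253) (nat_lit 126)))) (XT.nd (nat_lit 156) (nat_lit 0) (nat_lit 0) (XT.nd (nat_lit 78) (nat_lit 0) (nat_lit 0) (XT.lf (nat_lit 0) (nat_lit 1794688301) (nat_lit 0) (nat_lit 1794688301) (nat_lit 380) (nat_lit 2632528418) (nat_lit 27) (nat_lit 5) (nat_lit 27) (nat_lit 3) (nat_lit 32) (nat_lit 3) (nat_lit 254) (nat_lit 254) (nat_lit 212)) (XT.lf (nat_lit 0) (nat_lit 7846971048) (nat_lit 380) (nat_lit 4248439885) (nat_lit 456) (nat_lit 811491767) (nat_lit 27) (nat_lit 5) (nat_lit 32) (nat_lit 3) (nat_lit 33) (nat_lit 5) (nat_lit 255) (nat_lit 254) (nat_lit 211))) (XT.nd (nat_lit 78) (nat_lit 0) (nat_lit 0) (XT.lf (nat_lit 76) (nat_lit 643206591) (nat_lit 0) (nat_lit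 7998503455) (nat_lit 456) (nat_lit 4759905257) (nat_lit 28) (nat_lit 5) (nat_lit 27) (nat_lit 5) (nat_lit 33) (nat_lit 5) (nat_lit 256) (nat_lit 254) (nat_lit 210)) (XT.lf (nat_lit 76) (nat_lit 6146576713) (nat_lit 0) (nat_lit 3436104708) (nat_lit 456) (nat_lit 4346997932) (nat_lit 28) (nat_lit 5) (nat_lit 27) (nat_lit 5) (nat_lit 33) (nat_lit 5) (nat_lit 257) (nat_lit 254) (nat_lit 209))))))) (XT.nd (nat_lit 1014) (nat_lit 608) (nat_lit 0) (XT.nd (nat_lit 468) (nat_lit 608) (nat_lit 0) (XT.nd (nat_lit 234) (nat_lit 380) (nat_lit 0) (XT.nd (nat_lit 78) (nat_lit 0) (nat_lit 0) (XT.lf (nat_lit 0) (nat_lit 10604044912) (nat_lit 380) (nat_lit 2468399880) (nat_lit 456) (nat_lit 1427492635) (nat_lit 28) (nat_lit 5) (nat_lit 33) (nat_lit 5) (nat_lit 34) (nat_lit 5) (nat_lit 258) (nat_lit 254) (nat_lit 208)) (XT.nd (nat_lit 78) (nat_lit 0) (nat_lit 0) (XT.lf (nat_lit 76) (nat_lit 3327614128)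 (nat_lit 0) (nat_lit 8520308827) (nat_lit 456) (nat_lit 3256960286) (nat_lit 29) (nat_lit 5) (nat_lit 28) (nat_lit 5) (nat_lit 34) (nat_lit 5) (nat_lit 259) (nat_lit 254) (nat_lit 207)) (XT.lf (nat_lit 76) (nat_lit 9707146685) (nat_lit 0) (nat_lit 3524796857) (nat_lit 456) (nat_lit 2523337567) (nat_lit 29) (nat_lit 5) (nat_lit 28) (nat_lit 5) (nat_lit 34) (nat_lit 5) (nat_lit 260) (nat_lit 254) (nat_lit 206)))) (XT.nd (nat_lit 78) (nat_lit 76) (nat_lit 0) (XT.lf (nat_lit 0) (nat_lit 76753088) (nat_lit 380) (nat_lit 14672032712) (nat_lit 456) (nat_lit 1707441239) (nat_lit 24) (nat_lit 5) (nat_lit 29) (nat_lit 5) (nat_lit 30) (nat_lit 5) (nat_lit 261) (nat_lit 254) (nat_lit 205)) (XT.nd (nat_lit 78) (nat_lit 76) (nat_lit 0) (XT.lf (nat_lit 0) (nat_lit 6918327498) (nat_lit 380) (nat_lit 9699851252) (nat_lit 456) (nat_lit 576836808) (nat_lit 24) (nat_lit 5) (nat_lit 29) (nat_lit 5) (nat_lit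 30) (nat_lit 5) (nat_lit 262) (nat_lit 254) (nat_lit 204)) (XT.lf (nat_lit 0) (nat_lit 589529926) (nat_lit 456) (nat_lit 3721926104) (nat_lit 76) (nat_lit 13682234071) (nat_lit 23) (nat_lit 5) (nat_lit 29) (nat_lit 5) (nat_lit 24) (nat_lit 5) (nat_lit 263) (nat_lit 254) (nat_lit 203))))) (XT.nd (nat_lit 234) (nat_lit 380) (nat_lit 0) (XT.nd (nat_lit 78) (nat_lit 0) (nat_lit 0) (XT.lf (nat_lit 0) (nat_lit 1920252767) (nat_lit 304) (nat_lit 15391080245) (nat_lit 76) (nat_lit 1535759019) (nat_lit 20) (nat_lit 5) (nat_lit 24) (nat_lit 5) (nat_lit 21) (nat_lit 5) (nat_lit 264) (nat_lit 254) (nat_lit 202)) (XT.nd (nat_lit 78) (nat_lit 0) (nat_lit 0) (XT.lf (nat_lit 0) (nat_lit 3554143998) (nat_lit 304) (nat_lit 8475923177) (nat_lit 76) (nat_lit 7723155543) (nat_lit 20) (nat_lit 5) (nat_lit 24) (nat_lit 5) (nat_lit 21) (nat_lit 5) (nat_lit 265) (nat_lit 254) (nat_lit 201)) (XT.lf (nat_lit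 0) (nat_lit 5300521908) (nat_lit 304) (nat_lit 1026556357) (nat_lit 76) (nat_lit 14406402678) (nat_lit 20) (nat_lit 5) (nat_lit 24) (nat_lit 5) (nat_lit 21) (nat_lit 5) (nat_lit 266) (nat_lit 254) (nat_lit 200)))) (XT.nd (nat_lit 156) (nat_lit 152) (nat_lit 0) (XT.nd (nat_lit 78) (nat_lit 0) (nat_lit 0) (XT.lf (nat_lit 0) (nat_lit 7347529705) (nat_lit 304) (nat_lit 14410212167) (nat_lit 76) (nat_lit 21710230) (nat_lit 17) (nat_lit 5) (nat_lit 21) (nat_lit 5) (nat_lit 18) (nat_lit 5) (nat_lit 267) (nat_lit 254) (nat_lit 199)) (XT.lf (nat_lit 0) (nat_lit 9735370844) (nat_lit 304) (nat_lit 6595402677) (nat_lit 76) (nat_lit 6564315179) (nat_lit 17) (nat_lit 5) (nat_lit 21) (nat_lit 5) (nat_lit 18) (nat_lit 5) (nat_lit 268) (nat_lit 254) (nat_lit 198))) (XT.nd (nat_lit 78) (nat_lit 0) (nat_lit 0) (XT.lf (nat_lit 0) (nat_lit 1923634833) (nat_lit 152) (nat_lit 10421993939) (nat_lit 228)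 (nat_lit 11751978482) (nat_lit 15) (nat_lit 5) (nat_lit 17) (nat_lit 5) (nat_lit 18) (nat_lit 5) (nat_lit 269) (nat_lit 254) (nat_lit 197)) (XT.lf (nat_lit 0) (nat_lit 11482532051) (nat_lit 152) (nat_lit 3848330259) (nat_lit 228) (nat_lit 10052304238) (nat_lit 15) (nat_lit 5) (nat_lit 17) (nat_lit 5) (nat_lit 18) (nat_lit 5) (nat_lit 270) (nat_lit 254) (nat_lit 196)))))) (XT.nd (nat_lit 546) (nat_lit 228) (nat_lit 0) (XT.nd (nat_lit 234) (nat_lit 228) (nat_lit 0) (XT.nd (nat_lit 78) (nat_lit 152) (nat_lit 0) (XT.lf (nat_lit 0) (nat_lit 18619924255) (nat_lit 228) (nat_lit 5060245157) (nat_lit 76) (nat_lit 3086322301) (nat_lit 15) (nat_lit 5) (nat_lit 18) (nat_lit 5) (nat_lit 16) (nat_lit 5) (nat_lit 271) (nat_lit 254) (nat_lit 195)) (XT.nd (nat_lit 78) (nat_lit 0) (nat_lit 0) (XT.lf (nat_lit 0) (nat_lit 4602249702) (nat_lit 152) (nat_lit 17768296416) (nat_lit 228) (nat_lit 5874174849)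 (nat_lit 13) (nat_lit 5) (nat_lit 15) (nat_lit 5) (nat_lit 16) (nat_lit 5) (nat_lit 272) (nat_lit 254) (nat_lit 194)) (XT.lf (nat_lit 0) (nat_lit 15310522285) (nat_lit 152) (nat_lit 11237388962) (nat_lit 228) (nat_lit 3283266345) (nat_lit 13) (nat_lit 5) (nat_lit 15) (nat_lit 5) (nat_lit 16) (nat_lit 5) (nat_lit 273) (nat_lit 254) (nat_lit 193)))) (XT.nd (nat_lit 156) (nat_lit 0) (nat_lit 0) (XT.nd (nat_lit 78) (nat_lit 228) (nat_lit 0) (XT.lf (nat_lit 0) (nat_lit 26861565478) (nat_lit 152) (nat_lit 4187101447) (nat_lit 228) (nat_lit 496844485) (nat_lit 13) (nat_lit 5) (nat_lit 15) (nat_lit 5) (nat_lit 16) (nat_lit 5) (nat_lit 274) (nat_lit 254) (nat_lit 192)) (XT.lf (nat_lit 0) (nat_lit 2612738886) (nat_lit 228) (nat_lit 27294297036) (nat_lit 76) (nat_lit 3467130321) (nat_lit 10) (nat_lit 5) (nat_lit 13) (nat_lit 5) (nat_lit 11) (nat_lit 5) (nat_lit 275) (nat_lit 254) (nat_lit 191)))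 (XT.nd (nat_lit 78) (nat_lit 0) (nat_lit 0) (XT.lf (nat_lit 0) (nat_lit 6174424220) (nat_lit 228) (nat_lit 17506624090) (nat_lit 76) (nat_lit 11648695343) (nat_lit 10) (nat_lit 5) (nat_lit 13) (nat_lit 5) (nat_lit 11) (nat_lit 5) (nat_lit 276) (nat_lit 254) (nat_lit 190)) (XT.lf (nat_lit 0) (nat_lit 10011811148) (nat_lit 228) (nat_lit 6948843214) (nat_lit 76) (nat_lit 20481922683) (nat_lit 10) (nat_lit 5) (nat_lit 13) (nat_lit 5) (nat_lit 11) (nat_lit 5) (nat_lit 277) (nat_lit 254) (nat_lit 189))))) (XT.nd (nat_lit 234) (nat_lit 76) (nat_lit 0) (XT.nd (nat_lit 78) (nat_lit 0) (nat_lit 0) (XT.lf (nat_lit 0) (nat_lit 4675497544) (nat_lit 152) (nat_lit 9584588025) (nat_lit 228) (nat_lit 25456105676) (nat_lit 8) (nat_lit 5) (nat_lit 10) (nat_lit 5) (nat_lit 11) (nat_lit 5) (nat_lit 278) (nat_lit 254) (nat_lit 188)) (XT.nd (nat_lit 78) (nat_lit 0) (nat_lit 0) (XT.lf (nat_lit 0) (nat_lit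 17613325053) (nat_lit 152) (nat_lit 1416694451) (nat_lit 228) (nat_lit 23127192254) (nat_lit 8) (nat_lit 5) (nat_lit 10) (nat_lit 5) (nat_lit 11) (nat_lit 5) (nat_lit 279) (nat_lit 254) (nat_lit 187)) (XT.lf (nat_lit 0) (nat_lit 24351963836) (nat_lit 228) (nat_lit 13396788038) (nat_lit 76) (nat_lit 7031185248) (nat_lit 8) (nat_lit 5) (nat_lit 11) (nat_lit 5) (nat_lit 9) (nat_lit 4) (nat_lit 280) (nat_lit 254) (nat_lit 186)))) (XT.nd (nat_lit 156) (nat_lit 0) (nat_lit 0) (XT.nd (nat_lit 78) (nat_lit 76) (nat_lit 0) (XT.lf (nat_lit 0) (nat_lit 30129362953) (nat_lit 228) (nat_lit 1405247758) (nat_lit 76) (nat_lit 16075546149) (nat_lit 8) (nat_lit 5) (nat_lit 11) (nat_lit 5) (nat_lit 9) (nat_lit 4) (nat_lit 281) (nat_lit 254) (nat_lit 185)) (XT.lf (nat_lit 0) (nat_lit 12143324943) (nat_lit 76) (nat_lit 24511104071) (nat_lit 152) (nat_lit 13989575570) (nat_lit 7) (nat_lit 5) (nat_lit 8)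 (nat_lit 5) (nat_lit 9) (nat_lit 4) (nat_lit 282) (nat_lit 254) (nat_lit 184))) (XT.nd (nat_lit 78) (nat_lit 0) (nat_lit 0) (XT.lf (nat_lit 0) (nat_lit 26846198866) (nat_lit 76) (nat_lit 16887409521) (nat_lit 152) (nat_lit 10184427921) (nat_lit 7) (nat_lit 5) (nat_lit 8) (nat_lit 5) (nat_lit 9) (nat_lit 4) (nat_lit 283) (nat_lit 254) (nat_lit 183)) (XT.lf (nat_lit 0) (nat_lit 42716504292) (nat_lit 76) (nat_lit 8656771577) (nat_lit 152) (nat_lit 6081223902) (nat_lit 7) (nat_lit 5) (nat_lit 8) (nat_lit 5) (nat_lit 9) (nat_lit 4) (nat_lit 284) (nat_lit 254) (nat_lit 182))))))))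
noncomputable def xc78 : XT := (XT.nd (nat_lit 2106) (nat_lit 0) (nat_lit 0) (XT.nd (nat_lit 1014) (nat_lit 152) (nat_lit 0) (XT.nd (nat_lit 468) (nat_lit 152) (nat_lit 0) (XT.nd (nat_lit 234) (nat_lit 0) (nat_lit 0) (XT.nd (nat_lit 78) (nat_lit 152) (nat_lit 0) (XT.lf (nat_lit 0) (nat_lit 59624225065) (nat_lit 152) (nat_lit 1431585817) (nat_lit 0) (nat_lit 218099194) (nat_lit 7) (nat_lit 5) (nat_lit 9) (nat_lit 4) (nat_lit 7) (nat_lit 4) (nat_lit 285) (nat_lit 254) (nat_lit 181)) (XT.nd (nat_lit 78) (nat_lit 0) (nat_lit 0) (XT.lf (nat_lit 0) (nat_lit 3534976249) (nat_lit 152) (nat_lit 52069413014) (nat_lit 76) (nat_lit 9744043010) (nat_lit 5) (nat_lit 5) (nat_lit 7) (nat_lit 5) (nat_lit 6) (nat_lit 4) (nat_lit 286) (nat_lit 254) (nat_lit 180)) (XT.lf (nat_lit 0) (nat_lit 9080402292) (nat_lit 152) (nat_lit 40549776607) (nat_lit 76) (nat_lit 20112530520) (nat_lit 5) (nat_lit 5) (nat_lit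 7) (nat_lit 5) (nat_lit 6) (nat_lit 4) (nat_lit 287) (nat_lit 254) (nat_lit 179)))) (XT.nd (nat_lit 78) (nat_lit 0) (nat_lit 0) (XT.lf (nat_lit 0) (nat_lit 15064794779) (nat_lit 152) (nat_lit 28115990015) (nat_lit 76) (nat_lit 31308145600) (nat_lit 5) (nat_lit 5) (nat_lit 7) (nat_lit 5) (nat_lit 6) (nat_lit 4) (nat_lit 288) (nat_lit 254) (nat_lit 178)) (XT.nd (nat_lit 78) (nat_lit 0) (nat_lit 0) (XT.lf (nat_lit 0) (nat_lit 21523616775) (nat_lit 152) (nat_lit 14694371540) (nat_lit 76) (nat_lit 43397232636) (nat_lit 5) (nat_lit 5) (nat_lit 7) (nat_lit 5) (nat_lit 6) (nat_lit 4) (nat_lit 289) (nat_lit 254) (nat_lit 177)) (XT.lf (nat_lit 0) (nat_lit 28495142782) (nat_lit 152) (nat_lit 205385665) (nat_lit 76) (nat_lit 56451430662) (nat_lit 5) (nat_lit 5) (nat_lit 7) (nat_lit 5) (nat_lit 6) (nat_lit 4) (nat_lit 290) (nat_lit 254) (nat_lit 176))))) (XT.nd (nat_lit 234) (nat_lit 76) (nat_lit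 0) (XT.nd (nat_lit 78) (nat_lit 0) (nat_lit 0) (XT.lf (nat_lit 0) (nat_lit 16249704285) (nat_lit 76) (nat_lit 20161787040) (nat_lit 152) (nat_lit 54689199383) (nat_lit 4) (nat_lit 5) (nat_lit 5) (nat_lit 5) (nat_lit 6) (nat_lit 4) (nat_lit 291) (nat_lit 254) (nat_lit 175)) (XT.nd (nat_lit 78) (nat_lit 0) (nat_lit 0) (XT.lf (nat_lit 0) (nat_lit 34027140219) (nat_lit 76) (nat_lit 10936054198) (nat_lit 152) (nat_lit 52561983445) (nat_lit 4) (nat_lit 5) (nat_lit 5) (nat_lit 5) (nat_lit 6) (nat_lit 4) (nat_lit 292) (nat_lit 254) (nat_lit 174)) (XT.lf (nat_lit 0) (nat_lit 53221454658) (nat_lit 76) (nat_lit 974274523) (nat_lit 152) (nat_lit 50268178398) (nat_lit 4) (nat_lit 5) (nat_lit 5) (nat_lit 5) (nat_lit 6) (nat_lit 4) (nat_lit 293) (nat_lit 254) (nat_lit 173)))) (XT.nd (nat_lit 156) (nat_lit 76) (nat_lit 0) (XT.nd (nat_lit 78) (nat_lit 0) (nat_lit 0) (XT.lf (nat_lit 0) (nat_lit 64399078332)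 (nat_lit 152) (nat_lit 38246877967) (nat_lit 0) (nat_lit 9293220246) (nat_lit 4) (nat_lit 5) (nat_lit 6) (nat_lit 4) (nat_lit 4) (nat_lit 4) (nat_lit 294) (nat_lit 254) (nat_lit 172)) (XT.lf (nat_lit 0) (nat_lit 75441126624) (nat_lit 152) (nat_lit 24241722430) (nat_lit 0) (nat_lit 20327839959) (nat_lit 4) (nat_lit 5) (nat_lit 6) (nat_lit 4) (nat_lit 4) (nat_lit 4) (nat_lit 295) (nat_lit 254) (nat_lit 171))) (XT.nd (nat_lit 78) (nat_lit 76) (nat_lit 0) (XT.lf (nat_lit 0) (nat_lit 87363877091) (nat_lit 152) (nat_lit 9120561470) (nat_lit 0) (nat_lit 32243712114) (nat_lit 4) (nat_lit 5) (nat_lit 6) (nat_lit 4) (nat_lit 4) (nat_lit 4) (nat_lit 296) (nat_lit 254) (nat_lit 170)) (XT.lf (nat_lit 0) (nat_lit 7585678135) (nat_lit 76) (nat_lit 92834740676) (nat_lit 76) (nat_lit 37708206890) (nat_lit 3) (nat_lit 4) (nat_lit 4) (nat_lit 5) (nat_lit 4) (nat_lit 4) (nat_lit 297) (nat_lit 254) (nat_lit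 169)))))) (XT.nd (nat_lit 546) (nat_lit 152) (nat_lit 0) (XT.nd (nat_lit 234) (nat_lit 0) (nat_lit 0) (XT.nd (nat_lit 78) (nat_lit 0) (nat_lit 0) (XT.lf (nat_lit 0) (nat_lit 26143134054) (nat_lit 76) (nat_lit 88625344508) (nat_lit 76) (nat_lit 33492913677) (nat_lit 3) (nat_lit 4) (nat_lit 4) (nat_lit 5) (nat_lit 4) (nat_lit 4) (nat_lit 298) (nat_lit 254) (nat_lit 168)) (XT.nd (nat_lit 78) (nat_lit 0) (nat_lit 0) (XT.lf (nat_lit 0) (nat_lit 46181503790) (nat_lit 76) (nat_lit 84080677801) (nat_lit 76) (nat_lit 28942786743) (nat_lit 3) (nat_lit 4) (nat_lit 4) (nat_lit 5) (nat_lit 4) (nat_lit 4) (nat_lit 299) (nat_lit 254) (nat_lit 167)) (XT.lf (nat_lit 0) (nat_lit 67819533239) (nat_lit 76) (nat_lit 79173809196) (nat_lit 76) (nat_lit 24030862373) (nat_lit 3) (nat_lit 4) (nat_lit 4) (nat_lit 5) (nat_lit 4) (nat_lit 4) (nat_lit 300) (nat_lit 254) (nat_lit 166)))) (XT.nd (nat_lit 156) (nat_lit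 0) (nat_lit 0) (XT.nd (nat_lit 78) (nat_lit 0) (nat_lit 0) (XT.lf (nat_lit 0) (nat_lit 91185447761) (nat_lit 76) (nat_lit 73875660954) (nat_lit 76) (nat_lit 18728032867) (nat_lit 3) (nat_lit 4) (nat_lit 4) (nat_lit 5) (nat_lit 4) (nat_lit 4) (nat_lit 301) (nat_lit 254) (nat_lit 165)) (XT.lf (nat_lit 0) (nat_lit 116417712033) (nat_lit 76) (nat_lit 68154836640) (nat_lit 76) (nat_lit 13002874049) (nat_lit 3) (nat_lit 4) (nat_lit 4) (nat_lit 5) (nat_lit 4) (nat_lit 4) (nat_lit 302) (nat_lit 254) (nat_lit 164))) (XT.nd (nat_lit 78) (nat_lit 0) (nat_lit 0) (XT.lf (nat_lit 0) (nat_lit 143665850585) (nat_lit 76) (nat_lit 61977435074) (nat_lit 76) (nat_lit 6821459053) (nat_lit 3) (nat_lit 4) (nat_lit 4) (nat_lit 5) (nat_lit 4) (nat_lit 4) (nat_lit 303) (nat_lit 254) (nat_lit 163)) (XT.lf (nat_lit 0) (nat_lit 173091333867) (nat_lit 76) (nat_lit 55306849431) (nat_lit 76) (nat_lit 147157272)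 (nat_lit 3) (nat_lit 4) (nat_lit 4) (nat_lit 5) (nat_lit 4) (nat_lit 4) (nat_lit 304) (nat_lit 254) (nat_lit 162))))) (XT.nd (nat_lit 234) (nat_lit 76) (nat_lit 0) (XT.nd (nat_lit 78) (nat_lit 0) (nat_lit 0) (XT.lf (nat_lit 0) (nat_lit 6706433793) (nat_lit 152) (nat_lit 41213750738) (nat_lit 76) (nat_lit 197978735537) (nat_lit 2) (nat_lit 5) (nat_lit 4) (nat_lit 5) (nat_lit 3) (nat_lit 4) (nat_lit 305) (nat_lit 254) (nat_lit 161)) (XT.nd (nat_lit 78) (nat_lit 0) (nat_lit 0) (XT.lf (nat_lit 0) (nat_lit 14099037194) (nat_lit 152) (nat_lit 25840321654) (nat_lit 76) (nat_lit 224701233811) (nat_lit 2) (nat_lit 5) (nat_lit 4) (nat_lit 5) (nat_lit 3) (nat_lit 4) (nat_lit 306) (nat_lit 254) (nat_lit 160)) (XT.lf (nat_lit 0) (nat_lit 22081822353) (nat_lit 152) (nat_lit 9239078513) (nat_lit 76) (nat_lit 253560802372) (nat_lit 2) (nat_lit 5) (nat_lit 4) (nat_lit 5) (nat_lit 3) (nat_lit 4) (nat_lit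 307) (nat_lit 254) (nat_lit 159)))) (XT.nd (nat_lit 156) (nat_lit 0) (nat_lit 0) (XT.nd (nat_lit 78) (nat_lit 0) (nat_lit 0) (XT.lf (nat_lit 0) (nat_lit 9145869872) (nat_lit 76) (nat_lit 21776183182) (nat_lit 152) (nat_lit 275802549403) (nat_lit 1) (nat_lit 5) (nat_lit 2) (nat_lit 5) (nat_lit 3) (nat_lit 4) (nat_lit 308) (nat_lit 254) (nat_lit 158)) (XT.lf (nat_lit 0) (nat_lit 29525189348) (nat_lit 76) (nat_lit 11195829387) (nat_lit 152) (nat_lit 289573798751) (nat_lit 1) (nat_lit 5) (nat_lit 2) (nat_lit 5) (nat_lit 3) (nat_lit 4) (nat_lit 309) (nat_lit 254) (nat_lit 157))) (XT.nd (nat_lit 78) (nat_lit 0) (nat_lit 0) (XT.lf (nat_lit 0) (nat_lit 51308424045) (nat_lit 152) (nat_lit 304223140410) (nat_lit 0) (nat_lit 218728285) (nat_lit 1) (nat_lit 5) (nat_lit 3) (nat_lit 4) (nat_lit 1) (nat_lit 4) (nat_lit 310) (nat_lit 254) (nat_lit 156)) (XT.lf (nat_lit 0) (nat_lit 63032666945) (nat_lit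 152) (nat_lit 308245392438) (nat_lit 0) (nat_lit 11940963471) (nat_lit 1) (nat_lit 5) (nat_lit 3) (nat_lit 4) (nat_lit 1) (nat_lit 4) (nat_lit 311) (nat_lit 254) (nat_lit 155))))))) (XT.nd (nat_lit 1014) (nat_lit 0) (nat_lit 0) (XT.nd (nat_lit 468) (nat_lit 0) (nat_lit 0) (XT.nd (nat_lit 234) (nat_lit 0) (nat_lit 0) (XT.nd (nat_lit 78) (nat_lit 0) (nat_lit 0) (XT.lf (nat_lit 0) (nat_lit 75693964465) (nat_lit 152) (nat_lit 312590959826) (nat_lit 0) (nat_lit 24600401997) (nat_lit 1) (nat_lit 5) (nat_lit 3) (nat_lit 4) (nat_lit 1) (nat_lit 4) (nat_lit 312) (nat_lit 254) (nat_lit 154)) (XT.nd (nat_lit 78) (nat_lit 0) (nat_lit 0) (XT.lf (nat_lit 0) (nat_lit 89367346516) (nat_lit 152) (nat_lit 317285594084) (nat_lit 0) (nat_lit 38272062757) (nat_lit 1) (nat_lit 5) (nat_lit 3) (nat_lit 4) (nat_lit 1) (nat_lit 4) (nat_lit 313) (nat_lit 254) (nat_lit 153)) (XT.lf (nat_lit 0) (nat_lit 104133840547)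 (nat_lit 152) (nat_lit 322357115266) (nat_lit 0) (nat_lit 53036963000) (nat_lit 1) (nat_lit 5) (nat_lit 3) (nat_lit 4) (nat_lit 1) (nat_lit 4) (nat_lit 314) (nat_lit 254) (nat_lit 152)))) (XT.nd (nat_lit 78) (nat_lit 0) (nat_lit 0) (XT.lf (nat_lit 0) (nat_lit 120080951709) (nat_lit 152) (nat_lit 327835576832) (nat_lit 0) (nat_lit 68982598431) (nat_lit 1) (nat_lit 5) (nat_lit 3) (nat_lit 4) (nat_lit 1) (nat_lit 4) (nat_lit 315) (nat_lit 254) (nat_lit 151)) (XT.nd (nat_lit 78) (nat_lit 0) (nat_lit 0) (XT.lf (nat_lit 0) (nat_lit 137303181400) (nat_lit 152) (nat_lit 333753443738) (nat_lit 0) (nat_lit 86203461706) (nat_lit 1) (nat_lit 5) (nat_lit 3) (nat_lit 4) (nat_lit 1) (nat_lit 4) (nat_lit 316) (nat_lit 254) (nat_lit 150)) (XT.lf (nat_lit 0) (nat_lit 155902587278) (nat_lit 152) (nat_lit 340145784827) (nat_lit 0) (nat_lit 104801602384) (nat_lit 1) (nat_lit 5) (nat_lit 3) (nat_lit 4)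 (nat_lit 1) (nat_lit 4) (nat_lit 317) (nat_lit 254) (nat_lit 149))))) (XT.nd (nat_lit 234) (nat_lit 0) (nat_lit 0) (XT.nd (nat_lit 78) (nat_lit 0) (nat_lit 0) (XT.lf (nat_lit 0) (nat_lit 175989388044) (nat_lit 152) (nat_lit 347050480637) (nat_lit 0) (nat_lit 124887231668) (nat_lit 1) (nat_lit 5) (nat_lit 3) (nat_lit 4) (nat_lit 1) (nat_lit 4) (nat_lit 318) (nat_lit 254) (nat_lit 148)) (XT.nd (nat_lit 78) (nat_lit 0) (nat_lit 0) (XT.lf (nat_lit 0) (nat_lit 197682616592) (nat_lit 152) (nat_lit 354508447885) (nat_lit 0) (nat_lit 146579375511) (nat_lit 1) (nat_lit 5) (nat_lit 3) (nat_lit 4) (nat_lit 1) (nat_lit 4) (nat_lit 319) (nat_lit 254) (nat_lit 147)) (XT.lf (nat_lit 0) (nat_lit 221110825388) (nat_lit 152) (nat_lit 362563881932) (nat_lit 0) (nat_lit 170006579950) (nat_lit 1) (nat_lit 5) (nat_lit 3) (nat_lit 4) (nat_lit 1) (nat_lit 4) (nat_lit 320) (nat_lit 254) (nat_lit 146)))) (XT.nd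 (nat_lit 156) (nat_lit 0) (nat_lit 0) (XT.nd (nat_lit 78) (nat_lit 0) (nat_lit 0) (XT.lf (nat_lit 0) (nat_lit 246412848261) (nat_lit 152) (nat_lit 371264518683) (nat_lit 0) (nat_lit 195307672863) (nat_lit 1) (nat_lit 5) (nat_lit 3) (nat_lit 4) (nat_lit 1) (nat_lit 4) (nat_lit 321) (nat_lit 254) (nat_lit 145)) (XT.lf (nat_lit 0) (nat_lit 273738623125) (nat_lit 152) (nat_lit 380661917468) (nat_lit 0) (nat_lit 222632586653) (nat_lit 1) (nat_lit 5) (nat_lit 3) (nat_lit 4) (nat_lit 1) (nat_lit 4) (nat_lit 322) (nat_lit 254) (nat_lit 144))) (XT.nd (nat_lit 78) (nat_lit 0) (nat_lit 0) (XT.lf (nat_lit 0) (nat_lit 303250080497) (nat_lit 152) (nat_lit 390811766576) (nat_lit 0) (nat_lit 252143246734) (nat_lit 1) (nat_lit 5) (nat_lit 3) (nat_lit 4) (nat_lit 1) (nat_lit 4) (nat_lit 323) (nat_lit 254) (nat_lit 143)) (XT.lf (nat_lit 0) (nat_lit 335122103088) (nat_lit 152) (nat_lit 401774213259)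 (nat_lit 0) (nat_lit 284014531093) (nat_lit 1) (nat_lit 5) (nat_lit 3) (nat_lit 4) (nat_lit 1) (nat_lit 4) (nat_lit 324) (nat_lit 254) (nat_lit 142)))))) (XT.nd (nat_lit 546) (nat_lit 0) (nat_lit 0) (XT.nd (nat_lit 234) (nat_lit 0) (nat_lit 0) (XT.nd (nat_lit 78) (nat_lit 0) (nat_lit 0) (XT.lf (nat_lit 0) (nat_lit 369543562143) (nat_lit 152) (nat_lit 413614220166) (nat_lit 0) (nat_lit 318435306599) (nat_lit 1) (nat_lit 5) (nat_lit 3) (nat_lit 4) (nat_lit 1) (nat_lit 4) (nat_lit 325) (nat_lit 254) (nat_lit 141)) (XT.nd (nat_lit 78) (nat_lit 0) (nat_lit 0) (XT.lf (nat_lit 0) (nat_lit 406718436677) (nat_lit 152) (nat_lit 426401950301) (nat_lit 0) (nat_lit 355609548218) (nat_lit 1) (nat_lit 5) (nat_lit 3) (nat_lit 4) (nat_lit 1) (nat_lit 4) (nat_lit 326) (nat_lit 254) (nat_lit 140)) (XT.lf (nat_lit 0) (nat_lit 446867022245) (nat_lit 152) (nat_lit 440213182805) (nat_lit 0) (nat_lit 395757547754)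 (nat_lit 1) (nat_lit 5) (nat_lit 3) (nat_lit 4) (nat_lit 1) (nat_lit 4) (nat_lit 327) (nat_lit 254) (nat_lit 139)))) (XT.nd (nat_lit 156) (nat_lit 0) (nat_lit 0) (XT.nd (nat_lit 78) (nat_lit 0) (nat_lit 0) (XT.lf (nat_lit 0) (nat_lit 490227236390) (nat_lit 152) (nat_lit 455129762018) (nat_lit 0) (nat_lit 439117219276) (nat_lit 1) (nat_lit 5) (nat_lit 3) (nat_lit 4) (nat_lit 1) (nat_lit 4) (nat_lit 328) (nat_lit 254) (nat_lit 138)) (XT.lf (nat_lit 0) (nat_lit 537056028530) (nat_lit 152) (nat_lit 471240082484) (nat_lit 0) (nat_lit 485945508987) (nat_lit 1) (nat_lit 5) (nat_lit 3) (nat_lit 4) (nat_lit 1) (nat_lit 4) (nat_lit 329) (nat_lit 254) (nat_lit 137))) (XT.nd (nat_lit 78) (nat_lit 0) (nat_lit 0) (XT.lf (nat_lit 0) (nat_lit 587630902617) (nat_lit 152) (nat_lit 488639612769) (nat_lit 0) (nat_lit 536519917863) (nat_lit 1) (nat_lit 5) (nat_lit 3) (nat_lit 4) (nat_lit 1) (nat_lit 4)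 (nat_lit 330) (nat_lit 254) (nat_lit 136)) (XT.lf (nat_lit 0) (nat_lit 642251561609) (nat_lit 152) (nat_lit 507431461201) (nat_lit 0) (nat_lit 591140146104) (nat_lit 1) (nat_lit 5) (nat_lit 3) (nat_lit 4) (nat_lit 1) (nat_lit 4) (nat_lit 331) (nat_lit 254) (nat_lit 135))))) (XT.nd (nat_lit 234) (nat_lit 0) (nat_lit 0) (XT.nd (nat_lit 78) (nat_lit 0) (nat_lit 0) (XT.lf (nat_lit 0) (nat_lit 701241683486) (nat_lit 152) (nat_lit 527726986881) (nat_lit 0) (nat_lit 650129869137) (nat_lit 1) (nat_lit 5) (nat_lit 3) (nat_lit 4) (nat_lit 1) (nat_lit 4) (nat_lit 332) (nat_lit 254) (nat_lit 134)) (XT.nd (nat_lit 78) (nat_lit 0) (nat_lit 0) (XT.lf (nat_lit 0) (nat_lit 764950839341) (nat_lit 152) (nat_lit 549646459591) (nat_lit 0) (nat_lit 713838655691) (nat_lit 1) (nat_lit 5) (nat_lit 3) (nat_lit 4) (nat_lit 1) (nat_lit 4) (nat_lit 333) (nat_lit 254) (nat_lit 133)) (XT.lf (nat_lit 0) (nat_lit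 833756564910) (nat_lit 152) (nat_lit 573319772503) (nat_lit 0) (nat_lit 782644039316) (nat_lit 1) (nat_lit 5) (nat_lit 3) (nat_lit 4) (nat_lit 1) (nat_lit 4) (nat_lit 334) (nat_lit 254) (nat_lit 132)))) (XT.nd (nat_lit 156) (nat_lit 0) (nat_lit 0) (XT.nd (nat_lit 78) (nat_lit 0) (nat_lit 0) (XT.lf (nat_lit 0) (nat_lit 908066597829) (nat_lit 152) (nat_lit 598887211915) (nat_lit 0) (nat_lit 856953755619) (nat_lit 1) (nat_lit 5) (nat_lit 3) (nat_lit 4) (nat_lit 1) (nat_lit 4) (nat_lit 335) (nat_lit 254) (nat_lit 131)) (XT.lf (nat_lit 0) (nat_lit 988321293846) (nat_lit 152) (nat_lit 626500288580) (nat_lit 0) (nat_lit 937208158475) (nat_lit 1) (nat_lit 5) (nat_lit 3) (nat_lit 4) (nat_lit 1) (nat_lit 4) (nat_lit 336) (nat_lit 254) (nat_lit 130))) (XT.nd (nat_lit 78) (nat_lit 0) (nat_lit 0) (XT.lf (nat_lit 0) (nat_lit 1074996236346) (nat_lit 152) (nat_lit 656322635545) (nat_lit 0) (nat_lit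 1023882829529) (nat_lit 1) (nat_lit 5) (nat_lit 3) (nat_lit 4) (nat_lit 1) (nat_lit 4) (nat_lit 337) (nat_lit 254) (nat_lit 129)) (XT.lf (nat_lit 0) (nat_lit 1168605054619) (nat_lit 152) (nat_lit 688530977827) (nat_lit 0) (nat_lit 1117491396462) (nat_lit 1) (nat_lit 5) (nat_lit 3) (nat_lit 4) (nat_lit 1) (nat_lit 4) (nat_lit 338) (nat_lit 254) (nat_lit 128))))))))
noncomputable def xc79 : XT := (XT.nd (nat_lit 32838) (nat_lit 0) (nat_lit 152) (XT.nd (nat_lit 31746) (nat_lit 0) (nat_lit 684) (XT.nd (nat_lit 31200) (nat_lit 0) (nat_lit 1672) (XT.nd (nat_lit 30966) (nat_lit 0) (nat_lit 1976) (XT.nd (nat_lit 78) (nat_lit 0) (nat_lit 0) (XT.lf (nat_lit 0) (nat_lit 1269702467586) (nat_lit 152) (nat_lit 723316179679) (nat_lit 0) (nat_lit 1218588576707) (nat_lit 1) (nat_lit 5) (nat_lit 3) (nat_lit 4) (nat_lit 1) (nat_lit 4) (nat_lit 339) (nat_lit 254) (nat_lit 127)) (XT.nd (nat_lit 78) (nat_lit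 0) (nat_lit 0) (XT.lf (nat_lit 0) (nat_lit 1378887571029) (nat_lit 152) (nat_lit 760884375630) (nat_lit 0) (nat_lit 1327773464667) (nat_lit 1) (nat_lit 5) (nat_lit 3) (nat_lit 4) (nat_lit 1) (nat_lit 4) (nat_lit 340) (nat_lit 254) (nat_lit 126)) (XT.lf (nat_lit 0) (nat_lit 1496807387782) (nat_lit 152) (nat_lit 801458192025) (nat_lit 0) (nat_lit 1445693081899) (nat_lit 1) (nat_lit 5) (nat_lit 3) (nat_lit 4) (nat_lit 1) (nat_lit 4) (nat_lit 341) (nat_lit 254) (nat_lit 125)))) (XT.nd (nat_lit 78) (nat_lit 0) (nat_lit 0) (XT.lf (nat_lit 0) (nat_lit 2114189873) (nat_lit 0) (nat_lit 2114189873) (nat_lit 380) (nat_lit 2459055499) (nat_lit 27) (nat_lit 5) (nat_lit 27) (nat_lit 3) (nat_lit 32) (nat_lit 3) (nat_lit 255) (nat_lit 255) (nat_lit 210)) (XT.nd (nat_lit 78) (nat_lit 0) (nat_lit 0) (XT.lf (nat_lit 0) (nat_lit 9118473137) (nat_lit 380) (nat_lit 4195019295) (nat_lit 456) (nat_lit 566918605)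 (nat_lit 27) (nat_lit 5) (nat_lit 32) (nat_lit 3) (nat_lit 33) (nat_lit 5) (nat_lit 256) (nat_lit 255) (nat_lit 209)) (XT.lf (nat_lit 76) (nat_lit 1078002045) (nat_lit 0) (nat_lit 8860323750) (nat_lit 456) (nat_lit 4480010930) (nat_lit 28) (nat_lit 5) (nat_lit 27) (nat_lit 5) (nat_lit 33) (nat_lit 5) (nat_lit 257) (nat_lit 255) (nat_lit 208))))) (XT.nd (nat_lit 234) (nat_lit 304) (nat_lit 0) (XT.nd (nat_lit 78) (nat_lit 0) (nat_lit 76) (XT.lf (nat_lit 76) (nat_lit 6993246300) (nat_lit 0) (nat_lit 3916493102) (nat_lit 456) (nat_lit 4083010778) (nat_lit 28) (nat_lit 5) (nat_lit 27) (nat_lit 5) (nat_lit 33) (nat_lit 5) (nat_lit 258) (nat_lit 255) (nat_lit 207)) (XT.nd (nat_lit 78) (nat_lit 0) (nat_lit 0) (XT.lf (nat_lit 0) (nat_lit 11966721457) (nat_lit 380) (nat_lit 2285141082) (nat_lit 456) (nat_lit 1360932718) (nat_lit 28) (nat_lit 5) (nat_lit 33) (nat_lit 5) (nat_lit 34) (nat_lit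 5) (nat_lit 259) (nat_lit 255) (nat_lit 206)) (XT.lf (nat_lit 76) (nat_lit 3964915292) (nat_lit 0) (nat_lit 9316019004) (nat_lit 456) (nat_lit 2987980099) (nat_lit 29) (nat_lit 5) (nat_lit 28) (nat_lit 5) (nat_lit 34) (nat_lit 5) (nat_lit 260) (nat_lit 255) (nat_lit 205)))) (XT.nd (nat_lit 156) (nat_lit 76) (nat_lit 0) (XT.nd (nat_lit 78) (nat_lit 304) (nat_lit 0) (XT.lf (nat_lit 76) (nat_lit 10827322155) (nat_lit 0) (nat_lit 3912415301) (nat_lit 456) (nat_lit 2234892526) (nat_lit 29) (nat_lit 5) (nat_lit 28) (nat_lit 5) (nat_lit 34) (nat_lit 5) (nat_lit 261) (nat_lit 255) (nat_lit 204)) (XT.lf (nat_lit 0) (nat_lit 460308219) (nat_lit 380) (nat_lit 15891066461) (nat_lit 456) (nat_lit 1382781436) (nat_lit 24) (nat_lit 5) (nat_lit 29) (nat_lit 5) (nat_lit 30) (nat_lit 5) (nat_lit 262) (nat_lit 255) (nat_lit 203))) (XT.nd (nat_lit 78) (nat_lit 76) (nat_lit 0) (XT.lf (nat_lit 0) (nat_lit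 7821251924) (nat_lit 380) (nat_lit 10517757068) (nat_lit 456) (nat_lit 195895695) (nat_lit 24) (nat_lit 5) (nat_lit 29) (nat_lit 5) (nat_lit 30) (nat_lit 5) (nat_lit 263) (nat_lit 255) (nat_lit 202)) (XT.lf (nat_lit 0) (nat_lit 1012362119) (nat_lit 456) (nat_lit 3672551615) (nat_lit 76) (nat_lit 14714443951) (nat_lit 23) (nat_lit 5) (nat_lit 29) (nat_lit 5) (nat_lit 24) (nat_lit 5) (nat_lit 264) (nat_lit 255) (nat_lit 201)))))) (XT.nd (nat_lit 546) (nat_lit 380) (nat_lit 0) (XT.nd (nat_lit 234) (nat_lit 380) (nat_lit 0) (XT.nd (nat_lit 78) (nat_lit 0) (nat_lit 0) (XT.lf (nat_lit 0) (nat_lit 2429428275) (nat_lit 304) (nat_lit 16251629091) (nat_lit 76) (nat_lit 1641863124) (nat_lit 20) (nat_lit 5) (nat_lit 24) (nat_lit 5) (nat_lit 21) (nat_lit 5) (nat_lit 265) (nat_lit 255) (nat_lit 200)) (XT.nd (nat_lit 78) (nat_lit 0) (nat_lit 0) (XT.lf (nat_lit 0) (nat_lit 4167693375) (nat_lit 304)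 (nat_lit 8810721500) (nat_lit 76) (nat_lit 8325492599) (nat_lit 20) (nat_lit 5) (nat_lit 24) (nat_lit 5) (nat_lit 21) (nat_lit 5) (nat_lit 266) (nat_lit 255) (nat_lit 199)) (XT.lf (nat_lit 0) (nat_lit 6029395010) (nat_lit 304) (nat_lit 790833151) (nat_lit 76) (nat_lit 15544548793) (nat_lit 20) (nat_lit 5) (nat_lit 24) (nat_lit 5) (nat_lit 21) (nat_lit 5) (nat_lit 267) (nat_lit 255) (nat_lit 198)))) (XT.nd (nat_lit 156) (nat_lit 152) (nat_lit 0) (XT.nd (nat_lit 78) (nat_lit 0) (nat_lit 0) (XT.lf (nat_lit 0) (nat_lit 8225517432) (nat_lit 304) (nat_lit 15227761393) (nat_lit 76) (nat_lit 42540584) (nat_lit 17) (nat_lit 5) (nat_lit 21) (nat_lit 5) (nat_lit 18) (nat_lit 5) (nat_lit 268) (nat_lit 255) (nat_lit 197)) (XT.lf (nat_lit 0) (nat_lit 10782890651) (nat_lit 304) (nat_lit 6812601792) (nat_lit 76) (nat_lit 7107139593) (nat_lit 17) (nat_lit 5) (nat_lit 21) (nat_lit 5) (nat_lit 18) (nat_lit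 5) (nat_lit 269) (nat_lit 255) (nat_lit 196))) (XT.nd (nat_lit 78) (nat_lit 0) (nat_lit 0) (XT.lf (nat_lit 0) (nat_lit 2380099653) (nat_lit 152) (nat_lit 11209243499) (nat_lit 228) (nat_lit 12413209269) (nat_lit 15) (nat_lit 5) (nat_lit 17) (nat_lit 5) (nat_lit 18) (nat_lit 5) (nat_lit 270) (nat_lit 255) (nat_lit 195)) (XT.lf (nat_lit 0) (nat_lit 12681295757) (nat_lit 152) (nat_lit 4113131907) (nat_lit 228) (nat_lit 10598222382) (nat_lit 15) (nat_lit 5) (nat_lit 17) (nat_lit 5) (nat_lit 18) (nat_lit 5) (nat_lit 271) (nat_lit 255) (nat_lit 194))))) (XT.nd (nat_lit 234) (nat_lit 228) (nat_lit 0) (XT.nd (nat_lit 78) (nat_lit 152) (nat_lit 0) (XT.lf (nat_lit 0) (nat_lit 20330010860) (nat_lit 228) (nat_lit 5187013604) (nat_lit 76) (nat_lit 3371108176) (nat_lit 15) (nat_lit 5) (nat_lit 18) (nat_lit 5) (nat_lit 16) (nat_lit 5) (nat_lit 272) (nat_lit 255) (nat_lit 193)) (XT.nd (nat_lit 78)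 (nat_lit 0) (nat_lit 0) (XT.lf (nat_lit 0) (nat_lit 5241441574) (nat_lit 152) (nat_lit 19129425951) (nat_lit 228) (nat_lit 6114688942) (nat_lit 13) (nat_lit 5) (nat_lit 15) (nat_lit 5) (nat_lit 16) (nat_lit 5) (nat_lit 273) (nat_lit 255) (nat_lit 192)) (XT.lf (nat_lit 0) (nat_lit 16786301008) (nat_lit 152) (nat_lit 12080515099) (nat_lit 228) (nat_lit 3333501824) (nat_lit 13) (nat_lit 5) (nat_lit 15) (nat_lit 5) (nat_lit 16) (nat_lit 5) (nat_lit 274) (nat_lit 255) (nat_lit 191)))) (XT.nd (nat_lit 156) (nat_lit 0) (nat_lit 0) (XT.nd (nat_lit 78) (nat_lit 228) (nat_lit 0) (XT.lf (nat_lit 0) (nat_lit 29242839735) (nat_lit 152) (nat_lit 4470342729) (nat_lit 228) (nat_lit 339901462) (nat_lit 13) (nat_lit 5) (nat_lit 15) (nat_lit 5) (nat_lit 16) (nat_lit 5) (nat_lit 275) (nat_lit 255) (nat_lit 190)) (XT.lf (nat_lit 0) (nat_lit 3001894807) (nat_lit 228) (nat_lit 29226051576) (nat_lit 76)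 (nat_lit 3800354508) (nat_lit 10) (nat_lit 5) (nat_lit 13) (nat_lit 5) (nat_lit 11) (nat_lit 5) (nat_lit 276) (nat_lit 255) (nat_lit 189))) (XT.nd (nat_lit 78) (nat_lit 0) (nat_lit 0) (XT.lf (nat_lit 0) (nat_lit 6835171500) (nat_lit 228) (nat_lit 18674015849) (nat_lit 76) (nat_lit 12632307416) (nat_lit 10) (nat_lit 5) (nat_lit 13) (nat_lit 5) (nat_lit 11) (nat_lit 5) (nat_lit 277) (nat_lit 255) (nat_lit 188)) (XT.lf (nat_lit 0) (nat_lit 10967194320) (nat_lit 228) (nat_lit 7288881996) (nat_lit 76) (nat_lit 22168362095) (nat_lit 10) (nat_lit 5) (nat_lit 13) (nat_lit 5) (nat_lit 11) (nat_lit 5) (nat_lit 278) (nat_lit 255) (nat_lit 187))))))) (XT.nd (nat_lit 1014) (nat_lit 152) (nat_lit 0) (XT.nd (nat_lit 468) (nat_lit 152) (nat_lit 0) (XT.nd (nat_lit 234) (nat_lit 76) (nat_lit 0) (XT.nd (nat_lit 78) (nat_lit 0) (nat_lit 0) (XT.lf (nat_lit 0) (nat_lit 5259940993) (nat_lit 152) (nat_lit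 10289010042) (nat_lit 228) (nat_lit 27331589214) (nat_lit 8) (nat_lit 5) (nat_lit 10) (nat_lit 5) (nat_lit 11) (nat_lit 5) (nat_lit 279) (nat_lit 255) (nat_lit 186)) (XT.nd (nat_lit 78) (nat_lit 0) (nat_lit 0) (XT.lf (nat_lit 0) (nat_lit 19217209247) (nat_lit 152) (nat_lit 1472303132) (nat_lit 228) (nat_lit 24828289008) (nat_lit 8) (nat_lit 5) (nat_lit 10) (nat_lit 5) (nat_lit 11) (nat_lit 5) (nat_lit 280) (nat_lit 255) (nat_lit 185)) (XT.lf (nat_lit 0) (nat_lit 26428342839) (nat_lit 228) (nat_lit 14278330000) (nat_lit 76) (nat_lit 7644457052) (nat_lit 8) (nat_lit 5) (nat_lit 11) (nat_lit 5) (nat_lit 9) (nat_lit 4) (nat_lit 281) (nat_lit 255) (nat_lit 184)))) (XT.nd (nat_lit 78) (nat_lit 76) (nat_lit 0) (XT.lf (nat_lit 0) (nat_lit 32658435967) (nat_lit 228) (nat_lit 1341555466) (nat_lit 76) (nat_lit 17408605567) (nat_lit 8) (nat_lit 5) (nat_lit 11) (nat_lit 5) (nat_lit 9) (nat_lit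 4) (nat_lit 282) (nat_lit 255) (nat_lit 183)) (XT.nd (nat_lit 78) (nat_lit 0) (nat_lit 0) (XT.lf (nat_lit 0) (nat_lit 13286444517) (nat_lit 76) (nat_lit 26414396700) (nat_lit 152) (nat_lit 14984749389) (nat_lit 7) (nat_lit 5) (nat_lit 8) (nat_lit 5) (nat_lit 9) (nat_lit 4) (nat_lit 283) (nat_lit 255) (nat_lit 182)) (XT.lf (nat_lit 0) (nat_lit 29152833273) (nat_lit 76) (nat_lit 18185072934) (nat_lit 152) (nat_lit 10884374538) (nat_lit 7) (nat_lit 5) (nat_lit 8) (nat_lit 5) (nat_lit 9) (nat_lit 4) (nat_lit 284) (nat_lit 255) (nat_lit 181))))) (XT.nd (nat_lit 234) (nat_lit 0) (nat_lit 0) (XT.nd (nat_lit 78) (nat_lit 152) (nat_lit 0) (XT.lf (nat_lit 0) (nat_lit 46280989912) (nat_lit 76) (nat_lit 9299934277) (nat_lit 152) (nat_lit 6461418465) (nat_lit 7) (nat_lit 5) (nat_lit 8) (nat_lit 5) (nat_lit 9) (nat_lit 4) (nat_lit 285) (nat_lit 255) (nat_lit 180)) (XT.nd (nat_lit 78) (nat_lit 152)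 (nat_lit 0) (XT.lf (nat_lit 0) (nat_lit 64485805493) (nat_lit 152) (nat_lit 1403061934) (nat_lit 0) (nat_lit 278981285) (nat_lit 7) (nat_lit 5) (nat_lit 9) (nat_lit 4) (nat_lit 7) (nat_lit 4) (nat_lit 286) (nat_lit 255) (nat_lit 179)) (XT.lf (nat_lit 0) (nat_lit 3908838212) (nat_lit 152) (nat_lit 56090190506) (nat_lit 76) (nat_lit 10569441952) (nat_lit 5) (nat_lit 5) (nat_lit 7) (nat_lit 5) (nat_lit 6) (nat_lit 4) (nat_lit 287) (nat_lit 255) (nat_lit 178)))) (XT.nd (nat_lit 156) (nat_lit 0) (nat_lit 0) (XT.nd (nat_lit 78) (nat_lit 0) (nat_lit 0) (XT.lf (nat_lit 0) (nat_lit 9891152867) (nat_lit 152) (nat_lit 43659707300) (nat_lit 76) (nat_lit 21764010277) (nat_lit 5) (nat_lit 5) (nat_lit 7) (nat_lit 5) (nat_lit 6) (nat_lit 4) (nat_lit 288) (nat_lit 255) (nat_lit 177)) (XT.lf (nat_lit 0) (nat_lit 16348050946) (nat_lit 152) (nat_lit 30241147517) (nat_lit 76) (nat_lit 33852128095) (nat_lit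 5) (nat_lit 5) (nat_lit 7) (nat_lit 5) (nat_lit 6) (nat_lit 4) (nat_lit 289) (nat_lit 255) (nat_lit 176))) (XT.nd (nat_lit 78) (nat_lit 0) (nat_lit 0) (XT.lf (nat_lit 0) (nat_lit 23317795547) (nat_lit 152) (nat_lit 15754993764) (nat_lit 76) (nat_lit 46905428698) (nat_lit 5) (nat_lit 5) (nat_lit 7) (nat_lit 5) (nat_lit 6) (nat_lit 4) (nat_lit 290) (nat_lit 255) (nat_lit 175)) (XT.lf (nat_lit 0) (nat_lit 30841688862) (nat_lit 152) (nat_lit 115402167) (nat_lit 76) (nat_lit 61001264978) (nat_lit 5) (nat_lit 5) (nat_lit 7) (nat_lit 5) (nat_lit 6) (nat_lit 4) (nat_lit 291) (nat_lit 255) (nat_lit 174)))))) (XT.nd (nat_lit 546) (nat_lit 0) (nat_lit 0) (XT.nd (nat_lit 234) (nat_lit 76) (nat_lit 0) (XT.nd (nat_lit 78) (nat_lit 0) (nat_lit 0) (XT.lf (nat_lit 0) (nat_lit 17653400945) (nat_lit 76) (nat_lit 21735480697) (nat_lit 152) (nat_lit 58994331587) (nat_lit 4) (nat_lit 5) (nat_lit 5) (nat_lit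 5) (nat_lit 6) (nat_lit 4) (nat_lit 292) (nat_lit 255) (nat_lit 173)) (XT.nd (nat_lit 78) (nat_lit 0) (nat_lit 0) (XT.lf (nat_lit 0) (nat_lit 36845348767) (nat_lit 76) (nat_lit 11774596584) (nat_lit 152) (nat_lit 56702123837) (nat_lit 4) (nat_lit 5) (nat_lit 5) (nat_lit 5) (nat_lit 6) (nat_lit 4) (nat_lit 293) (nat_lit 255) (nat_lit 172)) (XT.lf (nat_lit 0) (nat_lit 57568094485) (nat_lit 76) (nat_lit 1018566531) (nat_lit 152) (nat_lit 54229615741) (nat_lit 4) (nat_lit 5) (nat_lit 5) (nat_lit 5) (nat_lit 6) (nat_lit 4) (nat_lit 294) (nat_lit 255) (nat_lit 171)))) (XT.nd (nat_lit 156) (nat_lit 76) (nat_lit 0) (XT.nd (nat_lit 78) (nat_lit 0) (nat_lit 0) (XT.lf (nat_lit 0) (nat_lit 69602933101) (nat_lit 152) (nat_lit 41220648945) (nat_lit 0) (nat_lit 10066276613) (nat_lit 4) (nat_lit 5) (nat_lit 6) (nat_lit 4) (nat_lit 4) (nat_lit 4) (nat_lit 295) (nat_lit 255) (nat_lit 170)) (XT.lf (nat_lit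 0) (nat_lit 81524498700) (nat_lit 152) (nat_lit 26101449799) (nat_lit 0) (nat_lit 21981473403) (nat_lit 4) (nat_lit 5) (nat_lit 6) (nat_lit 4) (nat_lit 4) (nat_lit 4) (nat_lit 296) (nat_lit 255) (nat_lit 169))) (XT.nd (nat_lit 78) (nat_lit 76) (nat_lit 0) (XT.lf (nat_lit 0) (nat_lit 94397507580) (nat_lit 152) (nat_lit 9776493030) (nat_lit 0) (nat_lit 34848585238) (nat_lit 4) (nat_lit 5) (nat_lit 6) (nat_lit 4) (nat_lit 4) (nat_lit 4) (nat_lit 297) (nat_lit 255) (nat_lit 168)) (XT.lf (nat_lit 0) (nat_lit 8264379582) (nat_lit 76) (nat_lit 100232623180) (nat_lit 76) (nat_lit 40678240612) (nat_lit 3) (nat_lit 4) (nat_lit 4) (nat_lit 5) (nat_lit 4) (nat_lit 4) (nat_lit 298) (nat_lit 255) (nat_lit 167))))) (XT.nd (nat_lit 234) (nat_lit 0) (nat_lit 0) (XT.nd (nat_lit 78) (nat_lit 0) (nat_lit 0) (XT.lf (nat_lit 0) (nat_lit 28301109960) (nat_lit 76) (nat_lit 95688615819) (nat_lit 76) (nat_lit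 36129177485) (nat_lit 3) (nat_lit 4) (nat_lit 4) (nat_lit 5) (nat_lit 4) (nat_lit 4) (nat_lit 299) (nat_lit 255) (nat_lit 166)) (XT.nd (nat_lit 78) (nat_lit 0) (nat_lit 0) (XT.lf (nat_lit 0) (nat_lit 49937621484) (nat_lit 76) (nat_lit 90782357719) (nat_lit 76) (nat_lit 31218238121) (nat_lit 3) (nat_lit 4) (nat_lit 4) (nat_lit 5) (nat_lit 4) (nat_lit 4) (nat_lit 300) (nat_lit 255) (nat_lit 165)) (XT.lf (nat_lit 0) (nat_lit 73302130519) (nat_lit 76) (nat_lit 85484774760) (nat_lit 76) (nat_lit 25916320658) (nat_lit 3) (nat_lit 4) (nat_lit 4) (nat_lit 5) (nat_lit 4) (nat_lit 4) (nat_lit 301) (nat_lit 255) (nat_lit 164)))) (XT.nd (nat_lit 156) (nat_lit 0) (nat_lit 0) (XT.nd (nat_lit 78) (nat_lit 0) (nat_lit 0) (XT.lf (nat_lit 0) (nat_lit 98533093416) (nat_lit 76) (nat_lit 79764473856) (nat_lit 76) (nat_lit 20192006324) (nat_lit 3) (nat_lit 4) (nat_lit 4) (nat_lit 5) (nat_lit 4) (nat_lit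 4) (nat_lit 302) (nat_lit 255) (nat_lit 163)) (XT.lf (nat_lit 0) (nat_lit 125780026990) (nat_lit 76) (nat_lit 73587556929) (nat_lit 76) (nat_lit 14011373259) (nat_lit 3) (nat_lit 4) (nat_lit 4) (nat_lit 5) (nat_lit 4) (nat_lit 4) (nat_lit 303) (nat_lit 255) (nat_lit 162))) (XT.nd (nat_lit 78) (nat_lit 0) (nat_lit 0) (XT.lf (nat_lit 0) (nat_lit 155204394552) (nat_lit 76) (nat_lit 66917420026) (nat_lit 76) (nat_lit 7337795487) (nat_lit 3) (nat_lit 4) (nat_lit 4) (nat_lit 5) (nat_lit 4) (nat_lit 4) (nat_lit 304) (nat_lit 255) (nat_lit 161)) (XT.lf (nat_lit 0) (nat_lit 186980562726) (nat_lit 76) (nat_lit 59714536410) (nat_lit 76) (nat_lit 131725881) (nat_lit 3) (nat_lit 4) (nat_lit 4) (nat_lit 5) (nat_lit 4) (nat_lit 4) (nat_lit 305) (nat_lit 255) (nat_lit 160))))))))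
noncomputable def xc80 : XT := (XT.nd (nat_lit 2028) (nat_lit 0) (nat_lit 0) (XT.nd (nat_lit 1014) (nat_lit 0) (nat_lit 0) (XT.nd (nat_lit 468) (nat_lit 0) (nat_lit 0) (XT.nd (nat_lit 234) (nat_lit 76) (nat_lit 0) (XT.nd (nat_lit 78) (nat_lit 0) (nat_lit 0) (XT.lf (nat_lit 0) (nat_lit 7266877311) (nat_lit 152) (nat_lit 44470655711) (nat_lit 76) (nat_lit 213831268113) (nat_lit 2) (nat_lit 5) (nat_lit 4) (nat_lit 5) (nat_lit 3) (nat_lit 4) (nat_lit 306) (nat_lit 255) (nat_lit 159)) (XT.nd (nat_lit 78) (nat_lit 0) (nat_lit 0) (XT.lf (nat_lit 0) (nat_lit 15249116480) (nat_lit 152) (nat_lit 27870329713) (nat_lit 76) (nat_lit 242690511899) (nat_lit 2) (nat_lit 5) (nat_lit 4) (nat_lit 5) (nat_lit 3) (nat_lit 4) (nat_lit 307) (nat_lit 255) (nat_lit 158)) (XT.lf (nat_lit 0) (nat_lit 23868883243) (nat_lit 152) (nat_lit 9943743986) (nat_lit 76) (nat_lit 273857869694) (nat_lit 2) (nat_lit 5)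 (nat_lit 4) (nat_lit 5) (nat_lit 3) (nat_lit 4) (nat_lit 308) (nat_lit 255) (nat_lit 157)))) (XT.nd (nat_lit 78) (nat_lit 0) (nat_lit 0) (XT.lf (nat_lit 0) (nat_lit 9911127844) (nat_lit 76) (nat_lit 23504492720) (nat_lit 152) (nat_lit 297845271970) (nat_lit 1) (nat_lit 5) (nat_lit 2) (nat_lit 5) (nat_lit 3) (nat_lit 4) (nat_lit 309) (nat_lit 255) (nat_lit 156)) (XT.nd (nat_lit 78) (nat_lit 0) (nat_lit 0) (XT.lf (nat_lit 0) (nat_lit 31918304850) (nat_lit 76) (nat_lit 12078731742) (nat_lit 152) (nat_lit 312719812480) (nat_lit 1) (nat_lit 5) (nat_lit 2) (nat_lit 5) (nat_lit 3) (nat_lit 4) (nat_lit 310) (nat_lit 255) (nat_lit 155)) (XT.lf (nat_lit 0) (nat_lit 55430360313) (nat_lit 152) (nat_lit 328531040538) (nat_lit 0) (nat_lit 247453853) (nat_lit 1) (nat_lit 5) (nat_lit 3) (nat_lit 4) (nat_lit 1) (nat_lit 4) (nat_lit 311) (nat_lit 255) (nat_lit 154))))) (XT.nd (nat_lit 234) (nat_lit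 0) (nat_lit 0) (XT.nd (nat_lit 78) (nat_lit 0) (nat_lit 0) (XT.lf (nat_lit 0) (nat_lit 68091263953) (nat_lit 152) (nat_lit 332877291329) (nat_lit 0) (nat_lit 12906636202) (nat_lit 1) (nat_lit 5) (nat_lit 3) (nat_lit 4) (nat_lit 1) (nat_lit 4) (nat_lit 312) (nat_lit 255) (nat_lit 153)) (XT.nd (nat_lit 78) (nat_lit 0) (nat_lit 0) (XT.lf (nat_lit 0) (nat_lit 81764281300) (nat_lit 152) (nat_lit 337572558368) (nat_lit 0) (nat_lit 26578059761) (nat_lit 1) (nat_lit 5) (nat_lit 3) (nat_lit 4) (nat_lit 1) (nat_lit 4) (nat_lit 313) (nat_lit 255) (nat_lit 152)) (XT.lf (nat_lit 0) (nat_lit 96530437643) (nat_lit 152) (nat_lit 342644665458) (nat_lit 0) (nat_lit 41342740374) (nat_lit 1) (nat_lit 5) (nat_lit 3) (nat_lit 4) (nat_lit 1) (nat_lit 4) (nat_lit 314) (nat_lit 255) (nat_lit 151)))) (XT.nd (nat_lit 156) (nat_lit 0) (nat_lit 0) (XT.nd (nat_lit 78) (nat_lit 0) (nat_lit 0) (XT.lf (nat_lit 0)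 (nat_lit 112477236130) (nat_lit 152) (nat_lit 348123669531) (nat_lit 0) (nat_lit 57288172444) (nat_lit 1) (nat_lit 5) (nat_lit 3) (nat_lit 4) (nat_lit 1) (nat_lit 4) (nat_lit 315) (nat_lit 255) (nat_lit 150)) (XT.lf (nat_lit 0) (nat_lit 129699176307) (nat_lit 152) (nat_lit 354042038760) (nat_lit 0) (nat_lit 74508847421) (nat_lit 1) (nat_lit 5) (nat_lit 3) (nat_lit 4) (nat_lit 1) (nat_lit 4) (nat_lit 316) (nat_lit 255) (nat_lit 149))) (XT.nd (nat_lit 78) (nat_lit 0) (nat_lit 0) (XT.lf (nat_lit 0) (nat_lit 148298314117) (nat_lit 152) (nat_lit 360434844961) (nat_lit 0) (nat_lit 93106813749) (nat_lit 1) (nat_lit 5) (nat_lit 3) (nat_lit 4) (nat_lit 1) (nat_lit 4) (nat_lit 317) (nat_lit 255) (nat_lit 148)) (XT.lf (nat_lit 0) (nat_lit 168384866672) (nat_lit 152) (nat_lit 367339971432) (nat_lit 0) (nat_lit 113192281599) (nat_lit 1) (nat_lit 5) (nat_lit 3) (nat_lit 4) (nat_lit 1) (nat_lit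 4) (nat_lit 318) (nat_lit 255) (nat_lit 147)))))) (XT.nd (nat_lit 468) (nat_lit 0) (nat_lit 0) (XT.nd (nat_lit 234) (nat_lit 0) (nat_lit 0) (XT.nd (nat_lit 78) (nat_lit 0) (nat_lit 0) (XT.lf (nat_lit 0) (nat_lit 190077865395) (nat_lit 152) (nat_lit 374798337439) (nat_lit 0) (nat_lit 134884275965) (nat_lit 1) (nat_lit 5) (nat_lit 3) (nat_lit 4) (nat_lit 1) (nat_lit 4) (nat_lit 319) (nat_lit 255) (nat_lit 146)) (XT.nd (nat_lit 78) (nat_lit 0) (nat_lit 0) (XT.lf (nat_lit 0) (nat_lit 213505861390) (nat_lit 152) (nat_lit 382854140707) (nat_lit 0) (nat_lit 158311342000) (nat_lit 1) (nat_lit 5) (nat_lit 3) (nat_lit 4) (nat_lit 1) (nat_lit 4) (nat_lit 320) (nat_lit 255) (nat_lit 145)) (XT.lf (nat_lit 0) (nat_lit 238807687225) (nat_lit 152) (nat_lit 391555119330) (nat_lit 0) (nat_lit 183612306761) (nat_lit 1) (nat_lit 5) (nat_lit 3) (nat_lit 4) (nat_lit 1) (nat_lit 4) (nat_lit 321) (nat_lit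 255) (nat_lit 144)))) (XT.nd (nat_lit 78) (nat_lit 0) (nat_lit 0) (XT.lf (nat_lit 0) (nat_lit 266133279646) (nat_lit 152) (nat_lit 400952834663) (nat_lit 0) (nat_lit 210937101891) (nat_lit 1) (nat_lit 5) (nat_lit 3) (nat_lit 4) (nat_lit 1) (nat_lit 4) (nat_lit 322) (nat_lit 255) (nat_lit 143)) (XT.nd (nat_lit 78) (nat_lit 0) (nat_lit 0) (XT.lf (nat_lit 0) (nat_lit 295644568090) (nat_lit 152) (nat_lit 411102976870) (nat_lit 0) (nat_lit 240447652103) (nat_lit 1) (nat_lit 5) (nat_lit 3) (nat_lit 4) (nat_lit 1) (nat_lit 4) (nat_lit 323) (nat_lit 255) (nat_lit 142)) (XT.lf (nat_lit 0) (nat_lit 327516434265) (nat_lit 152) (nat_lit 422065694943) (nat_lit 0) (nat_lit 272318834730) (nat_lit 1) (nat_lit 5) (nat_lit 3) (nat_lit 4) (nat_lit 1) (nat_lit 4) (nat_lit 324) (nat_lit 255) (nat_lit 141))))) (XT.nd (nat_lit 234) (nat_lit 0) (nat_lit 0) (XT.nd (nat_lit 78) (nat_lit 0) (nat_lit 0) (XT.lf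 (nat_lit 0) (nat_lit 361937748491) (nat_lit 152) (nat_lit 433905953136) (nat_lit 0) (nat_lit 306739516040) (nat_lit 1) (nat_lit 5) (nat_lit 3) (nat_lit 4) (nat_lit 1) (nat_lit 4) (nat_lit 325) (nat_lit 255) (nat_lit 140)) (XT.nd (nat_lit 78) (nat_lit 0) (nat_lit 0) (XT.lf (nat_lit 0) (nat_lit 399112488925) (nat_lit 152) (nat_lit 446693915943) (nat_lit 0) (nat_lit 343913670442) (nat_lit 1) (nat_lit 5) (nat_lit 3) (nat_lit 4) (nat_lit 1) (nat_lit 4) (nat_lit 326) (nat_lit 255) (nat_lit 139)) (XT.lf (nat_lit 0) (nat_lit 439260950325) (nat_lit 152) (nat_lit 460505363883) (nat_lit 0) (nat_lit 384061589219) (nat_lit 1) (nat_lit 5) (nat_lit 3) (nat_lit 4) (nat_lit 1) (nat_lit 4) (nat_lit 327) (nat_lit 255) (nat_lit 138)))) (XT.nd (nat_lit 156) (nat_lit 0) (nat_lit 0) (XT.nd (nat_lit 78) (nat_lit 0) (nat_lit 0) (XT.lf (nat_lit 0) (nat_lit 482621049501) (nat_lit 152) (nat_lit 475422142575)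 (nat_lit 0) (nat_lit 427421185966) (nat_lit 1) (nat_lit 5) (nat_lit 3) (nat_lit 4) (nat_lit 1) (nat_lit 4) (nat_lit 328) (nat_lit 255) (nat_lit 137)) (XT.lf (nat_lit 0) (nat_lit 529449735186) (nat_lit 152) (nat_lit 491532647744) (nat_lit 0) (nat_lit 474249406440) (nat_lit 1) (nat_lit 5) (nat_lit 3) (nat_lit 4) (nat_lit 1) (nat_lit 4) (nat_lit 329) (nat_lit 255) (nat_lit 136))) (XT.nd (nat_lit 78) (nat_lit 0) (nat_lit 0) (XT.lf (nat_lit 0) (nat_lit 580024510706) (nat_lit 152) (nat_lit 508932349051) (nat_lit 0) (nat_lit 524823751208) (nat_lit 1) (nat_lit 5) (nat_lit 3) (nat_lit 4) (nat_lit 1) (nat_lit 4) (nat_lit 330) (nat_lit 255) (nat_lit 135)) (XT.lf (nat_lit 0) (nat_lit 634645078431) (nat_lit 152) (nat_lit 527724355835) (nat_lit 0) (nat_lit 579443920090) (nat_lit 1) (nat_lit 5) (nat_lit 3) (nat_lit 4) (nat_lit 1) (nat_lit 4) (nat_lit 331) (nat_lit 255) (nat_lit 134))))))) (XT.nd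 (nat_lit 31824) (nat_lit 0) (nat_lit 1064) (XT.nd (nat_lit 468) (nat_lit 0) (nat_lit 0) (XT.nd (nat_lit 234) (nat_lit 0) (nat_lit 0) (XT.nd (nat_lit 78) (nat_lit 0) (nat_lit 0) (XT.lf (nat_lit 0) (nat_lit 693635115802) (nat_lit 152) (nat_lit 548020028138) (nat_lit 0) (nat_lit 638433588161) (nat_lit 1) (nat_lit 5) (nat_lit 3) (nat_lit 4) (nat_lit 1) (nat_lit 4) (nat_lit 332) (nat_lit 255) (nat_lit 133)) (XT.nd (nat_lit 78) (nat_lit 0) (nat_lit 0) (XT.lf (nat_lit 0) (nat_lit 757344193410) (nat_lit 152) (nat_lit 569939636610) (nat_lit 0) (nat_lit 702142323824) (nat_lit 1) (nat_lit 5) (nat_lit 3) (nat_lit 4) (nat_lit 1) (nat_lit 4) (nat_lit 333) (nat_lit 255) (nat_lit 132)) (XT.lf (nat_lit 0) (nat_lit 826149846529) (nat_lit 152) (nat_lit 593613075228) (nat_lit 0) (nat_lit 770947660328) (nat_lit 1) (nat_lit 5) (nat_lit 3) (nat_lit 4) (nat_lit 1) (nat_lit 4) (nat_lit 334) (nat_lit 255)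 (nat_lit 131)))) (XT.nd (nat_lit 78) (nat_lit 0) (nat_lit 0) (XT.lf (nat_lit 0) (nat_lit 900459812363) (nat_lit 152) (nat_lit 619180631034) (nat_lit 0) (nat_lit 845257333000) (nat_lit 1) (nat_lit 5) (nat_lit 3) (nat_lit 4) (nat_lit 1) (nat_lit 4) (nat_lit 335) (nat_lit 255) (nat_lit 130)) (XT.nd (nat_lit 78) (nat_lit 0) (nat_lit 0) (XT.lf (nat_lit 0) (nat_lit 980714446266) (nat_lit 152) (nat_lit 646793815471) (nat_lit 0) (nat_lit 925511695457) (nat_lit 1) (nat_lit 5) (nat_lit 3) (nat_lit 4) (nat_lit 1) (nat_lit 4) (nat_lit 336) (nat_lit 255) (nat_lit 129)) (XT.lf (nat_lit 0) (nat_lit 1067389331253) (nat_lit 152) (nat_lit 676616262225) (nat_lit 0) (nat_lit 1012186329104) (nat_lit 1) (nat_lit 5) (nat_lit 3) (nat_lit 4) (nat_lit 1) (nat_lit 4) (nat_lit 337) (nat_lit 255) (nat_lit 128))))) (XT.nd (nat_lit 234) (nat_lit 0) (nat_lit 0) (XT.nd (nat_lit 78) (nat_lit 0) (nat_lit 0) (XT.lf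 (nat_lit 0) (nat_lit 1160998096272) (nat_lit 152) (nat_lit 708824696905) (nat_lit 0) (nat_lit 1105794861402) (nat_lit 1) (nat_lit 5) (nat_lit 3) (nat_lit 4) (nat_lit 1) (nat_lit 4) (nat_lit 338) (nat_lit 255) (nat_lit 127)) (XT.nd (nat_lit 78) (nat_lit 0) (nat_lit 0) (XT.lf (nat_lit 0) (nat_lit 1262095459931) (nat_lit 152) (nat_lit 743609984310) (nat_lit 0) (nat_lit 1206892009577) (nat_lit 1) (nat_lit 5) (nat_lit 3) (nat_lit 4) (nat_lit 1) (nat_lit 4) (nat_lit 339) (nat_lit 255) (nat_lit 126)) (XT.lf (nat_lit 0) (nat_lit 1371280517718) (nat_lit 152) (nat_lit 781178259476) (nat_lit 0) (nat_lit 1316076867843) (nat_lit 1) (nat_lit 5) (nat_lit 3) (nat_lit 4) (nat_lit 1) (nat_lit 4) (nat_lit 340) (nat_lit 255) (nat_lit 125)))) (XT.nd (nat_lit 30966) (nat_lit 0) (nat_lit 1976) (XT.nd (nat_lit 30888) (nat_lit 0) (nat_lit 1976) (XT.lf (nat_lit 0) (nat_lit 1489200292197) (nat_lit 152) (nat_lit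 821752149219) (nat_lit 0) (nat_lit 1433996457580) (nat_lit 1) (nat_lit 5) (nat_lit 3) (nat_lit 4) (nat_lit 1) (nat_lit 4) (nat_lit 341) (nat_lit 255) (nat_lit 124)) (XT.lf (nat_lit 0) (nat_lit 2434153688) (nat_lit 0) (nat_lit 2434153688) (nat_lit 380) (nat_lit 2326497366) (nat_lit 27) (nat_lit 5) (nat_lit 27) (nat_lit 3) (nat_lit 32) (nat_lit 3) (nat_lit 256) (nat_lit 256) (nat_lit 208))) (XT.nd (nat_lit 78) (nat_lit 0) (nat_lit 0) (XT.lf (nat_lit 0) (nat_lit 10399858057) (nat_lit 380) (nat_lit 4193433098) (nat_lit 456) (nat_lit 346932157) (nat_lit 27) (nat_lit 5) (nat_lit 32) (nat_lit 3) (nat_lit 33) (nat_lit 5) (nat_lit 257) (nat_lit 256) (nat_lit 207)) (XT.lf (nat_lit 76) (nat_lit 1492893551) (nat_lit 0) (nat_lit 9759427445) (nat_lit 456) (nat_lit 4271979408) (nat_lit 28) (nat_lit 5) (nat_lit 27) (nat_lit 5) (nat_lit 33) (nat_lit 5) (nat_lit 258) (nat_lit 256) (nat_lit 206))))))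 (XT.nd (nat_lit 546) (nat_lit 608) (nat_lit 0) (XT.nd (nat_lit 234) (nat_lit 304) (nat_lit 0) (XT.nd (nat_lit 78) (nat_lit 0) (nat_lit 76) (XT.lf (nat_lit 76) (nat_lit 7857012802) (nat_lit 0) (nat_lit 4405995693) (nat_lit 456) (nat_lit 3885177199) (nat_lit 28) (nat_lit 5) (nat_lit 27) (nat_lit 5) (nat_lit 33) (nat_lit 5) (nat_lit 259) (nat_lit 256) (nat_lit 205)) (XT.nd (nat_lit 78) (nat_lit 0) (nat_lit 0) (XT.lf (nat_lit 0) (nat_lit 13365033925) (nat_lit 380) (nat_lit 2141537085) (nat_lit 456) (nat_lit 1314835346) (nat_lit 28) (nat_lit 5) (nat_lit 33) (nat_lit 5) (nat_lit 34) (nat_lit 5) (nat_lit 260) (nat_lit 256) (nat_lit 204)) (XT.lf (nat_lit 76) (nat_lit 4600260121) (nat_lit 0) (nat_lit 10159110428) (nat_lit 456) (nat_lit 2773025872) (nat_lit 29) (nat_lit 5) (nat_lit 28) (nat_lit 5) (nat_lit 34) (nat_lit 5) (nat_lit 261) (nat_lit 256) (nat_lit 203)))) (XT.nd (nat_lit 156) (nat_lit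 76) (nat_lit 0) (XT.nd (nat_lit 78) (nat_lit 304) (nat_lit 0) (XT.lf (nat_lit 76) (nat_lit 11988092748) (nat_lit 0) (nat_lit 4315973250) (nat_lit 456) (nat_lit 1993320377) (nat_lit 29) (nat_lit 5) (nat_lit 28) (nat_lit 5) (nat_lit 34) (nat_lit 5) (nat_lit 262) (nat_lit 256) (nat_lit 202)) (XT.lf (nat_lit 0) (nat_lit 820705308) (nat_lit 380) (nat_lit 17201164477) (nat_lit 456) (nat_lit 1097952046) (nat_lit 24) (nat_lit 5) (nat_lit 29) (nat_lit 5) (nat_lit 30) (nat_lit 5) (nat_lit 263) (nat_lit 256) (nat_lit 201))) (XT.nd (nat_lit 78) (nat_lit 0) (nat_lit 0) (XT.lf (nat_lit 0) (nat_lit 146858511) (nat_lit 456) (nat_lit 11244241434) (nat_lit 76) (nat_lit 8595682297) (nat_lit 23) (nat_lit 5) (nat_lit 29) (nat_lit 5) (nat_lit 24) (nat_lit 5) (nat_lit 264) (nat_lit 256) (nat_lit 200)) (XT.lf (nat_lit 0) (nat_lit 1415427392) (nat_lit 456) (nat_lit 3668748938) (nat_lit 76) (nat_lit 15838128234)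 (nat_lit 23) (nat_lit 5) (nat_lit 29) (nat_lit 5) (nat_lit 24) (nat_lit 5) (nat_lit 265) (nat_lit 256) (nat_lit 199))))) (XT.nd (nat_lit 234) (nat_lit 380) (nat_lit 0) (XT.nd (nat_lit 78) (nat_lit 0) (nat_lit 0) (XT.lf (nat_lit 0) (nat_lit 2928613887) (nat_lit 304) (nat_lit 17233911704) (nat_lit 76) (nat_lit 1758846075) (nat_lit 20) (nat_lit 5) (nat_lit 24) (nat_lit 5) (nat_lit 21) (nat_lit 5) (nat_lit 266) (nat_lit 256) (nat_lit 198)) (XT.nd (nat_lit 78) (nat_lit 0) (nat_lit 0) (XT.lf (nat_lit 0) (nat_lit 4783360095) (nat_lit 304) (nat_lit 9221275781) (nat_lit 76) (nat_lit 8978230064) (nat_lit 20) (nat_lit 5) (nat_lit 24) (nat_lit 5) (nat_lit 21) (nat_lit 5) (nat_lit 267) (nat_lit 256) (nat_lit 197)) (XT.lf (nat_lit 0) (nat_lit 6773090361) (nat_lit 304) (nat_lit 581596619) (nat_lit 76) (nat_lit 16775796082) (nat_lit 20) (nat_lit 5) (nat_lit 24) (nat_lit 5) (nat_lit 21) (nat_lit 5)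 (nat_lit 268) (nat_lit 256) (nat_lit 196)))) (XT.nd (nat_lit 156) (nat_lit 152) (nat_lit 0) (XT.nd (nat_lit 78) (nat_lit 0) (nat_lit 0) (XT.lf (nat_lit 0) (nat_lit 9132345992) (nat_lit 304) (nat_lit 16158544250) (nat_lit 76) (nat_lit 62313460) (nat_lit 17) (nat_lit 5) (nat_lit 21) (nat_lit 5) (nat_lit 18) (nat_lit 5) (nat_lit 269) (nat_lit 256) (nat_lit 195)) (XT.lf (nat_lit 0) (nat_lit 11875880390) (nat_lit 304) (nat_lit 7091463589) (nat_lit 76) (nat_lit 7690867825) (nat_lit 17) (nat_lit 5) (nat_lit 21) (nat_lit 5) (nat_lit 18) (nat_lit 5) (nat_lit 270) (nat_lit 256) (nat_lit 194))) (XT.nd (nat_lit 78) (nat_lit 0) (nat_lit 0) (XT.lf (nat_lit 0) (nat_lit 2829916089) (nat_lit 152) (nat_lit 12066108190) (nat_lit 228) (nat_lit 13167130645) (nat_lit 15) (nat_lit 5) (nat_lit 17) (nat_lit 5) (nat_lit 18) (nat_lit 5) (nat_lit 271) (nat_lit 256) (nat_lit 193)) (XT.lf (nat_lit 0) (nat_lit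 13935992440) (nat_lit 152) (nat_lit 4405261359) (nat_lit 228) (nat_lit 11224658537) (nat_lit 15) (nat_lit 5) (nat_lit 17) (nat_lit 5) (nat_lit 18) (nat_lit 5) (nat_lit 272) (nat_lit 256) (nat_lit 192))))))))
noncomputable def xc81 : XT := (XT.nd (nat_lit 2106) (nat_lit 152) (nat_lit 0) (XT.nd (nat_lit 1014) (nat_lit 304) (nat_lit 0) (XT.nd (nat_lit 468) (nat_lit 228) (nat_lit 0) (XT.nd (nat_lit 234) (nat_lit 228) (nat_lit 0) (XT.nd (nat_lit 78) (nat_lit 152) (nat_lit 0) (XT.lf (nat_lit 0) (nat_lit 22145448650) (nat_lit 228) (nat_lit 5363590633) (nat_lit 76) (nat_lit 3673272902) (nat_lit 15) (nat_lit 5) (nat_lit 18) (nat_lit 5) (nat_lit 16) (nat_lit 5) (nat_lit 273) (nat_lit 256) (nat_lit 191)) (XT.nd (nat_lit 78) (nat_lit 0) (nat_lit 0) (XT.lf (nat_lit 0) (nat_lit 5893105919) (nat_lit 152) (nat_lit 20608053193) (nat_lit 228) (nat_lit 6407173475) (nat_lit 13) (nat_lit 5) (nat_lit 15)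 (nat_lit 5) (nat_lit 16) (nat_lit 5) (nat_lit 274) (nat_lit 256) (nat_lit 190)) (XT.lf (nat_lit 0) (nat_lit 18344343070) (nat_lit 152) (nat_lit 12999061090) (nat_lit 228) (nat_lit 3418061061) (nat_lit 13) (nat_lit 5) (nat_lit 15) (nat_lit 5) (nat_lit 16) (nat_lit 5) (nat_lit 275) (nat_lit 256) (nat_lit 189)))) (XT.nd (nat_lit 78) (nat_lit 228) (nat_lit 0) (XT.lf (nat_lit 0) (nat_lit 31781468748) (nat_lit 152) (nat_lit 4783622725) (nat_lit 228) (nat_lit 198463108) (nat_lit 13) (nat_lit 5) (nat_lit 15) (nat_lit 5) (nat_lit 16) (nat_lit 5) (nat_lit 276) (nat_lit 256) (nat_lit 188)) (XT.nd (nat_lit 78) (nat_lit 0) (nat_lit 0) (XT.lf (nat_lit 0) (nat_lit 3396484671) (nat_lit 228) (nat_lit 31348267028) (nat_lit 76) (nat_lit 4152268465) (nat_lit 10) (nat_lit 5) (nat_lit 13) (nat_lit 5) (nat_lit 11) (nat_lit 5) (nat_lit 277) (nat_lit 256) (nat_lit 187)) (XT.lf (nat_lit 0) (nat_lit 7524983627)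 (nat_lit 228) (nat_lit 19968058714) (nat_lit 76) (nat_lit 13687230525) (nat_lit 10) (nat_lit 5) (nat_lit 13) (nat_lit 5) (nat_lit 11) (nat_lit 5) (nat_lit 278) (nat_lit 256) (nat_lit 186))))) (XT.nd (nat_lit 234) (nat_lit 76) (nat_lit 0) (XT.nd (nat_lit 78) (nat_lit 152) (nat_lit 0) (XT.lf (nat_lit 0) (nat_lit 11976975798) (nat_lit 228) (nat_lit 7686919961) (nat_lit 76) (nat_lit 23982885244) (nat_lit 10) (nat_lit 5) (nat_lit 13) (nat_lit 5) (nat_lit 11) (nat_lit 5) (nat_lit 279) (nat_lit 256) (nat_lit 185)) (XT.nd (nat_lit 78) (nat_lit 0) (nat_lit 0) (XT.lf (nat_lit 0) (nat_lit 5861123485) (nat_lit 152) (nat_lit 11058680035) (nat_lit 228) (nat_lit 29380080586) (nat_lit 8) (nat_lit 5) (nat_lit 10) (nat_lit 5) (nat_lit 11) (nat_lit 5) (nat_lit 280) (nat_lit 256) (nat_lit 184)) (XT.lf (nat_lit 0) (nat_lit 20921611184) (nat_lit 152) (nat_lit 1540595892) (nat_lit 228) (nat_lit 26686741236)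 (nat_lit 8) (nat_lit 5) (nat_lit 10) (nat_lit 5) (nat_lit 11) (nat_lit 5) (nat_lit 281) (nat_lit 256) (nat_lit 183)))) (XT.nd (nat_lit 156) (nat_lit 76) (nat_lit 0) (XT.nd (nat_lit 78) (nat_lit 0) (nat_lit 0) (XT.lf (nat_lit 0) (nat_lit 28652539876) (nat_lit 228) (nat_lit 15257529628) (nat_lit 76) (nat_lit 8299546696) (nat_lit 8) (nat_lit 5) (nat_lit 11) (nat_lit 5) (nat_lit 9) (nat_lit 4) (nat_lit 282) (nat_lit 256) (nat_lit 182)) (XT.lf (nat_lit 0) (nat_lit 35372897520) (nat_lit 228) (nat_lit 1297892152) (nat_lit 76) (nat_lit 18841602419) (nat_lit 8) (nat_lit 5) (nat_lit 11) (nat_lit 5) (nat_lit 9) (nat_lit 4) (nat_lit 283) (nat_lit 256) (nat_lit 181))) (XT.nd (nat_lit 78) (nat_lit 0) (nat_lit 0) (XT.lf (nat_lit 0) (nat_lit 14496525355) (nat_lit 76) (nat_lit 28478169410) (nat_lit 152) (nat_lit 16077225991) (nat_lit 7) (nat_lit 5) (nat_lit 8) (nat_lit 5) (nat_lit 9) (nat_lit 4) (nat_lit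 284) (nat_lit 256) (nat_lit 180)) (XT.lf (nat_lit 0) (nat_lit 31621324080) (nat_lit 76) (nat_lit 19594157448) (nat_lit 152) (nat_lit 11656695474) (nat_lit 7) (nat_lit 5) (nat_lit 8) (nat_lit 5) (nat_lit 9) (nat_lit 4) (nat_lit 285) (nat_lit 256) (nat_lit 179)))))) (XT.nd (nat_lit 546) (nat_lit 152) (nat_lit 0) (XT.nd (nat_lit 234) (nat_lit 0) (nat_lit 0) (XT.nd (nat_lit 78) (nat_lit 152) (nat_lit 0) (XT.lf (nat_lit 0) (nat_lit 50109639610) (nat_lit 76) (nat_lit 10001594463) (nat_lit 152) (nat_lit 6887193955) (nat_lit 7) (nat_lit 5) (nat_lit 8) (nat_lit 5) (nat_lit 9) (nat_lit 4) (nat_lit 286) (nat_lit 256) (nat_lit 178)) (XT.nd (nat_lit 78) (nat_lit 152) (nat_lit 0) (XT.lf (nat_lit 0) (nat_lit 69723238540) (nat_lit 152) (nat_lit 1392663929) (nat_lit 0) (nat_lit 338537575) (nat_lit 7) (nat_lit 5) (nat_lit 9) (nat_lit 4) (nat_lit 7) (nat_lit 4) (nat_lit 287) (nat_lit 256) (nat_lit 177))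 (XT.lf (nat_lit 0) (nat_lit 4299617854) (nat_lit 152) (nat_lit 60453284047) (nat_lit 76) (nat_lit 11454328156) (nat_lit 5) (nat_lit 5) (nat_lit 7) (nat_lit 5) (nat_lit 6) (nat_lit 4) (nat_lit 288) (nat_lit 256) (nat_lit 176)))) (XT.nd (nat_lit 156) (nat_lit 0) (nat_lit 0) (XT.nd (nat_lit 78) (nat_lit 0) (nat_lit 0) (XT.lf (nat_lit 0) (nat_lit 10754734527) (nat_lit 152) (nat_lit 47037556385) (nat_lit 76) (nat_lit 23541548550) (nat_lit 5) (nat_lit 5) (nat_lit 7) (nat_lit 5) (nat_lit 6) (nat_lit 4) (nat_lit 289) (nat_lit 256) (nat_lit 175)) (XT.lf (nat_lit 0) (nat_lit 17722829679) (nat_lit 152) (nat_lit 32554024967) (nat_lit 76) (nat_lit 36594018205) (nat_lit 5) (nat_lit 5) (nat_lit 7) (nat_lit 5) (nat_lit 6) (nat_lit 4) (nat_lit 290) (nat_lit 256) (nat_lit 174))) (XT.nd (nat_lit 78) (nat_lit 0) (nat_lit 0) (XT.lf (nat_lit 0) (nat_lit 25245195726) (nat_lit 152) (nat_lit 16916861458)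 (nat_lit 76) (nat_lit 50689085089) (nat_lit 5) (nat_lit 5) (nat_lit 7) (nat_lit 5) (nat_lit 6) (nat_lit 4) (nat_lit 291) (nat_lit 256) (nat_lit 173)) (XT.lf (nat_lit 0) (nat_lit 33366409652) (nat_lit 152) (nat_lit 33401187) (nat_lit 76) (nat_lit 65910275523) (nat_lit 5) (nat_lit 5) (nat_lit 7) (nat_lit 5) (nat_lit 6) (nat_lit 4) (nat_lit 292) (nat_lit 256) (nat_lit 172))))) (XT.nd (nat_lit 234) (nat_lit 76) (nat_lit 0) (XT.nd (nat_lit 78) (nat_lit 0) (nat_lit 0) (XT.lf (nat_lit 0) (nat_lit 19154596475) (nat_lit 76) (nat_lit 23440669199) (nat_lit 152) (nat_lit 63653861185) (nat_lit 4) (nat_lit 5) (nat_lit 5) (nat_lit 5) (nat_lit 6) (nat_lit 4) (nat_lit 293) (nat_lit 256) (nat_lit 171)) (XT.nd (nat_lit 78) (nat_lit 0) (nat_lit 0) (XT.lf (nat_lit 0) (nat_lit 39875313200) (nat_lit 76) (nat_lit 12685406946) (nat_lit 152) (nat_lit 61182722514) (nat_lit 4) (nat_lit 5) (nat_lit 5) (nat_lit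 5) (nat_lit 6) (nat_lit 4) (nat_lit 294) (nat_lit 256) (nat_lit 170)) (XT.lf (nat_lit 0) (nat_lit 62249779573) (nat_lit 76) (nat_lit 1071202442) (nat_lit 152) (nat_lit 58516530157) (nat_lit 4) (nat_lit 5) (nat_lit 5) (nat_lit 5) (nat_lit 6) (nat_lit 4) (nat_lit 295) (nat_lit 256) (nat_lit 169)))) (XT.nd (nat_lit 156) (nat_lit 76) (nat_lit 0) (XT.nd (nat_lit 78) (nat_lit 0) (nat_lit 0) (XT.lf (nat_lit 0) (nat_lit 75215688070) (nat_lit 152) (nat_lit 44444587504) (nat_lit 0) (nat_lit 10896954896) (nat_lit 4) (nat_lit 5) (nat_lit 6) (nat_lit 4) (nat_lit 4) (nat_lit 4) (nat_lit 296) (nat_lit 256) (nat_lit 168)) (XT.lf (nat_lit 0) (nat_lit 88087681116) (nat_lit 152) (nat_lit 28121312674) (nat_lit 0) (nat_lit 23763487715) (nat_lit 4) (nat_lit 5) (nat_lit 6) (nat_lit 4) (nat_lit 4) (nat_lit 4) (nat_lit 297) (nat_lit 256) (nat_lit 167))) (XT.nd (nat_lit 78) (nat_lit 76) (nat_lit 0) (XT.lf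 (nat_lit 0) (nat_lit 101987477185) (nat_lit 152) (nat_lit 10495415150) (nat_lit 0) (nat_lit 37658228019) (nat_lit 4) (nat_lit 5) (nat_lit 6) (nat_lit 4) (nat_lit 4) (nat_lit 4) (nat_lit 298) (nat_lit 256) (nat_lit 166)) (XT.lf (nat_lit 0) (nat_lit 8987127339) (nat_lit 76) (nat_lit 108226458729) (nat_lit 76) (nat_lit 43892528299) (nat_lit 3) (nat_lit 4) (nat_lit 4) (nat_lit 5) (nat_lit 4) (nat_lit 4) (nat_lit 299) (nat_lit 256) (nat_lit 165))))))) (XT.nd (nat_lit 1014) (nat_lit 0) (nat_lit 0) (XT.nd (nat_lit 468) (nat_lit 152) (nat_lit 0) (XT.nd (nat_lit 234) (nat_lit 0) (nat_lit 0) (XT.nd (nat_lit 78) (nat_lit 0) (nat_lit 0) (XT.lf (nat_lit 0) (nat_lit 30622233378) (nat_lit 76) (nat_lit 103320765913) (nat_lit 76) (nat_lit 38982500978) (nat_lit 3) (nat_lit 4) (nat_lit 4) (nat_lit 5) (nat_lit 4) (nat_lit 4) (nat_lit 300) (nat_lit 256) (nat_lit 164)) (XT.nd (nat_lit 78) (nat_lit 0) (nat_lit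 0) (XT.lf (nat_lit 0) (nat_lit 53985441037) (nat_lit 76) (nat_lit 98023706363) (nat_lit 76) (nat_lit 33681427999) (nat_lit 3) (nat_lit 4) (nat_lit 4) (nat_lit 5) (nat_lit 4) (nat_lit 4) (nat_lit 301) (nat_lit 256) (nat_lit 163)) (XT.lf (nat_lit 0) (nat_lit 79215198955) (nat_lit 76) (nat_lit 92303890098) (nat_lit 76) (nat_lit 27957895596) (nat_lit 3) (nat_lit 4) (nat_lit 4) (nat_lit 5) (nat_lit 4) (nat_lit 4) (nat_lit 302) (nat_lit 256) (nat_lit 162)))) (XT.nd (nat_lit 78) (nat_lit 0) (nat_lit 0) (XT.lf (nat_lit 0) (nat_lit 106461016810) (nat_lit 76) (nat_lit 86127421911) (nat_lit 76) (nat_lit 21777986539) (nat_lit 3) (nat_lit 4) (nat_lit 4) (nat_lit 5) (nat_lit 4) (nat_lit 4) (nat_lit 303) (nat_lit 256) (nat_lit 161)) (XT.nd (nat_lit 78) (nat_lit 0) (nat_lit 0) (XT.lf (nat_lit 0) (nat_lit 135884351298) (nat_lit 76) (nat_lit 79457700507) (nat_lit 76) (nat_lit 15105079146) (nat_lit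 3) (nat_lit 4) (nat_lit 4) (nat_lit 5) (nat_lit 4) (nat_lit 4) (nat_lit 304) (nat_lit 256) (nat_lit 160)) (XT.lf (nat_lit 0) (nat_lit 167659562921) (nat_lit 76) (nat_lit 72255201613) (nat_lit 76) (nat_lit 7899630261) (nat_lit 3) (nat_lit 4) (nat_lit 4) (nat_lit 5) (nat_lit 4) (nat_lit 4) (nat_lit 305) (nat_lit 256) (nat_lit 159))))) (XT.nd (nat_lit 234) (nat_lit 76) (nat_lit 0) (XT.nd (nat_lit 78) (nat_lit 76) (nat_lit 0) (XT.lf (nat_lit 0) (nat_lit 201974949230) (nat_lit 76) (nat_lit 64477243753) (nat_lit 76) (nat_lit 118940929) (nat_lit 3) (nat_lit 4) (nat_lit 4) (nat_lit 5) (nat_lit 4) (nat_lit 4) (nat_lit 306) (nat_lit 256) (nat_lit 158)) (XT.nd (nat_lit 78) (nat_lit 0) (nat_lit 0) (XT.lf (nat_lit 0) (nat_lit 7868742598) (nat_lit 152) (nat_lit 47993847360) (nat_lit 76) (nat_lit 230949972694) (nat_lit 2) (nat_lit 5) (nat_lit 4) (nat_lit 5) (nat_lit 3) (nat_lit 4) (nat_lit 307)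 (nat_lit 256) (nat_lit 157)) (XT.lf (nat_lit 0) (nat_lit 16488041263) (nat_lit 152) (nat_lit 30068047935) (nat_lit 76) (nat_lit 262117052047) (nat_lit 2) (nat_lit 5) (nat_lit 4) (nat_lit 5) (nat_lit 3) (nat_lit 4) (nat_lit 308) (nat_lit 256) (nat_lit 156)))) (XT.nd (nat_lit 156) (nat_lit 0) (nat_lit 0) (XT.nd (nat_lit 78) (nat_lit 76) (nat_lit 0) (XT.lf (nat_lit 0) (nat_lit 25795982296) (nat_lit 152) (nat_lit 10709698917) (nat_lit 76) (nat_lit 295776961488) (nat_lit 2) (nat_lit 5) (nat_lit 4) (nat_lit 5) (nat_lit 3) (nat_lit 4) (nat_lit 309) (nat_lit 256) (nat_lit 155)) (XT.lf (nat_lit 0) (nat_lit 10732814696) (nat_lit 76) (nat_lit 25373033623) (nat_lit 152) (nat_lit 321654476903) (nat_lit 1) (nat_lit 5) (nat_lit 2) (nat_lit 5) (nat_lit 3) (nat_lit 4) (nat_lit 310) (nat_lit 256) (nat_lit 154))) (XT.nd (nat_lit 78) (nat_lit 0) (nat_lit 0) (XT.lf (nat_lit 0) (nat_lit 34498432778) (nat_lit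 76) (nat_lit 13034087212) (nat_lit 152) (nat_lit 337720344863) (nat_lit 1) (nat_lit 5) (nat_lit 2) (nat_lit 5) (nat_lit 3) (nat_lit 4) (nat_lit 311) (nat_lit 256) (nat_lit 153)) (XT.lf (nat_lit 0) (nat_lit 59879588816) (nat_lit 152) (nat_lit 354787845537) (nat_lit 0) (nat_lit 276875766) (nat_lit 1) (nat_lit 5) (nat_lit 3) (nat_lit 4) (nat_lit 1) (nat_lit 4) (nat_lit 312) (nat_lit 256) (nat_lit 152)))))) (XT.nd (nat_lit 546) (nat_lit 0) (nat_lit 0) (XT.nd (nat_lit 234) (nat_lit 0) (nat_lit 0) (XT.nd (nat_lit 78) (nat_lit 0) (nat_lit 0) (XT.lf (nat_lit 0) (nat_lit 73552268475) (nat_lit 152) (nat_lit 359483698483) (nat_lit 0) (nat_lit 13948079695) (nat_lit 1) (nat_lit 5) (nat_lit 3) (nat_lit 4) (nat_lit 1) (nat_lit 4) (nat_lit 313) (nat_lit 256) (nat_lit 151)) (XT.nd (nat_lit 78) (nat_lit 0) (nat_lit 0) (XT.lf (nat_lit 0) (nat_lit 88318112143) (nat_lit 152) (nat_lit 364556348081) (nat_lit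 0) (nat_lit 28712556946) (nat_lit 1) (nat_lit 5) (nat_lit 3) (nat_lit 4) (nat_lit 1) (nat_lit 4) (nat_lit 314) (nat_lit 256) (nat_lit 150)) (XT.lf (nat_lit 0) (nat_lit 104264621116) (nat_lit 152) (nat_lit 370035854476) (nat_lit 0) (nat_lit 44657800719) (nat_lit 1) (nat_lit 5) (nat_lit 3) (nat_lit 4) (nat_lit 1) (nat_lit 4) (nat_lit 315) (nat_lit 256) (nat_lit 149)))) (XT.nd (nat_lit 156) (nat_lit 0) (nat_lit 0) (XT.nd (nat_lit 78) (nat_lit 0) (nat_lit 0) (XT.lf (nat_lit 0) (nat_lit 121486293225) (nat_lit 152) (nat_lit 375954688818) (nat_lit 0) (nat_lit 61878301346) (nat_lit 1) (nat_lit 5) (nat_lit 3) (nat_lit 4) (nat_lit 1) (nat_lit 4) (nat_lit 316) (nat_lit 256) (nat_lit 148)) (XT.lf (nat_lit 0) (nat_lit 140085182824) (nat_lit 152) (nat_lit 382347925679) (nat_lit 0) (nat_lit 80476106240) (nat_lit 1) (nat_lit 5) (nat_lit 3) (nat_lit 4) (nat_lit 1) (nat_lit 4) (nat_lit 317) (nat_lit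 256) (nat_lit 147))) (XT.nd (nat_lit 78) (nat_lit 0) (nat_lit 0) (XT.lf (nat_lit 0) (nat_lit 160171505554) (nat_lit 152) (nat_lit 389253450908) (nat_lit 0) (nat_lit 100561424613) (nat_lit 1) (nat_lit 5) (nat_lit 3) (nat_lit 4) (nat_lit 1) (nat_lit 4) (nat_lit 318) (nat_lit 256) (nat_lit 146)) (XT.lf (nat_lit 0) (nat_lit 181864291476) (nat_lit 152) (nat_lit 396712186137) (nat_lit 0) (nat_lit 122253280575) (nat_lit 1) (nat_lit 5) (nat_lit 3) (nat_lit 4) (nat_lit 1) (nat_lit 4) (nat_lit 319) (nat_lit 256) (nat_lit 145))))) (XT.nd (nat_lit 234) (nat_lit 0) (nat_lit 0) (XT.nd (nat_lit 78) (nat_lit 0) (nat_lit 0) (XT.lf (nat_lit 0) (nat_lit 205292090433) (nat_lit 152) (nat_lit 404768331277) (nat_lit 0) (nat_lit 145680218457) (nat_lit 1) (nat_lit 5) (nat_lit 3) (nat_lit 4) (nat_lit 1) (nat_lit 4) (nat_lit 320) (nat_lit 256) (nat_lit 144)) (XT.nd (nat_lit 78) (nat_lit 0) (nat_lit 0) (XT.lf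 (nat_lit 0) (nat_lit 230593733825) (nat_lit 152) (nat_lit 413469626448) (nat_lit 0) (nat_lit 170981064559) (nat_lit 1) (nat_lit 5) (nat_lit 3) (nat_lit 4) (nat_lit 1) (nat_lit 4) (nat_lit 321) (nat_lit 256) (nat_lit 143)) (XT.lf (nat_lit 0) (nat_lit 257919157318) (nat_lit 152) (nat_lit 422867634881) (nat_lit 0) (nat_lit 198305749819) (nat_lit 1) (nat_lit 5) (nat_lit 3) (nat_lit 4) (nat_lit 1) (nat_lit 4) (nat_lit 322) (nat_lit 256) (nat_lit 142)))) (XT.nd (nat_lit 156) (nat_lit 0) (nat_lit 0) (XT.nd (nat_lit 78) (nat_lit 0) (nat_lit 0) (XT.lf (nat_lit 0) (nat_lit 287430289346) (nat_lit 152) (nat_lit 433018048477) (nat_lit 0) (nat_lit 227816198299) (nat_lit 1) (nat_lit 5) (nat_lit 3) (nat_lit 4) (nat_lit 1) (nat_lit 4) (nat_lit 323) (nat_lit 256) (nat_lit 141)) (XT.lf (nat_lit 0) (nat_lit 319302010693) (nat_lit 152) (nat_lit 443981017836) (nat_lit 0) (nat_lit 259687286731) (nat_lit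 1) (nat_lit 5) (nat_lit 3) (nat_lit 4) (nat_lit 1) (nat_lit 4) (nat_lit 324) (nat_lit 256) (nat_lit 140))) (XT.nd (nat_lit 78) (nat_lit 0) (nat_lit 0) (XT.lf (nat_lit 0) (nat_lit 353723190818) (nat_lit 152) (nat_lit 455821508701) (nat_lit 0) (nat_lit 294107880823) (nat_lit 1) (nat_lit 5) (nat_lit 3) (nat_lit 4) (nat_lit 1) (nat_lit 4) (nat_lit 325) (nat_lit 256) (nat_lit 139)) (XT.lf (nat_lit 0) (nat_lit 390897807084) (nat_lit 152) (nat_lit 468609686945) (nat_lit 0) (nat_lit 331281954467) (nat_lit 1) (nat_lit 5) (nat_lit 3) (nat_lit 4) (nat_lit 1) (nat_lit 4) (nat_lit 326) (nat_lit 256) (nat_lit 138))))))))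
noncomputable def xc82 : XT := (XT.nd (nat_lit 32916) (nat_lit 0) (nat_lit 228) (XT.nd (nat_lit 1014) (nat_lit 0) (nat_lit 0) (XT.nd (nat_lit 468) (nat_lit 0) (nat_lit 0) (XT.nd (nat_lit 234) (nat_lit 0) (nat_lit 0) (XT.nd (nat_lit 78) (nat_lit 0) (nat_lit 0) (XT.lf (nat_lit 0) (nat_lit 431046153515) (nat_lit 152) (nat_lit 482421334364) (nat_lit 0) (nat_lit 371429798469) (nat_lit 1) (nat_lit 5) (nat_lit 3) (nat_lit 4) (nat_lit 1) (nat_lit 4) (nat_lit 327) (nat_lit 256) (nat_lit 137)) (XT.nd (nat_lit 78) (nat_lit 0) (nat_lit 0) (XT.lf (nat_lit 0) (nat_lit 474406146236) (nat_lit 152) (nat_lit 497338297759) (nat_lit 0) (nat_lit 414789325979) (nat_lit 1) (nat_lit 5) (nat_lit 3) (nat_lit 4) (nat_lit 1) (nat_lit 4) (nat_lit 328) (nat_lit 256) (nat_lit 136)) (XT.lf (nat_lit 0) (nat_lit 521234733354) (nat_lit 152) (nat_lit 513448973949) (nat_lit 0) (nat_lit 461617482345) (nat_lit 1) (nat_lit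 5) (nat_lit 3) (nat_lit 4) (nat_lit 1) (nat_lit 4) (nat_lit 329) (nat_lit 256) (nat_lit 135)))) (XT.nd (nat_lit 78) (nat_lit 0) (nat_lit 0) (XT.lf (nat_lit 0) (nat_lit 571809417607) (nat_lit 152) (nat_lit 530848833608) (nat_lit 0) (nat_lit 512191767754) (nat_lit 1) (nat_lit 5) (nat_lit 3) (nat_lit 4) (nat_lit 1) (nat_lit 4) (nat_lit 330) (nat_lit 256) (nat_lit 134)) (XT.nd (nat_lit 78) (nat_lit 0) (nat_lit 0) (XT.lf (nat_lit 0) (nat_lit 626429900826) (nat_lit 152) (nat_lit 549640987016) (nat_lit 0) (nat_lit 566811881673) (nat_lit 1) (nat_lit 5) (nat_lit 3) (nat_lit 4) (nat_lit 1) (nat_lit 4) (nat_lit 331) (nat_lit 256) (nat_lit 133)) (XT.lf (nat_lit 0) (nat_lit 685419859950) (nat_lit 152) (nat_lit 569936795081) (nat_lit 0) (nat_lit 625801498853) (nat_lit 1) (nat_lit 5) (nat_lit 3) (nat_lit 4) (nat_lit 1) (nat_lit 4) (nat_lit 332) (nat_lit 256) (nat_lit 132))))) (XT.nd (nat_lit 234)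 (nat_lit 0) (nat_lit 0) (XT.nd (nat_lit 78) (nat_lit 0) (nat_lit 0) (XT.lf (nat_lit 0) (nat_lit 749128865107) (nat_lit 152) (nat_lit 591856529258) (nat_lit 0) (nat_lit 689510187395) (nat_lit 1) (nat_lit 5) (nat_lit 3) (nat_lit 4) (nat_lit 1) (nat_lit 4) (nat_lit 333) (nat_lit 256) (nat_lit 131)) (XT.nd (nat_lit 78) (nat_lit 0) (nat_lit 0) (XT.lf (nat_lit 0) (nat_lit 817934451143) (nat_lit 152) (nat_lit 615530084270) (nat_lit 0) (nat_lit 758315480268) (nat_lit 1) (nat_lit 5) (nat_lit 3) (nat_lit 4) (nat_lit 1) (nat_lit 4) (nat_lit 334) (nat_lit 256) (nat_lit 130)) (XT.lf (nat_lit 0) (nat_lit 892244354863) (nat_lit 152) (nat_lit 641097747848) (nat_lit 0) (nat_lit 832625112542) (nat_lit 1) (nat_lit 5) (nat_lit 3) (nat_lit 4) (nat_lit 1) (nat_lit 4) (nat_lit 335) (nat_lit 256) (nat_lit 129)))) (XT.nd (nat_lit 156) (nat_lit 0) (nat_lit 0) (XT.nd (nat_lit 78) (nat_lit 0) (nat_lit 0) (XT.lf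 (nat_lit 0) (nat_lit 972498931252) (nat_lit 152) (nat_lit 668711032075) (nat_lit 0) (nat_lit 912879437592) (nat_lit 1) (nat_lit 5) (nat_lit 3) (nat_lit 4) (nat_lit 1) (nat_lit 4) (nat_lit 336) (nat_lit 256) (nat_lit 128)) (XT.lf (nat_lit 0) (nat_lit 1059173762986) (nat_lit 152) (nat_lit 698533571225) (nat_lit 0) (nat_lit 999554036604) (nat_lit 1) (nat_lit 5) (nat_lit 3) (nat_lit 4) (nat_lit 1) (nat_lit 4) (nat_lit 337) (nat_lit 256) (nat_lit 127))) (XT.nd (nat_lit 78) (nat_lit 0) (nat_lit 0) (XT.lf (nat_lit 0) (nat_lit 1152782478696) (nat_lit 152) (nat_lit 730742091459) (nat_lit 0) (nat_lit 1093162536831) (nat_lit 1) (nat_lit 5) (nat_lit 3) (nat_lit 4) (nat_lit 1) (nat_lit 4) (nat_lit 338) (nat_lit 256) (nat_lit 126)) (XT.lf (nat_lit 0) (nat_lit 1253879796699) (nat_lit 152) (nat_lit 765527458079) (nat_lit 0) (nat_lit 1194259655313) (nat_lit 1) (nat_lit 5) (nat_lit 3) (nat_lit 4) (nat_lit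 1) (nat_lit 4) (nat_lit 339) (nat_lit 256) (nat_lit 125)))))) (XT.nd (nat_lit 31356) (nat_lit 0) (nat_lit 1444) (XT.nd (nat_lit 31122) (nat_lit 0) (nat_lit 1976) (XT.nd (nat_lit 78) (nat_lit 0) (nat_lit 0) (XT.lf (nat_lit 0) (nat_lit 1363064812211) (nat_lit 152) (nat_lit 803095806594) (nat_lit 0) (nat_lit 1303444486083) (nat_lit 1) (nat_lit 5) (nat_lit 3) (nat_lit 4) (nat_lit 1) (nat_lit 4) (nat_lit 340) (nat_lit 256) (nat_lit 124)) (XT.nd (nat_lit 30966) (nat_lit 0) (nat_lit 1976) (XT.lf (nat_lit 0) (nat_lit 1480984547548) (nat_lit 152) (nat_lit 843669764252) (nat_lit 0) (nat_lit 1421364050362) (nat_lit 1) (nat_lit 5) (nat_lit 3) (nat_lit 4) (nat_lit 1) (nat_lit 4) (nat_lit 341) (nat_lit 256) (nat_lit 123)) (XT.lf (nat_lit 0) (nat_lit 2758197218) (nat_lit 0) (nat_lit 2758197218) (nat_lit 380) (nat_lit 2230310423) (nat_lit 27) (nat_lit 5) (nat_lit 27) (nat_lit 3) (nat_lit 32) (nat_lit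 3) (nat_lit 257) (nat_lit 257) (nat_lit 206)))) (XT.nd (nat_lit 78) (nat_lit 0) (nat_lit 0) (XT.lf (nat_lit 0) (nat_lit 11705018057) (nat_lit 380) (nat_lit 4239823606) (nat_lit 456) (nat_lit 147200501) (nat_lit 27) (nat_lit 5) (nat_lit 32) (nat_lit 3) (nat_lit 33) (nat_lit 5) (nat_lit 258) (nat_lit 257) (nat_lit 205)) (XT.nd (nat_lit 78) (nat_lit 0) (nat_lit 0) (XT.lf (nat_lit 76) (nat_lit 1894090589) (nat_lit 0) (nat_lit 10703314180) (nat_lit 456) (nat_lit 4128113278) (nat_lit 28) (nat_lit 5) (nat_lit 27) (nat_lit 5) (nat_lit 33) (nat_lit 5) (nat_lit 259) (nat_lit 257) (nat_lit 204)) (XT.lf (nat_lit 76) (nat_lit 8746467858) (nat_lit 0) (nat_lit 4909523997) (nat_lit 456) (nat_lit 3746339077) (nat_lit 28) (nat_lit 5) (nat_lit 27) (nat_lit 5) (nat_lit 33) (nat_lit 5) (nat_lit 260) (nat_lit 257) (nat_lit 203))))) (XT.nd (nat_lit 234) (nat_lit 608) (nat_lit 0) (XT.nd (nat_lit 78) (nat_lit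 0) (nat_lit 0) (XT.lf (nat_lit 0) (nat_lit 14812301413) (nat_lit 380) (nat_lit 2033011556) (nat_lit 456) (nat_lit 1287158671) (nat_lit 28) (nat_lit 5) (nat_lit 33) (nat_lit 5) (nat_lit 34) (nat_lit 5) (nat_lit 261) (nat_lit 257) (nat_lit 202)) (XT.nd (nat_lit 78) (nat_lit 0) (nat_lit 0) (XT.lf (nat_lit 76) (nat_lit 5241044654) (nat_lit 0) (nat_lit 11055695489) (nat_lit 456) (nat_lit 2605642432) (nat_lit 29) (nat_lit 5) (nat_lit 28) (nat_lit 5) (nat_lit 34) (nat_lit 5) (nat_lit 262) (nat_lit 257) (nat_lit 201)) (XT.lf (nat_lit 76) (nat_lit 13199699171) (nat_lit 0) (nat_lit 4738895765) (nat_lit 456) (nat_lit 1792392016) (nat_lit 29) (nat_lit 5) (nat_lit 28) (nat_lit 5) (nat_lit 34) (nat_lit 5) (nat_lit 263) (nat_lit 257) (nat_lit 200)))) (XT.nd (nat_lit 156) (nat_lit 228) (nat_lit 0) (XT.nd (nat_lit 78) (nat_lit 76) (nat_lit 0) (XT.lf (nat_lit 0) (nat_lit 1163772939) (nat_lit 380) (nat_lit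 18610533269) (nat_lit 456) (nat_lit 846751939) (nat_lit 24) (nat_lit 5) (nat_lit 29) (nat_lit 5) (nat_lit 30) (nat_lit 5) (nat_lit 264) (nat_lit 257) (nat_lit 199)) (XT.lf (nat_lit 0) (nat_lit 456825991) (nat_lit 456) (nat_lit 11868218891) (nat_lit 76) (nat_lit 9233826480) (nat_lit 23) (nat_lit 5) (nat_lit 29) (nat_lit 5) (nat_lit 24) (nat_lit 5) (nat_lit 265) (nat_lit 257) (nat_lit 198))) (XT.nd (nat_lit 78) (nat_lit 228) (nat_lit 0) (XT.lf (nat_lit 0) (nat_lit 1804790100) (nat_lit 456) (nat_lit 3707098985) (nat_lit 76) (nat_lit 17059335528) (nat_lit 23) (nat_lit 5) (nat_lit 29) (nat_lit 5) (nat_lit 24) (nat_lit 5) (nat_lit 266) (nat_lit 257) (nat_lit 197)) (XT.lf (nat_lit 0) (nat_lit 3424246747) (nat_lit 304) (nat_lit 18340121455) (nat_lit 76) (nat_lit 1887237147) (nat_lit 20) (nat_lit 5) (nat_lit 24) (nat_lit 5) (nat_lit 21) (nat_lit 5) (nat_lit 267) (nat_lit 257) (nat_lit 196)))))))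 (XT.nd (nat_lit 1014) (nat_lit 456) (nat_lit 0) (XT.nd (nat_lit 468) (nat_lit 380) (nat_lit 0) (XT.nd (nat_lit 234) (nat_lit 152) (nat_lit 0) (XT.nd (nat_lit 78) (nat_lit 228) (nat_lit 0) (XT.lf (nat_lit 0) (nat_lit 5408013856) (nat_lit 304) (nat_lit 9706660080) (nat_lit 76) (nat_lit 9685084197) (nat_lit 20) (nat_lit 5) (nat_lit 24) (nat_lit 5) (nat_lit 21) (nat_lit 5) (nat_lit 268) (nat_lit 257) (nat_lit 195)) (XT.nd (nat_lit 78) (nat_lit 228) (nat_lit 0) (XT.lf (nat_lit 0) (nat_lit 7538997732) (nat_lit 304) (nat_lit 394496790) (nat_lit 76) (nat_lit 18107300258) (nat_lit 20) (nat_lit 5) (nat_lit 24) (nat_lit 5) (nat_lit 21) (nat_lit 5) (nat_lit 269) (nat_lit 257) (nat_lit 194)) (XT.lf (nat_lit 0) (nat_lit 10076228567) (nat_lit 304) (nat_lit 17204795988) (nat_lit 76) (nat_lit 81332855) (nat_lit 17) (nat_lit 5) (nat_lit 21) (nat_lit 5) (nat_lit 18) (nat_lit 5) (nat_lit 270) (nat_lit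 257) (nat_lit 193)))) (XT.nd (nat_lit 78) (nat_lit 152) (nat_lit 0) (XT.lf (nat_lit 0) (nat_lit 13023446094) (nat_lit 304) (nat_lit 7430603081) (nat_lit 76) (nat_lit 8319131990) (nat_lit 17) (nat_lit 5) (nat_lit 21) (nat_lit 5) (nat_lit 18) (nat_lit 5) (nat_lit 271) (nat_lit 257) (nat_lit 192)) (XT.nd (nat_lit 78) (nat_lit 0) (nat_lit 0) (XT.lf (nat_lit 0) (nat_lit 3278710323) (nat_lit 152) (nat_lit 12997210640) (nat_lit 228) (nat_lit 14015481063) (nat_lit 15) (nat_lit 5) (nat_lit 17) (nat_lit 5) (nat_lit 18) (nat_lit 5) (nat_lit 272) (nat_lit 257) (nat_lit 191)) (XT.lf (nat_lit 0) (nat_lit 15256798638) (nat_lit 152) (nat_lit 4726028374) (nat_lit 228) (nat_lit 11932797856) (nat_lit 15) (nat_lit 5) (nat_lit 17) (nat_lit 5) (nat_lit 18) (nat_lit 5) (nat_lit 273) (nat_lit 257) (nat_lit 190))))) (XT.nd (nat_lit 234) (nat_lit 228) (nat_lit 0) (XT.nd (nat_lit 78) (nat_lit 152) (nat_lit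 0) (XT.lf (nat_lit 0) (nat_lit 24079153233) (nat_lit 228) (nat_lit 5588301977) (nat_lit 76) (nat_lit 3994977732) (nat_lit 15) (nat_lit 5) (nat_lit 18) (nat_lit 5) (nat_lit 16) (nat_lit 5) (nat_lit 274) (nat_lit 257) (nat_lit 189)) (XT.nd (nat_lit 78) (nat_lit 0) (nat_lit 0) (XT.lf (nat_lit 0) (nat_lit 6563756227) (nat_lit 152) (nat_lit 22212350026) (nat_lit 228) (nat_lit 6751116881) (nat_lit 13) (nat_lit 5) (nat_lit 15) (nat_lit 5) (nat_lit 16) (nat_lit 5) (nat_lit 275) (nat_lit 257) (nat_lit 188)) (XT.lf (nat_lit 0) (nat_lit 19996336658) (nat_lit 152) (nat_lit 13997923550) (nat_lit 228) (nat_lit 3535366620) (nat_lit 13) (nat_lit 5) (nat_lit 15) (nat_lit 5) (nat_lit 16) (nat_lit 5) (nat_lit 276) (nat_lit 257) (nat_lit 187)))) (XT.nd (nat_lit 156) (nat_lit 0) (nat_lit 0) (XT.nd (nat_lit 78) (nat_lit 228) (nat_lit 0) (XT.lf (nat_lit 0) (nat_lit 34494769714) (nat_lit 152) (nat_lit 5128291777)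 (nat_lit 228) (nat_lit 69766707) (nat_lit 13) (nat_lit 5) (nat_lit 15) (nat_lit 5) (nat_lit 16) (nat_lit 5) (nat_lit 277) (nat_lit 257) (nat_lit 186)) (XT.lf (nat_lit 0) (nat_lit 3800609378) (nat_lit 228) (nat_lit 33671055795) (nat_lit 76) (nat_lit 4525504124) (nat_lit 10) (nat_lit 5) (nat_lit 13) (nat_lit 5) (nat_lit 11) (nat_lit 5) (nat_lit 278) (nat_lit 257) (nat_lit 185))) (XT.nd (nat_lit 78) (nat_lit 0) (nat_lit 0) (XT.lf (nat_lit 0) (nat_lit 8249580403) (nat_lit 228) (nat_lit 21394139898) (nat_lit 76) (nat_lit 14820222098) (nat_lit 10) (nat_lit 5) (nat_lit 13) (nat_lit 5) (nat_lit 11) (nat_lit 5) (nat_lit 279) (nat_lit 257) (nat_lit 184)) (XT.lf (nat_lit 0) (nat_lit 13048650608) (nat_lit 228) (nat_lit 8143203638) (nat_lit 76) (nat_lit 25936713407) (nat_lit 10) (nat_lit 5) (nat_lit 13) (nat_lit 5) (nat_lit 11) (nat_lit 5) (nat_lit 280) (nat_lit 257) (nat_lit 183)))))) (XT.nd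 (nat_lit 546) (nat_lit 228) (nat_lit 0) (XT.nd (nat_lit 234) (nat_lit 76) (nat_lit 0) (XT.nd (nat_lit 78) (nat_lit 0) (nat_lit 0) (XT.lf (nat_lit 0) (nat_lit 6484666324) (nat_lit 152) (nat_lit 11897548983) (nat_lit 228) (nat_lit 31612143613) (nat_lit 8) (nat_lit 5) (nat_lit 10) (nat_lit 5) (nat_lit 11) (nat_lit 5) (nat_lit 281) (nat_lit 257) (nat_lit 182)) (XT.nd (nat_lit 78) (nat_lit 0) (nat_lit 0) (XT.lf (nat_lit 0) (nat_lit 22738537264) (nat_lit 152) (nat_lit 1621412587) (nat_lit 228) (nat_lit 28712103294) (nat_lit 8) (nat_lit 5) (nat_lit 10) (nat_lit 5) (nat_lit 11) (nat_lit 5) (nat_lit 282) (nat_lit 257) (nat_lit 181)) (XT.lf (nat_lit 0) (nat_lit 31038989987) (nat_lit 228) (nat_lit 16338328526) (nat_lit 76) (nat_lit 9000833031) (nat_lit 8) (nat_lit 5) (nat_lit 11) (nat_lit 5) (nat_lit 9) (nat_lit 4) (nat_lit 283) (nat_lit 257) (nat_lit 180)))) (XT.nd (nat_lit 156) (nat_lit 0)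 (nat_lit 0) (XT.nd (nat_lit 78) (nat_lit 76) (nat_lit 0) (XT.lf (nat_lit 0) (nat_lit 38289994989) (nat_lit 228) (nat_lit 1272275864) (nat_lit 76) (nat_lit 20383488575) (nat_lit 8) (nat_lit 5) (nat_lit 11) (nat_lit 5) (nat_lit 9) (nat_lit 4) (nat_lit 284) (nat_lit 257) (nat_lit 179)) (XT.lf (nat_lit 0) (nat_lit 15782417888) (nat_lit 76) (nat_lit 30714088406) (nat_lit 152) (nat_lit 17272266083) (nat_lit 7) (nat_lit 5) (nat_lit 8) (nat_lit 5) (nat_lit 9) (nat_lit 4) (nat_lit 285) (nat_lit 257) (nat_lit 178))) (XT.nd (nat_lit 78) (nat_lit 0) (nat_lit 0) (XT.lf (nat_lit 0) (nat_lit 34267854548) (nat_lit 76) (nat_lit 21122491381) (nat_lit 152) (nat_lit 12504844087) (nat_lit 7) (nat_lit 5) (nat_lit 8) (nat_lit 5) (nat_lit 9) (nat_lit 4) (nat_lit 286) (nat_lit 257) (nat_lit 177)) (XT.lf (nat_lit 0) (nat_lit 54226581650) (nat_lit 76) (nat_lit 10765426961) (nat_lit 152) (nat_lit 7360033337)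 (nat_lit 7) (nat_lit 5) (nat_lit 8) (nat_lit 5) (nat_lit 9) (nat_lit 4) (nat_lit 287) (nat_lit 257) (nat_lit 176))))) (XT.nd (nat_lit 234) (nat_lit 76) (nat_lit 0) (XT.nd (nat_lit 78) (nat_lit 152) (nat_lit 0) (XT.lf (nat_lit 0) (nat_lit 75368457539) (nat_lit 152) (nat_lit 1398930472) (nat_lit 0) (nat_lit 397545982) (nat_lit 7) (nat_lit 5) (nat_lit 9) (nat_lit 4) (nat_lit 7) (nat_lit 4) (nat_lit 288) (nat_lit 257) (nat_lit 175)) (XT.nd (nat_lit 78) (nat_lit 0) (nat_lit 0) (XT.lf (nat_lit 0) (nat_lit 4710521940) (nat_lit 152) (nat_lit 65183132419) (nat_lit 76) (nat_lit 12404394270) (nat_lit 5) (nat_lit 5) (nat_lit 7) (nat_lit 5) (nat_lit 6) (nat_lit 4) (nat_lit 289) (nat_lit 257) (nat_lit 174)) (XT.lf (nat_lit 0) (nat_lit 11677089824) (nat_lit 152) (nat_lit 50702029089) (nat_lit 76) (nat_lit 25456094529) (nat_lit 5) (nat_lit 5) (nat_lit 7) (nat_lit 5) (nat_lit 6) (nat_lit 4) (nat_lit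 290) (nat_lit 257) (nat_lit 173)))) (XT.nd (nat_lit 156) (nat_lit 76) (nat_lit 0) (XT.nd (nat_lit 78) (nat_lit 0) (nat_lit 0) (XT.lf (nat_lit 0) (nat_lit 19198041734) (nat_lit 152) (nat_lit 35067113810) (nat_lit 76) (nat_lit 39550449009) (nat_lit 5) (nat_lit 5) (nat_lit 7) (nat_lit 5) (nat_lit 6) (nat_lit 4) (nat_lit 291) (nat_lit 257) (nat_lit 172)) (XT.lf (nat_lit 0) (nat_lit 27317946274) (nat_lit 152) (nat_lit 18185735232) (nat_lit 76) (nat_lit 54770979810) (nat_lit 5) (nat_lit 5) (nat_lit 7) (nat_lit 5) (nat_lit 6) (nat_lit 4) (nat_lit 292) (nat_lit 257) (nat_lit 171))) (XT.nd (nat_lit 78) (nat_lit 0) (nat_lit 0) (XT.lf (nat_lit 0) (nat_lit 44363694) (nat_lit 76) (nat_lit 36041624649) (nat_lit 152) (nat_lit 71164585924) (nat_lit 4) (nat_lit 5) (nat_lit 5) (nat_lit 5) (nat_lit 6) (nat_lit 4) (nat_lit 293) (nat_lit 257) (nat_lit 170)) (XT.lf (nat_lit 0) (nat_lit 20763201722) (nat_lit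 76) (nat_lit 25287073323) (nat_lit 152) (nat_lit 68694715237) (nat_lit 4) (nat_lit 5) (nat_lit 5) (nat_lit 5) (nat_lit 6) (nat_lit 4) (nat_lit 294) (nat_lit 257) (nat_lit 169))))))))
noncomputable def xc83 : XT := (XT.nd (nat_lit 2106) (nat_lit 0) (nat_lit 0) (XT.nd (nat_lit 1014) (nat_lit 152) (nat_lit 0) (XT.nd (nat_lit 468) (nat_lit 0) (nat_lit 0) (XT.nd (nat_lit 234) (nat_lit 76) (nat_lit 0) (XT.nd (nat_lit 78) (nat_lit 0) (nat_lit 0) (XT.lf (nat_lit 0) (nat_lit 43135928561) (nat_lit 76) (nat_lit 13673527084) (nat_lit 152) (nat_lit 66029696941) (nat_lit 4) (nat_lit 5) (nat_lit 5) (nat_lit 5) (nat_lit 6) (nat_lit 4) (nat_lit 295) (nat_lit 257) (nat_lit 168)) (XT.nd (nat_lit 78) (nat_lit 0) (nat_lit 0) (XT.lf (nat_lit 0) (nat_lit 67295123333) (nat_lit 76) (nat_lit 1132164916) (nat_lit 152) (nat_lit 63153738335) (nat_lit 4) (nat_lit 5) (nat_lit 5) (nat_lit 5) (nat_lit 6) (nat_lit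 4) (nat_lit 296) (nat_lit 257) (nat_lit 167)) (XT.lf (nat_lit 0) (nat_lit 81271112116) (nat_lit 152) (nat_lit 47936957181) (nat_lit 0) (nat_lit 11790467251) (nat_lit 4) (nat_lit 5) (nat_lit 6) (nat_lit 4) (nat_lit 4) (nat_lit 4) (nat_lit 297) (nat_lit 257) (nat_lit 166)))) (XT.nd (nat_lit 78) (nat_lit 76) (nat_lit 0) (XT.lf (nat_lit 0) (nat_lit 95170037272) (nat_lit 152) (nat_lit 30312501649) (nat_lit 0) (nat_lit 25684711143) (nat_lit 4) (nat_lit 5) (nat_lit 6) (nat_lit 4) (nat_lit 4) (nat_lit 4) (nat_lit 298) (nat_lit 257) (nat_lit 165)) (XT.nd (nat_lit 78) (nat_lit 76) (nat_lit 0) (XT.lf (nat_lit 0) (nat_lit 110179199125) (nat_lit 152) (nat_lit 11280866844) (nat_lit 0) (nat_lit 40689538492) (nat_lit 4) (nat_lit 5) (nat_lit 6) (nat_lit 4) (nat_lit 4) (nat_lit 4) (nat_lit 299) (nat_lit 257) (nat_lit 164)) (XT.lf (nat_lit 0) (nat_lit 9758907361) (nat_lit 76) (nat_lit 116863335454)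 (nat_lit 76) (nat_lit 47369661391) (nat_lit 3) (nat_lit 4) (nat_lit 4) (nat_lit 5) (nat_lit 4) (nat_lit 4) (nat_lit 300) (nat_lit 257) (nat_lit 163))))) (XT.nd (nat_lit 234) (nat_lit 0) (nat_lit 0) (XT.nd (nat_lit 78) (nat_lit 0) (nat_lit 0) (XT.lf (nat_lit 0) (nat_lit 33120910042) (nat_lit 76) (nat_lit 111566760543) (nat_lit 76) (nat_lit 42069370342) (nat_lit 3) (nat_lit 4) (nat_lit 4) (nat_lit 5) (nat_lit 4) (nat_lit 4) (nat_lit 301) (nat_lit 257) (nat_lit 162)) (XT.nd (nat_lit 78) (nat_lit 0) (nat_lit 0) (XT.lf (nat_lit 0) (nat_lit 58349552241) (nat_lit 76) (nat_lit 105847393018) (nat_lit 76) (nat_lit 36346561948) (nat_lit 3) (nat_lit 4) (nat_lit 4) (nat_lit 5) (nat_lit 4) (nat_lit 4) (nat_lit 302) (nat_lit 257) (nat_lit 161)) (XT.lf (nat_lit 0) (nat_lit 85594337021) (nat_lit 76) (nat_lit 99671340330) (nat_lit 76) (nat_lit 30167323270) (nat_lit 3) (nat_lit 4) (nat_lit 4) (nat_lit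 5) (nat_lit 4) (nat_lit 4) (nat_lit 303) (nat_lit 257) (nat_lit 160)))) (XT.nd (nat_lit 156) (nat_lit 0) (nat_lit 0) (XT.nd (nat_lit 78) (nat_lit 0) (nat_lit 0) (XT.lf (nat_lit 0) (nat_lit 115016714959) (nat_lit 76) (nat_lit 93002003649) (nat_lit 76) (nat_lit 23495036598) (nat_lit 3) (nat_lit 4) (nat_lit 4) (nat_lit 5) (nat_lit 4) (nat_lit 4) (nat_lit 304) (nat_lit 257) (nat_lit 159)) (XT.lf (nat_lit 0) (nat_lit 146791040888) (nat_lit 76) (nat_lit 85799860979) (nat_lit 76) (nat_lit 16290162455) (nat_lit 3) (nat_lit 4) (nat_lit 4) (nat_lit 5) (nat_lit 4) (nat_lit 4) (nat_lit 305) (nat_lit 257) (nat_lit 158))) (XT.nd (nat_lit 78) (nat_lit 0) (nat_lit 0) (XT.lf (nat_lit 0) (nat_lit 181105607108) (nat_lit 76) (nat_lit 78022232956) (nat_lit 76) (nat_lit 8510005291) (nat_lit 3) (nat_lit 4) (nat_lit 4) (nat_lit 5) (nat_lit 4) (nat_lit 4) (nat_lit 306) (nat_lit 257) (nat_lit 157)) (XT.lf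 (nat_lit 0) (nat_lit 218163759199) (nat_lit 76) (nat_lit 69623029933) (nat_lit 76) (nat_lit 108460471) (nat_lit 3) (nat_lit 4) (nat_lit 4) (nat_lit 5) (nat_lit 4) (nat_lit 4) (nat_lit 307) (nat_lit 257) (nat_lit 156)))))) (XT.nd (nat_lit 546) (nat_lit 0) (nat_lit 0) (XT.nd (nat_lit 234) (nat_lit 76) (nat_lit 0) (XT.nd (nat_lit 78) (nat_lit 0) (nat_lit 0) (XT.lf (nat_lit 0) (nat_lit 8515830400) (nat_lit 152) (nat_lit 51803810560) (nat_lit 76) (nat_lit 249436432728) (nat_lit 2) (nat_lit 5) (nat_lit 4) (nat_lit 5) (nat_lit 3) (nat_lit 4) (nat_lit 308) (nat_lit 257) (nat_lit 155)) (XT.nd (nat_lit 78) (nat_lit 0) (nat_lit 0) (XT.lf (nat_lit 0) (nat_lit 17823370114) (nat_lit 152) (nat_lit 32446135670) (nat_lit 76) (nat_lit 283096103450) (nat_lit 2) (nat_lit 5) (nat_lit 4) (nat_lit 5) (nat_lit 3) (nat_lit 4) (nat_lit 309) (nat_lit 257) (nat_lit 154)) (XT.lf (nat_lit 0) (nat_lit 27874740093)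 (nat_lit 152) (nat_lit 11541145108) (nat_lit 76) (nat_lit 319448088073) (nat_lit 2) (nat_lit 5) (nat_lit 4) (nat_lit 5) (nat_lit 3) (nat_lit 4) (nat_lit 310) (nat_lit 257) (nat_lit 153)))) (XT.nd (nat_lit 156) (nat_lit 0) (nat_lit 0) (XT.nd (nat_lit 78) (nat_lit 0) (nat_lit 0) (XT.lf (nat_lit 0) (nat_lit 11616128335) (nat_lit 76) (nat_lit 27392743841) (nat_lit 152) (nat_lit 347371045596) (nat_lit 1) (nat_lit 5) (nat_lit 2) (nat_lit 5) (nat_lit 3) (nat_lit 4) (nat_lit 311) (nat_lit 257) (nat_lit 152)) (XT.lf (nat_lit 0) (nat_lit 37281167089) (nat_lit 76) (nat_lit 14067432271) (nat_lit 152) (nat_lit 364723352583) (nat_lit 1) (nat_lit 5) (nat_lit 2) (nat_lit 5) (nat_lit 3) (nat_lit 4) (nat_lit 312) (nat_lit 257) (nat_lit 151))) (XT.nd (nat_lit 78) (nat_lit 0) (nat_lit 0) (XT.lf (nat_lit 0) (nat_lit 64682644260) (nat_lit 152) (nat_lit 383148858224) (nat_lit 0) (nat_lit 307278231) (nat_lit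 1) (nat_lit 5) (nat_lit 3) (nat_lit 4) (nat_lit 1) (nat_lit 4) (nat_lit 313) (nat_lit 257) (nat_lit 150)) (XT.lf (nat_lit 0) (nat_lit 79448198415) (nat_lit 152) (nat_lit 388222010143) (nat_lit 0) (nat_lit 15071567185) (nat_lit 1) (nat_lit 5) (nat_lit 3) (nat_lit 4) (nat_lit 1) (nat_lit 4) (nat_lit 314) (nat_lit 257) (nat_lit 149))))) (XT.nd (nat_lit 234) (nat_lit 0) (nat_lit 0) (XT.nd (nat_lit 78) (nat_lit 0) (nat_lit 0) (XT.lf (nat_lit 0) (nat_lit 95394439320) (nat_lit 152) (nat_lit 393701981651) (nat_lit 0) (nat_lit 31016636609) (nat_lit 1) (nat_lit 5) (nat_lit 3) (nat_lit 4) (nat_lit 1) (nat_lit 4) (nat_lit 315) (nat_lit 257) (nat_lit 148)) (XT.nd (nat_lit 78) (nat_lit 0) (nat_lit 0) (XT.lf (nat_lit 0) (nat_lit 112615863218) (nat_lit 152) (nat_lit 399621246653) (nat_lit 0) (nat_lit 48236975801) (nat_lit 1) (nat_lit 5) (nat_lit 3) (nat_lit 4) (nat_lit 1) (nat_lit 4) (nat_lit 316)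 (nat_lit 257) (nat_lit 147)) (XT.lf (nat_lit 0) (nat_lit 131214522991) (nat_lit 152) (nat_lit 406014882273) (nat_lit 0) (nat_lit 66834631218) (nat_lit 1) (nat_lit 5) (nat_lit 3) (nat_lit 4) (nat_lit 1) (nat_lit 4) (nat_lit 317) (nat_lit 257) (nat_lit 146)))) (XT.nd (nat_lit 156) (nat_lit 0) (nat_lit 0) (XT.nd (nat_lit 78) (nat_lit 0) (nat_lit 0) (XT.lf (nat_lit 0) (nat_lit 151300632920) (nat_lit 152) (nat_lit 412920776724) (nat_lit 0) (nat_lit 86919811186) (nat_lit 1) (nat_lit 5) (nat_lit 3) (nat_lit 4) (nat_lit 1) (nat_lit 4) (nat_lit 318) (nat_lit 257) (nat_lit 145)) (XT.lf (nat_lit 0) (nat_lit 172993221804) (nat_lit 152) (nat_lit 420379853825) (nat_lit 0) (nat_lit 108611538996) (nat_lit 1) (nat_lit 5) (nat_lit 3) (nat_lit 4) (nat_lit 1) (nat_lit 4) (nat_lit 319) (nat_lit 257) (nat_lit 144))) (XT.nd (nat_lit 78) (nat_lit 0) (nat_lit 0) (XT.lf (nat_lit 0) (nat_lit 196420838318) (nat_lit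 152) (nat_lit 428436315513) (nat_lit 0) (nat_lit 132038358219) (nat_lit 1) (nat_lit 5) (nat_lit 3) (nat_lit 4) (nat_lit 1) (nat_lit 4) (nat_lit 320) (nat_lit 257) (nat_lit 143)) (XT.lf (nat_lit 0) (nat_lit 221722312782) (nat_lit 152) (nat_lit 437137903784) (nat_lit 0) (nat_lit 157339094451) (nat_lit 1) (nat_lit 5) (nat_lit 3) (nat_lit 4) (nat_lit 1) (nat_lit 4) (nat_lit 321) (nat_lit 257) (nat_lit 142))))))) (XT.nd (nat_lit 1014) (nat_lit 0) (nat_lit 0) (XT.nd (nat_lit 468) (nat_lit 0) (nat_lit 0) (XT.nd (nat_lit 234) (nat_lit 0) (nat_lit 0) (XT.nd (nat_lit 78) (nat_lit 0) (nat_lit 0) (XT.lf (nat_lit 0) (nat_lit 249047579859) (nat_lit 152) (nat_lit 446536183605) (nat_lit 0) (nat_lit 184663677980) (nat_lit 1) (nat_lit 5) (nat_lit 3) (nat_lit 4) (nat_lit 1) (nat_lit 4) (nat_lit 322) (nat_lit 257) (nat_lit 141)) (XT.nd (nat_lit 78) (nat_lit 0) (nat_lit 0) (XT.lf (nat_lit 0) (nat_lit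 278558567059) (nat_lit 152) (nat_lit 456686848487) (nat_lit 0) (nat_lit 214174032265) (nat_lit 1) (nat_lit 5) (nat_lit 3) (nat_lit 4) (nat_lit 1) (nat_lit 4) (nat_lit 323) (nat_lit 257) (nat_lit 140)) (XT.lf (nat_lit 0) (nat_lit 310430154305) (nat_lit 152) (nat_lit 467650050518) (nat_lit 0) (nat_lit 246045033478) (nat_lit 1) (nat_lit 5) (nat_lit 3) (nat_lit 4) (nat_lit 1) (nat_lit 4) (nat_lit 324) (nat_lit 257) (nat_lit 139)))) (XT.nd (nat_lit 78) (nat_lit 0) (nat_lit 0) (XT.lf (nat_lit 0) (nat_lit 344851210262) (nat_lit 152) (nat_lit 479490756821) (nat_lit 0) (nat_lit 280465546813) (nat_lit 1) (nat_lit 5) (nat_lit 3) (nat_lit 4) (nat_lit 1) (nat_lit 4) (nat_lit 325) (nat_lit 257) (nat_lit 138)) (XT.nd (nat_lit 78) (nat_lit 0) (nat_lit 0) (XT.lf (nat_lit 0) (nat_lit 382025711559) (nat_lit 152) (nat_lit 492279134543) (nat_lit 0) (nat_lit 317639545681) (nat_lit 1) (nat_lit 5) (nat_lit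 3) (nat_lit 4) (nat_lit 1) (nat_lit 4) (nat_lit 326) (nat_lit 257) (nat_lit 137)) (XT.lf (nat_lit 0) (nat_lit 422173951536) (nat_lit 152) (nat_lit 506090966666) (nat_lit 0) (nat_lit 357787320446) (nat_lit 1) (nat_lit 5) (nat_lit 3) (nat_lit 4) (nat_lit 1) (nat_lit 4) (nat_lit 327) (nat_lit 257) (nat_lit 136))))) (XT.nd (nat_lit 234) (nat_lit 0) (nat_lit 0) (XT.nd (nat_lit 78) (nat_lit 0) (nat_lit 0) (XT.lf (nat_lit 0) (nat_lit 465533845690) (nat_lit 152) (nat_lit 521008101081) (nat_lit 0) (nat_lit 401146783848) (nat_lit 1) (nat_lit 5) (nat_lit 3) (nat_lit 4) (nat_lit 1) (nat_lit 4) (nat_lit 328) (nat_lit 257) (nat_lit 135)) (XT.nd (nat_lit 78) (nat_lit 0) (nat_lit 0) (XT.lf (nat_lit 0) (nat_lit 512362341541) (nat_lit 152) (nat_lit 537118935624) (nat_lit 0) (nat_lit 447974880856) (nat_lit 1) (nat_lit 5) (nat_lit 3) (nat_lit 4) (nat_lit 1) (nat_lit 4) (nat_lit 329) (nat_lit 257) (nat_lit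 134)) (XT.lf (nat_lit 0) (nat_lit 562936941287) (nat_lit 152) (nat_lit 554518941906) (nat_lit 0) (nat_lit 498549111302) (nat_lit 1) (nat_lit 5) (nat_lit 3) (nat_lit 4) (nat_lit 1) (nat_lit 4) (nat_lit 330) (nat_lit 257) (nat_lit 133)))) (XT.nd (nat_lit 156) (nat_lit 0) (nat_lit 0) (XT.nd (nat_lit 78) (nat_lit 0) (nat_lit 0) (XT.lf (nat_lit 0) (nat_lit 617557346260) (nat_lit 152) (nat_lit 573311231076) (nat_lit 0) (nat_lit 553169174330) (nat_lit 1) (nat_lit 5) (nat_lit 3) (nat_lit 4) (nat_lit 1) (nat_lit 4) (nat_lit 331) (nat_lit 257) (nat_lit 132)) (XT.lf (nat_lit 0) (nat_lit 676547232933) (nat_lit 152) (nat_lit 593607164846) (nat_lit 0) (nat_lit 612158744389) (nat_lit 1) (nat_lit 5) (nat_lit 3) (nat_lit 4) (nat_lit 1) (nat_lit 4) (nat_lit 332) (nat_lit 257) (nat_lit 131))) (XT.nd (nat_lit 78) (nat_lit 0) (nat_lit 0) (XT.lf (nat_lit 0) (nat_lit 740256171007) (nat_lit 152) (nat_lit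 615527015418) (nat_lit 0) (nat_lit 675867389300) (nat_lit 1) (nat_lit 5) (nat_lit 3) (nat_lit 4) (nat_lit 1) (nat_lit 4) (nat_lit 333) (nat_lit 257) (nat_lit 130)) (XT.lf (nat_lit 0) (nat_lit 809061694927) (nat_lit 152) (nat_lit 639200678201) (nat_lit 0) (nat_lit 744672641774) (nat_lit 1) (nat_lit 5) (nat_lit 3) (nat_lit 4) (nat_lit 1) (nat_lit 4) (nat_lit 334) (nat_lit 257) (nat_lit 129)))))) (XT.nd (nat_lit 31512) (nat_lit 0) (nat_lit 1976) (XT.nd (nat_lit 234) (nat_lit 0) (nat_lit 0) (XT.nd (nat_lit 78) (nat_lit 0) (nat_lit 0) (XT.lf (nat_lit 0) (nat_lit 883371541134) (nat_lit 152) (nat_lit 664768441569) (nat_lit 0) (nat_lit 818982236641) (nat_lit 1) (nat_lit 5) (nat_lit 3) (nat_lit 4) (nat_lit 1) (nat_lit 4) (nat_lit 335) (nat_lit 257) (nat_lit 128)) (XT.nd (nat_lit 78) (nat_lit 0) (nat_lit 0) (XT.lf (nat_lit 0) (nat_lit 963626064270) (nat_lit 152) (nat_lit 692381818193) (nat_lit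 0) (nat_lit 899236527056) (nat_lit 1) (nat_lit 5) (nat_lit 3) (nat_lit 4) (nat_lit 1) (nat_lit 4) (nat_lit 336) (nat_lit 257) (nat_lit 127)) (XT.lf (nat_lit 0) (nat_lit 1050300846695) (nat_lit 152) (nat_lit 722204442897) (nat_lit 0) (nat_lit 985911093998) (nat_lit 1) (nat_lit 5) (nat_lit 3) (nat_lit 4) (nat_lit 1) (nat_lit 4) (nat_lit 337) (nat_lit 257) (nat_lit 126)))) (XT.nd (nat_lit 156) (nat_lit 0) (nat_lit 0) (XT.nd (nat_lit 78) (nat_lit 0) (nat_lit 0) (XT.lf (nat_lit 0) (nat_lit 1143909516749) (nat_lit 152) (nat_lit 754413042346) (nat_lit 0) (nat_lit 1079519564531) (nat_lit 1) (nat_lit 5) (nat_lit 3) (nat_lit 4) (nat_lit 1) (nat_lit 4) (nat_lit 338) (nat_lit 257) (nat_lit 125)) (XT.lf (nat_lit 0) (nat_lit 1245006792478) (nat_lit 152) (nat_lit 789198482314) (nat_lit 0) (nat_lit 1180616655517) (nat_lit 1) (nat_lit 5) (nat_lit 3) (nat_lit 4) (nat_lit 1) (nat_lit 4) (nat_lit 339)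 (nat_lit 257) (nat_lit 124))) (XT.nd (nat_lit 78) (nat_lit 0) (nat_lit 0) (XT.lf (nat_lit 0) (nat_lit 1354191768847) (nat_lit 152) (nat_lit 826766898744) (nat_lit 0) (nat_lit 1289801460830) (nat_lit 1) (nat_lit 5) (nat_lit 3) (nat_lit 4) (nat_lit 1) (nat_lit 4) (nat_lit 340) (nat_lit 257) (nat_lit 123)) (XT.lf (nat_lit 0) (nat_lit 1472111467941) (nat_lit 152) (nat_lit 867340919286) (nat_lit 0) (nat_lit 1407721001537) (nat_lit 1) (nat_lit 5) (nat_lit 3) (nat_lit 4) (nat_lit 1) (nat_lit 4) (nat_lit 341) (nat_lit 257) (nat_lit 122))))) (XT.nd (nat_lit 234) (nat_lit 0) (nat_lit 0) (XT.nd (nat_lit 78) (nat_lit 0) (nat_lit 0) (XT.lf (nat_lit 0) (nat_lit 3089716537) (nat_lit 0) (nat_lit 3089716537) (nat_lit 380) (nat_lit 2166702736) (nat_lit 27) (nat_lit 5) (nat_lit 27) (nat_lit 3) (nat_lit 32) (nat_lit 3) (nat_lit 258) (nat_lit 258) (nat_lit 204)) (XT.nd (nat_lit 78) (nat_lit 0) (nat_lit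 0) (XT.lf (nat_lit 0) (nat_lit 13010045599) (nat_lit 0) (nat_lit 37954890) (nat_lit 380) (nat_lit 4294124364) (nat_lit 27) (nat_lit 5) (nat_lit 27) (nat_lit 3) (nat_lit 32) (nat_lit 3) (nat_lit 259) (nat_lit 258) (nat_lit 203)) (XT.lf (nat_lit 76) (nat_lit 2287186384) (nat_lit 0) (nat_lit 11699439173) (nat_lit 456) (nat_lit 4042017620) (nat_lit 28) (nat_lit 5) (nat_lit 27) (nat_lit 5) (nat_lit 33) (nat_lit 5) (nat_lit 260) (nat_lit 258) (nat_lit 202)))) (XT.nd (nat_lit 156) (nat_lit 0) (nat_lit 76) (XT.nd (nat_lit 78) (nat_lit 0) (nat_lit 76) (XT.lf (nat_lit 76) (nat_lit 9669859868) (nat_lit 0) (nat_lit 5431785786) (nat_lit 456) (nat_lit 3660541831) (nat_lit 28) (nat_lit 5) (nat_lit 27) (nat_lit 5) (nat_lit 33) (nat_lit 5) (nat_lit 261) (nat_lit 258) (nat_lit 201)) (XT.lf (nat_lit 0) (nat_lit 16321415134) (nat_lit 380) (nat_lit 1955727502) (nat_lit 456) (nat_lit 1276222326) (nat_lit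 28) (nat_lit 5) (nat_lit 33) (nat_lit 5) (nat_lit 34) (nat_lit 5) (nat_lit 262) (nat_lit 258) (nat_lit 200))) (XT.nd (nat_lit 78) (nat_lit 0) (nat_lit 0) (XT.lf (nat_lit 76) (nat_lit 5894179155) (nat_lit 0) (nat_lit 12012044327) (nat_lit 456) (nat_lit 2480395686) (nat_lit 29) (nat_lit 5) (nat_lit 28) (nat_lit 5) (nat_lit 34) (nat_lit 5) (nat_lit 263) (nat_lit 258) (nat_lit 199)) (XT.lf (nat_lit 76) (nat_lit 14472203742) (nat_lit 0) (nat_lit 5184575203) (nat_lit 456) (nat_lit 1626803618) (nat_lit 29) (nat_lit 5) (nat_lit 28) (nat_lit 5) (nat_lit 34) (nat_lit 5) (nat_lit 264) (nat_lit 258) (nat_lit 198))))))))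
noncomputable def xc84 : XT := (XT.nd (nat_lit 2028) (nat_lit 304) (nat_lit 0) (XT.nd (nat_lit 1014) (nat_lit 608) (nat_lit 0) (XT.nd (nat_lit 468) (nat_lit 532) (nat_lit 0) (XT.nd (nat_lit 234) (nat_lit 228) (nat_lit 0) (XT.nd (nat_lit 78) (nat_lit 76) (nat_lit 0) (XT.lf (nat_lit 0) (nat_lit 1494710171) (nat_lit 380) (nat_lit 20127904423) (nat_lit 456) (nat_lit 623823139) (nat_lit 24) (nat_lit 5) (nat_lit 29) (nat_lit 5) (nat_lit 30) (nat_lit 5) (nat_lit 265) (nat_lit 258) (nat_lit 197)) (XT.nd (nat_lit 78) (nat_lit 0) (nat_lit 0) (XT.lf (nat_lit 0) (nat_lit 749046623) (nat_lit 456) (nat_lit 12581426525) (nat_lit 76) (nat_lit 9930085409) (nat_lit 23) (nat_lit 5) (nat_lit 29) (nat_lit 5) (nat_lit 24) (nat_lit 5) (nat_lit 266) (nat_lit 258) (nat_lit 196)) (XT.lf (nat_lit 0) (nat_lit 2185909006) (nat_lit 456) (nat_lit 3784917017) (nat_lit 76) (nat_lit 18384779418) (nat_lit 23) (nat_lit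 5) (nat_lit 29) (nat_lit 5) (nat_lit 24) (nat_lit 5) (nat_lit 267) (nat_lit 258) (nat_lit 195)))) (XT.nd (nat_lit 78) (nat_lit 0) (nat_lit 0) (XT.lf (nat_lit 0) (nat_lit 3922246629) (nat_lit 304) (nat_lit 19573703613) (nat_lit 76) (nat_lit 2027656607) (nat_lit 20) (nat_lit 5) (nat_lit 24) (nat_lit 5) (nat_lit 21) (nat_lit 5) (nat_lit 268) (nat_lit 258) (nat_lit 194)) (XT.nd (nat_lit 78) (nat_lit 0) (nat_lit 0) (XT.lf (nat_lit 0) (nat_lit 6048118059) (nat_lit 304) (nat_lit 10266871072) (nat_lit 76) (nat_lit 10450113607) (nat_lit 20) (nat_lit 5) (nat_lit 24) (nat_lit 5) (nat_lit 21) (nat_lit 5) (nat_lit 269) (nat_lit 258) (nat_lit 193)) (XT.lf (nat_lit 0) (nat_lit 8334213008) (nat_lit 304) (nat_lit 225758557) (nat_lit 76) (nat_lit 19546831199) (nat_lit 20) (nat_lit 5) (nat_lit 24) (nat_lit 5) (nat_lit 21) (nat_lit 5) (nat_lit 270) (nat_lit 258) (nat_lit 192))))) (XT.nd (nat_lit 234)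 (nat_lit 152) (nat_lit 0) (XT.nd (nat_lit 78) (nat_lit 152) (nat_lit 0) (XT.lf (nat_lit 0) (nat_lit 11065192846) (nat_lit 304) (nat_lit 18369904116) (nat_lit 76) (nat_lit 99871650) (nat_lit 17) (nat_lit 5) (nat_lit 21) (nat_lit 5) (nat_lit 18) (nat_lit 5) (nat_lit 271) (nat_lit 258) (nat_lit 191)) (XT.nd (nat_lit 78) (nat_lit 152) (nat_lit 0) (XT.lf (nat_lit 0) (nat_lit 14234642146) (nat_lit 304) (nat_lit 7829425817) (nat_lit 76) (nat_lit 8995803444) (nat_lit 17) (nat_lit 5) (nat_lit 21) (nat_lit 5) (nat_lit 18) (nat_lit 5) (nat_lit 272) (nat_lit 258) (nat_lit 190)) (XT.lf (nat_lit 0) (nat_lit 3731680115) (nat_lit 152) (nat_lit 14007678331) (nat_lit 228) (nat_lit 14960947916) (nat_lit 15) (nat_lit 5) (nat_lit 17) (nat_lit 5) (nat_lit 18) (nat_lit 5) (nat_lit 273) (nat_lit 258) (nat_lit 189)))) (XT.nd (nat_lit 156) (nat_lit 152) (nat_lit 0) (XT.nd (nat_lit 78) (nat_lit 0) (nat_lit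 0) (XT.lf (nat_lit 0) (nat_lit 16653891572) (nat_lit 152) (nat_lit 5076972532) (nat_lit 228) (nat_lit 12724670173) (nat_lit 15) (nat_lit 5) (nat_lit 17) (nat_lit 5) (nat_lit 18) (nat_lit 5) (nat_lit 274) (nat_lit 258) (nat_lit 188)) (XT.lf (nat_lit 0) (nat_lit 26144433272) (nat_lit 228) (nat_lit 5860146735) (nat_lit 76) (nat_lit 4338446834) (nat_lit 15) (nat_lit 5) (nat_lit 18) (nat_lit 5) (nat_lit 16) (nat_lit 5) (nat_lit 275) (nat_lit 258) (nat_lit 187))) (XT.nd (nat_lit 78) (nat_lit 0) (nat_lit 0) (XT.lf (nat_lit 0) (nat_lit 7259640190) (nat_lit 152) (nat_lit 23951317262) (nat_lit 228) (nat_lit 7146632782) (nat_lit 13) (nat_lit 5) (nat_lit 15) (nat_lit 5) (nat_lit 16) (nat_lit 5) (nat_lit 276) (nat_lit 258) (nat_lit 186)) (XT.lf (nat_lit 0) (nat_lit 21754176429) (nat_lit 152) (nat_lit 15082553020) (nat_lit 228) (nat_lit 3684331644) (nat_lit 13) (nat_lit 5) (nat_lit 15) (nat_lit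 5) (nat_lit 16) (nat_lit 5) (nat_lit 277) (nat_lit 258) (nat_lit 185)))))) (XT.nd (nat_lit 468) (nat_lit 228) (nat_lit 0) (XT.nd (nat_lit 234) (nat_lit 152) (nat_lit 0) (XT.nd (nat_lit 78) (nat_lit 152) (nat_lit 0) (XT.lf (nat_lit 0) (nat_lit 46169198) (nat_lit 228) (nat_lit 5458526893) (nat_lit 76) (nat_lit 37353339039) (nat_lit 12) (nat_lit 5) (nat_lit 15) (nat_lit 5) (nat_lit 13) (nat_lit 5) (nat_lit 278) (nat_lit 258) (nat_lit 184)) (XT.nd (nat_lit 78) (nat_lit 0) (nat_lit 0) (XT.lf (nat_lit 0) (nat_lit 4218174874) (nat_lit 228) (nat_lit 36206070338) (nat_lit 76) (nat_lit 4922741797) (nat_lit 10) (nat_lit 5) (nat_lit 13) (nat_lit 5) (nat_lit 11) (nat_lit 5) (nat_lit 279) (nat_lit 258) (nat_lit 183)) (XT.lf (nat_lit 0) (nat_lit 9014654934) (nat_lit 228) (nat_lit 22958754497) (nat_lit 76) (nat_lit 16038429999) (nat_lit 10) (nat_lit 5) (nat_lit 13) (nat_lit 5) (nat_lit 11) (nat_lit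 5) (nat_lit 280) (nat_lit 258) (nat_lit 182)))) (XT.nd (nat_lit 78) (nat_lit 152) (nat_lit 0) (XT.lf (nat_lit 0) (nat_lit 14189864970) (nat_lit 228) (nat_lit 8658626046) (nat_lit 76) (nat_lit 28041826529) (nat_lit 10) (nat_lit 5) (nat_lit 13) (nat_lit 5) (nat_lit 11) (nat_lit 5) (nat_lit 281) (nat_lit 258) (nat_lit 181)) (XT.nd (nat_lit 78) (nat_lit 0) (nat_lit 0) (XT.lf (nat_lit 0) (nat_lit 7136029617) (nat_lit 152) (nat_lit 12810064961) (nat_lit 228) (nat_lit 34039654694) (nat_lit 8) (nat_lit 5) (nat_lit 10) (nat_lit 5) (nat_lit 11) (nat_lit 5) (nat_lit 282) (nat_lit 258) (nat_lit 180)) (XT.lf (nat_lit 0) (nat_lit 24680388751) (nat_lit 152) (nat_lit 1714747871) (nat_lit 228) (nat_lit 30915126735) (nat_lit 8) (nat_lit 5) (nat_lit 10) (nat_lit 5) (nat_lit 11) (nat_lit 5) (nat_lit 283) (nat_lit 258) (nat_lit 179))))) (XT.nd (nat_lit 234) (nat_lit 152) (nat_lit 0) (XT.nd (nat_lit 78)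 (nat_lit 76) (nat_lit 0) (XT.lf (nat_lit 0) (nat_lit 33602910730) (nat_lit 228) (nat_lit 17525535863) (nat_lit 76) (nat_lit 9752897786) (nat_lit 8) (nat_lit 5) (nat_lit 11) (nat_lit 5) (nat_lit 9) (nat_lit 4) (nat_lit 284) (nat_lit 258) (nat_lit 178)) (XT.nd (nat_lit 78) (nat_lit 76) (nat_lit 0) (XT.lf (nat_lit 0) (nat_lit 41428010833) (nat_lit 228) (nat_lit 1263077429) (nat_lit 76) (nat_lit 22043795543) (nat_lit 8) (nat_lit 5) (nat_lit 11) (nat_lit 5) (nat_lit 9) (nat_lit 4) (nat_lit 285) (nat_lit 258) (nat_lit 177)) (XT.lf (nat_lit 0) (nat_lit 17153182191) (nat_lit 76) (nat_lit 33134920420) (nat_lit 152) (nat_lit 18575911235) (nat_lit 7) (nat_lit 5) (nat_lit 8) (nat_lit 5) (nat_lit 9) (nat_lit 4) (nat_lit 286) (nat_lit 258) (nat_lit 176)))) (XT.nd (nat_lit 156) (nat_lit 152) (nat_lit 0) (XT.nd (nat_lit 78) (nat_lit 0) (nat_lit 0) (XT.lf (nat_lit 0) (nat_lit 37109441126) (nat_lit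 76) (nat_lit 22778684155) (nat_lit 152) (nat_lit 13432883341) (nat_lit 7) (nat_lit 5) (nat_lit 8) (nat_lit 5) (nat_lit 9) (nat_lit 4) (nat_lit 287) (nat_lit 258) (nat_lit 175)) (XT.lf (nat_lit 0) (nat_lit 58657447269) (nat_lit 76) (nat_lit 11595543955) (nat_lit 152) (nat_lit 7881846862) (nat_lit 7) (nat_lit 5) (nat_lit 8) (nat_lit 5) (nat_lit 9) (nat_lit 4) (nat_lit 288) (nat_lit 258) (nat_lit 174))) (XT.nd (nat_lit 78) (nat_lit 152) (nat_lit 0) (XT.lf (nat_lit 0) (nat_lit 81455684414) (nat_lit 152) (nat_lit 1420698673) (nat_lit 0) (nat_lit 456720546) (nat_lit 7) (nat_lit 5) (nat_lit 9) (nat_lit 4) (nat_lit 7) (nat_lit 4) (nat_lit 289) (nat_lit 258) (nat_lit 173)) (XT.lf (nat_lit 0) (nat_lit 5144749376) (nat_lit 152) (nat_lit 70306549859) (nat_lit 76) (nat_lit 13425655159) (nat_lit 5) (nat_lit 5) (nat_lit 7) (nat_lit 5) (nat_lit 6) (nat_lit 4) (nat_lit 290) (nat_lit 258) (nat_lit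 172))))))) (XT.nd (nat_lit 1014) (nat_lit 152) (nat_lit 0) (XT.nd (nat_lit 468) (nat_lit 76) (nat_lit 0) (XT.nd (nat_lit 234) (nat_lit 76) (nat_lit 0) (XT.nd (nat_lit 78) (nat_lit 0) (nat_lit 0) (XT.lf (nat_lit 0) (nat_lit 12664391899) (nat_lit 152) (nat_lit 54673716274) (nat_lit 76) (nat_lit 27519350006) (nat_lit 5) (nat_lit 5) (nat_lit 7) (nat_lit 5) (nat_lit 6) (nat_lit 4) (nat_lit 291) (nat_lit 258) (nat_lit 171)) (XT.nd (nat_lit 78) (nat_lit 0) (nat_lit 0) (XT.lf (nat_lit 0) (nat_lit 20783084044) (nat_lit 152) (nat_lit 37794265190) (nat_lit 76) (nat_lit 42739270035) (nat_lit 5) (nat_lit 5) (nat_lit 7) (nat_lit 5) (nat_lit 6) (nat_lit 4) (nat_lit 292) (nat_lit 258) (nat_lit 170)) (XT.lf (nat_lit 0) (nat_lit 29548936579) (nat_lit 152) (nat_lit 19568170232) (nat_lit 76) (nat_lit 59175607367) (nat_lit 5) (nat_lit 5) (nat_lit 7) (nat_lit 5) (nat_lit 6) (nat_lit 4) (nat_lit 293) (nat_lit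 258) (nat_lit 169)))) (XT.nd (nat_lit 78) (nat_lit 0) (nat_lit 0) (XT.lf (nat_lit 0) (nat_lit 118503095) (nat_lit 76) (nat_lit 38898242203) (nat_lit 152) (nat_lit 76810109424) (nat_lit 4) (nat_lit 5) (nat_lit 5) (nat_lit 5) (nat_lit 6) (nat_lit 4) (nat_lit 294) (nat_lit 258) (nat_lit 168)) (XT.nd (nat_lit 78) (nat_lit 0) (nat_lit 0) (XT.lf (nat_lit 0) (nat_lit 22489619254) (nat_lit 76) (nat_lit 27285305469) (nat_lit 152) (nat_lit 74146178222) (nat_lit 4) (nat_lit 5) (nat_lit 5) (nat_lit 5) (nat_lit 6) (nat_lit 4) (nat_lit 295) (nat_lit 258) (nat_lit 167)) (XT.lf (nat_lit 0) (nat_lit 46647322655) (nat_lit 76) (nat_lit 14744507658) (nat_lit 152) (nat_lit 71271226183) (nat_lit 4) (nat_lit 5) (nat_lit 5) (nat_lit 5) (nat_lit 6) (nat_lit 4) (nat_lit 296) (nat_lit 258) (nat_lit 166))))) (XT.nd (nat_lit 234) (nat_lit 76) (nat_lit 0) (XT.nd (nat_lit 78) (nat_lit 0) (nat_lit 0) (XT.lf (nat_lit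 0) (nat_lit 72734770059) (nat_lit 76) (nat_lit 1201532931) (nat_lit 152) (nat_lit 68168216557) (nat_lit 4) (nat_lit 5) (nat_lit 5) (nat_lit 5) (nat_lit 6) (nat_lit 4) (nat_lit 297) (nat_lit 258) (nat_lit 165)) (XT.nd (nat_lit 78) (nat_lit 0) (nat_lit 0) (XT.lf (nat_lit 0) (nat_lit 87805524850) (nat_lit 152) (nat_lit 51717732238) (nat_lit 0) (nat_lit 12752356862) (nat_lit 4) (nat_lit 5) (nat_lit 6) (nat_lit 4) (nat_lit 4) (nat_lit 4) (nat_lit 298) (nat_lit 258) (nat_lit 164)) (XT.lf (nat_lit 0) (nat_lit 102813940036) (nat_lit 152) (nat_lit 32687333709) (nat_lit 0) (nat_lit 27756758619) (nat_lit 4) (nat_lit 5) (nat_lit 6) (nat_lit 4) (nat_lit 4) (nat_lit 4) (nat_lit 299) (nat_lit 258) (nat_lit 163)))) (XT.nd (nat_lit 156) (nat_lit 0) (nat_lit 0) (XT.nd (nat_lit 78) (nat_lit 76) (nat_lit 0) (XT.lf (nat_lit 0) (nat_lit 119021590410) (nat_lit 152) (nat_lit 12136884273) (nat_lit 0) (nat_lit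 43960692854) (nat_lit 4) (nat_lit 5) (nat_lit 6) (nat_lit 4) (nat_lit 4) (nat_lit 4) (nat_lit 300) (nat_lit 258) (nat_lit 162)) (XT.lf (nat_lit 0) (nat_lit 10584895870) (nat_lit 76) (nat_lit 126194192436) (nat_lit 76) (nat_lit 51129854011) (nat_lit 3) (nat_lit 4) (nat_lit 4) (nat_lit 5) (nat_lit 4) (nat_lit 4) (nat_lit 301) (nat_lit 258) (nat_lit 161))) (XT.nd (nat_lit 78) (nat_lit 0) (nat_lit 0) (XT.lf (nat_lit 0) (nat_lit 35812504995) (nat_lit 76) (nat_lit 120475240411) (nat_lit 76) (nat_lit 45407715996) (nat_lit 3) (nat_lit 4) (nat_lit 4) (nat_lit 5) (nat_lit 4) (nat_lit 4) (nat_lit 302) (nat_lit 258) (nat_lit 160)) (XT.lf (nat_lit 0) (nat_lit 63056333225) (nat_lit 76) (nat_lit 114299572445) (nat_lit 76) (nat_lit 39229098039) (nat_lit 3) (nat_lit 4) (nat_lit 4) (nat_lit 5) (nat_lit 4) (nat_lit 4) (nat_lit 303) (nat_lit 258) (nat_lit 159)))))) (XT.nd (nat_lit 546) (nat_lit 76) (nat_lit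 0) (XT.nd (nat_lit 234) (nat_lit 76) (nat_lit 0) (XT.nd (nat_lit 78) (nat_lit 0) (nat_lit 0) (XT.lf (nat_lit 0) (nat_lit 92477825468) (nat_lit 76) (nat_lit 107630591987) (nat_lit 76) (nat_lit 32557386109) (nat_lit 3) (nat_lit 4) (nat_lit 4) (nat_lit 5) (nat_lit 4) (nat_lit 4) (nat_lit 304) (nat_lit 258) (nat_lit 158)) (XT.nd (nat_lit 78) (nat_lit 0) (nat_lit 0) (XT.lf (nat_lit 0) (nat_lit 124251331309) (nat_lit 76) (nat_lit 100428779154) (nat_lit 76) (nat_lit 25353044135) (nat_lit 3) (nat_lit 4) (nat_lit 4) (nat_lit 5) (nat_lit 4) (nat_lit 4) (nat_lit 305) (nat_lit 258) (nat_lit 157)) (XT.lf (nat_lit 0) (nat_lit 158565138190) (nat_lit 76) (nat_lit 92651456536) (nat_lit 76) (nat_lit 17573379719) (nat_lit 3) (nat_lit 4) (nat_lit 4) (nat_lit 5) (nat_lit 4) (nat_lit 4) (nat_lit 306) (nat_lit 258) (nat_lit 156)))) (XT.nd (nat_lit 156) (nat_lit 76) (nat_lit 0) (XT.nd (nat_lit 78) (nat_lit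 0) (nat_lit 0) (XT.lf (nat_lit 0) (nat_lit 195622587187) (nat_lit 76) (nat_lit 84252536295) (nat_lit 76) (nat_lit 9172291147) (nat_lit 3) (nat_lit 4) (nat_lit 4) (nat_lit 5) (nat_lit 4) (nat_lit 4) (nat_lit 307) (nat_lit 258) (nat_lit 155)) (XT.lf (nat_lit 0) (nat_lit 235643278000) (nat_lit 76) (nat_lit 75182247053) (nat_lit 76) (nat_lit 99994191) (nat_lit 3) (nat_lit 4) (nat_lit 4) (nat_lit 5) (nat_lit 4) (nat_lit 4) (nat_lit 308) (nat_lit 258) (nat_lit 154))) (XT.nd (nat_lit 78) (nat_lit 0) (nat_lit 0) (XT.lf (nat_lit 0) (nat_lit 9212176044) (nat_lit 152) (nat_lit 55922785683) (nat_lit 76) (nat_lit 269400317013) (nat_lit 2) (nat_lit 5) (nat_lit 4) (nat_lit 5) (nat_lit 3) (nat_lit 4) (nat_lit 309) (nat_lit 258) (nat_lit 153)) (XT.lf (nat_lit 0) (nat_lit 19263201957) (nat_lit 152) (nat_lit 35018373077) (nat_lit 76) (nat_lit 305752096973) (nat_lit 2) (nat_lit 5) (nat_lit 4) (nat_lit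 5) (nat_lit 3) (nat_lit 4) (nat_lit 310) (nat_lit 258) (nat_lit 152))))) (XT.nd (nat_lit 234) (nat_lit 0) (nat_lit 0) (XT.nd (nat_lit 78) (nat_lit 76) (nat_lit 0) (XT.lf (nat_lit 0) (nat_lit 30117647295) (nat_lit 152) (nat_lit 12442720562) (nat_lit 76) (nat_lit 345011625162) (nat_lit 2) (nat_lit 5) (nat_lit 4) (nat_lit 5) (nat_lit 3) (nat_lit 4) (nat_lit 311) (nat_lit 258) (nat_lit 151)) (XT.nd (nat_lit 78) (nat_lit 0) (nat_lit 0) (XT.lf (nat_lit 0) (nat_lit 12566584981) (nat_lit 76) (nat_lit 29575476387) (nat_lit 152) (nat_lit 375147192328) (nat_lit 1) (nat_lit 5) (nat_lit 2) (nat_lit 5) (nat_lit 3) (nat_lit 4) (nat_lit 312) (nat_lit 258) (nat_lit 150)) (XT.lf (nat_lit 0) (nat_lit 40283258955) (nat_lit 76) (nat_lit 15184783370) (nat_lit 152) (nat_lit 393888686608) (nat_lit 1) (nat_lit 5) (nat_lit 2) (nat_lit 5) (nat_lit 3) (nat_lit 4) (nat_lit 313) (nat_lit 258) (nat_lit 149))))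 (XT.nd (nat_lit 156) (nat_lit 0) (nat_lit 0) (XT.nd (nat_lit 78) (nat_lit 0) (nat_lit 0) (XT.lf (nat_lit 0) (nat_lit 69868134006) (nat_lit 152) (nat_lit 413781892605) (nat_lit 0) (nat_lit 338935597) (nat_lit 1) (nat_lit 5) (nat_lit 3) (nat_lit 4) (nat_lit 1) (nat_lit 4) (nat_lit 314) (nat_lit 258) (nat_lit 148)) (XT.lf (nat_lit 0) (nat_lit 85814126700) (nat_lit 152) (nat_lit 419262294773) (nat_lit 0) (nat_lit 16283843585) (nat_lit 1) (nat_lit 5) (nat_lit 3) (nat_lit 4) (nat_lit 1) (nat_lit 4) (nat_lit 315) (nat_lit 258) (nat_lit 147))) (XT.nd (nat_lit 78) (nat_lit 0) (nat_lit 0) (XT.lf (nat_lit 0) (nat_lit 103035320773) (nat_lit 152) (nat_lit 425181958534) (nat_lit 0) (nat_lit 33504033301) (nat_lit 1) (nat_lit 5) (nat_lit 3) (nat_lit 4) (nat_lit 1) (nat_lit 4) (nat_lit 316) (nat_lit 258) (nat_lit 146)) (XT.lf (nat_lit 0) (nat_lit 121633767745) (nat_lit 152) (nat_lit 431575963376)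 (nat_lit 0) (nat_lit 52101550313) (nat_lit 1) (nat_lit 5) (nat_lit 3) (nat_lit 4) (nat_lit 1) (nat_lit 4) (nat_lit 317) (nat_lit 258) (nat_lit 145))))))))
noncomputable def xc85 : XT := (XT.nd (nat_lit 33228) (nat_lit 0) (nat_lit 456) (XT.nd (nat_lit 1014) (nat_lit 0) (nat_lit 0) (XT.nd (nat_lit 468) (nat_lit 0) (nat_lit 0) (XT.nd (nat_lit 234) (nat_lit 0) (nat_lit 0) (XT.nd (nat_lit 78) (nat_lit 0) (nat_lit 0) (XT.lf (nat_lit 0) (nat_lit 141719680636) (nat_lit 152) (nat_lit 438482199699) (nat_lit 0) (nat_lit 72186602130) (nat_lit 1) (nat_lit 5) (nat_lit 3) (nat_lit 4) (nat_lit 1) (nat_lit 4) (nat_lit 318) (nat_lit 258) (nat_lit 144)) (XT.nd (nat_lit 78) (nat_lit 0) (nat_lit 0) (XT.lf (nat_lit 0) (nat_lit 163412087077) (nat_lit 152) (nat_lit 445941593347) (nat_lit 0) (nat_lit 93878211280) (nat_lit 1) (nat_lit 5) (nat_lit 3) (nat_lit 4) (nat_lit 1) (nat_lit 4) (nat_lit 319) (nat_lit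 258) (nat_lit 143)) (XT.lf (nat_lit 0) (nat_lit 186839534663) (nat_lit 152) (nat_lit 453998348135) (nat_lit 0) (nat_lit 117304920633) (nat_lit 1) (nat_lit 5) (nat_lit 3) (nat_lit 4) (nat_lit 1) (nat_lit 4) (nat_lit 320) (nat_lit 258) (nat_lit 142)))) (XT.nd (nat_lit 78) (nat_lit 0) (nat_lit 0) (XT.lf (nat_lit 0) (nat_lit 212140852712) (nat_lit 152) (nat_lit 462700207795) (nat_lit 0) (nat_lit 142605555134) (nat_lit 1) (nat_lit 5) (nat_lit 3) (nat_lit 4) (nat_lit 1) (nat_lit 4) (nat_lit 321) (nat_lit 258) (nat_lit 141)) (XT.nd (nat_lit 78) (nat_lit 0) (nat_lit 0) (XT.lf (nat_lit 0) (nat_lit 239465974960) (nat_lit 152) (nat_lit 472098738902) (nat_lit 0) (nat_lit 169930044467) (nat_lit 1) (nat_lit 5) (nat_lit 3) (nat_lit 4) (nat_lit 1) (nat_lit 4) (nat_lit 322) (nat_lit 258) (nat_lit 140)) (XT.lf (nat_lit 0) (nat_lit 268976828059) (nat_lit 152) (nat_lit 482249636456) (nat_lit 0) (nat_lit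 199440311533) (nat_lit 1) (nat_lit 5) (nat_lit 3) (nat_lit 4) (nat_lit 1) (nat_lit 4) (nat_lit 323) (nat_lit 258) (nat_lit 139))))) (XT.nd (nat_lit 234) (nat_lit 0) (nat_lit 0) (XT.nd (nat_lit 78) (nat_lit 0) (nat_lit 0) (XT.lf (nat_lit 0) (nat_lit 300848291137) (nat_lit 152) (nat_lit 493213053924) (nat_lit 0) (nat_lit 231311231989) (nat_lit 1) (nat_lit 5) (nat_lit 3) (nat_lit 4) (nat_lit 1) (nat_lit 4) (nat_lit 324) (nat_lit 258) (nat_lit 138)) (XT.nd (nat_lit 78) (nat_lit 0) (nat_lit 0) (XT.lf (nat_lit 0) (nat_lit 335269232125) (nat_lit 152) (nat_lit 505053959706) (nat_lit 0) (nat_lit 265731670548) (nat_lit 1) (nat_lit 5) (nat_lit 3) (nat_lit 4) (nat_lit 1) (nat_lit 4) (nat_lit 325) (nat_lit 258) (nat_lit 137)) (XT.lf (nat_lit 0) (nat_lit 372443626968) (nat_lit 152) (nat_lit 517842522131) (nat_lit 0) (nat_lit 302905600180) (nat_lit 1) (nat_lit 5) (nat_lit 3) (nat_lit 4) (nat_lit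 1) (nat_lit 4) (nat_lit 326) (nat_lit 258) (nat_lit 136)))) (XT.nd (nat_lit 156) (nat_lit 0) (nat_lit 0) (XT.nd (nat_lit 78) (nat_lit 0) (nat_lit 0) (XT.lf (nat_lit 0) (nat_lit 412591768377) (nat_lit 152) (nat_lit 531654525275) (nat_lit 0) (nat_lit 343053310837) (nat_lit 1) (nat_lit 5) (nat_lit 3) (nat_lit 4) (nat_lit 1) (nat_lit 4) (nat_lit 327) (nat_lit 258) (nat_lit 135)) (XT.lf (nat_lit 0) (nat_lit 455951571264) (nat_lit 152) (nat_lit 546571818043) (nat_lit 0) (nat_lit 386412714880) (nat_lit 1) (nat_lit 5) (nat_lit 3) (nat_lit 4) (nat_lit 1) (nat_lit 4) (nat_lit 328) (nat_lit 258) (nat_lit 134))) (XT.nd (nat_lit 78) (nat_lit 0) (nat_lit 0) (XT.lf (nat_lit 0) (nat_lit 502779982609) (nat_lit 152) (nat_lit 562682799209) (nat_lit 0) (nat_lit 433240756925) (nat_lit 1) (nat_lit 5) (nat_lit 3) (nat_lit 4) (nat_lit 1) (nat_lit 4) (nat_lit 329) (nat_lit 258) (nat_lit 133)) (XT.lf (nat_lit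 0) (nat_lit 553354504108) (nat_lit 152) (nat_lit 580082941253) (nat_lit 0) (nat_lit 483814936480) (nat_lit 1) (nat_lit 5) (nat_lit 3) (nat_lit 4) (nat_lit 1) (nat_lit 4) (nat_lit 330) (nat_lit 258) (nat_lit 132)))))) (XT.nd (nat_lit 546) (nat_lit 0) (nat_lit 0) (XT.nd (nat_lit 234) (nat_lit 0) (nat_lit 0) (XT.nd (nat_lit 78) (nat_lit 0) (nat_lit 0) (XT.lf (nat_lit 0) (nat_lit 607974836631) (nat_lit 152) (nat_lit 598875356128) (nat_lit 0) (nat_lit 538434952387) (nat_lit 1) (nat_lit 5) (nat_lit 3) (nat_lit 4) (nat_lit 1) (nat_lit 4) (nat_lit 331) (nat_lit 258) (nat_lit 131)) (XT.nd (nat_lit 78) (nat_lit 0) (nat_lit 0) (XT.lf (nat_lit 0) (nat_lit 666964656221) (nat_lit 152) (nat_lit 619171406292) (nat_lit 0) (nat_lit 597424478815) (nat_lit 1) (nat_lit 5) (nat_lit 3) (nat_lit 4) (nat_lit 1) (nat_lit 4) (nat_lit 332) (nat_lit 258) (nat_lit 130)) (XT.lf (nat_lit 0) (nat_lit 730673532179)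 (nat_lit 152) (nat_lit 641091364636) (nat_lit 0) (nat_lit 661133083328) (nat_lit 1) (nat_lit 5) (nat_lit 3) (nat_lit 4) (nat_lit 1) (nat_lit 4) (nat_lit 333) (nat_lit 258) (nat_lit 129)))) (XT.nd (nat_lit 156) (nat_lit 0) (nat_lit 0) (XT.nd (nat_lit 78) (nat_lit 0) (nat_lit 0) (XT.lf (nat_lit 0) (nat_lit 799478998587) (nat_lit 152) (nat_lit 664765127209) (nat_lit 0) (nat_lit 729938298395) (nat_lit 1) (nat_lit 5) (nat_lit 3) (nat_lit 4) (nat_lit 1) (nat_lit 4) (nat_lit 334) (nat_lit 258) (nat_lit 128)) (XT.lf (nat_lit 0) (nat_lit 873788791540) (nat_lit 152) (nat_lit 690332982974) (nat_lit 0) (nat_lit 804247858627) (nat_lit 1) (nat_lit 5) (nat_lit 3) (nat_lit 4) (nat_lit 1) (nat_lit 4) (nat_lit 335) (nat_lit 258) (nat_lit 127))) (XT.nd (nat_lit 78) (nat_lit 0) (nat_lit 0) (XT.lf (nat_lit 0) (nat_lit 954043265367) (nat_lit 152) (nat_lit 717946445151) (nat_lit 0) (nat_lit 884502116971)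 (nat_lit 1) (nat_lit 5) (nat_lit 3) (nat_lit 4) (nat_lit 1) (nat_lit 4) (nat_lit 336) (nat_lit 258) (nat_lit 126)) (XT.lf (nat_lit 0) (nat_lit 1040718002136) (nat_lit 152) (nat_lit 747769149070) (nat_lit 0) (nat_lit 971176654219) (nat_lit 1) (nat_lit 5) (nat_lit 3) (nat_lit 4) (nat_lit 1) (nat_lit 4) (nat_lit 337) (nat_lit 258) (nat_lit 125))))) (XT.nd (nat_lit 31356) (nat_lit 0) (nat_lit 1976) (XT.nd (nat_lit 78) (nat_lit 0) (nat_lit 0) (XT.lf (nat_lit 0) (nat_lit 1134326629916) (nat_lit 152) (nat_lit 779977821868) (nat_lit 0) (nat_lit 1064785097257) (nat_lit 1) (nat_lit 5) (nat_lit 3) (nat_lit 4) (nat_lit 1) (nat_lit 4) (nat_lit 338) (nat_lit 258) (nat_lit 124)) (XT.nd (nat_lit 78) (nat_lit 0) (nat_lit 0) (XT.lf (nat_lit 0) (nat_lit 1235423866502) (nat_lit 152) (nat_lit 814763329751) (nat_lit 0) (nat_lit 1165882162786) (nat_lit 1) (nat_lit 5) (nat_lit 3) (nat_lit 4) (nat_lit 1)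 (nat_lit 4) (nat_lit 339) (nat_lit 258) (nat_lit 123)) (XT.lf (nat_lit 0) (nat_lit 1344608806628) (nat_lit 152) (nat_lit 852331809064) (nat_lit 0) (nat_lit 1275066944526) (nat_lit 1) (nat_lit 5) (nat_lit 3) (nat_lit 4) (nat_lit 1) (nat_lit 4) (nat_lit 340) (nat_lit 258) (nat_lit 122)))) (XT.nd (nat_lit 156) (nat_lit 0) (nat_lit 0) (XT.nd (nat_lit 78) (nat_lit 0) (nat_lit 0) (XT.lf (nat_lit 0) (nat_lit 3431941478) (nat_lit 0) (nat_lit 3431941478) (nat_lit 380) (nat_lit 2132535079) (nat_lit 27) (nat_lit 5) (nat_lit 27) (nat_lit 3) (nat_lit 32) (nat_lit 3) (nat_lit 259) (nat_lit 259) (nat_lit 202)) (XT.lf (nat_lit 0) (nat_lit 14226863354) (nat_lit 0) (nat_lit 217005389) (nat_lit 380) (nat_lit 4253387876) (nat_lit 27) (nat_lit 5) (nat_lit 27) (nat_lit 3) (nat_lit 32) (nat_lit 3) (nat_lit 260) (nat_lit 259) (nat_lit 201))) (XT.nd (nat_lit 78) (nat_lit 0) (nat_lit 0) (XT.lf (nat_lit 76)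 (nat_lit 2677267388) (nat_lit 0) (nat_lit 12755301594) (nat_lit 456) (nat_lit 4008430537) (nat_lit 28) (nat_lit 5) (nat_lit 27) (nat_lit 5) (nat_lit 33) (nat_lit 5) (nat_lit 261) (nat_lit 259) (nat_lit 200)) (XT.lf (nat_lit 76) (nat_lit 10635213559) (nat_lit 0) (nat_lit 5977353914) (nat_lit 456) (nat_lit 3622877315) (nat_lit 28) (nat_lit 5) (nat_lit 27) (nat_lit 5) (nat_lit 33) (nat_lit 5) (nat_lit 262) (nat_lit 259) (nat_lit 199))))))) (XT.nd (nat_lit 1014) (nat_lit 608) (nat_lit 0) (XT.nd (nat_lit 468) (nat_lit 608) (nat_lit 0) (XT.nd (nat_lit 234) (nat_lit 380) (nat_lit 0) (XT.nd (nat_lit 78) (nat_lit 0) (nat_lit 0) (XT.lf (nat_lit 0) (nat_lit 17905017239) (nat_lit 380) (nat_lit 1906488705) (nat_lit 456) (nat_lit 1280661472) (nat_lit 28) (nat_lit 5) (nat_lit 33) (nat_lit 5) (nat_lit 34) (nat_lit 5) (nat_lit 263) (nat_lit 259) (nat_lit 198)) (XT.nd (nat_lit 78) (nat_lit 0) (nat_lit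 0) (XT.lf (nat_lit 76) (nat_lit 6566202966) (nat_lit 0) (nat_lit 13034644703) (nat_lit 456) (nat_lit 2392734972) (nat_lit 29) (nat_lit 5) (nat_lit 28) (nat_lit 5) (nat_lit 34) (nat_lit 5) (nat_lit 264) (nat_lit 259) (nat_lit 197)) (XT.lf (nat_lit 76) (nat_lit 15815618448) (nat_lit 0) (nat_lit 5656412358) (nat_lit 456) (nat_lit 1492047566) (nat_lit 29) (nat_lit 5) (nat_lit 28) (nat_lit 5) (nat_lit 34) (nat_lit 5) (nat_lit 265) (nat_lit 259) (nat_lit 196)))) (XT.nd (nat_lit 78) (nat_lit 76) (nat_lit 0) (XT.lf (nat_lit 0) (nat_lit 1818192502) (nat_lit 380) (nat_lit 21762595361) (nat_lit 456) (nat_lit 424527210) (nat_lit 24) (nat_lit 5) (nat_lit 29) (nat_lit 5) (nat_lit 30) (nat_lit 5) (nat_lit 266) (nat_lit 259) (nat_lit 195)) (XT.nd (nat_lit 78) (nat_lit 0) (nat_lit 0) (XT.lf (nat_lit 0) (nat_lit 1028170073) (nat_lit 456) (nat_lit 13385394456) (nat_lit 76) (nat_lit 10688100619) (nat_lit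 23) (nat_lit 5) (nat_lit 29) (nat_lit 5) (nat_lit 24) (nat_lit 5) (nat_lit 267) (nat_lit 259) (nat_lit 194)) (XT.lf (nat_lit 0) (nat_lit 2563744430) (nat_lit 456) (nat_lit 3900167609) (nat_lit 76) (nat_lit 19821865825) (nat_lit 23) (nat_lit 5) (nat_lit 29) (nat_lit 5) (nat_lit 24) (nat_lit 5) (nat_lit 268) (nat_lit 259) (nat_lit 193))))) (XT.nd (nat_lit 234) (nat_lit 380) (nat_lit 0) (XT.nd (nat_lit 78) (nat_lit 0) (nat_lit 0) (XT.lf (nat_lit 0) (nat_lit 4428121817) (nat_lit 304) (nat_lit 20939301927) (nat_lit 76) (nat_lit 2180816057) (nat_lit 20) (nat_lit 5) (nat_lit 24) (nat_lit 5) (nat_lit 21) (nat_lit 5) (nat_lit 269) (nat_lit 259) (nat_lit 192)) (XT.nd (nat_lit 78) (nat_lit 0) (nat_lit 0) (XT.lf (nat_lit 0) (nat_lit 6709833668) (nat_lit 304) (nat_lit 10902759670) (nat_lit 76) (nat_lit 11277740215) (nat_lit 20) (nat_lit 5) (nat_lit 24) (nat_lit 5) (nat_lit 21) (nat_lit 5) (nat_lit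 270) (nat_lit 259) (nat_lit 191)) (XT.lf (nat_lit 0) (nat_lit 9165640942) (nat_lit 304) (nat_lit 72096012) (nat_lit 76) (nat_lit 21102816139) (nat_lit 20) (nat_lit 5) (nat_lit 24) (nat_lit 5) (nat_lit 21) (nat_lit 5) (nat_lit 271) (nat_lit 259) (nat_lit 190)))) (XT.nd (nat_lit 156) (nat_lit 152) (nat_lit 0) (XT.nd (nat_lit 78) (nat_lit 0) (nat_lit 0) (XT.lf (nat_lit 0) (nat_lit 12107186390) (nat_lit 304) (nat_lit 19658361714) (nat_lit 76) (nat_lit 118177025) (nat_lit 17) (nat_lit 5) (nat_lit 21) (nat_lit 5) (nat_lit 18) (nat_lit 5) (nat_lit 272) (nat_lit 259) (nat_lit 189)) (XT.lf (nat_lit 0) (nat_lit 15518578440) (nat_lit 304) (nat_lit 8288062539) (nat_lit 76) (nat_lit 9725019241) (nat_lit 17) (nat_lit 5) (nat_lit 21) (nat_lit 5) (nat_lit 18) (nat_lit 5) (nat_lit 273) (nat_lit 259) (nat_lit 188))) (XT.nd (nat_lit 78) (nat_lit 0) (nat_lit 0) (XT.lf (nat_lit 0) (nat_lit 4193685859)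 (nat_lit 152) (nat_lit 15103164716) (nat_lit 228) (nat_lit 16007127904) (nat_lit 15) (nat_lit 5) (nat_lit 17) (nat_lit 5) (nat_lit 18) (nat_lit 5) (nat_lit 274) (nat_lit 259) (nat_lit 187)) (XT.lf (nat_lit 0) (nat_lit 18137565245) (nat_lit 152) (nat_lit 5459863778) (nat_lit 228) (nat_lit 13603110598) (nat_lit 15) (nat_lit 5) (nat_lit 17) (nat_lit 5) (nat_lit 18) (nat_lit 5) (nat_lit 275) (nat_lit 259) (nat_lit 186)))))) (XT.nd (nat_lit 546) (nat_lit 228) (nat_lit 0) (XT.nd (nat_lit 234) (nat_lit 228) (nat_lit 0) (XT.nd (nat_lit 78) (nat_lit 152) (nat_lit 0) (XT.lf (nat_lit 0) (nat_lit 28355113260) (nat_lit 228) (nat_lit 6178736081) (nat_lit 76) (nat_lit 4705988015) (nat_lit 15) (nat_lit 5) (nat_lit 18) (nat_lit 5) (nat_lit 16) (nat_lit 5) (nat_lit 276) (nat_lit 259) (nat_lit 185)) (XT.nd (nat_lit 78) (nat_lit 0) (nat_lit 0) (XT.lf (nat_lit 0) (nat_lit 7986830700) (nat_lit 152) (nat_lit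 25834825963) (nat_lit 228) (nat_lit 7594414974) (nat_lit 13) (nat_lit 5) (nat_lit 15) (nat_lit 5) (nat_lit 16) (nat_lit 5) (nat_lit 277) (nat_lit 259) (nat_lit 184)) (XT.lf (nat_lit 0) (nat_lit 23630083964) (nat_lit 152) (nat_lit 16258975151) (nat_lit 228) (nat_lit 3864311110) (nat_lit 13) (nat_lit 5) (nat_lit 15) (nat_lit 5) (nat_lit 16) (nat_lit 5) (nat_lit 278) (nat_lit 259) (nat_lit 183)))) (XT.nd (nat_lit 156) (nat_lit 0) (nat_lit 0) (XT.nd (nat_lit 78) (nat_lit 152) (nat_lit 0) (XT.lf (nat_lit 0) (nat_lit 150812690) (nat_lit 228) (nat_lit 5763552540) (nat_lit 76) (nat_lit 40363427001) (nat_lit 12) (nat_lit 5) (nat_lit 15) (nat_lit 5) (nat_lit 13) (nat_lit 5) (nat_lit 279) (nat_lit 259) (nat_lit 182)) (XT.lf (nat_lit 0) (nat_lit 4652951177) (nat_lit 228) (nat_lit 38966522083) (nat_lit 76) (nat_lit 5346737190) (nat_lit 10) (nat_lit 5) (nat_lit 13) (nat_lit 5) (nat_lit 11) (nat_lit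 5) (nat_lit 280) (nat_lit 259) (nat_lit 181))) (XT.nd (nat_lit 78) (nat_lit 0) (nat_lit 0) (XT.lf (nat_lit 0) (nat_lit 9825940581) (nat_lit 228) (nat_lit 24669497558) (nat_lit 76) (nat_lit 17349445185) (nat_lit 10) (nat_lit 5) (nat_lit 13) (nat_lit 5) (nat_lit 11) (nat_lit 5) (nat_lit 281) (nat_lit 259) (nat_lit 180)) (XT.lf (nat_lit 0) (nat_lit 15408492365) (nat_lit 228) (nat_lit 9234689002) (nat_lit 76) (nat_lit 30311043749) (nat_lit 10) (nat_lit 5) (nat_lit 13) (nat_lit 5) (nat_lit 11) (nat_lit 5) (nat_lit 282) (nat_lit 259) (nat_lit 179))))) (XT.nd (nat_lit 234) (nat_lit 76) (nat_lit 0) (XT.nd (nat_lit 78) (nat_lit 0) (nat_lit 0) (XT.lf (nat_lit 0) (nat_lit 7820586529) (nat_lit 152) (nat_lit 13801187081) (nat_lit 228) (nat_lit 36675841123) (nat_lit 8) (nat_lit 5) (nat_lit 10) (nat_lit 5) (nat_lit 11) (nat_lit 5) (nat_lit 283) (nat_lit 259) (nat_lit 178)) (XT.nd (nat_lit 78) (nat_lit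 0) (nat_lit 0) (XT.lf (nat_lit 0) (nat_lit 26760074058) (nat_lit 152) (nat_lit 1820739666) (nat_lit 228) (nat_lit 33307794331) (nat_lit 8) (nat_lit 5) (nat_lit 10) (nat_lit 5) (nat_lit 11) (nat_lit 5) (nat_lit 284) (nat_lit 259) (nat_lit 177)) (XT.lf (nat_lit 0) (nat_lit 36360417890) (nat_lit 228) (nat_lit 18824819006) (nat_lit 76) (nat_lit 10560562834) (nat_lit 8) (nat_lit 5) (nat_lit 11) (nat_lit 5) (nat_lit 9) (nat_lit 4) (nat_lit 285) (nat_lit 259) (nat_lit 176)))) (XT.nd (nat_lit 156) (nat_lit 0) (nat_lit 0) (XT.nd (nat_lit 78) (nat_lit 76) (nat_lit 0) (XT.lf (nat_lit 0) (nat_lit 44806394571) (nat_lit 228) (nat_lit 1268975728) (nat_lit 76) (nat_lit 23832700320) (nat_lit 8) (nat_lit 5) (nat_lit 11) (nat_lit 5) (nat_lit 9) (nat_lit 4) (nat_lit 286) (nat_lit 259) (nat_lit 175)) (XT.lf (nat_lit 0) (nat_lit 18618175853) (nat_lit 76) (nat_lit 35754596891) (nat_lit 152) (nat_lit 19994994992)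 (nat_lit 7) (nat_lit 5) (nat_lit 8) (nat_lit 5) (nat_lit 9) (nat_lit 4) (nat_lit 287) (nat_lit 259) (nat_lit 174))) (XT.nd (nat_lit 78) (nat_lit 0) (nat_lit 0) (XT.lf (nat_lit 0) (nat_lit 40164065941) (nat_lit 76) (nat_lit 24572166700) (nat_lit 152) (nat_lit 14445487025) (nat_lit 7) (nat_lit 5) (nat_lit 8) (nat_lit 5) (nat_lit 9) (nat_lit 4) (nat_lit 288) (nat_lit 259) (nat_lit 173)) (XT.lf (nat_lit 0) (nat_lit 63429551871) (nat_lit 76) (nat_lit 12496509520) (nat_lit 152) (nat_lit 8454962219) (nat_lit 7) (nat_lit 5) (nat_lit 8) (nat_lit 5) (nat_lit 9) (nat_lit 4) (nat_lit 289) (nat_lit 259) (nat_lit 172))))))))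
noncomputable def xc86 : XT := (XT.nd (nat_lit 2106) (nat_lit 0) (nat_lit 0) (XT.nd (nat_lit 1014) (nat_lit 152) (nat_lit 0) (XT.nd (nat_lit 468) (nat_lit 76) (nat_lit 0) (XT.nd (nat_lit 234) (nat_lit 76) (nat_lit 0) (XT.nd (nat_lit 78) (nat_lit 152) (nat_lit 0) (XT.lf (nat_lit 0) (nat_lit 88021650716) (nat_lit 152) (nat_lit 1457068698) (nat_lit 0) (nat_lit 516724312) (nat_lit 7) (nat_lit 5) (nat_lit 9) (nat_lit 4) (nat_lit 7) (nat_lit 4) (nat_lit 290) (nat_lit 259) (nat_lit 171)) (XT.nd (nat_lit 78) (nat_lit 0) (nat_lit 0) (XT.lf (nat_lit 0) (nat_lit 5605528297) (nat_lit 152) (nat_lit 75852856123) (nat_lit 76) (nat_lit 14524492677) (nat_lit 5) (nat_lit 5) (nat_lit 7) (nat_lit 5) (nat_lit 6) (nat_lit 4) (nat_lit 291) (nat_lit 259) (nat_lit 170)) (XT.lf (nat_lit 0) (nat_lit 13723097855) (nat_lit 152) (nat_lit 58975189756) (nat_lit 76) (nat_lit 29743847178) (nat_lit 5) (nat_lit 5) (nat_lit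 7) (nat_lit 5) (nat_lit 6) (nat_lit 4) (nat_lit 292) (nat_lit 259) (nat_lit 169)))) (XT.nd (nat_lit 78) (nat_lit 76) (nat_lit 0) (XT.lf (nat_lit 0) (nat_lit 22487910956) (nat_lit 152) (nat_lit 40750747313) (nat_lit 76) (nat_lit 46179660871) (nat_lit 5) (nat_lit 5) (nat_lit 7) (nat_lit 5) (nat_lit 6) (nat_lit 4) (nat_lit 293) (nat_lit 259) (nat_lit 168)) (XT.nd (nat_lit 78) (nat_lit 76) (nat_lit 0) (XT.lf (nat_lit 0) (nat_lit 31951907235) (nat_lit 152) (nat_lit 21071532098) (nat_lit 76) (nat_lit 63929331172) (nat_lit 5) (nat_lit 5) (nat_lit 7) (nat_lit 5) (nat_lit 6) (nat_lit 4) (nat_lit 294) (nat_lit 259) (nat_lit 167)) (XT.lf (nat_lit 0) (nat_lit 188503151) (nat_lit 76) (nat_lit 41987199986) (nat_lit 152) (nat_lit 82914071665) (nat_lit 4) (nat_lit 5) (nat_lit 5) (nat_lit 5) (nat_lit 6) (nat_lit 4) (nat_lit 295) (nat_lit 259) (nat_lit 166))))) (XT.nd (nat_lit 234) (nat_lit 76) (nat_lit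 0) (XT.nd (nat_lit 78) (nat_lit 0) (nat_lit 0) (XT.lf (nat_lit 0) (nat_lit 24344825654) (nat_lit 76) (nat_lit 29446924727) (nat_lit 152) (nat_lit 80040051634) (nat_lit 4) (nat_lit 5) (nat_lit 5) (nat_lit 5) (nat_lit 6) (nat_lit 4) (nat_lit 296) (nat_lit 259) (nat_lit 165)) (XT.nd (nat_lit 78) (nat_lit 0) (nat_lit 0) (XT.lf (nat_lit 0) (nat_lit 50430994449) (nat_lit 76) (nat_lit 15904433846) (nat_lit 152) (nat_lit 76937904976) (nat_lit 4) (nat_lit 5) (nat_lit 5) (nat_lit 5) (nat_lit 6) (nat_lit 4) (nat_lit 297) (nat_lit 259) (nat_lit 164)) (XT.lf (nat_lit 0) (nat_lit 78601594240) (nat_lit 76) (nat_lit 1279475543) (nat_lit 152) (nat_lit 73589248602) (nat_lit 4) (nat_lit 5) (nat_lit 5) (nat_lit 5) (nat_lit 6) (nat_lit 4) (nat_lit 298) (nat_lit 259) (nat_lit 163)))) (XT.nd (nat_lit 156) (nat_lit 76) (nat_lit 0) (XT.nd (nat_lit 78) (nat_lit 0) (nat_lit 0) (XT.lf (nat_lit 0) (nat_lit 94858022192)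 (nat_lit 152) (nat_lit 55808698898) (nat_lit 0) (nat_lit 13788536693) (nat_lit 4) (nat_lit 5) (nat_lit 6) (nat_lit 4) (nat_lit 4) (nat_lit 4) (nat_lit 299) (nat_lit 259) (nat_lit 162)) (XT.lf (nat_lit 0) (nat_lit 111065032418) (nat_lit 152) (nat_lit 35259309369) (nat_lit 0) (nat_lit 29992106051) (nat_lit 4) (nat_lit 5) (nat_lit 6) (nat_lit 4) (nat_lit 4) (nat_lit 4) (nat_lit 300) (nat_lit 259) (nat_lit 161))) (XT.nd (nat_lit 78) (nat_lit 76) (nat_lit 0) (XT.lf (nat_lit 0) (nat_lit 128567370587) (nat_lit 152) (nat_lit 13068009981) (nat_lit 0) (nat_lit 47491258229) (nat_lit 4) (nat_lit 5) (nat_lit 6) (nat_lit 4) (nat_lit 4) (nat_lit 4) (nat_lit 301) (nat_lit 259) (nat_lit 160)) (XT.lf (nat_lit 0) (nat_lit 11470504345) (nat_lit 76) (nat_lit 136274115816) (nat_lit 76) (nat_lit 55195053468) (nat_lit 3) (nat_lit 4) (nat_lit 4) (nat_lit 5) (nat_lit 4) (nat_lit 4) (nat_lit 302) (nat_lit 259)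 (nat_lit 159)))))) (XT.nd (nat_lit 546) (nat_lit 152) (nat_lit 0) (XT.nd (nat_lit 234) (nat_lit 0) (nat_lit 0) (XT.nd (nat_lit 78) (nat_lit 0) (nat_lit 0) (XT.lf (nat_lit 0) (nat_lit 38713446880) (nat_lit 76) (nat_lit 130098804074) (nat_lit 76) (nat_lit 49017010253) (nat_lit 3) (nat_lit 4) (nat_lit 4) (nat_lit 5) (nat_lit 4) (nat_lit 4) (nat_lit 303) (nat_lit 259) (nat_lit 158)) (XT.nd (nat_lit 78) (nat_lit 0) (nat_lit 0) (XT.lf (nat_lit 0) (nat_lit 68134119036) (nat_lit 76) (nat_lit 123430153454) (nat_lit 76) (nat_lit 42345830491) (nat_lit 3) (nat_lit 4) (nat_lit 4) (nat_lit 5) (nat_lit 4) (nat_lit 4) (nat_lit 304) (nat_lit 259) (nat_lit 157)) (XT.lf (nat_lit 0) (nat_lit 99906865537) (nat_lit 76) (nat_lit 116228646025) (nat_lit 76) (nat_lit 35141981265) (nat_lit 3) (nat_lit 4) (nat_lit 4) (nat_lit 5) (nat_lit 4) (nat_lit 4) (nat_lit 305) (nat_lit 259) (nat_lit 156)))) (XT.nd (nat_lit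 156) (nat_lit 0) (nat_lit 0) (XT.nd (nat_lit 78) (nat_lit 0) (nat_lit 0) (XT.lf (nat_lit 0) (nat_lit 134219969324) (nat_lit 76) (nat_lit 108451606190) (nat_lit 76) (nat_lit 27362773098) (nat_lit 3) (nat_lit 4) (nat_lit 4) (nat_lit 5) (nat_lit 4) (nat_lit 4) (nat_lit 306) (nat_lit 259) (nat_lit 155)) (XT.lf (nat_lit 0) (nat_lit 171276767310) (nat_lit 76) (nat_lit 100052947784) (nat_lit 76) (nat_lit 18962106979) (nat_lit 3) (nat_lit 4) (nat_lit 4) (nat_lit 5) (nat_lit 4) (nat_lit 4) (nat_lit 307) (nat_lit 259) (nat_lit 154))) (XT.nd (nat_lit 78) (nat_lit 0) (nat_lit 0) (XT.lf (nat_lit 0) (nat_lit 211296855333) (nat_lit 76) (nat_lit 90982900982) (nat_lit 76) (nat_lit 9890201182) (nat_lit 3) (nat_lit 4) (nat_lit 4) (nat_lit 5) (nat_lit 4) (nat_lit 4) (nat_lit 308) (nat_lit 259) (nat_lit 153)) (XT.lf (nat_lit 0) (nat_lit 254517389472) (nat_lit 76) (nat_lit 81187717356) (nat_lit 76) (nat_lit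 93296266) (nat_lit 3) (nat_lit 4) (nat_lit 4) (nat_lit 5) (nat_lit 4) (nat_lit 4) (nat_lit 309) (nat_lit 259) (nat_lit 152))))) (XT.nd (nat_lit 234) (nat_lit 76) (nat_lit 0) (XT.nd (nat_lit 78) (nat_lit 0) (nat_lit 0) (XT.lf (nat_lit 0) (nat_lit 9962078122) (nat_lit 152) (nat_lit 60374892383) (nat_lit 76) (nat_lit 290960032417) (nat_lit 2) (nat_lit 5) (nat_lit 4) (nat_lit 5) (nat_lit 3) (nat_lit 4) (nat_lit 310) (nat_lit 259) (nat_lit 151)) (XT.nd (nat_lit 78) (nat_lit 0) (nat_lit 0) (XT.lf (nat_lit 0) (nat_lit 20816228478) (nat_lit 152) (nat_lit 37799735372) (nat_lit 76) (nat_lit 330219385141) (nat_lit 2) (nat_lit 5) (nat_lit 4) (nat_lit 5) (nat_lit 3) (nat_lit 4) (nat_lit 311) (nat_lit 259) (nat_lit 150)) (XT.lf (nat_lit 0) (nat_lit 32538142750) (nat_lit 152) (nat_lit 13419520105) (nat_lit 76) (nat_lit 372619148148) (nat_lit 2) (nat_lit 5) (nat_lit 4) (nat_lit 5) (nat_lit 3) (nat_lit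 4) (nat_lit 312) (nat_lit 259) (nat_lit 149)))) (XT.nd (nat_lit 156) (nat_lit 0) (nat_lit 0) (XT.nd (nat_lit 78) (nat_lit 0) (nat_lit 0) (XT.lf (nat_lit 0) (nat_lit 13590058537) (nat_lit 76) (nat_lit 31934066829) (nat_lit 152) (nat_lit 405147361990) (nat_lit 1) (nat_lit 5) (nat_lit 2) (nat_lit 5) (nat_lit 3) (nat_lit 4) (nat_lit 313) (nat_lit 259) (nat_lit 148)) (XT.lf (nat_lit 0) (nat_lit 43522722225) (nat_lit 76) (nat_lit 16392670049) (nat_lit 152) (nat_lit 425389035496) (nat_lit 1) (nat_lit 5) (nat_lit 2) (nat_lit 5) (nat_lit 3) (nat_lit 4) (nat_lit 314) (nat_lit 259) (nat_lit 147))) (XT.nd (nat_lit 78) (nat_lit 0) (nat_lit 0) (XT.lf (nat_lit 0) (nat_lit 75466911035) (nat_lit 152) (nat_lit 446868262364) (nat_lit 0) (nat_lit 372116208) (nat_lit 1) (nat_lit 5) (nat_lit 3) (nat_lit 4) (nat_lit 1) (nat_lit 4) (nat_lit 315) (nat_lit 259) (nat_lit 146)) (XT.lf (nat_lit 0) (nat_lit 92687892306)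 (nat_lit 152) (nat_lit 452788295346) (nat_lit 0) (nat_lit 17592167519) (nat_lit 1) (nat_lit 5) (nat_lit 3) (nat_lit 4) (nat_lit 1) (nat_lit 4) (nat_lit 316) (nat_lit 259) (nat_lit 145))))))) (XT.nd (nat_lit 1014) (nat_lit 0) (nat_lit 0) (XT.nd (nat_lit 468) (nat_lit 0) (nat_lit 0) (XT.nd (nat_lit 234) (nat_lit 0) (nat_lit 0) (XT.nd (nat_lit 78) (nat_lit 0) (nat_lit 0) (XT.lf (nat_lit 0) (nat_lit 111286142240) (nat_lit 152) (nat_lit 459182642060) (nat_lit 0) (nat_lit 36189556380) (nat_lit 1) (nat_lit 5) (nat_lit 3) (nat_lit 4) (nat_lit 1) (nat_lit 4) (nat_lit 317) (nat_lit 259) (nat_lit 144)) (XT.nd (nat_lit 78) (nat_lit 0) (nat_lit 0) (XT.lf (nat_lit 0) (nat_lit 131371872688) (nat_lit 152) (nat_lit 466089194931) (nat_lit 0) (nat_lit 56274489537) (nat_lit 1) (nat_lit 5) (nat_lit 3) (nat_lit 4) (nat_lit 1) (nat_lit 4) (nat_lit 318) (nat_lit 259) (nat_lit 143)) (XT.lf (nat_lit 0) (nat_lit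 153064110201) (nat_lit 152) (nat_lit 473548881679) (nat_lit 0) (nat_lit 77965988817) (nat_lit 1) (nat_lit 5) (nat_lit 3) (nat_lit 4) (nat_lit 1) (nat_lit 4) (nat_lit 319) (nat_lit 259) (nat_lit 142)))) (XT.nd (nat_lit 78) (nat_lit 0) (nat_lit 0) (XT.lf (nat_lit 0) (nat_lit 176491401372) (nat_lit 152) (nat_lit 481605907856) (nat_lit 0) (nat_lit 101392596439) (nat_lit 1) (nat_lit 5) (nat_lit 3) (nat_lit 4) (nat_lit 1) (nat_lit 4) (nat_lit 320) (nat_lit 259) (nat_lit 141)) (XT.nd (nat_lit 78) (nat_lit 0) (nat_lit 0) (XT.lf (nat_lit 0) (nat_lit 201792574592) (nat_lit 152) (nat_lit 490308018802) (nat_lit 0) (nat_lit 126693136744) (nat_lit 1) (nat_lit 5) (nat_lit 3) (nat_lit 4) (nat_lit 1) (nat_lit 4) (nat_lit 321) (nat_lit 259) (nat_lit 140)) (XT.lf (nat_lit 0) (nat_lit 229117562739) (nat_lit 152) (nat_lit 499706782581) (nat_lit 0) (nat_lit 154017538859) (nat_lit 1) (nat_lit 5) (nat_lit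 3) (nat_lit 4) (nat_lit 1) (nat_lit 4) (nat_lit 322) (nat_lit 259) (nat_lit 139))))) (XT.nd (nat_lit 234) (nat_lit 0) (nat_lit 0) (XT.nd (nat_lit 78) (nat_lit 0) (nat_lit 0) (XT.lf (nat_lit 0) (nat_lit 258628291671) (nat_lit 152) (nat_lit 509857895573) (nat_lit 0) (nat_lit 183527725168) (nat_lit 1) (nat_lit 5) (nat_lit 3) (nat_lit 4) (nat_lit 1) (nat_lit 4) (nat_lit 323) (nat_lit 259) (nat_lit 138)) (XT.nd (nat_lit 78) (nat_lit 0) (nat_lit 0) (XT.lf (nat_lit 0) (nat_lit 290499639780) (nat_lit 152) (nat_lit 520821512519) (nat_lit 0) (nat_lit 215398570848) (nat_lit 1) (nat_lit 5) (nat_lit 3) (nat_lit 4) (nat_lit 1) (nat_lit 4) (nat_lit 324) (nat_lit 259) (nat_lit 137)) (XT.lf (nat_lit 0) (nat_lit 324920474314) (nat_lit 152) (nat_lit 532662603004) (nat_lit 0) (nat_lit 249818940171) (nat_lit 1) (nat_lit 5) (nat_lit 3) (nat_lit 4) (nat_lit 1) (nat_lit 4) (nat_lit 325) (nat_lit 259) (nat_lit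 136)))) (XT.nd (nat_lit 156) (nat_lit 0) (nat_lit 0) (XT.nd (nat_lit 78) (nat_lit 0) (nat_lit 0) (XT.lf (nat_lit 0) (nat_lit 362094770589) (nat_lit 152) (nat_lit 545451336450) (nat_lit 0) (nat_lit 286992805694) (nat_lit 1) (nat_lit 5) (nat_lit 3) (nat_lit 4) (nat_lit 1) (nat_lit 4) (nat_lit 326) (nat_lit 259) (nat_lit 135)) (XT.lf (nat_lit 0) (nat_lit 402242820731) (nat_lit 152) (nat_lit 559263497946) (nat_lit 0) (nat_lit 327140456992) (nat_lit 1) (nat_lit 5) (nat_lit 3) (nat_lit 4) (nat_lit 1) (nat_lit 4) (nat_lit 327) (nat_lit 259) (nat_lit 134))) (XT.nd (nat_lit 78) (nat_lit 0) (nat_lit 0) (XT.lf (nat_lit 0) (nat_lit 445602539111) (nat_lit 152) (nat_lit 574180937338) (nat_lit 0) (nat_lit 370499806073) (nat_lit 1) (nat_lit 5) (nat_lit 3) (nat_lit 4) (nat_lit 1) (nat_lit 4) (nat_lit 328) (nat_lit 259) (nat_lit 133)) (XT.lf (nat_lit 0) (nat_lit 492430872210) (nat_lit 152) (nat_lit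 590292054265) (nat_lit 0) (nat_lit 417327797227) (nat_lit 1) (nat_lit 5) (nat_lit 3) (nat_lit 4) (nat_lit 1) (nat_lit 4) (nat_lit 329) (nat_lit 259) (nat_lit 132)))))) (XT.nd (nat_lit 546) (nat_lit 0) (nat_lit 0) (XT.nd (nat_lit 234) (nat_lit 0) (nat_lit 0) (XT.nd (nat_lit 78) (nat_lit 0) (nat_lit 0) (XT.lf (nat_lit 0) (nat_lit 543005321259) (nat_lit 152) (nat_lit 607692322015) (nat_lit 0) (nat_lit 467901929661) (nat_lit 1) (nat_lit 5) (nat_lit 3) (nat_lit 4) (nat_lit 1) (nat_lit 4) (nat_lit 330) (nat_lit 259) (nat_lit 131)) (XT.nd (nat_lit 78) (nat_lit 0) (nat_lit 0) (XT.lf (nat_lit 0) (nat_lit 597625586697) (nat_lit 152) (nat_lit 626484853284) (nat_lit 0) (nat_lit 522521901937) (nat_lit 1) (nat_lit 5) (nat_lit 3) (nat_lit 4) (nat_lit 1) (nat_lit 4) (nat_lit 331) (nat_lit 259) (nat_lit 130)) (XT.lf (nat_lit 0) (nat_lit 656615344173) (nat_lit 152) (nat_lit 646781011221) (nat_lit 0)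 (nat_lit 581511387966) (nat_lit 1) (nat_lit 5) (nat_lit 3) (nat_lit 4) (nat_lit 1) (nat_lit 4) (nat_lit 332) (nat_lit 259) (nat_lit 129)))) (XT.nd (nat_lit 156) (nat_lit 0) (nat_lit 0) (XT.nd (nat_lit 78) (nat_lit 0) (nat_lit 0) (XT.lf (nat_lit 0) (nat_lit 720324162618) (nat_lit 152) (nat_lit 668701069354) (nat_lit 0) (nat_lit 645219955072) (nat_lit 1) (nat_lit 5) (nat_lit 3) (nat_lit 4) (nat_lit 1) (nat_lit 4) (nat_lit 333) (nat_lit 259) (nat_lit 128)) (XT.lf (nat_lit 0) (nat_lit 789129575772) (nat_lit 152) (nat_lit 692374924324) (nat_lit 0) (nat_lit 714025135504) (nat_lit 1) (nat_lit 5) (nat_lit 3) (nat_lit 4) (nat_lit 1) (nat_lit 4) (nat_lit 334) (nat_lit 259) (nat_lit 127))) (XT.nd (nat_lit 78) (nat_lit 0) (nat_lit 0) (XT.lf (nat_lit 0) (nat_lit 863439319416) (nat_lit 152) (nat_lit 717942865642) (nat_lit 0) (nat_lit 788334663666) (nat_lit 1) (nat_lit 5) (nat_lit 3) (nat_lit 4)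 (nat_lit 1) (nat_lit 4) (nat_lit 335) (nat_lit 259) (nat_lit 126)) (XT.lf (nat_lit 0) (nat_lit 943693747588) (nat_lit 152) (nat_lit 745556407034) (nat_lit 0) (nat_lit 868588892316) (nat_lit 1) (nat_lit 5) (nat_lit 3) (nat_lit 4) (nat_lit 1) (nat_lit 4) (nat_lit 336) (nat_lit 259) (nat_lit 125))))) (XT.nd (nat_lit 234) (nat_lit 0) (nat_lit 0) (XT.nd (nat_lit 78) (nat_lit 0) (nat_lit 0) (XT.lf (nat_lit 0) (nat_lit 1030368442082) (nat_lit 152) (nat_lit 775379184302) (nat_lit 0) (nat_lit 955263402069) (nat_lit 1) (nat_lit 5) (nat_lit 3) (nat_lit 4) (nat_lit 1) (nat_lit 4) (nat_lit 337) (nat_lit 259) (nat_lit 124)) (XT.nd (nat_lit 78) (nat_lit 0) (nat_lit 0) (XT.lf (nat_lit 0) (nat_lit 1123977030720) (nat_lit 152) (nat_lit 807587925014) (nat_lit 0) (nat_lit 1048871819649) (nat_lit 1) (nat_lit 5) (nat_lit 3) (nat_lit 4) (nat_lit 1) (nat_lit 4) (nat_lit 338) (nat_lit 259) (nat_lit 123))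 (XT.lf (nat_lit 0) (nat_lit 1225074231062) (nat_lit 152) (nat_lit 842373495782) (nat_lit 0) (nat_lit 1149968861605) (nat_lit 1) (nat_lit 5) (nat_lit 3) (nat_lit 4) (nat_lit 1) (nat_lit 4) (nat_lit 339) (nat_lit 259) (nat_lit 122)))) (XT.nd (nat_lit 31356) (nat_lit 0) (nat_lit 1976) (XT.nd (nat_lit 31278) (nat_lit 0) (nat_lit 1976) (XT.lf (nat_lit 0) (nat_lit 1334259137630) (nat_lit 152) (nat_lit 879942033321) (nat_lit 0) (nat_lit 1259153621519) (nat_lit 1) (nat_lit 5) (nat_lit 3) (nat_lit 4) (nat_lit 1) (nat_lit 4) (nat_lit 340) (nat_lit 259) (nat_lit 121)) (XT.lf (nat_lit 0) (nat_lit 3787984809) (nat_lit 0) (nat_lit 3787984809) (nat_lit 380) (nat_lit 2125236757) (nat_lit 27) (nat_lit 5) (nat_lit 27) (nat_lit 3) (nat_lit 32) (nat_lit 3) (nat_lit 260) (nat_lit 260) (nat_lit 200))) (XT.nd (nat_lit 78) (nat_lit 0) (nat_lit 0) (XT.lf (nat_lit 0) (nat_lit 15515916150) (nat_lit 0) (nat_lit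 385269547) (nat_lit 380) (nat_lit 4264212373) (nat_lit 27) (nat_lit 5) (nat_lit 27) (nat_lit 3) (nat_lit 32) (nat_lit 3) (nat_lit 261) (nat_lit 260) (nat_lit 199)) (XT.lf (nat_lit 76) (nat_lit 3069008873) (nat_lit 0) (nat_lit 13878526893) (nat_lit 456) (nat_lit 4023079181) (nat_lit 28) (nat_lit 5) (nat_lit 27) (nat_lit 5) (nat_lit 33) (nat_lit 5) (nat_lit 262) (nat_lit 260) (nat_lit 198))))))))
noncomputable def xc87 : XT := (XT.nd (nat_lit 2106) (nat_lit 456) (nat_lit 0) (XT.nd (nat_lit 1014) (nat_lit 608) (nat_lit 0) (XT.nd (nat_lit 468) (nat_lit 608) (nat_lit 0) (XT.nd (nat_lit 234) (nat_lit 304) (nat_lit 0) (XT.nd (nat_lit 78) (nat_lit 0) (nat_lit 76) (XT.lf (nat_lit 76) (nat_lit 11650438139) (nat_lit 0) (nat_lit 6550728497) (nat_lit 456) (nat_lit 3629350279) (nat_lit 28) (nat_lit 5) (nat_lit 27) (nat_lit 5) (nat_lit 33) (nat_lit 5) (nat_lit 263) (nat_lit 260) (nat_lit 197)) (XT.nd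 (nat_lit 78) (nat_lit 0) (nat_lit 0) (XT.lf (nat_lit 0) (nat_lit 19575663556) (nat_lit 380) (nat_lit 1882655779) (nat_lit 456) (nat_lit 1299387846) (nat_lit 28) (nat_lit 5) (nat_lit 33) (nat_lit 5) (nat_lit 34) (nat_lit 5) (nat_lit 264) (nat_lit 260) (nat_lit 196)) (XT.lf (nat_lit 76) (nat_lit 7263386617) (nat_lit 0) (nat_lit 14130259927) (nat_lit 456) (nat_lit 2338875675) (nat_lit 29) (nat_lit 5) (nat_lit 28) (nat_lit 5) (nat_lit 34) (nat_lit 5) (nat_lit 265) (nat_lit 260) (nat_lit 195)))) (XT.nd (nat_lit 78) (nat_lit 380) (nat_lit 0) (XT.lf (nat_lit 76) (nat_lit 17240022936) (nat_lit 0) (nat_lit 6157854650) (nat_lit 456) (nat_lit 1384302024) (nat_lit 29) (nat_lit 5) (nat_lit 28) (nat_lit 5) (nat_lit 34) (nat_lit 5) (nat_lit 266) (nat_lit 260) (nat_lit 194)) (XT.nd (nat_lit 78) (nat_lit 76) (nat_lit 0) (XT.lf (nat_lit 0) (nat_lit 2138464019) (nat_lit 380) (nat_lit 23524572284) (nat_lit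 456) (nat_lit 244839027) (nat_lit 24) (nat_lit 5) (nat_lit 29) (nat_lit 5) (nat_lit 30) (nat_lit 5) (nat_lit 267) (nat_lit 260) (nat_lit 193)) (XT.lf (nat_lit 0) (nat_lit 1298352108) (nat_lit 456) (nat_lit 14282575300) (nat_lit 76) (nat_lit 11511948718) (nat_lit 23) (nat_lit 5) (nat_lit 29) (nat_lit 5) (nat_lit 24) (nat_lit 5) (nat_lit 268) (nat_lit 260) (nat_lit 192))))) (XT.nd (nat_lit 234) (nat_lit 380) (nat_lit 0) (XT.nd (nat_lit 78) (nat_lit 228) (nat_lit 0) (XT.lf (nat_lit 0) (nat_lit 2942851789) (nat_lit 456) (nat_lit 4051393321) (nat_lit 76) (nat_lit 21378726247) (nat_lit 23) (nat_lit 5) (nat_lit 29) (nat_lit 5) (nat_lit 24) (nat_lit 5) (nat_lit 269) (nat_lit 260) (nat_lit 191)) (XT.nd (nat_lit 78) (nat_lit 0) (nat_lit 0) (XT.lf (nat_lit 0) (nat_lit 4947062456) (nat_lit 304) (nat_lit 22442722851) (nat_lit 76) (nat_lit 2347519785) (nat_lit 20) (nat_lit 5) (nat_lit 24) (nat_lit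 5) (nat_lit 21) (nat_lit 5) (nat_lit 270) (nat_lit 260) (nat_lit 190)) (XT.lf (nat_lit 0) (nat_lit 7399111929) (nat_lit 304) (nat_lit 11615977453) (nat_lit 76) (nat_lit 12172772807) (nat_lit 20) (nat_lit 5) (nat_lit 24) (nat_lit 5) (nat_lit 21) (nat_lit 5) (nat_lit 271) (nat_lit 260) (nat_lit 189)))) (XT.nd (nat_lit 156) (nat_lit 152) (nat_lit 0) (XT.nd (nat_lit 78) (nat_lit 0) (nat_lit 0) (XT.lf (nat_lit 0) (nat_lit 73013741) (nat_lit 228) (nat_lit 9968830355) (nat_lit 304) (nat_lit 22713129388) (nat_lit 17) (nat_lit 5) (nat_lit 20) (nat_lit 5) (nat_lit 21) (nat_lit 5) (nat_lit 272) (nat_lit 260) (nat_lit 188)) (XT.lf (nat_lit 0) (nat_lit 13210173265) (nat_lit 304) (nat_lit 21075736814) (nat_lit 76) (nat_lit 136475188) (nat_lit 17) (nat_lit 5) (nat_lit 21) (nat_lit 5) (nat_lit 18) (nat_lit 5) (nat_lit 273) (nat_lit 260) (nat_lit 187))) (XT.nd (nat_lit 78) (nat_lit 152) (nat_lit 0)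 (XT.lf (nat_lit 0) (nat_lit 16884520238) (nat_lit 304) (nat_lit 8807316952) (nat_lit 76) (nat_lit 10511209670) (nat_lit 17) (nat_lit 5) (nat_lit 21) (nat_lit 5) (nat_lit 18) (nat_lit 5) (nat_lit 274) (nat_lit 260) (nat_lit 186)) (XT.lf (nat_lit 0) (nat_lit 4669331050) (nat_lit 152) (nat_lit 16289874786) (nat_lit 228) (nat_lit 17158500739) (nat_lit 15) (nat_lit 5) (nat_lit 17) (nat_lit 5) (nat_lit 18) (nat_lit 5) (nat_lit 275) (nat_lit 260) (nat_lit 185)))))) (XT.nd (nat_lit 546) (nat_lit 228) (nat_lit 0) (XT.nd (nat_lit 234) (nat_lit 228) (nat_lit 0) (XT.nd (nat_lit 78) (nat_lit 152) (nat_lit 0) (XT.lf (nat_lit 0) (nat_lit 19718339281) (nat_lit 152) (nat_lit 5876705558) (nat_lit 228) (nat_lit 14571732226) (nat_lit 15) (nat_lit 5) (nat_lit 17) (nat_lit 5) (nat_lit 18) (nat_lit 5) (nat_lit 276) (nat_lit 260) (nat_lit 184)) (XT.nd (nat_lit 78) (nat_lit 152) (nat_lit 0) (XT.lf (nat_lit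 0) (nat_lit 30725653087) (nat_lit 228) (nat_lit 6544243478) (nat_lit 76) (nat_lit 5100012868) (nat_lit 15) (nat_lit 5) (nat_lit 18) (nat_lit 5) (nat_lit 16) (nat_lit 5) (nat_lit 277) (nat_lit 260) (nat_lit 183)) (XT.lf (nat_lit 0) (nat_lit 8751308102) (nat_lit 152) (nat_lit 27873665642) (nat_lit 228) (nat_lit 8095702371) (nat_lit 13) (nat_lit 5) (nat_lit 15) (nat_lit 5) (nat_lit 16) (nat_lit 5) (nat_lit 278) (nat_lit 260) (nat_lit 182)))) (XT.nd (nat_lit 156) (nat_lit 152) (nat_lit 0) (XT.nd (nat_lit 78) (nat_lit 76) (nat_lit 0) (XT.lf (nat_lit 0) (nat_lit 25636723038) (nat_lit 152) (nat_lit 17533816868) (nat_lit 228) (nat_lit 4075061739) (nat_lit 13) (nat_lit 5) (nat_lit 15) (nat_lit 5) (nat_lit 16) (nat_lit 5) (nat_lit 279) (nat_lit 260) (nat_lit 181)) (XT.lf (nat_lit 0) (nat_lit 249426021) (nat_lit 228) (nat_lit 6111762510) (nat_lit 76) (nat_lit 43611209013) (nat_lit 12) (nat_lit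 5) (nat_lit 15) (nat_lit 5) (nat_lit 13) (nat_lit 5) (nat_lit 280) (nat_lit 260) (nat_lit 180))) (XT.nd (nat_lit 78) (nat_lit 0) (nat_lit 0) (XT.lf (nat_lit 0) (nat_lit 5108625469) (nat_lit 228) (nat_lit 41967216722) (nat_lit 76) (nat_lit 5800347264) (nat_lit 10) (nat_lit 5) (nat_lit 13) (nat_lit 5) (nat_lit 11) (nat_lit 5) (nat_lit 281) (nat_lit 260) (nat_lit 179)) (XT.lf (nat_lit 0) (nat_lit 10689273418) (nat_lit 228) (nat_lit 26535069281) (nat_lit 76) (nat_lit 18761355520) (nat_lit 10) (nat_lit 5) (nat_lit 13) (nat_lit 5) (nat_lit 11) (nat_lit 5) (nat_lit 282) (nat_lit 260) (nat_lit 178))))) (XT.nd (nat_lit 234) (nat_lit 76) (nat_lit 0) (XT.nd (nat_lit 78) (nat_lit 152) (nat_lit 0) (XT.lf (nat_lit 0) (nat_lit 16712706560) (nat_lit 228) (nat_lit 9873475158) (nat_lit 76) (nat_lit 32758107546) (nat_lit 10) (nat_lit 5) (nat_lit 13) (nat_lit 5) (nat_lit 11) (nat_lit 5) (nat_lit 283)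 (nat_lit 260) (nat_lit 177)) (XT.nd (nat_lit 78) (nat_lit 0) (nat_lit 0) (XT.lf (nat_lit 0) (nat_lit 8543691049) (nat_lit 152) (nat_lit 14876404238) (nat_lit 228) (nat_lit 39535331984) (nat_lit 8) (nat_lit 5) (nat_lit 10) (nat_lit 5) (nat_lit 11) (nat_lit 5) (nat_lit 284) (nat_lit 260) (nat_lit 176)) (XT.lf (nat_lit 0) (nat_lit 28991118499) (nat_lit 152) (nat_lit 1939660127) (nat_lit 228) (nat_lit 35903365628) (nat_lit 8) (nat_lit 5) (nat_lit 10) (nat_lit 5) (nat_lit 11) (nat_lit 5) (nat_lit 285) (nat_lit 260) (nat_lit 175)))) (XT.nd (nat_lit 156) (nat_lit 76) (nat_lit 0) (XT.nd (nat_lit 78) (nat_lit 0) (nat_lit 0) (XT.lf (nat_lit 0) (nat_lit 39328642868) (nat_lit 228) (nat_lit 20242704623) (nat_lit 76) (nat_lit 11428927429) (nat_lit 8) (nat_lit 5) (nat_lit 11) (nat_lit 5) (nat_lit 9) (nat_lit 4) (nat_lit 286) (nat_lit 260) (nat_lit 174)) (XT.lf (nat_lit 0) (nat_lit 48445898310) (nat_lit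 228) (nat_lit 1288919803) (nat_lit 76) (nat_lit 25761093724) (nat_lit 8) (nat_lit 5) (nat_lit 11) (nat_lit 5) (nat_lit 9) (nat_lit 4) (nat_lit 287) (nat_lit 260) (nat_lit 173))) (XT.nd (nat_lit 78) (nat_lit 0) (nat_lit 0) (XT.lf (nat_lit 0) (nat_lit 20187138741) (nat_lit 76) (nat_lit 38588286690) (nat_lit 152) (nat_lit 21537162200) (nat_lit 7) (nat_lit 5) (nat_lit 8) (nat_lit 5) (nat_lit 9) (nat_lit 4) (nat_lit 288) (nat_lit 260) (nat_lit 172)) (XT.lf (nat_lit 0) (nat_lit 43450810494) (nat_lit 76) (nat_lit 26513238229) (nat_lit 152) (nat_lit 15547947846) (nat_lit 7) (nat_lit 5) (nat_lit 8) (nat_lit 5) (nat_lit 9) (nat_lit 4) (nat_lit 289) (nat_lit 260) (nat_lit 171))))))) (XT.nd (nat_lit 1014) (nat_lit 228) (nat_lit 0) (XT.nd (nat_lit 468) (nat_lit 76) (nat_lit 0) (XT.nd (nat_lit 234) (nat_lit 0) (nat_lit 0) (XT.nd (nat_lit 78) (nat_lit 152) (nat_lit 0) (XT.lf (nat_lit 0) (nat_lit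 68572082018) (nat_lit 76) (nat_lit 13473358238) (nat_lit 152) (nat_lit 9082120178) (nat_lit 7) (nat_lit 5) (nat_lit 8) (nat_lit 5) (nat_lit 9) (nat_lit 4) (nat_lit 290) (nat_lit 260) (nat_lit 170)) (XT.nd (nat_lit 78) (nat_lit 152) (nat_lit 0) (XT.lf (nat_lit 0) (nat_lit 95105830947) (nat_lit 152) (nat_lit 1507374019) (nat_lit 0) (nat_lit 578180675) (nat_lit 7) (nat_lit 5) (nat_lit 9) (nat_lit 4) (nat_lit 7) (nat_lit 4) (nat_lit 291) (nat_lit 260) (nat_lit 169)) (XT.lf (nat_lit 0) (nat_lit 6096150749) (nat_lit 152) (nat_lit 81854025520) (nat_lit 76) (nat_lit 15707701325) (nat_lit 5) (nat_lit 5) (nat_lit 7) (nat_lit 5) (nat_lit 6) (nat_lit 4) (nat_lit 292) (nat_lit 260) (nat_lit 168)))) (XT.nd (nat_lit 78) (nat_lit 0) (nat_lit 0) (XT.lf (nat_lit 0) (nat_lit 14860001413) (nat_lit 152) (nat_lit 63631113185) (nat_lit 76) (nat_lit 32143030168) (nat_lit 5) (nat_lit 5) (nat_lit 7) (nat_lit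 5) (nat_lit 6) (nat_lit 4) (nat_lit 293) (nat_lit 260) (nat_lit 167)) (XT.nd (nat_lit 78) (nat_lit 0) (nat_lit 0) (XT.lf (nat_lit 0) (nat_lit 24323106546) (nat_lit 152) (nat_lit 43953314736) (nat_lit 76) (nat_lit 49892251533) (nat_lit 5) (nat_lit 5) (nat_lit 7) (nat_lit 5) (nat_lit 6) (nat_lit 4) (nat_lit 294) (nat_lit 260) (nat_lit 166)) (XT.lf (nat_lit 0) (nat_lit 34541543807) (nat_lit 152) (nat_lit 22704020997) (nat_lit 76) (nat_lit 69060545992) (nat_lit 5) (nat_lit 5) (nat_lit 7) (nat_lit 5) (nat_lit 6) (nat_lit 4) (nat_lit 295) (nat_lit 260) (nat_lit 165))))) (XT.nd (nat_lit 234) (nat_lit 0) (nat_lit 0) (XT.nd (nat_lit 78) (nat_lit 0) (nat_lit 0) (XT.lf (nat_lit 0) (nat_lit 255469385) (nat_lit 76) (nat_lit 45326541560) (nat_lit 152) (nat_lit 89512178097) (nat_lit 4) (nat_lit 5) (nat_lit 5) (nat_lit 5) (nat_lit 6) (nat_lit 4) (nat_lit 296) (nat_lit 260) (nat_lit 164)) (XT.nd (nat_lit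 78) (nat_lit 0) (nat_lit 0) (XT.lf (nat_lit 0) (nat_lit 26340454282) (nat_lit 76) (nat_lit 31784498683) (nat_lit 152) (nat_lit 86410830485) (nat_lit 4) (nat_lit 5) (nat_lit 5) (nat_lit 5) (nat_lit 6) (nat_lit 4) (nat_lit 297) (nat_lit 260) (nat_lit 163)) (XT.lf (nat_lit 0) (nat_lit 54509957871) (nat_lit 76) (nat_lit 17159955199) (nat_lit 152) (nat_lit 83062913968) (nat_lit 4) (nat_lit 5) (nat_lit 5) (nat_lit 5) (nat_lit 6) (nat_lit 4) (nat_lit 298) (nat_lit 260) (nat_lit 162)))) (XT.nd (nat_lit 156) (nat_lit 0) (nat_lit 0) (XT.nd (nat_lit 78) (nat_lit 0) (nat_lit 0) (XT.lf (nat_lit 0) (nat_lit 84930910544) (nat_lit 76) (nat_lit 1366247147) (nat_lit 152) (nat_lit 79448589039) (nat_lit 4) (nat_lit 5) (nat_lit 5) (nat_lit 5) (nat_lit 6) (nat_lit 4) (nat_lit 299) (nat_lit 260) (nat_lit 161)) (XT.lf (nat_lit 0) (nat_lit 102470716912) (nat_lit 152) (nat_lit 60233569777) (nat_lit 0) (nat_lit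 14905329576) (nat_lit 4) (nat_lit 5) (nat_lit 6) (nat_lit 4) (nat_lit 4) (nat_lit 4) (nat_lit 300) (nat_lit 260) (nat_lit 160))) (XT.nd (nat_lit 78) (nat_lit 0) (nat_lit 0) (XT.lf (nat_lit 0) (nat_lit 119972506257) (nat_lit 152) (nat_lit 38043179088) (nat_lit 0) (nat_lit 32404168930) (nat_lit 4) (nat_lit 5) (nat_lit 6) (nat_lit 4) (nat_lit 4) (nat_lit 4) (nat_lit 301) (nat_lit 260) (nat_lit 159)) (XT.lf (nat_lit 0) (nat_lit 138873381756) (nat_lit 152) (nat_lit 14079307233) (nat_lit 0) (nat_lit 51302312957) (nat_lit 4) (nat_lit 5) (nat_lit 6) (nat_lit 4) (nat_lit 4) (nat_lit 4) (nat_lit 302) (nat_lit 260) (nat_lit 158)))))) (XT.nd (nat_lit 546) (nat_lit 152) (nat_lit 0) (XT.nd (nat_lit 234) (nat_lit 0) (nat_lit 0) (XT.nd (nat_lit 78) (nat_lit 0) (nat_lit 0) (XT.lf (nat_lit 0) (nat_lit 12421423846) (nat_lit 76) (nat_lit 147162660295) (nat_lit 76) (nat_lit 59589062354) (nat_lit 3) (nat_lit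 4) (nat_lit 4) (nat_lit 5) (nat_lit 4) (nat_lit 4) (nat_lit 303) (nat_lit 260) (nat_lit 157)) (XT.nd (nat_lit 78) (nat_lit 0) (nat_lit 0) (XT.lf (nat_lit 0) (nat_lit 41841336661) (nat_lit 76) (nat_lit 140494315080) (nat_lit 76) (nat_lit 52918375341) (nat_lit 3) (nat_lit 4) (nat_lit 4) (nat_lit 5) (nat_lit 4) (nat_lit 4) (nat_lit 304) (nat_lit 260) (nat_lit 156)) (XT.lf (nat_lit 0) (nat_lit 73613380069) (nat_lit 76) (nat_lit 133293090433) (nat_lit 76) (nat_lit 45714982364) (nat_lit 3) (nat_lit 4) (nat_lit 4) (nat_lit 5) (nat_lit 4) (nat_lit 4) (nat_lit 305) (nat_lit 260) (nat_lit 155)))) (XT.nd (nat_lit 156) (nat_lit 0) (nat_lit 0) (XT.nd (nat_lit 78) (nat_lit 0) (nat_lit 0) (XT.lf (nat_lit 0) (nat_lit 107925832845) (nat_lit 76) (nat_lit 125516312433) (nat_lit 76) (nat_lit 37936196649) (nat_lit 3) (nat_lit 4) (nat_lit 4) (nat_lit 5) (nat_lit 4) (nat_lit 4) (nat_lit 306) (nat_lit 260)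 (nat_lit 154)) (XT.lf (nat_lit 0) (nat_lit 144982028041) (nat_lit 76) (nat_lit 117117896467) (nat_lit 76) (nat_lit 29535921689) (nat_lit 3) (nat_lit 4) (nat_lit 4) (nat_lit 5) (nat_lit 4) (nat_lit 4) (nat_lit 307) (nat_lit 260) (nat_lit 153))) (XT.nd (nat_lit 78) (nat_lit 0) (nat_lit 0) (XT.lf (nat_lit 0) (nat_lit 185001557927) (nat_lit 76) (nat_lit 108048074146) (nat_lit 76) (nat_lit 20464378077) (nat_lit 3) (nat_lit 4) (nat_lit 4) (nat_lit 5) (nat_lit 4) (nat_lit 4) (nat_lit 308) (nat_lit 260) (nat_lit 152)) (XT.lf (nat_lit 0) (nat_lit 228221575272) (nat_lit 76) (nat_lit 98253098374) (nat_lit 76) (nat_lit 10667808517) (nat_lit 3) (nat_lit 4) (nat_lit 4) (nat_lit 5) (nat_lit 4) (nat_lit 4) (nat_lit 309) (nat_lit 260) (nat_lit 151))))) (XT.nd (nat_lit 234) (nat_lit 76) (nat_lit 0) (XT.nd (nat_lit 78) (nat_lit 76) (nat_lit 0) (XT.lf (nat_lit 0) (nat_lit 274898198697) (nat_lit 76) (nat_lit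 87674924851) (nat_lit 76) (nat_lit 88159264) (nat_lit 3) (nat_lit 4) (nat_lit 4) (nat_lit 5) (nat_lit 4) (nat_lit 4) (nat_lit 310) (nat_lit 260) (nat_lit 150)) (XT.nd (nat_lit 78) (nat_lit 0) (nat_lit 0) (XT.lf (nat_lit 0) (nat_lit 10770128044) (nat_lit 152) (nat_lit 65186265671) (nat_lit 76) (nat_lit 314243427983) (nat_lit 2) (nat_lit 5) (nat_lit 4) (nat_lit 5) (nat_lit 3) (nat_lit 4) (nat_lit 311) (nat_lit 260) (nat_lit 149)) (XT.lf (nat_lit 0) (nat_lit 22491789415) (nat_lit 152) (nat_lit 40806475219) (nat_lit 76) (nat_lit 356643040556) (nat_lit 2) (nat_lit 5) (nat_lit 4) (nat_lit 5) (nat_lit 3) (nat_lit 4) (nat_lit 312) (nat_lit 260) (nat_lit 148)))) (XT.nd (nat_lit 156) (nat_lit 0) (nat_lit 0) (XT.nd (nat_lit 78) (nat_lit 76) (nat_lit 0) (XT.lf (nat_lit 0) (nat_lit 35150696631) (nat_lit 152) (nat_lit 14477119691) (nat_lit 76) (nat_lit 402434332411) (nat_lit 2) (nat_lit 5) (nat_lit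 4) (nat_lit 5) (nat_lit 3) (nat_lit 4) (nat_lit 313) (nat_lit 260) (nat_lit 147)) (XT.lf (nat_lit 0) (nat_lit 14692821140) (nat_lit 76) (nat_lit 34482406999) (nat_lit 152) (nat_lit 437549200912) (nat_lit 1) (nat_lit 5) (nat_lit 2) (nat_lit 5) (nat_lit 3) (nat_lit 4) (nat_lit 314) (nat_lit 260) (nat_lit 146))) (XT.nd (nat_lit 78) (nat_lit 0) (nat_lit 0) (XT.lf (nat_lit 0) (nat_lit 47018945485) (nat_lit 76) (nat_lit 17698171453) (nat_lit 152) (nat_lit 459410945338) (nat_lit 1) (nat_lit 5) (nat_lit 2) (nat_lit 5) (nat_lit 3) (nat_lit 4) (nat_lit 315) (nat_lit 260) (nat_lit 145)) (XT.lf (nat_lit 0) (nat_lit 81512259723) (nat_lit 152) (nat_lit 482603850197) (nat_lit 0) (nat_lit 407085919) (nat_lit 1) (nat_lit 5) (nat_lit 3) (nat_lit 4) (nat_lit 1) (nat_lit 4) (nat_lit 316) (nat_lit 260) (nat_lit 144))))))))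
noncomputable def xc88 : XT := (XT.nd (nat_lit 33306) (nat_lit 0) (nat_lit 456) (XT.nd (nat_lit 1014) (nat_lit 0) (nat_lit 0) (XT.nd (nat_lit 468) (nat_lit 0) (nat_lit 0) (XT.nd (nat_lit 234) (nat_lit 0) (nat_lit 0) (XT.nd (nat_lit 78) (nat_lit 0) (nat_lit 0) (XT.lf (nat_lit 0) (nat_lit 100110327214) (nat_lit 152) (nat_lit 488998513458) (nat_lit 0) (nat_lit 19004356120) (nat_lit 1) (nat_lit 5) (nat_lit 3) (nat_lit 4) (nat_lit 1) (nat_lit 4) (nat_lit 317) (nat_lit 260) (nat_lit 143)) (XT.nd (nat_lit 78) (nat_lit 0) (nat_lit 0) (XT.lf (nat_lit 0) (nat_lit 120195888734) (nat_lit 152) (nat_lit 495905359429) (nat_lit 0) (nat_lit 39089179407) (nat_lit 1) (nat_lit 5) (nat_lit 3) (nat_lit 4) (nat_lit 1) (nat_lit 4) (nat_lit 318) (nat_lit 260) (nat_lit 142)) (XT.lf (nat_lit 0) (nat_lit 141887969832) (nat_lit 152) (nat_lit 503365317566) (nat_lit 0) (nat_lit 60780576957) (nat_lit 1) (nat_lit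 5) (nat_lit 3) (nat_lit 4) (nat_lit 1) (nat_lit 4) (nat_lit 319) (nat_lit 260) (nat_lit 141)))) (XT.nd (nat_lit 78) (nat_lit 0) (nat_lit 0) (XT.lf (nat_lit 0) (nat_lit 165315116173) (nat_lit 152) (nat_lit 511422595029) (nat_lit 0) (nat_lit 84207090383) (nat_lit 1) (nat_lit 5) (nat_lit 3) (nat_lit 4) (nat_lit 1) (nat_lit 4) (nat_lit 320) (nat_lit 260) (nat_lit 140)) (XT.nd (nat_lit 78) (nat_lit 0) (nat_lit 0) (XT.lf (nat_lit 0) (nat_lit 190616155292) (nat_lit 152) (nat_lit 520124938647) (nat_lit 0) (nat_lit 109507543469) (nat_lit 1) (nat_lit 5) (nat_lit 3) (nat_lit 4) (nat_lit 1) (nat_lit 4) (nat_lit 321) (nat_lit 260) (nat_lit 139)) (XT.lf (nat_lit 0) (nat_lit 217941019273) (nat_lit 152) (nat_lit 529523917864) (nat_lit 0) (nat_lit 136831864827) (nat_lit 1) (nat_lit 5) (nat_lit 3) (nat_lit 4) (nat_lit 1) (nat_lit 4) (nat_lit 322) (nat_lit 260) (nat_lit 138))))) (XT.nd (nat_lit 234)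 (nat_lit 0) (nat_lit 0) (XT.nd (nat_lit 78) (nat_lit 0) (nat_lit 0) (XT.lf (nat_lit 0) (nat_lit 247451633234) (nat_lit 152) (nat_lit 539675230334) (nat_lit 0) (nat_lit 166341976360) (nat_lit 1) (nat_lit 5) (nat_lit 3) (nat_lit 4) (nat_lit 1) (nat_lit 4) (nat_lit 323) (nat_lit 260) (nat_lit 137)) (XT.nd (nat_lit 78) (nat_lit 0) (nat_lit 0) (XT.lf (nat_lit 0) (nat_lit 279322874890) (nat_lit 152) (nat_lit 550639031984) (nat_lit 0) (nat_lit 198212752804) (nat_lit 1) (nat_lit 5) (nat_lit 3) (nat_lit 4) (nat_lit 1) (nat_lit 4) (nat_lit 324) (nat_lit 260) (nat_lit 136)) (XT.lf (nat_lit 0) (nat_lit 313743610855) (nat_lit 152) (nat_lit 562480293489) (nat_lit 0) (nat_lit 232633058018) (nat_lit 1) (nat_lit 5) (nat_lit 3) (nat_lit 4) (nat_lit 1) (nat_lit 4) (nat_lit 325) (nat_lit 260) (nat_lit 135)))) (XT.nd (nat_lit 156) (nat_lit 0) (nat_lit 0) (XT.nd (nat_lit 78) (nat_lit 0) (nat_lit 0) (XT.lf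 (nat_lit 0) (nat_lit 350917815864) (nat_lit 152) (nat_lit 575269185288) (nat_lit 0) (nat_lit 269806864182) (nat_lit 1) (nat_lit 5) (nat_lit 3) (nat_lit 4) (nat_lit 1) (nat_lit 4) (nat_lit 326) (nat_lit 260) (nat_lit 134)) (XT.lf (nat_lit 0) (nat_lit 391065781500) (nat_lit 152) (nat_lit 589081493407) (nat_lit 0) (nat_lit 309954460518) (nat_lit 1) (nat_lit 5) (nat_lit 3) (nat_lit 4) (nat_lit 1) (nat_lit 4) (nat_lit 327) (nat_lit 260) (nat_lit 133))) (XT.nd (nat_lit 78) (nat_lit 0) (nat_lit 0) (XT.lf (nat_lit 0) (nat_lit 434425421634) (nat_lit 152) (nat_lit 603999068561) (nat_lit 0) (nat_lit 353313758708) (nat_lit 1) (nat_lit 5) (nat_lit 3) (nat_lit 4) (nat_lit 1) (nat_lit 4) (nat_lit 328) (nat_lit 260) (nat_lit 132)) (XT.lf (nat_lit 0) (nat_lit 481253682281) (nat_lit 152) (nat_lit 620110311194) (nat_lit 0) (nat_lit 400141702741) (nat_lit 1) (nat_lit 5) (nat_lit 3) (nat_lit 4) (nat_lit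 1) (nat_lit 4) (nat_lit 329) (nat_lit 260) (nat_lit 131)))))) (XT.nd (nat_lit 468) (nat_lit 0) (nat_lit 0) (XT.nd (nat_lit 234) (nat_lit 0) (nat_lit 0) (XT.nd (nat_lit 78) (nat_lit 0) (nat_lit 0) (XT.lf (nat_lit 0) (nat_lit 531828064247) (nat_lit 152) (nat_lit 637510695337) (nat_lit 0) (nat_lit 450715791544) (nat_lit 1) (nat_lit 5) (nat_lit 3) (nat_lit 4) (nat_lit 1) (nat_lit 4) (nat_lit 330) (nat_lit 260) (nat_lit 130)) (XT.nd (nat_lit 78) (nat_lit 0) (nat_lit 0) (XT.lf (nat_lit 0) (nat_lit 586448267571) (nat_lit 152) (nat_lit 656303334379) (nat_lit 0) (nat_lit 505335723421) (nat_lit 1) (nat_lit 5) (nat_lit 3) (nat_lit 4) (nat_lit 1) (nat_lit 4) (nat_lit 331) (nat_lit 260) (nat_lit 129)) (XT.lf (nat_lit 0) (nat_lit 645437967532) (nat_lit 152) (nat_lit 676599592104) (nat_lit 0) (nat_lit 564325172044) (nat_lit 1) (nat_lit 5) (nat_lit 3) (nat_lit 4) (nat_lit 1) (nat_lit 4) (nat_lit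 332) (nat_lit 260) (nat_lit 128)))) (XT.nd (nat_lit 78) (nat_lit 0) (nat_lit 0) (XT.lf (nat_lit 0) (nat_lit 709146732724) (nat_lit 152) (nat_lit 698519742635) (nat_lit 0) (nat_lit 628033704514) (nat_lit 1) (nat_lit 5) (nat_lit 3) (nat_lit 4) (nat_lit 1) (nat_lit 4) (nat_lit 333) (nat_lit 260) (nat_lit 127)) (XT.nd (nat_lit 78) (nat_lit 0) (nat_lit 0) (XT.lf (nat_lit 0) (nat_lit 777952096570) (nat_lit 152) (nat_lit 722193683158) (nat_lit 0) (nat_lit 696838852876) (nat_lit 1) (nat_lit 5) (nat_lit 3) (nat_lit 4) (nat_lit 1) (nat_lit 4) (nat_lit 334) (nat_lit 260) (nat_lit 126)) (XT.lf (nat_lit 0) (nat_lit 852261794558) (nat_lit 152) (nat_lit 747761703692) (nat_lit 0) (nat_lit 771148351344) (nat_lit 1) (nat_lit 5) (nat_lit 3) (nat_lit 4) (nat_lit 1) (nat_lit 4) (nat_lit 335) (nat_lit 260) (nat_lit 125))))) (XT.nd (nat_lit 234) (nat_lit 0) (nat_lit 0) (XT.nd (nat_lit 78) (nat_lit 0) (nat_lit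 0) (XT.lf (nat_lit 0) (nat_lit 932516180455) (nat_lit 152) (nat_lit 775375318432) (nat_lit 0) (nat_lit 851402552499) (nat_lit 1) (nat_lit 5) (nat_lit 3) (nat_lit 4) (nat_lit 1) (nat_lit 4) (nat_lit 336) (nat_lit 260) (nat_lit 124)) (XT.nd (nat_lit 78) (nat_lit 0) (nat_lit 0) (XT.lf (nat_lit 0) (nat_lit 1019190835807) (nat_lit 152) (nat_lit 805198163615) (nat_lit 0) (nat_lit 938077036793) (nat_lit 1) (nat_lit 5) (nat_lit 3) (nat_lit 4) (nat_lit 1) (nat_lit 4) (nat_lit 337) (nat_lit 260) (nat_lit 123)) (XT.lf (nat_lit 0) (nat_lit 1112799388201) (nat_lit 152) (nat_lit 837406967211) (nat_lit 0) (nat_lit 1031685430801) (nat_lit 1) (nat_lit 5) (nat_lit 3) (nat_lit 4) (nat_lit 1) (nat_lit 4) (nat_lit 338) (nat_lit 260) (nat_lit 122)))) (XT.nd (nat_lit 31434) (nat_lit 0) (nat_lit 1976) (XT.nd (nat_lit 78) (nat_lit 0) (nat_lit 0) (XT.lf (nat_lit 0) (nat_lit 1213896554985) (nat_lit 152) (nat_lit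 872192596204) (nat_lit 0) (nat_lit 1132782450931) (nat_lit 1) (nat_lit 5) (nat_lit 3) (nat_lit 4) (nat_lit 1) (nat_lit 4) (nat_lit 339) (nat_lit 260) (nat_lit 121)) (XT.lf (nat_lit 0) (nat_lit 1323081430480) (nat_lit 152) (nat_lit 909761187656) (nat_lit 0) (nat_lit 1241967190635) (nat_lit 1) (nat_lit 5) (nat_lit 3) (nat_lit 4) (nat_lit 1) (nat_lit 4) (nat_lit 340) (nat_lit 260) (nat_lit 120))) (XT.nd (nat_lit 78) (nat_lit 0) (nat_lit 0) (XT.lf (nat_lit 0) (nat_lit 4160886431) (nat_lit 0) (nat_lit 4160886431) (nat_lit 380) (nat_lit 2142734155) (nat_lit 27) (nat_lit 5) (nat_lit 27) (nat_lit 3) (nat_lit 32) (nat_lit 3) (nat_lit 261) (nat_lit 261) (nat_lit 198)) (XT.lf (nat_lit 0) (nat_lit 16886565065) (nat_lit 0) (nat_lit 545466735) (nat_lit 380) (nat_lit 4322902060) (nat_lit 27) (nat_lit 5) (nat_lit 27) (nat_lit 3) (nat_lit 32) (nat_lit 3) (nat_lit 262) (nat_lit 261) (nat_lit 197)))))))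 (XT.nd (nat_lit 1014) (nat_lit 760) (nat_lit 0) (XT.nd (nat_lit 468) (nat_lit 532) (nat_lit 0) (XT.nd (nat_lit 234) (nat_lit 228) (nat_lit 0) (XT.nd (nat_lit 78) (nat_lit 0) (nat_lit 0) (XT.lf (nat_lit 76) (nat_lit 3466758745) (nat_lit 0) (nat_lit 15076944479) (nat_lit 456) (nat_lit 4082557718) (nat_lit 28) (nat_lit 5) (nat_lit 27) (nat_lit 5) (nat_lit 33) (nat_lit 5) (nat_lit 263) (nat_lit 261) (nat_lit 196)) (XT.nd (nat_lit 78) (nat_lit 0) (nat_lit 76) (XT.lf (nat_lit 76) (nat_lit 12723426117) (nat_lit 0) (nat_lit 7156393662) (nat_lit 456) (nat_lit 3676765155) (nat_lit 28) (nat_lit 5) (nat_lit 27) (nat_lit 5) (nat_lit 33) (nat_lit 5) (nat_lit 264) (nat_lit 261) (nat_lit 195)) (XT.lf (nat_lit 0) (nat_lit 21345973274) (nat_lit 380) (nat_lit 1882074807) (nat_lit 456) (nat_lit 1331556857) (nat_lit 28) (nat_lit 5) (nat_lit 33) (nat_lit 5) (nat_lit 34) (nat_lit 5) (nat_lit 265) (nat_lit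 261) (nat_lit 194)))) (XT.nd (nat_lit 78) (nat_lit 304) (nat_lit 0) (XT.lf (nat_lit 76) (nat_lit 7991823299) (nat_lit 0) (nat_lit 15305985631) (nat_lit 456) (nat_lit 2315699296) (nat_lit 29) (nat_lit 5) (nat_lit 28) (nat_lit 5) (nat_lit 34) (nat_lit 5) (nat_lit 266) (nat_lit 261) (nat_lit 193)) (XT.nd (nat_lit 78) (nat_lit 304) (nat_lit 0) (XT.lf (nat_lit 76) (nat_lit 18755674542) (nat_lit 0) (nat_lit 6692432013) (nat_lit 456) (nat_lit 1300336526) (nat_lit 29) (nat_lit 5) (nat_lit 28) (nat_lit 5) (nat_lit 34) (nat_lit 5) (nat_lit 267) (nat_lit 261) (nat_lit 192)) (XT.lf (nat_lit 0) (nat_lit 2459417784) (nat_lit 380) (nat_lit 25424515856) (nat_lit 456) (nat_lit 81255402) (nat_lit 24) (nat_lit 5) (nat_lit 29) (nat_lit 5) (nat_lit 30) (nat_lit 5) (nat_lit 268) (nat_lit 261) (nat_lit 191))))) (XT.nd (nat_lit 234) (nat_lit 228) (nat_lit 0) (XT.nd (nat_lit 78) (nat_lit 228) (nat_lit 0)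 (XT.lf (nat_lit 0) (nat_lit 1563338614) (nat_lit 456) (nat_lit 15276303826) (nat_lit 76) (nat_lit 12406155686) (nat_lit 23) (nat_lit 5) (nat_lit 29) (nat_lit 5) (nat_lit 24) (nat_lit 5) (nat_lit 269) (nat_lit 261) (nat_lit 190)) (XT.nd (nat_lit 78) (nat_lit 228) (nat_lit 0) (XT.lf (nat_lit 0) (nat_lit 3327463578) (nat_lit 456) (nat_lit 4237655252) (nat_lit 76) (nat_lit 23064256820) (nat_lit 23) (nat_lit 5) (nat_lit 29) (nat_lit 5) (nat_lit 24) (nat_lit 5) (nat_lit 270) (nat_lit 261) (nat_lit 189)) (XT.lf (nat_lit 0) (nat_lit 5484023348) (nat_lit 304) (nat_lit 24090915687) (nat_lit 76) (nat_lit 2528667084) (nat_lit 20) (nat_lit 5) (nat_lit 24) (nat_lit 5) (nat_lit 21) (nat_lit 5) (nat_lit 271) (nat_lit 261) (nat_lit 188)))) (XT.nd (nat_lit 156) (nat_lit 0) (nat_lit 0) (XT.nd (nat_lit 78) (nat_lit 228) (nat_lit 0) (XT.lf (nat_lit 0) (nat_lit 8121777824) (nat_lit 304) (nat_lit 12408936212)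 (nat_lit 76) (nat_lit 13140433258) (nat_lit 20) (nat_lit 5) (nat_lit 24) (nat_lit 5) (nat_lit 21) (nat_lit 5) (nat_lit 272) (nat_lit 261) (nat_lit 187)) (XT.lf (nat_lit 0) (nat_lit 211723152) (nat_lit 228) (nat_lit 10757716680) (nat_lit 304) (nat_lit 24394801938) (nat_lit 17) (nat_lit 5) (nat_lit 20) (nat_lit 5) (nat_lit 21) (nat_lit 5) (nat_lit 273) (nat_lit 261) (nat_lit 186))) (XT.nd (nat_lit 78) (nat_lit 0) (nat_lit 0) (XT.lf (nat_lit 0) (nat_lit 14382223722) (nat_lit 304) (nat_lit 22628656324) (nat_lit 76) (nat_lit 154975509) (nat_lit 17) (nat_lit 5) (nat_lit 21) (nat_lit 5) (nat_lit 18) (nat_lit 5) (nat_lit 274) (nat_lit 261) (nat_lit 185)) (XT.lf (nat_lit 0) (nat_lit 18341982408) (nat_lit 304) (nat_lit 9388625054) (nat_lit 76) (nat_lit 11359127097) (nat_lit 17) (nat_lit 5) (nat_lit 21) (nat_lit 5) (nat_lit 18) (nat_lit 5) (nat_lit 275) (nat_lit 261) (nat_lit 184)))))) (XT.nd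 (nat_lit 546) (nat_lit 228) (nat_lit 0) (XT.nd (nat_lit 234) (nat_lit 380) (nat_lit 0) (XT.nd (nat_lit 78) (nat_lit 0) (nat_lit 0) (XT.lf (nat_lit 0) (nat_lit 5163033845) (nat_lit 152) (nat_lit 17574595026) (nat_lit 228) (nat_lit 18420414854) (nat_lit 15) (nat_lit 5) (nat_lit 17) (nat_lit 5) (nat_lit 18) (nat_lit 5) (nat_lit 276) (nat_lit 261) (nat_lit 183)) (XT.nd (nat_lit 78) (nat_lit 0) (nat_lit 0) (XT.lf (nat_lit 0) (nat_lit 21407062267) (nat_lit 152) (nat_lit 6329740389) (nat_lit 228) (nat_lit 15634909744) (nat_lit 15) (nat_lit 5) (nat_lit 17) (nat_lit 5) (nat_lit 18) (nat_lit 5) (nat_lit 277) (nat_lit 261) (nat_lit 182)) (XT.lf (nat_lit 0) (nat_lit 33271266005) (nat_lit 228) (nat_lit 6957365013) (nat_lit 76) (nat_lit 5523056602) (nat_lit 15) (nat_lit 5) (nat_lit 18) (nat_lit 5) (nat_lit 16) (nat_lit 5) (nat_lit 278) (nat_lit 261) (nat_lit 181)))) (XT.nd (nat_lit 156) (nat_lit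 228) (nat_lit 0) (XT.nd (nat_lit 78) (nat_lit 0) (nat_lit 0) (XT.lf (nat_lit 0) (nat_lit 9559035302) (nat_lit 152) (nat_lit 30079599361) (nat_lit 228) (nat_lit 8652252764) (nat_lit 13) (nat_lit 5) (nat_lit 15) (nat_lit 5) (nat_lit 16) (nat_lit 5) (nat_lit 279) (nat_lit 261) (nat_lit 180)) (XT.lf (nat_lit 0) (nat_lit 27787311393) (nat_lit 152) (nat_lit 18914337466) (nat_lit 228) (nat_lit 4316709459) (nat_lit 13) (nat_lit 5) (nat_lit 15) (nat_lit 5) (nat_lit 16) (nat_lit 5) (nat_lit 280) (nat_lit 261) (nat_lit 179))) (XT.nd (nat_lit 78) (nat_lit 152) (nat_lit 0) (XT.lf (nat_lit 0) (nat_lit 343581334) (nat_lit 228) (nat_lit 6503932050) (nat_lit 76) (nat_lit 47116144703) (nat_lit 12) (nat_lit 5) (nat_lit 15) (nat_lit 5) (nat_lit 13) (nat_lit 5) (nat_lit 281) (nat_lit 261) (nat_lit 178)) (XT.lf (nat_lit 0) (nat_lit 5588850312) (nat_lit 228) (nat_lit 45224605095) (nat_lit 76) (nat_lit 6286555342)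 (nat_lit 10) (nat_lit 5) (nat_lit 13) (nat_lit 5) (nat_lit 11) (nat_lit 5) (nat_lit 282) (nat_lit 261) (nat_lit 177))))) (XT.nd (nat_lit 234) (nat_lit 76) (nat_lit 0) (XT.nd (nat_lit 78) (nat_lit 152) (nat_lit 0) (XT.lf (nat_lit 0) (nat_lit 11610651223) (nat_lit 228) (nat_lit 28565292450) (nat_lit 76) (nat_lit 20282801273) (nat_lit 10) (nat_lit 5) (nat_lit 13) (nat_lit 5) (nat_lit 11) (nat_lit 5) (nat_lit 283) (nat_lit 261) (nat_lit 176)) (XT.nd (nat_lit 78) (nat_lit 152) (nat_lit 0) (XT.lf (nat_lit 0) (nat_lit 18111052650) (nat_lit 228) (nat_lit 10577628750) (nat_lit 76) (nat_lit 35397772179) (nat_lit 10) (nat_lit 5) (nat_lit 13) (nat_lit 5) (nat_lit 11) (nat_lit 5) (nat_lit 284) (nat_lit 261) (nat_lit 175)) (XT.lf (nat_lit 0) (nat_lit 9310740516) (nat_lit 152) (nat_lit 16041758510) (nat_lit 228) (nat_lit 42634221275) (nat_lit 8) (nat_lit 5) (nat_lit 10) (nat_lit 5) (nat_lit 11)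 (nat_lit 5) (nat_lit 285) (nat_lit 261) (nat_lit 174)))) (XT.nd (nat_lit 156) (nat_lit 76) (nat_lit 0) (XT.nd (nat_lit 78) (nat_lit 0) (nat_lit 0) (XT.lf (nat_lit 0) (nat_lit 31387772963) (nat_lit 152) (nat_lit 2071908801) (nat_lit 228) (nat_lit 38716433705) (nat_lit 8) (nat_lit 5) (nat_lit 10) (nat_lit 5) (nat_lit 11) (nat_lit 5) (nat_lit 286) (nat_lit 261) (nat_lit 173)) (XT.lf (nat_lit 0) (nat_lit 42525852977) (nat_lit 228) (nat_lit 21786589527) (nat_lit 76) (nat_lit 12363405862) (nat_lit 8) (nat_lit 5) (nat_lit 11) (nat_lit 5) (nat_lit 9) (nat_lit 4) (nat_lit 287) (nat_lit 261) (nat_lit 172))) (XT.nd (nat_lit 78) (nat_lit 76) (nat_lit 0) (XT.lf (nat_lit 0) (nat_lit 52368717100) (nat_lit 228) (nat_lit 1322096844) (nat_lit 76) (nat_lit 27840651814) (nat_lit 8) (nat_lit 5) (nat_lit 11) (nat_lit 5) (nat_lit 9) (nat_lit 4) (nat_lit 288) (nat_lit 261) (nat_lit 171)) (XT.lf (nat_lit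 0) (nat_lit 21870275838) (nat_lit 76) (nat_lit 41652477582) (nat_lit 152) (nat_lit 23210896157) (nat_lit 7) (nat_lit 5) (nat_lit 8) (nat_lit 5) (nat_lit 9) (nat_lit 4) (nat_lit 289) (nat_lit 261) (nat_lit 170))))))))
noncomputable def xc89 : XT := (XT.nd (nat_lit 2106) (nat_lit 0) (nat_lit 0) (XT.nd (nat_lit 1014) (nat_lit 228) (nat_lit 0) (XT.nd (nat_lit 468) (nat_lit 76) (nat_lit 0) (XT.nd (nat_lit 234) (nat_lit 152) (nat_lit 0) (XT.nd (nat_lit 78) (nat_lit 0) (nat_lit 0) (XT.lf (nat_lit 0) (nat_lit 46989991998) (nat_lit 76) (nat_lit 28613119469) (nat_lit 152) (nat_lit 16746191990) (nat_lit 7) (nat_lit 5) (nat_lit 8) (nat_lit 5) (nat_lit 9) (nat_lit 4) (nat_lit 290) (nat_lit 261) (nat_lit 169)) (XT.nd (nat_lit 78) (nat_lit 0) (nat_lit 0) (XT.lf (nat_lit 0) (nat_lit 74116289936) (nat_lit 76) (nat_lit 14531617806) (nat_lit 152) (nat_lit 9766475270) (nat_lit 7) (nat_lit 5) (nat_lit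 8) (nat_lit 5) (nat_lit 9) (nat_lit 4) (nat_lit 291) (nat_lit 261) (nat_lit 168)) (XT.lf (nat_lit 0) (nat_lit 102750689890) (nat_lit 152) (nat_lit 1571156520) (nat_lit 0) (nat_lit 641683430) (nat_lit 7) (nat_lit 5) (nat_lit 9) (nat_lit 4) (nat_lit 7) (nat_lit 4) (nat_lit 292) (nat_lit 261) (nat_lit 167)))) (XT.nd (nat_lit 78) (nat_lit 0) (nat_lit 0) (XT.lf (nat_lit 0) (nat_lit 6620005522) (nat_lit 152) (nat_lit 88344855199) (nat_lit 76) (nat_lit 16982535223) (nat_lit 5) (nat_lit 5) (nat_lit 7) (nat_lit 5) (nat_lit 6) (nat_lit 4) (nat_lit 293) (nat_lit 261) (nat_lit 166)) (XT.nd (nat_lit 78) (nat_lit 0) (nat_lit 0) (XT.lf (nat_lit 0) (nat_lit 16082285519) (nat_lit 152) (nat_lit 68668368570) (nat_lit 76) (nat_lit 34731340908) (nat_lit 5) (nat_lit 5) (nat_lit 7) (nat_lit 5) (nat_lit 6) (nat_lit 4) (nat_lit 294) (nat_lit 261) (nat_lit 165)) (XT.lf (nat_lit 0) (nat_lit 26299958767) (nat_lit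 152) (nat_lit 47420289480) (nat_lit 76) (nat_lit 53899250477) (nat_lit 5) (nat_lit 5) (nat_lit 7) (nat_lit 5) (nat_lit 6) (nat_lit 4) (nat_lit 295) (nat_lit 261) (nat_lit 164))))) (XT.nd (nat_lit 234) (nat_lit 0) (nat_lit 0) (XT.nd (nat_lit 78) (nat_lit 76) (nat_lit 0) (XT.lf (nat_lit 0) (nat_lit 37333574439) (nat_lit 152) (nat_lit 24474703385) (nat_lit 76) (nat_lit 74599851542) (nat_lit 5) (nat_lit 5) (nat_lit 7) (nat_lit 5) (nat_lit 6) (nat_lit 4) (nat_lit 296) (nat_lit 261) (nat_lit 163)) (XT.nd (nat_lit 78) (nat_lit 0) (nat_lit 0) (XT.lf (nat_lit 0) (nat_lit 320390801) (nat_lit 76) (nat_lit 48935831530) (nat_lit 152) (nat_lit 96643128938) (nat_lit 4) (nat_lit 5) (nat_lit 5) (nat_lit 5) (nat_lit 6) (nat_lit 4) (nat_lit 297) (nat_lit 261) (nat_lit 162)) (XT.lf (nat_lit 0) (nat_lit 28488879389) (nat_lit 76) (nat_lit 34311672138) (nat_lit 152) (nat_lit 93295897473) (nat_lit 4) (nat_lit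 5) (nat_lit 5) (nat_lit 5) (nat_lit 6) (nat_lit 4) (nat_lit 298) (nat_lit 261) (nat_lit 161)))) (XT.nd (nat_lit 156) (nat_lit 0) (nat_lit 0) (XT.nd (nat_lit 78) (nat_lit 0) (nat_lit 0) (XT.lf (nat_lit 0) (nat_lit 58908892246) (nat_lit 76) (nat_lit 18518319726) (nat_lit 152) (nat_lit 89682206853) (nat_lit 4) (nat_lit 5) (nat_lit 5) (nat_lit 5) (nat_lit 6) (nat_lit 4) (nat_lit 299) (nat_lit 261) (nat_lit 160)) (XT.lf (nat_lit 0) (nat_lit 91760696115) (nat_lit 76) (nat_lit 1462184059) (nat_lit 152) (nat_lit 85780642614) (nat_lit 4) (nat_lit 5) (nat_lit 5) (nat_lit 5) (nat_lit 6) (nat_lit 4) (nat_lit 300) (nat_lit 261) (nat_lit 159))) (XT.nd (nat_lit 78) (nat_lit 0) (nat_lit 0) (XT.lf (nat_lit 0) (nat_lit 110688995787) (nat_lit 152) (nat_lit 65018111812) (nat_lit 0) (nat_lit 16109510011) (nat_lit 4) (nat_lit 5) (nat_lit 6) (nat_lit 4) (nat_lit 4) (nat_lit 4) (nat_lit 301) (nat_lit 261)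 (nat_lit 158)) (XT.lf (nat_lit 0) (nat_lit 129589400760) (nat_lit 152) (nat_lit 41055019020) (nat_lit 0) (nat_lit 35007385842) (nat_lit 4) (nat_lit 5) (nat_lit 6) (nat_lit 4) (nat_lit 4) (nat_lit 4) (nat_lit 302) (nat_lit 261) (nat_lit 157)))))) (XT.nd (nat_lit 546) (nat_lit 152) (nat_lit 0) (XT.nd (nat_lit 234) (nat_lit 0) (nat_lit 0) (XT.nd (nat_lit 78) (nat_lit 76) (nat_lit 0) (XT.lf (nat_lit 0) (nat_lit 150000931929) (nat_lit 152) (nat_lit 15176379223) (nat_lit 0) (nat_lit 55416575214) (nat_lit 4) (nat_lit 5) (nat_lit 6) (nat_lit 4) (nat_lit 4) (nat_lit 4) (nat_lit 303) (nat_lit 261) (nat_lit 156)) (XT.nd (nat_lit 78) (nat_lit 0) (nat_lit 0) (XT.lf (nat_lit 0) (nat_lit 13443669263) (nat_lit 76) (nat_lit 158924197822) (nat_lit 76) (nat_lit 64337672776) (nat_lit 3) (nat_lit 4) (nat_lit 4) (nat_lit 5) (nat_lit 4) (nat_lit 4) (nat_lit 304) (nat_lit 261) (nat_lit 155)) (XT.lf (nat_lit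 0) (nat_lit 45215061659) (nat_lit 76) (nat_lit 151723235011) (nat_lit 76) (nat_lit 57134702251) (nat_lit 3) (nat_lit 4) (nat_lit 4) (nat_lit 5) (nat_lit 4) (nat_lit 4) (nat_lit 305) (nat_lit 261) (nat_lit 154)))) (XT.nd (nat_lit 156) (nat_lit 0) (nat_lit 0) (XT.nd (nat_lit 78) (nat_lit 0) (nat_lit 0) (XT.lf (nat_lit 0) (nat_lit 79526911646) (nat_lit 76) (nat_lit 143946699450) (nat_lit 76) (nat_lit 49356307696) (nat_lit 3) (nat_lit 4) (nat_lit 4) (nat_lit 5) (nat_lit 4) (nat_lit 4) (nat_lit 306) (nat_lit 261) (nat_lit 153)) (XT.lf (nat_lit 0) (nat_lit 116582548705) (nat_lit 76) (nat_lit 135548507967) (nat_lit 76) (nat_lit 40956394921) (nat_lit 3) (nat_lit 4) (nat_lit 4) (nat_lit 5) (nat_lit 4) (nat_lit 4) (nat_lit 307) (nat_lit 261) (nat_lit 152))) (XT.nd (nat_lit 78) (nat_lit 0) (nat_lit 0) (XT.lf (nat_lit 0) (nat_lit 156601561796) (nat_lit 76) (nat_lit 126478893499) (nat_lit 76)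 (nat_lit 31885186665) (nat_lit 3) (nat_lit 4) (nat_lit 4) (nat_lit 5) (nat_lit 4) (nat_lit 4) (nat_lit 308) (nat_lit 261) (nat_lit 151)) (XT.lf (nat_lit 0) (nat_lit 199821100628) (nat_lit 76) (nat_lit 116684110184) (nat_lit 76) (nat_lit 22088927620) (nat_lit 3) (nat_lit 4) (nat_lit 4) (nat_lit 5) (nat_lit 4) (nat_lit 4) (nat_lit 309) (nat_lit 261) (nat_lit 150))))) (XT.nd (nat_lit 234) (nat_lit 76) (nat_lit 0) (XT.nd (nat_lit 78) (nat_lit 76) (nat_lit 0) (XT.lf (nat_lit 0) (nat_lit 246497280985) (nat_lit 76) (nat_lit 106106114861) (nat_lit 76) (nat_lit 11509565880) (nat_lit 3) (nat_lit 4) (nat_lit 4) (nat_lit 5) (nat_lit 4) (nat_lit 4) (nat_lit 310) (nat_lit 261) (nat_lit 149)) (XT.nd (nat_lit 78) (nat_lit 76) (nat_lit 0) (XT.lf (nat_lit 0) (nat_lit 296906702454) (nat_lit 76) (nat_lit 94682223113) (nat_lit 76) (nat_lit 84408933) (nat_lit 3) (nat_lit 4) (nat_lit 4) (nat_lit 5) (nat_lit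 4) (nat_lit 4) (nat_lit 311) (nat_lit 261) (nat_lit 148)) (XT.lf (nat_lit 0) (nat_lit 11641240749) (nat_lit 152) (nat_lit 70385204903) (nat_lit 76) (nat_lit 339388554633) (nat_lit 2) (nat_lit 5) (nat_lit 4) (nat_lit 5) (nat_lit 3) (nat_lit 4) (nat_lit 312) (nat_lit 261) (nat_lit 147)))) (XT.nd (nat_lit 156) (nat_lit 76) (nat_lit 0) (XT.nd (nat_lit 78) (nat_lit 0) (nat_lit 0) (XT.lf (nat_lit 0) (nat_lit 24299931144) (nat_lit 152) (nat_lit 44056213586) (nat_lit 76) (nat_lit 385179717515) (nat_lit 2) (nat_lit 5) (nat_lit 4) (nat_lit 5) (nat_lit 3) (nat_lit 4) (nat_lit 313) (nat_lit 261) (nat_lit 146)) (XT.lf (nat_lit 0) (nat_lit 37970899191) (nat_lit 152) (nat_lit 15621604406) (nat_lit 76) (nat_lit 434633925035) (nat_lit 2) (nat_lit 5) (nat_lit 4) (nat_lit 5) (nat_lit 3) (nat_lit 4) (nat_lit 314) (nat_lit 261) (nat_lit 145))) (XT.nd (nat_lit 78) (nat_lit 0) (nat_lit 0) (XT.lf (nat_lit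 0) (nat_lit 15881585240) (nat_lit 76) (nat_lit 37235525300) (nat_lit 152) (nat_lit 472544606432) (nat_lit 1) (nat_lit 5) (nat_lit 2) (nat_lit 5) (nat_lit 3) (nat_lit 4) (nat_lit 315) (nat_lit 261) (nat_lit 144)) (XT.lf (nat_lit 0) (nat_lit 50792811502) (nat_lit 76) (nat_lit 19108956411) (nat_lit 152) (nat_lit 496155922304) (nat_lit 1) (nat_lit 5) (nat_lit 2) (nat_lit 5) (nat_lit 3) (nat_lit 4) (nat_lit 316) (nat_lit 261) (nat_lit 143))))))) (XT.nd (nat_lit 1014) (nat_lit 0) (nat_lit 0) (XT.nd (nat_lit 468) (nat_lit 0) (nat_lit 0) (XT.nd (nat_lit 234) (nat_lit 0) (nat_lit 0) (XT.nd (nat_lit 78) (nat_lit 0) (nat_lit 0) (XT.lf (nat_lit 0) (nat_lit 88040095615) (nat_lit 152) (nat_lit 521200264217) (nat_lit 0) (nat_lit 444111310) (nat_lit 1) (nat_lit 5) (nat_lit 3) (nat_lit 4) (nat_lit 1) (nat_lit 4) (nat_lit 317) (nat_lit 261) (nat_lit 142)) (XT.nd (nat_lit 78) (nat_lit 0) (nat_lit 0)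 (XT.lf (nat_lit 0) (nat_lit 108125500720) (nat_lit 152) (nat_lit 528107381576) (nat_lit 0) (nat_lit 20528832866) (nat_lit 1) (nat_lit 5) (nat_lit 3) (nat_lit 4) (nat_lit 1) (nat_lit 4) (nat_lit 318) (nat_lit 261) (nat_lit 141)) (XT.lf (nat_lit 0) (nat_lit 129817436989) (nat_lit 152) (nat_lit 535567590999) (nat_lit 0) (nat_lit 42220136220) (nat_lit 1) (nat_lit 5) (nat_lit 3) (nat_lit 4) (nat_lit 1) (nat_lit 4) (nat_lit 319) (nat_lit 261) (nat_lit 140)))) (XT.nd (nat_lit 78) (nat_lit 0) (nat_lit 0) (XT.lf (nat_lit 0) (nat_lit 153244449229) (nat_lit 152) (nat_lit 543625101134) (nat_lit 0) (nat_lit 65646562428) (nat_lit 1) (nat_lit 5) (nat_lit 3) (nat_lit 4) (nat_lit 1) (nat_lit 4) (nat_lit 320) (nat_lit 261) (nat_lit 139)) (XT.nd (nat_lit 78) (nat_lit 0) (nat_lit 0) (XT.lf (nat_lit 0) (nat_lit 178545364181) (nat_lit 152) (nat_lit 552327660190) (nat_lit 0) (nat_lit 90946934757) (nat_lit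 1) (nat_lit 5) (nat_lit 3) (nat_lit 4) (nat_lit 1) (nat_lit 4) (nat_lit 321) (nat_lit 261) (nat_lit 138)) (XT.lf (nat_lit 0) (nat_lit 205870113192) (nat_lit 152) (nat_lit 561726838885) (nat_lit 0) (nat_lit 118271181339) (nat_lit 1) (nat_lit 5) (nat_lit 3) (nat_lit 4) (nat_lit 1) (nat_lit 4) (nat_lit 322) (nat_lit 261) (nat_lit 137))))) (XT.nd (nat_lit 234) (nat_lit 0) (nat_lit 0) (XT.nd (nat_lit 78) (nat_lit 0) (nat_lit 0) (XT.lf (nat_lit 0) (nat_lit 235380620700) (nat_lit 152) (nat_lit 571878336058) (nat_lit 0) (nat_lit 147781223635) (nat_lit 1) (nat_lit 5) (nat_lit 3) (nat_lit 4) (nat_lit 1) (nat_lit 4) (nat_lit 323) (nat_lit 261) (nat_lit 136)) (XT.nd (nat_lit 78) (nat_lit 0) (nat_lit 0) (XT.lf (nat_lit 0) (nat_lit 267251763787) (nat_lit 152) (nat_lit 582842308729) (nat_lit 0) (nat_lit 179651935971) (nat_lit 1) (nat_lit 5) (nat_lit 3) (nat_lit 4) (nat_lit 1) (nat_lit 4) (nat_lit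 324) (nat_lit 261) (nat_lit 135)) (XT.lf (nat_lit 0) (nat_lit 301672408486) (nat_lit 152) (nat_lit 594683728587) (nat_lit 0) (nat_lit 214072181826) (nat_lit 1) (nat_lit 5) (nat_lit 3) (nat_lit 4) (nat_lit 1) (nat_lit 4) (nat_lit 325) (nat_lit 261) (nat_lit 134)))) (XT.nd (nat_lit 156) (nat_lit 0) (nat_lit 0) (XT.nd (nat_lit 78) (nat_lit 0) (nat_lit 0) (XT.lf (nat_lit 0) (nat_lit 338846528988) (nat_lit 152) (nat_lit 607472767009) (nat_lit 0) (nat_lit 251245933028) (nat_lit 1) (nat_lit 5) (nat_lit 3) (nat_lit 4) (nat_lit 1) (nat_lit 4) (nat_lit 326) (nat_lit 261) (nat_lit 133)) (XT.lf (nat_lit 0) (nat_lit 378994416377) (nat_lit 152) (nat_lit 621285210890) (nat_lit 0) (nat_lit 291393478473) (nat_lit 1) (nat_lit 5) (nat_lit 3) (nat_lit 4) (nat_lit 1) (nat_lit 4) (nat_lit 327) (nat_lit 261) (nat_lit 132))) (XT.nd (nat_lit 78) (nat_lit 0) (nat_lit 0) (XT.lf (nat_lit 0) (nat_lit 422353984061)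 (nat_lit 152) (nat_lit 636202911749) (nat_lit 0) (nat_lit 334752729542) (nat_lit 1) (nat_lit 5) (nat_lit 3) (nat_lit 4) (nat_lit 1) (nat_lit 4) (nat_lit 328) (nat_lit 261) (nat_lit 131)) (XT.lf (nat_lit 0) (nat_lit 469182177625) (nat_lit 152) (nat_lit 652314270776) (nat_lit 0) (nat_lit 381580629943) (nat_lit 1) (nat_lit 5) (nat_lit 3) (nat_lit 4) (nat_lit 1) (nat_lit 4) (nat_lit 329) (nat_lit 261) (nat_lit 130)))))) (XT.nd (nat_lit 546) (nat_lit 0) (nat_lit 0) (XT.nd (nat_lit 234) (nat_lit 0) (nat_lit 0) (XT.nd (nat_lit 78) (nat_lit 0) (nat_lit 0) (XT.lf (nat_lit 0) (nat_lit 519756497475) (nat_lit 152) (nat_lit 669714762692) (nat_lit 0) (nat_lit 432154678347) (nat_lit 1) (nat_lit 5) (nat_lit 3) (nat_lit 4) (nat_lit 1) (nat_lit 4) (nat_lit 330) (nat_lit 261) (nat_lit 129)) (XT.nd (nat_lit 78) (nat_lit 0) (nat_lit 0) (XT.lf (nat_lit 0) (nat_lit 574376643286) (nat_lit 152) (nat_lit 688507501522)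 (nat_lit 0) (nat_lit 486774572819) (nat_lit 1) (nat_lit 5) (nat_lit 3) (nat_lit 4) (nat_lit 1) (nat_lit 4) (nat_lit 331) (nat_lit 261) (nat_lit 128)) (XT.lf (nat_lit 0) (nat_lit 633366289994) (nat_lit 152) (nat_lit 708803851645) (nat_lit 0) (nat_lit 545763986806) (nat_lit 1) (nat_lit 5) (nat_lit 3) (nat_lit 4) (nat_lit 1) (nat_lit 4) (nat_lit 332) (nat_lit 261) (nat_lit 127)))) (XT.nd (nat_lit 156) (nat_lit 0) (nat_lit 0) (XT.nd (nat_lit 78) (nat_lit 0) (nat_lit 0) (XT.lf (nat_lit 0) (nat_lit 697075005878) (nat_lit 152) (nat_lit 730724087729) (nat_lit 0) (nat_lit 609472487206) (nat_lit 1) (nat_lit 5) (nat_lit 3) (nat_lit 4) (nat_lit 1) (nat_lit 4) (nat_lit 333) (nat_lit 261) (nat_lit 126)) (XT.lf (nat_lit 0) (nat_lit 765880324067) (nat_lit 152) (nat_lit 754398107468) (nat_lit 0) (nat_lit 678277605874) (nat_lit 1) (nat_lit 5) (nat_lit 3) (nat_lit 4) (nat_lit 1) (nat_lit 4) (nat_lit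 334) (nat_lit 261) (nat_lit 125))) (XT.nd (nat_lit 78) (nat_lit 0) (nat_lit 0) (XT.lf (nat_lit 0) (nat_lit 840189979781) (nat_lit 152) (nat_lit 779966201350) (nat_lit 0) (nat_lit 752587076846) (nat_lit 1) (nat_lit 5) (nat_lit 3) (nat_lit 4) (nat_lit 1) (nat_lit 4) (nat_lit 335) (nat_lit 261) (nat_lit 124)) (XT.lf (nat_lit 0) (nat_lit 920444326536) (nat_lit 152) (nat_lit 807579884005) (nat_lit 0) (nat_lit 832841252543) (nat_lit 1) (nat_lit 5) (nat_lit 3) (nat_lit 4) (nat_lit 1) (nat_lit 4) (nat_lit 336) (nat_lit 261) (nat_lit 123))))) (XT.nd (nat_lit 234) (nat_lit 0) (nat_lit 0) (XT.nd (nat_lit 78) (nat_lit 0) (nat_lit 0) (XT.lf (nat_lit 0) (nat_lit 1007118945644) (nat_lit 152) (nat_lit 837402792072) (nat_lit 0) (nat_lit 919515713266) (nat_lit 1) (nat_lit 5) (nat_lit 3) (nat_lit 4) (nat_lit 1) (nat_lit 4) (nat_lit 337) (nat_lit 261) (nat_lit 122)) (XT.nd (nat_lit 78) (nat_lit 0) (nat_lit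 0) (XT.lf (nat_lit 0) (nat_lit 1100727464480) (nat_lit 152) (nat_lit 869611653893) (nat_lit 0) (nat_lit 1013124085447) (nat_lit 1) (nat_lit 5) (nat_lit 3) (nat_lit 4) (nat_lit 1) (nat_lit 4) (nat_lit 338) (nat_lit 261) (nat_lit 121)) (XT.lf (nat_lit 0) (nat_lit 1201824600191) (nat_lit 152) (nat_lit 904397336800) (nat_lit 0) (nat_lit 1114221085367) (nat_lit 1) (nat_lit 5) (nat_lit 3) (nat_lit 4) (nat_lit 1) (nat_lit 4) (nat_lit 339) (nat_lit 261) (nat_lit 120)))) (XT.nd (nat_lit 31512) (nat_lit 0) (nat_lit 1976) (XT.nd (nat_lit 31434) (nat_lit 0) (nat_lit 1976) (XT.lf (nat_lit 0) (nat_lit 1311009446915) (nat_lit 152) (nat_lit 941965978172) (nat_lit 0) (nat_lit 1223405806359) (nat_lit 1) (nat_lit 5) (nat_lit 3) (nat_lit 4) (nat_lit 1) (nat_lit 4) (nat_lit 340) (nat_lit 261) (nat_lit 119)) (XT.lf (nat_lit 0) (nat_lit 4553653468) (nat_lit 0) (nat_lit 4553653468) (nat_lit 380) (nat_lit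 2183390247) (nat_lit 27) (nat_lit 5) (nat_lit 27) (nat_lit 3) (nat_lit 32) (nat_lit 3) (nat_lit 262) (nat_lit 262) (nat_lit 196))) (XT.nd (nat_lit 78) (nat_lit 0) (nat_lit 0) (XT.lf (nat_lit 0) (nat_lit 18348409015) (nat_lit 0) (nat_lit 700022818) (nat_lit 380) (nat_lit 4426581188) (nat_lit 27) (nat_lit 5) (nat_lit 27) (nat_lit 3) (nat_lit 32) (nat_lit 3) (nat_lit 263) (nat_lit 262) (nat_lit 195)) (XT.lf (nat_lit 76) (nat_lit 3874611415) (nat_lit 0) (nat_lit 16358661968) (nat_lit 456) (nat_lit 4184224238) (nat_lit 28) (nat_lit 5) (nat_lit 27) (nat_lit 5) (nat_lit 33) (nat_lit 5) (nat_lit 264) (nat_lit 262) (nat_lit 194))))))))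
noncomputable def xc90 : XT := (XT.nd (nat_lit 2106) (nat_lit 456) (nat_lit 0) (XT.nd (nat_lit 1014) (nat_lit 608) (nat_lit 0) (XT.nd (nat_lit 468) (nat_lit 608) (nat_lit 0) (XT.nd (nat_lit 234) (nat_lit 304) (nat_lit 0) (XT.nd (nat_lit 78) (nat_lit 0) (nat_lit 76) (XT.lf (nat_lit 76) (nat_lit 13862144623) (nat_lit 0) (nat_lit 7798869905) (nat_lit 456) (nat_lit 3762630351) (nat_lit 28) (nat_lit 5) (nat_lit 27) (nat_lit 5) (nat_lit 33) (nat_lit 5) (nat_lit 265) (nat_lit 262) (nat_lit 193)) (XT.nd (nat_lit 78) (nat_lit 0) (nat_lit 0) (XT.lf (nat_lit 0) (nat_lit 23228768278) (nat_lit 380) (nat_lit 1903016792) (nat_lit 456) (nat_lit 1376539897) (nat_lit 28) (nat_lit 5) (nat_lit 33) (nat_lit 5) (nat_lit 34) (nat_lit 5) (nat_lit 266) (nat_lit 262) (nat_lit 192)) (XT.lf (nat_lit 76) (nat_lit 8757511543) (nat_lit 0) (nat_lit 16569306140) (nat_lit 456) (nat_lit 2320668518) (nat_lit 29) (nat_lit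 5) (nat_lit 28) (nat_lit 5) (nat_lit 34) (nat_lit 5) (nat_lit 267) (nat_lit 262) (nat_lit 191)))) (XT.nd (nat_lit 78) (nat_lit 380) (nat_lit 0) (XT.lf (nat_lit 76) (nat_lit 20373112191) (nat_lit 0) (nat_lit 7263791072) (nat_lit 456) (nat_lit 1237431299) (nat_lit 29) (nat_lit 5) (nat_lit 28) (nat_lit 5) (nat_lit 34) (nat_lit 5) (nat_lit 268) (nat_lit 262) (nat_lit 190)) (XT.nd (nat_lit 78) (nat_lit 0) (nat_lit 0) (XT.lf (nat_lit 0) (nat_lit 65817713) (nat_lit 456) (nat_lit 27406272895) (nat_lit 76) (nat_lit 2717048984) (nat_lit 23) (nat_lit 5) (nat_lit 29) (nat_lit 5) (nat_lit 24) (nat_lit 5) (nat_lit 269) (nat_lit 262) (nat_lit 189)) (XT.lf (nat_lit 0) (nat_lit 1826538709) (nat_lit 456) (nat_lit 16370769675) (nat_lit 76) (nat_lit 13375715246) (nat_lit 23) (nat_lit 5) (nat_lit 29) (nat_lit 5) (nat_lit 24) (nat_lit 5) (nat_lit 270) (nat_lit 262) (nat_lit 188))))) (XT.nd (nat_lit 234)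 (nat_lit 380) (nat_lit 0) (XT.nd (nat_lit 78) (nat_lit 228) (nat_lit 0) (XT.lf (nat_lit 0) (nat_lit 3721561595) (nat_lit 456) (nat_lit 4458483915) (nat_lit 76) (nat_lit 24888163203) (nat_lit 23) (nat_lit 5) (nat_lit 29) (nat_lit 5) (nat_lit 24) (nat_lit 5) (nat_lit 271) (nat_lit 262) (nat_lit 187)) (XT.nd (nat_lit 78) (nat_lit 0) (nat_lit 0) (XT.lf (nat_lit 0) (nat_lit 6043797939) (nat_lit 304) (nat_lit 25891967242) (nat_lit 76) (nat_lit 2725255476) (nat_lit 20) (nat_lit 5) (nat_lit 24) (nat_lit 5) (nat_lit 21) (nat_lit 5) (nat_lit 272) (nat_lit 262) (nat_lit 186)) (XT.lf (nat_lit 0) (nat_lit 8883605905) (nat_lit 304) (nat_lit 13284779164) (nat_lit 76) (nat_lit 14186385534) (nat_lit 20) (nat_lit 5) (nat_lit 24) (nat_lit 5) (nat_lit 21) (nat_lit 5) (nat_lit 273) (nat_lit 262) (nat_lit 185)))) (XT.nd (nat_lit 156) (nat_lit 152) (nat_lit 0) (XT.nd (nat_lit 78) (nat_lit 0) (nat_lit 0)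 (XT.lf (nat_lit 0) (nat_lit 342574166) (nat_lit 228) (nat_lit 11610943666) (nat_lit 304) (nat_lit 26230321449) (nat_lit 17) (nat_lit 5) (nat_lit 20) (nat_lit 5) (nat_lit 21) (nat_lit 5) (nat_lit 274) (nat_lit 262) (nat_lit 184)) (XT.lf (nat_lit 0) (nat_lit 15631598426) (nat_lit 304) (nat_lit 24324803224) (nat_lit 76) (nat_lit 173874155) (nat_lit 17) (nat_lit 5) (nat_lit 21) (nat_lit 5) (nat_lit 18) (nat_lit 5) (nat_lit 275) (nat_lit 262) (nat_lit 183))) (XT.nd (nat_lit 78) (nat_lit 152) (nat_lit 0) (XT.lf (nat_lit 0) (nat_lit 19900819525) (nat_lit 304) (nat_lit 10034024682) (nat_lit 76) (nat_lit 12273876344) (nat_lit 17) (nat_lit 5) (nat_lit 21) (nat_lit 5) (nat_lit 18) (nat_lit 5) (nat_lit 276) (nat_lit 262) (nat_lit 182)) (XT.lf (nat_lit 0) (nat_lit 5679091224) (nat_lit 152) (nat_lit 18964727800) (nat_lit 228) (nat_lit 19799084099) (nat_lit 15) (nat_lit 5) (nat_lit 17) (nat_lit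 5) (nat_lit 18) (nat_lit 5) (nat_lit 277) (nat_lit 262) (nat_lit 181)))))) (XT.nd (nat_lit 546) (nat_lit 228) (nat_lit 0) (XT.nd (nat_lit 234) (nat_lit 228) (nat_lit 0) (XT.nd (nat_lit 78) (nat_lit 152) (nat_lit 0) (XT.lf (nat_lit 0) (nat_lit 23215011203) (nat_lit 152) (nat_lit 6821457743) (nat_lit 228) (nat_lit 16797772946) (nat_lit 15) (nat_lit 5) (nat_lit 17) (nat_lit 5) (nat_lit 18) (nat_lit 5) (nat_lit 278) (nat_lit 262) (nat_lit 180)) (XT.nd (nat_lit 78) (nat_lit 152) (nat_lit 0) (XT.lf (nat_lit 0) (nat_lit 36008036448) (nat_lit 228) (nat_lit 7419288624) (nat_lit 76) (nat_lit 5977797826) (nat_lit 15) (nat_lit 5) (nat_lit 18) (nat_lit 5) (nat_lit 16) (nat_lit 5) (nat_lit 279) (nat_lit 262) (nat_lit 179)) (XT.lf (nat_lit 0) (nat_lit 10416027119) (nat_lit 152) (nat_lit 32465425872) (nat_lit 228) (nat_lit 9266324448) (nat_lit 13) (nat_lit 5) (nat_lit 15) (nat_lit 5) (nat_lit 16)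 (nat_lit 5) (nat_lit 280) (nat_lit 262) (nat_lit 178)))) (XT.nd (nat_lit 156) (nat_lit 152) (nat_lit 0) (XT.nd (nat_lit 78) (nat_lit 76) (nat_lit 0) (XT.lf (nat_lit 0) (nat_lit 30095730557) (nat_lit 152) (nat_lit 20408464614) (nat_lit 228) (nat_lit 4589723497) (nat_lit 13) (nat_lit 5) (nat_lit 15) (nat_lit 5) (nat_lit 16) (nat_lit 5) (nat_lit 281) (nat_lit 262) (nat_lit 177)) (XT.lf (nat_lit 0) (nat_lit 434683436) (nat_lit 228) (nat_lit 6941280683) (nat_lit 76) (nat_lit 50899187109) (nat_lit 12) (nat_lit 5) (nat_lit 15) (nat_lit 5) (nat_lit 13) (nat_lit 5) (nat_lit 282) (nat_lit 262) (nat_lit 176))) (XT.nd (nat_lit 78) (nat_lit 0) (nat_lit 0) (XT.lf (nat_lit 0) (nat_lit 6097287903) (nat_lit 228) (nat_lit 48756849082) (nat_lit 76) (nat_lit 6808495798) (nat_lit 10) (nat_lit 5) (nat_lit 13) (nat_lit 5) (nat_lit 11) (nat_lit 5) (nat_lit 283) (nat_lit 262) (nat_lit 175)) (XT.lf (nat_lit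 0) (nat_lit 12596289956) (nat_lit 228) (nat_lit 30771141382) (nat_lit 76) (nat_lit 21923032810) (nat_lit 10) (nat_lit 5) (nat_lit 13) (nat_lit 5) (nat_lit 11) (nat_lit 5) (nat_lit 284) (nat_lit 262) (nat_lit 174))))) (XT.nd (nat_lit 234) (nat_lit 76) (nat_lit 0) (XT.nd (nat_lit 78) (nat_lit 152) (nat_lit 0) (XT.lf (nat_lit 0) (nat_lit 19612517080) (nat_lit 228) (nat_lit 11350344176) (nat_lit 76) (nat_lit 38245897134) (nat_lit 10) (nat_lit 5) (nat_lit 13) (nat_lit 5) (nat_lit 11) (nat_lit 5) (nat_lit 285) (nat_lit 262) (nat_lit 173)) (XT.nd (nat_lit 78) (nat_lit 0) (nat_lit 0) (XT.lf (nat_lit 0) (nat_lit 10127234001) (nat_lit 152) (nat_lit 17303873138) (nat_lit 228) (nat_lit 45990143076) (nat_lit 8) (nat_lit 5) (nat_lit 10) (nat_lit 5) (nat_lit 11) (nat_lit 5) (nat_lit 286) (nat_lit 262) (nat_lit 172)) (XT.lf (nat_lit 0) (nat_lit 33965122804) (nat_lit 152) (nat_lit 2218007753) (nat_lit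 228) (nat_lit 41762992937) (nat_lit 8) (nat_lit 5) (nat_lit 10) (nat_lit 5) (nat_lit 11) (nat_lit 5) (nat_lit 287) (nat_lit 262) (nat_lit 171)))) (XT.nd (nat_lit 156) (nat_lit 76) (nat_lit 0) (XT.nd (nat_lit 78) (nat_lit 0) (nat_lit 0) (XT.lf (nat_lit 0) (nat_lit 45971575775) (nat_lit 228) (nat_lit 23464760631) (nat_lit 76) (nat_lit 13369765916) (nat_lit 8) (nat_lit 5) (nat_lit 11) (nat_lit 5) (nat_lit 9) (nat_lit 4) (nat_lit 288) (nat_lit 262) (nat_lit 170)) (XT.lf (nat_lit 0) (nat_lit 56598635357) (nat_lit 228) (nat_lit 1367905278) (nat_lit 76) (nat_lit 30083910982) (nat_lit 8) (nat_lit 5) (nat_lit 11) (nat_lit 5) (nat_lit 9) (nat_lit 4) (nat_lit 289) (nat_lit 262) (nat_lit 169))) (XT.nd (nat_lit 78) (nat_lit 0) (nat_lit 0) (XT.lf (nat_lit 0) (nat_lit 23678339261) (nat_lit 76) (nat_lit 44965066698) (nat_lit 152) (nat_lit 25025553327) (nat_lit 7) (nat_lit 5) (nat_lit 8) (nat_lit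 5) (nat_lit 9) (nat_lit 4) (nat_lit 290) (nat_lit 262) (nat_lit 168)) (XT.lf (nat_lit 0) (nat_lit 50803303725) (nat_lit 76) (nat_lit 30884012461) (nat_lit 152) (nat_lit 18046799829) (nat_lit 7) (nat_lit 5) (nat_lit 8) (nat_lit 5) (nat_lit 9) (nat_lit 4) (nat_lit 291) (nat_lit 262) (nat_lit 167))))))) (XT.nd (nat_lit 1014) (nat_lit 228) (nat_lit 0) (XT.nd (nat_lit 468) (nat_lit 76) (nat_lit 0) (XT.nd (nat_lit 234) (nat_lit 0) (nat_lit 0) (XT.nd (nat_lit 78) (nat_lit 152) (nat_lit 0) (XT.lf (nat_lit 0) (nat_lit 80095697174) (nat_lit 76) (nat_lit 15677335596) (nat_lit 152) (nat_lit 10511601143) (nat_lit 7) (nat_lit 5) (nat_lit 8) (nat_lit 5) (nat_lit 9) (nat_lit 4) (nat_lit 292) (nat_lit 262) (nat_lit 166)) (XT.nd (nat_lit 78) (nat_lit 152) (nat_lit 0) (XT.lf (nat_lit 0) (nat_lit 111001945756) (nat_lit 152) (nat_lit 1648145835) (nat_lit 0) (nat_lit 707805742) (nat_lit 7) (nat_lit 5)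 (nat_lit 9) (nat_lit 4) (nat_lit 7) (nat_lit 4) (nat_lit 293) (nat_lit 262) (nat_lit 165)) (XT.lf (nat_lit 0) (nat_lit 7180609662) (nat_lit 152) (nat_lit 95363153181) (nat_lit 76) (nat_lit 18356756862) (nat_lit 5) (nat_lit 5) (nat_lit 7) (nat_lit 5) (nat_lit 6) (nat_lit 4) (nat_lit 294) (nat_lit 262) (nat_lit 164)))) (XT.nd (nat_lit 78) (nat_lit 0) (nat_lit 0) (XT.lf (nat_lit 0) (nat_lit 17397575488) (nat_lit 152) (nat_lit 74116198765) (nat_lit 76) (nat_lit 37524310052) (nat_lit 5) (nat_lit 5) (nat_lit 7) (nat_lit 5) (nat_lit 6) (nat_lit 4) (nat_lit 295) (nat_lit 262) (nat_lit 163)) (XT.nd (nat_lit 78) (nat_lit 0) (nat_lit 0) (XT.lf (nat_lit 0) (nat_lit 28430536142) (nat_lit 152) (nat_lit 51171654036) (nat_lit 76) (nat_lit 58224581136) (nat_lit 5) (nat_lit 5) (nat_lit 7) (nat_lit 5) (nat_lit 6) (nat_lit 4) (nat_lit 296) (nat_lit 262) (nat_lit 162)) (XT.lf (nat_lit 0) (nat_lit 40344872129)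 (nat_lit 152) (nat_lit 26393551320) (nat_lit 76) (nat_lit 80580238389) (nat_lit 5) (nat_lit 5) (nat_lit 7) (nat_lit 5) (nat_lit 6) (nat_lit 4) (nat_lit 297) (nat_lit 262) (nat_lit 161))))) (XT.nd (nat_lit 234) (nat_lit 0) (nat_lit 0) (XT.nd (nat_lit 78) (nat_lit 0) (nat_lit 0) (XT.lf (nat_lit 0) (nat_lit 384159811) (nat_lit 76) (nat_lit 52836266164) (nat_lit 152) (nat_lit 104348839020) (nat_lit 4) (nat_lit 5) (nat_lit 5) (nat_lit 5) (nat_lit 6) (nat_lit 4) (nat_lit 298) (nat_lit 262) (nat_lit 160)) (XT.nd (nat_lit 78) (nat_lit 0) (nat_lit 0) (XT.lf (nat_lit 0) (nat_lit 30803302467) (nat_lit 76) (nat_lit 37043243049) (nat_lit 152) (nat_lit 100735735723) (nat_lit 4) (nat_lit 5) (nat_lit 5) (nat_lit 5) (nat_lit 6) (nat_lit 4) (nat_lit 299) (nat_lit 262) (nat_lit 159)) (XT.lf (nat_lit 0) (nat_lit 63654300595) (nat_lit 76) (nat_lit 19987412286) (nat_lit 152) (nat_lit 96834715301) (nat_lit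 4) (nat_lit 5) (nat_lit 5) (nat_lit 5) (nat_lit 6) (nat_lit 4) (nat_lit 300) (nat_lit 262) (nat_lit 158)))) (XT.nd (nat_lit 156) (nat_lit 0) (nat_lit 0) (XT.nd (nat_lit 78) (nat_lit 0) (nat_lit 0) (XT.lf (nat_lit 0) (nat_lit 99131826776) (nat_lit 76) (nat_lit 1567702285) (nat_lit 152) (nat_lit 92622660597) (nat_lit 4) (nat_lit 5) (nat_lit 5) (nat_lit 5) (nat_lit 6) (nat_lit 4) (nat_lit 301) (nat_lit 262) (nat_lit 157)) (XT.lf (nat_lit 0) (nat_lit 119561795083) (nat_lit 152) (nat_lit 70190288169) (nat_lit 0) (nat_lit 17408348032) (nat_lit 4) (nat_lit 5) (nat_lit 6) (nat_lit 4) (nat_lit 4) (nat_lit 4) (nat_lit 302) (nat_lit 262) (nat_lit 156))) (XT.nd (nat_lit 78) (nat_lit 0) (nat_lit 0) (XT.lf (nat_lit 0) (nat_lit 139972922850) (nat_lit 152) (nat_lit 44312316293) (nat_lit 0) (nat_lit 37817307469) (nat_lit 4) (nat_lit 5) (nat_lit 6) (nat_lit 4) (nat_lit 4) (nat_lit 4) (nat_lit 303)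 (nat_lit 262) (nat_lit 155)) (XT.lf (nat_lit 0) (nat_lit 162016163918) (nat_lit 152) (nat_lit 16365393035) (nat_lit 0) (nat_lit 59858540823) (nat_lit 4) (nat_lit 5) (nat_lit 6) (nat_lit 4) (nat_lit 4) (nat_lit 4) (nat_lit 304) (nat_lit 262) (nat_lit 154)))))) (XT.nd (nat_lit 546) (nat_lit 152) (nat_lit 0) (XT.nd (nat_lit 234) (nat_lit 0) (nat_lit 0) (XT.nd (nat_lit 78) (nat_lit 0) (nat_lit 0) (XT.lf (nat_lit 0) (nat_lit 14543623976) (nat_lit 76) (nat_lit 171628295430) (nat_lit 76) (nat_lit 69468813341) (nat_lit 3) (nat_lit 4) (nat_lit 4) (nat_lit 5) (nat_lit 4) (nat_lit 4) (nat_lit 305) (nat_lit 262) (nat_lit 153)) (XT.nd (nat_lit 78) (nat_lit 0) (nat_lit 0) (XT.lf (nat_lit 0) (nat_lit 48854915825) (nat_lit 76) (nat_lit 163851984351) (nat_lit 76) (nat_lit 61690780970) (nat_lit 3) (nat_lit 4) (nat_lit 4) (nat_lit 5) (nat_lit 4) (nat_lit 4) (nat_lit 306) (nat_lit 262) (nat_lit 152))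 (XT.lf (nat_lit 0) (nat_lit 85910036089) (nat_lit 76) (nat_lit 155454000721) (nat_lit 76) (nat_lit 53291203552) (nat_lit 3) (nat_lit 4) (nat_lit 4) (nat_lit 5) (nat_lit 4) (nat_lit 4) (nat_lit 307) (nat_lit 262) (nat_lit 151)))) (XT.nd (nat_lit 156) (nat_lit 0) (nat_lit 0) (XT.nd (nat_lit 78) (nat_lit 0) (nat_lit 0) (XT.lf (nat_lit 0) (nat_lit 125928570668) (nat_lit 76) (nat_lit 146384578710) (nat_lit 76) (nat_lit 44220305811) (nat_lit 3) (nat_lit 4) (nat_lit 4) (nat_lit 5) (nat_lit 4) (nat_lit 4) (nat_lit 308) (nat_lit 262) (nat_lit 150)) (XT.lf (nat_lit 0) (nat_lit 169147666431) (nat_lit 76) (nat_lit 136589973595) (nat_lit 76) (nat_lit 34424334280) (nat_lit 3) (nat_lit 4) (nat_lit 4) (nat_lit 5) (nat_lit 4) (nat_lit 4) (nat_lit 309) (nat_lit 262) (nat_lit 149))) (XT.nd (nat_lit 78) (nat_lit 0) (nat_lit 0) (XT.lf (nat_lit 0) (nat_lit 215823436540) (nat_lit 76) (nat_lit 126012143273)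 (nat_lit 76) (nat_lit 23845238757) (nat_lit 3) (nat_lit 4) (nat_lit 4) (nat_lit 5) (nat_lit 4) (nat_lit 4) (nat_lit 310) (nat_lit 262) (nat_lit 148)) (XT.lf (nat_lit 0) (nat_lit 266232478151) (nat_lit 76) (nat_lit 114588404304) (nat_lit 76) (nat_lit 12420328306) (nat_lit 3) (nat_lit 4) (nat_lit 4) (nat_lit 5) (nat_lit 4) (nat_lit 4) (nat_lit 311) (nat_lit 262) (nat_lit 147))))) (XT.nd (nat_lit 234) (nat_lit 76) (nat_lit 0) (XT.nd (nat_lit 78) (nat_lit 76) (nat_lit 0) (XT.lf (nat_lit 0) (nat_lit 320673511509) (nat_lit 76) (nat_lit 102251060457) (nat_lit 76) (nat_lit 81899754) (nat_lit 3) (nat_lit 4) (nat_lit 4) (nat_lit 5) (nat_lit 4) (nat_lit 4) (nat_lit 312) (nat_lit 262) (nat_lit 146)) (XT.nd (nat_lit 78) (nat_lit 0) (nat_lit 0) (XT.lf (nat_lit 0) (nat_lit 12580686838) (nat_lit 152) (nat_lit 76002336435) (nat_lit 76) (nat_lit 366544485035) (nat_lit 2) (nat_lit 5) (nat_lit 4) (nat_lit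 5) (nat_lit 3) (nat_lit 4) (nat_lit 313) (nat_lit 262) (nat_lit 145)) (XT.lf (nat_lit 0) (nat_lit 26251468996) (nat_lit 152) (nat_lit 47568039506) (nat_lit 76) (nat_lit 415998581982) (nat_lit 2) (nat_lit 5) (nat_lit 4) (nat_lit 5) (nat_lit 3) (nat_lit 4) (nat_lit 314) (nat_lit 262) (nat_lit 144)))) (XT.nd (nat_lit 156) (nat_lit 0) (nat_lit 0) (XT.nd (nat_lit 78) (nat_lit 76) (nat_lit 0) (XT.lf (nat_lit 0) (nat_lit 41015555720) (nat_lit 152) (nat_lit 16859600196) (nat_lit 76) (nat_lit 469408793729) (nat_lit 2) (nat_lit 5) (nat_lit 4) (nat_lit 5) (nat_lit 3) (nat_lit 4) (nat_lit 315) (nat_lit 262) (nat_lit 143)) (XT.lf (nat_lit 0) (nat_lit 17163547595) (nat_lit 76) (nat_lit 40209674029) (nat_lit 152) (nat_lit 510340861372) (nat_lit 1) (nat_lit 5) (nat_lit 2) (nat_lit 5) (nat_lit 3) (nat_lit 4) (nat_lit 316) (nat_lit 262) (nat_lit 142))) (XT.nd (nat_lit 78) (nat_lit 0) (nat_lit 0) (XT.lf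 (nat_lit 0) (nat_lit 54866824881) (nat_lit 76) (nat_lit 20633327281) (nat_lit 152) (nat_lit 535841624261) (nat_lit 1) (nat_lit 5) (nat_lit 2) (nat_lit 5) (nat_lit 3) (nat_lit 4) (nat_lit 317) (nat_lit 262) (nat_lit 141)) (XT.lf (nat_lit 0) (nat_lit 95089180421) (nat_lit 152) (nat_lit 562886088170) (nat_lit 0) (nat_lit 483462675) (nat_lit 1) (nat_lit 5) (nat_lit 3) (nat_lit 4) (nat_lit 1) (nat_lit 4) (nat_lit 318) (nat_lit 262) (nat_lit 140))))))))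
noncomputable def xc91 : XT := (XT.nd (nat_lit 33540) (nat_lit 0) (nat_lit 456) (XT.nd (nat_lit 1014) (nat_lit 0) (nat_lit 0) (XT.nd (nat_lit 468) (nat_lit 0) (nat_lit 0) (XT.nd (nat_lit 234) (nat_lit 0) (nat_lit 0) (XT.nd (nat_lit 78) (nat_lit 0) (nat_lit 0) (XT.lf (nat_lit 0) (nat_lit 116780982589) (nat_lit 152) (nat_lit 570346530265) (nat_lit 0) (nat_lit 22174678810) (nat_lit 1) (nat_lit 5) (nat_lit 3) (nat_lit 4) (nat_lit 1) (nat_lit 4) (nat_lit 319) (nat_lit 262) (nat_lit 139)) (XT.nd (nat_lit 78) (nat_lit 0) (nat_lit 0) (XT.lf (nat_lit 0) (nat_lit 140207870662) (nat_lit 152) (nat_lit 578404255837) (nat_lit 0) (nat_lit 45601024261) (nat_lit 1) (nat_lit 5) (nat_lit 3) (nat_lit 4) (nat_lit 1) (nat_lit 4) (nat_lit 320) (nat_lit 262) (nat_lit 138)) (XT.lf (nat_lit 0) (nat_lit 165508670644) (nat_lit 152) (nat_lit 587107014371) (nat_lit 0) (nat_lit 70901321814) (nat_lit 1) (nat_lit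 5) (nat_lit 3) (nat_lit 4) (nat_lit 1) (nat_lit 4) (nat_lit 321) (nat_lit 262) (nat_lit 137)))) (XT.nd (nat_lit 78) (nat_lit 0) (nat_lit 0) (XT.lf (nat_lit 0) (nat_lit 192833313201) (nat_lit 152) (nat_lit 596506377770) (nat_lit 0) (nat_lit 98225499160) (nat_lit 1) (nat_lit 5) (nat_lit 3) (nat_lit 4) (nat_lit 1) (nat_lit 4) (nat_lit 322) (nat_lit 262) (nat_lit 136)) (XT.nd (nat_lit 78) (nat_lit 0) (nat_lit 0) (XT.lf (nat_lit 0) (nat_lit 222343722141) (nat_lit 152) (nat_lit 606658045964) (nat_lit 0) (nat_lit 127735477348) (nat_lit 1) (nat_lit 5) (nat_lit 3) (nat_lit 4) (nat_lit 1) (nat_lit 4) (nat_lit 323) (nat_lit 262) (nat_lit 135)) (XT.lf (nat_lit 0) (nat_lit 254214773961) (nat_lit 152) (nat_lit 617622176987) (nat_lit 0) (nat_lit 159606130324) (nat_lit 1) (nat_lit 5) (nat_lit 3) (nat_lit 4) (nat_lit 1) (nat_lit 4) (nat_lit 324) (nat_lit 262) (nat_lit 134))))) (XT.nd (nat_lit 234)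 (nat_lit 0) (nat_lit 0) (XT.nd (nat_lit 78) (nat_lit 0) (nat_lit 0) (XT.lf (nat_lit 0) (nat_lit 288635334154) (nat_lit 152) (nat_lit 629463743468) (nat_lit 0) (nat_lit 194026321217) (nat_lit 1) (nat_lit 5) (nat_lit 3) (nat_lit 4) (nat_lit 1) (nat_lit 4) (nat_lit 325) (nat_lit 262) (nat_lit 133)) (XT.nd (nat_lit 78) (nat_lit 0) (nat_lit 0) (XT.lf (nat_lit 0) (nat_lit 325809376409) (nat_lit 152) (nat_lit 642252917652) (nat_lit 0) (nat_lit 231200021528) (nat_lit 1) (nat_lit 5) (nat_lit 3) (nat_lit 4) (nat_lit 1) (nat_lit 4) (nat_lit 326) (nat_lit 262) (nat_lit 132)) (XT.lf (nat_lit 0) (nat_lit 365957191348) (nat_lit 152) (nat_lit 656065487239) (nat_lit 0) (nat_lit 271347519852) (nat_lit 1) (nat_lit 5) (nat_lit 3) (nat_lit 4) (nat_lit 1) (nat_lit 4) (nat_lit 327) (nat_lit 262) (nat_lit 131)))) (XT.nd (nat_lit 156) (nat_lit 0) (nat_lit 0) (XT.nd (nat_lit 78) (nat_lit 0) (nat_lit 0) (XT.lf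 (nat_lit 0) (nat_lit 409316691948) (nat_lit 152) (nat_lit 670983304492) (nat_lit 0) (nat_lit 314706727290) (nat_lit 1) (nat_lit 5) (nat_lit 3) (nat_lit 4) (nat_lit 1) (nat_lit 4) (nat_lit 328) (nat_lit 262) (nat_lit 130)) (XT.lf (nat_lit 0) (nat_lit 456144823397) (nat_lit 152) (nat_lit 687094771291) (nat_lit 0) (nat_lit 361534587292) (nat_lit 1) (nat_lit 5) (nat_lit 3) (nat_lit 4) (nat_lit 1) (nat_lit 4) (nat_lit 329) (nat_lit 262) (nat_lit 129))) (XT.nd (nat_lit 78) (nat_lit 0) (nat_lit 0) (XT.lf (nat_lit 0) (nat_lit 506719085734) (nat_lit 152) (nat_lit 704495362996) (nat_lit 0) (nat_lit 412108598290) (nat_lit 1) (nat_lit 5) (nat_lit 3) (nat_lit 4) (nat_lit 1) (nat_lit 4) (nat_lit 330) (nat_lit 262) (nat_lit 128)) (XT.lf (nat_lit 0) (nat_lit 561339178291) (nat_lit 152) (nat_lit 723288194224) (nat_lit 0) (nat_lit 466728458126) (nat_lit 1) (nat_lit 5) (nat_lit 3) (nat_lit 4) (nat_lit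 1) (nat_lit 4) (nat_lit 331) (nat_lit 262) (nat_lit 127)))))) (XT.nd (nat_lit 546) (nat_lit 0) (nat_lit 0) (XT.nd (nat_lit 234) (nat_lit 0) (nat_lit 0) (XT.nd (nat_lit 78) (nat_lit 0) (nat_lit 0) (XT.lf (nat_lit 0) (nat_lit 620328775691) (nat_lit 152) (nat_lit 743584629900) (nat_lit 0) (nat_lit 525717840043) (nat_lit 1) (nat_lit 5) (nat_lit 3) (nat_lit 4) (nat_lit 1) (nat_lit 4) (nat_lit 332) (nat_lit 262) (nat_lit 126)) (XT.nd (nat_lit 78) (nat_lit 0) (nat_lit 0) (XT.lf (nat_lit 0) (nat_lit 684037445919) (nat_lit 152) (nat_lit 765504945199) (nat_lit 0) (nat_lit 589426310749) (nat_lit 1) (nat_lit 5) (nat_lit 3) (nat_lit 4) (nat_lit 1) (nat_lit 4) (nat_lit 333) (nat_lit 262) (nat_lit 125)) (XT.lf (nat_lit 0) (nat_lit 752842721834) (nat_lit 152) (nat_lit 789179038286) (nat_lit 0) (nat_lit 658231401922) (nat_lit 1) (nat_lit 5) (nat_lit 3) (nat_lit 4) (nat_lit 1) (nat_lit 4) (nat_lit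 334) (nat_lit 262) (nat_lit 124)))) (XT.nd (nat_lit 156) (nat_lit 0) (nat_lit 0) (XT.nd (nat_lit 78) (nat_lit 0) (nat_lit 0) (XT.lf (nat_lit 0) (nat_lit 827152338405) (nat_lit 152) (nat_lit 814747200083) (nat_lit 0) (nat_lit 732540847436) (nat_lit 1) (nat_lit 5) (nat_lit 3) (nat_lit 4) (nat_lit 1) (nat_lit 4) (nat_lit 335) (nat_lit 262) (nat_lit 123)) (XT.lf (nat_lit 0) (nat_lit 907406648916) (nat_lit 152) (nat_lit 842360945622) (nat_lit 0) (nat_lit 812794999561) (nat_lit 1) (nat_lit 5) (nat_lit 3) (nat_lit 4) (nat_lit 1) (nat_lit 4) (nat_lit 336) (nat_lit 262) (nat_lit 122))) (XT.nd (nat_lit 78) (nat_lit 0) (nat_lit 0) (XT.lf (nat_lit 0) (nat_lit 994081234466) (nat_lit 152) (nat_lit 872183911915) (nat_lit 0) (nat_lit 899469438457) (nat_lit 1) (nat_lit 5) (nat_lit 3) (nat_lit 4) (nat_lit 1) (nat_lit 4) (nat_lit 337) (nat_lit 262) (nat_lit 121)) (XT.lf (nat_lit 0) (nat_lit 1087689722229)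 (nat_lit 152) (nat_lit 904392827650) (nat_lit 0) (nat_lit 993077790429) (nat_lit 1) (nat_lit 5) (nat_lit 3) (nat_lit 4) (nat_lit 1) (nat_lit 4) (nat_lit 338) (nat_lit 262) (nat_lit 120))))) (XT.nd (nat_lit 31668) (nat_lit 0) (nat_lit 1976) (XT.nd (nat_lit 78) (nat_lit 0) (nat_lit 0) (XT.lf (nat_lit 0) (nat_lit 1188786829169) (nat_lit 152) (nat_lit 939178560476) (nat_lit 0) (nat_lit 1094174771636) (nat_lit 1) (nat_lit 5) (nat_lit 3) (nat_lit 4) (nat_lit 1) (nat_lit 4) (nat_lit 339) (nat_lit 262) (nat_lit 119)) (XT.nd (nat_lit 31512) (nat_lit 0) (nat_lit 1976) (XT.lf (nat_lit 0) (nat_lit 1297971649253) (nat_lit 152) (nat_lit 976747248069) (nat_lit 0) (nat_lit 1203359475302) (nat_lit 1) (nat_lit 5) (nat_lit 3) (nat_lit 4) (nat_lit 1) (nat_lit 4) (nat_lit 340) (nat_lit 262) (nat_lit 118)) (XT.lf (nat_lit 0) (nat_lit 4969297016) (nat_lit 0) (nat_lit 4969297016) (nat_lit 380) (nat_lit 2245953579)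 (nat_lit 27) (nat_lit 5) (nat_lit 27) (nat_lit 3) (nat_lit 32) (nat_lit 3) (nat_lit 263) (nat_lit 263) (nat_lit 194)))) (XT.nd (nat_lit 156) (nat_lit 0) (nat_lit 0) (XT.nd (nat_lit 78) (nat_lit 0) (nat_lit 0) (XT.lf (nat_lit 0) (nat_lit 19911376682) (nat_lit 0) (nat_lit 851119589) (nat_lit 380) (nat_lit 4573100484) (nat_lit 27) (nat_lit 5) (nat_lit 27) (nat_lit 3) (nat_lit 32) (nat_lit 3) (nat_lit 264) (nat_lit 263) (nat_lit 193)) (XT.lf (nat_lit 76) (nat_lit 4296473306) (nat_lit 0) (nat_lit 17732137101) (nat_lit 456) (nat_lit 4326114013) (nat_lit 28) (nat_lit 5) (nat_lit 27) (nat_lit 5) (nat_lit 33) (nat_lit 5) (nat_lit 265) (nat_lit 263) (nat_lit 192))) (XT.nd (nat_lit 78) (nat_lit 0) (nat_lit 76) (XT.lf (nat_lit 76) (nat_lit 15074720802) (nat_lit 0) (nat_lit 8482762993) (nat_lit 456) (nat_lit 3885077665) (nat_lit 28) (nat_lit 5) (nat_lit 27) (nat_lit 5) (nat_lit 33) (nat_lit 5)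 (nat_lit 266) (nat_lit 263) (nat_lit 191)) (XT.lf (nat_lit 0) (nat_lit 25237204463) (nat_lit 380) (nat_lit 1944126447) (nat_lit 456) (nat_lit 1433901164) (nat_lit 28) (nat_lit 5) (nat_lit 33) (nat_lit 5) (nat_lit 34) (nat_lit 5) (nat_lit 267) (nat_lit 263) (nat_lit 190))))))) (XT.nd (nat_lit 1014) (nat_lit 608) (nat_lit 0) (XT.nd (nat_lit 468) (nat_lit 380) (nat_lit 0) (XT.nd (nat_lit 234) (nat_lit 228) (nat_lit 0) (XT.nd (nat_lit 78) (nat_lit 380) (nat_lit 0) (XT.lf (nat_lit 76) (nat_lit 9566430694) (nat_lit 0) (nat_lit 17928151093) (nat_lit 456) (nat_lit 2351755194) (nat_lit 29) (nat_lit 5) (nat_lit 28) (nat_lit 5) (nat_lit 34) (nat_lit 5) (nat_lit 268) (nat_lit 263) (nat_lit 189)) (XT.nd (nat_lit 78) (nat_lit 380) (nat_lit 0) (XT.lf (nat_lit 76) (nat_lit 22103255821) (nat_lit 0) (nat_lit 7875728119) (nat_lit 456) (nat_lit 1193308390) (nat_lit 29) (nat_lit 5) (nat_lit 28) (nat_lit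 5) (nat_lit 34) (nat_lit 5) (nat_lit 269) (nat_lit 263) (nat_lit 188)) (XT.lf (nat_lit 0) (nat_lit 198984061) (nat_lit 456) (nat_lit 29480590969) (nat_lit 76) (nat_lit 2913178741) (nat_lit 23) (nat_lit 5) (nat_lit 29) (nat_lit 5) (nat_lit 24) (nat_lit 5) (nat_lit 270) (nat_lit 263) (nat_lit 187)))) (XT.nd (nat_lit 78) (nat_lit 228) (nat_lit 0) (XT.lf (nat_lit 0) (nat_lit 2091088594) (nat_lit 456) (nat_lit 17571001844) (nat_lit 76) (nat_lit 14426111204) (nat_lit 23) (nat_lit 5) (nat_lit 29) (nat_lit 5) (nat_lit 24) (nat_lit 5) (nat_lit 271) (nat_lit 263) (nat_lit 186)) (XT.nd (nat_lit 78) (nat_lit 228) (nat_lit 0) (XT.lf (nat_lit 0) (nat_lit 4128940957) (nat_lit 456) (nat_lit 4713839105) (nat_lit 76) (nat_lit 26861011388) (nat_lit 23) (nat_lit 5) (nat_lit 29) (nat_lit 5) (nat_lit 24) (nat_lit 5) (nat_lit 272) (nat_lit 263) (nat_lit 185)) (XT.lf (nat_lit 0) (nat_lit 6631084973) (nat_lit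 304) (nat_lit 27855109857) (nat_lit 76) (nat_lit 2938384817) (nat_lit 20) (nat_lit 5) (nat_lit 24) (nat_lit 5) (nat_lit 21) (nat_lit 5) (nat_lit 273) (nat_lit 263) (nat_lit 184))))) (XT.nd (nat_lit 234) (nat_lit 152) (nat_lit 0) (XT.nd (nat_lit 78) (nat_lit 228) (nat_lit 0) (XT.lf (nat_lit 0) (nat_lit 9690389932) (nat_lit 304) (nat_lit 14247362642) (nat_lit 76) (nat_lit 15316767583) (nat_lit 20) (nat_lit 5) (nat_lit 24) (nat_lit 5) (nat_lit 21) (nat_lit 5) (nat_lit 274) (nat_lit 263) (nat_lit 183)) (XT.nd (nat_lit 78) (nat_lit 0) (nat_lit 0) (XT.lf (nat_lit 0) (nat_lit 467642274) (nat_lit 228) (nat_lit 12533483127) (nat_lit 304) (nat_lit 28229240439) (nat_lit 17) (nat_lit 5) (nat_lit 20) (nat_lit 5) (nat_lit 21) (nat_lit 5) (nat_lit 275) (nat_lit 263) (nat_lit 182)) (XT.lf (nat_lit 0) (nat_lit 16966828638) (nat_lit 304) (nat_lit 26172926023) (nat_lit 76) (nat_lit 193357308) (nat_lit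 17) (nat_lit 5) (nat_lit 21) (nat_lit 5) (nat_lit 18) (nat_lit 5) (nat_lit 276) (nat_lit 263) (nat_lit 181)))) (XT.nd (nat_lit 156) (nat_lit 0) (nat_lit 0) (XT.nd (nat_lit 78) (nat_lit 152) (nat_lit 0) (XT.lf (nat_lit 0) (nat_lit 21571313178) (nat_lit 304) (nat_lit 10746134194) (nat_lit 76) (nat_lit 13260946841) (nat_lit 17) (nat_lit 5) (nat_lit 21) (nat_lit 5) (nat_lit 18) (nat_lit 5) (nat_lit 277) (nat_lit 263) (nat_lit 180)) (XT.lf (nat_lit 0) (nat_lit 6221736997) (nat_lit 152) (nat_lit 20468330212) (nat_lit 228) (nat_lit 21301594551) (nat_lit 15) (nat_lit 5) (nat_lit 17) (nat_lit 5) (nat_lit 18) (nat_lit 5) (nat_lit 278) (nat_lit 263) (nat_lit 179))) (XT.nd (nat_lit 78) (nat_lit 0) (nat_lit 0) (XT.lf (nat_lit 0) (nat_lit 25153988466) (nat_lit 152) (nat_lit 7354604166) (nat_lit 228) (nat_lit 18066209341) (nat_lit 15) (nat_lit 5) (nat_lit 17) (nat_lit 5) (nat_lit 18) (nat_lit 5)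 (nat_lit 279) (nat_lit 263) (nat_lit 178)) (XT.lf (nat_lit 0) (nat_lit 38953039071) (nat_lit 228) (nat_lit 7931671229) (nat_lit 76) (nat_lit 6467078489) (nat_lit 15) (nat_lit 5) (nat_lit 18) (nat_lit 5) (nat_lit 16) (nat_lit 5) (nat_lit 280) (nat_lit 263) (nat_lit 177)))))) (XT.nd (nat_lit 546) (nat_lit 76) (nat_lit 0) (XT.nd (nat_lit 234) (nat_lit 304) (nat_lit 0) (XT.nd (nat_lit 78) (nat_lit 76) (nat_lit 0) (XT.lf (nat_lit 0) (nat_lit 11328415078) (nat_lit 152) (nat_lit 35045048971) (nat_lit 228) (nat_lit 9940664924) (nat_lit 13) (nat_lit 5) (nat_lit 15) (nat_lit 5) (nat_lit 16) (nat_lit 5) (nat_lit 281) (nat_lit 263) (nat_lit 176)) (XT.nd (nat_lit 78) (nat_lit 76) (nat_lit 0) (XT.lf (nat_lit 0) (nat_lit 32576635102) (nat_lit 152) (nat_lit 22024835327) (nat_lit 228) (nat_lit 4894896302) (nat_lit 13) (nat_lit 5) (nat_lit 15) (nat_lit 5) (nat_lit 16) (nat_lit 5) (nat_lit 282) (nat_lit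 263) (nat_lit 175)) (XT.lf (nat_lit 0) (nat_lit 523998231) (nat_lit 228) (nat_lit 7425453225) (nat_lit 76) (nat_lit 54982911198) (nat_lit 12) (nat_lit 5) (nat_lit 15) (nat_lit 5) (nat_lit 13) (nat_lit 5) (nat_lit 283) (nat_lit 263) (nat_lit 174)))) (XT.nd (nat_lit 156) (nat_lit 152) (nat_lit 0) (XT.nd (nat_lit 78) (nat_lit 0) (nat_lit 0) (XT.lf (nat_lit 0) (nat_lit 6637651153) (nat_lit 228) (nat_lit 52583902135) (nat_lit 76) (nat_lit 7369478643) (nat_lit 10) (nat_lit 5) (nat_lit 13) (nat_lit 5) (nat_lit 11) (nat_lit 5) (nat_lit 284) (nat_lit 263) (nat_lit 173)) (XT.lf (nat_lit 0) (nat_lit 13652678539) (nat_lit 228) (nat_lit 33164781883) (nat_lit 76) (nat_lit 23691970972) (nat_lit 10) (nat_lit 5) (nat_lit 13) (nat_lit 5) (nat_lit 11) (nat_lit 5) (nat_lit 285) (nat_lit 263) (nat_lit 172))) (XT.nd (nat_lit 78) (nat_lit 152) (nat_lit 0) (XT.lf (nat_lit 0) (nat_lit 21226597508) (nat_lit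 228) (nat_lit 12195361702) (nat_lit 76) (nat_lit 41319546254) (nat_lit 10) (nat_lit 5) (nat_lit 13) (nat_lit 5) (nat_lit 11) (nat_lit 5) (nat_lit 286) (nat_lit 263) (nat_lit 171)) (XT.lf (nat_lit 0) (nat_lit 10998827539) (nat_lit 152) (nat_lit 18669985071) (nat_lit 228) (nat_lit 49622358721) (nat_lit 8) (nat_lit 5) (nat_lit 10) (nat_lit 5) (nat_lit 11) (nat_lit 5) (nat_lit 287) (nat_lit 263) (nat_lit 170))))) (XT.nd (nat_lit 234) (nat_lit 76) (nat_lit 0) (XT.nd (nat_lit 78) (nat_lit 0) (nat_lit 0) (XT.lf (nat_lit 0) (nat_lit 36739198201) (nat_lit 152) (nat_lit 2378598449) (nat_lit 228) (nat_lit 45060517742) (nat_lit 8) (nat_lit 5) (nat_lit 10) (nat_lit 5) (nat_lit 11) (nat_lit 5) (nat_lit 288) (nat_lit 263) (nat_lit 169)) (XT.nd (nat_lit 78) (nat_lit 0) (nat_lit 0) (XT.lf (nat_lit 0) (nat_lit 49686728586) (nat_lit 228) (nat_lit 25286423598) (nat_lit 76) (nat_lit 14454168507) (nat_lit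 8) (nat_lit 5) (nat_lit 11) (nat_lit 5) (nat_lit 9) (nat_lit 4) (nat_lit 289) (nat_lit 263) (nat_lit 168)) (XT.lf (nat_lit 0) (nat_lit 61161180583) (nat_lit 228) (nat_lit 1425932254) (nat_lit 76) (nat_lit 32504347303) (nat_lit 8) (nat_lit 5) (nat_lit 11) (nat_lit 5) (nat_lit 9) (nat_lit 4) (nat_lit 290) (nat_lit 263) (nat_lit 167)))) (XT.nd (nat_lit 156) (nat_lit 0) (nat_lit 0) (XT.nd (nat_lit 78) (nat_lit 0) (nat_lit 0) (XT.lf (nat_lit 0) (nat_lit 25622710445) (nat_lit 76) (nat_lit 48545460399) (nat_lit 152) (nat_lit 26991405445) (nat_lit 7) (nat_lit 5) (nat_lit 8) (nat_lit 5) (nat_lit 9) (nat_lit 4) (nat_lit 291) (nat_lit 263) (nat_lit 166)) (XT.lf (nat_lit 0) (nat_lit 54913960655) (nat_lit 76) (nat_lit 33339167130) (nat_lit 152) (nat_lit 19457032566) (nat_lit 7) (nat_lit 5) (nat_lit 8) (nat_lit 5) (nat_lit 9) (nat_lit 4) (nat_lit 292) (nat_lit 263) (nat_lit 165))) (XT.nd (nat_lit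 78) (nat_lit 0) (nat_lit 0) (XT.lf (nat_lit 0) (nat_lit 86546309089) (nat_lit 76) (nat_lit 16917109176) (nat_lit 152) (nat_lit 11321500300) (nat_lit 7) (nat_lit 5) (nat_lit 8) (nat_lit 5) (nat_lit 9) (nat_lit 4) (nat_lit 293) (nat_lit 263) (nat_lit 164)) (XT.lf (nat_lit 0) (nat_lit 119908850966) (nat_lit 152) (nat_lit 1738242352) (nat_lit 0) (nat_lit 777108217) (nat_lit 7) (nat_lit 5) (nat_lit 9) (nat_lit 4) (nat_lit 7) (nat_lit 4) (nat_lit 294) (nat_lit 263) (nat_lit 163))))))))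
noncomputable def xc92 : XT := (XT.nd (nat_lit 2028) (nat_lit 0) (nat_lit 0) (XT.nd (nat_lit 1014) (nat_lit 152) (nat_lit 0) (XT.nd (nat_lit 468) (nat_lit 76) (nat_lit 0) (XT.nd (nat_lit 234) (nat_lit 76) (nat_lit 0) (XT.nd (nat_lit 78) (nat_lit 0) (nat_lit 0) (XT.lf (nat_lit 0) (nat_lit 7781639108) (nat_lit 152) (nat_lit 102949946832) (nat_lit 76) (nat_lit 19838688032) (nat_lit 5) (nat_lit 5) (nat_lit 7) (nat_lit 5) (nat_lit 6) (nat_lit 4) (nat_lit 295) (nat_lit 263) (nat_lit 162)) (XT.nd (nat_lit 78) (nat_lit 0) (nat_lit 0) (XT.lf (nat_lit 0) (nat_lit 18813993262) (nat_lit 152) (nat_lit 80006366330) (nat_lit 76) (nat_lit 40538653579) (nat_lit 5) (nat_lit 5) (nat_lit 7) (nat_lit 5) (nat_lit 6) (nat_lit 4) (nat_lit 296) (nat_lit 263) (nat_lit 161)) (XT.lf (nat_lit 0) (nat_lit 30727767676) (nat_lit 152) (nat_lit 55229156418) (nat_lit 76) (nat_lit 62894027927) (nat_lit 5) (nat_lit 5)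 (nat_lit 7) (nat_lit 5) (nat_lit 6) (nat_lit 4) (nat_lit 297) (nat_lit 263) (nat_lit 160)))) (XT.nd (nat_lit 78) (nat_lit 76) (nat_lit 0) (XT.lf (nat_lit 0) (nat_lit 43593562495) (nat_lit 152) (nat_lit 28471489184) (nat_lit 76) (nat_lit 87037287367) (nat_lit 5) (nat_lit 5) (nat_lit 7) (nat_lit 5) (nat_lit 6) (nat_lit 4) (nat_lit 298) (nat_lit 263) (nat_lit 159)) (XT.nd (nat_lit 78) (nat_lit 0) (nat_lit 0) (XT.lf (nat_lit 0) (nat_lit 447589565) (nat_lit 76) (nat_lit 57050794440) (nat_lit 152) (nat_lit 112674678042) (nat_lit 4) (nat_lit 5) (nat_lit 5) (nat_lit 5) (nat_lit 6) (nat_lit 4) (nat_lit 299) (nat_lit 263) (nat_lit 158)) (XT.lf (nat_lit 0) (nat_lit 33297841637) (nat_lit 76) (nat_lit 39995245995) (nat_lit 152) (nat_lit 108774161155) (nat_lit 4) (nat_lit 5) (nat_lit 5) (nat_lit 5) (nat_lit 6) (nat_lit 4) (nat_lit 300) (nat_lit 263) (nat_lit 157))))) (XT.nd (nat_lit 234) (nat_lit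 76) (nat_lit 0) (XT.nd (nat_lit 78) (nat_lit 0) (nat_lit 0) (XT.lf (nat_lit 0) (nat_lit 68774677024) (nat_lit 76) (nat_lit 21575797401) (nat_lit 152) (nat_lit 104562572686) (nat_lit 4) (nat_lit 5) (nat_lit 5) (nat_lit 5) (nat_lit 6) (nat_lit 4) (nat_lit 301) (nat_lit 263) (nat_lit 156)) (XT.nd (nat_lit 78) (nat_lit 0) (nat_lit 0) (XT.lf (nat_lit 0) (nat_lit 107088328826) (nat_lit 76) (nat_lit 1683296367) (nat_lit 152) (nat_lit 100014955076) (nat_lit 4) (nat_lit 5) (nat_lit 5) (nat_lit 5) (nat_lit 6) (nat_lit 4) (nat_lit 302) (nat_lit 263) (nat_lit 155)) (XT.lf (nat_lit 0) (nat_lit 129141896124) (nat_lit 152) (nat_lit 75780414696) (nat_lit 0) (nat_lit 18809655467) (nat_lit 4) (nat_lit 5) (nat_lit 6) (nat_lit 4) (nat_lit 4) (nat_lit 4) (nat_lit 303) (nat_lit 263) (nat_lit 154)))) (XT.nd (nat_lit 156) (nat_lit 76) (nat_lit 0) (XT.nd (nat_lit 78) (nat_lit 0) (nat_lit 0) (XT.lf (nat_lit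 0) (nat_lit 151184791340) (nat_lit 152) (nat_lit 47834064072) (nat_lit 0) (nat_lit 40850691689) (nat_lit 4) (nat_lit 5) (nat_lit 6) (nat_lit 4) (nat_lit 4) (nat_lit 4) (nat_lit 304) (nat_lit 263) (nat_lit 153)) (XT.lf (nat_lit 0) (nat_lit 174990452089) (nat_lit 152) (nat_lit 17653108251) (nat_lit 0) (nat_lit 64654631147) (nat_lit 4) (nat_lit 5) (nat_lit 6) (nat_lit 4) (nat_lit 4) (nat_lit 4) (nat_lit 305) (nat_lit 263) (nat_lit 152))) (XT.nd (nat_lit 78) (nat_lit 0) (nat_lit 0) (XT.lf (nat_lit 0) (nat_lit 15728085406) (nat_lit 76) (nat_lit 185350124379) (nat_lit 76) (nat_lit 75012709648) (nat_lit 3) (nat_lit 4) (nat_lit 4) (nat_lit 5) (nat_lit 4) (nat_lit 4) (nat_lit 306) (nat_lit 263) (nat_lit 151)) (XT.lf (nat_lit 0) (nat_lit 52782727157) (nat_lit 76) (nat_lit 176952333205) (nat_lit 76) (nat_lit 66613442745) (nat_lit 3) (nat_lit 4) (nat_lit 4) (nat_lit 5) (nat_lit 4) (nat_lit 4)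 (nat_lit 307) (nat_lit 263) (nat_lit 150)))))) (XT.nd (nat_lit 468) (nat_lit 152) (nat_lit 0) (XT.nd (nat_lit 234) (nat_lit 0) (nat_lit 0) (XT.nd (nat_lit 78) (nat_lit 0) (nat_lit 0) (XT.lf (nat_lit 0) (nat_lit 92800818668) (nat_lit 76) (nat_lit 167883089395) (nat_lit 76) (nat_lit 57542832518) (nat_lit 3) (nat_lit 4) (nat_lit 4) (nat_lit 5) (nat_lit 4) (nat_lit 4) (nat_lit 308) (nat_lit 263) (nat_lit 149)) (XT.nd (nat_lit 78) (nat_lit 0) (nat_lit 0) (XT.lf (nat_lit 0) (nat_lit 136019504183) (nat_lit 76) (nat_lit 158088649281) (nat_lit 76) (nat_lit 47747127204) (nat_lit 3) (nat_lit 4) (nat_lit 4) (nat_lit 5) (nat_lit 4) (nat_lit 4) (nat_lit 309) (nat_lit 263) (nat_lit 148)) (XT.lf (nat_lit 0) (nat_lit 182694894433) (nat_lit 76) (nat_lit 147510971737) (nat_lit 76) (nat_lit 37168278178) (nat_lit 3) (nat_lit 4) (nat_lit 4) (nat_lit 5) (nat_lit 4) (nat_lit 4) (nat_lit 310) (nat_lit 263)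 (nat_lit 147)))) (XT.nd (nat_lit 78) (nat_lit 0) (nat_lit 0) (XT.lf (nat_lit 0) (nat_lit 233103584322) (nat_lit 76) (nat_lit 136087374229) (nat_lit 76) (nat_lit 25743595965) (nat_lit 3) (nat_lit 4) (nat_lit 4) (nat_lit 5) (nat_lit 4) (nat_lit 4) (nat_lit 311) (nat_lit 263) (nat_lit 146)) (XT.nd (nat_lit 78) (nat_lit 0) (nat_lit 0) (XT.lf (nat_lit 0) (nat_lit 287544292013) (nat_lit 76) (nat_lit 123750161365) (nat_lit 76) (nat_lit 13405378744) (nat_lit 3) (nat_lit 4) (nat_lit 4) (nat_lit 5) (nat_lit 4) (nat_lit 4) (nat_lit 312) (nat_lit 263) (nat_lit 145)) (XT.lf (nat_lit 0) (nat_lit 346339629106) (nat_lit 76) (nat_lit 110426223735) (nat_lit 76) (nat_lit 80511154) (nat_lit 3) (nat_lit 4) (nat_lit 4) (nat_lit 5) (nat_lit 4) (nat_lit 4) (nat_lit 313) (nat_lit 263) (nat_lit 144))))) (XT.nd (nat_lit 234) (nat_lit 76) (nat_lit 0) (XT.nd (nat_lit 78) (nat_lit 0) (nat_lit 0) (XT.lf (nat_lit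 0) (nat_lit 13594126378) (nat_lit 152) (nat_lit 82070790787) (nat_lit 76) (nat_lit 395872198529) (nat_lit 2) (nat_lit 5) (nat_lit 4) (nat_lit 5) (nat_lit 3) (nat_lit 4) (nat_lit 314) (nat_lit 263) (nat_lit 143)) (XT.nd (nat_lit 78) (nat_lit 0) (nat_lit 0) (XT.lf (nat_lit 0) (nat_lit 28358053732) (nat_lit 152) (nat_lit 51362619182) (nat_lit 76) (nat_lit 449282315477) (nat_lit 2) (nat_lit 5) (nat_lit 4) (nat_lit 5) (nat_lit 3) (nat_lit 4) (nat_lit 315) (nat_lit 263) (nat_lit 142)) (XT.lf (nat_lit 0) (nat_lit 44302788340) (nat_lit 152) (nat_lit 18198309430) (nat_lit 76) (nat_lit 506965059206) (nat_lit 2) (nat_lit 5) (nat_lit 4) (nat_lit 5) (nat_lit 3) (nat_lit 4) (nat_lit 316) (nat_lit 263) (nat_lit 141)))) (XT.nd (nat_lit 156) (nat_lit 0) (nat_lit 0) (XT.nd (nat_lit 78) (nat_lit 0) (nat_lit 0) (XT.lf (nat_lit 0) (nat_lit 18546435531) (nat_lit 76) (nat_lit 43422424208) (nat_lit 152)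 (nat_lit 551161860070) (nat_lit 1) (nat_lit 5) (nat_lit 2) (nat_lit 5) (nat_lit 3) (nat_lit 4) (nat_lit 317) (nat_lit 263) (nat_lit 140)) (XT.lf (nat_lit 0) (nat_lit 59265248768) (nat_lit 76) (nat_lit 22280267774) (nat_lit 152) (nat_lit 578703148450) (nat_lit 1) (nat_lit 5) (nat_lit 2) (nat_lit 5) (nat_lit 3) (nat_lit 4) (nat_lit 318) (nat_lit 263) (nat_lit 139))) (XT.nd (nat_lit 78) (nat_lit 0) (nat_lit 0) (XT.lf (nat_lit 0) (nat_lit 102701353568) (nat_lit 152) (nat_lit 607908232782) (nat_lit 0) (nat_lit 525416832) (nat_lit 1) (nat_lit 5) (nat_lit 3) (nat_lit 4) (nat_lit 1) (nat_lit 4) (nat_lit 319) (nat_lit 263) (nat_lit 138)) (XT.lf (nat_lit 0) (nat_lit 126128126671) (nat_lit 152) (nat_lit 615966157833) (nat_lit 0) (nat_lit 23951687507) (nat_lit 1) (nat_lit 5) (nat_lit 3) (nat_lit 4) (nat_lit 1) (nat_lit 4) (nat_lit 320) (nat_lit 263) (nat_lit 137))))))) (XT.nd (nat_lit 1014) (nat_lit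 0) (nat_lit 0) (XT.nd (nat_lit 468) (nat_lit 0) (nat_lit 0) (XT.nd (nat_lit 234) (nat_lit 0) (nat_lit 0) (XT.nd (nat_lit 78) (nat_lit 0) (nat_lit 0) (XT.lf (nat_lit 0) (nat_lit 151428820200) (nat_lit 152) (nat_lit 624669101070) (nat_lit 0) (nat_lit 49251915824) (nat_lit 1) (nat_lit 5) (nat_lit 3) (nat_lit 4) (nat_lit 1) (nat_lit 4) (nat_lit 321) (nat_lit 263) (nat_lit 136)) (XT.nd (nat_lit 78) (nat_lit 0) (nat_lit 0) (XT.lf (nat_lit 0) (nat_lit 178753364189) (nat_lit 152) (nat_lit 634068635489) (nat_lit 0) (nat_lit 76576029061) (nat_lit 1) (nat_lit 5) (nat_lit 3) (nat_lit 4) (nat_lit 1) (nat_lit 4) (nat_lit 322) (nat_lit 263) (nat_lit 135)) (XT.lf (nat_lit 0) (nat_lit 208263681862) (nat_lit 152) (nat_lit 644220462036) (nat_lit 0) (nat_lit 106085947890) (nat_lit 1) (nat_lit 5) (nat_lit 3) (nat_lit 4) (nat_lit 1) (nat_lit 4) (nat_lit 323) (nat_lit 263) (nat_lit 134)))) (XT.nd (nat_lit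 78) (nat_lit 0) (nat_lit 0) (XT.lf (nat_lit 0) (nat_lit 240134649176) (nat_lit 152) (nat_lit 655184739682) (nat_lit 0) (nat_lit 137956545905) (nat_lit 1) (nat_lit 5) (nat_lit 3) (nat_lit 4) (nat_lit 1) (nat_lit 4) (nat_lit 324) (nat_lit 263) (nat_lit 133)) (XT.nd (nat_lit 78) (nat_lit 0) (nat_lit 0) (XT.lf (nat_lit 0) (nat_lit 274555131122) (nat_lit 152) (nat_lit 667026441925) (nat_lit 0) (nat_lit 172376685907) (nat_lit 1) (nat_lit 5) (nat_lit 3) (nat_lit 4) (nat_lit 1) (nat_lit 4) (nat_lit 325) (nat_lit 263) (nat_lit 132)) (XT.lf (nat_lit 0) (nat_lit 311729100927) (nat_lit 152) (nat_lit 679815741815) (nat_lit 0) (nat_lit 209550339096) (nat_lit 1) (nat_lit 5) (nat_lit 3) (nat_lit 4) (nat_lit 1) (nat_lit 4) (nat_lit 326) (nat_lit 263) (nat_lit 131))))) (XT.nd (nat_lit 234) (nat_lit 0) (nat_lit 0) (XT.nd (nat_lit 78) (nat_lit 0) (nat_lit 0) (XT.lf (nat_lit 0) (nat_lit 351876848782)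 (nat_lit 152) (nat_lit 693628427795) (nat_lit 0) (nat_lit 249697793789) (nat_lit 1) (nat_lit 5) (nat_lit 3) (nat_lit 4) (nat_lit 1) (nat_lit 4) (nat_lit 327) (nat_lit 263) (nat_lit 130)) (XT.nd (nat_lit 78) (nat_lit 0) (nat_lit 0) (XT.lf (nat_lit 0) (nat_lit 395236287267) (nat_lit 152) (nat_lit 708546352820) (nat_lit 0) (nat_lit 293056960828) (nat_lit 1) (nat_lit 5) (nat_lit 3) (nat_lit 4) (nat_lit 1) (nat_lit 4) (nat_lit 328) (nat_lit 263) (nat_lit 129)) (XT.lf (nat_lit 0) (nat_lit 442064361203) (nat_lit 152) (nat_lit 724657919409) (nat_lit 0) (nat_lit 339884783424) (nat_lit 1) (nat_lit 5) (nat_lit 3) (nat_lit 4) (nat_lit 1) (nat_lit 4) (nat_lit 329) (nat_lit 263) (nat_lit 128)))) (XT.nd (nat_lit 156) (nat_lit 0) (nat_lit 0) (XT.nd (nat_lit 78) (nat_lit 0) (nat_lit 0) (XT.lf (nat_lit 0) (nat_lit 492638570287) (nat_lit 152) (nat_lit 742058603511) (nat_lit 0) (nat_lit 390458759787)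 (nat_lit 1) (nat_lit 5) (nat_lit 3) (nat_lit 4) (nat_lit 1) (nat_lit 4) (nat_lit 330) (nat_lit 263) (nat_lit 127)) (XT.lf (nat_lit 0) (nat_lit 547258613536) (nat_lit 152) (nat_lit 760851520292) (nat_lit 0) (nat_lit 445078587552) (nat_lit 1) (nat_lit 5) (nat_lit 3) (nat_lit 4) (nat_lit 1) (nat_lit 4) (nat_lit 331) (nat_lit 263) (nat_lit 126))) (XT.nd (nat_lit 78) (nat_lit 0) (nat_lit 0) (XT.lf (nat_lit 0) (nat_lit 606248165279) (nat_lit 152) (nat_lit 781148035184) (nat_lit 0) (nat_lit 504067939775) (nat_lit 1) (nat_lit 5) (nat_lit 3) (nat_lit 4) (nat_lit 1) (nat_lit 4) (nat_lit 332) (nat_lit 263) (nat_lit 125)) (XT.lf (nat_lit 0) (nat_lit 669956793232) (nat_lit 152) (nat_lit 803068423831) (nat_lit 0) (nat_lit 567776382986) (nat_lit 1) (nat_lit 5) (nat_lit 3) (nat_lit 4) (nat_lit 1) (nat_lit 4) (nat_lit 333) (nat_lit 263) (nat_lit 124)))))) (XT.nd (nat_lit 32136) (nat_lit 0) (nat_lit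 1672) (XT.nd (nat_lit 234) (nat_lit 0) (nat_lit 0) (XT.nd (nat_lit 78) (nat_lit 0) (nat_lit 0) (XT.lf (nat_lit 0) (nat_lit 738762030005) (nat_lit 152) (nat_lit 826742584833) (nat_lit 0) (nat_lit 636581448701) (nat_lit 1) (nat_lit 5) (nat_lit 3) (nat_lit 4) (nat_lit 1) (nat_lit 4) (nat_lit 334) (nat_lit 263) (nat_lit 123)) (XT.nd (nat_lit 78) (nat_lit 0) (nat_lit 0) (XT.lf (nat_lit 0) (nat_lit 813071610333) (nat_lit 152) (nat_lit 852310809514) (nat_lit 0) (nat_lit 710890870643) (nat_lit 1) (nat_lit 5) (nat_lit 3) (nat_lit 4) (nat_lit 1) (nat_lit 4) (nat_lit 335) (nat_lit 263) (nat_lit 122)) (XT.lf (nat_lit 0) (nat_lit 893325887286) (nat_lit 152) (nat_lit 879924613279) (nat_lit 0) (nat_lit 791145000941) (nat_lit 1) (nat_lit 5) (nat_lit 3) (nat_lit 4) (nat_lit 1) (nat_lit 4) (nat_lit 336) (nat_lit 263) (nat_lit 121)))) (XT.nd (nat_lit 156) (nat_lit 0) (nat_lit 0) (XT.nd (nat_lit 78)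 (nat_lit 0) (nat_lit 0) (XT.lf (nat_lit 0) (nat_lit 980000441763) (nat_lit 152) (nat_lit 909747633485) (nat_lit 0) (nat_lit 877819419628) (nat_lit 1) (nat_lit 5) (nat_lit 3) (nat_lit 4) (nat_lit 1) (nat_lit 4) (nat_lit 337) (nat_lit 263) (nat_lit 120)) (XT.lf (nat_lit 0) (nat_lit 1073608900755) (nat_lit 152) (nat_lit 941956599139) (nat_lit 0) (nat_lit 971427752887) (nat_lit 1) (nat_lit 5) (nat_lit 3) (nat_lit 4) (nat_lit 1) (nat_lit 4) (nat_lit 338) (nat_lit 263) (nat_lit 119))) (XT.nd (nat_lit 31668) (nat_lit 0) (nat_lit 1976) (XT.lf (nat_lit 0) (nat_lit 1174705981055) (nat_lit 152) (nat_lit 976742378187) (nat_lit 0) (nat_lit 1072524716768) (nat_lit 1) (nat_lit 5) (nat_lit 3) (nat_lit 4) (nat_lit 1) (nat_lit 4) (nat_lit 339) (nat_lit 263) (nat_lit 118)) (XT.lf (nat_lit 0) (nat_lit 5410866215) (nat_lit 0) (nat_lit 5410866215) (nat_lit 380) (nat_lit 2329515421) (nat_lit 27) (nat_lit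 5) (nat_lit 27) (nat_lit 3) (nat_lit 32) (nat_lit 3) (nat_lit 264) (nat_lit 264) (nat_lit 192))))) (XT.nd (nat_lit 234) (nat_lit 304) (nat_lit 0) (XT.nd (nat_lit 78) (nat_lit 0) (nat_lit 0) (XT.lf (nat_lit 0) (nat_lit 21585815405) (nat_lit 0) (nat_lit 1000737745) (nat_lit 380) (nat_lit 4760958811) (nat_lit 27) (nat_lit 5) (nat_lit 27) (nat_lit 3) (nat_lit 32) (nat_lit 3) (nat_lit 265) (nat_lit 264) (nat_lit 191)) (XT.nd (nat_lit 78) (nat_lit 0) (nat_lit 0) (XT.lf (nat_lit 76) (nat_lit 4736121364) (nat_lit 0) (nat_lit 19206248344) (nat_lit 456) (nat_lit 4506866918) (nat_lit 28) (nat_lit 5) (nat_lit 27) (nat_lit 5) (nat_lit 33) (nat_lit 5) (nat_lit 266) (nat_lit 264) (nat_lit 190)) (XT.lf (nat_lit 76) (nat_lit 16369522720) (nat_lit 0) (nat_lit 9212810213) (nat_lit 456) (nat_lit 4042794788) (nat_lit 28) (nat_lit 5) (nat_lit 27) (nat_lit 5) (nat_lit 33) (nat_lit 5) (nat_lit 267) (nat_lit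 264) (nat_lit 189)))) (XT.nd (nat_lit 156) (nat_lit 380) (nat_lit 0) (XT.nd (nat_lit 78) (nat_lit 0) (nat_lit 0) (XT.lf (nat_lit 0) (nat_lit 27384897147) (nat_lit 380) (nat_lit 2004379053) (nat_lit 456) (nat_lit 1503378410) (nat_lit 28) (nat_lit 5) (nat_lit 33) (nat_lit 5) (nat_lit 34) (nat_lit 5) (nat_lit 268) (nat_lit 264) (nat_lit 188)) (XT.lf (nat_lit 76) (nat_lit 10424610571) (nat_lit 0) (nat_lit 19390952958) (nat_lit 456) (nat_lit 2407379488) (nat_lit 29) (nat_lit 5) (nat_lit 28) (nat_lit 5) (nat_lit 34) (nat_lit 5) (nat_lit 269) (nat_lit 264) (nat_lit 187))) (XT.nd (nat_lit 78) (nat_lit 380) (nat_lit 0) (XT.lf (nat_lit 76) (nat_lit 23957502787) (nat_lit 0) (nat_lit 8532221348) (nat_lit 456) (nat_lit 1166072948) (nat_lit 29) (nat_lit 5) (nat_lit 28) (nat_lit 5) (nat_lit 34) (nat_lit 5) (nat_lit 270) (nat_lit 264) (nat_lit 186)) (XT.lf (nat_lit 0) (nat_lit 324557219) (nat_lit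 456) (nat_lit 31737714724) (nat_lit 76) (nat_lit 3128028168) (nat_lit 23) (nat_lit 5) (nat_lit 29) (nat_lit 5) (nat_lit 24) (nat_lit 5) (nat_lit 271) (nat_lit 264) (nat_lit 185))))))))
noncomputable def xc93 : XT := (XT.nd (nat_lit 2106) (nat_lit 304) (nat_lit 0) (XT.nd (nat_lit 1014) (nat_lit 532) (nat_lit 0) (XT.nd (nat_lit 468) (nat_lit 380) (nat_lit 0) (XT.nd (nat_lit 234) (nat_lit 228) (nat_lit 0) (XT.nd (nat_lit 78) (nat_lit 228) (nat_lit 0) (XT.lf (nat_lit 0) (nat_lit 2359907564) (nat_lit 456) (nat_lit 18882863914) (nat_lit 76) (nat_lit 15563343738) (nat_lit 23) (nat_lit 5) (nat_lit 29) (nat_lit 5) (nat_lit 24) (nat_lit 5) (nat_lit 272) (nat_lit 264) (nat_lit 184)) (XT.nd (nat_lit 78) (nat_lit 228) (nat_lit 0) (XT.lf (nat_lit 0) (nat_lit 4553267236) (nat_lit 456) (nat_lit 5004077644) (nat_lit 76) (nat_lit 28994284556) (nat_lit 23) (nat_lit 5) (nat_lit 29) (nat_lit 5) (nat_lit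 24) (nat_lit 5) (nat_lit 273) (nat_lit 264) (nat_lit 183)) (XT.lf (nat_lit 0) (nat_lit 7250549136) (nat_lit 304) (nat_lit 29990741928) (nat_lit 76) (nat_lit 3169262275) (nat_lit 20) (nat_lit 5) (nat_lit 24) (nat_lit 5) (nat_lit 21) (nat_lit 5) (nat_lit 274) (nat_lit 264) (nat_lit 182)))) (XT.nd (nat_lit 78) (nat_lit 228) (nat_lit 0) (XT.lf (nat_lit 0) (nat_lit 10548007576) (nat_lit 304) (nat_lit 15301247285) (nat_lit 76) (nat_lit 16538226279) (nat_lit 20) (nat_lit 5) (nat_lit 24) (nat_lit 5) (nat_lit 21) (nat_lit 5) (nat_lit 275) (nat_lit 264) (nat_lit 181)) (XT.nd (nat_lit 78) (nat_lit 0) (nat_lit 0) (XT.lf (nat_lit 0) (nat_lit 588783231) (nat_lit 228) (nat_lit 13530729650) (nat_lit 304) (nat_lit 30402268696) (nat_lit 17) (nat_lit 5) (nat_lit 20) (nat_lit 5) (nat_lit 21) (nat_lit 5) (nat_lit 276) (nat_lit 264) (nat_lit 180)) (XT.lf (nat_lit 0) (nat_lit 18396793531) (nat_lit 304)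 (nat_lit 28182859676) (nat_lit 76) (nat_lit 213604032) (nat_lit 17) (nat_lit 5) (nat_lit 21) (nat_lit 5) (nat_lit 18) (nat_lit 5) (nat_lit 277) (nat_lit 264) (nat_lit 179))))) (XT.nd (nat_lit 234) (nat_lit 228) (nat_lit 0) (XT.nd (nat_lit 78) (nat_lit 152) (nat_lit 0) (XT.lf (nat_lit 0) (nat_lit 23364257678) (nat_lit 304) (nat_lit 11528139348) (nat_lit 76) (nat_lit 14326246791) (nat_lit 17) (nat_lit 5) (nat_lit 21) (nat_lit 5) (nat_lit 18) (nat_lit 5) (nat_lit 278) (nat_lit 264) (nat_lit 178)) (XT.nd (nat_lit 78) (nat_lit 0) (nat_lit 0) (XT.lf (nat_lit 0) (nat_lit 6795194815) (nat_lit 152) (nat_lit 22094157558) (nat_lit 228) (nat_lit 22935920781) (nat_lit 15) (nat_lit 5) (nat_lit 17) (nat_lit 5) (nat_lit 18) (nat_lit 5) (nat_lit 279) (nat_lit 264) (nat_lit 177)) (XT.lf (nat_lit 0) (nat_lit 27236417597) (nat_lit 152) (nat_lit 7932195582) (nat_lit 228) (nat_lit 19446875224) (nat_lit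 15) (nat_lit 5) (nat_lit 17) (nat_lit 5) (nat_lit 18) (nat_lit 5) (nat_lit 280) (nat_lit 264) (nat_lit 176)))) (XT.nd (nat_lit 156) (nat_lit 76) (nat_lit 0) (XT.nd (nat_lit 78) (nat_lit 152) (nat_lit 0) (XT.lf (nat_lit 0) (nat_lit 42124460272) (nat_lit 228) (nat_lit 8496622894) (nat_lit 76) (nat_lit 6993924224) (nat_lit 15) (nat_lit 5) (nat_lit 18) (nat_lit 5) (nat_lit 16) (nat_lit 5) (nat_lit 281) (nat_lit 264) (nat_lit 175)) (XT.lf (nat_lit 0) (nat_lit 12302508748) (nat_lit 152) (nat_lit 37833554319) (nat_lit 228) (nat_lit 10678506012) (nat_lit 13) (nat_lit 5) (nat_lit 15) (nat_lit 5) (nat_lit 16) (nat_lit 5) (nat_lit 282) (nat_lit 264) (nat_lit 174))) (XT.nd (nat_lit 78) (nat_lit 76) (nat_lit 0) (XT.lf (nat_lit 0) (nat_lit 35245562636) (nat_lit 152) (nat_lit 23772841997) (nat_lit 228) (nat_lit 5233328649) (nat_lit 13) (nat_lit 5) (nat_lit 15) (nat_lit 5) (nat_lit 16) (nat_lit 5)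 (nat_lit 283) (nat_lit 264) (nat_lit 173)) (XT.lf (nat_lit 0) (nat_lit 612677452) (nat_lit 228) (nat_lit 7958507047) (nat_lit 76) (nat_lit 59391651365) (nat_lit 12) (nat_lit 5) (nat_lit 15) (nat_lit 5) (nat_lit 13) (nat_lit 5) (nat_lit 284) (nat_lit 264) (nat_lit 172)))))) (XT.nd (nat_lit 546) (nat_lit 228) (nat_lit 0) (XT.nd (nat_lit 234) (nat_lit 152) (nat_lit 0) (XT.nd (nat_lit 78) (nat_lit 0) (nat_lit 0) (XT.lf (nat_lit 0) (nat_lit 7213742307) (nat_lit 228) (nat_lit 56727604297) (nat_lit 76) (nat_lit 7973014283) (nat_lit 10) (nat_lit 5) (nat_lit 13) (nat_lit 5) (nat_lit 11) (nat_lit 5) (nat_lit 285) (nat_lit 264) (nat_lit 171)) (XT.nd (nat_lit 78) (nat_lit 0) (nat_lit 0) (XT.lf (nat_lit 0) (nat_lit 14786632694) (nat_lit 228) (nat_lit 35759621834) (nat_lit 76) (nat_lit 25600270640) (nat_lit 10) (nat_lit 5) (nat_lit 13) (nat_lit 5) (nat_lit 11) (nat_lit 5) (nat_lit 286) (nat_lit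 264) (nat_lit 170)) (XT.lf (nat_lit 0) (nat_lit 22963373339) (nat_lit 228) (nat_lit 13116969711) (nat_lit 76) (nat_lit 44637093279) (nat_lit 10) (nat_lit 5) (nat_lit 13) (nat_lit 5) (nat_lit 11) (nat_lit 5) (nat_lit 287) (nat_lit 264) (nat_lit 169)))) (XT.nd (nat_lit 156) (nat_lit 0) (nat_lit 0) (XT.nd (nat_lit 78) (nat_lit 0) (nat_lit 0) (XT.lf (nat_lit 0) (nat_lit 11931387050) (nat_lit 152) (nat_lit 20147982095) (nat_lit 228) (nat_lit 53551856095) (nat_lit 8) (nat_lit 5) (nat_lit 10) (nat_lit 5) (nat_lit 11) (nat_lit 5) (nat_lit 288) (nat_lit 264) (nat_lit 168)) (XT.lf (nat_lit 0) (nat_lit 39727087119) (nat_lit 152) (nat_lit 2554440230) (nat_lit 228) (nat_lit 48628052380) (nat_lit 8) (nat_lit 5) (nat_lit 10) (nat_lit 5) (nat_lit 11) (nat_lit 5) (nat_lit 289) (nat_lit 264) (nat_lit 167))) (XT.nd (nat_lit 78) (nat_lit 0) (nat_lit 0) (XT.lf (nat_lit 0) (nat_lit 53693754278) (nat_lit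 228) (nat_lit 27261739850) (nat_lit 76) (nat_lit 15623208879) (nat_lit 8) (nat_lit 5) (nat_lit 11) (nat_lit 5) (nat_lit 9) (nat_lit 4) (nat_lit 290) (nat_lit 264) (nat_lit 166)) (XT.lf (nat_lit 0) (nat_lit 66083785590) (nat_lit 228) (nat_lit 1495934949) (nat_lit 76) (nat_lit 35116460727) (nat_lit 8) (nat_lit 5) (nat_lit 11) (nat_lit 5) (nat_lit 9) (nat_lit 4) (nat_lit 291) (nat_lit 264) (nat_lit 165))))) (XT.nd (nat_lit 234) (nat_lit 152) (nat_lit 0) (XT.nd (nat_lit 78) (nat_lit 0) (nat_lit 0) (XT.lf (nat_lit 0) (nat_lit 27715483422) (nat_lit 76) (nat_lit 52414683964) (nat_lit 152) (nat_lit 29119688946) (nat_lit 7) (nat_lit 5) (nat_lit 8) (nat_lit 5) (nat_lit 9) (nat_lit 4) (nat_lit 292) (nat_lit 264) (nat_lit 164)) (XT.nd (nat_lit 78) (nat_lit 0) (nat_lit 0) (XT.lf (nat_lit 0) (nat_lit 59346851713) (nat_lit 76) (nat_lit 35992954882) (nat_lit 152) (nat_lit 20984864677) (nat_lit 7)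 (nat_lit 5) (nat_lit 8) (nat_lit 5) (nat_lit 9) (nat_lit 4) (nat_lit 293) (nat_lit 264) (nat_lit 163)) (XT.lf (nat_lit 0) (nat_lit 93506841784) (nat_lit 76) (nat_lit 18258120857) (nat_lit 152) (nat_lit 12200618014) (nat_lit 7) (nat_lit 5) (nat_lit 8) (nat_lit 5) (nat_lit 9) (nat_lit 4) (nat_lit 294) (nat_lit 264) (nat_lit 162)))) (XT.nd (nat_lit 156) (nat_lit 0) (nat_lit 0) (XT.nd (nat_lit 78) (nat_lit 152) (nat_lit 0) (XT.lf (nat_lit 0) (nat_lit 129524492471) (nat_lit 152) (nat_lit 1841503429) (nat_lit 0) (nat_lit 850146230) (nat_lit 7) (nat_lit 5) (nat_lit 9) (nat_lit 4) (nat_lit 7) (nat_lit 4) (nat_lit 295) (nat_lit 264) (nat_lit 161)) (XT.lf (nat_lit 0) (nat_lit 8426958880) (nat_lit 152) (nat_lit 111149712638) (nat_lit 76) (nat_lit 21437263374) (nat_lit 5) (nat_lit 5) (nat_lit 7) (nat_lit 5) (nat_lit 6) (nat_lit 4) (nat_lit 296) (nat_lit 264) (nat_lit 160))) (XT.nd (nat_lit 78)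 (nat_lit 0) (nat_lit 0) (XT.lf (nat_lit 0) (nat_lit 20340213319) (nat_lit 152) (nat_lit 86373329395) (nat_lit 76) (nat_lit 43792375772) (nat_lit 5) (nat_lit 5) (nat_lit 7) (nat_lit 5) (nat_lit 6) (nat_lit 4) (nat_lit 297) (nat_lit 264) (nat_lit 159)) (XT.lf (nat_lit 0) (nat_lit 33205526679) (nat_lit 152) (nat_lit 59616427596) (nat_lit 76) (nat_lit 67935392667) (nat_lit 5) (nat_lit 5) (nat_lit 7) (nat_lit 5) (nat_lit 6) (nat_lit 4) (nat_lit 298) (nat_lit 264) (nat_lit 158))))))) (XT.nd (nat_lit 1014) (nat_lit 152) (nat_lit 0) (XT.nd (nat_lit 468) (nat_lit 76) (nat_lit 0) (XT.nd (nat_lit 234) (nat_lit 0) (nat_lit 0) (XT.nd (nat_lit 78) (nat_lit 76) (nat_lit 0) (XT.lf (nat_lit 0) (nat_lit 47099137855) (nat_lit 152) (nat_lit 30720447824) (nat_lit 76) (nat_lit 94009383789) (nat_lit 5) (nat_lit 5) (nat_lit 7) (nat_lit 5) (nat_lit 6) (nat_lit 4) (nat_lit 299) (nat_lit 264) (nat_lit 157))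 (XT.nd (nat_lit 78) (nat_lit 0) (nat_lit 0) (XT.lf (nat_lit 0) (nat_lit 511429112) (nat_lit 76) (nat_lit 61604250126) (nat_lit 152) (nat_lit 121669732446) (nat_lit 4) (nat_lit 5) (nat_lit 5) (nat_lit 5) (nat_lit 6) (nat_lit 4) (nat_lit 300) (nat_lit 264) (nat_lit 156)) (XT.lf (nat_lit 0) (nat_lit 35987624876) (nat_lit 76) (nat_lit 43185043574) (nat_lit 152) (nat_lit 117458575677) (nat_lit 4) (nat_lit 5) (nat_lit 5) (nat_lit 5) (nat_lit 6) (nat_lit 4) (nat_lit 301) (nat_lit 264) (nat_lit 155)))) (XT.nd (nat_lit 78) (nat_lit 0) (nat_lit 0) (XT.lf (nat_lit 0) (nat_lit 74300684435) (nat_lit 76) (nat_lit 23292766655) (nat_lit 152) (nat_lit 112911357789) (nat_lit 4) (nat_lit 5) (nat_lit 5) (nat_lit 5) (nat_lit 6) (nat_lit 4) (nat_lit 302) (nat_lit 264) (nat_lit 154)) (XT.nd (nat_lit 78) (nat_lit 0) (nat_lit 0) (XT.lf (nat_lit 0) (nat_lit 115677648141) (nat_lit 76) (nat_lit 1809539209) (nat_lit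 152) (nat_lit 108001132303) (nat_lit 4) (nat_lit 5) (nat_lit 5) (nat_lit 5) (nat_lit 6) (nat_lit 4) (nat_lit 303) (nat_lit 264) (nat_lit 153)) (XT.lf (nat_lit 0) (nat_lit 139486242871) (nat_lit 152) (nat_lit 81821331645) (nat_lit 0) (nat_lit 20321834962) (nat_lit 4) (nat_lit 5) (nat_lit 6) (nat_lit 4) (nat_lit 4) (nat_lit 4) (nat_lit 304) (nat_lit 264) (nat_lit 152))))) (XT.nd (nat_lit 234) (nat_lit 0) (nat_lit 0) (XT.nd (nat_lit 78) (nat_lit 76) (nat_lit 0) (XT.lf (nat_lit 0) (nat_lit 163291607108) (nat_lit 152) (nat_lit 51640866766) (nat_lit 0) (nat_lit 44125605411) (nat_lit 4) (nat_lit 5) (nat_lit 6) (nat_lit 4) (nat_lit 4) (nat_lit 4) (nat_lit 305) (nat_lit 264) (nat_lit 151)) (XT.nd (nat_lit 78) (nat_lit 76) (nat_lit 0) (XT.lf (nat_lit 0) (nat_lit 189000829423) (nat_lit 152) (nat_lit 19046910216) (nat_lit 0) (nat_lit 69833351997) (nat_lit 4) (nat_lit 5) (nat_lit 6) (nat_lit 4)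 (nat_lit 4) (nat_lit 4) (nat_lit 306) (nat_lit 264) (nat_lit 150)) (XT.lf (nat_lit 0) (nat_lit 17004311929) (nat_lit 76) (nat_lit 200170902946) (nat_lit 76) (nat_lit 81002059102) (nat_lit 3) (nat_lit 4) (nat_lit 4) (nat_lit 5) (nat_lit 4) (nat_lit 4) (nat_lit 307) (nat_lit 264) (nat_lit 149)))) (XT.nd (nat_lit 156) (nat_lit 0) (nat_lit 0) (XT.nd (nat_lit 78) (nat_lit 0) (nat_lit 0) (XT.lf (nat_lit 0) (nat_lit 57021993192) (nat_lit 76) (nat_lit 191101824136) (nat_lit 76) (nat_lit 71931715092) (nat_lit 3) (nat_lit 4) (nat_lit 4) (nat_lit 5) (nat_lit 4) (nat_lit 4) (nat_lit 308) (nat_lit 264) (nat_lit 148)) (XT.lf (nat_lit 0) (nat_lit 100240298848) (nat_lit 76) (nat_lit 181307536800) (nat_lit 76) (nat_lit 62136256275) (nat_lit 3) (nat_lit 4) (nat_lit 4) (nat_lit 5) (nat_lit 4) (nat_lit 4) (nat_lit 309) (nat_lit 264) (nat_lit 147))) (XT.nd (nat_lit 78) (nat_lit 0) (nat_lit 0) (XT.lf (nat_lit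 0) (nat_lit 146915337376) (nat_lit 76) (nat_lit 170730000718) (nat_lit 76) (nat_lit 51557635487) (nat_lit 3) (nat_lit 4) (nat_lit 4) (nat_lit 5) (nat_lit 4) (nat_lit 4) (nat_lit 310) (nat_lit 264) (nat_lit 146)) (XT.lf (nat_lit 0) (nat_lit 197323701597) (nat_lit 76) (nat_lit 159306534193) (nat_lit 76) (nat_lit 40133164605) (nat_lit 3) (nat_lit 4) (nat_lit 4) (nat_lit 5) (nat_lit 4) (nat_lit 4) (nat_lit 311) (nat_lit 264) (nat_lit 145)))))) (XT.nd (nat_lit 546) (nat_lit 0) (nat_lit 0) (XT.nd (nat_lit 234) (nat_lit 152) (nat_lit 0) (XT.nd (nat_lit 78) (nat_lit 0) (nat_lit 0) (XT.lf (nat_lit 0) (nat_lit 251764107743) (nat_lit 76) (nat_lit 146969442609) (nat_lit 76) (nat_lit 27795143062) (nat_lit 3) (nat_lit 4) (nat_lit 4) (nat_lit 5) (nat_lit 4) (nat_lit 4) (nat_lit 312) (nat_lit 264) (nat_lit 144)) (XT.nd (nat_lit 78) (nat_lit 0) (nat_lit 0) (XT.lf (nat_lit 0) (nat_lit 310559165629)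 (nat_lit 76) (nat_lit 133645617276) (nat_lit 76) (nat_lit 14470456654) (nat_lit 3) (nat_lit 4) (nat_lit 4) (nat_lit 5) (nat_lit 4) (nat_lit 4) (nat_lit 313) (nat_lit 264) (nat_lit 143)) (XT.lf (nat_lit 0) (nat_lit 374057290411) (nat_lit 76) (nat_lit 119256102191) (nat_lit 76) (nat_lit 80144278) (nat_lit 3) (nat_lit 4) (nat_lit 4) (nat_lit 5) (nat_lit 4) (nat_lit 4) (nat_lit 314) (nat_lit 264) (nat_lit 142)))) (XT.nd (nat_lit 156) (nat_lit 76) (nat_lit 0) (XT.nd (nat_lit 78) (nat_lit 0) (nat_lit 0) (XT.lf (nat_lit 0) (nat_lit 14687644651) (nat_lit 152) (nat_lit 88626395269) (nat_lit 76) (nat_lit 427545536390) (nat_lit 2) (nat_lit 5) (nat_lit 4) (nat_lit 5) (nat_lit 3) (nat_lit 4) (nat_lit 315) (nat_lit 264) (nat_lit 141)) (XT.lf (nat_lit 0) (nat_lit 30632242626) (nat_lit 152) (nat_lit 55462315031) (nat_lit 76) (nat_lit 485228198843) (nat_lit 2) (nat_lit 5) (nat_lit 4) (nat_lit 5) (nat_lit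 3) (nat_lit 4) (nat_lit 316) (nat_lit 264) (nat_lit 140))) (XT.nd (nat_lit 78) (nat_lit 76) (nat_lit 0) (XT.lf (nat_lit 0) (nat_lit 47852145292) (nat_lit 152) (nat_lit 19645550401) (nat_lit 76) (nat_lit 547525317764) (nat_lit 2) (nat_lit 5) (nat_lit 4) (nat_lit 5) (nat_lit 3) (nat_lit 4) (nat_lit 317) (nat_lit 264) (nat_lit 139)) (XT.lf (nat_lit 0) (nat_lit 20038555833) (nat_lit 76) (nat_lit 46892768433) (nat_lit 152) (nat_lit 595249433180) (nat_lit 1) (nat_lit 5) (nat_lit 2) (nat_lit 5) (nat_lit 3) (nat_lit 4) (nat_lit 318) (nat_lit 264) (nat_lit 138))))) (XT.nd (nat_lit 234) (nat_lit 0) (nat_lit 0) (XT.nd (nat_lit 78) (nat_lit 0) (nat_lit 0) (XT.lf (nat_lit 0) (nat_lit 64014251503) (nat_lit 76) (nat_lit 24059495019) (nat_lit 152) (nat_lit 624994422830) (nat_lit 1) (nat_lit 5) (nat_lit 2) (nat_lit 5) (nat_lit 3) (nat_lit 4) (nat_lit 319) (nat_lit 264) (nat_lit 137)) (XT.nd (nat_lit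 78) (nat_lit 0) (nat_lit 0) (XT.lf (nat_lit 0) (nat_lit 110921781739) (nat_lit 152) (nat_lit 656533396169) (nat_lit 0) (nat_lit 570259801) (nat_lit 1) (nat_lit 5) (nat_lit 3) (nat_lit 4) (nat_lit 1) (nat_lit 4) (nat_lit 320) (nat_lit 264) (nat_lit 136)) (XT.lf (nat_lit 0) (nat_lit 136222376699) (nat_lit 152) (nat_lit 665236510427) (nat_lit 0) (nat_lit 25870424010) (nat_lit 1) (nat_lit 5) (nat_lit 3) (nat_lit 4) (nat_lit 1) (nat_lit 4) (nat_lit 321) (nat_lit 264) (nat_lit 135)))) (XT.nd (nat_lit 156) (nat_lit 0) (nat_lit 0) (XT.nd (nat_lit 78) (nat_lit 0) (nat_lit 0) (XT.lf (nat_lit 0) (nat_lit 163546829421) (nat_lit 152) (nat_lit 674636203199) (nat_lit 0) (nat_lit 53194477888) (nat_lit 1) (nat_lit 5) (nat_lit 3) (nat_lit 4) (nat_lit 1) (nat_lit 4) (nat_lit 322) (nat_lit 264) (nat_lit 134)) (XT.lf (nat_lit 0) (nat_lit 193057062588) (nat_lit 152) (nat_lit 684788176369) (nat_lit 0) (nat_lit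 82704341755) (nat_lit 1) (nat_lit 5) (nat_lit 3) (nat_lit 4) (nat_lit 1) (nat_lit 4) (nat_lit 323) (nat_lit 264) (nat_lit 133))) (XT.nd (nat_lit 78) (nat_lit 0) (nat_lit 0) (XT.lf (nat_lit 0) (nat_lit 224927951655) (nat_lit 152) (nat_lit 695752589777) (nat_lit 0) (nat_lit 114574888878) (nat_lit 1) (nat_lit 5) (nat_lit 3) (nat_lit 4) (nat_lit 1) (nat_lit 4) (nat_lit 324) (nat_lit 264) (nat_lit 132)) (XT.lf (nat_lit 0) (nat_lit 259348361151) (nat_lit 152) (nat_lit 707594417726) (nat_lit 0) (nat_lit 148994981759) (nat_lit 1) (nat_lit 5) (nat_lit 3) (nat_lit 4) (nat_lit 1) (nat_lit 4) (nat_lit 325) (nat_lit 264) (nat_lit 131))))))))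
noncomputable def xc94 : XT := (XT.nd (nat_lit 33774) (nat_lit 0) (nat_lit 228) (XT.nd (nat_lit 1014) (nat_lit 0) (nat_lit 0) (XT.nd (nat_lit 468) (nat_lit 0) (nat_lit 0) (XT.nd (nat_lit 234) (nat_lit 0) (nat_lit 0) (XT.nd (nat_lit 78) (nat_lit 0) (nat_lit 0) (XT.lf (nat_lit 0) (nat_lit 296522263872) (nat_lit 152) (nat_lit 720383834010) (nat_lit 0) (nat_lit 186168591318) (nat_lit 1) (nat_lit 5) (nat_lit 3) (nat_lit 4) (nat_lit 1) (nat_lit 4) (nat_lit 326) (nat_lit 264) (nat_lit 130)) (XT.nd (nat_lit 78) (nat_lit 0) (nat_lit 0) (XT.lf (nat_lit 0) (nat_lit 336669949613) (nat_lit 152) (nat_lit 734196627762) (nat_lit 0) (nat_lit 226316005612) (nat_lit 1) (nat_lit 5) (nat_lit 3) (nat_lit 4) (nat_lit 1) (nat_lit 4) (nat_lit 327) (nat_lit 264) (nat_lit 129)) (XT.lf (nat_lit 0) (nat_lit 380029330584) (nat_lit 152) (nat_lit 749114652577) (nat_lit 0) (nat_lit 269675135244) (nat_lit 1) (nat_lit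 5) (nat_lit 3) (nat_lit 4) (nat_lit 1) (nat_lit 4) (nat_lit 328) (nat_lit 264) (nat_lit 128)))) (XT.nd (nat_lit 78) (nat_lit 0) (nat_lit 0) (XT.lf (nat_lit 0) (nat_lit 426857351267) (nat_lit 152) (nat_lit 765226311563) (nat_lit 0) (nat_lit 316502923205) (nat_lit 1) (nat_lit 5) (nat_lit 3) (nat_lit 4) (nat_lit 1) (nat_lit 4) (nat_lit 329) (nat_lit 264) (nat_lit 127)) (XT.nd (nat_lit 78) (nat_lit 0) (nat_lit 0) (XT.lf (nat_lit 0) (nat_lit 477431511042) (nat_lit 152) (nat_lit 782627081218) (nat_lit 0) (nat_lit 367076867497) (nat_lit 1) (nat_lit 5) (nat_lit 3) (nat_lit 4) (nat_lit 1) (nat_lit 4) (nat_lit 330) (nat_lit 264) (nat_lit 126)) (XT.lf (nat_lit 0) (nat_lit 532051508635) (nat_lit 152) (nat_lit 801420077214) (nat_lit 0) (nat_lit 421696665568) (nat_lit 1) (nat_lit 5) (nat_lit 3) (nat_lit 4) (nat_lit 1) (nat_lit 4) (nat_lit 331) (nat_lit 264) (nat_lit 125))))) (XT.nd (nat_lit 234)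 (nat_lit 0) (nat_lit 0) (XT.nd (nat_lit 78) (nat_lit 0) (nat_lit 0) (XT.lf (nat_lit 0) (nat_lit 591041018104) (nat_lit 152) (nat_lit 821716665454) (nat_lit 0) (nat_lit 480685990296) (nat_lit 1) (nat_lit 5) (nat_lit 3) (nat_lit 4) (nat_lit 1) (nat_lit 4) (nat_lit 332) (nat_lit 264) (nat_lit 124)) (XT.nd (nat_lit 78) (nat_lit 0) (nat_lit 0) (XT.lf (nat_lit 0) (nat_lit 654749606915) (nat_lit 152) (nat_lit 843637122017) (nat_lit 0) (nat_lit 544394408049) (nat_lit 1) (nat_lit 5) (nat_lit 3) (nat_lit 4) (nat_lit 1) (nat_lit 4) (nat_lit 333) (nat_lit 264) (nat_lit 123)) (XT.lf (nat_lit 0) (nat_lit 723554807444) (nat_lit 152) (nat_lit 867311345902) (nat_lit 0) (nat_lit 613199450192) (nat_lit 1) (nat_lit 5) (nat_lit 3) (nat_lit 4) (nat_lit 1) (nat_lit 4) (nat_lit 334) (nat_lit 264) (nat_lit 122)))) (XT.nd (nat_lit 156) (nat_lit 0) (nat_lit 0) (XT.nd (nat_lit 78) (nat_lit 0) (nat_lit 0) (XT.lf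 (nat_lit 0) (nat_lit 797864354213) (nat_lit 152) (nat_lit 892879628809) (nat_lit 0) (nat_lit 687508850307) (nat_lit 1) (nat_lit 5) (nat_lit 3) (nat_lit 4) (nat_lit 1) (nat_lit 4) (nat_lit 335) (nat_lit 264) (nat_lit 121)) (XT.lf (nat_lit 0) (nat_lit 878118600093) (nat_lit 152) (nat_lit 920493486487) (nat_lit 0) (nat_lit 767762960396) (nat_lit 1) (nat_lit 5) (nat_lit 3) (nat_lit 4) (nat_lit 1) (nat_lit 4) (nat_lit 336) (nat_lit 264) (nat_lit 120))) (XT.nd (nat_lit 78) (nat_lit 0) (nat_lit 0) (XT.lf (nat_lit 0) (nat_lit 964793125799) (nat_lit 152) (nat_lit 950316556612) (nat_lit 0) (nat_lit 854437360370) (nat_lit 1) (nat_lit 5) (nat_lit 3) (nat_lit 4) (nat_lit 1) (nat_lit 4) (nat_lit 337) (nat_lit 264) (nat_lit 119)) (XT.lf (nat_lit 0) (nat_lit 1058401558151) (nat_lit 152) (nat_lit 982525568488) (nat_lit 0) (nat_lit 948045676303) (nat_lit 1) (nat_lit 5) (nat_lit 3) (nat_lit 4) (nat_lit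 1) (nat_lit 4) (nat_lit 338) (nat_lit 264) (nat_lit 118)))))) (XT.nd (nat_lit 32214) (nat_lit 0) (nat_lit 1216) (XT.nd (nat_lit 31902) (nat_lit 0) (nat_lit 1976) (XT.nd (nat_lit 31746) (nat_lit 0) (nat_lit 1976) (XT.lf (nat_lit 0) (nat_lit 1159498613784) (nat_lit 152) (nat_lit 1017311390334) (nat_lit 0) (nat_lit 1049142624141) (nat_lit 1) (nat_lit 5) (nat_lit 3) (nat_lit 4) (nat_lit 1) (nat_lit 4) (nat_lit 339) (nat_lit 264) (nat_lit 117)) (XT.nd (nat_lit 78) (nat_lit 0) (nat_lit 0) (XT.lf (nat_lit 0) (nat_lit 5881480229) (nat_lit 0) (nat_lit 5881480229) (nat_lit 380) (nat_lit 2433474011) (nat_lit 27) (nat_lit 5) (nat_lit 27) (nat_lit 3) (nat_lit 32) (nat_lit 3) (nat_lit 265) (nat_lit 265) (nat_lit 190)) (XT.lf (nat_lit 0) (nat_lit 23382578261) (nat_lit 0) (nat_lit 1150694388) (nat_lit 380) (nat_lit 4989238027) (nat_lit 27) (nat_lit 5) (nat_lit 27) (nat_lit 3) (nat_lit 32) (nat_lit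 3) (nat_lit 266) (nat_lit 265) (nat_lit 189)))) (XT.nd (nat_lit 156) (nat_lit 0) (nat_lit 76) (XT.nd (nat_lit 78) (nat_lit 0) (nat_lit 0) (XT.lf (nat_lit 76) (nat_lit 5197255753) (nat_lit 0) (nat_lit 20790365045) (nat_lit 456) (nat_lit 4725667114) (nat_lit 28) (nat_lit 5) (nat_lit 27) (nat_lit 5) (nat_lit 33) (nat_lit 5) (nat_lit 267) (nat_lit 265) (nat_lit 188)) (XT.lf (nat_lit 76) (nat_lit 17755237019) (nat_lit 0) (nat_lit 9993924690) (nat_lit 456) (nat_lit 4234969152) (nat_lit 28) (nat_lit 5) (nat_lit 27) (nat_lit 5) (nat_lit 33) (nat_lit 5) (nat_lit 268) (nat_lit 265) (nat_lit 187))) (XT.nd (nat_lit 78) (nat_lit 0) (nat_lit 0) (XT.lf (nat_lit 0) (nat_lit 29686042422) (nat_lit 380) (nat_lit 2083044269) (nat_lit 456) (nat_lit 1584867093) (nat_lit 28) (nat_lit 5) (nat_lit 33) (nat_lit 5) (nat_lit 34) (nat_lit 5) (nat_lit 269) (nat_lit 265) (nat_lit 186)) (XT.lf (nat_lit 76) (nat_lit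 11338196547) (nat_lit 0) (nat_lit 20966706029) (nat_lit 456) (nat_lit 2486358630) (nat_lit 29) (nat_lit 5) (nat_lit 28) (nat_lit 5) (nat_lit 34) (nat_lit 5) (nat_lit 270) (nat_lit 265) (nat_lit 185))))) (XT.nd (nat_lit 234) (nat_lit 456) (nat_lit 0) (XT.nd (nat_lit 78) (nat_lit 380) (nat_lit 0) (XT.lf (nat_lit 76) (nat_lit 25947822576) (nat_lit 0) (nat_lit 9237462790) (nat_lit 456) (nat_lit 1154163213) (nat_lit 29) (nat_lit 5) (nat_lit 28) (nat_lit 5) (nat_lit 34) (nat_lit 5) (nat_lit 271) (nat_lit 265) (nat_lit 184)) (XT.nd (nat_lit 78) (nat_lit 0) (nat_lit 0) (XT.lf (nat_lit 0) (nat_lit 444532800) (nat_lit 456) (nat_lit 34189863312) (nat_lit 76) (nat_lit 3362662679) (nat_lit 23) (nat_lit 5) (nat_lit 29) (nat_lit 5) (nat_lit 24) (nat_lit 5) (nat_lit 272) (nat_lit 265) (nat_lit 183)) (XT.lf (nat_lit 0) (nat_lit 2635747394) (nat_lit 456) (nat_lit 20313059148) (nat_lit 76) (nat_lit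 16793959623) (nat_lit 23) (nat_lit 5) (nat_lit 29) (nat_lit 5) (nat_lit 24) (nat_lit 5) (nat_lit 273) (nat_lit 265) (nat_lit 182)))) (XT.nd (nat_lit 156) (nat_lit 228) (nat_lit 0) (XT.nd (nat_lit 78) (nat_lit 228) (nat_lit 0) (XT.lf (nat_lit 0) (nat_lit 4998127897) (nat_lit 456) (nat_lit 5329928042) (nat_lit 76) (nat_lit 31300446196) (nat_lit 23) (nat_lit 5) (nat_lit 29) (nat_lit 5) (nat_lit 24) (nat_lit 5) (nat_lit 274) (nat_lit 265) (nat_lit 181)) (XT.lf (nat_lit 0) (nat_lit 7906876817) (nat_lit 304) (nat_lit 32310460200) (nat_lit 76) (nat_lit 3419208155) (nat_lit 20) (nat_lit 5) (nat_lit 24) (nat_lit 5) (nat_lit 21) (nat_lit 5) (nat_lit 275) (nat_lit 265) (nat_lit 180))) (XT.nd (nat_lit 78) (nat_lit 228) (nat_lit 0) (XT.lf (nat_lit 0) (nat_lit 11462481283) (nat_lit 304) (nat_lit 16451697918) (nat_lit 76) (nat_lit 17857955583) (nat_lit 20) (nat_lit 5) (nat_lit 24) (nat_lit 5) (nat_lit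 21) (nat_lit 5) (nat_lit 276) (nat_lit 265) (nat_lit 179)) (XT.lf (nat_lit 0) (nat_lit 707670504) (nat_lit 228) (nat_lit 14608530849) (nat_lit 304) (nat_lit 32761309779) (nat_lit 17) (nat_lit 5) (nat_lit 20) (nat_lit 5) (nat_lit 21) (nat_lit 5) (nat_lit 277) (nat_lit 265) (nat_lit 178))))))) (XT.nd (nat_lit 1014) (nat_lit 304) (nat_lit 0) (XT.nd (nat_lit 468) (nat_lit 380) (nat_lit 0) (XT.nd (nat_lit 234) (nat_lit 152) (nat_lit 0) (XT.nd (nat_lit 78) (nat_lit 152) (nat_lit 0) (XT.lf (nat_lit 0) (nat_lit 19930795760) (nat_lit 304) (nat_lit 30365557357) (nat_lit 76) (nat_lit 234788838) (nat_lit 17) (nat_lit 5) (nat_lit 21) (nat_lit 5) (nat_lit 18) (nat_lit 5) (nat_lit 278) (nat_lit 265) (nat_lit 177)) (XT.nd (nat_lit 78) (nat_lit 152) (nat_lit 0) (XT.lf (nat_lit 0) (nat_lit 25291045281) (nat_lit 304) (nat_lit 12383787631) (nat_lit 76) (nat_lit 15476139575) (nat_lit 17) (nat_lit 5) (nat_lit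 21) (nat_lit 5) (nat_lit 18) (nat_lit 5) (nat_lit 279) (nat_lit 265) (nat_lit 176)) (XT.lf (nat_lit 0) (nat_lit 7403727117) (nat_lit 152) (nat_lit 23851711535) (nat_lit 228) (nat_lit 24710951050) (nat_lit 15) (nat_lit 5) (nat_lit 17) (nat_lit 5) (nat_lit 18) (nat_lit 5) (nat_lit 280) (nat_lit 265) (nat_lit 175)))) (XT.nd (nat_lit 78) (nat_lit 152) (nat_lit 0) (XT.lf (nat_lit 0) (nat_lit 29475439075) (nat_lit 152) (nat_lit 8557531758) (nat_lit 228) (nat_lit 20947214692) (nat_lit 15) (nat_lit 5) (nat_lit 17) (nat_lit 5) (nat_lit 18) (nat_lit 5) (nat_lit 281) (nat_lit 265) (nat_lit 174)) (XT.nd (nat_lit 78) (nat_lit 152) (nat_lit 0) (XT.lf (nat_lit 0) (nat_lit 45541723399) (nat_lit 228) (nat_lit 9116697346) (nat_lit 76) (nat_lit 7561565268) (nat_lit 15) (nat_lit 5) (nat_lit 18) (nat_lit 5) (nat_lit 16) (nat_lit 5) (nat_lit 282) (nat_lit 265) (nat_lit 173)) (XT.lf (nat_lit 0) (nat_lit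 13344854564) (nat_lit 152) (nat_lit 40847294075) (nat_lit 228) (nat_lit 11483564866) (nat_lit 13) (nat_lit 5) (nat_lit 15) (nat_lit 5) (nat_lit 16) (nat_lit 5) (nat_lit 283) (nat_lit 265) (nat_lit 172))))) (XT.nd (nat_lit 234) (nat_lit 152) (nat_lit 0) (XT.nd (nat_lit 78) (nat_lit 228) (nat_lit 0) (XT.lf (nat_lit 0) (nat_lit 38119045718) (nat_lit 152) (nat_lit 25662683625) (nat_lit 228) (nat_lit 5606419360) (nat_lit 13) (nat_lit 5) (nat_lit 15) (nat_lit 5) (nat_lit 16) (nat_lit 5) (nat_lit 284) (nat_lit 265) (nat_lit 171)) (XT.nd (nat_lit 78) (nat_lit 152) (nat_lit 0) (XT.lf (nat_lit 0) (nat_lit 701780264) (nat_lit 228) (nat_lit 8542905001) (nat_lit 76) (nat_lit 64151648829) (nat_lit 12) (nat_lit 5) (nat_lit 15) (nat_lit 5) (nat_lit 13) (nat_lit 5) (nat_lit 285) (nat_lit 265) (nat_lit 170)) (XT.lf (nat_lit 0) (nat_lit 7829489721) (nat_lit 228) (nat_lit 61211791715) (nat_lit 76) (nat_lit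 8622838750) (nat_lit 10) (nat_lit 5) (nat_lit 13) (nat_lit 5) (nat_lit 11) (nat_lit 5) (nat_lit 286) (nat_lit 265) (nat_lit 169)))) (XT.nd (nat_lit 156) (nat_lit 152) (nat_lit 0) (XT.nd (nat_lit 78) (nat_lit 0) (nat_lit 0) (XT.lf (nat_lit 0) (nat_lit 16005348522) (nat_lit 228) (nat_lit 38570372204) (nat_lit 76) (nat_lit 27659387962) (nat_lit 10) (nat_lit 5) (nat_lit 13) (nat_lit 5) (nat_lit 11) (nat_lit 5) (nat_lit 287) (nat_lit 265) (nat_lit 168)) (XT.lf (nat_lit 0) (nat_lit 24833577662) (nat_lit 228) (nat_lit 14120013051) (nat_lit 76) (nat_lit 48218334510) (nat_lit 10) (nat_lit 5) (nat_lit 13) (nat_lit 5) (nat_lit 11) (nat_lit 5) (nat_lit 288) (nat_lit 265) (nat_lit 167))) (XT.nd (nat_lit 78) (nat_lit 0) (nat_lit 0) (XT.lf (nat_lit 0) (nat_lit 12931039739) (nat_lit 152) (nat_lit 21746444649) (nat_lit 228) (nat_lit 57801461266) (nat_lit 8) (nat_lit 5) (nat_lit 10) (nat_lit 5) (nat_lit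 11) (nat_lit 5) (nat_lit 289) (nat_lit 265) (nat_lit 166)) (XT.lf (nat_lit 0) (nat_lit 42947051982) (nat_lit 152) (nat_lit 2746410251) (nat_lit 228) (nat_lit 52486312018) (nat_lit 8) (nat_lit 5) (nat_lit 10) (nat_lit 5) (nat_lit 11) (nat_lit 5) (nat_lit 290) (nat_lit 265) (nat_lit 165)))))) (XT.nd (nat_lit 546) (nat_lit 76) (nat_lit 0) (XT.nd (nat_lit 234) (nat_lit 152) (nat_lit 0) (XT.nd (nat_lit 78) (nat_lit 76) (nat_lit 0) (XT.lf (nat_lit 0) (nat_lit 58016764398) (nat_lit 228) (nat_lit 29401871737) (nat_lit 76) (nat_lit 16883959700) (nat_lit 8) (nat_lit 5) (nat_lit 11) (nat_lit 5) (nat_lit 9) (nat_lit 4) (nat_lit 291) (nat_lit 265) (nat_lit 164)) (XT.nd (nat_lit 78) (nat_lit 76) (nat_lit 0) (XT.lf (nat_lit 0) (nat_lit 71395960454) (nat_lit 228) (nat_lit 1577825207) (nat_lit 76) (nat_lit 37935864725) (nat_lit 8) (nat_lit 5) (nat_lit 11) (nat_lit 5) (nat_lit 9) (nat_lit 4) (nat_lit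 292) (nat_lit 265) (nat_lit 163)) (XT.lf (nat_lit 0) (nat_lit 29969550064) (nat_lit 76) (nat_lit 56595501627) (nat_lit 152) (nat_lit 31422661752) (nat_lit 7) (nat_lit 5) (nat_lit 8) (nat_lit 5) (nat_lit 9) (nat_lit 4) (nat_lit 293) (nat_lit 265) (nat_lit 162)))) (XT.nd (nat_lit 156) (nat_lit 152) (nat_lit 0) (XT.nd (nat_lit 78) (nat_lit 0) (nat_lit 0) (XT.lf (nat_lit 0) (nat_lit 64128699820) (nat_lit 76) (nat_lit 38860949557) (nat_lit 152) (nat_lit 22639022082) (nat_lit 7) (nat_lit 5) (nat_lit 8) (nat_lit 5) (nat_lit 9) (nat_lit 4) (nat_lit 294) (nat_lit 265) (nat_lit 161)) (XT.lf (nat_lit 0) (nat_lit 101018963173) (nat_lit 76) (nat_lit 19708176344) (nat_lit 152) (nat_lit 13153860262) (nat_lit 7) (nat_lit 5) (nat_lit 8) (nat_lit 5) (nat_lit 9) (nat_lit 4) (nat_lit 295) (nat_lit 265) (nat_lit 160))) (XT.nd (nat_lit 78) (nat_lit 152) (nat_lit 0) (XT.lf (nat_lit 0) (nat_lit 139906113586)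 (nat_lit 152) (nat_lit 1958132422) (nat_lit 0) (nat_lit 927476648) (nat_lit 7) (nat_lit 5) (nat_lit 9) (nat_lit 4) (nat_lit 7) (nat_lit 4) (nat_lit 296) (nat_lit 265) (nat_lit 159)) (XT.lf (nat_lit 0) (nat_lit 9120653179) (nat_lit 152) (nat_lit 120010628314) (nat_lit 76) (nat_lit 23162086951) (nat_lit 5) (nat_lit 5) (nat_lit 7) (nat_lit 5) (nat_lit 6) (nat_lit 4) (nat_lit 297) (nat_lit 265) (nat_lit 158))))) (XT.nd (nat_lit 234) (nat_lit 76) (nat_lit 0) (XT.nd (nat_lit 78) (nat_lit 0) (nat_lit 0) (XT.lf (nat_lit 0) (nat_lit 21985520744) (nat_lit 152) (nat_lit 93254435251) (nat_lit 76) (nat_lit 47304879266) (nat_lit 5) (nat_lit 5) (nat_lit 7) (nat_lit 5) (nat_lit 6) (nat_lit 4) (nat_lit 298) (nat_lit 265) (nat_lit 157)) (XT.nd (nat_lit 78) (nat_lit 0) (nat_lit 0) (XT.lf (nat_lit 0) (nat_lit 35878719147) (nat_lit 152) (nat_lit 64359111716) (nat_lit 76) (nat_lit 73378662444) (nat_lit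 5) (nat_lit 5) (nat_lit 7) (nat_lit 5) (nat_lit 6) (nat_lit 4) (nat_lit 299) (nat_lit 265) (nat_lit 156)) (XT.lf (nat_lit 0) (nat_lit 50882578451) (nat_lit 152) (nat_lit 33153426161) (nat_lit 76) (nat_lit 101537947791) (nat_lit 5) (nat_lit 5) (nat_lit 7) (nat_lit 5) (nat_lit 6) (nat_lit 4) (nat_lit 300) (nat_lit 265) (nat_lit 155)))) (XT.nd (nat_lit 156) (nat_lit 0) (nat_lit 0) (XT.nd (nat_lit 78) (nat_lit 0) (nat_lit 0) (XT.lf (nat_lit 0) (nat_lit 576376690) (nat_lit 76) (nat_lit 66523495598) (nat_lit 152) (nat_lit 131387090329) (nat_lit 4) (nat_lit 5) (nat_lit 5) (nat_lit 5) (nat_lit 6) (nat_lit 4) (nat_lit 301) (nat_lit 265) (nat_lit 154)) (XT.lf (nat_lit 0) (nat_lit 38888887874) (nat_lit 76) (nat_lit 46631426192) (nat_lit 152) (nat_lit 126840242553) (nat_lit 4) (nat_lit 5) (nat_lit 5) (nat_lit 5) (nat_lit 6) (nat_lit 4) (nat_lit 302) (nat_lit 265) (nat_lit 153))) (XT.nd (nat_lit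 78) (nat_lit 0) (nat_lit 0) (XT.lf (nat_lit 0) (nat_lit 80265343827) (nat_lit 76) (nat_lit 25148390887) (nat_lit 152) (nat_lit 121930359765) (nat_lit 4) (nat_lit 5) (nat_lit 5) (nat_lit 5) (nat_lit 6) (nat_lit 4) (nat_lit 303) (nat_lit 265) (nat_lit 152)) (XT.lf (nat_lit 0) (nat_lit 124950938359) (nat_lit 76) (nat_lit 1947082808) (nat_lit 152) (nat_lit 116628346363) (nat_lit 4) (nat_lit 5) (nat_lit 5) (nat_lit 5) (nat_lit 6) (nat_lit 4) (nat_lit 304) (nat_lit 265) (nat_lit 151))))))))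
noncomputable def xc95 : XT := (XT.nd (nat_lit 2106) (nat_lit 0) (nat_lit 0) (XT.nd (nat_lit 1014) (nat_lit 76) (nat_lit 0) (XT.nd (nat_lit 468) (nat_lit 76) (nat_lit 0) (XT.nd (nat_lit 234) (nat_lit 76) (nat_lit 0) (XT.nd (nat_lit 78) (nat_lit 0) (nat_lit 0) (XT.lf (nat_lit 0) (nat_lit 150656283468) (nat_lit 152) (nat_lit 88348591481) (nat_lit 0) (nat_lit 21953932117) (nat_lit 4) (nat_lit 5) (nat_lit 6) (nat_lit 4) (nat_lit 4) (nat_lit 4) (nat_lit 305) (nat_lit 265) (nat_lit 150)) (XT.nd (nat_lit 78) (nat_lit 0) (nat_lit 0) (XT.lf (nat_lit 0) (nat_lit 176365251572) (nat_lit 152) (nat_lit 55755055834) (nat_lit 0) (nat_lit 47661533805) (nat_lit 4) (nat_lit 5) (nat_lit 6) (nat_lit 4) (nat_lit 4) (nat_lit 4) (nat_lit 306) (nat_lit 265) (nat_lit 149)) (XT.lf (nat_lit 0) (nat_lit 204130447532) (nat_lit 152) (nat_lit 20554847964) (nat_lit 0) (nat_lit 75425464565) (nat_lit 4) (nat_lit 5)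 (nat_lit 6) (nat_lit 4) (nat_lit 4) (nat_lit 4) (nat_lit 307) (nat_lit 265) (nat_lit 148)))) (XT.nd (nat_lit 78) (nat_lit 0) (nat_lit 0) (XT.lf (nat_lit 0) (nat_lit 18380071571) (nat_lit 76) (nat_lit 216178375435) (nat_lit 76) (nat_lit 87472220986) (nat_lit 3) (nat_lit 4) (nat_lit 4) (nat_lit 5) (nat_lit 4) (nat_lit 4) (nat_lit 308) (nat_lit 265) (nat_lit 147)) (XT.nd (nat_lit 78) (nat_lit 0) (nat_lit 0) (XT.lf (nat_lit 0) (nat_lit 61598025506) (nat_lit 76) (nat_lit 206384229561) (nat_lit 76) (nat_lit 77676990407) (nat_lit 3) (nat_lit 4) (nat_lit 4) (nat_lit 5) (nat_lit 4) (nat_lit 4) (nat_lit 309) (nat_lit 265) (nat_lit 146)) (XT.lf (nat_lit 0) (nat_lit 108272738366) (nat_lit 76) (nat_lit 195806824462) (nat_lit 76) (nat_lit 67098580950) (nat_lit 3) (nat_lit 4) (nat_lit 4) (nat_lit 5) (nat_lit 4) (nat_lit 4) (nat_lit 310) (nat_lit 265) (nat_lit 145))))) (XT.nd (nat_lit 234) (nat_lit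 76) (nat_lit 0) (XT.nd (nat_lit 78) (nat_lit 0) (nat_lit 0) (XT.lf (nat_lit 0) (nat_lit 158680801042) (nat_lit 76) (nat_lit 184383479217) (nat_lit 76) (nat_lit 55674305745) (nat_lit 3) (nat_lit 4) (nat_lit 4) (nat_lit 5) (nat_lit 4) (nat_lit 4) (nat_lit 311) (nat_lit 265) (nat_lit 144)) (XT.nd (nat_lit 78) (nat_lit 0) (nat_lit 0) (XT.lf (nat_lit 0) (nat_lit 213120927980) (nat_lit 76) (nat_lit 172046499930) (nat_lit 76) (nat_lit 43336465384) (nat_lit 3) (nat_lit 4) (nat_lit 4) (nat_lit 5) (nat_lit 4) (nat_lit 4) (nat_lit 312) (nat_lit 265) (nat_lit 143)) (XT.lf (nat_lit 0) (nat_lit 271915727340) (nat_lit 76) (nat_lit 158722778575) (nat_lit 76) (nat_lit 30011946739) (nat_lit 3) (nat_lit 4) (nat_lit 4) (nat_lit 5) (nat_lit 4) (nat_lit 4) (nat_lit 313) (nat_lit 265) (nat_lit 142)))) (XT.nd (nat_lit 156) (nat_lit 76) (nat_lit 0) (XT.nd (nat_lit 78) (nat_lit 0) (nat_lit 0) (XT.lf (nat_lit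 0) (nat_lit 335413612747) (nat_lit 76) (nat_lit 144333359767) (nat_lit 76) (nat_lit 15621789698) (nat_lit 3) (nat_lit 4) (nat_lit 4) (nat_lit 5) (nat_lit 4) (nat_lit 4) (nat_lit 314) (nat_lit 265) (nat_lit 141)) (XT.lf (nat_lit 0) (nat_lit 403990867966) (nat_lit 76) (nat_lit 128792972874) (nat_lit 76) (nat_lit 80719257) (nat_lit 3) (nat_lit 4) (nat_lit 4) (nat_lit 5) (nat_lit 4) (nat_lit 4) (nat_lit 315) (nat_lit 265) (nat_lit 140))) (XT.nd (nat_lit 78) (nat_lit 0) (nat_lit 0) (XT.lf (nat_lit 0) (nat_lit 15867790108) (nat_lit 152) (nat_lit 95707883107) (nat_lit 76) (nat_lit 461752233123) (nat_lit 2) (nat_lit 5) (nat_lit 4) (nat_lit 5) (nat_lit 3) (nat_lit 4) (nat_lit 316) (nat_lit 265) (nat_lit 139)) (XT.lf (nat_lit 0) (nat_lit 33087575632) (nat_lit 152) (nat_lit 59891315248) (nat_lit 76) (nat_lit 524049282364) (nat_lit 2) (nat_lit 5) (nat_lit 4) (nat_lit 5) (nat_lit 3) (nat_lit 4)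 (nat_lit 317) (nat_lit 265) (nat_lit 138)))))) (XT.nd (nat_lit 546) (nat_lit 0) (nat_lit 0) (XT.nd (nat_lit 234) (nat_lit 0) (nat_lit 0) (XT.nd (nat_lit 78) (nat_lit 76) (nat_lit 0) (XT.lf (nat_lit 0) (nat_lit 51684718393) (nat_lit 152) (nat_lit 21209800928) (nat_lit 76) (nat_lit 591329961345) (nat_lit 2) (nat_lit 5) (nat_lit 4) (nat_lit 5) (nat_lit 3) (nat_lit 4) (nat_lit 318) (nat_lit 265) (nat_lit 137)) (XT.nd (nat_lit 78) (nat_lit 0) (nat_lit 0) (XT.lf (nat_lit 0) (nat_lit 21648846627) (nat_lit 76) (nat_lit 50641232335) (nat_lit 152) (nat_lit 642864779042) (nat_lit 1) (nat_lit 5) (nat_lit 2) (nat_lit 5) (nat_lit 3) (nat_lit 4) (nat_lit 319) (nat_lit 265) (nat_lit 136)) (XT.lf (nat_lit 0) (nat_lit 69142064149) (nat_lit 76) (nat_lit 25981516128) (nat_lit 152) (nat_lit 674989709256) (nat_lit 1) (nat_lit 5) (nat_lit 2) (nat_lit 5) (nat_lit 3) (nat_lit 4) (nat_lit 320) (nat_lit 265)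 (nat_lit 135)))) (XT.nd (nat_lit 156) (nat_lit 0) (nat_lit 0) (XT.nd (nat_lit 78) (nat_lit 0) (nat_lit 0) (XT.lf (nat_lit 0) (nat_lit 119799227883) (nat_lit 152) (nat_lit 709049641907) (nat_lit 0) (nat_lit 618289383) (nat_lit 1) (nat_lit 5) (nat_lit 3) (nat_lit 4) (nat_lit 1) (nat_lit 4) (nat_lit 321) (nat_lit 265) (nat_lit 134)) (XT.lf (nat_lit 0) (nat_lit 147123596099) (nat_lit 152) (nat_lit 718449481302) (nat_lit 0) (nat_lit 27942288299) (nat_lit 1) (nat_lit 5) (nat_lit 3) (nat_lit 4) (nat_lit 1) (nat_lit 4) (nat_lit 322) (nat_lit 265) (nat_lit 133))) (XT.nd (nat_lit 78) (nat_lit 0) (nat_lit 0) (XT.lf (nat_lit 0) (nat_lit 176633751019) (nat_lit 152) (nat_lit 728601590234) (nat_lit 0) (nat_lit 57452101275) (nat_lit 1) (nat_lit 5) (nat_lit 3) (nat_lit 4) (nat_lit 1) (nat_lit 4) (nat_lit 323) (nat_lit 265) (nat_lit 132)) (XT.lf (nat_lit 0) (nat_lit 208504567636) (nat_lit 152) (nat_lit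 739566129348) (nat_lit 0) (nat_lit 89322601277) (nat_lit 1) (nat_lit 5) (nat_lit 3) (nat_lit 4) (nat_lit 1) (nat_lit 4) (nat_lit 324) (nat_lit 265) (nat_lit 131))))) (XT.nd (nat_lit 234) (nat_lit 0) (nat_lit 0) (XT.nd (nat_lit 78) (nat_lit 0) (nat_lit 0) (XT.lf (nat_lit 0) (nat_lit 242924910048) (nat_lit 152) (nat_lit 751408073690) (nat_lit 0) (nat_lit 123742650527) (nat_lit 1) (nat_lit 5) (nat_lit 3) (nat_lit 4) (nat_lit 1) (nat_lit 4) (nat_lit 325) (nat_lit 265) (nat_lit 130)) (XT.nd (nat_lit 78) (nat_lit 0) (nat_lit 0) (XT.lf (nat_lit 0) (nat_lit 280098750655) (nat_lit 152) (nat_lit 764197597746) (nat_lit 0) (nat_lit 160916219687) (nat_lit 1) (nat_lit 5) (nat_lit 3) (nat_lit 4) (nat_lit 1) (nat_lit 4) (nat_lit 326) (nat_lit 265) (nat_lit 129)) (XT.lf (nat_lit 0) (nat_lit 320246378882) (nat_lit 152) (nat_lit 778010491288) (nat_lit 0) (nat_lit 201063596575) (nat_lit 1) (nat_lit 5)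 (nat_lit 3) (nat_lit 4) (nat_lit 1) (nat_lit 4) (nat_lit 327) (nat_lit 265) (nat_lit 128)))) (XT.nd (nat_lit 156) (nat_lit 0) (nat_lit 0) (XT.nd (nat_lit 78) (nat_lit 0) (nat_lit 0) (XT.lf (nat_lit 0) (nat_lit 363605706600) (nat_lit 152) (nat_lit 792928608500) (nat_lit 0) (nat_lit 244422691571) (nat_lit 1) (nat_lit 5) (nat_lit 3) (nat_lit 4) (nat_lit 1) (nat_lit 4) (nat_lit 328) (nat_lit 265) (nat_lit 127)) (XT.lf (nat_lit 0) (nat_lit 410433677974) (nat_lit 152) (nat_lit 809040353039) (nat_lit 0) (nat_lit 291250447462) (nat_lit 1) (nat_lit 5) (nat_lit 3) (nat_lit 4) (nat_lit 1) (nat_lit 4) (nat_lit 329) (nat_lit 265) (nat_lit 126))) (XT.nd (nat_lit 78) (nat_lit 0) (nat_lit 0) (XT.lf (nat_lit 0) (nat_lit 461007792093) (nat_lit 152) (nat_lit 826441201910) (nat_lit 0) (nat_lit 341824362060) (nat_lit 1) (nat_lit 5) (nat_lit 3) (nat_lit 4) (nat_lit 1) (nat_lit 4) (nat_lit 330) (nat_lit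 265) (nat_lit 125)) (XT.lf (nat_lit 0) (nat_lit 515627747411) (nat_lit 152) (nat_lit 845234271254) (nat_lit 0) (nat_lit 396444132636) (nat_lit 1) (nat_lit 5) (nat_lit 3) (nat_lit 4) (nat_lit 1) (nat_lit 4) (nat_lit 331) (nat_lit 265) (nat_lit 124))))))) (XT.nd (nat_lit 32760) (nat_lit 0) (nat_lit 912) (XT.nd (nat_lit 468) (nat_lit 0) (nat_lit 0) (XT.nd (nat_lit 234) (nat_lit 0) (nat_lit 0) (XT.nd (nat_lit 78) (nat_lit 0) (nat_lit 0) (XT.lf (nat_lit 0) (nat_lit 574617217738) (nat_lit 152) (nat_lit 865530927409) (nat_lit 0) (nat_lit 455433431906) (nat_lit 1) (nat_lit 5) (nat_lit 3) (nat_lit 4) (nat_lit 1) (nat_lit 4) (nat_lit 332) (nat_lit 265) (nat_lit 123)) (XT.nd (nat_lit 78) (nat_lit 0) (nat_lit 0) (XT.lf (nat_lit 0) (nat_lit 638325770305) (nat_lit 152) (nat_lit 887451446855) (nat_lit 0) (nat_lit 519141826087) (nat_lit 1) (nat_lit 5) (nat_lit 3) (nat_lit 4) (nat_lit 1) (nat_lit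 4) (nat_lit 333) (nat_lit 265) (nat_lit 122)) (XT.lf (nat_lit 0) (nat_lit 707130937276) (nat_lit 152) (nat_lit 911125728967) (nat_lit 0) (nat_lit 587946846403) (nat_lit 1) (nat_lit 5) (nat_lit 3) (nat_lit 4) (nat_lit 1) (nat_lit 4) (nat_lit 334) (nat_lit 265) (nat_lit 121)))) (XT.nd (nat_lit 78) (nat_lit 0) (nat_lit 0) (XT.lf (nat_lit 0) (nat_lit 781440452972) (nat_lit 152) (nat_lit 936694065787) (nat_lit 0) (nat_lit 662256226309) (nat_lit 1) (nat_lit 5) (nat_lit 3) (nat_lit 4) (nat_lit 1) (nat_lit 4) (nat_lit 335) (nat_lit 265) (nat_lit 120)) (XT.nd (nat_lit 78) (nat_lit 0) (nat_lit 0) (XT.lf (nat_lit 0) (nat_lit 861694670081) (nat_lit 152) (nat_lit 964307973385) (nat_lit 0) (nat_lit 742510317685) (nat_lit 1) (nat_lit 5) (nat_lit 3) (nat_lit 4) (nat_lit 1) (nat_lit 4) (nat_lit 336) (nat_lit 265) (nat_lit 119)) (XT.lf (nat_lit 0) (nat_lit 948369169147) (nat_lit 152) (nat_lit 994131089731)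 (nat_lit 0) (nat_lit 829184700333) (nat_lit 1) (nat_lit 5) (nat_lit 3) (nat_lit 4) (nat_lit 1) (nat_lit 4) (nat_lit 337) (nat_lit 265) (nat_lit 118))))) (XT.nd (nat_lit 31980) (nat_lit 0) (nat_lit 1976) (XT.nd (nat_lit 78) (nat_lit 0) (nat_lit 0) (XT.lf (nat_lit 0) (nat_lit 1041977576833) (nat_lit 152) (nat_lit 1026340144405) (nat_lit 0) (nat_lit 922793000223) (nat_lit 1) (nat_lit 5) (nat_lit 3) (nat_lit 4) (nat_lit 1) (nat_lit 4) (nat_lit 338) (nat_lit 265) (nat_lit 117)) (XT.nd (nat_lit 31824) (nat_lit 0) (nat_lit 1976) (XT.lf (nat_lit 0) (nat_lit 1143074609627) (nat_lit 152) (nat_lit 1061126005878) (nat_lit 0) (nat_lit 1023889933207) (nat_lit 1) (nat_lit 5) (nat_lit 3) (nat_lit 4) (nat_lit 1) (nat_lit 4) (nat_lit 339) (nat_lit 265) (nat_lit 116)) (XT.lf (nat_lit 0) (nat_lit 6384358658) (nat_lit 0) (nat_lit 6384358658) (nat_lit 380) (nat_lit 2557504946) (nat_lit 27) (nat_lit 5)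 (nat_lit 27) (nat_lit 3) (nat_lit 32) (nat_lit 3) (nat_lit 266) (nat_lit 266) (nat_lit 188)))) (XT.nd (nat_lit 156) (nat_lit 0) (nat_lit 0) (XT.nd (nat_lit 78) (nat_lit 0) (nat_lit 0) (XT.lf (nat_lit 0) (nat_lit 25313110469) (nat_lit 0) (nat_lit 1302675886) (nat_lit 380) (nat_lit 5257549318) (nat_lit 27) (nat_lit 5) (nat_lit 27) (nat_lit 3) (nat_lit 32) (nat_lit 3) (nat_lit 267) (nat_lit 266) (nat_lit 187)) (XT.lf (nat_lit 76) (nat_lit 5683547770) (nat_lit 0) (nat_lit 22494418008) (nat_lit 456) (nat_lit 4982193428) (nat_lit 28) (nat_lit 5) (nat_lit 27) (nat_lit 5) (nat_lit 33) (nat_lit 5) (nat_lit 268) (nat_lit 266) (nat_lit 186))) (XT.nd (nat_lit 78) (nat_lit 0) (nat_lit 76) (XT.lf (nat_lit 76) (nat_lit 19240944459) (nat_lit 0) (nat_lit 10831238443) (nat_lit 456) (nat_lit 4461241633) (nat_lit 28) (nat_lit 5) (nat_lit 27) (nat_lit 5) (nat_lit 33) (nat_lit 5) (nat_lit 269) (nat_lit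 266) (nat_lit 185)) (XT.lf (nat_lit 0) (nat_lit 32155536159) (nat_lit 380) (nat_lit 2179655997) (nat_lit 456) (nat_lit 1678407498) (nat_lit 28) (nat_lit 5) (nat_lit 33) (nat_lit 5) (nat_lit 34) (nat_lit 5) (nat_lit 270) (nat_lit 266) (nat_lit 184)))))) (XT.nd (nat_lit 546) (nat_lit 532) (nat_lit 0) (XT.nd (nat_lit 234) (nat_lit 228) (nat_lit 0) (XT.nd (nat_lit 78) (nat_lit 380) (nat_lit 0) (XT.lf (nat_lit 76) (nat_lit 12313511128) (nat_lit 0) (nat_lit 22665027450) (nat_lit 456) (nat_lit 2587864015) (nat_lit 29) (nat_lit 5) (nat_lit 28) (nat_lit 5) (nat_lit 34) (nat_lit 5) (nat_lit 271) (nat_lit 266) (nat_lit 183)) (XT.nd (nat_lit 78) (nat_lit 380) (nat_lit 0) (XT.lf (nat_lit 76) (nat_lit 28086851027) (nat_lit 0) (nat_lit 9995890313) (nat_lit 456) (nat_lit 1156308024) (nat_lit 29) (nat_lit 5) (nat_lit 28) (nat_lit 5) (nat_lit 34) (nat_lit 5) (nat_lit 272) (nat_lit 266) (nat_lit 182))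 (XT.lf (nat_lit 0) (nat_lit 560694706) (nat_lit 456) (nat_lit 36850576563) (nat_lit 76) (nat_lit 3618294569) (nat_lit 23) (nat_lit 5) (nat_lit 29) (nat_lit 5) (nat_lit 24) (nat_lit 5) (nat_lit 273) (nat_lit 266) (nat_lit 181)))) (XT.nd (nat_lit 156) (nat_lit 228) (nat_lit 0) (XT.nd (nat_lit 78) (nat_lit 0) (nat_lit 0) (XT.lf (nat_lit 0) (nat_lit 2921236150) (nat_lit 456) (nat_lit 21869144793) (nat_lit 76) (nat_lit 18125086463) (nat_lit 23) (nat_lit 5) (nat_lit 29) (nat_lit 5) (nat_lit 24) (nat_lit 5) (nat_lit 274) (nat_lit 266) (nat_lit 180)) (XT.lf (nat_lit 0) (nat_lit 5467079022) (nat_lit 456) (nat_lit 5692471278) (nat_lit 76) (nat_lit 33793009735) (nat_lit 23) (nat_lit 5) (nat_lit 29) (nat_lit 5) (nat_lit 24) (nat_lit 5) (nat_lit 275) (nat_lit 266) (nat_lit 179))) (XT.nd (nat_lit 78) (nat_lit 0) (nat_lit 0) (XT.lf (nat_lit 0) (nat_lit 8604827982) (nat_lit 304) (nat_lit 34827103359)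 (nat_lit 76) (nat_lit 3689662587) (nat_lit 20) (nat_lit 5) (nat_lit 24) (nat_lit 5) (nat_lit 21) (nat_lit 5) (nat_lit 276) (nat_lit 266) (nat_lit 178)) (XT.lf (nat_lit 0) (nat_lit 12440036285) (nat_lit 304) (nat_lit 17704691476) (nat_lit 76) (nat_lit 19283738122) (nat_lit 20) (nat_lit 5) (nat_lit 24) (nat_lit 5) (nat_lit 21) (nat_lit 5) (nat_lit 277) (nat_lit 266) (nat_lit 177))))) (XT.nd (nat_lit 234) (nat_lit 304) (nat_lit 0) (XT.nd (nat_lit 78) (nat_lit 0) (nat_lit 0) (XT.lf (nat_lit 0) (nat_lit 825827881) (nat_lit 228) (nat_lit 15773220542) (nat_lit 304) (nat_lit 35319508445) (nat_lit 17) (nat_lit 5) (nat_lit 20) (nat_lit 5) (nat_lit 21) (nat_lit 5) (nat_lit 278) (nat_lit 266) (nat_lit 176)) (XT.nd (nat_lit 78) (nat_lit 0) (nat_lit 0) (XT.lf (nat_lit 0) (nat_lit 21578636262) (nat_lit 304) (nat_lit 32733132626) (nat_lit 76) (nat_lit 257084020) (nat_lit 17) (nat_lit 5) (nat_lit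 21) (nat_lit 5) (nat_lit 18) (nat_lit 5) (nat_lit 279) (nat_lit 266) (nat_lit 175)) (XT.lf (nat_lit 0) (nat_lit 27363751903) (nat_lit 304) (nat_lit 13317389420) (nat_lit 76) (nat_lit 16717482662) (nat_lit 17) (nat_lit 5) (nat_lit 21) (nat_lit 5) (nat_lit 18) (nat_lit 5) (nat_lit 280) (nat_lit 266) (nat_lit 174)))) (XT.nd (nat_lit 156) (nat_lit 152) (nat_lit 0) (XT.nd (nat_lit 78) (nat_lit 0) (nat_lit 0) (XT.lf (nat_lit 0) (nat_lit 8051680907) (nat_lit 152) (nat_lit 25751293394) (nat_lit 228) (nat_lit 26636521070) (nat_lit 15) (nat_lit 5) (nat_lit 17) (nat_lit 5) (nat_lit 18) (nat_lit 5) (nat_lit 281) (nat_lit 266) (nat_lit 173)) (XT.lf (nat_lit 0) (nat_lit 31885007184) (nat_lit 152) (nat_lit 9234212943) (nat_lit 228) (nat_lit 22575486253) (nat_lit 15) (nat_lit 5) (nat_lit 17) (nat_lit 5) (nat_lit 18) (nat_lit 5) (nat_lit 282) (nat_lit 266) (nat_lit 172))) (XT.nd (nat_lit 78) (nat_lit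 152) (nat_lit 0) (XT.lf (nat_lit 0) (nat_lit 49225618804) (nat_lit 228) (nat_lit 9794888261) (nat_lit 76) (nat_lit 8173458173) (nat_lit 15) (nat_lit 5) (nat_lit 18) (nat_lit 5) (nat_lit 16) (nat_lit 5) (nat_lit 283) (nat_lit 266) (nat_lit 171)) (XT.lf (nat_lit 0) (nat_lit 14462292995) (nat_lit 152) (nat_lit 44103979701) (nat_lit 228) (nat_lit 12360050443) (nat_lit 13) (nat_lit 5) (nat_lit 15) (nat_lit 5) (nat_lit 16) (nat_lit 5) (nat_lit 284) (nat_lit 266) (nat_lit 170))))))))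
noncomputable def xc96 : XT := (XT.nd (nat_lit 2028) (nat_lit 152) (nat_lit 0) (XT.nd (nat_lit 1014) (nat_lit 304) (nat_lit 0) (XT.nd (nat_lit 468) (nat_lit 76) (nat_lit 0) (XT.nd (nat_lit 234) (nat_lit 152) (nat_lit 0) (XT.nd (nat_lit 78) (nat_lit 228) (nat_lit 0) (XT.lf (nat_lit 0) (nat_lit 41214726843) (nat_lit 152) (nat_lit 27705422482) (nat_lit 228) (nat_lit 6015859194) (nat_lit 13) (nat_lit 5) (nat_lit 15) (nat_lit 5) (nat_lit 16) (nat_lit 5) (nat_lit 285) (nat_lit 266) (nat_lit 169)) (XT.nd (nat_lit 78) (nat_lit 152) (nat_lit 0) (XT.lf (nat_lit 0) (nat_lit 792292213) (nat_lit 228) (nat_lit 9181513491) (nat_lit 76) (nat_lit 69291209881) (nat_lit 12) (nat_lit 5) (nat_lit 15) (nat_lit 5) (nat_lit 13) (nat_lit 5) (nat_lit 286) (nat_lit 266) (nat_lit 168)) (XT.lf (nat_lit 0) (nat_lit 8488983355) (nat_lit 228) (nat_lit 66062420815) (nat_lit 76) (nat_lit 9322939619) (nat_lit 10) (nat_lit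 5) (nat_lit 13) (nat_lit 5) (nat_lit 11) (nat_lit 5) (nat_lit 287) (nat_lit 266) (nat_lit 167)))) (XT.nd (nat_lit 78) (nat_lit 152) (nat_lit 0) (XT.lf (nat_lit 0) (nat_lit 17316456456) (nat_lit 228) (nat_lit 41613118428) (nat_lit 76) (nat_lit 29881651748) (nat_lit 10) (nat_lit 5) (nat_lit 13) (nat_lit 5) (nat_lit 11) (nat_lit 5) (nat_lit 288) (nat_lit 266) (nat_lit 166)) (XT.nd (nat_lit 78) (nat_lit 152) (nat_lit 0) (XT.lf (nat_lit 0) (nat_lit 26848671330) (nat_lit 228) (nat_lit 15209907102) (nat_lit 76) (nat_lit 52084609372) (nat_lit 10) (nat_lit 5) (nat_lit 13) (nat_lit 5) (nat_lit 11) (nat_lit 5) (nat_lit 289) (nat_lit 266) (nat_lit 165)) (XT.lf (nat_lit 0) (nat_lit 14004224672) (nat_lit 152) (nat_lit 23474692446) (nat_lit 228) (nat_lit 62395962842) (nat_lit 8) (nat_lit 5) (nat_lit 10) (nat_lit 5) (nat_lit 11) (nat_lit 5) (nat_lit 290) (nat_lit 266) (nat_lit 164))))) (XT.nd (nat_lit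 234) (nat_lit 76) (nat_lit 0) (XT.nd (nat_lit 78) (nat_lit 0) (nat_lit 0) (XT.lf (nat_lit 0) (nat_lit 46418651098) (nat_lit 152) (nat_lit 2955504760) (nat_lit 228) (nat_lit 56657795382) (nat_lit 8) (nat_lit 5) (nat_lit 10) (nat_lit 5) (nat_lit 11) (nat_lit 5) (nat_lit 291) (nat_lit 266) (nat_lit 163)) (XT.nd (nat_lit 78) (nat_lit 0) (nat_lit 0) (XT.lf (nat_lit 0) (nat_lit 62681690751) (nat_lit 228) (nat_lit 31719035793) (nat_lit 76) (nat_lit 18244016420) (nat_lit 8) (nat_lit 5) (nat_lit 11) (nat_lit 5) (nat_lit 9) (nat_lit 4) (nat_lit 292) (nat_lit 266) (nat_lit 162)) (XT.lf (nat_lit 0) (nat_lit 77129475439) (nat_lit 228) (nat_lit 1671657072) (nat_lit 76) (nat_lit 40979381999) (nat_lit 8) (nat_lit 5) (nat_lit 11) (nat_lit 5) (nat_lit 9) (nat_lit 4) (nat_lit 293) (nat_lit 266) (nat_lit 161)))) (XT.nd (nat_lit 156) (nat_lit 0) (nat_lit 0) (XT.nd (nat_lit 78) (nat_lit 0) (nat_lit 0)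 (XT.lf (nat_lit 0) (nat_lit 32398688115) (nat_lit 76) (nat_lit 61112547576) (nat_lit 152) (nat_lit 33913667499) (nat_lit 7) (nat_lit 5) (nat_lit 8) (nat_lit 5) (nat_lit 9) (nat_lit 4) (nat_lit 294) (nat_lit 266) (nat_lit 160)) (XT.lf (nat_lit 0) (nat_lit 69288231033) (nat_lit 76) (nat_lit 41960016094) (nat_lit 152) (nat_lit 24429026078) (nat_lit 7) (nat_lit 5) (nat_lit 8) (nat_lit 5) (nat_lit 9) (nat_lit 4) (nat_lit 295) (nat_lit 266) (nat_lit 159))) (XT.nd (nat_lit 78) (nat_lit 0) (nat_lit 0) (XT.lf (nat_lit 0) (nat_lit 109127549882) (nat_lit 76) (nat_lit 21275747648) (nat_lit 152) (nat_lit 14186615592) (nat_lit 7) (nat_lit 5) (nat_lit 8) (nat_lit 5) (nat_lit 9) (nat_lit 4) (nat_lit 296) (nat_lit 266) (nat_lit 158)) (XT.lf (nat_lit 0) (nat_lit 151115459426) (nat_lit 152) (nat_lit 2088470188) (nat_lit 0) (nat_lit 1009664081) (nat_lit 7) (nat_lit 5) (nat_lit 9) (nat_lit 4) (nat_lit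 7) (nat_lit 4) (nat_lit 297) (nat_lit 266) (nat_lit 157)))))) (XT.nd (nat_lit 468) (nat_lit 76) (nat_lit 0) (XT.nd (nat_lit 234) (nat_lit 76) (nat_lit 0) (XT.nd (nat_lit 78) (nat_lit 0) (nat_lit 0) (XT.lf (nat_lit 0) (nat_lit 9867055766) (nat_lit 152) (nat_lit 129584848492) (nat_lit 76) (nat_lit 25023492270) (nat_lit 5) (nat_lit 5) (nat_lit 7) (nat_lit 5) (nat_lit 6) (nat_lit 4) (nat_lit 298) (nat_lit 266) (nat_lit 156)) (XT.nd (nat_lit 78) (nat_lit 0) (nat_lit 0) (XT.lf (nat_lit 0) (nat_lit 23759871971) (nat_lit 152) (nat_lit 100690132583) (nat_lit 76) (nat_lit 51097082906) (nat_lit 5) (nat_lit 5) (nat_lit 7) (nat_lit 5) (nat_lit 6) (nat_lit 4) (nat_lit 299) (nat_lit 266) (nat_lit 155)) (XT.lf (nat_lit 0) (nat_lit 38763377389) (nat_lit 152) (nat_lit 69485009645) (nat_lit 76) (nat_lit 79256189975) (nat_lit 5) (nat_lit 5) (nat_lit 7) (nat_lit 5) (nat_lit 6) (nat_lit 4) (nat_lit 300)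 (nat_lit 266) (nat_lit 154)))) (XT.nd (nat_lit 78) (nat_lit 76) (nat_lit 0) (XT.lf (nat_lit 0) (nat_lit 54966481681) (nat_lit 152) (nat_lit 35784560432) (nat_lit 76) (nat_lit 109667682258) (nat_lit 5) (nat_lit 5) (nat_lit 7) (nat_lit 5) (nat_lit 6) (nat_lit 4) (nat_lit 301) (nat_lit 266) (nat_lit 153)) (XT.nd (nat_lit 78) (nat_lit 0) (nat_lit 0) (XT.lf (nat_lit 0) (nat_lit 643091462) (nat_lit 76) (nat_lit 71837578146) (nat_lit 152) (nat_lit 141884150909) (nat_lit 4) (nat_lit 5) (nat_lit 5) (nat_lit 5) (nat_lit 6) (nat_lit 4) (nat_lit 302) (nat_lit 266) (nat_lit 152)) (XT.lf (nat_lit 0) (nat_lit 42019077272) (nat_lit 76) (nat_lit 50354720750) (nat_lit 152) (nat_lit 136974585433) (nat_lit 4) (nat_lit 5) (nat_lit 5) (nat_lit 5) (nat_lit 6) (nat_lit 4) (nat_lit 303) (nat_lit 266) (nat_lit 151))))) (XT.nd (nat_lit 234) (nat_lit 76) (nat_lit 0) (XT.nd (nat_lit 78) (nat_lit 0) (nat_lit 0)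 (XT.lf (nat_lit 0) (nat_lit 86704236488) (nat_lit 76) (nat_lit 27153577401) (nat_lit 152) (nat_lit 131672865839) (nat_lit 4) (nat_lit 5) (nat_lit 5) (nat_lit 5) (nat_lit 6) (nat_lit 4) (nat_lit 304) (nat_lit 266) (nat_lit 150)) (XT.nd (nat_lit 78) (nat_lit 0) (nat_lit 0) (XT.lf (nat_lit 0) (nat_lit 134963370054) (nat_lit 76) (nat_lit 2096659843) (nat_lit 152) (nat_lit 125947574528) (nat_lit 4) (nat_lit 5) (nat_lit 5) (nat_lit 5) (nat_lit 6) (nat_lit 4) (nat_lit 305) (nat_lit 266) (nat_lit 149)) (XT.lf (nat_lit 0) (nat_lit 162718337901) (nat_lit 152) (nat_lit 95400663731) (nat_lit 0) (nat_lit 23715691095) (nat_lit 4) (nat_lit 5) (nat_lit 6) (nat_lit 4) (nat_lit 4) (nat_lit 4) (nat_lit 306) (nat_lit 266) (nat_lit 148)))) (XT.nd (nat_lit 156) (nat_lit 76) (nat_lit 0) (XT.nd (nat_lit 78) (nat_lit 0) (nat_lit 0) (XT.lf (nat_lit 0) (nat_lit 190483315916) (nat_lit 152) (nat_lit 60200816718)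 (nat_lit 0) (nat_lit 51479497628) (nat_lit 4) (nat_lit 5) (nat_lit 6) (nat_lit 4) (nat_lit 4) (nat_lit 4) (nat_lit 307) (nat_lit 266) (nat_lit 147)) (XT.lf (nat_lit 0) (nat_lit 220469072425) (nat_lit 152) (nat_lit 22185676929) (nat_lit 0) (nat_lit 81464169433) (nat_lit 4) (nat_lit 5) (nat_lit 6) (nat_lit 4) (nat_lit 4) (nat_lit 4) (nat_lit 308) (nat_lit 266) (nat_lit 146))) (XT.nd (nat_lit 78) (nat_lit 0) (nat_lit 0) (XT.lf (nat_lit 0) (nat_lit 19863692906) (nat_lit 76) (nat_lit 233467330188) (nat_lit 76) (nat_lit 94461422838) (nat_lit 3) (nat_lit 4) (nat_lit 4) (nat_lit 5) (nat_lit 4) (nat_lit 4) (nat_lit 309) (nat_lit 266) (nat_lit 145)) (XT.lf (nat_lit 0) (nat_lit 66538104222) (nat_lit 76) (nat_lit 222890046368) (nat_lit 76) (nat_lit 83883209059) (nat_lit 3) (nat_lit 4) (nat_lit 4) (nat_lit 5) (nat_lit 4) (nat_lit 4) (nat_lit 310) (nat_lit 266) (nat_lit 144))))))) (XT.nd (nat_lit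 1014) (nat_lit 0) (nat_lit 0) (XT.nd (nat_lit 468) (nat_lit 152) (nat_lit 0) (XT.nd (nat_lit 234) (nat_lit 0) (nat_lit 0) (XT.nd (nat_lit 78) (nat_lit 0) (nat_lit 0) (XT.lf (nat_lit 0) (nat_lit 116945887690) (nat_lit 76) (nat_lit 211466813420) (nat_lit 76) (nat_lit 72459115037) (nat_lit 3) (nat_lit 4) (nat_lit 4) (nat_lit 5) (nat_lit 4) (nat_lit 4) (nat_lit 311) (nat_lit 266) (nat_lit 143)) (XT.nd (nat_lit 78) (nat_lit 0) (nat_lit 0) (XT.lf (nat_lit 0) (nat_lit 171385756103) (nat_lit 76) (nat_lit 199129938112) (nat_lit 76) (nat_lit 60121442437) (nat_lit 3) (nat_lit 4) (nat_lit 4) (nat_lit 5) (nat_lit 4) (nat_lit 4) (nat_lit 312) (nat_lit 266) (nat_lit 142)) (XT.lf (nat_lit 0) (nat_lit 230180316087) (nat_lit 76) (nat_lit 185806313033) (nat_lit 76) (nat_lit 46797079126) (nat_lit 3) (nat_lit 4) (nat_lit 4) (nat_lit 5) (nat_lit 4) (nat_lit 4) (nat_lit 313) (nat_lit 266) (nat_lit 141))))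 (XT.nd (nat_lit 78) (nat_lit 0) (nat_lit 0) (XT.lf (nat_lit 0) (nat_lit 293677979849) (nat_lit 76) (nat_lit 171416983369) (nat_lit 76) (nat_lit 32407065914) (nat_lit 3) (nat_lit 4) (nat_lit 4) (nat_lit 5) (nat_lit 4) (nat_lit 4) (nat_lit 314) (nat_lit 266) (nat_lit 140)) (XT.nd (nat_lit 78) (nat_lit 0) (nat_lit 0) (XT.lf (nat_lit 0) (nat_lit 362255029842) (nat_lit 76) (nat_lit 155876679018) (nat_lit 76) (nat_lit 16866128648) (nat_lit 3) (nat_lit 4) (nat_lit 4) (nat_lit 5) (nat_lit 4) (nat_lit 4) (nat_lit 315) (nat_lit 266) (nat_lit 139)) (XT.lf (nat_lit 0) (nat_lit 436317848585) (nat_lit 76) (nat_lit 139093309288) (nat_lit 76) (nat_lit 82172885) (nat_lit 3) (nat_lit 4) (nat_lit 4) (nat_lit 5) (nat_lit 4) (nat_lit 4) (nat_lit 316) (nat_lit 266) (nat_lit 138))))) (XT.nd (nat_lit 234) (nat_lit 76) (nat_lit 0) (XT.nd (nat_lit 78) (nat_lit 0) (nat_lit 0) (XT.lf (nat_lit 0) (nat_lit 17141614795)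 (nat_lit 152) (nat_lit 103357120251) (nat_lit 76) (nat_lit 498695029933) (nat_lit 2) (nat_lit 5) (nat_lit 4) (nat_lit 5) (nat_lit 3) (nat_lit 4) (nat_lit 317) (nat_lit 266) (nat_lit 137)) (XT.nd (nat_lit 78) (nat_lit 0) (nat_lit 0) (XT.lf (nat_lit 0) (nat_lit 35738657126) (nat_lit 152) (nat_lit 64675774631) (nat_lit 76) (nat_lit 565975649175) (nat_lit 2) (nat_lit 5) (nat_lit 4) (nat_lit 5) (nat_lit 3) (nat_lit 4) (nat_lit 318) (nat_lit 266) (nat_lit 136)) (XT.lf (nat_lit 0) (nat_lit 55823269423) (nat_lit 152) (nat_lit 22900246264) (nat_lit 76) (nat_lit 638638602903) (nat_lit 2) (nat_lit 5) (nat_lit 4) (nat_lit 5) (nat_lit 3) (nat_lit 4) (nat_lit 319) (nat_lit 266) (nat_lit 135)))) (XT.nd (nat_lit 156) (nat_lit 0) (nat_lit 0) (XT.nd (nat_lit 78) (nat_lit 0) (nat_lit 0) (XT.lf (nat_lit 0) (nat_lit 23386932622) (nat_lit 76) (nat_lit 54689995281) (nat_lit 152) (nat_lit 694290010068) (nat_lit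 1) (nat_lit 5) (nat_lit 2) (nat_lit 5) (nat_lit 3) (nat_lit 4) (nat_lit 320) (nat_lit 266) (nat_lit 134)) (XT.lf (nat_lit 0) (nat_lit 74679149896) (nat_lit 76) (nat_lit 28057689602) (nat_lit 152) (nat_lit 728985227388) (nat_lit 1) (nat_lit 5) (nat_lit 2) (nat_lit 5) (nat_lit 3) (nat_lit 4) (nat_lit 321) (nat_lit 266) (nat_lit 133))) (XT.nd (nat_lit 78) (nat_lit 0) (nat_lit 0) (XT.lf (nat_lit 0) (nat_lit 129386341358) (nat_lit 152) (nat_lit 765768104039) (nat_lit 0) (nat_lit 669817690) (nat_lit 1) (nat_lit 5) (nat_lit 3) (nat_lit 4) (nat_lit 1) (nat_lit 4) (nat_lit 322) (nat_lit 266) (nat_lit 132)) (XT.lf (nat_lit 0) (nat_lit 158896423828) (nat_lit 152) (nat_lit 775920338676) (nat_lit 0) (nat_lit 30179583545) (nat_lit 1) (nat_lit 5) (nat_lit 3) (nat_lit 4) (nat_lit 1) (nat_lit 4) (nat_lit 323) (nat_lit 266) (nat_lit 131)))))) (XT.nd (nat_lit 546) (nat_lit 0) (nat_lit 0) (XT.nd (nat_lit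 234) (nat_lit 0) (nat_lit 0) (XT.nd (nat_lit 78) (nat_lit 0) (nat_lit 0) (XT.lf (nat_lit 0) (nat_lit 190767173361) (nat_lit 152) (nat_lit 786884994184) (nat_lit 0) (nat_lit 62050039916) (nat_lit 1) (nat_lit 5) (nat_lit 3) (nat_lit 4) (nat_lit 1) (nat_lit 4) (nat_lit 324) (nat_lit 266) (nat_lit 130)) (XT.nd (nat_lit 78) (nat_lit 0) (nat_lit 0) (XT.lf (nat_lit 0) (nat_lit 225187453658) (nat_lit 152) (nat_lit 798727046298) (nat_lit 0) (nat_lit 96470048767) (nat_lit 1) (nat_lit 5) (nat_lit 3) (nat_lit 4) (nat_lit 1) (nat_lit 4) (nat_lit 325) (nat_lit 266) (nat_lit 129)) (XT.lf (nat_lit 0) (nat_lit 262361236751) (nat_lit 152) (nat_lit 811516670143) (nat_lit 0) (nat_lit 133643580520) (nat_lit 1) (nat_lit 5) (nat_lit 3) (nat_lit 4) (nat_lit 1) (nat_lit 4) (nat_lit 326) (nat_lit 266) (nat_lit 128)))) (XT.nd (nat_lit 156) (nat_lit 0) (nat_lit 0) (XT.nd (nat_lit 78) (nat_lit 0) (nat_lit 0)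 (XT.lf (nat_lit 0) (nat_lit 302508811725) (nat_lit 152) (nat_lit 825329656083) (nat_lit 0) (nat_lit 173790922772) (nat_lit 1) (nat_lit 5) (nat_lit 3) (nat_lit 4) (nat_lit 1) (nat_lit 4) (nat_lit 327) (nat_lit 266) (nat_lit 127)) (XT.lf (nat_lit 0) (nat_lit 345868090135) (nat_lit 152) (nat_lit 840247858847) (nat_lit 0) (nat_lit 217149985699) (nat_lit 1) (nat_lit 5) (nat_lit 3) (nat_lit 4) (nat_lit 1) (nat_lit 4) (nat_lit 328) (nat_lit 266) (nat_lit 126))) (XT.nd (nat_lit 78) (nat_lit 0) (nat_lit 0) (XT.lf (nat_lit 0) (nat_lit 392696015852) (nat_lit 152) (nat_lit 856359682602) (nat_lit 0) (nat_lit 263977711896) (nat_lit 1) (nat_lit 5) (nat_lit 3) (nat_lit 4) (nat_lit 1) (nat_lit 4) (nat_lit 329) (nat_lit 266) (nat_lit 125)) (XT.lf (nat_lit 0) (nat_lit 443270087697) (nat_lit 152) (nat_lit 873760604821) (nat_lit 0) (nat_lit 314551598999) (nat_lit 1) (nat_lit 5) (nat_lit 3) (nat_lit 4)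 (nat_lit 1) (nat_lit 4) (nat_lit 330) (nat_lit 266) (nat_lit 124))))) (XT.nd (nat_lit 234) (nat_lit 0) (nat_lit 0) (XT.nd (nat_lit 78) (nat_lit 0) (nat_lit 0) (XT.lf (nat_lit 0) (nat_lit 497890003873) (nat_lit 152) (nat_lit 892553742081) (nat_lit 0) (nat_lit 369171344117) (nat_lit 1) (nat_lit 5) (nat_lit 3) (nat_lit 4) (nat_lit 1) (nat_lit 4) (nat_lit 331) (nat_lit 266) (nat_lit 123)) (XT.nd (nat_lit 78) (nat_lit 0) (nat_lit 0) (XT.lf (nat_lit 0) (nat_lit 556879437957) (nat_lit 152) (nat_lit 912850461119) (nat_lit 0) (nat_lit 428160619814) (nat_lit 1) (nat_lit 5) (nat_lit 3) (nat_lit 4) (nat_lit 1) (nat_lit 4) (nat_lit 332) (nat_lit 266) (nat_lit 122)) (XT.lf (nat_lit 0) (nat_lit 620587956965) (nat_lit 152) (nat_lit 934771038792) (nat_lit 0) (nat_lit 491868992169) (nat_lit 1) (nat_lit 5) (nat_lit 3) (nat_lit 4) (nat_lit 1) (nat_lit 4) (nat_lit 333) (nat_lit 266) (nat_lit 121)))) (XT.nd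 (nat_lit 156) (nat_lit 0) (nat_lit 0) (XT.nd (nat_lit 78) (nat_lit 0) (nat_lit 0) (XT.lf (nat_lit 0) (nat_lit 689393092863) (nat_lit 152) (nat_lit 958445374816) (nat_lit 0) (nat_lit 560673992276) (nat_lit 1) (nat_lit 5) (nat_lit 3) (nat_lit 4) (nat_lit 1) (nat_lit 4) (nat_lit 334) (nat_lit 266) (nat_lit 120)) (XT.lf (nat_lit 0) (nat_lit 763702579789) (nat_lit 152) (nat_lit 984013761555) (nat_lit 0) (nat_lit 634983353469) (nat_lit 1) (nat_lit 5) (nat_lit 3) (nat_lit 4) (nat_lit 1) (nat_lit 4) (nat_lit 335) (nat_lit 266) (nat_lit 119))) (XT.nd (nat_lit 78) (nat_lit 0) (nat_lit 0) (XT.lf (nat_lit 0) (nat_lit 843956770257) (nat_lit 152) (nat_lit 1011627715375) (nat_lit 0) (nat_lit 715237427519) (nat_lit 1) (nat_lit 5) (nat_lit 3) (nat_lit 4) (nat_lit 1) (nat_lit 4) (nat_lit 336) (nat_lit 266) (nat_lit 118)) (XT.lf (nat_lit 0) (nat_lit 930631244657) (nat_lit 152) (nat_lit 1041450874519)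 (nat_lit 0) (nat_lit 801911794124) (nat_lit 1) (nat_lit 5) (nat_lit 3) (nat_lit 4) (nat_lit 1) (nat_lit 4) (nat_lit 337) (nat_lit 266) (nat_lit 117))))))))
noncomputable def xc97 : XT := (XT.nd (nat_lit 33930) (nat_lit 0) (nat_lit 76) (XT.nd (nat_lit 32838) (nat_lit 0) (nat_lit 532) (XT.nd (nat_lit 32292) (nat_lit 0) (nat_lit 1444) (XT.nd (nat_lit 32058) (nat_lit 0) (nat_lit 1976) (XT.nd (nat_lit 78) (nat_lit 0) (nat_lit 0) (XT.lf (nat_lit 0) (nat_lit 1024239629503) (nat_lit 152) (nat_lit 1073659968821) (nat_lit 0) (nat_lit 895520079159) (nat_lit 1) (nat_lit 5) (nat_lit 3) (nat_lit 4) (nat_lit 1) (nat_lit 4) (nat_lit 338) (nat_lit 266) (nat_lit 116)) (XT.nd (nat_lit 31902) (nat_lit 0) (nat_lit 1976) (XT.lf (nat_lit 0) (nat_lit 1125336641149) (nat_lit 152) (nat_lit 1108445866986) (nat_lit 0) (nat_lit 996616998389) (nat_lit 1) (nat_lit 5) (nat_lit 3) (nat_lit 4) (nat_lit 1) (nat_lit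 4) (nat_lit 339) (nat_lit 266) (nat_lit 115)) (XT.lf (nat_lit 0) (nat_lit 6922850845) (nat_lit 0) (nat_lit 6922850845) (nat_lit 380) (nat_lit 2701536939) (nat_lit 27) (nat_lit 5) (nat_lit 27) (nat_lit 3) (nat_lit 32) (nat_lit 3) (nat_lit 267) (nat_lit 267) (nat_lit 186)))) (XT.nd (nat_lit 78) (nat_lit 0) (nat_lit 0) (XT.lf (nat_lit 0) (nat_lit 27389536146) (nat_lit 0) (nat_lit 1458266797) (nat_lit 380) (nat_lit 5565989553) (nat_lit 27) (nat_lit 5) (nat_lit 27) (nat_lit 3) (nat_lit 32) (nat_lit 3) (nat_lit 268) (nat_lit 267) (nat_lit 185)) (XT.nd (nat_lit 78) (nat_lit 0) (nat_lit 0) (XT.lf (nat_lit 76) (nat_lit 6198683886) (nat_lit 0) (nat_lit 24328971242) (nat_lit 456) (nat_lit 5276579040) (nat_lit 28) (nat_lit 5) (nat_lit 27) (nat_lit 5) (nat_lit 33) (nat_lit 5) (nat_lit 269) (nat_lit 267) (nat_lit 184)) (XT.lf (nat_lit 76) (nat_lit 20836194362) (nat_lit 0) (nat_lit 11730144735)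 (nat_lit 456) (nat_lit 4721668869) (nat_lit 28) (nat_lit 5) (nat_lit 27) (nat_lit 5) (nat_lit 33) (nat_lit 5) (nat_lit 270) (nat_lit 267) (nat_lit 183))))) (XT.nd (nat_lit 234) (nat_lit 608) (nat_lit 0) (XT.nd (nat_lit 78) (nat_lit 0) (nat_lit 0) (XT.lf (nat_lit 0) (nat_lit 34809092171) (nat_lit 380) (nat_lit 2293987484) (nat_lit 456) (nat_lit 1784174472) (nat_lit 28) (nat_lit 5) (nat_lit 33) (nat_lit 5) (nat_lit 34) (nat_lit 5) (nat_lit 271) (nat_lit 267) (nat_lit 182)) (XT.nd (nat_lit 78) (nat_lit 0) (nat_lit 0) (XT.lf (nat_lit 76) (nat_lit 13357112986) (nat_lit 0) (nat_lit 24496220849) (nat_lit 456) (nat_lit 2711385500) (nat_lit 29) (nat_lit 5) (nat_lit 28) (nat_lit 5) (nat_lit 34) (nat_lit 5) (nat_lit 272) (nat_lit 267) (nat_lit 181)) (XT.lf (nat_lit 76) (nat_lit 30387985191) (nat_lit 0) (nat_lit 10812220060) (nat_lit 456) (nat_lit 1171490781) (nat_lit 29) (nat_lit 5) (nat_lit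 28) (nat_lit 5) (nat_lit 34) (nat_lit 5) (nat_lit 273) (nat_lit 267) (nat_lit 180)))) (XT.nd (nat_lit 156) (nat_lit 228) (nat_lit 0) (XT.nd (nat_lit 78) (nat_lit 0) (nat_lit 0) (XT.lf (nat_lit 0) (nat_lit 674651176) (nat_lit 456) (nat_lit 39734771681) (nat_lit 76) (nat_lit 3896285977) (nat_lit 23) (nat_lit 5) (nat_lit 29) (nat_lit 5) (nat_lit 24) (nat_lit 5) (nat_lit 274) (nat_lit 267) (nat_lit 179)) (XT.lf (nat_lit 0) (nat_lit 3218917351) (nat_lit 456) (nat_lit 23559555074) (nat_lit 76) (nat_lit 19564471012) (nat_lit 23) (nat_lit 5) (nat_lit 29) (nat_lit 5) (nat_lit 24) (nat_lit 5) (nat_lit 275) (nat_lit 267) (nat_lit 178))) (XT.nd (nat_lit 78) (nat_lit 228) (nat_lit 0) (XT.lf (nat_lit 0) (nat_lit 5963688222) (nat_lit 456) (nat_lit 6093127034) (nat_lit 76) (nat_lit 36486614988) (nat_lit 23) (nat_lit 5) (nat_lit 29) (nat_lit 5) (nat_lit 24) (nat_lit 5) (nat_lit 276) (nat_lit 267)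 (nat_lit 177)) (XT.lf (nat_lit 0) (nat_lit 9349285053) (nat_lit 304) (nat_lit 37554806558) (nat_lit 76) (nat_lit 3982193086) (nat_lit 20) (nat_lit 5) (nat_lit 24) (nat_lit 5) (nat_lit 21) (nat_lit 5) (nat_lit 277) (nat_lit 267) (nat_lit 176)))))) (XT.nd (nat_lit 546) (nat_lit 532) (nat_lit 0) (XT.nd (nat_lit 234) (nat_lit 152) (nat_lit 0) (XT.nd (nat_lit 78) (nat_lit 228) (nat_lit 0) (XT.lf (nat_lit 0) (nat_lit 13487156626) (nat_lit 304) (nat_lit 19066932470) (nat_lit 76) (nat_lit 20823990405) (nat_lit 20) (nat_lit 5) (nat_lit 24) (nat_lit 5) (nat_lit 21) (nat_lit 5) (nat_lit 278) (nat_lit 267) (nat_lit 175)) (XT.nd (nat_lit 78) (nat_lit 0) (nat_lit 0) (XT.lf (nat_lit 0) (nat_lit 944657946) (nat_lit 228) (nat_lit 17031655024) (nat_lit 304) (nat_lit 38091308733) (nat_lit 17) (nat_lit 5) (nat_lit 20) (nat_lit 5) (nat_lit 21) (nat_lit 5) (nat_lit 279) (nat_lit 267) (nat_lit 174)) (XT.lf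 (nat_lit 0) (nat_lit 23350689200) (nat_lit 304) (nat_lit 35298911734) (nat_lit 76) (nat_lit 280661780) (nat_lit 17) (nat_lit 5) (nat_lit 21) (nat_lit 5) (nat_lit 18) (nat_lit 5) (nat_lit 280) (nat_lit 267) (nat_lit 173)))) (XT.nd (nat_lit 156) (nat_lit 0) (nat_lit 0) (XT.nd (nat_lit 78) (nat_lit 152) (nat_lit 0) (XT.lf (nat_lit 0) (nat_lit 29595224313) (nat_lit 304) (nat_lit 14333825480) (nat_lit 76) (nat_lit 18057669273) (nat_lit 17) (nat_lit 5) (nat_lit 21) (nat_lit 5) (nat_lit 18) (nat_lit 5) (nat_lit 281) (nat_lit 267) (nat_lit 172)) (XT.lf (nat_lit 0) (nat_lit 8743531104) (nat_lit 152) (nat_lit 27804062276) (nat_lit 228) (nat_lit 28723456075) (nat_lit 15) (nat_lit 5) (nat_lit 17) (nat_lit 5) (nat_lit 18) (nat_lit 5) (nat_lit 282) (nat_lit 267) (nat_lit 171))) (XT.nd (nat_lit 78) (nat_lit 0) (nat_lit 0) (XT.lf (nat_lit 0) (nat_lit 34479988985) (nat_lit 152) (nat_lit 9966158692)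 (nat_lit 228) (nat_lit 24340796745) (nat_lit 15) (nat_lit 5) (nat_lit 17) (nat_lit 5) (nat_lit 18) (nat_lit 5) (nat_lit 283) (nat_lit 267) (nat_lit 170)) (XT.lf (nat_lit 0) (nat_lit 53198439855) (nat_lit 228) (nat_lit 10534630837) (nat_lit 76) (nat_lit 8833308492) (nat_lit 15) (nat_lit 5) (nat_lit 18) (nat_lit 5) (nat_lit 16) (nat_lit 5) (nat_lit 284) (nat_lit 267) (nat_lit 169))))) (XT.nd (nat_lit 234) (nat_lit 304) (nat_lit 0) (XT.nd (nat_lit 78) (nat_lit 76) (nat_lit 0) (XT.lf (nat_lit 0) (nat_lit 15662014831) (nat_lit 152) (nat_lit 47622783417) (nat_lit 228) (nat_lit 13312675113) (nat_lit 13) (nat_lit 5) (nat_lit 15) (nat_lit 5) (nat_lit 16) (nat_lit 5) (nat_lit 285) (nat_lit 267) (nat_lit 168)) (XT.nd (nat_lit 78) (nat_lit 76) (nat_lit 0) (XT.lf (nat_lit 0) (nat_lit 44551477580) (nat_lit 152) (nat_lit 29913046411) (nat_lit 228) (nat_lit 6463628517) (nat_lit 13) (nat_lit 5) (nat_lit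 15) (nat_lit 5) (nat_lit 16) (nat_lit 5) (nat_lit 286) (nat_lit 267) (nat_lit 167)) (XT.lf (nat_lit 0) (nat_lit 885141919) (nat_lit 228) (nat_lit 9877605291) (nat_lit 76) (nat_lit 74840875967) (nat_lit 12) (nat_lit 5) (nat_lit 15) (nat_lit 5) (nat_lit 13) (nat_lit 5) (nat_lit 287) (nat_lit 267) (nat_lit 166)))) (XT.nd (nat_lit 156) (nat_lit 152) (nat_lit 0) (XT.nd (nat_lit 78) (nat_lit 0) (nat_lit 0) (XT.lf (nat_lit 0) (nat_lit 9196509479) (nat_lit 228) (nat_lit 71307707487) (nat_lit 76) (nat_lit 10077582890) (nat_lit 10) (nat_lit 5) (nat_lit 13) (nat_lit 5) (nat_lit 11) (nat_lit 5) (nat_lit 288) (nat_lit 267) (nat_lit 165)) (XT.lf (nat_lit 0) (nat_lit 18728076172) (nat_lit 228) (nat_lit 44905402167) (nat_lit 76) (nat_lit 32280339537) (nat_lit 10) (nat_lit 5) (nat_lit 13) (nat_lit 5) (nat_lit 11) (nat_lit 5) (nat_lit 289) (nat_lit 267) (nat_lit 164))) (XT.nd (nat_lit 78) (nat_lit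 152) (nat_lit 0) (XT.lf (nat_lit 0) (nat_lit 29020919851) (nat_lit 228) (nat_lit 16392657323) (nat_lit 76) (nat_lit 56258929649) (nat_lit 10) (nat_lit 5) (nat_lit 13) (nat_lit 5) (nat_lit 11) (nat_lit 5) (nat_lit 290) (nat_lit 267) (nat_lit 163)) (XT.lf (nat_lit 0) (nat_lit 15157743161) (nat_lit 152) (nat_lit 25342836072) (nat_lit 228) (nat_lit 67362249501) (nat_lit 8) (nat_lit 5) (nat_lit 10) (nat_lit 5) (nat_lit 11) (nat_lit 5) (nat_lit 291) (nat_lit 267) (nat_lit 162))))))) (XT.nd (nat_lit 1014) (nat_lit 152) (nat_lit 0) (XT.nd (nat_lit 468) (nat_lit 228) (nat_lit 0) (XT.nd (nat_lit 234) (nat_lit 76) (nat_lit 0) (XT.nd (nat_lit 78) (nat_lit 0) (nat_lit 0) (XT.lf (nat_lit 0) (nat_lit 50162865885) (nat_lit 152) (nat_lit 3182841651) (nat_lit 228) (nat_lit 61166909412) (nat_lit 8) (nat_lit 5) (nat_lit 10) (nat_lit 5) (nat_lit 11) (nat_lit 5) (nat_lit 292) (nat_lit 267) (nat_lit 161))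 (XT.nd (nat_lit 78) (nat_lit 0) (nat_lit 0) (XT.lf (nat_lit 0) (nat_lit 67716446519) (nat_lit 228) (nat_lit 34226564072) (nat_lit 76) (nat_lit 19711545231) (nat_lit 8) (nat_lit 5) (nat_lit 11) (nat_lit 5) (nat_lit 9) (nat_lit 4) (nat_lit 293) (nat_lit 267) (nat_lit 160)) (XT.lf (nat_lit 0) (nat_lit 83318556166) (nat_lit 228) (nat_lit 1777616874) (nat_lit 76) (nat_lit 44265146908) (nat_lit 8) (nat_lit 5) (nat_lit 11) (nat_lit 5) (nat_lit 9) (nat_lit 4) (nat_lit 294) (nat_lit 267) (nat_lit 159)))) (XT.nd (nat_lit 78) (nat_lit 0) (nat_lit 0) (XT.lf (nat_lit 0) (nat_lit 35017652820) (nat_lit 76) (nat_lit 65992468579) (nat_lit 152) (nat_lit 36607207407) (nat_lit 7) (nat_lit 5) (nat_lit 8) (nat_lit 5) (nat_lit 9) (nat_lit 4) (nat_lit 295) (nat_lit 267) (nat_lit 158)) (XT.nd (nat_lit 78) (nat_lit 0) (nat_lit 0) (XT.lf (nat_lit 0) (nat_lit 74856354012) (nat_lit 76) (nat_lit 45308407378) (nat_lit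 152) (nat_lit 26365243079) (nat_lit 7) (nat_lit 5) (nat_lit 8) (nat_lit 5) (nat_lit 9) (nat_lit 4) (nat_lit 296) (nat_lit 267) (nat_lit 157)) (XT.lf (nat_lit 0) (nat_lit 117880961739) (nat_lit 76) (nat_lit 22970020421) (nat_lit 152) (nat_lit 15304780871) (nat_lit 7) (nat_lit 5) (nat_lit 8) (nat_lit 5) (nat_lit 9) (nat_lit 4) (nat_lit 297) (nat_lit 267) (nat_lit 156))))) (XT.nd (nat_lit 234) (nat_lit 76) (nat_lit 0) (XT.nd (nat_lit 78) (nat_lit 152) (nat_lit 0) (XT.lf (nat_lit 0) (nat_lit 163219148130) (nat_lit 152) (nat_lit 2232988795) (nat_lit 0) (nat_lit 1097286745) (nat_lit 7) (nat_lit 5) (nat_lit 9) (nat_lit 4) (nat_lit 7) (nat_lit 4) (nat_lit 298) (nat_lit 267) (nat_lit 155)) (XT.nd (nat_lit 78) (nat_lit 0) (nat_lit 0) (XT.lf (nat_lit 0) (nat_lit 10670780939) (nat_lit 152) (nat_lit 139928805363) (nat_lit 76) (nat_lit 27032606187) (nat_lit 5) (nat_lit 5) (nat_lit 7) (nat_lit 5)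 (nat_lit 6) (nat_lit 4) (nat_lit 299) (nat_lit 267) (nat_lit 154)) (XT.lf (nat_lit 0) (nat_lit 25673958684) (nat_lit 152) (nat_lit 108724203367) (nat_lit 76) (nat_lit 55191548183) (nat_lit 5) (nat_lit 5) (nat_lit 7) (nat_lit 5) (nat_lit 6) (nat_lit 4) (nat_lit 300) (nat_lit 267) (nat_lit 153)))) (XT.nd (nat_lit 156) (nat_lit 76) (nat_lit 0) (XT.nd (nat_lit 78) (nat_lit 0) (nat_lit 0) (XT.lf (nat_lit 0) (nat_lit 41876759575) (nat_lit 152) (nat_lit 75024236507) (nat_lit 76) (nat_lit 85602887622) (nat_lit 5) (nat_lit 5) (nat_lit 7) (nat_lit 5) (nat_lit 6) (nat_lit 4) (nat_lit 301) (nat_lit 267) (nat_lit 152)) (XT.lf (nat_lit 0) (nat_lit 59375200211) (nat_lit 152) (nat_lit 38629201276) (nat_lit 76) (nat_lit 118446839847) (nat_lit 5) (nat_lit 5) (nat_lit 7) (nat_lit 5) (nat_lit 6) (nat_lit 4) (nat_lit 302) (nat_lit 267) (nat_lit 151))) (XT.nd (nat_lit 78) (nat_lit 0) (nat_lit 0) (XT.lf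 (nat_lit 0) (nat_lit 712203934) (nat_lit 76) (nat_lit 77577899641) (nat_lit 152) (nat_lit 153222960274) (nat_lit 4) (nat_lit 5) (nat_lit 5) (nat_lit 5) (nat_lit 6) (nat_lit 4) (nat_lit 303) (nat_lit 267) (nat_lit 150)) (XT.lf (nat_lit 0) (nat_lit 45396960079) (nat_lit 76) (nat_lit 54376908821) (nat_lit 152) (nat_lit 147921512724) (nat_lit 4) (nat_lit 5) (nat_lit 5) (nat_lit 5) (nat_lit 6) (nat_lit 4) (nat_lit 304) (nat_lit 267) (nat_lit 149)))))) (XT.nd (nat_lit 546) (nat_lit 76) (nat_lit 0) (XT.nd (nat_lit 234) (nat_lit 76) (nat_lit 0) (XT.nd (nat_lit 78) (nat_lit 0) (nat_lit 0) (XT.lf (nat_lit 0) (nat_lit 93655720431) (nat_lit 76) (nat_lit 29320132492) (nat_lit 152) (nat_lit 142196473305) (nat_lit 4) (nat_lit 5) (nat_lit 5) (nat_lit 5) (nat_lit 6) (nat_lit 4) (nat_lit 305) (nat_lit 267) (nat_lit 148)) (XT.nd (nat_lit 78) (nat_lit 0) (nat_lit 0) (XT.lf (nat_lit 0) (nat_lit 145774462828)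 (nat_lit 76) (nat_lit 2259086055) (nat_lit 152) (nat_lit 136013915860) (nat_lit 4) (nat_lit 5) (nat_lit 5) (nat_lit 5) (nat_lit 6) (nat_lit 4) (nat_lit 306) (nat_lit 267) (nat_lit 147)) (XT.lf (nat_lit 0) (nat_lit 175743994023) (nat_lit 152) (nat_lit 103019157957) (nat_lit 0) (nat_lit 25617614086) (nat_lit 4) (nat_lit 5) (nat_lit 6) (nat_lit 4) (nat_lit 4) (nat_lit 4) (nat_lit 307) (nat_lit 267) (nat_lit 146)))) (XT.nd (nat_lit 156) (nat_lit 76) (nat_lit 0) (XT.nd (nat_lit 78) (nat_lit 0) (nat_lit 0) (XT.lf (nat_lit 0) (nat_lit 205729563680) (nat_lit 152) (nat_lit 65004327544) (nat_lit 0) (nat_lit 55602179386) (nat_lit 4) (nat_lit 5) (nat_lit 6) (nat_lit 4) (nat_lit 4) (nat_lit 4) (nat_lit 308) (nat_lit 267) (nat_lit 145)) (XT.lf (nat_lit 0) (nat_lit 238113619045) (nat_lit 152) (nat_lit 23948906536) (nat_lit 0) (nat_lit 87985304790) (nat_lit 4) (nat_lit 5) (nat_lit 6) (nat_lit 4)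 (nat_lit 4) (nat_lit 4) (nat_lit 309) (nat_lit 267) (nat_lit 144))) (XT.nd (nat_lit 78) (nat_lit 0) (nat_lit 0) (XT.lf (nat_lit 0) (nat_lit 21464118594) (nat_lit 76) (nat_lit 252140159604) (nat_lit 76) (nat_lit 102010984276) (nat_lit 3) (nat_lit 4) (nat_lit 4) (nat_lit 5) (nat_lit 4) (nat_lit 4) (nat_lit 310) (nat_lit 267) (nat_lit 143)) (XT.lf (nat_lit 0) (nat_lit 71871643537) (nat_lit 76) (nat_lit 240717030635) (nat_lit 76) (nat_lit 90587058015) (nat_lit 3) (nat_lit 4) (nat_lit 4) (nat_lit 5) (nat_lit 4) (nat_lit 4) (nat_lit 311) (nat_lit 267) (nat_lit 142))))) (XT.nd (nat_lit 234) (nat_lit 76) (nat_lit 0) (XT.nd (nat_lit 78) (nat_lit 0) (nat_lit 0) (XT.lf (nat_lit 0) (nat_lit 126311272573) (nat_lit 76) (nat_lit 228380251603) (nat_lit 76) (nat_lit 78249540751) (nat_lit 3) (nat_lit 4) (nat_lit 4) (nat_lit 5) (nat_lit 4) (nat_lit 4) (nat_lit 312) (nat_lit 267) (nat_lit 141)) (XT.nd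 (nat_lit 78) (nat_lit 0) (nat_lit 0) (XT.lf (nat_lit 0) (nat_lit 185105610913) (nat_lit 76) (nat_lit 215056715669) (nat_lit 76) (nat_lit 64925321269) (nat_lit 3) (nat_lit 4) (nat_lit 4) (nat_lit 5) (nat_lit 4) (nat_lit 4) (nat_lit 313) (nat_lit 267) (nat_lit 140)) (XT.lf (nat_lit 0) (nat_lit 248603069449) (nat_lit 76) (nat_lit 200667468546) (nat_lit 76) (nat_lit 50535441231) (nat_lit 3) (nat_lit 4) (nat_lit 4) (nat_lit 5) (nat_lit 4) (nat_lit 4) (nat_lit 314) (nat_lit 267) (nat_lit 139)))) (XT.nd (nat_lit 156) (nat_lit 76) (nat_lit 0) (XT.nd (nat_lit 78) (nat_lit 0) (nat_lit 0) (XT.lf (nat_lit 0) (nat_lit 317179929418) (nat_lit 76) (nat_lit 185127240622) (nat_lit 76) (nat_lit 34994627274) (nat_lit 3) (nat_lit 4) (nat_lit 4) (nat_lit 5) (nat_lit 4) (nat_lit 4) (nat_lit 315) (nat_lit 267) (nat_lit 138)) (XT.lf (nat_lit 0) (nat_lit 391242572213) (nat_lit 76) (nat_lit 168343941658) (nat_lit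 76) (nat_lit 18210785687) (nat_lit 3) (nat_lit 4) (nat_lit 4) (nat_lit 5) (nat_lit 4) (nat_lit 4) (nat_lit 316) (nat_lit 267) (nat_lit 137))) (XT.nd (nat_lit 78) (nat_lit 76) (nat_lit 0) (XT.lf (nat_lit 0) (nat_lit 471229887567) (nat_lit 76) (nat_lit 150218115066) (nat_lit 76) (nat_lit 84456667) (nat_lit 3) (nat_lit 4) (nat_lit 4) (nat_lit 5) (nat_lit 4) (nat_lit 4) (nat_lit 317) (nat_lit 267) (nat_lit 136)) (XT.lf (nat_lit 0) (nat_lit 18516717537) (nat_lit 152) (nat_lit 111619351132) (nat_lit 76) (nat_lit 538592876978) (nat_lit 2) (nat_lit 5) (nat_lit 4) (nat_lit 5) (nat_lit 3) (nat_lit 4) (nat_lit 318) (nat_lit 267) (nat_lit 135))))))))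
noncomputable def xc98 : XT := (XT.nd (nat_lit 34008) (nat_lit 0) (nat_lit 304) (XT.nd (nat_lit 1014) (nat_lit 0) (nat_lit 0) (XT.nd (nat_lit 468) (nat_lit 0) (nat_lit 0) (XT.nd (nat_lit 234) (nat_lit 0) (nat_lit 0) (XT.nd (nat_lit 78) (nat_lit 76) (nat_lit 0) (XT.lf (nat_lit 0) (nat_lit 38601243732) (nat_lit 152) (nat_lit 69843967399) (nat_lit 76) (nat_lit 611255779489) (nat_lit 2) (nat_lit 5) (nat_lit 4) (nat_lit 5) (nat_lit 3) (nat_lit 4) (nat_lit 319) (nat_lit 267) (nat_lit 134)) (XT.nd (nat_lit 78) (nat_lit 76) (nat_lit 0) (XT.lf (nat_lit 0) (nat_lit 60292366195) (nat_lit 152) (nat_lit 24726831519) (nat_lit 76) (nat_lit 689731615561) (nat_lit 2) (nat_lit 5) (nat_lit 4) (nat_lit 5) (nat_lit 3) (nat_lit 4) (nat_lit 320) (nat_lit 267) (nat_lit 133)) (XT.lf (nat_lit 0) (nat_lit 25263184097) (nat_lit 76) (nat_lit 59063021000) (nat_lit 152) (nat_lit 749829823274) (nat_lit 1) (nat_lit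 5) (nat_lit 2) (nat_lit 5) (nat_lit 3) (nat_lit 4) (nat_lit 321) (nat_lit 267) (nat_lit 132)))) (XT.nd (nat_lit 78) (nat_lit 0) (nat_lit 0) (XT.lf (nat_lit 0) (nat_lit 80658386392) (nat_lit 76) (nat_lit 30300291897) (nat_lit 152) (nat_lit 787300908913) (nat_lit 1) (nat_lit 5) (nat_lit 2) (nat_lit 5) (nat_lit 3) (nat_lit 4) (nat_lit 322) (nat_lit 267) (nat_lit 131)) (XT.nd (nat_lit 78) (nat_lit 0) (nat_lit 0) (XT.lf (nat_lit 0) (nat_lit 139739970927) (nat_lit 152) (nat_lit 827024829092) (nat_lit 0) (nat_lit 725173644) (nat_lit 1) (nat_lit 5) (nat_lit 3) (nat_lit 4) (nat_lit 1) (nat_lit 4) (nat_lit 323) (nat_lit 267) (nat_lit 130)) (XT.lf (nat_lit 0) (nat_lit 171610658345) (nat_lit 152) (nat_lit 837989592372) (nat_lit 0) (nat_lit 32595589616) (nat_lit 1) (nat_lit 5) (nat_lit 3) (nat_lit 4) (nat_lit 1) (nat_lit 4) (nat_lit 324) (nat_lit 267) (nat_lit 129))))) (XT.nd (nat_lit 234) (nat_lit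 0) (nat_lit 0) (XT.nd (nat_lit 78) (nat_lit 0) (nat_lit 0) (XT.lf (nat_lit 0) (nat_lit 206030881129) (nat_lit 152) (nat_lit 849831744276) (nat_lit 0) (nat_lit 67015561060) (nat_lit 1) (nat_lit 5) (nat_lit 3) (nat_lit 4) (nat_lit 1) (nat_lit 4) (nat_lit 325) (nat_lit 267) (nat_lit 128)) (XT.nd (nat_lit 78) (nat_lit 0) (nat_lit 0) (XT.lf (nat_lit 0) (nat_lit 243204610969) (nat_lit 152) (nat_lit 862621460519) (nat_lit 0) (nat_lit 104189058179) (nat_lit 1) (nat_lit 5) (nat_lit 3) (nat_lit 4) (nat_lit 1) (nat_lit 4) (nat_lit 326) (nat_lit 267) (nat_lit 127)) (XT.lf (nat_lit 0) (nat_lit 283352136634) (nat_lit 152) (nat_lit 876434532011) (nat_lit 0) (nat_lit 144336368361) (nat_lit 1) (nat_lit 5) (nat_lit 3) (nat_lit 4) (nat_lit 1) (nat_lit 4) (nat_lit 327) (nat_lit 267) (nat_lit 126)))) (XT.nd (nat_lit 156) (nat_lit 0) (nat_lit 0) (XT.nd (nat_lit 78) (nat_lit 0) (nat_lit 0) (XT.lf (nat_lit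 0) (nat_lit 326711369388) (nat_lit 152) (nat_lit 891352813991) (nat_lit 0) (nat_lit 187695401593) (nat_lit 1) (nat_lit 5) (nat_lit 3) (nat_lit 4) (nat_lit 1) (nat_lit 4) (nat_lit 328) (nat_lit 267) (nat_lit 125)) (XT.lf (nat_lit 0) (nat_lit 373539252831) (nat_lit 152) (nat_lit 907464711094) (nat_lit 0) (nat_lit 234523100295) (nat_lit 1) (nat_lit 5) (nat_lit 3) (nat_lit 4) (nat_lit 1) (nat_lit 4) (nat_lit 329) (nat_lit 267) (nat_lit 124))) (XT.nd (nat_lit 78) (nat_lit 0) (nat_lit 0) (XT.lf (nat_lit 0) (nat_lit 424113285533) (nat_lit 152) (nat_lit 924865701228) (nat_lit 0) (nat_lit 285096961940) (nat_lit 1) (nat_lit 5) (nat_lit 3) (nat_lit 4) (nat_lit 1) (nat_lit 4) (nat_lit 330) (nat_lit 267) (nat_lit 123)) (XT.lf (nat_lit 0) (nat_lit 478733165466) (nat_lit 152) (nat_lit 943658901372) (nat_lit 0) (nat_lit 339716683486) (nat_lit 1) (nat_lit 5) (nat_lit 3) (nat_lit 4) (nat_lit 1) (nat_lit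 4) (nat_lit 331) (nat_lit 267) (nat_lit 122)))))) (XT.nd (nat_lit 468) (nat_lit 0) (nat_lit 0) (XT.nd (nat_lit 234) (nat_lit 0) (nat_lit 0) (XT.nd (nat_lit 78) (nat_lit 0) (nat_lit 0) (XT.lf (nat_lit 0) (nat_lit 537722565991) (nat_lit 152) (nat_lit 963955678636) (nat_lit 0) (nat_lit 398705937357) (nat_lit 1) (nat_lit 5) (nat_lit 3) (nat_lit 4) (nat_lit 1) (nat_lit 4) (nat_lit 332) (nat_lit 267) (nat_lit 121)) (XT.nd (nat_lit 78) (nat_lit 0) (nat_lit 0) (XT.lf (nat_lit 0) (nat_lit 601431053926) (nat_lit 152) (nat_lit 985876310221) (nat_lit 0) (nat_lit 462414289501) (nat_lit 1) (nat_lit 5) (nat_lit 3) (nat_lit 4) (nat_lit 1) (nat_lit 4) (nat_lit 333) (nat_lit 267) (nat_lit 120)) (XT.lf (nat_lit 0) (nat_lit 670236161053) (nat_lit 152) (nat_lit 1009550696166) (nat_lit 0) (nat_lit 531219270896) (nat_lit 1) (nat_lit 5) (nat_lit 3) (nat_lit 4) (nat_lit 1) (nat_lit 4) (nat_lit 334) (nat_lit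 267) (nat_lit 119)))) (XT.nd (nat_lit 78) (nat_lit 0) (nat_lit 0) (XT.lf (nat_lit 0) (nat_lit 744545621339) (nat_lit 152) (nat_lit 1035119129126) (nat_lit 0) (nat_lit 605528614763) (nat_lit 1) (nat_lit 5) (nat_lit 3) (nat_lit 4) (nat_lit 1) (nat_lit 4) (nat_lit 335) (nat_lit 267) (nat_lit 118)) (XT.nd (nat_lit 78) (nat_lit 0) (nat_lit 0) (XT.lf (nat_lit 0) (nat_lit 824799787141) (nat_lit 152) (nat_lit 1062733125744) (nat_lit 0) (nat_lit 685782672770) (nat_lit 1) (nat_lit 5) (nat_lit 3) (nat_lit 4) (nat_lit 1) (nat_lit 4) (nat_lit 336) (nat_lit 267) (nat_lit 117)) (XT.lf (nat_lit 0) (nat_lit 911474238701) (nat_lit 152) (nat_lit 1092556324516) (nat_lit 0) (nat_lit 772457024520) (nat_lit 1) (nat_lit 5) (nat_lit 3) (nat_lit 4) (nat_lit 1) (nat_lit 4) (nat_lit 337) (nat_lit 267) (nat_lit 116))))) (XT.nd (nat_lit 32214) (nat_lit 0) (nat_lit 1976) (XT.nd (nat_lit 32058) (nat_lit 0) (nat_lit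 1976) (XT.lf (nat_lit 0) (nat_lit 1005082602400) (nat_lit 152) (nat_lit 1124765455509) (nat_lit 0) (nat_lit 866065295801) (nat_lit 1) (nat_lit 5) (nat_lit 3) (nat_lit 4) (nat_lit 1) (nat_lit 4) (nat_lit 338) (nat_lit 267) (nat_lit 115)) (XT.nd (nat_lit 78) (nat_lit 0) (nat_lit 0) (XT.lf (nat_lit 0) (nat_lit 7500464486) (nat_lit 0) (nat_lit 7500464486) (nat_lit 380) (nat_lit 2865732250) (nat_lit 27) (nat_lit 5) (nat_lit 27) (nat_lit 3) (nat_lit 32) (nat_lit 3) (nat_lit 268) (nat_lit 268) (nat_lit 184)) (XT.lf (nat_lit 0) (nat_lit 29624746398) (nat_lit 0) (nat_lit 1618975500) (nat_lit 380) (nat_lit 5915106415) (nat_lit 27) (nat_lit 5) (nat_lit 27) (nat_lit 3) (nat_lit 32) (nat_lit 3) (nat_lit 269) (nat_lit 268) (nat_lit 183)))) (XT.nd (nat_lit 156) (nat_lit 0) (nat_lit 76) (XT.nd (nat_lit 78) (nat_lit 0) (nat_lit 0) (XT.lf (nat_lit 76) (nat_lit 6746406696) (nat_lit 0) (nat_lit 26305295624)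 (nat_lit 456) (nat_lit 5609379349) (nat_lit 28) (nat_lit 5) (nat_lit 27) (nat_lit 5) (nat_lit 33) (nat_lit 5) (nat_lit 270) (nat_lit 268) (nat_lit 182)) (XT.lf (nat_lit 76) (nat_lit 22551078892) (nat_lit 0) (nat_lit 12696340279) (nat_lit 456) (nat_lit 5016693107) (nat_lit 28) (nat_lit 5) (nat_lit 27) (nat_lit 5) (nat_lit 33) (nat_lit 5) (nat_lit 271) (nat_lit 268) (nat_lit 181))) (XT.nd (nat_lit 78) (nat_lit 0) (nat_lit 0) (XT.lf (nat_lit 0) (nat_lit 37663360971) (nat_lit 380) (nat_lit 2426031008) (nat_lit 456) (nat_lit 1902469450) (nat_lit 28) (nat_lit 5) (nat_lit 33) (nat_lit 5) (nat_lit 34) (nat_lit 5) (nat_lit 272) (nat_lit 268) (nat_lit 180)) (XT.lf (nat_lit 76) (nat_lit 14475854322) (nat_lit 0) (nat_lit 26471343074) (nat_lit 456) (nat_lit 2856702003) (nat_lit 29) (nat_lit 5) (nat_lit 28) (nat_lit 5) (nat_lit 34) (nat_lit 5) (nat_lit 273) (nat_lit 268) (nat_lit 179))))))) (XT.nd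 (nat_lit 1014) (nat_lit 608) (nat_lit 0) (XT.nd (nat_lit 468) (nat_lit 532) (nat_lit 0) (XT.nd (nat_lit 234) (nat_lit 228) (nat_lit 0) (XT.nd (nat_lit 78) (nat_lit 380) (nat_lit 0) (XT.lf (nat_lit 76) (nat_lit 32865479837) (nat_lit 0) (nat_lit 11691479662) (nat_lit 456) (nat_lit 1198918990) (nat_lit 29) (nat_lit 5) (nat_lit 28) (nat_lit 5) (nat_lit 34) (nat_lit 5) (nat_lit 274) (nat_lit 268) (nat_lit 178)) (XT.nd (nat_lit 78) (nat_lit 0) (nat_lit 0) (XT.lf (nat_lit 0) (nat_lit 787866148) (nat_lit 456) (nat_lit 42858811469) (nat_lit 76) (nat_lit 4198153330) (nat_lit 23) (nat_lit 5) (nat_lit 29) (nat_lit 5) (nat_lit 24) (nat_lit 5) (nat_lit 275) (nat_lit 268) (nat_lit 177)) (XT.lf (nat_lit 0) (nat_lit 3531285256) (nat_lit 456) (nat_lit 25393632492) (nat_lit 76) (nat_lit 21120521725) (nat_lit 23) (nat_lit 5) (nat_lit 29) (nat_lit 5) (nat_lit 24) (nat_lit 5) (nat_lit 276) (nat_lit 268)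 (nat_lit 176)))) (XT.nd (nat_lit 78) (nat_lit 228) (nat_lit 0) (XT.lf (nat_lit 0) (nat_lit 6491574499) (nat_lit 456) (nat_lit 6533644801) (nat_lit 76) (nat_lit 39397111809) (nat_lit 23) (nat_lit 5) (nat_lit 29) (nat_lit 5) (nat_lit 24) (nat_lit 5) (nat_lit 277) (nat_lit 268) (nat_lit 175)) (XT.nd (nat_lit 78) (nat_lit 0) (nat_lit 0) (XT.lf (nat_lit 0) (nat_lit 10145299559) (nat_lit 304) (nat_lit 40509066709) (nat_lit 76) (nat_lit 4298503009) (nat_lit 20) (nat_lit 5) (nat_lit 24) (nat_lit 5) (nat_lit 21) (nat_lit 5) (nat_lit 278) (nat_lit 268) (nat_lit 174)) (XT.lf (nat_lit 0) (nat_lit 14610639991) (nat_lit 304) (nat_lit 20545875611) (nat_lit 76) (nat_lit 22487811930) (nat_lit 20) (nat_lit 5) (nat_lit 24) (nat_lit 5) (nat_lit 21) (nat_lit 5) (nat_lit 279) (nat_lit 268) (nat_lit 173))))) (XT.nd (nat_lit 234) (nat_lit 304) (nat_lit 0) (XT.nd (nat_lit 78) (nat_lit 0) (nat_lit 0) (XT.lf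 (nat_lit 0) (nat_lit 1065467065) (nat_lit 228) (nat_lit 18391252617) (nat_lit 304) (nat_lit 41092522565) (nat_lit 17) (nat_lit 5) (nat_lit 20) (nat_lit 5) (nat_lit 21) (nat_lit 5) (nat_lit 280) (nat_lit 268) (nat_lit 172)) (XT.nd (nat_lit 78) (nat_lit 0) (nat_lit 0) (XT.lf (nat_lit 0) (nat_lit 25257977907) (nat_lit 304) (nat_lit 38077495883) (nat_lit 76) (nat_lit 305696202) (nat_lit 17) (nat_lit 5) (nat_lit 21) (nat_lit 5) (nat_lit 18) (nat_lit 5) (nat_lit 281) (nat_lit 268) (nat_lit 171)) (XT.lf (nat_lit 0) (nat_lit 31999169638) (nat_lit 304) (nat_lit 15438560415) (nat_lit 76) (nat_lit 19504673074) (nat_lit 17) (nat_lit 5) (nat_lit 21) (nat_lit 5) (nat_lit 18) (nat_lit 5) (nat_lit 282) (nat_lit 268) (nat_lit 170)))) (XT.nd (nat_lit 156) (nat_lit 152) (nat_lit 0) (XT.nd (nat_lit 78) (nat_lit 0) (nat_lit 0) (XT.lf (nat_lit 0) (nat_lit 9483922136) (nat_lit 152) (nat_lit 30022099030)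 (nat_lit 228) (nat_lit 30983621073) (nat_lit 15) (nat_lit 5) (nat_lit 17) (nat_lit 5) (nat_lit 18) (nat_lit 5) (nat_lit 283) (nat_lit 268) (nat_lit 169)) (XT.lf (nat_lit 0) (nat_lit 37276266384) (nat_lit 152) (nat_lit 10757628955) (nat_lit 228) (nat_lit 26253142440) (nat_lit 15) (nat_lit 5) (nat_lit 17) (nat_lit 5) (nat_lit 18) (nat_lit 5) (nat_lit 284) (nat_lit 268) (nat_lit 168))) (XT.nd (nat_lit 78) (nat_lit 152) (nat_lit 0) (XT.lf (nat_lit 0) (nat_lit 57484126041) (nat_lit 228) (nat_lit 11339808296) (nat_lit 76) (nat_lit 9545094626) (nat_lit 15) (nat_lit 5) (nat_lit 18) (nat_lit 5) (nat_lit 16) (nat_lit 5) (nat_lit 285) (nat_lit 268) (nat_lit 167)) (XT.lf (nat_lit 0) (nat_lit 16951617303) (nat_lit 152) (nat_lit 51424448803) (nat_lit 228) (nat_lit 14346671148) (nat_lit 13) (nat_lit 5) (nat_lit 15) (nat_lit 5) (nat_lit 16) (nat_lit 5) (nat_lit 286) (nat_lit 268) (nat_lit 166))))))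 (XT.nd (nat_lit 546) (nat_lit 228) (nat_lit 0) (XT.nd (nat_lit 234) (nat_lit 152) (nat_lit 0) (XT.nd (nat_lit 78) (nat_lit 228) (nat_lit 0) (XT.lf (nat_lit 0) (nat_lit 48149522903) (nat_lit 152) (nat_lit 32298537080) (nat_lit 228) (nat_lit 6951998452) (nat_lit 13) (nat_lit 5) (nat_lit 15) (nat_lit 5) (nat_lit 16) (nat_lit 5) (nat_lit 287) (nat_lit 268) (nat_lit 165)) (XT.nd (nat_lit 78) (nat_lit 152) (nat_lit 0) (XT.lf (nat_lit 0) (nat_lit 981215901) (nat_lit 228) (nat_lit 10634866802) (nat_lit 76) (nat_lit 80833606688) (nat_lit 12) (nat_lit 5) (nat_lit 15) (nat_lit 5) (nat_lit 13) (nat_lit 5) (nat_lit 288) (nat_lit 268) (nat_lit 164)) (XT.lf (nat_lit 0) (nat_lit 9956585052) (nat_lit 228) (nat_lit 76978281739) (nat_lit 76) (nat_lit 10891341048) (nat_lit 10) (nat_lit 5) (nat_lit 13) (nat_lit 5) (nat_lit 11) (nat_lit 5) (nat_lit 289) (nat_lit 268) (nat_lit 163)))) (XT.nd (nat_lit 156)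 (nat_lit 152) (nat_lit 0) (XT.nd (nat_lit 78) (nat_lit 0) (nat_lit 0) (XT.lf (nat_lit 0) (nat_lit 20248873020) (nat_lit 228) (nat_lit 48466313649) (nat_lit 76) (nat_lit 34869758855) (nat_lit 10) (nat_lit 5) (nat_lit 13) (nat_lit 5) (nat_lit 11) (nat_lit 5) (nat_lit 290) (nat_lit 268) (nat_lit 162)) (XT.lf (nat_lit 0) (nat_lit 31363473767) (nat_lit 228) (nat_lit 17674884083) (nat_lit 76) (nat_lit 60766118238) (nat_lit 10) (nat_lit 5) (nat_lit 13) (nat_lit 5) (nat_lit 11) (nat_lit 5) (nat_lit 291) (nat_lit 268) (nat_lit 161))) (XT.nd (nat_lit 78) (nat_lit 0) (nat_lit 0) (XT.lf (nat_lit 0) (nat_lit 16398809558) (nat_lit 152) (nat_lit 27361833801) (nat_lit 228) (nat_lit 72729461312) (nat_lit 8) (nat_lit 5) (nat_lit 10) (nat_lit 5) (nat_lit 11) (nat_lit 5) (nat_lit 292) (nat_lit 268) (nat_lit 160)) (XT.lf (nat_lit 0) (nat_lit 54202234919) (nat_lit 152) (nat_lit 3429664208) (nat_lit 228)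 (nat_lit 66040106472) (nat_lit 8) (nat_lit 5) (nat_lit 10) (nat_lit 5) (nat_lit 11) (nat_lit 5) (nat_lit 293) (nat_lit 268) (nat_lit 159))))) (XT.nd (nat_lit 234) (nat_lit 152) (nat_lit 0) (XT.nd (nat_lit 78) (nat_lit 76) (nat_lit 0) (XT.lf (nat_lit 0) (nat_lit 73151098067) (nat_lit 228) (nat_lit 36938973676) (nat_lit 76) (nat_lit 21295333987) (nat_lit 8) (nat_lit 5) (nat_lit 11) (nat_lit 5) (nat_lit 9) (nat_lit 4) (nat_lit 294) (nat_lit 268) (nat_lit 158)) (XT.nd (nat_lit 78) (nat_lit 76) (nat_lit 0) (XT.lf (nat_lit 0) (nat_lit 90000092351) (nat_lit 228) (nat_lit 1896015556) (nat_lit 76) (nat_lit 47812715270) (nat_lit 8) (nat_lit 5) (nat_lit 11) (nat_lit 5) (nat_lit 9) (nat_lit 4) (nat_lit 295) (nat_lit 268) (nat_lit 157)) (XT.lf (nat_lit 0) (nat_lit 37842272912) (nat_lit 76) (nat_lit 71264079025) (nat_lit 152) (nat_lit 39519020032) (nat_lit 7) (nat_lit 5) (nat_lit 8) (nat_lit 5)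 (nat_lit 9) (nat_lit 4) (nat_lit 296) (nat_lit 268) (nat_lit 156)))) (XT.nd (nat_lit 156) (nat_lit 152) (nat_lit 0) (XT.nd (nat_lit 78) (nat_lit 0) (nat_lit 0) (XT.lf (nat_lit 0) (nat_lit 80866351098) (nat_lit 76) (nat_lit 48925869747) (nat_lit 152) (nat_lit 28458940333) (nat_lit 7) (nat_lit 5) (nat_lit 8) (nat_lit 5) (nat_lit 9) (nat_lit 4) (nat_lit 297) (nat_lit 268) (nat_lit 155)) (XT.lf (nat_lit 0) (nat_lit 127331335683) (nat_lit 76) (nat_lit 24800945923) (nat_lit 152) (nat_lit 16514790941) (nat_lit 7) (nat_lit 5) (nat_lit 8) (nat_lit 5) (nat_lit 9) (nat_lit 4) (nat_lit 298) (nat_lit 268) (nat_lit 154))) (XT.nd (nat_lit 78) (nat_lit 152) (nat_lit 0) (XT.lf (nat_lit 0) (nat_lit 176289070198) (nat_lit 152) (nat_lit 2392287185) (nat_lit 0) (nat_lit 1190942059) (nat_lit 7) (nat_lit 5) (nat_lit 9) (nat_lit 4) (nat_lit 7) (nat_lit 4) (nat_lit 299) (nat_lit 268) (nat_lit 153)) (XT.lf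 (nat_lit 0) (nat_lit 11536755409) (nat_lit 152) (nat_lit 151103535882) (nat_lit 76) (nat_lit 29201417131) (nat_lit 5) (nat_lit 5) (nat_lit 7) (nat_lit 5) (nat_lit 6) (nat_lit 4) (nat_lit 300) (nat_lit 268) (nat_lit 152))))))))
noncomputable def xc99 : XT := (XT.nd (nat_lit 2106) (nat_lit 0) (nat_lit 0) (XT.nd (nat_lit 1014) (nat_lit 152) (nat_lit 0) (XT.nd (nat_lit 468) (nat_lit 76) (nat_lit 0) (XT.nd (nat_lit 234) (nat_lit 76) (nat_lit 0) (XT.nd (nat_lit 78) (nat_lit 0) (nat_lit 0) (XT.lf (nat_lit 0) (nat_lit 27739275374) (nat_lit 152) (nat_lit 117404015646) (nat_lit 76) (nat_lit 59612615046) (nat_lit 5) (nat_lit 5) (nat_lit 7) (nat_lit 5) (nat_lit 6) (nat_lit 4) (nat_lit 301) (nat_lit 268) (nat_lit 151)) (XT.nd (nat_lit 78) (nat_lit 0) (nat_lit 0) (XT.lf (nat_lit 0) (nat_lit 45237455892) (nat_lit 152) (nat_lit 81009393955) (nat_lit 76) (nat_lit 92456436231) (nat_lit 5) (nat_lit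 5) (nat_lit 7) (nat_lit 5) (nat_lit 6) (nat_lit 4) (nat_lit 302) (nat_lit 268) (nat_lit 150)) (XT.lf (nat_lit 0) (nat_lit 64134989886) (nat_lit 152) (nat_lit 41703998977) (nat_lit 76) (nat_lit 127927510738) (nat_lit 5) (nat_lit 5) (nat_lit 7) (nat_lit 5) (nat_lit 6) (nat_lit 4) (nat_lit 303) (nat_lit 268) (nat_lit 149)))) (XT.nd (nat_lit 78) (nat_lit 0) (nat_lit 0) (XT.lf (nat_lit 0) (nat_lit 784325273) (nat_lit 76) (nat_lit 83778400511) (nat_lit 152) (nat_lit 165470575296) (nat_lit 4) (nat_lit 5) (nat_lit 5) (nat_lit 5) (nat_lit 6) (nat_lit 4) (nat_lit 304) (nat_lit 268) (nat_lit 148)) (XT.nd (nat_lit 78) (nat_lit 0) (nat_lit 0) (XT.lf (nat_lit 0) (nat_lit 49042740055) (nat_lit 76) (nat_lit 58721754951) (nat_lit 152) (nat_lit 159745769112) (nat_lit 4) (nat_lit 5) (nat_lit 5) (nat_lit 5) (nat_lit 6) (nat_lit 4) (nat_lit 305) (nat_lit 268) (nat_lit 147)) (XT.lf (nat_lit 0) (nat_lit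 101161162482) (nat_lit 76) (nat_lit 31660829596) (nat_lit 152) (nat_lit 153563427624) (nat_lit 4) (nat_lit 5) (nat_lit 5) (nat_lit 5) (nat_lit 6) (nat_lit 4) (nat_lit 306) (nat_lit 268) (nat_lit 146))))) (XT.nd (nat_lit 234) (nat_lit 76) (nat_lit 0) (XT.nd (nat_lit 78) (nat_lit 0) (nat_lit 0) (XT.lf (nat_lit 0) (nat_lit 157448442462) (nat_lit 76) (nat_lit 2435263407) (nat_lit 152) (nat_lit 146886914734) (nat_lit 4) (nat_lit 5) (nat_lit 5) (nat_lit 5) (nat_lit 6) (nat_lit 4) (nat_lit 307) (nat_lit 268) (nat_lit 145)) (XT.nd (nat_lit 78) (nat_lit 0) (nat_lit 0) (XT.lf (nat_lit 0) (nat_lit 189810534370) (nat_lit 152) (nat_lit 111249066046) (nat_lit 0) (nat_lit 27671025016) (nat_lit 4) (nat_lit 5) (nat_lit 6) (nat_lit 4) (nat_lit 4) (nat_lit 4) (nat_lit 308) (nat_lit 268) (nat_lit 144)) (XT.lf (nat_lit 0) (nat_lit 222194429539) (nat_lit 152) (nat_lit 70193910278) (nat_lit 0) (nat_lit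 60054059110) (nat_lit 4) (nat_lit 5) (nat_lit 6) (nat_lit 4) (nat_lit 4) (nat_lit 4) (nat_lit 309) (nat_lit 268) (nat_lit 143)))) (XT.nd (nat_lit 156) (nat_lit 0) (nat_lit 0) (XT.nd (nat_lit 78) (nat_lit 76) (nat_lit 0) (XT.lf (nat_lit 0) (nat_lit 257168727794) (nat_lit 152) (nat_lit 25854852883) (nat_lit 0) (nat_lit 95027560074) (nat_lit 4) (nat_lit 5) (nat_lit 6) (nat_lit 4) (nat_lit 4) (nat_lit 4) (nat_lit 310) (nat_lit 268) (nat_lit 142)) (XT.lf (nat_lit 0) (nat_lit 23190961949) (nat_lit 76) (nat_lit 272307465481) (nat_lit 76) (nat_lit 110165559529) (nat_lit 3) (nat_lit 4) (nat_lit 4) (nat_lit 5) (nat_lit 4) (nat_lit 4) (nat_lit 311) (nat_lit 268) (nat_lit 141))) (XT.nd (nat_lit 78) (nat_lit 0) (nat_lit 0) (XT.lf (nat_lit 0) (nat_lit 77630369341) (nat_lit 76) (nat_lit 259970775593) (nat_lit 76) (nat_lit 97828186093) (nat_lit 3) (nat_lit 4) (nat_lit 4) (nat_lit 5) (nat_lit 4) (nat_lit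 4) (nat_lit 312) (nat_lit 268) (nat_lit 140)) (XT.lf (nat_lit 0) (nat_lit 136424502455) (nat_lit 76) (nat_lit 246647322201) (nat_lit 76) (nat_lit 84504099785) (nat_lit 3) (nat_lit 4) (nat_lit 4) (nat_lit 5) (nat_lit 4) (nat_lit 4) (nat_lit 313) (nat_lit 268) (nat_lit 139)))))) (XT.nd (nat_lit 546) (nat_lit 76) (nat_lit 0) (XT.nd (nat_lit 234) (nat_lit 76) (nat_lit 0) (XT.nd (nat_lit 78) (nat_lit 0) (nat_lit 0) (XT.lf (nat_lit 0) (nat_lit 199921770967) (nat_lit 76) (nat_lit 232258151506) (nat_lit 76) (nat_lit 70114343057) (nat_lit 3) (nat_lit 4) (nat_lit 4) (nat_lit 5) (nat_lit 4) (nat_lit 4) (nat_lit 314) (nat_lit 268) (nat_lit 138)) (XT.nd (nat_lit 78) (nat_lit 0) (nat_lit 0) (XT.lf (nat_lit 0) (nat_lit 268498454988) (nat_lit 76) (nat_lit 216717994348) (nat_lit 76) (nat_lit 54573643277) (nat_lit 3) (nat_lit 4) (nat_lit 4) (nat_lit 5) (nat_lit 4) (nat_lit 4) (nat_lit 315) (nat_lit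 268) (nat_lit 137)) (XT.lf (nat_lit 0) (nat_lit 342560934867) (nat_lit 76) (nat_lit 199934760907) (nat_lit 76) (nat_lit 37789907408) (nat_lit 3) (nat_lit 4) (nat_lit 4) (nat_lit 5) (nat_lit 4) (nat_lit 4) (nat_lit 316) (nat_lit 268) (nat_lit 136)))) (XT.nd (nat_lit 156) (nat_lit 76) (nat_lit 0) (XT.nd (nat_lit 78) (nat_lit 0) (nat_lit 0) (XT.lf (nat_lit 0) (nat_lit 422548099374) (nat_lit 76) (nat_lit 181808994986) (nat_lit 76) (nat_lit 19663676275) (nat_lit 3) (nat_lit 4) (nat_lit 4) (nat_lit 5) (nat_lit 4) (nat_lit 4) (nat_lit 317) (nat_lit 268) (nat_lit 135)) (XT.lf (nat_lit 0) (nat_lit 508933946521) (nat_lit 76) (nat_lit 162233284638) (nat_lit 76) (nat_lit 87535175) (nat_lit 3) (nat_lit 4) (nat_lit 4) (nat_lit 5) (nat_lit 4) (nat_lit 4) (nat_lit 318) (nat_lit 268) (nat_lit 134))) (XT.nd (nat_lit 78) (nat_lit 0) (nat_lit 0) (XT.lf (nat_lit 0) (nat_lit 20001290158) (nat_lit 152)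 (nat_lit 120543464776) (nat_lit 76) (nat_lit 581682231562) (nat_lit 2) (nat_lit 5) (nat_lit 4) (nat_lit 5) (nat_lit 3) (nat_lit 4) (nat_lit 319) (nat_lit 268) (nat_lit 133)) (XT.lf (nat_lit 0) (nat_lit 41692338802) (nat_lit 152) (nat_lit 75426452896) (nat_lit 76) (nat_lit 660158023724) (nat_lit 2) (nat_lit 5) (nat_lit 4) (nat_lit 5) (nat_lit 3) (nat_lit 4) (nat_lit 320) (nat_lit 268) (nat_lit 132))))) (XT.nd (nat_lit 234) (nat_lit 0) (nat_lit 0) (XT.nd (nat_lit 78) (nat_lit 76) (nat_lit 0) (XT.lf (nat_lit 0) (nat_lit 65118529169) (nat_lit 152) (nat_lit 26700318878) (nat_lit 76) (nat_lit 744911794691) (nat_lit 2) (nat_lit 5) (nat_lit 4) (nat_lit 5) (nat_lit 3) (nat_lit 4) (nat_lit 321) (nat_lit 268) (nat_lit 131)) (XT.nd (nat_lit 78) (nat_lit 0) (nat_lit 0) (XT.lf (nat_lit 0) (nat_lit 27288780033) (nat_lit 76) (nat_lit 63786198908) (nat_lit 152) (nat_lit 809813304814) (nat_lit 1) (nat_lit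 5) (nat_lit 2) (nat_lit 5) (nat_lit 3) (nat_lit 4) (nat_lit 322) (nat_lit 268) (nat_lit 130)) (XT.lf (nat_lit 0) (nat_lit 87115262127) (nat_lit 76) (nat_lit 32722589534) (nat_lit 152) (nat_lit 850282292440) (nat_lit 1) (nat_lit 5) (nat_lit 2) (nat_lit 5) (nat_lit 3) (nat_lit 4) (nat_lit 323) (nat_lit 268) (nat_lit 129)))) (XT.nd (nat_lit 156) (nat_lit 0) (nat_lit 0) (XT.nd (nat_lit 78) (nat_lit 0) (nat_lit 0) (XT.lf (nat_lit 0) (nat_lit 150921502500) (nat_lit 152) (nat_lit 893182765978) (nat_lit 0) (nat_lit 784705487) (nat_lit 1) (nat_lit 5) (nat_lit 3) (nat_lit 4) (nat_lit 1) (nat_lit 4) (nat_lit 324) (nat_lit 268) (nat_lit 128)) (XT.lf (nat_lit 0) (nat_lit 185341672031) (nat_lit 152) (nat_lit 905025010279) (nat_lit 0) (nat_lit 35204642296) (nat_lit 1) (nat_lit 5) (nat_lit 3) (nat_lit 4) (nat_lit 1) (nat_lit 4) (nat_lit 325) (nat_lit 268) (nat_lit 127))) (XT.nd (nat_lit 78) (nat_lit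 0) (nat_lit 0) (XT.lf (nat_lit 0) (nat_lit 222515352562) (nat_lit 152) (nat_lit 917814812074) (nat_lit 0) (nat_lit 72378107344) (nat_lit 1) (nat_lit 5) (nat_lit 3) (nat_lit 4) (nat_lit 1) (nat_lit 4) (nat_lit 326) (nat_lit 268) (nat_lit 126)) (XT.lf (nat_lit 0) (nat_lit 262662832571) (nat_lit 152) (nat_lit 931627962782) (nat_lit 0) (nat_lit 112525387832) (nat_lit 1) (nat_lit 5) (nat_lit 3) (nat_lit 4) (nat_lit 1) (nat_lit 4) (nat_lit 327) (nat_lit 268) (nat_lit 125))))))) (XT.nd (nat_lit 33072) (nat_lit 0) (nat_lit 1064) (XT.nd (nat_lit 468) (nat_lit 0) (nat_lit 0) (XT.nd (nat_lit 234) (nat_lit 0) (nat_lit 0) (XT.nd (nat_lit 78) (nat_lit 0) (nat_lit 0) (XT.lf (nat_lit 0) (nat_lit 306022023051) (nat_lit 152) (nat_lit 946546318111) (nat_lit 0) (nat_lit 155884393569) (nat_lit 1) (nat_lit 5) (nat_lit 3) (nat_lit 4) (nat_lit 1) (nat_lit 4) (nat_lit 328) (nat_lit 268) (nat_lit 124)) (XT.nd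 (nat_lit 78) (nat_lit 0) (nat_lit 0) (XT.lf (nat_lit 0) (nat_lit 352849867351) (nat_lit 152) (nat_lit 962658283129) (nat_lit 0) (nat_lit 202712066813) (nat_lit 1) (nat_lit 5) (nat_lit 3) (nat_lit 4) (nat_lit 1) (nat_lit 4) (nat_lit 329) (nat_lit 268) (nat_lit 123)) (XT.lf (nat_lit 0) (nat_lit 403423863810) (nat_lit 152) (nat_lit 980059336146) (nat_lit 0) (nat_lit 253285904885) (nat_lit 1) (nat_lit 5) (nat_lit 3) (nat_lit 4) (nat_lit 1) (nat_lit 4) (nat_lit 330) (nat_lit 268) (nat_lit 122)))) (XT.nd (nat_lit 78) (nat_lit 0) (nat_lit 0) (XT.lf (nat_lit 0) (nat_lit 458043710184) (nat_lit 152) (nat_lit 998852594516) (nat_lit 0) (nat_lit 307905604605) (nat_lit 1) (nat_lit 5) (nat_lit 3) (nat_lit 4) (nat_lit 1) (nat_lit 4) (nat_lit 331) (nat_lit 268) (nat_lit 121)) (XT.nd (nat_lit 78) (nat_lit 0) (nat_lit 0) (XT.lf (nat_lit 0) (nat_lit 517033079636) (nat_lit 152) (nat_lit 1019149425694)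 (nat_lit 0) (nat_lit 366894838266) (nat_lit 1) (nat_lit 5) (nat_lit 3) (nat_lit 4) (nat_lit 1) (nat_lit 4) (nat_lit 332) (nat_lit 268) (nat_lit 120)) (XT.lf (nat_lit 0) (nat_lit 580741538801) (nat_lit 152) (nat_lit 1041070107198) (nat_lit 0) (nat_lit 430603171699) (nat_lit 1) (nat_lit 5) (nat_lit 3) (nat_lit 4) (nat_lit 1) (nat_lit 4) (nat_lit 333) (nat_lit 268) (nat_lit 119))))) (XT.nd (nat_lit 234) (nat_lit 0) (nat_lit 0) (XT.nd (nat_lit 78) (nat_lit 0) (nat_lit 0) (XT.lf (nat_lit 0) (nat_lit 649546619288) (nat_lit 152) (nat_lit 1064744539364) (nat_lit 0) (nat_lit 499408135767) (nat_lit 1) (nat_lit 5) (nat_lit 3) (nat_lit 4) (nat_lit 1) (nat_lit 4) (nat_lit 334) (nat_lit 268) (nat_lit 118)) (XT.nd (nat_lit 78) (nat_lit 0) (nat_lit 0) (XT.lf (nat_lit 0) (nat_lit 723856054907) (nat_lit 152) (nat_lit 1090313015123) (nat_lit 0) (nat_lit 573717463591) (nat_lit 1) (nat_lit 5) (nat_lit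 3) (nat_lit 4) (nat_lit 1) (nat_lit 4) (nat_lit 335) (nat_lit 268) (nat_lit 117)) (XT.lf (nat_lit 0) (nat_lit 804110197870) (nat_lit 152) (nat_lit 1117927051367) (nat_lit 0) (nat_lit 653971506743) (nat_lit 1) (nat_lit 5) (nat_lit 3) (nat_lit 4) (nat_lit 1) (nat_lit 4) (nat_lit 336) (nat_lit 268) (nat_lit 116)))) (XT.nd (nat_lit 32214) (nat_lit 0) (nat_lit 1976) (XT.nd (nat_lit 78) (nat_lit 0) (nat_lit 0) (XT.lf (nat_lit 0) (nat_lit 890784628282) (nat_lit 152) (nat_lit 1147750286832) (nat_lit 0) (nat_lit 740645844739) (nat_lit 1) (nat_lit 5) (nat_lit 3) (nat_lit 4) (nat_lit 1) (nat_lit 4) (nat_lit 337) (nat_lit 268) (nat_lit 115)) (XT.lf (nat_lit 0) (nat_lit 984392972399) (nat_lit 152) (nat_lit 1179959451800) (nat_lit 0) (nat_lit 834254103285) (nat_lit 1) (nat_lit 5) (nat_lit 3) (nat_lit 4) (nat_lit 1) (nat_lit 4) (nat_lit 338) (nat_lit 268) (nat_lit 114))) (XT.nd (nat_lit 78) (nat_lit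 0) (nat_lit 0) (XT.lf (nat_lit 0) (nat_lit 8120893941) (nat_lit 0) (nat_lit 8120893941) (nat_lit 380) (nat_lit 3050471246) (nat_lit 27) (nat_lit 5) (nat_lit 27) (nat_lit 3) (nat_lit 32) (nat_lit 3) (nat_lit 269) (nat_lit 269) (nat_lit 182)) (XT.lf (nat_lit 0) (nat_lit 32032489621) (nat_lit 0) (nat_lit 1786257052) (nat_lit 380) (nat_lit 6305871253) (nat_lit 27) (nat_lit 5) (nat_lit 27) (nat_lit 3) (nat_lit 32) (nat_lit 3) (nat_lit 270) (nat_lit 269) (nat_lit 181)))))) (XT.nd (nat_lit 546) (nat_lit 608) (nat_lit 0) (XT.nd (nat_lit 234) (nat_lit 304) (nat_lit 0) (XT.nd (nat_lit 78) (nat_lit 0) (nat_lit 0) (XT.lf (nat_lit 76) (nat_lit 7330553473) (nat_lit 0) (nat_lit 28435445167) (nat_lit 456) (nat_lit 5981547038) (nat_lit 28) (nat_lit 5) (nat_lit 27) (nat_lit 5) (nat_lit 33) (nat_lit 5) (nat_lit 271) (nat_lit 269) (nat_lit 180)) (XT.nd (nat_lit 78) (nat_lit 0) (nat_lit 76) (XT.lf (nat_lit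 76) (nat_lit 24396308019) (nat_lit 0) (nat_lit 13735867773) (nat_lit 456) (nat_lit 5347118686) (nat_lit 28) (nat_lit 5) (nat_lit 27) (nat_lit 5) (nat_lit 33) (nat_lit 5) (nat_lit 272) (nat_lit 269) (nat_lit 179)) (XT.lf (nat_lit 0) (nat_lit 40736050413) (nat_lit 380) (nat_lit 2575981567) (nat_lit 456) (nat_lit 2033714520) (nat_lit 28) (nat_lit 5) (nat_lit 33) (nat_lit 5) (nat_lit 34) (nat_lit 5) (nat_lit 273) (nat_lit 269) (nat_lit 178)))) (XT.nd (nat_lit 156) (nat_lit 380) (nat_lit 0) (XT.nd (nat_lit 78) (nat_lit 0) (nat_lit 0) (XT.lf (nat_lit 76) (nat_lit 15676937326) (nat_lit 0) (nat_lit 28602274592) (nat_lit 456) (nat_lit 3023857558) (nat_lit 29) (nat_lit 5) (nat_lit 28) (nat_lit 5) (nat_lit 34) (nat_lit 5) (nat_lit 274) (nat_lit 269) (nat_lit 177)) (XT.lf (nat_lit 76) (nat_lit 35534546611) (nat_lit 0) (nat_lit 12639042545) (nat_lit 456) (nat_lit 1237998616) (nat_lit 29) (nat_lit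 5) (nat_lit 28) (nat_lit 5) (nat_lit 34) (nat_lit 5) (nat_lit 275) (nat_lit 269) (nat_lit 176))) (XT.nd (nat_lit 78) (nat_lit 0) (nat_lit 0) (XT.lf (nat_lit 0) (nat_lit 901686659) (nat_lit 456) (nat_lit 46240583991) (nat_lit 76) (nat_lit 4525573218) (nat_lit 23) (nat_lit 5) (nat_lit 29) (nat_lit 5) (nat_lit 24) (nat_lit 5) (nat_lit 276) (nat_lit 269) (nat_lit 175)) (XT.lf (nat_lit 0) (nat_lit 3860816984) (nat_lit 456) (nat_lit 27381667169) (nat_lit 76) (nat_lit 22802355706) (nat_lit 23) (nat_lit 5) (nat_lit 29) (nat_lit 5) (nat_lit 24) (nat_lit 5) (nat_lit 277) (nat_lit 269) (nat_lit 174))))) (XT.nd (nat_lit 234) (nat_lit 380) (nat_lit 0) (XT.nd (nat_lit 78) (nat_lit 228) (nat_lit 0) (XT.lf (nat_lit 0) (nat_lit 7054445743) (nat_lit 456) (nat_lit 7016099420) (nat_lit 76) (nat_lit 42541651349) (nat_lit 23) (nat_lit 5) (nat_lit 29) (nat_lit 5) (nat_lit 24) (nat_lit 5) (nat_lit 278) (nat_lit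 269) (nat_lit 173)) (XT.nd (nat_lit 78) (nat_lit 0) (nat_lit 0) (XT.lf (nat_lit 0) (nat_lit 10998137260) (nat_lit 304) (nat_lit 43706818474) (nat_lit 76) (nat_lit 4640440928) (nat_lit 20) (nat_lit 5) (nat_lit 24) (nat_lit 5) (nat_lit 21) (nat_lit 5) (nat_lit 279) (nat_lit 269) (nat_lit 172)) (XT.lf (nat_lit 0) (nat_lit 15817652057) (nat_lit 304) (nat_lit 22149755315) (nat_lit 76) (nat_lit 24285038438) (nat_lit 20) (nat_lit 5) (nat_lit 24) (nat_lit 5) (nat_lit 21) (nat_lit 5) (nat_lit 280) (nat_lit 269) (nat_lit 171)))) (XT.nd (nat_lit 156) (nat_lit 152) (nat_lit 0) (XT.nd (nat_lit 78) (nat_lit 0) (nat_lit 0) (XT.lf (nat_lit 0) (nat_lit 1189487424) (nat_lit 228) (nat_lit 19860036700) (nat_lit 304) (nat_lit 44340408881) (nat_lit 17) (nat_lit 5) (nat_lit 20) (nat_lit 5) (nat_lit 21) (nat_lit 5) (nat_lit 281) (nat_lit 269) (nat_lit 170)) (XT.lf (nat_lit 0) (nat_lit 27312252603) (nat_lit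 304) (nat_lit 41084833421) (nat_lit 76) (nat_lit 332365101) (nat_lit 17) (nat_lit 5) (nat_lit 21) (nat_lit 5) (nat_lit 18) (nat_lit 5) (nat_lit 282) (nat_lit 269) (nat_lit 169))) (XT.nd (nat_lit 78) (nat_lit 152) (nat_lit 0) (XT.lf (nat_lit 0) (nat_lit 34590248083) (nat_lit 304) (nat_lit 16637661793) (nat_lit 76) (nat_lit 21067096181) (nat_lit 17) (nat_lit 5) (nat_lit 21) (nat_lit 5) (nat_lit 18) (nat_lit 5) (nat_lit 283) (nat_lit 269) (nat_lit 168)) (XT.lf (nat_lit 0) (nat_lit 10277708389) (nat_lit 152) (nat_lit 32418475811) (nat_lit 228) (nat_lit 33429979235) (nat_lit 15) (nat_lit 5) (nat_lit 17) (nat_lit 5) (nat_lit 18) (nat_lit 5) (nat_lit 284) (nat_lit 269) (nat_lit 167))))))))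
noncomputable def xc100 : XT := (XT.nd (nat_lit 2028) (nat_lit 228) (nat_lit 0) (XT.nd (nat_lit 1014) (nat_lit 228) (nat_lit 0) (XT.nd (nat_lit 468) (nat_lit 228) (nat_lit 0) (XT.nd (nat_lit 234) (nat_lit 228) (nat_lit 0) (XT.nd (nat_lit 78) (nat_lit 152) (nat_lit 0) (XT.lf (nat_lit 0) (nat_lit 40290842215) (nat_lit 152) (nat_lit 11613247473) (nat_lit 228) (nat_lit 28323457239) (nat_lit 15) (nat_lit 5) (nat_lit 17) (nat_lit 5) (nat_lit 18) (nat_lit 5) (nat_lit 285) (nat_lit 269) (nat_lit 166)) (XT.nd (nat_lit 78) (nat_lit 152) (nat_lit 0) (XT.lf (nat_lit 0) (nat_lit 62108414249) (nat_lit 228) (nat_lit 12214763015) (nat_lit 76) (nat_lit 10313093019) (nat_lit 15) (nat_lit 5) (nat_lit 18) (nat_lit 5) (nat_lit 16) (nat_lit 5) (nat_lit 286) (nat_lit 269) (nat_lit 165)) (XT.lf (nat_lit 0) (nat_lit 18339160685) (nat_lit 152) (nat_lit 55531411149) (nat_lit 228) (nat_lit 15467811926) (nat_lit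 13) (nat_lit 5) (nat_lit 15) (nat_lit 5) (nat_lit 16) (nat_lit 5) (nat_lit 287) (nat_lit 269) (nat_lit 164)))) (XT.nd (nat_lit 78) (nat_lit 228) (nat_lit 0) (XT.lf (nat_lit 0) (nat_lit 52030571770) (nat_lit 152) (nat_lit 34875944528) (nat_lit 228) (nat_lit 7483535260) (nat_lit 13) (nat_lit 5) (nat_lit 15) (nat_lit 5) (nat_lit 16) (nat_lit 5) (nat_lit 288) (nat_lit 269) (nat_lit 163)) (XT.nd (nat_lit 78) (nat_lit 152) (nat_lit 0) (XT.lf (nat_lit 0) (nat_lit 1081371805) (nat_lit 228) (nat_lit 11457409479) (nat_lit 76) (nat_lit 87304976845) (nat_lit 12) (nat_lit 5) (nat_lit 15) (nat_lit 5) (nat_lit 13) (nat_lit 5) (nat_lit 289) (nat_lit 269) (nat_lit 162)) (XT.lf (nat_lit 0) (nat_lit 10773992184) (nat_lit 228) (nat_lit 83107358452) (nat_lit 76) (nat_lit 11769122549) (nat_lit 10) (nat_lit 5) (nat_lit 13) (nat_lit 5) (nat_lit 11) (nat_lit 5) (nat_lit 290) (nat_lit 269) (nat_lit 161)))))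 (XT.nd (nat_lit 234) (nat_lit 76) (nat_lit 0) (XT.nd (nat_lit 78) (nat_lit 152) (nat_lit 0) (XT.lf (nat_lit 0) (nat_lit 21888116498) (nat_lit 228) (nat_lit 52316594828) (nat_lit 76) (nat_lit 37665334208) (nat_lit 10) (nat_lit 5) (nat_lit 13) (nat_lit 5) (nat_lit 11) (nat_lit 5) (nat_lit 291) (nat_lit 269) (nat_lit 160)) (XT.nd (nat_lit 78) (nat_lit 152) (nat_lit 0) (XT.lf (nat_lit 0) (nat_lit 33890453184) (nat_lit 228) (nat_lit 19063852669) (nat_lit 76) (nat_lit 65632958295) (nat_lit 10) (nat_lit 5) (nat_lit 13) (nat_lit 5) (nat_lit 11) (nat_lit 5) (nat_lit 292) (nat_lit 269) (nat_lit 159)) (XT.lf (nat_lit 0) (nat_lit 17735102992) (nat_lit 152) (nat_lit 29543553861) (nat_lit 228) (nat_lit 78529155538) (nat_lit 8) (nat_lit 5) (nat_lit 10) (nat_lit 5) (nat_lit 11) (nat_lit 5) (nat_lit 293) (nat_lit 269) (nat_lit 158)))) (XT.nd (nat_lit 156) (nat_lit 76) (nat_lit 0) (XT.nd (nat_lit 78)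 (nat_lit 0) (nat_lit 0) (XT.lf (nat_lit 0) (nat_lit 58560995813) (nat_lit 152) (nat_lit 3697346008) (nat_lit 228) (nat_lit 71306034731) (nat_lit 8) (nat_lit 5) (nat_lit 10) (nat_lit 5) (nat_lit 11) (nat_lit 5) (nat_lit 294) (nat_lit 269) (nat_lit 157)) (XT.lf (nat_lit 0) (nat_lit 79018048589) (nat_lit 228) (nat_lit 39872044655) (nat_lit 76) (nat_lit 23004846455) (nat_lit 8) (nat_lit 5) (nat_lit 11) (nat_lit 5) (nat_lit 9) (nat_lit 4) (nat_lit 295) (nat_lit 269) (nat_lit 156))) (XT.nd (nat_lit 78) (nat_lit 76) (nat_lit 0) (XT.lf (nat_lit 0) (nat_lit 97213861477) (nat_lit 228) (nat_lit 2027282990) (nat_lit 76) (nat_lit 51643182259) (nat_lit 8) (nat_lit 5) (nat_lit 11) (nat_lit 5) (nat_lit 9) (nat_lit 4) (nat_lit 296) (nat_lit 269) (nat_lit 155)) (XT.lf (nat_lit 0) (nat_lit 40889551750) (nat_lit 76) (nat_lit 76958529216) (nat_lit 152) (nat_lit 42666169235) (nat_lit 7) (nat_lit 5) (nat_lit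 8) (nat_lit 5) (nat_lit 9) (nat_lit 4) (nat_lit 297) (nat_lit 269) (nat_lit 154)))))) (XT.nd (nat_lit 468) (nat_lit 76) (nat_lit 0) (XT.nd (nat_lit 234) (nat_lit 152) (nat_lit 0) (XT.nd (nat_lit 78) (nat_lit 0) (nat_lit 0) (XT.lf (nat_lit 0) (nat_lit 87354082339) (nat_lit 76) (nat_lit 52833757723) (nat_lit 152) (nat_lit 30722347782) (nat_lit 7) (nat_lit 5) (nat_lit 8) (nat_lit 5) (nat_lit 9) (nat_lit 4) (nat_lit 298) (nat_lit 269) (nat_lit 153)) (XT.nd (nat_lit 78) (nat_lit 0) (nat_lit 0) (XT.lf (nat_lit 0) (nat_lit 137534901013) (nat_lit 76) (nat_lit 26779297890) (nat_lit 152) (nat_lit 17823652199) (nat_lit 7) (nat_lit 5) (nat_lit 8) (nat_lit 5) (nat_lit 9) (nat_lit 4) (nat_lit 299) (nat_lit 269) (nat_lit 152)) (XT.lf (nat_lit 0) (nat_lit 190402818428) (nat_lit 152) (nat_lit 2567088615) (nat_lit 0) (nat_lit 1291252038) (nat_lit 7) (nat_lit 5) (nat_lit 9) (nat_lit 4) (nat_lit 7) (nat_lit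 4) (nat_lit 300) (nat_lit 269) (nat_lit 151)))) (XT.nd (nat_lit 78) (nat_lit 0) (nat_lit 0) (XT.lf (nat_lit 0) (nat_lit 12470251392) (nat_lit 152) (nat_lit 163175037280) (nat_lit 76) (nat_lit 31542848101) (nat_lit 5) (nat_lit 5) (nat_lit 7) (nat_lit 5) (nat_lit 6) (nat_lit 4) (nat_lit 301) (nat_lit 269) (nat_lit 150)) (XT.nd (nat_lit 78) (nat_lit 0) (nat_lit 0) (XT.lf (nat_lit 0) (nat_lit 29968191062) (nat_lit 152) (nat_lit 126780798497) (nat_lit 76) (nat_lit 64386547954) (nat_lit 5) (nat_lit 5) (nat_lit 7) (nat_lit 5) (nat_lit 6) (nat_lit 4) (nat_lit 302) (nat_lit 269) (nat_lit 149)) (XT.lf (nat_lit 0) (nat_lit 48865502048) (nat_lit 152) (nat_lit 87475758063) (nat_lit 76) (nat_lit 99857510115) (nat_lit 5) (nat_lit 5) (nat_lit 7) (nat_lit 5) (nat_lit 6) (nat_lit 4) (nat_lit 303) (nat_lit 269) (nat_lit 148))))) (XT.nd (nat_lit 234) (nat_lit 0) (nat_lit 0) (XT.nd (nat_lit 78) (nat_lit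 76) (nat_lit 0) (XT.lf (nat_lit 0) (nat_lit 69274168414) (nat_lit 152) (nat_lit 45026997221) (nat_lit 76) (nat_lit 138165932880) (nat_lit 5) (nat_lit 5) (nat_lit 7) (nat_lit 5) (nat_lit 6) (nat_lit 4) (nat_lit 304) (nat_lit 269) (nat_lit 147)) (XT.nd (nat_lit 78) (nat_lit 0) (nat_lit 0) (XT.lf (nat_lit 0) (nat_lit 860055711) (nat_lit 76) (nat_lit 90475759056) (nat_lit 152) (nat_lit 178699457773) (nat_lit 4) (nat_lit 5) (nat_lit 5) (nat_lit 5) (nat_lit 6) (nat_lit 4) (nat_lit 305) (nat_lit 269) (nat_lit 146)) (XT.lf (nat_lit 0) (nat_lit 52978181868) (nat_lit 76) (nat_lit 63414945814) (nat_lit 152) (nat_lit 172517316246) (nat_lit 4) (nat_lit 5) (nat_lit 5) (nat_lit 5) (nat_lit 6) (nat_lit 4) (nat_lit 306) (nat_lit 269) (nat_lit 145)))) (XT.nd (nat_lit 156) (nat_lit 0) (nat_lit 0) (XT.nd (nat_lit 78) (nat_lit 0) (nat_lit 0) (XT.lf (nat_lit 0) (nat_lit 109265187524) (nat_lit 76) (nat_lit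 34189483433) (nat_lit 152) (nat_lit 165840988505) (nat_lit 4) (nat_lit 5) (nat_lit 5) (nat_lit 5) (nat_lit 6) (nat_lit 4) (nat_lit 307) (nat_lit 269) (nat_lit 144)) (XT.lf (nat_lit 0) (nat_lit 170054625307) (nat_lit 76) (nat_lit 2626183988) (nat_lit 152) (nat_lit 158630911128) (nat_lit 4) (nat_lit 5) (nat_lit 5) (nat_lit 5) (nat_lit 6) (nat_lit 4) (nat_lit 308) (nat_lit 269) (nat_lit 143))) (XT.nd (nat_lit 78) (nat_lit 0) (nat_lit 0) (XT.lf (nat_lit 0) (nat_lit 205001396346) (nat_lit 152) (nat_lit 120139025154) (nat_lit 0) (nat_lit 29888137918) (nat_lit 4) (nat_lit 5) (nat_lit 6) (nat_lit 4) (nat_lit 4) (nat_lit 4) (nat_lit 309) (nat_lit 269) (nat_lit 142)) (XT.lf (nat_lit 0) (nat_lit 239975557259) (nat_lit 152) (nat_lit 75800195160) (nat_lit 0) (nat_lit 64861560599) (nat_lit 4) (nat_lit 5) (nat_lit 6) (nat_lit 4) (nat_lit 4) (nat_lit 4) (nat_lit 310) (nat_lit 269) (nat_lit 141)))))))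 (XT.nd (nat_lit 1014) (nat_lit 0) (nat_lit 0) (XT.nd (nat_lit 468) (nat_lit 152) (nat_lit 0) (XT.nd (nat_lit 234) (nat_lit 0) (nat_lit 0) (XT.nd (nat_lit 78) (nat_lit 76) (nat_lit 0) (XT.lf (nat_lit 0) (nat_lit 277747386534) (nat_lit 152) (nat_lit 27914696724) (nat_lit 0) (nat_lit 102632706325) (nat_lit 4) (nat_lit 5) (nat_lit 6) (nat_lit 4) (nat_lit 4) (nat_lit 4) (nat_lit 311) (nat_lit 269) (nat_lit 140)) (XT.nd (nat_lit 78) (nat_lit 0) (nat_lit 0) (XT.lf (nat_lit 0) (nat_lit 25054566981) (nat_lit 76) (nat_lit 294088713190) (nat_lit 76) (nat_lit 118973400066) (nat_lit 3) (nat_lit 4) (nat_lit 4) (nat_lit 5) (nat_lit 4) (nat_lit 4) (nat_lit 312) (nat_lit 269) (nat_lit 139)) (XT.lf (nat_lit 0) (nat_lit 83848510070) (nat_lit 76) (nat_lit 280765336225) (nat_lit 76) (nat_lit 105649437068) (nat_lit 3) (nat_lit 4) (nat_lit 4) (nat_lit 5) (nat_lit 4) (nat_lit 4) (nat_lit 313) (nat_lit 269)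 (nat_lit 138)))) (XT.nd (nat_lit 78) (nat_lit 0) (nat_lit 0) (XT.lf (nat_lit 0) (nat_lit 147345602634) (nat_lit 76) (nat_lit 266376236295) (nat_lit 76) (nat_lit 91259794516) (nat_lit 3) (nat_lit 4) (nat_lit 4) (nat_lit 5) (nat_lit 4) (nat_lit 4) (nat_lit 314) (nat_lit 269) (nat_lit 137)) (XT.nd (nat_lit 78) (nat_lit 0) (nat_lit 0) (XT.lf (nat_lit 0) (nat_lit 215922123740) (nat_lit 76) (nat_lit 250836144661) (nat_lit 76) (nat_lit 75719200453) (nat_lit 3) (nat_lit 4) (nat_lit 4) (nat_lit 5) (nat_lit 4) (nat_lit 4) (nat_lit 315) (nat_lit 269) (nat_lit 136)) (XT.lf (nat_lit 0) (nat_lit 289984452771) (nat_lit 76) (nat_lit 234052971891) (nat_lit 76) (nat_lit 58935562472) (nat_lit 3) (nat_lit 4) (nat_lit 4) (nat_lit 5) (nat_lit 4) (nat_lit 4) (nat_lit 316) (nat_lit 269) (nat_lit 135))))) (XT.nd (nat_lit 234) (nat_lit 152) (nat_lit 0) (XT.nd (nat_lit 78) (nat_lit 0) (nat_lit 0) (XT.lf (nat_lit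 0) (nat_lit 369971477605) (nat_lit 76) (nat_lit 215927262146) (nat_lit 76) (nat_lit 40809421975) (nat_lit 3) (nat_lit 4) (nat_lit 4) (nat_lit 5) (nat_lit 4) (nat_lit 4) (nat_lit 317) (nat_lit 269) (nat_lit 134)) (XT.nd (nat_lit 78) (nat_lit 0) (nat_lit 0) (XT.lf (nat_lit 0) (nat_lit 456357195424) (nat_lit 76) (nat_lit 196351603813) (nat_lit 76) (nat_lit 21233364798) (nat_lit 3) (nat_lit 4) (nat_lit 4) (nat_lit 5) (nat_lit 4) (nat_lit 4) (nat_lit 318) (nat_lit 269) (nat_lit 133)) (XT.lf (nat_lit 0) (nat_lit 549653521595) (nat_lit 76) (nat_lit 175209992991) (nat_lit 76) (nat_lit 91384676) (nat_lit 3) (nat_lit 4) (nat_lit 4) (nat_lit 5) (nat_lit 4) (nat_lit 4) (nat_lit 319) (nat_lit 269) (nat_lit 132)))) (XT.nd (nat_lit 156) (nat_lit 76) (nat_lit 0) (XT.nd (nat_lit 78) (nat_lit 0) (nat_lit 0) (XT.lf (nat_lit 0) (nat_lit 21604167049) (nat_lit 152) (nat_lit 130182282797) (nat_lit 76) (nat_lit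 628218459972) (nat_lit 2) (nat_lit 5) (nat_lit 4) (nat_lit 5) (nat_lit 3) (nat_lit 4) (nat_lit 320) (nat_lit 269) (nat_lit 131)) (XT.lf (nat_lit 0) (nat_lit 45030294127) (nat_lit 152) (nat_lit 81456255089) (nat_lit 76) (nat_lit 712972193293) (nat_lit 2) (nat_lit 5) (nat_lit 4) (nat_lit 5) (nat_lit 3) (nat_lit 4) (nat_lit 321) (nat_lit 269) (nat_lit 130))) (XT.nd (nat_lit 78) (nat_lit 76) (nat_lit 0) (XT.lf (nat_lit 0) (nat_lit 70330389484) (nat_lit 152) (nat_lit 28832349908) (nat_lit 76) (nat_lit 804506152777) (nat_lit 2) (nat_lit 5) (nat_lit 4) (nat_lit 5) (nat_lit 3) (nat_lit 4) (nat_lit 322) (nat_lit 269) (nat_lit 129)) (XT.lf (nat_lit 0) (nat_lit 29475775790) (nat_lit 76) (nat_lit 68887496936) (nat_lit 152) (nat_lit 874595879212) (nat_lit 1) (nat_lit 5) (nat_lit 2) (nat_lit 5) (nat_lit 3) (nat_lit 4) (nat_lit 323) (nat_lit 269) (nat_lit 128)))))) (XT.nd (nat_lit 546) (nat_lit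 0) (nat_lit 0) (XT.nd (nat_lit 234) (nat_lit 0) (nat_lit 0) (XT.nd (nat_lit 78) (nat_lit 0) (nat_lit 0) (XT.lf (nat_lit 0) (nat_lit 94088088054) (nat_lit 76) (nat_lit 35338917174) (nat_lit 152) (nat_lit 918302570291) (nat_lit 1) (nat_lit 5) (nat_lit 2) (nat_lit 5) (nat_lit 3) (nat_lit 4) (nat_lit 324) (nat_lit 269) (nat_lit 127)) (XT.nd (nat_lit 78) (nat_lit 0) (nat_lit 0) (XT.lf (nat_lit 0) (nat_lit 162997223643) (nat_lit 152) (nat_lit 964633915512) (nat_lit 0) (nat_lit 848783325) (nat_lit 1) (nat_lit 5) (nat_lit 3) (nat_lit 4) (nat_lit 1) (nat_lit 4) (nat_lit 325) (nat_lit 269) (nat_lit 126)) (XT.lf (nat_lit 0) (nat_lit 200170858518) (nat_lit 152) (nat_lit 977423796523) (nat_lit 0) (nat_lit 38022218678) (nat_lit 1) (nat_lit 5) (nat_lit 3) (nat_lit 4) (nat_lit 1) (nat_lit 4) (nat_lit 326) (nat_lit 269) (nat_lit 125)))) (XT.nd (nat_lit 156) (nat_lit 0) (nat_lit 0) (XT.nd (nat_lit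 78) (nat_lit 0) (nat_lit 0) (XT.lf (nat_lit 0) (nat_lit 240318296253) (nat_lit 152) (nat_lit 991237020579) (nat_lit 0) (nat_lit 78169471671) (nat_lit 1) (nat_lit 5) (nat_lit 3) (nat_lit 4) (nat_lit 1) (nat_lit 4) (nat_lit 327) (nat_lit 269) (nat_lit 124)) (XT.lf (nat_lit 0) (nat_lit 283677447590) (nat_lit 152) (nat_lit 1006155443823) (nat_lit 0) (nat_lit 121528451951) (nat_lit 1) (nat_lit 5) (nat_lit 3) (nat_lit 4) (nat_lit 1) (nat_lit 4) (nat_lit 328) (nat_lit 269) (nat_lit 123))) (XT.nd (nat_lit 78) (nat_lit 0) (nat_lit 0) (XT.lf (nat_lit 0) (nat_lit 330505255647) (nat_lit 152) (nat_lit 1022267471724) (nat_lit 0) (nat_lit 168356101622) (nat_lit 1) (nat_lit 5) (nat_lit 3) (nat_lit 4) (nat_lit 1) (nat_lit 4) (nat_lit 329) (nat_lit 269) (nat_lit 122)) (XT.lf (nat_lit 0) (nat_lit 381079218548) (nat_lit 152) (nat_lit 1039668582968) (nat_lit 0) (nat_lit 218929917868) (nat_lit 1) (nat_lit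 5) (nat_lit 3) (nat_lit 4) (nat_lit 1) (nat_lit 4) (nat_lit 330) (nat_lit 269) (nat_lit 121))))) (XT.nd (nat_lit 234) (nat_lit 0) (nat_lit 0) (XT.nd (nat_lit 78) (nat_lit 0) (nat_lit 0) (XT.lf (nat_lit 0) (nat_lit 435699033848) (nat_lit 152) (nat_lit 1058461895251) (nat_lit 0) (nat_lit 273549597378) (nat_lit 1) (nat_lit 5) (nat_lit 3) (nat_lit 4) (nat_lit 1) (nat_lit 4) (nat_lit 331) (nat_lit 269) (nat_lit 120)) (XT.nd (nat_lit 78) (nat_lit 0) (nat_lit 0) (XT.lf (nat_lit 0) (nat_lit 494688374530) (nat_lit 152) (nat_lit 1078758776348) (nat_lit 0) (nat_lit 332538812327) (nat_lit 1) (nat_lit 5) (nat_lit 3) (nat_lit 4) (nat_lit 1) (nat_lit 4) (nat_lit 332) (nat_lit 269) (nat_lit 119)) (XT.lf (nat_lit 0) (nat_lit 558396807054) (nat_lit 152) (nat_lit 1100679504074) (nat_lit 0) (nat_lit 396247128433) (nat_lit 1) (nat_lit 5) (nat_lit 3) (nat_lit 4) (nat_lit 1) (nat_lit 4) (nat_lit 333) (nat_lit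 269) (nat_lit 118)))) (XT.nd (nat_lit 156) (nat_lit 0) (nat_lit 0) (XT.nd (nat_lit 78) (nat_lit 0) (nat_lit 0) (XT.lf (nat_lit 0) (nat_lit 627201862875) (nat_lit 152) (nat_lit 1124353979038) (nat_lit 0) (nat_lit 465052076458) (nat_lit 1) (nat_lit 5) (nat_lit 3) (nat_lit 4) (nat_lit 1) (nat_lit 4) (nat_lit 334) (nat_lit 269) (nat_lit 117)) (XT.lf (nat_lit 0) (nat_lit 701511275654) (nat_lit 152) (nat_lit 1149922494424) (nat_lit 0) (nat_lit 539361389428) (nat_lit 1) (nat_lit 5) (nat_lit 3) (nat_lit 4) (nat_lit 1) (nat_lit 4) (nat_lit 335) (nat_lit 269) (nat_lit 116))) (XT.nd (nat_lit 78) (nat_lit 0) (nat_lit 0) (XT.lf (nat_lit 0) (nat_lit 781765397469) (nat_lit 152) (nat_lit 1177536567361) (nat_lit 0) (nat_lit 619615418826) (nat_lit 1) (nat_lit 5) (nat_lit 3) (nat_lit 4) (nat_lit 1) (nat_lit 4) (nat_lit 336) (nat_lit 269) (nat_lit 115)) (XT.lf (nat_lit 0) (nat_lit 868439808301) (nat_lit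 152) (nat_lit 1207359836800) (nat_lit 0) (nat_lit 706289744086) (nat_lit 1) (nat_lit 5) (nat_lit 3) (nat_lit 4) (nat_lit 1) (nat_lit 4) (nat_lit 337) (nat_lit 269) (nat_lit 114))))))))
noncomputable def xc101 : XT := (XT.nd (nat_lit 34242) (nat_lit 0) (nat_lit 76) (XT.nd (nat_lit 33150) (nat_lit 0) (nat_lit 532) (XT.nd (nat_lit 32604) (nat_lit 0) (nat_lit 1444) (XT.nd (nat_lit 32370) (nat_lit 0) (nat_lit 1976) (XT.nd (nat_lit 32214) (nat_lit 0) (nat_lit 1976) (XT.lf (nat_lit 0) (nat_lit 962048134287) (nat_lit 152) (nat_lit 1239569033225) (nat_lit 0) (nat_lit 799897990840) (nat_lit 1) (nat_lit 5) (nat_lit 3) (nat_lit 4) (nat_lit 1) (nat_lit 4) (nat_lit 338) (nat_lit 269) (nat_lit 113)) (XT.nd (nat_lit 78) (nat_lit 0) (nat_lit 0) (XT.lf (nat_lit 0) (nat_lit 8788048564) (nat_lit 0) (nat_lit 8788048564) (nat_lit 380) (nat_lit 3256340577) (nat_lit 27) (nat_lit 5) (nat_lit 27) (nat_lit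 3) (nat_lit 32) (nat_lit 3) (nat_lit 270) (nat_lit 270) (nat_lit 180)) (XT.lf (nat_lit 0) (nat_lit 34627464915) (nat_lit 0) (nat_lit 1961533740) (nat_lit 380) (nat_lit 6739658790) (nat_lit 27) (nat_lit 5) (nat_lit 27) (nat_lit 3) (nat_lit 32) (nat_lit 3) (nat_lit 271) (nat_lit 270) (nat_lit 179)))) (XT.nd (nat_lit 78) (nat_lit 0) (nat_lit 0) (XT.lf (nat_lit 76) (nat_lit 7955092950) (nat_lit 0) (nat_lit 30732336588) (nat_lit 456) (nat_lit 6394413515) (nat_lit 28) (nat_lit 5) (nat_lit 27) (nat_lit 5) (nat_lit 33) (nat_lit 5) (nat_lit 272) (nat_lit 270) (nat_lit 178)) (XT.nd (nat_lit 78) (nat_lit 0) (nat_lit 76) (XT.lf (nat_lit 76) (nat_lit 26383285994) (nat_lit 0) (nat_lit 14855159238) (nat_lit 456) (nat_lit 5714094397) (nat_lit 28) (nat_lit 5) (nat_lit 27) (nat_lit 5) (nat_lit 33) (nat_lit 5) (nat_lit 273) (nat_lit 270) (nat_lit 177)) (XT.lf (nat_lit 0) (nat_lit 44046049470) (nat_lit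 380) (nat_lit 2744224082) (nat_lit 456) (nat_lit 2178448301) (nat_lit 28) (nat_lit 5) (nat_lit 33) (nat_lit 5) (nat_lit 34) (nat_lit 5) (nat_lit 274) (nat_lit 270) (nat_lit 176))))) (XT.nd (nat_lit 234) (nat_lit 228) (nat_lit 0) (XT.nd (nat_lit 78) (nat_lit 380) (nat_lit 0) (XT.lf (nat_lit 76) (nat_lit 16967970449) (nat_lit 0) (nat_lit 30901794069) (nat_lit 456) (nat_lit 3213142187) (nat_lit 29) (nat_lit 5) (nat_lit 28) (nat_lit 5) (nat_lit 34) (nat_lit 5) (nat_lit 275) (nat_lit 270) (nat_lit 175)) (XT.nd (nat_lit 78) (nat_lit 380) (nat_lit 0) (XT.lf (nat_lit 76) (nat_lit 38411456763) (nat_lit 0) (nat_lit 13660663643) (nat_lit 456) (nat_lit 1288312602) (nat_lit 29) (nat_lit 5) (nat_lit 28) (nat_lit 5) (nat_lit 34) (nat_lit 5) (nat_lit 276) (nat_lit 270) (nat_lit 174)) (XT.lf (nat_lit 0) (nat_lit 1017366876) (nat_lit 456) (nat_lit 49899593745) (nat_lit 76) (nat_lit 4880389671) (nat_lit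 23) (nat_lit 5) (nat_lit 29) (nat_lit 5) (nat_lit 24) (nat_lit 5) (nat_lit 277) (nat_lit 270) (nat_lit 173)))) (XT.nd (nat_lit 156) (nat_lit 228) (nat_lit 0) (XT.nd (nat_lit 78) (nat_lit 0) (nat_lit 0) (XT.lf (nat_lit 0) (nat_lit 4210002050) (nat_lit 456) (nat_lit 29534944094) (nat_lit 76) (nat_lit 24619850269) (nat_lit 23) (nat_lit 5) (nat_lit 29) (nat_lit 5) (nat_lit 24) (nat_lit 5) (nat_lit 278) (nat_lit 270) (nat_lit 172)) (XT.lf (nat_lit 0) (nat_lit 7656134465) (nat_lit 456) (nat_lit 7542890661) (nat_lit 76) (nat_lit 45938785407) (nat_lit 23) (nat_lit 5) (nat_lit 29) (nat_lit 5) (nat_lit 24) (nat_lit 5) (nat_lit 279) (nat_lit 270) (nat_lit 171))) (XT.nd (nat_lit 78) (nat_lit 0) (nat_lit 0) (XT.lf (nat_lit 0) (nat_lit 11913322377) (nat_lit 304) (nat_lit 47166521041) (nat_lit 76) (nat_lit 5010010974) (nat_lit 20) (nat_lit 5) (nat_lit 24) (nat_lit 5) (nat_lit 21) (nat_lit 5) (nat_lit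 280) (nat_lit 270) (nat_lit 170)) (XT.lf (nat_lit 0) (nat_lit 17115781014) (nat_lit 304) (nat_lit 23887621934) (nat_lit 76) (nat_lit 26226299636) (nat_lit 20) (nat_lit 5) (nat_lit 24) (nat_lit 5) (nat_lit 21) (nat_lit 5) (nat_lit 281) (nat_lit 270) (nat_lit 169)))))) (XT.nd (nat_lit 546) (nat_lit 380) (nat_lit 0) (XT.nd (nat_lit 234) (nat_lit 304) (nat_lit 0) (XT.nd (nat_lit 78) (nat_lit 0) (nat_lit 0) (XT.lf (nat_lit 0) (nat_lit 1317896584) (nat_lit 228) (nat_lit 21446682464) (nat_lit 304) (nat_lit 47853763428) (nat_lit 17) (nat_lit 5) (nat_lit 20) (nat_lit 5) (nat_lit 21) (nat_lit 5) (nat_lit 282) (nat_lit 270) (nat_lit 168)) (XT.nd (nat_lit 78) (nat_lit 0) (nat_lit 0) (XT.lf (nat_lit 0) (nat_lit 29526070658) (nat_lit 304) (nat_lit 44338302081) (nat_lit 76) (nat_lit 360851773) (nat_lit 17) (nat_lit 5) (nat_lit 21) (nat_lit 5) (nat_lit 18) (nat_lit 5) (nat_lit 283) (nat_lit 270)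 (nat_lit 167)) (XT.lf (nat_lit 0) (nat_lit 37384169639) (nat_lit 304) (nat_lit 17937824723) (nat_lit 76) (nat_lit 22754220787) (nat_lit 17) (nat_lit 5) (nat_lit 21) (nat_lit 5) (nat_lit 18) (nat_lit 5) (nat_lit 284) (nat_lit 270) (nat_lit 166)))) (XT.nd (nat_lit 156) (nat_lit 152) (nat_lit 0) (XT.nd (nat_lit 78) (nat_lit 0) (nat_lit 0) (XT.lf (nat_lit 0) (nat_lit 11129994060) (nat_lit 152) (nat_lit 35007331841) (nat_lit 228) (nat_lit 36076658504) (nat_lit 15) (nat_lit 5) (nat_lit 17) (nat_lit 5) (nat_lit 18) (nat_lit 5) (nat_lit 285) (nat_lit 270) (nat_lit 165)) (XT.lf (nat_lit 0) (nat_lit 43541951260) (nat_lit 152) (nat_lit 12538027609) (nat_lit 228) (nat_lit 30563668013) (nat_lit 15) (nat_lit 5) (nat_lit 17) (nat_lit 5) (nat_lit 18) (nat_lit 5) (nat_lit 286) (nat_lit 270) (nat_lit 164))) (XT.nd (nat_lit 78) (nat_lit 152) (nat_lit 0) (XT.lf (nat_lit 0) (nat_lit 67098999362) (nat_lit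 228) (nat_lit 13164312073) (nat_lit 76) (nat_lit 11141904883) (nat_lit 15) (nat_lit 5) (nat_lit 18) (nat_lit 5) (nat_lit 16) (nat_lit 5) (nat_lit 287) (nat_lit 270) (nat_lit 163)) (XT.lf (nat_lit 0) (nat_lit 19833225979) (nat_lit 152) (nat_lit 59967928191) (nat_lit 228) (nat_lit 16682437743) (nat_lit 13) (nat_lit 5) (nat_lit 15) (nat_lit 5) (nat_lit 16) (nat_lit 5) (nat_lit 288) (nat_lit 270) (nat_lit 162))))) (XT.nd (nat_lit 234) (nat_lit 152) (nat_lit 0) (XT.nd (nat_lit 78) (nat_lit 228) (nat_lit 0) (XT.lf (nat_lit 0) (nat_lit 56217954956) (nat_lit 152) (nat_lit 37660468378) (nat_lit 228) (nat_lit 8061107768) (nat_lit 13) (nat_lit 5) (nat_lit 15) (nat_lit 5) (nat_lit 16) (nat_lit 5) (nat_lit 289) (nat_lit 270) (nat_lit 161)) (XT.nd (nat_lit 78) (nat_lit 152) (nat_lit 0) (XT.lf (nat_lit 0) (nat_lit 1186450336) (nat_lit 228) (nat_lit 12349785273) (nat_lit 76) (nat_lit 94293388728)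 (nat_lit 12) (nat_lit 5) (nat_lit 15) (nat_lit 5) (nat_lit 13) (nat_lit 5) (nat_lit 290) (nat_lit 270) (nat_lit 160)) (XT.lf (nat_lit 0) (nat_lit 11653813074) (nat_lit 228) (nat_lit 89730924987) (nat_lit 76) (nat_lit 12716202951) (nat_lit 10) (nat_lit 5) (nat_lit 13) (nat_lit 5) (nat_lit 11) (nat_lit 5) (nat_lit 291) (nat_lit 270) (nat_lit 159)))) (XT.nd (nat_lit 156) (nat_lit 152) (nat_lit 0) (XT.nd (nat_lit 78) (nat_lit 0) (nat_lit 0) (XT.lf (nat_lit 0) (nat_lit 23655741296) (nat_lit 228) (nat_lit 56478753765) (nat_lit 76) (nat_lit 40683700388) (nat_lit 10) (nat_lit 5) (nat_lit 13) (nat_lit 5) (nat_lit 11) (nat_lit 5) (nat_lit 292) (nat_lit 270) (nat_lit 158)) (XT.lf (nat_lit 0) (nat_lit 36617037103) (nat_lit 228) (nat_lit 20567508429) (nat_lit 76) (nat_lit 70888353701) (nat_lit 10) (nat_lit 5) (nat_lit 13) (nat_lit 5) (nat_lit 11) (nat_lit 5) (nat_lit 293) (nat_lit 270) (nat_lit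 157))) (XT.nd (nat_lit 78) (nat_lit 0) (nat_lit 0) (XT.lf (nat_lit 0) (nat_lit 19174820584) (nat_lit 152) (nat_lit 31900842488) (nat_lit 228) (nat_lit 84795487742) (nat_lit 8) (nat_lit 5) (nat_lit 10) (nat_lit 5) (nat_lit 11) (nat_lit 5) (nat_lit 294) (nat_lit 270) (nat_lit 156)) (XT.lf (nat_lit 0) (nat_lit 63265235991) (nat_lit 152) (nat_lit 3987396946) (nat_lit 228) (nat_lit 76995702474) (nat_lit 8) (nat_lit 5) (nat_lit 10) (nat_lit 5) (nat_lit 11) (nat_lit 5) (nat_lit 295) (nat_lit 270) (nat_lit 155))))))) (XT.nd (nat_lit 1014) (nat_lit 152) (nat_lit 0) (XT.nd (nat_lit 468) (nat_lit 228) (nat_lit 0) (XT.nd (nat_lit 234) (nat_lit 0) (nat_lit 0) (XT.nd (nat_lit 78) (nat_lit 76) (nat_lit 0) (XT.lf (nat_lit 0) (nat_lit 85352234827) (nat_lit 228) (nat_lit 43042906551) (nat_lit 76) (nat_lit 24850280253) (nat_lit 8) (nat_lit 5) (nat_lit 11) (nat_lit 5) (nat_lit 9) (nat_lit 4) (nat_lit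 296) (nat_lit 270) (nat_lit 154)) (XT.nd (nat_lit 78) (nat_lit 76) (nat_lit 0) (XT.lf (nat_lit 0) (nat_lit 105002768867) (nat_lit 228) (nat_lit 2171964077) (nat_lit 76) (nat_lit 55779309138) (nat_lit 8) (nat_lit 5) (nat_lit 11) (nat_lit 5) (nat_lit 9) (nat_lit 4) (nat_lit 297) (nat_lit 270) (nat_lit 153)) (XT.lf (nat_lit 0) (nat_lit 44177774365) (nat_lit 76) (nat_lit 83109487847) (nat_lit 152) (nat_lit 46067140757) (nat_lit 7) (nat_lit 5) (nat_lit 8) (nat_lit 5) (nat_lit 9) (nat_lit 4) (nat_lit 298) (nat_lit 270) (nat_lit 152)))) (XT.nd (nat_lit 78) (nat_lit 0) (nat_lit 0) (XT.lf (nat_lit 0) (nat_lit 94358203810) (nat_lit 76) (nat_lit 57055158613) (nat_lit 152) (nat_lit 33168726330) (nat_lit 7) (nat_lit 5) (nat_lit 8) (nat_lit 5) (nat_lit 9) (nat_lit 4) (nat_lit 299) (nat_lit 270) (nat_lit 151)) (XT.nd (nat_lit 78) (nat_lit 0) (nat_lit 0) (XT.lf (nat_lit 0) (nat_lit 148552317986)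 (nat_lit 76) (nat_lit 28916734565) (nat_lit 152) (nat_lit 19238980232) (nat_lit 7) (nat_lit 5) (nat_lit 8) (nat_lit 5) (nat_lit 9) (nat_lit 4) (nat_lit 300) (nat_lit 270) (nat_lit 150)) (XT.lf (nat_lit 0) (nat_lit 205644151081) (nat_lit 152) (nat_lit 2758239703) (nat_lit 0) (nat_lit 1398868572) (nat_lit 7) (nat_lit 5) (nat_lit 9) (nat_lit 4) (nat_lit 7) (nat_lit 4) (nat_lit 301) (nat_lit 270) (nat_lit 149))))) (XT.nd (nat_lit 234) (nat_lit 76) (nat_lit 0) (XT.nd (nat_lit 78) (nat_lit 0) (nat_lit 0) (XT.lf (nat_lit 0) (nat_lit 13476921188) (nat_lit 152) (nat_lit 176214652854) (nat_lit 76) (nat_lit 34070834934) (nat_lit 5) (nat_lit 5) (nat_lit 7) (nat_lit 5) (nat_lit 6) (nat_lit 4) (nat_lit 302) (nat_lit 270) (nat_lit 148)) (XT.nd (nat_lit 78) (nat_lit 0) (nat_lit 0) (XT.lf (nat_lit 0) (nat_lit 32374025684) (nat_lit 152) (nat_lit 136909940703) (nat_lit 76) (nat_lit 69541693072) (nat_lit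 5) (nat_lit 5) (nat_lit 7) (nat_lit 5) (nat_lit 6) (nat_lit 4) (nat_lit 303) (nat_lit 270) (nat_lit 147)) (XT.lf (nat_lit 0) (nat_lit 52782500857) (nat_lit 152) (nat_lit 94461483825) (nat_lit 76) (nat_lit 107850019519) (nat_lit 5) (nat_lit 5) (nat_lit 7) (nat_lit 5) (nat_lit 6) (nat_lit 4) (nat_lit 304) (nat_lit 270) (nat_lit 146)))) (XT.nd (nat_lit 156) (nat_lit 0) (nat_lit 0) (XT.nd (nat_lit 78) (nat_lit 76) (nat_lit 0) (XT.lf (nat_lit 0) (nat_lit 74823285818) (nat_lit 152) (nat_lit 48617735811) (nat_lit 76) (nat_lit 149222826580) (nat_lit 5) (nat_lit 5) (nat_lit 7) (nat_lit 5) (nat_lit 6) (nat_lit 4) (nat_lit 305) (nat_lit 270) (nat_lit 145)) (XT.lf (nat_lit 0) (nat_lit 939992212) (nat_lit 76) (nat_lit 97709607250) (nat_lit 152) (nat_lit 192987901067) (nat_lit 4) (nat_lit 5) (nat_lit 5) (nat_lit 5) (nat_lit 6) (nat_lit 4) (nat_lit 306) (nat_lit 270) (nat_lit 144))) (XT.nd (nat_lit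 78) (nat_lit 0) (nat_lit 0) (XT.lf (nat_lit 0) (nat_lit 57226743866) (nat_lit 76) (nat_lit 68484240988) (nat_lit 152) (nat_lit 186311744760) (nat_lit 4) (nat_lit 5) (nat_lit 5) (nat_lit 5) (nat_lit 6) (nat_lit 4) (nat_lit 307) (nat_lit 270) (nat_lit 143)) (XT.lf (nat_lit 0) (nat_lit 118015946460) (nat_lit 76) (nat_lit 36921030541) (nat_lit 152) (nat_lit 179101826118) (nat_lit 4) (nat_lit 5) (nat_lit 5) (nat_lit 5) (nat_lit 6) (nat_lit 4) (nat_lit 308) (nat_lit 270) (nat_lit 142)))))) (XT.nd (nat_lit 546) (nat_lit 76) (nat_lit 0) (XT.nd (nat_lit 234) (nat_lit 76) (nat_lit 0) (XT.nd (nat_lit 78) (nat_lit 0) (nat_lit 0) (XT.lf (nat_lit 0) (nat_lit 183667832307) (nat_lit 76) (nat_lit 2832934664) (nat_lit 152) (nat_lit 171315419696) (nat_lit 4) (nat_lit 5) (nat_lit 5) (nat_lit 5) (nat_lit 6) (nat_lit 4) (nat_lit 309) (nat_lit 270) (nat_lit 141)) (XT.nd (nat_lit 78) (nat_lit 0) (nat_lit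 0) (XT.lf (nat_lit 0) (nat_lit 221406668570) (nat_lit 152) (nat_lit 129741602777) (nat_lit 0) (nat_lit 32282130396) (nat_lit 4) (nat_lit 5) (nat_lit 6) (nat_lit 4) (nat_lit 4) (nat_lit 4) (nat_lit 310) (nat_lit 270) (nat_lit 140)) (XT.lf (nat_lit 0) (nat_lit 259178380096) (nat_lit 152) (nat_lit 81856299301) (nat_lit 0) (nat_lit 70053209006) (nat_lit 4) (nat_lit 5) (nat_lit 6) (nat_lit 4) (nat_lit 4) (nat_lit 4) (nat_lit 311) (nat_lit 270) (nat_lit 139)))) (XT.nd (nat_lit 156) (nat_lit 0) (nat_lit 0) (XT.nd (nat_lit 78) (nat_lit 76) (nat_lit 0) (XT.lf (nat_lit 0) (nat_lit 299971601767) (nat_lit 152) (nat_lit 30140547025) (nat_lit 0) (nat_lit 110845844646) (nat_lit 4) (nat_lit 5) (nat_lit 6) (nat_lit 4) (nat_lit 4) (nat_lit 4) (nat_lit 312) (nat_lit 270) (nat_lit 138)) (XT.lf (nat_lit 0) (nat_lit 27066072322) (nat_lit 76) (nat_lit 317612938563) (nat_lit 76) (nat_lit 128486638819) (nat_lit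 3) (nat_lit 4) (nat_lit 4) (nat_lit 5) (nat_lit 4) (nat_lit 4) (nat_lit 313) (nat_lit 270) (nat_lit 137))) (XT.nd (nat_lit 78) (nat_lit 0) (nat_lit 0) (XT.lf (nat_lit 0) (nat_lit 90563001971) (nat_lit 76) (nat_lit 303223904158) (nat_lit 76) (nat_lit 114097101985) (nat_lit 3) (nat_lit 4) (nat_lit 4) (nat_lit 5) (nat_lit 4) (nat_lit 4) (nat_lit 314) (nat_lit 270) (nat_lit 136)) (XT.lf (nat_lit 0) (nat_lit 159139372229) (nat_lit 76) (nat_lit 287683873194) (nat_lit 76) (nat_lit 98556605810) (nat_lit 3) (nat_lit 4) (nat_lit 4) (nat_lit 5) (nat_lit 4) (nat_lit 4) (nat_lit 315) (nat_lit 270) (nat_lit 135))))) (XT.nd (nat_lit 234) (nat_lit 76) (nat_lit 0) (XT.nd (nat_lit 78) (nat_lit 0) (nat_lit 0) (XT.lf (nat_lit 0) (nat_lit 233201561587) (nat_lit 76) (nat_lit 270900756601) (nat_lit 76) (nat_lit 81773058465) (nat_lit 3) (nat_lit 4) (nat_lit 4) (nat_lit 5) (nat_lit 4) (nat_lit 4) (nat_lit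 316) (nat_lit 270) (nat_lit 134)) (XT.nd (nat_lit 78) (nat_lit 0) (nat_lit 0) (XT.lf (nat_lit 0) (nat_lit 313188457094) (nat_lit 76) (nat_lit 252775098871) (nat_lit 76) (nat_lit 63647001891) (nat_lit 3) (nat_lit 4) (nat_lit 4) (nat_lit 5) (nat_lit 4) (nat_lit 4) (nat_lit 317) (nat_lit 270) (nat_lit 133)) (XT.lf (nat_lit 0) (nat_lit 399574055166) (nat_lit 76) (nat_lit 233199488700) (nat_lit 76) (nat_lit 44071022420) (nat_lit 3) (nat_lit 4) (nat_lit 4) (nat_lit 5) (nat_lit 4) (nat_lit 4) (nat_lit 318) (nat_lit 270) (nat_lit 132)))) (XT.nd (nat_lit 156) (nat_lit 76) (nat_lit 0) (XT.nd (nat_lit 78) (nat_lit 0) (nat_lit 0) (XT.lf (nat_lit 0) (nat_lit 492870270459) (nat_lit 76) (nat_lit 212057922472) (nat_lit 76) (nat_lit 22929114247) (nat_lit 3) (nat_lit 4) (nat_lit 4) (nat_lit 5) (nat_lit 4) (nat_lit 4) (nat_lit 319) (nat_lit 270) (nat_lit 131)) (XT.lf (nat_lit 0) (nat_lit 593629969434)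 (nat_lit 76) (nat_lit 189225116831) (nat_lit 76) (nat_lit 95991991) (nat_lit 3) (nat_lit 4) (nat_lit 4) (nat_lit 5) (nat_lit 4) (nat_lit 4) (nat_lit 320) (nat_lit 270) (nat_lit 130))) (XT.nd (nat_lit 78) (nat_lit 0) (nat_lit 0) (XT.lf (nat_lit 0) (nat_lit 23334878394) (nat_lit 152) (nat_lit 140592870940) (nat_lit 76) (nat_lit 678477351280) (nat_lit 2) (nat_lit 5) (nat_lit 4) (nat_lit 5) (nat_lit 3) (nat_lit 4) (nat_lit 321) (nat_lit 270) (nat_lit 129)) (XT.lf (nat_lit 0) (nat_lit 48634919492) (nat_lit 152) (nat_lit 87969056903) (nat_lit 76) (nat_lit 770011278488) (nat_lit 2) (nat_lit 5) (nat_lit 4) (nat_lit 5) (nat_lit 3) (nat_lit 4) (nat_lit 322) (nat_lit 270) (nat_lit 128))))))))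
noncomputable def xc102 : XT := (XT.nd (nat_lit 34398) (nat_lit 0) (nat_lit 228) (XT.nd (nat_lit 1014) (nat_lit 0) (nat_lit 0) (XT.nd (nat_lit 468) (nat_lit 0) (nat_lit 0) (XT.nd (nat_lit 234) (nat_lit 0) (nat_lit 0) (XT.nd (nat_lit 78) (nat_lit 76) (nat_lit 0) (XT.lf (nat_lit 0) (nat_lit 75958859379) (nat_lit 152) (nat_lit 31135513278) (nat_lit 76) (nat_lit 868867857714) (nat_lit 2) (nat_lit 5) (nat_lit 4) (nat_lit 5) (nat_lit 3) (nat_lit 4) (nat_lit 323) (nat_lit 270) (nat_lit 127)) (XT.nd (nat_lit 78) (nat_lit 0) (nat_lit 0) (XT.lf (nat_lit 0) (nat_lit 31837175778) (nat_lit 76) (nat_lit 74397126763) (nat_lit 152) (nat_lit 944561414787) (nat_lit 1) (nat_lit 5) (nat_lit 2) (nat_lit 5) (nat_lit 3) (nat_lit 4) (nat_lit 324) (nat_lit 270) (nat_lit 126)) (XT.lf (nat_lit 0) (nat_lit 101618225769) (nat_lit 76) (nat_lit 38164762096) (nat_lit 152) (nat_lit 991764799282) (nat_lit 1) (nat_lit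 5) (nat_lit 2) (nat_lit 5) (nat_lit 3) (nat_lit 4) (nat_lit 325) (nat_lit 270) (nat_lit 125)))) (XT.nd (nat_lit 78) (nat_lit 0) (nat_lit 0) (XT.lf (nat_lit 0) (nat_lit 176038717020) (nat_lit 152) (nat_lit 1041801652292) (nat_lit 0) (nat_lit 917801730) (nat_lit 1) (nat_lit 5) (nat_lit 3) (nat_lit 4) (nat_lit 1) (nat_lit 4) (nat_lit 326) (nat_lit 270) (nat_lit 124)) (XT.nd (nat_lit 78) (nat_lit 0) (nat_lit 0) (XT.lf (nat_lit 0) (nat_lit 216186115612) (nat_lit 152) (nat_lit 1055614944263) (nat_lit 0) (nat_lit 41065029265) (nat_lit 1) (nat_lit 5) (nat_lit 3) (nat_lit 4) (nat_lit 1) (nat_lit 4) (nat_lit 327) (nat_lit 270) (nat_lit 123)) (XT.lf (nat_lit 0) (nat_lit 259545230706) (nat_lit 152) (nat_lit 1070533430390) (nat_lit 0) (nat_lit 84423985972) (nat_lit 1) (nat_lit 5) (nat_lit 3) (nat_lit 4) (nat_lit 1) (nat_lit 4) (nat_lit 328) (nat_lit 270) (nat_lit 122))))) (XT.nd (nat_lit 234)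 (nat_lit 0) (nat_lit 0) (XT.nd (nat_lit 78) (nat_lit 0) (nat_lit 0) (XT.lf (nat_lit 0) (nat_lit 306373005205) (nat_lit 152) (nat_lit 1086645516518) (nat_lit 0) (nat_lit 131251613817) (nat_lit 1) (nat_lit 5) (nat_lit 3) (nat_lit 4) (nat_lit 1) (nat_lit 4) (nat_lit 329) (nat_lit 270) (nat_lit 121)) (XT.nd (nat_lit 78) (nat_lit 0) (nat_lit 0) (XT.lf (nat_lit 0) (nat_lit 356946937032) (nat_lit 152) (nat_lit 1104046681675) (nat_lit 0) (nat_lit 181825409854) (nat_lit 1) (nat_lit 5) (nat_lit 3) (nat_lit 4) (nat_lit 1) (nat_lit 4) (nat_lit 330) (nat_lit 270) (nat_lit 120)) (XT.lf (nat_lit 0) (nat_lit 411566723562) (nat_lit 152) (nat_lit 1122840043877) (nat_lit 0) (nat_lit 236445070651) (nat_lit 1) (nat_lit 5) (nat_lit 3) (nat_lit 4) (nat_lit 1) (nat_lit 4) (nat_lit 331) (nat_lit 270) (nat_lit 119)))) (XT.nd (nat_lit 156) (nat_lit 0) (nat_lit 0) (XT.nd (nat_lit 78) (nat_lit 0) (nat_lit 0)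 (XT.lf (nat_lit 0) (nat_lit 470556037603) (nat_lit 152) (nat_lit 1143136971195) (nat_lit 0) (nat_lit 295434268274) (nat_lit 1) (nat_lit 5) (nat_lit 3) (nat_lit 4) (nat_lit 1) (nat_lit 4) (nat_lit 332) (nat_lit 270) (nat_lit 118)) (XT.lf (nat_lit 0) (nat_lit 534264445462) (nat_lit 152) (nat_lit 1165057741719) (nat_lit 0) (nat_lit 359142568337) (nat_lit 1) (nat_lit 5) (nat_lit 3) (nat_lit 4) (nat_lit 1) (nat_lit 4) (nat_lit 333) (nat_lit 270) (nat_lit 117))) (XT.nd (nat_lit 78) (nat_lit 0) (nat_lit 0) (XT.lf (nat_lit 0) (nat_lit 603069478442) (nat_lit 152) (nat_lit 1188732256311) (nat_lit 0) (nat_lit 427947501507) (nat_lit 1) (nat_lit 5) (nat_lit 3) (nat_lit 4) (nat_lit 1) (nat_lit 4) (nat_lit 334) (nat_lit 270) (nat_lit 116)) (XT.lf (nat_lit 0) (nat_lit 677378870074) (nat_lit 152) (nat_lit 1214300808389) (nat_lit 0) (nat_lit 502256800722) (nat_lit 1) (nat_lit 5) (nat_lit 3) (nat_lit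 4) (nat_lit 1) (nat_lit 4) (nat_lit 335) (nat_lit 270) (nat_lit 115)))))) (XT.nd (nat_lit 32838) (nat_lit 0) (nat_lit 1444) (XT.nd (nat_lit 32526) (nat_lit 0) (nat_lit 1976) (XT.nd (nat_lit 78) (nat_lit 0) (nat_lit 0) (XT.lf (nat_lit 0) (nat_lit 757632972309) (nat_lit 152) (nat_lit 1241914915301) (nat_lit 0) (nat_lit 582510817385) (nat_lit 1) (nat_lit 5) (nat_lit 3) (nat_lit 4) (nat_lit 1) (nat_lit 4) (nat_lit 336) (nat_lit 270) (nat_lit 114)) (XT.nd (nat_lit 32370) (nat_lit 0) (nat_lit 1976) (XT.lf (nat_lit 0) (nat_lit 844307365010) (nat_lit 152) (nat_lit 1271738216197) (nat_lit 0) (nat_lit 669185130853) (nat_lit 1) (nat_lit 5) (nat_lit 3) (nat_lit 4) (nat_lit 1) (nat_lit 4) (nat_lit 337) (nat_lit 270) (nat_lit 113)) (XT.lf (nat_lit 0) (nat_lit 9506081395) (nat_lit 0) (nat_lit 9506081395) (nat_lit 380) (nat_lit 3484124600) (nat_lit 27) (nat_lit 5) (nat_lit 27) (nat_lit 3) (nat_lit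 32) (nat_lit 3) (nat_lit 271) (nat_lit 271) (nat_lit 178)))) (XT.nd (nat_lit 156) (nat_lit 0) (nat_lit 0) (XT.nd (nat_lit 78) (nat_lit 0) (nat_lit 0) (XT.lf (nat_lit 0) (nat_lit 37425419416) (nat_lit 0) (nat_lit 2146213747) (nat_lit 380) (nat_lit 7218232931) (nat_lit 27) (nat_lit 5) (nat_lit 27) (nat_lit 3) (nat_lit 32) (nat_lit 3) (nat_lit 272) (nat_lit 271) (nat_lit 177)) (XT.lf (nat_lit 76) (nat_lit 8624160880) (nat_lit 0) (nat_lit 33209832814) (nat_lit 456) (nat_lit 6849676055) (nat_lit 28) (nat_lit 5) (nat_lit 27) (nat_lit 5) (nat_lit 33) (nat_lit 5) (nat_lit 273) (nat_lit 271) (nat_lit 176))) (XT.nd (nat_lit 78) (nat_lit 0) (nat_lit 76) (XT.lf (nat_lit 76) (nat_lit 28524190071) (nat_lit 0) (nat_lit 16061080588) (nat_lit 456) (nat_lit 6119101077) (nat_lit 28) (nat_lit 5) (nat_lit 27) (nat_lit 5) (nat_lit 33) (nat_lit 5) (nat_lit 274) (nat_lit 271) (nat_lit 175)) (XT.lf (nat_lit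 0) (nat_lit 47613556322) (nat_lit 380) (nat_lit 2931323728) (nat_lit 456) (nat_lit 2337323462) (nat_lit 28) (nat_lit 5) (nat_lit 33) (nat_lit 5) (nat_lit 34) (nat_lit 5) (nat_lit 275) (nat_lit 271) (nat_lit 174))))) (XT.nd (nat_lit 234) (nat_lit 228) (nat_lit 0) (XT.nd (nat_lit 78) (nat_lit 380) (nat_lit 0) (XT.lf (nat_lit 76) (nat_lit 18357025143) (nat_lit 0) (nat_lit 33383657682) (nat_lit 456) (nat_lit 3425076985) (nat_lit 29) (nat_lit 5) (nat_lit 28) (nat_lit 5) (nat_lit 34) (nat_lit 5) (nat_lit 276) (nat_lit 271) (nat_lit 173)) (XT.nd (nat_lit 78) (nat_lit 380) (nat_lit 0) (XT.lf (nat_lit 76) (nat_lit 41513648358) (nat_lit 0) (nat_lit 14762516815) (nat_lit 456) (nat_lit 1349603002) (nat_lit 29) (nat_lit 5) (nat_lit 28) (nat_lit 5) (nat_lit 34) (nat_lit 5) (nat_lit 277) (nat_lit 271) (nat_lit 172)) (XT.lf (nat_lit 0) (nat_lit 1136089289) (nat_lit 456) (nat_lit 53857064532) (nat_lit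 76) (nat_lit 5264622795) (nat_lit 23) (nat_lit 5) (nat_lit 29) (nat_lit 5) (nat_lit 24) (nat_lit 5) (nat_lit 278) (nat_lit 271) (nat_lit 171)))) (XT.nd (nat_lit 156) (nat_lit 228) (nat_lit 0) (XT.nd (nat_lit 78) (nat_lit 0) (nat_lit 0) (XT.lf (nat_lit 0) (nat_lit 4581369865) (nat_lit 456) (nat_lit 31865798221) (nat_lit 76) (nat_lit 26583699356) (nat_lit 23) (nat_lit 5) (nat_lit 29) (nat_lit 5) (nat_lit 24) (nat_lit 5) (nat_lit 279) (nat_lit 271) (nat_lit 170)) (XT.lf (nat_lit 0) (nat_lit 8300632307) (nat_lit 456) (nat_lit 8116746543) (nat_lit 76) (nat_lit 49608574411) (nat_lit 23) (nat_lit 5) (nat_lit 29) (nat_lit 5) (nat_lit 24) (nat_lit 5) (nat_lit 280) (nat_lit 271) (nat_lit 169))) (XT.nd (nat_lit 78) (nat_lit 0) (nat_lit 0) (XT.lf (nat_lit 0) (nat_lit 12896681494) (nat_lit 304) (nat_lit 50908255866) (nat_lit 76) (nat_lit 5409384187) (nat_lit 20) (nat_lit 5) (nat_lit 24) (nat_lit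 5) (nat_lit 21) (nat_lit 5) (nat_lit 281) (nat_lit 271) (nat_lit 168)) (XT.lf (nat_lit 0) (nat_lit 18513092872) (nat_lit 304) (nat_lit 25769384598) (nat_lit 76) (nat_lit 28323081695) (nat_lit 20) (nat_lit 5) (nat_lit 24) (nat_lit 5) (nat_lit 21) (nat_lit 5) (nat_lit 282) (nat_lit 271) (nat_lit 167))))))) (XT.nd (nat_lit 1014) (nat_lit 304) (nat_lit 0) (XT.nd (nat_lit 468) (nat_lit 532) (nat_lit 0) (XT.nd (nat_lit 234) (nat_lit 152) (nat_lit 0) (XT.nd (nat_lit 78) (nat_lit 0) (nat_lit 0) (XT.lf (nat_lit 0) (nat_lit 1451834969) (nat_lit 228) (nat_lit 23160567634) (nat_lit 304) (nat_lit 51653019437) (nat_lit 17) (nat_lit 5) (nat_lit 20) (nat_lit 5) (nat_lit 21) (nat_lit 5) (nat_lit 283) (nat_lit 271) (nat_lit 166)) (XT.nd (nat_lit 78) (nat_lit 0) (nat_lit 0) (XT.lf (nat_lit 0) (nat_lit 31912880115) (nat_lit 304) (nat_lit 47856801420) (nat_lit 76) (nat_lit 391346685) (nat_lit 17) (nat_lit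 5) (nat_lit 21) (nat_lit 5) (nat_lit 18) (nat_lit 5) (nat_lit 284) (nat_lit 271) (nat_lit 165)) (XT.lf (nat_lit 0) (nat_lit 40397795622) (nat_lit 304) (nat_lit 19346401787) (nat_lit 76) (nat_lit 24576064719) (nat_lit 17) (nat_lit 5) (nat_lit 21) (nat_lit 5) (nat_lit 18) (nat_lit 5) (nat_lit 285) (nat_lit 271) (nat_lit 164)))) (XT.nd (nat_lit 78) (nat_lit 0) (nat_lit 0) (XT.lf (nat_lit 0) (nat_lit 12046172906) (nat_lit 152) (nat_lit 37803955738) (nat_lit 228) (nat_lit 38939026550) (nat_lit 15) (nat_lit 5) (nat_lit 17) (nat_lit 5) (nat_lit 18) (nat_lit 5) (nat_lit 286) (nat_lit 271) (nat_lit 163)) (XT.nd (nat_lit 78) (nat_lit 0) (nat_lit 0) (XT.lf (nat_lit 0) (nat_lit 47049177102) (nat_lit 152) (nat_lit 13537400697) (nat_lit 228) (nat_lit 32986757162) (nat_lit 15) (nat_lit 5) (nat_lit 17) (nat_lit 5) (nat_lit 18) (nat_lit 5) (nat_lit 287) (nat_lit 271) (nat_lit 162)) (XT.lf (nat_lit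 0) (nat_lit 72485705296) (nat_lit 228) (nat_lit 14193767067) (nat_lit 76) (nat_lit 12036484659) (nat_lit 15) (nat_lit 5) (nat_lit 18) (nat_lit 5) (nat_lit 16) (nat_lit 5) (nat_lit 288) (nat_lit 271) (nat_lit 161))))) (XT.nd (nat_lit 234) (nat_lit 304) (nat_lit 0) (XT.nd (nat_lit 78) (nat_lit 76) (nat_lit 0) (XT.lf (nat_lit 0) (nat_lit 21442974283) (nat_lit 152) (nat_lit 64760221971) (nat_lit 228) (nat_lit 17997486177) (nat_lit 13) (nat_lit 5) (nat_lit 15) (nat_lit 5) (nat_lit 16) (nat_lit 5) (nat_lit 289) (nat_lit 271) (nat_lit 160)) (XT.nd (nat_lit 78) (nat_lit 76) (nat_lit 0) (XT.lf (nat_lit 0) (nat_lit 60736771191) (nat_lit 152) (nat_lit 40668546150) (nat_lit 228) (nat_lit 8687897700) (nat_lit 13) (nat_lit 5) (nat_lit 15) (nat_lit 5) (nat_lit 16) (nat_lit 5) (nat_lit 290) (nat_lit 271) (nat_lit 159)) (XT.lf (nat_lit 0) (nat_lit 1297286104) (nat_lit 228) (nat_lit 13317005952) (nat_lit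 76) (nat_lit 101840300959) (nat_lit 12) (nat_lit 5) (nat_lit 15) (nat_lit 5) (nat_lit 13) (nat_lit 5) (nat_lit 291) (nat_lit 271) (nat_lit 158)))) (XT.nd (nat_lit 156) (nat_lit 152) (nat_lit 0) (XT.nd (nat_lit 78) (nat_lit 0) (nat_lit 0) (XT.lf (nat_lit 0) (nat_lit 12601465784) (nat_lit 228) (nat_lit 96887946533) (nat_lit 76) (nat_lit 13738257930) (nat_lit 10) (nat_lit 5) (nat_lit 13) (nat_lit 5) (nat_lit 11) (nat_lit 5) (nat_lit 292) (nat_lit 271) (nat_lit 157)) (XT.lf (nat_lit 0) (nat_lit 25562411400) (nat_lit 228) (nat_lit 60977190684) (nat_lit 76) (nat_lit 43942802662) (nat_lit 10) (nat_lit 5) (nat_lit 13) (nat_lit 5) (nat_lit 11) (nat_lit 5) (nat_lit 293) (nat_lit 271) (nat_lit 156))) (XT.nd (nat_lit 78) (nat_lit 152) (nat_lit 0) (XT.lf (nat_lit 0) (nat_lit 39559558220) (nat_lit 228) (nat_lit 22194517083) (nat_lit 76) (nat_lit 76563501853) (nat_lit 10) (nat_lit 5) (nat_lit 13)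 (nat_lit 5) (nat_lit 11) (nat_lit 5) (nat_lit 294) (nat_lit 271) (nat_lit 155)) (XT.lf (nat_lit 0) (nat_lit 20726732631) (nat_lit 152) (nat_lit 34447598088) (nat_lit 228) (nat_lit 91565409135) (nat_lit 8) (nat_lit 5) (nat_lit 10) (nat_lit 5) (nat_lit 11) (nat_lit 5) (nat_lit 295) (nat_lit 271) (nat_lit 154)))))) (XT.nd (nat_lit 546) (nat_lit 228) (nat_lit 0) (XT.nd (nat_lit 234) (nat_lit 76) (nat_lit 0) (XT.nd (nat_lit 78) (nat_lit 0) (nat_lit 0) (XT.lf (nat_lit 0) (nat_lit 68343053388) (nat_lit 152) (nat_lit 4301470369) (nat_lit 228) (nat_lit 83142657166) (nat_lit 8) (nat_lit 5) (nat_lit 10) (nat_lit 5) (nat_lit 11) (nat_lit 5) (nat_lit 296) (nat_lit 271) (nat_lit 153)) (XT.nd (nat_lit 78) (nat_lit 0) (nat_lit 0) (XT.lf (nat_lit 0) (nat_lit 92191338124) (nat_lit 228) (nat_lit 46470133934) (nat_lit 76) (nat_lit 26842628874) (nat_lit 8) (nat_lit 5) (nat_lit 11) (nat_lit 5) (nat_lit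 9) (nat_lit 4) (nat_lit 297) (nat_lit 271) (nat_lit 152)) (XT.lf (nat_lit 0) (nat_lit 113413105665) (nat_lit 228) (nat_lit 2330716443) (nat_lit 76) (nat_lit 60245659611) (nat_lit 8) (nat_lit 5) (nat_lit 11) (nat_lit 5) (nat_lit 9) (nat_lit 4) (nat_lit 298) (nat_lit 271) (nat_lit 151)))) (XT.nd (nat_lit 156) (nat_lit 0) (nat_lit 0) (XT.nd (nat_lit 78) (nat_lit 0) (nat_lit 0) (XT.lf (nat_lit 0) (nat_lit 47726621207) (nat_lit 76) (nat_lit 89753339719) (nat_lit 152) (nat_lit 49741947874) (nat_lit 7) (nat_lit 5) (nat_lit 8) (nat_lit 5) (nat_lit 9) (nat_lit 4) (nat_lit 299) (nat_lit 271) (nat_lit 150)) (XT.lf (nat_lit 0) (nat_lit 101920401682) (nat_lit 76) (nat_lit 61615027639) (nat_lit 152) (nat_lit 35812442822) (nat_lit 7) (nat_lit 5) (nat_lit 8) (nat_lit 5) (nat_lit 9) (nat_lit 4) (nat_lit 300) (nat_lit 271) (nat_lit 149))) (XT.nd (nat_lit 78) (nat_lit 0) (nat_lit 0) (XT.lf (nat_lit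 0) (nat_lit 160449041913) (nat_lit 76) (nat_lit 31225866235) (nat_lit 152) (nat_lit 20769041601) (nat_lit 7) (nat_lit 5) (nat_lit 8) (nat_lit 5) (nat_lit 9) (nat_lit 4) (nat_lit 301) (nat_lit 271) (nat_lit 148)) (XT.lf (nat_lit 0) (nat_lit 222103491107) (nat_lit 152) (nat_lit 2966710949) (nat_lit 0) (nat_lit 1514478649) (nat_lit 7) (nat_lit 5) (nat_lit 9) (nat_lit 4) (nat_lit 7) (nat_lit 4) (nat_lit 302) (nat_lit 271) (nat_lit 147))))) (XT.nd (nat_lit 234) (nat_lit 76) (nat_lit 0) (XT.nd (nat_lit 78) (nat_lit 0) (nat_lit 0) (XT.lf (nat_lit 0) (nat_lit 14562833528) (nat_lit 152) (nat_lit 190299490199) (nat_lit 76) (nat_lit 36800410324) (nat_lit 5) (nat_lit 5) (nat_lit 7) (nat_lit 5) (nat_lit 6) (nat_lit 4) (nat_lit 303) (nat_lit 271) (nat_lit 146)) (XT.nd (nat_lit 78) (nat_lit 0) (nat_lit 0) (XT.lf (nat_lit 0) (nat_lit 34971131669) (nat_lit 152) (nat_lit 147851314770) (nat_lit 76)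 (nat_lit 75108647587) (nat_lit 5) (nat_lit 5) (nat_lit 7) (nat_lit 5) (nat_lit 6) (nat_lit 4) (nat_lit 304) (nat_lit 271) (nat_lit 145)) (XT.lf (nat_lit 0) (nat_lit 57011752713) (nat_lit 152) (nat_lit 102007827357) (nat_lit 76) (nat_lit 116481372070) (nat_lit 5) (nat_lit 5) (nat_lit 7) (nat_lit 5) (nat_lit 6) (nat_lit 4) (nat_lit 305) (nat_lit 271) (nat_lit 144)))) (XT.nd (nat_lit 156) (nat_lit 0) (nat_lit 0) (XT.nd (nat_lit 78) (nat_lit 76) (nat_lit 0) (XT.lf (nat_lit 0) (nat_lit 80815307746) (nat_lit 152) (nat_lit 52497362847) (nat_lit 76) (nat_lit 161163755474) (nat_lit 5) (nat_lit 5) (nat_lit 7) (nat_lit 5) (nat_lit 6) (nat_lit 4) (nat_lit 306) (nat_lit 271) (nat_lit 143)) (XT.lf (nat_lit 0) (nat_lit 1024735523) (nat_lit 76) (nat_lit 105522764264) (nat_lit 152) (nat_lit 208420491684) (nat_lit 4) (nat_lit 5) (nat_lit 5) (nat_lit 5) (nat_lit 6) (nat_lit 4) (nat_lit 307) (nat_lit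 271) (nat_lit 142))) (XT.nd (nat_lit 78) (nat_lit 0) (nat_lit 0) (XT.lf (nat_lit 0) (nat_lit 61813720351) (nat_lit 76) (nat_lit 73959636224) (nat_lit 152) (nat_lit 201210720019) (nat_lit 4) (nat_lit 5) (nat_lit 5) (nat_lit 5) (nat_lit 6) (nat_lit 4) (nat_lit 308) (nat_lit 271) (nat_lit 141)) (XT.lf (nat_lit 0) (nat_lit 127465404562) (nat_lit 76) (nat_lit 39871616649) (nat_lit 152) (nat_lit 193424449686) (nat_lit 4) (nat_lit 5) (nat_lit 5) (nat_lit 5) (nat_lit 6) (nat_lit 4) (nat_lit 309) (nat_lit 271) (nat_lit 140))))))))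
noncomputable def xc103 : XT := (XT.nd (nat_lit 2106) (nat_lit 0) (nat_lit 0) (XT.nd (nat_lit 1014) (nat_lit 76) (nat_lit 0) (XT.nd (nat_lit 468) (nat_lit 76) (nat_lit 0) (XT.nd (nat_lit 234) (nat_lit 76) (nat_lit 0) (XT.nd (nat_lit 78) (nat_lit 0) (nat_lit 0) (XT.lf (nat_lit 0) (nat_lit 198368835174) (nat_lit 76) (nat_lit 3056702460) (nat_lit 152) (nat_lit 185015539826) (nat_lit 4) (nat_lit 5) (nat_lit 5) (nat_lit 5) (nat_lit 6) (nat_lit 4) (nat_lit 310) (nat_lit 271) (nat_lit 139)) (XT.nd (nat_lit 78) (nat_lit 0) (nat_lit 0) (XT.lf (nat_lit 0) (nat_lit 239123626366) (nat_lit 152) (nat_lit 140113605562) (nat_lit 0) (nat_lit 34867222642) (nat_lit 4) (nat_lit 5) (nat_lit 6) (nat_lit 4) (nat_lit 4) (nat_lit 4) (nat_lit 311) (nat_lit 271) (nat_lit 138)) (XT.lf (nat_lit 0) (nat_lit 279916747087) (nat_lit 152) (nat_lit 88398020433) (nat_lit 0) (nat_lit 75659800740) (nat_lit 4) (nat_lit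 5) (nat_lit 6) (nat_lit 4) (nat_lit 4) (nat_lit 4) (nat_lit 312) (nat_lit 271) (nat_lit 137)))) (XT.nd (nat_lit 78) (nat_lit 76) (nat_lit 0) (XT.lf (nat_lit 0) (nat_lit 323973123042) (nat_lit 152) (nat_lit 32545510406) (nat_lit 0) (nat_lit 119715674267) (nat_lit 4) (nat_lit 5) (nat_lit 6) (nat_lit 4) (nat_lit 4) (nat_lit 4) (nat_lit 313) (nat_lit 271) (nat_lit 136)) (XT.nd (nat_lit 78) (nat_lit 0) (nat_lit 0) (XT.lf (nat_lit 0) (nat_lit 29237479492) (nat_lit 76) (nat_lit 343019511644) (nat_lit 76) (nat_lit 138761597657) (nat_lit 3) (nat_lit 4) (nat_lit 4) (nat_lit 5) (nat_lit 4) (nat_lit 4) (nat_lit 314) (nat_lit 271) (nat_lit 135)) (XT.lf (nat_lit 0) (nat_lit 97813710077) (nat_lit 76) (nat_lit 327479536857) (nat_lit 76) (nat_lit 123221192118) (nat_lit 3) (nat_lit 4) (nat_lit 4) (nat_lit 5) (nat_lit 4) (nat_lit 4) (nat_lit 315) (nat_lit 271) (nat_lit 134))))) (XT.nd (nat_lit 234)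 (nat_lit 76) (nat_lit 0) (XT.nd (nat_lit 78) (nat_lit 0) (nat_lit 0) (XT.lf (nat_lit 0) (nat_lit 171875770108) (nat_lit 76) (nat_lit 310696472278) (nat_lit 76) (nat_lit 106437728696) (nat_lit 3) (nat_lit 4) (nat_lit 4) (nat_lit 5) (nat_lit 4) (nat_lit 4) (nat_lit 316) (nat_lit 271) (nat_lit 133)) (XT.nd (nat_lit 78) (nat_lit 0) (nat_lit 0) (XT.lf (nat_lit 0) (nat_lit 251862545867) (nat_lit 76) (nat_lit 292570862710) (nat_lit 76) (nat_lit 88311749828) (nat_lit 3) (nat_lit 4) (nat_lit 4) (nat_lit 5) (nat_lit 4) (nat_lit 4) (nat_lit 317) (nat_lit 271) (nat_lit 132)) (XT.lf (nat_lit 0) (nat_lit 338248033061) (nat_lit 76) (nat_lit 272995297134) (nat_lit 76) (nat_lit 68735842307) (nat_lit 3) (nat_lit 4) (nat_lit 4) (nat_lit 5) (nat_lit 4) (nat_lit 4) (nat_lit 318) (nat_lit 271) (nat_lit 131)))) (XT.nd (nat_lit 156) (nat_lit 76) (nat_lit 0) (XT.nd (nat_lit 78) (nat_lit 0) (nat_lit 0) (XT.lf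 (nat_lit 0) (nat_lit 431544145690) (nat_lit 76) (nat_lit 251853772197) (nat_lit 76) (nat_lit 47594000755) (nat_lit 3) (nat_lit 4) (nat_lit 4) (nat_lit 5) (nat_lit 4) (nat_lit 4) (nat_lit 319) (nat_lit 271) (nat_lit 130)) (XT.lf (nat_lit 0) (nat_lit 532303749606) (nat_lit 76) (nat_lit 229021004789) (nat_lit 76) (nat_lit 24760940185) (nat_lit 3) (nat_lit 4) (nat_lit 4) (nat_lit 5) (nat_lit 4) (nat_lit 4) (nat_lit 320) (nat_lit 271) (nat_lit 129))) (XT.nd (nat_lit 78) (nat_lit 76) (nat_lit 0) (XT.lf (nat_lit 0) (nat_lit 641123938757) (nat_lit 76) (nat_lit 204361689622) (nat_lit 76) (nat_lit 101353571) (nat_lit 3) (nat_lit 4) (nat_lit 4) (nat_lit 5) (nat_lit 4) (nat_lit 4) (nat_lit 321) (nat_lit 271) (nat_lit 128)) (XT.lf (nat_lit 0) (nat_lit 25203707402) (nat_lit 152) (nat_lit 151836875992) (nat_lit 76) (nat_lit 732756752097) (nat_lit 2) (nat_lit 5) (nat_lit 4) (nat_lit 5) (nat_lit 3)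 (nat_lit 4) (nat_lit 322) (nat_lit 271) (nat_lit 127)))))) (XT.nd (nat_lit 546) (nat_lit 0) (nat_lit 0) (XT.nd (nat_lit 234) (nat_lit 0) (nat_lit 0) (XT.nd (nat_lit 78) (nat_lit 76) (nat_lit 0) (XT.lf (nat_lit 0) (nat_lit 52527600770) (nat_lit 152) (nat_lit 95003410508) (nat_lit 76) (nat_lit 831613303651) (nat_lit 2) (nat_lit 5) (nat_lit 4) (nat_lit 5) (nat_lit 3) (nat_lit 4) (nat_lit 323) (nat_lit 271) (nat_lit 126)) (XT.nd (nat_lit 78) (nat_lit 76) (nat_lit 0) (XT.lf (nat_lit 0) (nat_lit 82037316017) (nat_lit 152) (nat_lit 33623418278) (nat_lit 76) (nat_lit 938378326038) (nat_lit 2) (nat_lit 5) (nat_lit 4) (nat_lit 5) (nat_lit 3) (nat_lit 4) (nat_lit 324) (nat_lit 271) (nat_lit 125)) (XT.lf (nat_lit 0) (nat_lit 34387011572) (nat_lit 76) (nat_lit 80347722412) (nat_lit 152) (nat_lit 1020124497755) (nat_lit 1) (nat_lit 5) (nat_lit 2) (nat_lit 5) (nat_lit 3) (nat_lit 4) (nat_lit 325)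 (nat_lit 271) (nat_lit 124)))) (XT.nd (nat_lit 156) (nat_lit 0) (nat_lit 0) (XT.nd (nat_lit 78) (nat_lit 0) (nat_lit 0) (XT.lf (nat_lit 0) (nat_lit 109750333582) (nat_lit 76) (nat_lit 41216855571) (nat_lit 152) (nat_lit 1071104288582) (nat_lit 1) (nat_lit 5) (nat_lit 2) (nat_lit 5) (nat_lit 3) (nat_lit 4) (nat_lit 326) (nat_lit 271) (nat_lit 123)) (XT.lf (nat_lit 0) (nat_lit 190123285135) (nat_lit 152) (nat_lit 1125143232640) (nat_lit 0) (nat_lit 992182436) (nat_lit 1) (nat_lit 5) (nat_lit 3) (nat_lit 4) (nat_lit 1) (nat_lit 4) (nat_lit 327) (nat_lit 271) (nat_lit 122))) (XT.nd (nat_lit 78) (nat_lit 0) (nat_lit 0) (XT.lf (nat_lit 0) (nat_lit 233482366669) (nat_lit 152) (nat_lit 1140061776993) (nat_lit 0) (nat_lit 44351117316) (nat_lit 1) (nat_lit 5) (nat_lit 3) (nat_lit 4) (nat_lit 1) (nat_lit 4) (nat_lit 328) (nat_lit 271) (nat_lit 121)) (XT.lf (nat_lit 0) (nat_lit 280310110096)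 (nat_lit 152) (nat_lit 1156173917034) (nat_lit 0) (nat_lit 91178724952) (nat_lit 1) (nat_lit 5) (nat_lit 3) (nat_lit 4) (nat_lit 1) (nat_lit 4) (nat_lit 329) (nat_lit 271) (nat_lit 120))))) (XT.nd (nat_lit 234) (nat_lit 0) (nat_lit 0) (XT.nd (nat_lit 78) (nat_lit 0) (nat_lit 0) (XT.lf (nat_lit 0) (nat_lit 330884013152) (nat_lit 152) (nat_lit 1173575132110) (nat_lit 0) (nat_lit 141752502276) (nat_lit 1) (nat_lit 5) (nat_lit 3) (nat_lit 4) (nat_lit 1) (nat_lit 4) (nat_lit 330) (nat_lit 271) (nat_lit 119)) (XT.nd (nat_lit 78) (nat_lit 0) (nat_lit 0) (XT.lf (nat_lit 0) (nat_lit 385503773042) (nat_lit 152) (nat_lit 1192368540534) (nat_lit 0) (nat_lit 196372145747) (nat_lit 1) (nat_lit 5) (nat_lit 3) (nat_lit 4) (nat_lit 1) (nat_lit 4) (nat_lit 331) (nat_lit 271) (nat_lit 118)) (XT.lf (nat_lit 0) (nat_lit 444493062417) (nat_lit 152) (nat_lit 1212665510650) (nat_lit 0) (nat_lit 255361327327)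 (nat_lit 1) (nat_lit 5) (nat_lit 3) (nat_lit 4) (nat_lit 1) (nat_lit 4) (nat_lit 332) (nat_lit 271) (nat_lit 117)))) (XT.nd (nat_lit 156) (nat_lit 0) (nat_lit 0) (XT.nd (nat_lit 78) (nat_lit 0) (nat_lit 0) (XT.lf (nat_lit 0) (nat_lit 508201447435) (nat_lit 152) (nat_lit 1234586320802) (nat_lit 0) (nat_lit 319069612535) (nat_lit 1) (nat_lit 5) (nat_lit 3) (nat_lit 4) (nat_lit 1) (nat_lit 4) (nat_lit 333) (nat_lit 271) (nat_lit 116)) (XT.lf (nat_lit 0) (nat_lit 577006459268) (nat_lit 152) (nat_lit 1258260872086) (nat_lit 0) (nat_lit 387874531951) (nat_lit 1) (nat_lit 5) (nat_lit 3) (nat_lit 4) (nat_lit 1) (nat_lit 4) (nat_lit 334) (nat_lit 271) (nat_lit 115))) (XT.nd (nat_lit 78) (nat_lit 0) (nat_lit 0) (XT.lf (nat_lit 0) (nat_lit 651315831320) (nat_lit 152) (nat_lit 1283829458138) (nat_lit 0) (nat_lit 462183818431) (nat_lit 1) (nat_lit 5) (nat_lit 3) (nat_lit 4) (nat_lit 1) (nat_lit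 4) (nat_lit 335) (nat_lit 271) (nat_lit 114)) (XT.lf (nat_lit 0) (nat_lit 731569915423) (nat_lit 152) (nat_lit 1311443596507) (nat_lit 0) (nat_lit 542437823302) (nat_lit 1) (nat_lit 5) (nat_lit 3) (nat_lit 4) (nat_lit 1) (nat_lit 4) (nat_lit 336) (nat_lit 271) (nat_lit 113))))))) (XT.nd (nat_lit 33384) (nat_lit 0) (nat_lit 532) (XT.nd (nat_lit 32838) (nat_lit 0) (nat_lit 1444) (XT.nd (nat_lit 32604) (nat_lit 0) (nat_lit 1976) (XT.nd (nat_lit 32448) (nat_lit 0) (nat_lit 1976) (XT.lf (nat_lit 0) (nat_lit 818244291336) (nat_lit 152) (nat_lit 1341266926531) (nat_lit 0) (nat_lit 629112125852) (nat_lit 1) (nat_lit 5) (nat_lit 3) (nat_lit 4) (nat_lit 1) (nat_lit 4) (nat_lit 337) (nat_lit 271) (nat_lit 112)) (XT.nd (nat_lit 78) (nat_lit 0) (nat_lit 0) (XT.lf (nat_lit 0) (nat_lit 10279418513) (nat_lit 0) (nat_lit 10279418513) (nat_lit 380) (nat_lit 3734799678) (nat_lit 27) (nat_lit 5) (nat_lit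 27) (nat_lit 3) (nat_lit 32) (nat_lit 3) (nat_lit 272) (nat_lit 272) (nat_lit 176)) (XT.lf (nat_lit 0) (nat_lit 40443250387) (nat_lit 0) (nat_lit 2341708265) (nat_lit 380) (nat_lit 7743738065) (nat_lit 27) (nat_lit 5) (nat_lit 27) (nat_lit 3) (nat_lit 32) (nat_lit 3) (nat_lit 273) (nat_lit 272) (nat_lit 175)))) (XT.nd (nat_lit 78) (nat_lit 0) (nat_lit 0) (XT.lf (nat_lit 76) (nat_lit 9342094860) (nat_lit 0) (nat_lit 35882831116) (nat_lit 456) (nat_lit 7349390074) (nat_lit 28) (nat_lit 5) (nat_lit 27) (nat_lit 5) (nat_lit 33) (nat_lit 5) (nat_lit 274) (nat_lit 272) (nat_lit 174)) (XT.nd (nat_lit 78) (nat_lit 0) (nat_lit 76) (XT.lf (nat_lit 76) (nat_lit 30832052230) (nat_lit 0) (nat_lit 17360977847) (nat_lit 456) (nat_lit 6563943918) (nat_lit 28) (nat_lit 5) (nat_lit 27) (nat_lit 5) (nat_lit 33) (nat_lit 5) (nat_lit 275) (nat_lit 272) (nat_lit 173)) (XT.lf (nat_lit 0) (nat_lit 51460211897)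 (nat_lit 380) (nat_lit 3138019030) (nat_lit 456) (nat_lit 2511105719) (nat_lit 28) (nat_lit 5) (nat_lit 33) (nat_lit 5) (nat_lit 34) (nat_lit 5) (nat_lit 276) (nat_lit 272) (nat_lit 172))))) (XT.nd (nat_lit 234) (nat_lit 228) (nat_lit 0) (XT.nd (nat_lit 78) (nat_lit 380) (nat_lit 0) (XT.lf (nat_lit 76) (nat_lit 19852693686) (nat_lit 0) (nat_lit 36062683704) (nat_lit 456) (nat_lit 3660402951) (nat_lit 29) (nat_lit 5) (nat_lit 28) (nat_lit 5) (nat_lit 34) (nat_lit 5) (nat_lit 277) (nat_lit 272) (nat_lit 171)) (XT.nd (nat_lit 78) (nat_lit 380) (nat_lit 0) (XT.lf (nat_lit 76) (nat_lit 44859838866) (nat_lit 0) (nat_lit 15951234279) (nat_lit 456) (nat_lit 1421756249) (nat_lit 29) (nat_lit 5) (nat_lit 28) (nat_lit 5) (nat_lit 34) (nat_lit 5) (nat_lit 278) (nat_lit 272) (nat_lit 170)) (XT.lf (nat_lit 0) (nat_lit 1258983516) (nat_lit 456) (nat_lit 58136054324) (nat_lit 76) (nat_lit 5680478790)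 (nat_lit 23) (nat_lit 5) (nat_lit 29) (nat_lit 5) (nat_lit 24) (nat_lit 5) (nat_lit 279) (nat_lit 272) (nat_lit 169)))) (XT.nd (nat_lit 156) (nat_lit 228) (nat_lit 0) (XT.nd (nat_lit 78) (nat_lit 0) (nat_lit 0) (XT.lf (nat_lit 0) (nat_lit 4977515643) (nat_lit 456) (nat_lit 34387677477) (nat_lit 76) (nat_lit 28705475092) (nat_lit 23) (nat_lit 5) (nat_lit 29) (nat_lit 5) (nat_lit 24) (nat_lit 5) (nat_lit 280) (nat_lit 272) (nat_lit 168)) (XT.lf (nat_lit 0) (nat_lit 8992123807) (nat_lit 456) (nat_lit 8740730154) (nat_lit 76) (nat_lit 53572704612) (nat_lit 23) (nat_lit 5) (nat_lit 29) (nat_lit 5) (nat_lit 24) (nat_lit 5) (nat_lit 281) (nat_lit 272) (nat_lit 167))) (XT.nd (nat_lit 78) (nat_lit 0) (nat_lit 0) (XT.lf (nat_lit 0) (nat_lit 13954387658) (nat_lit 304) (nat_lit 54953835696) (nat_lit 76) (nat_lit 5840910930) (nat_lit 20) (nat_lit 5) (nat_lit 24) (nat_lit 5) (nat_lit 21) (nat_lit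 5) (nat_lit 282) (nat_lit 272) (nat_lit 166)) (XT.lf (nat_lit 0) (nat_lit 20018188121) (nat_lit 304) (nat_lit 27805860700) (nat_lit 76) (nat_lit 30587794904) (nat_lit 20) (nat_lit 5) (nat_lit 24) (nat_lit 5) (nat_lit 21) (nat_lit 5) (nat_lit 283) (nat_lit 272) (nat_lit 165)))))) (XT.nd (nat_lit 546) (nat_lit 380) (nat_lit 0) (XT.nd (nat_lit 234) (nat_lit 304) (nat_lit 0) (XT.nd (nat_lit 78) (nat_lit 0) (nat_lit 0) (XT.lf (nat_lit 0) (nat_lit 1592421631) (nat_lit 228) (nat_lit 25011827459) (nat_lit 304) (nat_lit 55760359531) (nat_lit 17) (nat_lit 5) (nat_lit 20) (nat_lit 5) (nat_lit 21) (nat_lit 5) (nat_lit 284) (nat_lit 272) (nat_lit 164)) (XT.nd (nat_lit 78) (nat_lit 0) (nat_lit 0) (XT.lf (nat_lit 0) (nat_lit 34487107202) (nat_lit 304) (nat_lit 51660855798) (nat_lit 76) (nat_lit 424049113) (nat_lit 17) (nat_lit 5) (nat_lit 21) (nat_lit 5) (nat_lit 18) (nat_lit 5) (nat_lit 285) (nat_lit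 272) (nat_lit 163)) (XT.lf (nat_lit 0) (nat_lit 43649245826) (nat_lit 304) (nat_lit 20871438250) (nat_lit 76) (nat_lit 26543441279) (nat_lit 17) (nat_lit 5) (nat_lit 21) (nat_lit 5) (nat_lit 18) (nat_lit 5) (nat_lit 286) (nat_lit 272) (nat_lit 162)))) (XT.nd (nat_lit 156) (nat_lit 152) (nat_lit 0) (XT.nd (nat_lit 78) (nat_lit 0) (nat_lit 0) (XT.lf (nat_lit 0) (nat_lit 13031968352) (nat_lit 152) (nat_lit 40824874863) (nat_lit 228) (nat_lit 42033774330) (nat_lit 15) (nat_lit 5) (nat_lit 17) (nat_lit 5) (nat_lit 18) (nat_lit 5) (nat_lit 287) (nat_lit 272) (nat_lit 161)) (XT.lf (nat_lit 0) (nat_lit 50833575727) (nat_lit 152) (nat_lit 14617247073) (nat_lit 228) (nat_lit 35606832602) (nat_lit 15) (nat_lit 5) (nat_lit 17) (nat_lit 5) (nat_lit 18) (nat_lit 5) (nat_lit 288) (nat_lit 272) (nat_lit 160))) (XT.nd (nat_lit 78) (nat_lit 152) (nat_lit 0) (XT.lf (nat_lit 0) (nat_lit 78300667674)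 (nat_lit 228) (nat_lit 15308958100) (nat_lit 76) (nat_lit 13002170394) (nat_lit 15) (nat_lit 5) (nat_lit 18) (nat_lit 5) (nat_lit 16) (nat_lit 5) (nat_lit 289) (nat_lit 272) (nat_lit 159)) (XT.lf (nat_lit 0) (nat_lit 23178208373) (nat_lit 152) (nat_lit 69936632601) (nat_lit 228) (nat_lit 19420527025) (nat_lit 13) (nat_lit 5) (nat_lit 15) (nat_lit 5) (nat_lit 16) (nat_lit 5) (nat_lit 290) (nat_lit 272) (nat_lit 158))))) (XT.nd (nat_lit 234) (nat_lit 152) (nat_lit 0) (XT.nd (nat_lit 78) (nat_lit 228) (nat_lit 0) (XT.lf (nat_lit 0) (nat_lit 65614042652) (nat_lit 152) (nat_lit 43917949167) (nat_lit 228) (nat_lit 9367412806) (nat_lit 13) (nat_lit 5) (nat_lit 15) (nat_lit 5) (nat_lit 16) (nat_lit 5) (nat_lit 291) (nat_lit 272) (nat_lit 157)) (XT.nd (nat_lit 78) (nat_lit 152) (nat_lit 0) (XT.lf (nat_lit 0) (nat_lit 1414717604) (nat_lit 228) (nat_lit 14364566236) (nat_lit 76) (nat_lit 109990475251)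 (nat_lit 12) (nat_lit 5) (nat_lit 15) (nat_lit 5) (nat_lit 13) (nat_lit 5) (nat_lit 292) (nat_lit 272) (nat_lit 156)) (XT.lf (nat_lit 0) (nat_lit 13622741195) (nat_lit 228) (nat_lit 104620590235) (nat_lit 76) (nat_lit 14841398419) (nat_lit 10) (nat_lit 5) (nat_lit 13) (nat_lit 5) (nat_lit 11) (nat_lit 5) (nat_lit 293) (nat_lit 272) (nat_lit 155)))) (XT.nd (nat_lit 156) (nat_lit 152) (nat_lit 0) (XT.nd (nat_lit 78) (nat_lit 0) (nat_lit 0) (XT.lf (nat_lit 0) (nat_lit 27619587782) (nat_lit 228) (nat_lit 65838336290) (nat_lit 76) (nat_lit 47462004519) (nat_lit 10) (nat_lit 5) (nat_lit 13) (nat_lit 5) (nat_lit 11) (nat_lit 5) (nat_lit 294) (nat_lit 272) (nat_lit 154)) (XT.lf (nat_lit 0) (nat_lit 42735603869) (nat_lit 228) (nat_lit 23954310256) (nat_lit 76) (nat_lit 82692079819) (nat_lit 10) (nat_lit 5) (nat_lit 13) (nat_lit 5) (nat_lit 11) (nat_lit 5) (nat_lit 295) (nat_lit 272) (nat_lit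 153))) (XT.nd (nat_lit 78) (nat_lit 0) (nat_lit 0) (XT.lf (nat_lit 0) (nat_lit 22400240240) (nat_lit 152) (nat_lit 37198851923) (nat_lit 228) (nat_lit 98878881213) (nat_lit 8) (nat_lit 5) (nat_lit 10) (nat_lit 5) (nat_lit 11) (nat_lit 5) (nat_lit 296) (nat_lit 272) (nat_lit 152)) (XT.lf (nat_lit 0) (nat_lit 73824728214) (nat_lit 152) (nat_lit 4641371322) (nat_lit 228) (nat_lit 89783180245) (nat_lit 8) (nat_lit 5) (nat_lit 10) (nat_lit 5) (nat_lit 11) (nat_lit 5) (nat_lit 297) (nat_lit 272) (nat_lit 151))))))))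
noncomputable def xc104 : XT := (XT.nd (nat_lit 2028) (nat_lit 76) (nat_lit 0) (XT.nd (nat_lit 1014) (nat_lit 152) (nat_lit 0) (XT.nd (nat_lit 468) (nat_lit 228) (nat_lit 0) (XT.nd (nat_lit 234) (nat_lit 0) (nat_lit 0) (XT.nd (nat_lit 78) (nat_lit 76) (nat_lit 0) (XT.lf (nat_lit 0) (nat_lit 99576011182) (nat_lit 228) (nat_lit 50173851353) (nat_lit 76) (nat_lit 28993748205) (nat_lit 8) (nat_lit 5) (nat_lit 11) (nat_lit 5) (nat_lit 9) (nat_lit 4) (nat_lit 298) (nat_lit 272) (nat_lit 150)) (XT.nd (nat_lit 78) (nat_lit 76) (nat_lit 0) (XT.lf (nat_lit 0) (nat_lit 122494826348) (nat_lit 228) (nat_lit 2504309596) (nat_lit 76) (nat_lit 65068746658) (nat_lit 8) (nat_lit 5) (nat_lit 11) (nat_lit 5) (nat_lit 9) (nat_lit 4) (nat_lit 299) (nat_lit 272) (nat_lit 149)) (XT.lf (nat_lit 0) (nat_lit 51557289391) (nat_lit 76) (nat_lit 96929399801) (nat_lit 152) (nat_lit 53712246654) (nat_lit 7) (nat_lit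 5) (nat_lit 8) (nat_lit 5) (nat_lit 9) (nat_lit 4) (nat_lit 300) (nat_lit 272) (nat_lit 148)))) (XT.nd (nat_lit 78) (nat_lit 0) (nat_lit 0) (XT.lf (nat_lit 0) (nat_lit 110085643528) (nat_lit 76) (nat_lit 66540334392) (nat_lit 152) (nat_lit 38669052090) (nat_lit 7) (nat_lit 5) (nat_lit 8) (nat_lit 5) (nat_lit 9) (nat_lit 4) (nat_lit 301) (nat_lit 272) (nat_lit 147)) (XT.nd (nat_lit 78) (nat_lit 0) (nat_lit 0) (XT.lf (nat_lit 0) (nat_lit 173295714999) (nat_lit 76) (nat_lit 33720328628) (nat_lit 152) (nat_lit 22422799968) (nat_lit 7) (nat_lit 5) (nat_lit 8) (nat_lit 5) (nat_lit 9) (nat_lit 4) (nat_lit 302) (nat_lit 272) (nat_lit 146)) (XT.lf (nat_lit 0) (nat_lit 239878464444) (nat_lit 152) (nat_lit 3193598639) (nat_lit 0) (nat_lit 1638809603) (nat_lit 7) (nat_lit 5) (nat_lit 9) (nat_lit 4) (nat_lit 7) (nat_lit 4) (nat_lit 303) (nat_lit 272) (nat_lit 145))))) (XT.nd (nat_lit 234) (nat_lit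 76) (nat_lit 0) (XT.nd (nat_lit 78) (nat_lit 0) (nat_lit 0) (XT.lf (nat_lit 0) (nat_lit 15734511998) (nat_lit 152) (nat_lit 205512874241) (nat_lit 76) (nat_lit 39747794140) (nat_lit 5) (nat_lit 5) (nat_lit 7) (nat_lit 5) (nat_lit 6) (nat_lit 4) (nat_lit 304) (nat_lit 272) (nat_lit 144)) (XT.nd (nat_lit 78) (nat_lit 0) (nat_lit 0) (XT.lf (nat_lit 0) (nat_lit 37774981266) (nat_lit 152) (nat_lit 159669628124) (nat_lit 76) (nat_lit 81120442163) (nat_lit 5) (nat_lit 5) (nat_lit 7) (nat_lit 5) (nat_lit 6) (nat_lit 4) (nat_lit 305) (nat_lit 272) (nat_lit 143)) (XT.lf (nat_lit 0) (nat_lit 61578395766) (nat_lit 152) (nat_lit 110159387038) (nat_lit 76) (nat_lit 125802754770) (nat_lit 5) (nat_lit 5) (nat_lit 7) (nat_lit 5) (nat_lit 6) (nat_lit 4) (nat_lit 306) (nat_lit 272) (nat_lit 142)))) (XT.nd (nat_lit 156) (nat_lit 0) (nat_lit 0) (XT.nd (nat_lit 78) (nat_lit 76) (nat_lit 0) (XT.lf (nat_lit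 0) (nat_lit 87285812770) (nat_lit 152) (nat_lit 56688756961) (nat_lit 76) (nat_lit 174059516036) (nat_lit 5) (nat_lit 5) (nat_lit 7) (nat_lit 5) (nat_lit 6) (nat_lit 4) (nat_lit 307) (nat_lit 272) (nat_lit 141)) (XT.lf (nat_lit 0) (nat_lit 1114896750) (nat_lit 76) (nat_lit 113961489069) (nat_lit 152) (nat_lit 225088608498) (nat_lit 4) (nat_lit 5) (nat_lit 5) (nat_lit 5) (nat_lit 6) (nat_lit 4) (nat_lit 308) (nat_lit 272) (nat_lit 140))) (XT.nd (nat_lit 78) (nat_lit 0) (nat_lit 0) (XT.lf (nat_lit 0) (nat_lit 66766394261) (nat_lit 76) (nat_lit 79873540144) (nat_lit 152) (nat_lit 217302464175) (nat_lit 4) (nat_lit 5) (nat_lit 5) (nat_lit 5) (nat_lit 6) (nat_lit 4) (nat_lit 309) (nat_lit 272) (nat_lit 139)) (XT.lf (nat_lit 0) (nat_lit 137669652003) (nat_lit 76) (nat_lit 43058691372) (nat_lit 152) (nat_lit 208893670990) (nat_lit 4) (nat_lit 5) (nat_lit 5) (nat_lit 5) (nat_lit 6) (nat_lit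 4) (nat_lit 310) (nat_lit 272) (nat_lit 138)))))) (XT.nd (nat_lit 468) (nat_lit 76) (nat_lit 0) (XT.nd (nat_lit 234) (nat_lit 76) (nat_lit 0) (XT.nd (nat_lit 78) (nat_lit 0) (nat_lit 0) (XT.lf (nat_lit 0) (nat_lit 214244837429) (nat_lit 76) (nat_lit 3298780686) (nat_lit 152) (nat_lit 199812399057) (nat_lit 4) (nat_lit 5) (nat_lit 5) (nat_lit 5) (nat_lit 6) (nat_lit 4) (nat_lit 311) (nat_lit 272) (nat_lit 137)) (XT.nd (nat_lit 78) (nat_lit 0) (nat_lit 0) (XT.lf (nat_lit 0) (nat_lit 258257309609) (nat_lit 152) (nat_lit 151316413626) (nat_lit 0) (nat_lit 37658762503) (nat_lit 4) (nat_lit 5) (nat_lit 6) (nat_lit 4) (nat_lit 4) (nat_lit 4) (nat_lit 312) (nat_lit 272) (nat_lit 136)) (XT.lf (nat_lit 0) (nat_lit 302313599015) (nat_lit 152) (nat_lit 95464046900) (nat_lit 0) (nat_lit 81714586697) (nat_lit 4) (nat_lit 5) (nat_lit 6) (nat_lit 4) (nat_lit 4) (nat_lit 4) (nat_lit 313) (nat_lit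 272) (nat_lit 135)))) (XT.nd (nat_lit 78) (nat_lit 76) (nat_lit 0) (XT.lf (nat_lit 0) (nat_lit 349894224886) (nat_lit 152) (nat_lit 35143766824) (nat_lit 0) (nat_lit 129294781817) (nat_lit 4) (nat_lit 5) (nat_lit 6) (nat_lit 4) (nat_lit 4) (nat_lit 4) (nat_lit 314) (nat_lit 272) (nat_lit 134)) (XT.nd (nat_lit 78) (nat_lit 0) (nat_lit 0) (XT.lf (nat_lit 0) (nat_lit 31581725952) (nat_lit 76) (nat_lit 370458961803) (nat_lit 76) (nat_lit 149859119891) (nat_lit 3) (nat_lit 4) (nat_lit 4) (nat_lit 5) (nat_lit 4) (nat_lit 4) (nat_lit 315) (nat_lit 272) (nat_lit 133)) (XT.lf (nat_lit 0) (nat_lit 105643666235) (nat_lit 76) (nat_lit 353675945387) (nat_lit 76) (nat_lit 133075734174) (nat_lit 3) (nat_lit 4) (nat_lit 4) (nat_lit 5) (nat_lit 4) (nat_lit 4) (nat_lit 316) (nat_lit 272) (nat_lit 132))))) (XT.nd (nat_lit 234) (nat_lit 76) (nat_lit 0) (XT.nd (nat_lit 78) (nat_lit 0) (nat_lit 0) (XT.lf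 (nat_lit 0) (nat_lit 185630331117) (nat_lit 76) (nat_lit 335550380414) (nat_lit 76) (nat_lit 114949827256) (nat_lit 3) (nat_lit 4) (nat_lit 4) (nat_lit 5) (nat_lit 4) (nat_lit 4) (nat_lit 317) (nat_lit 272) (nat_lit 131)) (XT.nd (nat_lit 78) (nat_lit 0) (nat_lit 0) (XT.lf (nat_lit 0) (nat_lit 272015715647) (nat_lit 76) (nat_lit 315974856128) (nat_lit 76) (nat_lit 95373986356) (nat_lit 3) (nat_lit 4) (nat_lit 4) (nat_lit 5) (nat_lit 4) (nat_lit 4) (nat_lit 318) (nat_lit 272) (nat_lit 130)) (XT.lf (nat_lit 0) (nat_lit 365311733217) (nat_lit 76) (nat_lit 294833369424) (nat_lit 76) (nat_lit 74232206490) (nat_lit 3) (nat_lit 4) (nat_lit 4) (nat_lit 5) (nat_lit 4) (nat_lit 4) (nat_lit 319) (nat_lit 272) (nat_lit 129)))) (XT.nd (nat_lit 156) (nat_lit 76) (nat_lit 0) (XT.nd (nat_lit 78) (nat_lit 0) (nat_lit 0) (XT.lf (nat_lit 0) (nat_lit 466071249114) (nat_lit 76) (nat_lit 272000637417) (nat_lit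 76) (nat_lit 51399203036) (nat_lit 3) (nat_lit 4) (nat_lit 4) (nat_lit 5) (nat_lit 4) (nat_lit 4) (nat_lit 320) (nat_lit 272) (nat_lit 128)) (XT.lf (nat_lit 0) (nat_lit 574891356768) (nat_lit 76) (nat_lit 247341355028) (nat_lit 76) (nat_lit 26739669307) (nat_lit 3) (nat_lit 4) (nat_lit 4) (nat_lit 5) (nat_lit 4) (nat_lit 4) (nat_lit 321) (nat_lit 272) (nat_lit 127))) (XT.nd (nat_lit 78) (nat_lit 76) (nat_lit 0) (XT.lf (nat_lit 0) (nat_lit 692416916074) (nat_lit 76) (nat_lit 220709393176) (nat_lit 76) (nat_lit 107474734) (nat_lit 3) (nat_lit 4) (nat_lit 4) (nat_lit 5) (nat_lit 4) (nat_lit 4) (nat_lit 322) (nat_lit 272) (nat_lit 126)) (XT.lf (nat_lit 0) (nat_lit 27221751882) (nat_lit 152) (nat_lit 163980890009) (nat_lit 76) (nat_lit 791378331972) (nat_lit 2) (nat_lit 5) (nat_lit 4) (nat_lit 5) (nat_lit 3) (nat_lit 4) (nat_lit 323) (nat_lit 272) (nat_lit 125))))))) (XT.nd (nat_lit 1014)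 (nat_lit 0) (nat_lit 0) (XT.nd (nat_lit 468) (nat_lit 0) (nat_lit 0) (XT.nd (nat_lit 234) (nat_lit 0) (nat_lit 0) (XT.nd (nat_lit 78) (nat_lit 76) (nat_lit 0) (XT.lf (nat_lit 0) (nat_lit 56731427246) (nat_lit 152) (nat_lit 102600964772) (nat_lit 76) (nat_lit 898143330636) (nat_lit 2) (nat_lit 5) (nat_lit 4) (nat_lit 5) (nat_lit 3) (nat_lit 4) (nat_lit 324) (nat_lit 272) (nat_lit 124)) (XT.nd (nat_lit 78) (nat_lit 76) (nat_lit 0) (XT.lf (nat_lit 0) (nat_lit 88601799830) (nat_lit 152) (nat_lit 36310774540) (nat_lit 76) (nat_lit 1013449483503) (nat_lit 2) (nat_lit 5) (nat_lit 4) (nat_lit 5) (nat_lit 3) (nat_lit 4) (nat_lit 325) (nat_lit 272) (nat_lit 123)) (XT.lf (nat_lit 0) (nat_lit 37140425971) (nat_lit 76) (nat_lit 86774533267) (nat_lit 152) (nat_lit 1101732888461) (nat_lit 1) (nat_lit 5) (nat_lit 2) (nat_lit 5) (nat_lit 3) (nat_lit 4) (nat_lit 326) (nat_lit 272) (nat_lit 122))))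 (XT.nd (nat_lit 78) (nat_lit 0) (nat_lit 0) (XT.lf (nat_lit 0) (nat_lit 118532632004) (nat_lit 76) (nat_lit 44513271666) (nat_lit 152) (nat_lit 1156791178784) (nat_lit 1) (nat_lit 5) (nat_lit 2) (nat_lit 5) (nat_lit 3) (nat_lit 4) (nat_lit 327) (nat_lit 272) (nat_lit 121)) (XT.nd (nat_lit 78) (nat_lit 0) (nat_lit 0) (XT.lf (nat_lit 0) (nat_lit 205334408879) (nat_lit 152) (nat_lit 1215152503464) (nat_lit 0) (nat_lit 1072377132) (nat_lit 1) (nat_lit 5) (nat_lit 3) (nat_lit 4) (nat_lit 1) (nat_lit 4) (nat_lit 328) (nat_lit 272) (nat_lit 120)) (XT.lf (nat_lit 0) (nat_lit 252162123534) (nat_lit 152) (nat_lit 1231264693424) (nat_lit 0) (nat_lit 47899966055) (nat_lit 1) (nat_lit 5) (nat_lit 3) (nat_lit 4) (nat_lit 1) (nat_lit 4) (nat_lit 329) (nat_lit 272) (nat_lit 119))))) (XT.nd (nat_lit 234) (nat_lit 0) (nat_lit 0) (XT.nd (nat_lit 78) (nat_lit 0) (nat_lit 0) (XT.lf (nat_lit 0) (nat_lit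 302735999950) (nat_lit 152) (nat_lit 1248665954722) (nat_lit 0) (nat_lit 98473726053) (nat_lit 1) (nat_lit 5) (nat_lit 3) (nat_lit 4) (nat_lit 1) (nat_lit 4) (nat_lit 330) (nat_lit 272) (nat_lit 118)) (XT.nd (nat_lit 78) (nat_lit 0) (nat_lit 0) (XT.lf (nat_lit 0) (nat_lit 357355735174) (nat_lit 152) (nat_lit 1267459405943) (nat_lit 0) (nat_lit 153093353481) (nat_lit 1) (nat_lit 5) (nat_lit 3) (nat_lit 4) (nat_lit 1) (nat_lit 4) (nat_lit 331) (nat_lit 272) (nat_lit 117)) (XT.lf (nat_lit 0) (nat_lit 416345001709) (nat_lit 152) (nat_lit 1287756415687) (nat_lit 0) (nat_lit 212082520206) (nat_lit 1) (nat_lit 5) (nat_lit 3) (nat_lit 4) (nat_lit 1) (nat_lit 4) (nat_lit 332) (nat_lit 272) (nat_lit 116)))) (XT.nd (nat_lit 156) (nat_lit 0) (nat_lit 0) (XT.nd (nat_lit 78) (nat_lit 0) (nat_lit 0) (XT.lf (nat_lit 0) (nat_lit 480053365580) (nat_lit 152) (nat_lit 1309677262531) (nat_lit 0) (nat_lit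 275790791660) (nat_lit 1) (nat_lit 5) (nat_lit 3) (nat_lit 4) (nat_lit 1) (nat_lit 4) (nat_lit 333) (nat_lit 272) (nat_lit 115)) (XT.lf (nat_lit 0) (nat_lit 548858357832) (nat_lit 152) (nat_lit 1333351847789) (nat_lit 0) (nat_lit 344595698341) (nat_lit 1) (nat_lit 5) (nat_lit 3) (nat_lit 4) (nat_lit 1) (nat_lit 4) (nat_lit 334) (nat_lit 272) (nat_lit 114))) (XT.nd (nat_lit 78) (nat_lit 0) (nat_lit 0) (XT.lf (nat_lit 0) (nat_lit 623167711752) (nat_lit 152) (nat_lit 1358920465299) (nat_lit 0) (nat_lit 418904973029) (nat_lit 1) (nat_lit 5) (nat_lit 3) (nat_lit 4) (nat_lit 1) (nat_lit 4) (nat_lit 335) (nat_lit 272) (nat_lit 113)) (XT.lf (nat_lit 0) (nat_lit 703421779068) (nat_lit 152) (nat_lit 1386534632796) (nat_lit 0) (nat_lit 499158966981) (nat_lit 1) (nat_lit 5) (nat_lit 3) (nat_lit 4) (nat_lit 1) (nat_lit 4) (nat_lit 336) (nat_lit 272) (nat_lit 112)))))) (XT.nd (nat_lit 32994) (nat_lit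 0) (nat_lit 1216) (XT.nd (nat_lit 32682) (nat_lit 0) (nat_lit 1976) (XT.nd (nat_lit 32526) (nat_lit 0) (nat_lit 1976) (XT.lf (nat_lit 0) (nat_lit 790096139437) (nat_lit 152) (nat_lit 1416357989790) (nat_lit 0) (nat_lit 585833259421) (nat_lit 1) (nat_lit 5) (nat_lit 3) (nat_lit 4) (nat_lit 1) (nat_lit 4) (nat_lit 337) (nat_lit 272) (nat_lit 111)) (XT.nd (nat_lit 78) (nat_lit 0) (nat_lit 0) (XT.lf (nat_lit 0) (nat_lit 11112789317) (nat_lit 0) (nat_lit 11112789317) (nat_lit 380) (nat_lit 4009531106) (nat_lit 27) (nat_lit 5) (nat_lit 27) (nat_lit 3) (nat_lit 32) (nat_lit 3) (nat_lit 273) (nat_lit 273) (nat_lit 174)) (XT.lf (nat_lit 0) (nat_lit 43699112868) (nat_lit 0) (nat_lit 2549447377) (nat_lit 380) (nat_lit 8318695358) (nat_lit 27) (nat_lit 5) (nat_lit 27) (nat_lit 3) (nat_lit 32) (nat_lit 3) (nat_lit 274) (nat_lit 273) (nat_lit 173)))) (XT.nd (nat_lit 156) (nat_lit 0) (nat_lit 76)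 (XT.nd (nat_lit 78) (nat_lit 0) (nat_lit 0) (XT.lf (nat_lit 76) (nat_lit 10113468886) (nat_lit 0) (nat_lit 38767356505) (nat_lit 456) (nat_lit 7895966052) (nat_lit 28) (nat_lit 5) (nat_lit 27) (nat_lit 5) (nat_lit 33) (nat_lit 5) (nat_lit 275) (nat_lit 273) (nat_lit 172)) (XT.lf (nat_lit 76) (nat_lit 33320844591) (nat_lit 0) (nat_lit 18762725426) (nat_lit 456) (nat_lit 7050749035) (nat_lit 28) (nat_lit 5) (nat_lit 27) (nat_lit 5) (nat_lit 33) (nat_lit 5) (nat_lit 276) (nat_lit 273) (nat_lit 171))) (XT.nd (nat_lit 78) (nat_lit 0) (nat_lit 0) (XT.lf (nat_lit 0) (nat_lit 55609239985) (nat_lit 380) (nat_lit 3365217448) (nat_lit 456) (nat_lit 2700674200) (nat_lit 28) (nat_lit 5) (nat_lit 33) (nat_lit 5) (nat_lit 34) (nat_lit 5) (nat_lit 277) (nat_lit 273) (nat_lit 170)) (XT.lf (nat_lit 76) (nat_lit 21464148662) (nat_lit 0) (nat_lit 38954842955) (nat_lit 456) (nat_lit 3920073156) (nat_lit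 29) (nat_lit 5) (nat_lit 28) (nat_lit 5) (nat_lit 34) (nat_lit 5) (nat_lit 278) (nat_lit 273) (nat_lit 169))))) (XT.nd (nat_lit 234) (nat_lit 456) (nat_lit 0) (XT.nd (nat_lit 78) (nat_lit 380) (nat_lit 0) (XT.lf (nat_lit 76) (nat_lit 48470144014) (nat_lit 0) (nat_lit 17233948350) (nat_lit 456) (nat_lit 1504791164) (nat_lit 29) (nat_lit 5) (nat_lit 28) (nat_lit 5) (nat_lit 34) (nat_lit 5) (nat_lit 279) (nat_lit 273) (nat_lit 168)) (XT.nd (nat_lit 78) (nat_lit 0) (nat_lit 0) (XT.lf (nat_lit 0) (nat_lit 1387143113) (nat_lit 456) (nat_lit 62761582557) (nat_lit 76) (nat_lit 6130361342) (nat_lit 23) (nat_lit 5) (nat_lit 29) (nat_lit 5) (nat_lit 24) (nat_lit 5) (nat_lit 280) (nat_lit 273) (nat_lit 167)) (XT.lf (nat_lit 0) (nat_lit 5401125149) (nat_lit 456) (nat_lit 37115213792) (nat_lit 76) (nat_lit 30997694812) (nat_lit 23) (nat_lit 5) (nat_lit 29) (nat_lit 5) (nat_lit 24) (nat_lit 5) (nat_lit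 281) (nat_lit 273) (nat_lit 166)))) (XT.nd (nat_lit 156) (nat_lit 228) (nat_lit 0) (XT.nd (nat_lit 78) (nat_lit 228) (nat_lit 0) (XT.lf (nat_lit 0) (nat_lit 9735019873) (nat_lit 456) (nat_lit 9418249786) (nat_lit 76) (nat_lit 57854615159) (nat_lit 23) (nat_lit 5) (nat_lit 29) (nat_lit 5) (nat_lit 24) (nat_lit 5) (nat_lit 282) (nat_lit 273) (nat_lit 165)) (XT.lf (nat_lit 0) (nat_lit 15093005170) (nat_lit 304) (nat_lit 59326925268) (nat_lit 76) (nat_lit 6307134428) (nat_lit 20) (nat_lit 5) (nat_lit 24) (nat_lit 5) (nat_lit 21) (nat_lit 5) (nat_lit 283) (nat_lit 273) (nat_lit 164))) (XT.nd (nat_lit 78) (nat_lit 228) (nat_lit 0) (XT.lf (nat_lit 0) (nat_lit 21640260299) (nat_lit 304) (nat_lit 30008832071) (nat_lit 76) (nat_lit 33033846852) (nat_lit 20) (nat_lit 5) (nat_lit 24) (nat_lit 5) (nat_lit 21) (nat_lit 5) (nat_lit 284) (nat_lit 273) (nat_lit 163)) (XT.lf (nat_lit 0) (nat_lit 1740768607)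 (nat_lit 228) (nat_lit 27011414271) (nat_lit 304) (nat_lit 60199839304) (nat_lit 17) (nat_lit 5) (nat_lit 20) (nat_lit 5) (nat_lit 21) (nat_lit 5) (nat_lit 285) (nat_lit 273) (nat_lit 162))))))))
noncomputable def xc105 : XT := (XT.nd (nat_lit 2106) (nat_lit 228) (nat_lit 0) (XT.nd (nat_lit 1014) (nat_lit 304) (nat_lit 0) (XT.nd (nat_lit 468) (nat_lit 380) (nat_lit 0) (XT.nd (nat_lit 234) (nat_lit 152) (nat_lit 0) (XT.nd (nat_lit 78) (nat_lit 152) (nat_lit 0) (XT.lf (nat_lit 0) (nat_lit 37264248513) (nat_lit 304) (nat_lit 55772728262) (nat_lit 76) (nat_lit 459168767) (nat_lit 17) (nat_lit 5) (nat_lit 21) (nat_lit 5) (nat_lit 18) (nat_lit 5) (nat_lit 286) (nat_lit 273) (nat_lit 161)) (XT.nd (nat_lit 78) (nat_lit 152) (nat_lit 0) (XT.lf (nat_lit 0) (nat_lit 47158012098) (nat_lit 304) (nat_lit 22521712568) (nat_lit 76) (nat_lit 28668023734) (nat_lit 17) (nat_lit 5) (nat_lit 21) (nat_lit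 5) (nat_lit 18) (nat_lit 5) (nat_lit 287) (nat_lit 273) (nat_lit 160)) (XT.lf (nat_lit 0) (nat_lit 14093474390) (nat_lit 152) (nat_lit 44087952186) (nat_lit 228) (nat_lit 45379008560) (nat_lit 15) (nat_lit 5) (nat_lit 17) (nat_lit 5) (nat_lit 18) (nat_lit 5) (nat_lit 288) (nat_lit 273) (nat_lit 159)))) (XT.nd (nat_lit 78) (nat_lit 152) (nat_lit 0) (XT.lf (nat_lit 0) (nat_lit 54917806758) (nat_lit 152) (nat_lit 15783929926) (nat_lit 228) (nat_lit 38439205399) (nat_lit 15) (nat_lit 5) (nat_lit 17) (nat_lit 5) (nat_lit 18) (nat_lit 5) (nat_lit 289) (nat_lit 273) (nat_lit 158)) (XT.nd (nat_lit 78) (nat_lit 152) (nat_lit 0) (XT.lf (nat_lit 0) (nat_lit 84578529348) (nat_lit 228) (nat_lit 16516261912) (nat_lit 76) (nat_lit 14044716250) (nat_lit 15) (nat_lit 5) (nat_lit 18) (nat_lit 5) (nat_lit 16) (nat_lit 5) (nat_lit 290) (nat_lit 273) (nat_lit 157)) (XT.lf (nat_lit 0) (nat_lit 25049437048)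 (nat_lit 152) (nat_lit 75527784806) (nat_lit 228) (nat_lit 20959801863) (nat_lit 13) (nat_lit 5) (nat_lit 15) (nat_lit 5) (nat_lit 16) (nat_lit 5) (nat_lit 291) (nat_lit 273) (nat_lit 156))))) (XT.nd (nat_lit 234) (nat_lit 152) (nat_lit 0) (XT.nd (nat_lit 78) (nat_lit 228) (nat_lit 0) (XT.lf (nat_lit 0) (nat_lit 70878880883) (nat_lit 152) (nat_lit 47427886580) (nat_lit 228) (nat_lit 10103502753) (nat_lit 13) (nat_lit 5) (nat_lit 15) (nat_lit 5) (nat_lit 16) (nat_lit 5) (nat_lit 292) (nat_lit 273) (nat_lit 155)) (XT.nd (nat_lit 78) (nat_lit 152) (nat_lit 0) (XT.lf (nat_lit 0) (nat_lit 1539596498) (nat_lit 228) (nat_lit 15498470740) (nat_lit 76) (nat_lit 118792242606) (nat_lit 12) (nat_lit 5) (nat_lit 15) (nat_lit 5) (nat_lit 13) (nat_lit 5) (nat_lit 293) (nat_lit 273) (nat_lit 154)) (XT.lf (nat_lit 0) (nat_lit 14723841483) (nat_lit 228) (nat_lit 112974469261) (nat_lit 76) (nat_lit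 16032208111) (nat_lit 10) (nat_lit 5) (nat_lit 13) (nat_lit 5) (nat_lit 11) (nat_lit 5) (nat_lit 294) (nat_lit 273) (nat_lit 153)))) (XT.nd (nat_lit 156) (nat_lit 152) (nat_lit 0) (XT.nd (nat_lit 78) (nat_lit 0) (nat_lit 0) (XT.lf (nat_lit 0) (nat_lit 29839600168) (nat_lit 228) (nat_lit 71090803014) (nat_lit 76) (nat_lit 51262203601) (nat_lit 10) (nat_lit 5) (nat_lit 13) (nat_lit 5) (nat_lit 11) (nat_lit 5) (nat_lit 295) (nat_lit 273) (nat_lit 152)) (XT.lf (nat_lit 0) (nat_lit 46164123811) (nat_lit 228) (nat_lit 25857136392) (nat_lit 76) (nat_lit 89310445020) (nat_lit 10) (nat_lit 5) (nat_lit 13) (nat_lit 5) (nat_lit 11) (nat_lit 5) (nat_lit 296) (nat_lit 273) (nat_lit 151))) (XT.nd (nat_lit 78) (nat_lit 0) (nat_lit 0) (XT.lf (nat_lit 0) (nat_lit 24205435898) (nat_lit 152) (nat_lit 40170855747) (nat_lit 228) (nat_lit 106779108845) (nat_lit 8) (nat_lit 5) (nat_lit 10) (nat_lit 5) (nat_lit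 11) (nat_lit 5) (nat_lit 297) (nat_lit 273) (nat_lit 150)) (XT.lf (nat_lit 0) (nat_lit 79742906878) (nat_lit 152) (nat_lit 5009065906) (nat_lit 228) (nat_lit 96956498679) (nat_lit 8) (nat_lit 5) (nat_lit 10) (nat_lit 5) (nat_lit 11) (nat_lit 5) (nat_lit 298) (nat_lit 273) (nat_lit 149)))))) (XT.nd (nat_lit 546) (nat_lit 76) (nat_lit 0) (XT.nd (nat_lit 234) (nat_lit 152) (nat_lit 0) (XT.nd (nat_lit 78) (nat_lit 76) (nat_lit 0) (XT.lf (nat_lit 0) (nat_lit 107550121918) (nat_lit 228) (nat_lit 54175848199) (nat_lit 76) (nat_lit 31316427948) (nat_lit 8) (nat_lit 5) (nat_lit 11) (nat_lit 5) (nat_lit 9) (nat_lit 4) (nat_lit 299) (nat_lit 273) (nat_lit 148)) (XT.nd (nat_lit 78) (nat_lit 76) (nat_lit 0) (XT.lf (nat_lit 0) (nat_lit 132301847494) (nat_lit 228) (nat_lit 2693625417) (nat_lit 76) (nat_lit 70277190730) (nat_lit 8) (nat_lit 5) (nat_lit 11) (nat_lit 5) (nat_lit 9) (nat_lit 4) (nat_lit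 300) (nat_lit 273) (nat_lit 147)) (XT.lf (nat_lit 0) (nat_lit 55692622276) (nat_lit 76) (nat_lit 104680144879) (nat_lit 152) (nat_lit 58001461426) (nat_lit 7) (nat_lit 5) (nat_lit 8) (nat_lit 5) (nat_lit 9) (nat_lit 4) (nat_lit 301) (nat_lit 273) (nat_lit 146)))) (XT.nd (nat_lit 156) (nat_lit 152) (nat_lit 0) (XT.nd (nat_lit 78) (nat_lit 0) (nat_lit 0) (XT.lf (nat_lit 0) (nat_lit 118902448467) (nat_lit 76) (nat_lit 71860221415) (nat_lit 152) (nat_lit 41755386479) (nat_lit 7) (nat_lit 5) (nat_lit 8) (nat_lit 5) (nat_lit 9) (nat_lit 4) (nat_lit 302) (nat_lit 273) (nat_lit 145)) (XT.lf (nat_lit 0) (nat_lit 187168588362) (nat_lit 76) (nat_lit 36414862578) (nat_lit 152) (nat_lit 24209966763) (nat_lit 7) (nat_lit 5) (nat_lit 8) (nat_lit 5) (nat_lit 9) (nat_lit 4) (nat_lit 303) (nat_lit 273) (nat_lit 144))) (XT.nd (nat_lit 78) (nat_lit 152) (nat_lit 0) (XT.lf (nat_lit 0) (nat_lit 259074480667)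 (nat_lit 152) (nat_lit 3440128038) (nat_lit 0) (nat_lit 1772634416) (nat_lit 7) (nat_lit 5) (nat_lit 9) (nat_lit 4) (nat_lit 7) (nat_lit 4) (nat_lit 304) (nat_lit 273) (nat_lit 143)) (XT.lf (nat_lit 0) (nat_lit 16998975794) (nat_lit 152) (nat_lit 221944837673) (nat_lit 76) (nat_lit 42930490605) (nat_lit 5) (nat_lit 5) (nat_lit 7) (nat_lit 5) (nat_lit 6) (nat_lit 4) (nat_lit 305) (nat_lit 273) (nat_lit 142))))) (XT.nd (nat_lit 234) (nat_lit 76) (nat_lit 0) (XT.nd (nat_lit 78) (nat_lit 0) (nat_lit 0) (XT.lf (nat_lit 0) (nat_lit 40802260171) (nat_lit 152) (nat_lit 172434803460) (nat_lit 76) (nat_lit 87612737660) (nat_lit 5) (nat_lit 5) (nat_lit 7) (nat_lit 5) (nat_lit 6) (nat_lit 4) (nat_lit 306) (nat_lit 273) (nat_lit 141)) (XT.nd (nat_lit 78) (nat_lit 0) (nat_lit 0) (XT.lf (nat_lit 0) (nat_lit 66509556690) (nat_lit 152) (nat_lit 118964364932) (nat_lit 76) (nat_lit 135869438229) (nat_lit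 5) (nat_lit 5) (nat_lit 7) (nat_lit 5) (nat_lit 6) (nat_lit 4) (nat_lit 307) (nat_lit 273) (nat_lit 140)) (XT.lf (nat_lit 0) (nat_lit 94273204886) (nat_lit 152) (nat_lit 61216660232) (nat_lit 76) (nat_lit 187986557947) (nat_lit 5) (nat_lit 5) (nat_lit 7) (nat_lit 5) (nat_lit 6) (nat_lit 4) (nat_lit 308) (nat_lit 273) (nat_lit 139)))) (XT.nd (nat_lit 156) (nat_lit 0) (nat_lit 0) (XT.nd (nat_lit 78) (nat_lit 0) (nat_lit 0) (XT.lf (nat_lit 0) (nat_lit 1211103566) (nat_lit 76) (nat_lit 123075753586) (nat_lit 152) (nat_lit 243090962507) (nat_lit 4) (nat_lit 5) (nat_lit 5) (nat_lit 5) (nat_lit 6) (nat_lit 4) (nat_lit 309) (nat_lit 273) (nat_lit 138)) (XT.lf (nat_lit 0) (nat_lit 72114201243) (nat_lit 76) (nat_lit 86260965385) (nat_lit 152) (nat_lit 234682277354) (nat_lit 4) (nat_lit 5) (nat_lit 5) (nat_lit 5) (nat_lit 6) (nat_lit 4) (nat_lit 310) (nat_lit 273) (nat_lit 137))) (XT.nd (nat_lit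 78) (nat_lit 0) (nat_lit 0) (XT.lf (nat_lit 0) (nat_lit 148689238461) (nat_lit 76) (nat_lit 46501110783) (nat_lit 152) (nat_lit 225601105452) (nat_lit 4) (nat_lit 5) (nat_lit 5) (nat_lit 5) (nat_lit 6) (nat_lit 4) (nat_lit 311) (nat_lit 273) (nat_lit 136)) (XT.lf (nat_lit 0) (nat_lit 231389993217) (nat_lit 76) (nat_lit 3560575827) (nat_lit 152) (nat_lit 215793632447) (nat_lit 4) (nat_lit 5) (nat_lit 5) (nat_lit 5) (nat_lit 6) (nat_lit 4) (nat_lit 312) (nat_lit 273) (nat_lit 135))))))) (XT.nd (nat_lit 1014) (nat_lit 76) (nat_lit 0) (XT.nd (nat_lit 468) (nat_lit 76) (nat_lit 0) (XT.nd (nat_lit 234) (nat_lit 76) (nat_lit 0) (XT.nd (nat_lit 78) (nat_lit 0) (nat_lit 0) (XT.lf (nat_lit 0) (nat_lit 278921146378) (nat_lit 152) (nat_lit 163416342301) (nat_lit 0) (nat_lit 40673317112) (nat_lit 4) (nat_lit 5) (nat_lit 6) (nat_lit 4) (nat_lit 4) (nat_lit 4) (nat_lit 313) (nat_lit 273) (nat_lit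 134)) (XT.nd (nat_lit 78) (nat_lit 0) (nat_lit 0) (XT.lf (nat_lit 0) (nat_lit 326501698048) (nat_lit 152) (nat_lit 103096185083) (nat_lit 0) (nat_lit 88253469938) (nat_lit 4) (nat_lit 5) (nat_lit 6) (nat_lit 4) (nat_lit 4) (nat_lit 4) (nat_lit 314) (nat_lit 273) (nat_lit 133)) (XT.lf (nat_lit 0) (nat_lit 377888550943) (nat_lit 152) (nat_lit 37950651902) (nat_lit 0) (nat_lit 139639953533) (nat_lit 4) (nat_lit 5) (nat_lit 6) (nat_lit 4) (nat_lit 4) (nat_lit 4) (nat_lit 315) (nat_lit 273) (nat_lit 132)))) (XT.nd (nat_lit 78) (nat_lit 0) (nat_lit 0) (XT.lf (nat_lit 0) (nat_lit 34112763428) (nat_lit 76) (nat_lit 400093869101) (nat_lit 76) (nat_lit 161844929747) (nat_lit 3) (nat_lit 4) (nat_lit 4) (nat_lit 5) (nat_lit 4) (nat_lit 4) (nat_lit 316) (nat_lit 273) (nat_lit 131)) (XT.nd (nat_lit 78) (nat_lit 0) (nat_lit 0) (XT.lf (nat_lit 0) (nat_lit 114099325646) (nat_lit 76) (nat_lit 381968345419)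 (nat_lit 76) (nat_lit 143719089450) (nat_lit 3) (nat_lit 4) (nat_lit 4) (nat_lit 5) (nat_lit 4) (nat_lit 4) (nat_lit 317) (nat_lit 273) (nat_lit 130)) (XT.lf (nat_lit 0) (nat_lit 200484615117) (nat_lit 76) (nat_lit 362392859366) (nat_lit 76) (nat_lit 124143310235) (nat_lit 3) (nat_lit 4) (nat_lit 4) (nat_lit 5) (nat_lit 4) (nat_lit 4) (nat_lit 318) (nat_lit 273) (nat_lit 129))))) (XT.nd (nat_lit 234) (nat_lit 76) (nat_lit 0) (XT.nd (nat_lit 78) (nat_lit 0) (nat_lit 0) (XT.lf (nat_lit 0) (nat_lit 293780544668) (nat_lit 76) (nat_lit 341251408063) (nat_lit 76) (nat_lit 103001587485) (nat_lit 3) (nat_lit 4) (nat_lit 4) (nat_lit 5) (nat_lit 4) (nat_lit 4) (nat_lit 319) (nat_lit 273) (nat_lit 128)) (XT.nd (nat_lit 78) (nat_lit 0) (nat_lit 0) (XT.lf (nat_lit 0) (nat_lit 394539979068) (nat_lit 76) (nat_lit 318418708834) (nat_lit 76) (nat_lit 80168636916) (nat_lit 3) (nat_lit 4) (nat_lit 4)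 (nat_lit 5) (nat_lit 4) (nat_lit 4) (nat_lit 320) (nat_lit 273) (nat_lit 127)) (XT.lf (nat_lit 0) (nat_lit 503360011260) (nat_lit 76) (nat_lit 293759456795) (nat_lit 76) (nat_lit 55509152156) (nat_lit 3) (nat_lit 4) (nat_lit 4) (nat_lit 5) (nat_lit 4) (nat_lit 4) (nat_lit 321) (nat_lit 273) (nat_lit 126)))) (XT.nd (nat_lit 156) (nat_lit 76) (nat_lit 0) (XT.nd (nat_lit 78) (nat_lit 0) (nat_lit 0) (XT.lf (nat_lit 0) (nat_lit 620885500695) (nat_lit 76) (nat_lit 267127523046) (nat_lit 76) (nat_lit 28877002924) (nat_lit 3) (nat_lit 4) (nat_lit 4) (nat_lit 5) (nat_lit 4) (nat_lit 4) (nat_lit 322) (nat_lit 273) (nat_lit 125)) (XT.lf (nat_lit 0) (nat_lit 747812894717) (nat_lit 76) (nat_lit 238365088719) (nat_lit 76) (nat_lit 114369076) (nat_lit 3) (nat_lit 4) (nat_lit 4) (nat_lit 5) (nat_lit 4) (nat_lit 4) (nat_lit 323) (nat_lit 273) (nat_lit 124))) (XT.nd (nat_lit 78) (nat_lit 0) (nat_lit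 0) (XT.lf (nat_lit 0) (nat_lit 29400990564) (nat_lit 152) (nat_lit 177096844010) (nat_lit 76) (nat_lit 854689489911) (nat_lit 2) (nat_lit 5) (nat_lit 4) (nat_lit 5) (nat_lit 3) (nat_lit 4) (nat_lit 324) (nat_lit 273) (nat_lit 123)) (XT.lf (nat_lit 0) (nat_lit 61271328956) (nat_lit 152) (nat_lit 110806711213) (nat_lit 76) (nat_lit 969995622440) (nat_lit 2) (nat_lit 5) (nat_lit 4) (nat_lit 5) (nat_lit 3) (nat_lit 4) (nat_lit 325) (nat_lit 273) (nat_lit 122)))))) (XT.nd (nat_lit 546) (nat_lit 0) (nat_lit 0) (XT.nd (nat_lit 234) (nat_lit 0) (nat_lit 0) (XT.nd (nat_lit 78) (nat_lit 76) (nat_lit 0) (XT.lf (nat_lit 0) (nat_lit 95691228566) (nat_lit 152) (nat_lit 39213478409) (nat_lit 76) (nat_lit 1094526206399) (nat_lit 2) (nat_lit 5) (nat_lit 4) (nat_lit 5) (nat_lit 3) (nat_lit 4) (nat_lit 326) (nat_lit 273) (nat_lit 121)) (XT.nd (nat_lit 78) (nat_lit 0) (nat_lit 0) (XT.lf (nat_lit 0) (nat_lit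 40113763507) (nat_lit 76) (nat_lit 93715632641) (nat_lit 152) (nat_lit 1189870174275) (nat_lit 1) (nat_lit 5) (nat_lit 2) (nat_lit 5) (nat_lit 3) (nat_lit 4) (nat_lit 327) (nat_lit 273) (nat_lit 120)) (XT.lf (nat_lit 0) (nat_lit 128017190211) (nat_lit 76) (nat_lit 48073534060) (nat_lit 152) (nat_lit 1249333227474) (nat_lit 1) (nat_lit 5) (nat_lit 2) (nat_lit 5) (nat_lit 3) (nat_lit 4) (nat_lit 328) (nat_lit 273) (nat_lit 119)))) (XT.nd (nat_lit 156) (nat_lit 0) (nat_lit 0) (XT.nd (nat_lit 78) (nat_lit 0) (nat_lit 0) (XT.lf (nat_lit 0) (nat_lit 221762242636) (nat_lit 152) (nat_lit 1312362828066) (nat_lit 0) (nat_lit 1158870408) (nat_lit 1) (nat_lit 5) (nat_lit 3) (nat_lit 4) (nat_lit 1) (nat_lit 4) (nat_lit 329) (nat_lit 273) (nat_lit 118)) (XT.lf (nat_lit 0) (nat_lit 272336094386) (nat_lit 152) (nat_lit 1329764132161) (nat_lit 0) (nat_lit 51732614363) (nat_lit 1) (nat_lit 5) (nat_lit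 3) (nat_lit 4) (nat_lit 1) (nat_lit 4) (nat_lit 330) (nat_lit 273) (nat_lit 117))) (XT.nd (nat_lit 78) (nat_lit 0) (nat_lit 0) (XT.lf (nat_lit 0) (nat_lit 326955806770) (nat_lit 152) (nat_lit 1348557623010) (nat_lit 0) (nat_lit 106352226937) (nat_lit 1) (nat_lit 5) (nat_lit 3) (nat_lit 4) (nat_lit 1) (nat_lit 4) (nat_lit 331) (nat_lit 273) (nat_lit 116)) (XT.lf (nat_lit 0) (nat_lit 385945052158) (nat_lit 152) (nat_lit 1368854669447) (nat_lit 0) (nat_lit 165341379907) (nat_lit 1) (nat_lit 5) (nat_lit 3) (nat_lit 4) (nat_lit 1) (nat_lit 4) (nat_lit 332) (nat_lit 273) (nat_lit 115))))) (XT.nd (nat_lit 234) (nat_lit 0) (nat_lit 0) (XT.nd (nat_lit 78) (nat_lit 0) (nat_lit 0) (XT.lf (nat_lit 0) (nat_lit 449653396448) (nat_lit 152) (nat_lit 1390775550265) (nat_lit 0) (nat_lit 229049638626) (nat_lit 1) (nat_lit 5) (nat_lit 3) (nat_lit 4) (nat_lit 1) (nat_lit 4) (nat_lit 333) (nat_lit 273)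 (nat_lit 114)) (XT.nd (nat_lit 78) (nat_lit 0) (nat_lit 0) (XT.lf (nat_lit 0) (nat_lit 518458370569) (nat_lit 152) (nat_lit 1414450166980) (nat_lit 0) (nat_lit 297854533515) (nat_lit 1) (nat_lit 5) (nat_lit 3) (nat_lit 4) (nat_lit 1) (nat_lit 4) (nat_lit 334) (nat_lit 273) (nat_lit 113)) (XT.lf (nat_lit 0) (nat_lit 592767707702) (nat_lit 152) (nat_lit 1440018813618) (nat_lit 0) (nat_lit 372163797284) (nat_lit 1) (nat_lit 5) (nat_lit 3) (nat_lit 4) (nat_lit 1) (nat_lit 4) (nat_lit 335) (nat_lit 273) (nat_lit 112)))) (XT.nd (nat_lit 32760) (nat_lit 0) (nat_lit 1976) (XT.nd (nat_lit 32682) (nat_lit 0) (nat_lit 1976) (XT.lf (nat_lit 0) (nat_lit 673021759473) (nat_lit 152) (nat_lit 1467633008085) (nat_lit 0) (nat_lit 452417781126) (nat_lit 1) (nat_lit 5) (nat_lit 3) (nat_lit 4) (nat_lit 1) (nat_lit 4) (nat_lit 336) (nat_lit 273) (nat_lit 111)) (XT.lf (nat_lit 0) (nat_lit 12011258041) (nat_lit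 0) (nat_lit 12011258041) (nat_lit 380) (nat_lit 4309672413) (nat_lit 27) (nat_lit 5) (nat_lit 27) (nat_lit 3) (nat_lit 32) (nat_lit 3) (nat_lit 274) (nat_lit 274) (nat_lit 172))) (XT.nd (nat_lit 78) (nat_lit 0) (nat_lit 0) (XT.lf (nat_lit 0) (nat_lit 47212533710) (nat_lit 0) (nat_lit 2770894979) (nat_lit 380) (nat_lit 8946003613) (nat_lit 27) (nat_lit 5) (nat_lit 27) (nat_lit 3) (nat_lit 32) (nat_lit 3) (nat_lit 275) (nat_lit 274) (nat_lit 171)) (XT.lf (nat_lit 76) (nat_lit 10943128049) (nat_lit 0) (nat_lit 41880661092) (nat_lit 456) (nat_lit 8492170747) (nat_lit 28) (nat_lit 5) (nat_lit 27) (nat_lit 5) (nat_lit 33) (nat_lit 5) (nat_lit 276) (nat_lit 274) (nat_lit 170))))))))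
noncomputable def xc106 : XT := (XT.nd (nat_lit 2106) (nat_lit 456) (nat_lit 0) (XT.nd (nat_lit 1014) (nat_lit 608) (nat_lit 0) (XT.nd (nat_lit 468) (nat_lit 608) (nat_lit 0) (XT.nd (nat_lit 234) (nat_lit 304) (nat_lit 0) (XT.nd (nat_lit 78) (nat_lit 0) (nat_lit 76) (XT.lf (nat_lit 76) (nat_lit 36005569243) (nat_lit 0) (nat_lit 20274776855) (nat_lit 456) (nat_lit 7581963968) (nat_lit 28) (nat_lit 5) (nat_lit 27) (nat_lit 5) (nat_lit 33) (nat_lit 5) (nat_lit 277) (nat_lit 274) (nat_lit 169)) (XT.nd (nat_lit 78) (nat_lit 0) (nat_lit 0) (XT.lf (nat_lit 0) (nat_lit 60085595040) (nat_lit 380) (nat_lit 3613993224) (nat_lit 456) (nat_lit 2907023081) (nat_lit 28) (nat_lit 5) (nat_lit 33) (nat_lit 5) (nat_lit 34) (nat_lit 5) (nat_lit 278) (nat_lit 274) (nat_lit 168)) (XT.lf (nat_lit 76) (nat_lit 23201204665) (nat_lit 0) (nat_lit 42077355695) (nat_lit 456) (nat_lit 4205247912) (nat_lit 29)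 (nat_lit 5) (nat_lit 28) (nat_lit 5) (nat_lit 34) (nat_lit 5) (nat_lit 279) (nat_lit 274) (nat_lit 167)))) (XT.nd (nat_lit 78) (nat_lit 380) (nat_lit 0) (XT.lf (nat_lit 76) (nat_lit 52366203785) (nat_lit 0) (nat_lit 18618335795) (nat_lit 456) (nat_lit 1598849368) (nat_lit 29) (nat_lit 5) (nat_lit 28) (nat_lit 5) (nat_lit 34) (nat_lit 5) (nat_lit 280) (nat_lit 274) (nat_lit 166)) (XT.nd (nat_lit 78) (nat_lit 0) (nat_lit 0) (XT.lf (nat_lit 0) (nat_lit 1521640724) (nat_lit 456) (nat_lit 67760770381) (nat_lit 76) (nat_lit 6616884426) (nat_lit 23) (nat_lit 5) (nat_lit 29) (nat_lit 5) (nat_lit 24) (nat_lit 5) (nat_lit 281) (nat_lit 274) (nat_lit 165)) (XT.lf (nat_lit 0) (nat_lit 5854998645) (nat_lit 456) (nat_lit 40064302395) (nat_lit 76) (nat_lit 33473893894) (nat_lit 23) (nat_lit 5) (nat_lit 29) (nat_lit 5) (nat_lit 24) (nat_lit 5) (nat_lit 282) (nat_lit 274) (nat_lit 164))))) (XT.nd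 (nat_lit 234) (nat_lit 380) (nat_lit 0) (XT.nd (nat_lit 78) (nat_lit 228) (nat_lit 0) (XT.lf (nat_lit 0) (nat_lit 10533991355) (nat_lit 456) (nat_lit 10153072268) (nat_lit 76) (nat_lit 62479635758) (nat_lit 23) (nat_lit 5) (nat_lit 29) (nat_lit 5) (nat_lit 24) (nat_lit 5) (nat_lit 283) (nat_lit 274) (nat_lit 163)) (XT.nd (nat_lit 78) (nat_lit 0) (nat_lit 0) (XT.lf (nat_lit 0) (nat_lit 16319535517) (nat_lit 304) (nat_lit 64053174211) (nat_lit 76) (nat_lit 6810805512) (nat_lit 20) (nat_lit 5) (nat_lit 24) (nat_lit 5) (nat_lit 21) (nat_lit 5) (nat_lit 284) (nat_lit 274) (nat_lit 162)) (XT.lf (nat_lit 0) (nat_lit 23389156988) (nat_lit 304) (nat_lit 32391108008) (nat_lit 76) (nat_lit 35675721572) (nat_lit 20) (nat_lit 5) (nat_lit 24) (nat_lit 5) (nat_lit 21) (nat_lit 5) (nat_lit 285) (nat_lit 274) (nat_lit 161)))) (XT.nd (nat_lit 156) (nat_lit 152) (nat_lit 0) (XT.nd (nat_lit 78) (nat_lit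 0) (nat_lit 0) (XT.lf (nat_lit 0) (nat_lit 1897994125) (nat_lit 228) (nat_lit 29171161960) (nat_lit 304) (nat_lit 64997523131) (nat_lit 17) (nat_lit 5) (nat_lit 20) (nat_lit 5) (nat_lit 21) (nat_lit 5) (nat_lit 286) (nat_lit 274) (nat_lit 160)) (XT.lf (nat_lit 0) (nat_lit 40260968585) (nat_lit 304) (nat_lit 60216545836) (nat_lit 76) (nat_lit 496927409) (nat_lit 17) (nat_lit 5) (nat_lit 21) (nat_lit 5) (nat_lit 18) (nat_lit 5) (nat_lit 287) (nat_lit 274) (nat_lit 159))) (XT.nd (nat_lit 78) (nat_lit 152) (nat_lit 0) (XT.lf (nat_lit 0) (nat_lit 50945079169) (nat_lit 304) (nat_lit 24306782271) (nat_lit 76) (nat_lit 30962414837) (nat_lit 17) (nat_lit 5) (nat_lit 21) (nat_lit 5) (nat_lit 18) (nat_lit 5) (nat_lit 288) (nat_lit 274) (nat_lit 158)) (XT.lf (nat_lit 0) (nat_lit 15237197687) (nat_lit 152) (nat_lit 47612491219) (nat_lit 228) (nat_lit 48994353494) (nat_lit 15) (nat_lit 5) (nat_lit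 17) (nat_lit 5) (nat_lit 18) (nat_lit 5) (nat_lit 289) (nat_lit 274) (nat_lit 157)))))) (XT.nd (nat_lit 546) (nat_lit 228) (nat_lit 0) (XT.nd (nat_lit 234) (nat_lit 228) (nat_lit 0) (XT.nd (nat_lit 78) (nat_lit 152) (nat_lit 0) (XT.lf (nat_lit 0) (nat_lit 59326273285) (nat_lit 152) (nat_lit 17044332152) (nat_lit 228) (nat_lit 41500475395) (nat_lit 15) (nat_lit 5) (nat_lit 17) (nat_lit 5) (nat_lit 18) (nat_lit 5) (nat_lit 290) (nat_lit 274) (nat_lit 156)) (XT.nd (nat_lit 78) (nat_lit 152) (nat_lit 0) (XT.lf (nat_lit 0) (nat_lit 91356650053) (nat_lit 228) (nat_lit 17822634164) (nat_lit 76) (nat_lit 15170327351) (nat_lit 15) (nat_lit 5) (nat_lit 18) (nat_lit 5) (nat_lit 16) (nat_lit 5) (nat_lit 291) (nat_lit 274) (nat_lit 155)) (XT.lf (nat_lit 0) (nat_lit 27067942771) (nat_lit 152) (nat_lit 81566768220) (nat_lit 228) (nat_lit 22624268348) (nat_lit 13) (nat_lit 5) (nat_lit 15) (nat_lit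 5) (nat_lit 16) (nat_lit 5) (nat_lit 292) (nat_lit 274) (nat_lit 154)))) (XT.nd (nat_lit 156) (nat_lit 152) (nat_lit 0) (XT.nd (nat_lit 78) (nat_lit 76) (nat_lit 0) (XT.lf (nat_lit 0) (nat_lit 76562664279) (nat_lit 152) (nat_lit 51219118088) (nat_lit 228) (nat_lit 10900377729) (nat_lit 13) (nat_lit 5) (nat_lit 15) (nat_lit 5) (nat_lit 16) (nat_lit 5) (nat_lit 293) (nat_lit 274) (nat_lit 153)) (XT.lf (nat_lit 0) (nat_lit 1672796355) (nat_lit 228) (nat_lit 16725264727) (nat_lit 76) (nat_lit 128297790511) (nat_lit 12) (nat_lit 5) (nat_lit 15) (nat_lit 5) (nat_lit 13) (nat_lit 5) (nat_lit 294) (nat_lit 274) (nat_lit 152))) (XT.nd (nat_lit 78) (nat_lit 0) (nat_lit 0) (XT.lf (nat_lit 0) (nat_lit 15911420433) (nat_lit 228) (nat_lit 121998908117) (nat_lit 76) (nat_lit 17317783575) (nat_lit 10) (nat_lit 5) (nat_lit 13) (nat_lit 5) (nat_lit 11) (nat_lit 5) (nat_lit 295) (nat_lit 274) (nat_lit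 151)) (XT.lf (nat_lit 0) (nat_lit 32235723396) (nat_lit 228) (nat_lit 76765549955) (nat_lit 76) (nat_lit 55365956569) (nat_lit 10) (nat_lit 5) (nat_lit 13) (nat_lit 5) (nat_lit 11) (nat_lit 5) (nat_lit 296) (nat_lit 274) (nat_lit 150))))) (XT.nd (nat_lit 234) (nat_lit 76) (nat_lit 0) (XT.nd (nat_lit 78) (nat_lit 152) (nat_lit 0) (XT.lf (nat_lit 0) (nat_lit 49865545581) (nat_lit 228) (nat_lit 27914117211) (nat_lit 76) (nat_lit 96457851622) (nat_lit 10) (nat_lit 5) (nat_lit 13) (nat_lit 5) (nat_lit 11) (nat_lit 5) (nat_lit 297) (nat_lit 274) (nat_lit 149)) (XT.nd (nat_lit 78) (nat_lit 0) (nat_lit 0) (XT.lf (nat_lit 0) (nat_lit 26153167443) (nat_lit 152) (nat_lit 43381176872) (nat_lit 228) (nat_lit 115312793122) (nat_lit 8) (nat_lit 5) (nat_lit 10) (nat_lit 5) (nat_lit 11) (nat_lit 5) (nat_lit 298) (nat_lit 274) (nat_lit 148)) (XT.lf (nat_lit 0) (nat_lit 86132799310) (nat_lit 152) (nat_lit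 5406691795) (nat_lit 228) (nat_lit 104705014470) (nat_lit 8) (nat_lit 5) (nat_lit 10) (nat_lit 5) (nat_lit 11) (nat_lit 5) (nat_lit 299) (nat_lit 274) (nat_lit 147)))) (XT.nd (nat_lit 156) (nat_lit 76) (nat_lit 0) (XT.nd (nat_lit 78) (nat_lit 0) (nat_lit 0) (XT.lf (nat_lit 0) (nat_lit 116161015967) (nat_lit 228) (nat_lit 58499704067) (nat_lit 76) (nat_lit 33824468425) (nat_lit 8) (nat_lit 5) (nat_lit 11) (nat_lit 5) (nat_lit 9) (nat_lit 4) (nat_lit 300) (nat_lit 274) (nat_lit 146)) (XT.lf (nat_lit 0) (nat_lit 142892369641) (nat_lit 228) (nat_lit 2899659906) (nat_lit 76) (nat_lit 75901890286) (nat_lit 8) (nat_lit 5) (nat_lit 11) (nat_lit 5) (nat_lit 9) (nat_lit 4) (nat_lit 301) (nat_lit 274) (nat_lit 145))) (XT.nd (nat_lit 78) (nat_lit 0) (nat_lit 0) (XT.lf (nat_lit 0) (nat_lit 60157248221) (nat_lit 76) (nat_lit 113051464128) (nat_lit 152) (nat_lit 62634921138) (nat_lit 7) (nat_lit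 5) (nat_lit 8) (nat_lit 5) (nat_lit 9) (nat_lit 4) (nat_lit 302) (nat_lit 274) (nat_lit 144)) (XT.lf (nat_lit 0) (nat_lit 128423177828) (nat_lit 76) (nat_lit 77606175850) (nat_lit 152) (nat_lit 45089653321) (nat_lit 7) (nat_lit 5) (nat_lit 8) (nat_lit 5) (nat_lit 9) (nat_lit 4) (nat_lit 303) (nat_lit 274) (nat_lit 143))))))) (XT.nd (nat_lit 1014) (nat_lit 228) (nat_lit 0) (XT.nd (nat_lit 468) (nat_lit 76) (nat_lit 0) (XT.nd (nat_lit 234) (nat_lit 0) (nat_lit 0) (XT.nd (nat_lit 78) (nat_lit 152) (nat_lit 0) (XT.lf (nat_lit 0) (nat_lit 202149976806) (nat_lit 76) (nat_lit 39325400400) (nat_lit 152) (nat_lit 26141056627) (nat_lit 7) (nat_lit 5) (nat_lit 8) (nat_lit 5) (nat_lit 9) (nat_lit 4) (nat_lit 304) (nat_lit 274) (nat_lit 142)) (XT.nd (nat_lit 78) (nat_lit 152) (nat_lit 0) (XT.lf (nat_lit 0) (nat_lit 279805359447) (nat_lit 152) (nat_lit 3707657817) (nat_lit 0) (nat_lit 1916777170)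 (nat_lit 7) (nat_lit 5) (nat_lit 9) (nat_lit 4) (nat_lit 7) (nat_lit 4) (nat_lit 305) (nat_lit 274) (nat_lit 141)) (XT.lf (nat_lit 0) (nat_lit 18363783120) (nat_lit 152) (nat_lit 239692651618) (nat_lit 76) (nat_lit 46367392931) (nat_lit 5) (nat_lit 5) (nat_lit 7) (nat_lit 5) (nat_lit 6) (nat_lit 4) (nat_lit 306) (nat_lit 274) (nat_lit 140)))) (XT.nd (nat_lit 78) (nat_lit 0) (nat_lit 0) (XT.lf (nat_lit 0) (nat_lit 44070968079) (nat_lit 152) (nat_lit 186222390450) (nat_lit 76) (nat_lit 94624037300) (nat_lit 5) (nat_lit 5) (nat_lit 7) (nat_lit 5) (nat_lit 6) (nat_lit 4) (nat_lit 307) (nat_lit 274) (nat_lit 139)) (XT.nd (nat_lit 78) (nat_lit 0) (nat_lit 0) (XT.lf (nat_lit 0) (nat_lit 71834512980) (nat_lit 152) (nat_lit 128474849973) (nat_lit 76) (nat_lit 146741104980) (nat_lit 5) (nat_lit 5) (nat_lit 7) (nat_lit 5) (nat_lit 6) (nat_lit 4) (nat_lit 308) (nat_lit 274) (nat_lit 138)) (XT.lf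 (nat_lit 0) (nat_lit 101818942531) (nat_lit 152) (nat_lit 66107822538) (nat_lit 76) (nat_lit 203027437853) (nat_lit 5) (nat_lit 5) (nat_lit 7) (nat_lit 5) (nat_lit 6) (nat_lit 4) (nat_lit 309) (nat_lit 274) (nat_lit 137))))) (XT.nd (nat_lit 234) (nat_lit 0) (nat_lit 0) (XT.nd (nat_lit 78) (nat_lit 0) (nat_lit 0) (XT.lf (nat_lit 0) (nat_lit 1314006148) (nat_lit 76) (nat_lit 132919537974) (nat_lit 152) (nat_lit 262534180290) (nat_lit 4) (nat_lit 5) (nat_lit 5) (nat_lit 5) (nat_lit 6) (nat_lit 4) (nat_lit 310) (nat_lit 274) (nat_lit 136)) (XT.nd (nat_lit 78) (nat_lit 0) (nat_lit 0) (XT.lf (nat_lit 0) (nat_lit 77888906136) (nat_lit 76) (nat_lit 93159735302) (nat_lit 152) (nat_lit 253453101008) (nat_lit 4) (nat_lit 5) (nat_lit 5) (nat_lit 5) (nat_lit 6) (nat_lit 4) (nat_lit 311) (nat_lit 274) (nat_lit 135)) (XT.lf (nat_lit 0) (nat_lit 160589533828) (nat_lit 76) (nat_lit 50219248429) (nat_lit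 152) (nat_lit 243645713763) (nat_lit 4) (nat_lit 5) (nat_lit 5) (nat_lit 5) (nat_lit 6) (nat_lit 4) (nat_lit 312) (nat_lit 274) (nat_lit 134)))) (XT.nd (nat_lit 156) (nat_lit 0) (nat_lit 0) (XT.nd (nat_lit 78) (nat_lit 0) (nat_lit 0) (XT.lf (nat_lit 0) (nat_lit 249905967018) (nat_lit 76) (nat_lit 3843615211) (nat_lit 152) (nat_lit 233053900705) (nat_lit 4) (nat_lit 5) (nat_lit 5) (nat_lit 5) (nat_lit 6) (nat_lit 4) (nat_lit 313) (nat_lit 274) (nat_lit 133)) (XT.lf (nat_lit 0) (nat_lit 301237626155) (nat_lit 152) (nat_lit 176485033417) (nat_lit 0) (nat_lit 43928771652) (nat_lit 4) (nat_lit 5) (nat_lit 6) (nat_lit 4) (nat_lit 4) (nat_lit 4) (nat_lit 314) (nat_lit 274) (nat_lit 132))) (XT.nd (nat_lit 78) (nat_lit 0) (nat_lit 0) (XT.lf (nat_lit 0) (nat_lit 352624415434) (nat_lit 152) (nat_lit 111339605567) (nat_lit 0) (nat_lit 95315218987) (nat_lit 4) (nat_lit 5) (nat_lit 6) (nat_lit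 4) (nat_lit 4) (nat_lit 4) (nat_lit 315) (nat_lit 274) (nat_lit 131)) (XT.lf (nat_lit 0) (nat_lit 408122025336) (nat_lit 152) (nat_lit 40982746349) (nat_lit 0) (nat_lit 150812512274) (nat_lit 4) (nat_lit 5) (nat_lit 6) (nat_lit 4) (nat_lit 4) (nat_lit 4) (nat_lit 316) (nat_lit 274) (nat_lit 130)))))) (XT.nd (nat_lit 546) (nat_lit 152) (nat_lit 0) (XT.nd (nat_lit 234) (nat_lit 0) (nat_lit 0) (XT.nd (nat_lit 78) (nat_lit 0) (nat_lit 0) (XT.lf (nat_lit 0) (nat_lit 36845642013) (nat_lit 76) (nat_lit 432099827149) (nat_lit 76) (nat_lit 174790020925) (nat_lit 3) (nat_lit 4) (nat_lit 4) (nat_lit 5) (nat_lit 4) (nat_lit 4) (nat_lit 317) (nat_lit 274) (nat_lit 129)) (XT.nd (nat_lit 78) (nat_lit 0) (nat_lit 0) (XT.lf (nat_lit 0) (nat_lit 123230843466) (nat_lit 76) (nat_lit 412524376497) (nat_lit 76) (nat_lit 155214298826) (nat_lit 3) (nat_lit 4) (nat_lit 4) (nat_lit 5) (nat_lit 4) (nat_lit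 4) (nat_lit 318) (nat_lit 274) (nat_lit 128)) (XT.lf (nat_lit 0) (nat_lit 216526691520) (nat_lit 76) (nat_lit 391382957971) (nat_lit 76) (nat_lit 134072628961) (nat_lit 3) (nat_lit 4) (nat_lit 4) (nat_lit 5) (nat_lit 4) (nat_lit 4) (nat_lit 319) (nat_lit 274) (nat_lit 127)))) (XT.nd (nat_lit 156) (nat_lit 0) (nat_lit 0) (XT.nd (nat_lit 78) (nat_lit 0) (nat_lit 0) (XT.lf (nat_lit 0) (nat_lit 317286050458) (nat_lit 76) (nat_lit 368550289093) (nat_lit 76) (nat_lit 111239727361) (nat_lit 3) (nat_lit 4) (nat_lit 4) (nat_lit 5) (nat_lit 4) (nat_lit 4) (nat_lit 320) (nat_lit 274) (nat_lit 126)) (XT.lf (nat_lit 0) (nat_lit 426106012779) (nat_lit 76) (nat_lit 343891065156) (nat_lit 76) (nat_lit 86580287941) (nat_lit 3) (nat_lit 4) (nat_lit 4) (nat_lit 5) (nat_lit 4) (nat_lit 4) (nat_lit 321) (nat_lit 274) (nat_lit 125))) (XT.nd (nat_lit 78) (nat_lit 0) (nat_lit 0) (XT.lf (nat_lit 0) (nat_lit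 543631437518) (nat_lit 76) (nat_lit 317259157427) (nat_lit 76) (nat_lit 59948180691) (nat_lit 3) (nat_lit 4) (nat_lit 4) (nat_lit 5) (nat_lit 4) (nat_lit 4) (nat_lit 322) (nat_lit 274) (nat_lit 124)) (XT.lf (nat_lit 0) (nat_lit 670558771636) (nat_lit 76) (nat_lit 288496747193) (nat_lit 76) (nat_lit 31185585716) (nat_lit 3) (nat_lit 4) (nat_lit 4) (nat_lit 5) (nat_lit 4) (nat_lit 4) (nat_lit 323) (nat_lit 274) (nat_lit 123))))) (XT.nd (nat_lit 234) (nat_lit 76) (nat_lit 0) (XT.nd (nat_lit 78) (nat_lit 76) (nat_lit 0) (XT.lf (nat_lit 0) (nat_lit 807640177115) (nat_lit 76) (nat_lit 257433390542) (nat_lit 76) (nat_lit 122058007) (nat_lit 3) (nat_lit 4) (nat_lit 4) (nat_lit 5) (nat_lit 4) (nat_lit 4) (nat_lit 324) (nat_lit 274) (nat_lit 122)) (XT.nd (nat_lit 78) (nat_lit 0) (nat_lit 0) (XT.lf (nat_lit 0) (nat_lit 31754354559) (nat_lit 152) (nat_lit 191262433437) (nat_lit 76) (nat_lit 923065413320)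 (nat_lit 2) (nat_lit 5) (nat_lit 4) (nat_lit 5) (nat_lit 3) (nat_lit 4) (nat_lit 325) (nat_lit 274) (nat_lit 121)) (XT.lf (nat_lit 0) (nat_lit 66174224855) (nat_lit 152) (nat_lit 119669249875) (nat_lit 76) (nat_lit 1047595979842) (nat_lit 2) (nat_lit 5) (nat_lit 4) (nat_lit 5) (nat_lit 3) (nat_lit 4) (nat_lit 326) (nat_lit 274) (nat_lit 120)))) (XT.nd (nat_lit 156) (nat_lit 0) (nat_lit 0) (XT.nd (nat_lit 78) (nat_lit 76) (nat_lit 0) (XT.lf (nat_lit 0) (nat_lit 103347628317) (nat_lit 152) (nat_lit 42348706465) (nat_lit 76) (nat_lit 1182088958103) (nat_lit 2) (nat_lit 5) (nat_lit 4) (nat_lit 5) (nat_lit 3) (nat_lit 4) (nat_lit 327) (nat_lit 274) (nat_lit 119)) (XT.lf (nat_lit 0) (nat_lit 43324667964) (nat_lit 76) (nat_lit 101212143123) (nat_lit 152) (nat_lit 1285058634871) (nat_lit 1) (nat_lit 5) (nat_lit 2) (nat_lit 5) (nat_lit 3) (nat_lit 4) (nat_lit 328) (nat_lit 274) (nat_lit 118)))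 (XT.nd (nat_lit 78) (nat_lit 0) (nat_lit 0) (XT.lf (nat_lit 0) (nat_lit 138260235220) (nat_lit 76) (nat_lit 51918731480) (nat_lit 152) (nat_lit 1349278817759) (nat_lit 1) (nat_lit 5) (nat_lit 2) (nat_lit 5) (nat_lit 3) (nat_lit 4) (nat_lit 329) (nat_lit 274) (nat_lit 117)) (XT.lf (nat_lit 0) (nat_lit 239504148870) (nat_lit 152) (nat_lit 1417350246222) (nat_lit 0) (nat_lit 1252182840) (nat_lit 1) (nat_lit 5) (nat_lit 3) (nat_lit 4) (nat_lit 1) (nat_lit 4) (nat_lit 330) (nat_lit 274) (nat_lit 116))))))))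
noncomputable def xc107 : XT := (XT.nd (nat_lit 34788) (nat_lit 0) (nat_lit 152) (XT.nd (nat_lit 33696) (nat_lit 0) (nat_lit 836) (XT.nd (nat_lit 33150) (nat_lit 0) (nat_lit 1976) (XT.nd (nat_lit 234) (nat_lit 0) (nat_lit 0) (XT.nd (nat_lit 78) (nat_lit 0) (nat_lit 0) (XT.lf (nat_lit 0) (nat_lit 294123840107) (nat_lit 152) (nat_lit 1436143773763) (nat_lit 0) (nat_lit 55871781660) (nat_lit 1) (nat_lit 5) (nat_lit 3) (nat_lit 4) (nat_lit 1) (nat_lit 4) (nat_lit 331) (nat_lit 274) (nat_lit 115)) (XT.nd (nat_lit 78) (nat_lit 0) (nat_lit 0) (XT.lf (nat_lit 0) (nat_lit 353113065913) (nat_lit 152) (nat_lit 1456440854174) (nat_lit 0) (nat_lit 114860921895) (nat_lit 1) (nat_lit 5) (nat_lit 3) (nat_lit 4) (nat_lit 1) (nat_lit 4) (nat_lit 332) (nat_lit 274) (nat_lit 114)) (XT.lf (nat_lit 0) (nat_lit 416821392073) (nat_lit 152) (nat_lit 1478361766450) (nat_lit 0) (nat_lit 178569168822) (nat_lit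 1) (nat_lit 5) (nat_lit 3) (nat_lit 4) (nat_lit 1) (nat_lit 4) (nat_lit 333) (nat_lit 274) (nat_lit 113)))) (XT.nd (nat_lit 78) (nat_lit 0) (nat_lit 0) (XT.lf (nat_lit 0) (nat_lit 485626349406) (nat_lit 152) (nat_lit 1502036412293) (nat_lit 0) (nat_lit 247374052792) (nat_lit 1) (nat_lit 5) (nat_lit 3) (nat_lit 4) (nat_lit 1) (nat_lit 4) (nat_lit 334) (nat_lit 274) (nat_lit 112)) (XT.nd (nat_lit 78) (nat_lit 0) (nat_lit 0) (XT.lf (nat_lit 0) (nat_lit 559935670995) (nat_lit 152) (nat_lit 1527605085900) (nat_lit 0) (nat_lit 321683306451) (nat_lit 1) (nat_lit 5) (nat_lit 3) (nat_lit 4) (nat_lit 1) (nat_lit 4) (nat_lit 335) (nat_lit 274) (nat_lit 111)) (XT.lf (nat_lit 0) (nat_lit 640189708374) (nat_lit 152) (nat_lit 1555219305339) (nat_lit 0) (nat_lit 401937280933) (nat_lit 1) (nat_lit 5) (nat_lit 3) (nat_lit 4) (nat_lit 1) (nat_lit 4) (nat_lit 336) (nat_lit 274) (nat_lit 110))))) (XT.nd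 (nat_lit 234) (nat_lit 0) (nat_lit 0) (XT.nd (nat_lit 78) (nat_lit 0) (nat_lit 0) (XT.lf (nat_lit 0) (nat_lit 12980256746) (nat_lit 0) (nat_lit 12980256746) (nat_lit 380) (nat_lit 4636766866) (nat_lit 27) (nat_lit 5) (nat_lit 27) (nat_lit 3) (nat_lit 32) (nat_lit 3) (nat_lit 275) (nat_lit 275) (nat_lit 170)) (XT.nd (nat_lit 78) (nat_lit 0) (nat_lit 0) (XT.lf (nat_lit 0) (nat_lit 51004532817) (nat_lit 0) (nat_lit 3007562987) (nat_lit 380) (nat_lit 9628944384) (nat_lit 27) (nat_lit 5) (nat_lit 27) (nat_lit 3) (nat_lit 32) (nat_lit 3) (nat_lit 276) (nat_lit 275) (nat_lit 169)) (XT.lf (nat_lit 76) (nat_lit 11836223741) (nat_lit 0) (nat_lit 45241330086) (nat_lit 456) (nat_lit 9141132379) (nat_lit 28) (nat_lit 5) (nat_lit 27) (nat_lit 5) (nat_lit 33) (nat_lit 5) (nat_lit 277) (nat_lit 275) (nat_lit 168)))) (XT.nd (nat_lit 156) (nat_lit 0) (nat_lit 76) (XT.nd (nat_lit 78) (nat_lit 0) (nat_lit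 76) (XT.lf (nat_lit 76) (nat_lit 38902353161) (nat_lit 0) (nat_lit 21906218361) (nat_lit 456) (nat_lit 8160361801) (nat_lit 28) (nat_lit 5) (nat_lit 27) (nat_lit 5) (nat_lit 33) (nat_lit 5) (nat_lit 278) (nat_lit 275) (nat_lit 167)) (XT.lf (nat_lit 0) (nat_lit 64916118790) (nat_lit 380) (nat_lit 3885587289) (nat_lit 456) (nat_lit 3131264407) (nat_lit 28) (nat_lit 5) (nat_lit 33) (nat_lit 5) (nat_lit 34) (nat_lit 5) (nat_lit 279) (nat_lit 275) (nat_lit 166))) (XT.nd (nat_lit 78) (nat_lit 0) (nat_lit 0) (XT.lf (nat_lit 76) (nat_lit 25074382750) (nat_lit 0) (nat_lit 45448795612) (nat_lit 456) (nat_lit 4517292662) (nat_lit 29) (nat_lit 5) (nat_lit 28) (nat_lit 5) (nat_lit 34) (nat_lit 5) (nat_lit 280) (nat_lit 275) (nat_lit 165)) (XT.lf (nat_lit 76) (nat_lit 56571316489) (nat_lit 0) (nat_lit 20112665123) (nat_lit 456) (nat_lit 1704187796) (nat_lit 29) (nat_lit 5) (nat_lit 28) (nat_lit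 5) (nat_lit 34) (nat_lit 5) (nat_lit 281) (nat_lit 275) (nat_lit 164)))))) (XT.nd (nat_lit 546) (nat_lit 380) (nat_lit 0) (XT.nd (nat_lit 234) (nat_lit 456) (nat_lit 0) (XT.nd (nat_lit 78) (nat_lit 0) (nat_lit 0) (XT.lf (nat_lit 0) (nat_lit 1663541874) (nat_lit 456) (nat_lit 73162994512) (nat_lit 76) (nat_lit 7142886567) (nat_lit 23) (nat_lit 5) (nat_lit 29) (nat_lit 5) (nat_lit 24) (nat_lit 5) (nat_lit 282) (nat_lit 275) (nat_lit 163)) (XT.nd (nat_lit 78) (nat_lit 0) (nat_lit 0) (XT.lf (nat_lit 0) (nat_lit 6342074362) (nat_lit 456) (nat_lit 43252189642) (nat_lit 76) (nat_lit 36148704838) (nat_lit 23) (nat_lit 5) (nat_lit 29) (nat_lit 5) (nat_lit 24) (nat_lit 5) (nat_lit 283) (nat_lit 275) (nat_lit 162)) (XT.lf (nat_lit 0) (nat_lit 11394003095) (nat_lit 456) (nat_lit 10949339397) (nat_lit 76) (nat_lit 67475135723) (nat_lit 23) (nat_lit 5) (nat_lit 29) (nat_lit 5) (nat_lit 24) (nat_lit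 5) (nat_lit 284) (nat_lit 275) (nat_lit 161)))) (XT.nd (nat_lit 156) (nat_lit 228) (nat_lit 0) (XT.nd (nat_lit 78) (nat_lit 0) (nat_lit 0) (XT.lf (nat_lit 0) (nat_lit 17641464901) (nat_lit 304) (nat_lit 69160362751) (nat_lit 76) (nat_lit 7354898630) (nat_lit 20) (nat_lit 5) (nat_lit 24) (nat_lit 5) (nat_lit 21) (nat_lit 5) (nat_lit 285) (nat_lit 275) (nat_lit 160)) (XT.lf (nat_lit 0) (nat_lit 25275443753) (nat_lit 304) (nat_lit 34966595356) (nat_lit 76) (nat_lit 38529065110) (nat_lit 20) (nat_lit 5) (nat_lit 24) (nat_lit 5) (nat_lit 21) (nat_lit 5) (nat_lit 286) (nat_lit 275) (nat_lit 159))) (XT.nd (nat_lit 78) (nat_lit 0) (nat_lit 0) (XT.lf (nat_lit 0) (nat_lit 2065234916) (nat_lit 228) (nat_lit 31503855728) (nat_lit 304) (nat_lit 70181632837) (nat_lit 17) (nat_lit 5) (nat_lit 20) (nat_lit 5) (nat_lit 21) (nat_lit 5) (nat_lit 287) (nat_lit 275) (nat_lit 158)) (XT.lf (nat_lit 0) (nat_lit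 43495203575) (nat_lit 304) (nat_lit 65018436816) (nat_lit 76) (nat_lit 537560495) (nat_lit 17) (nat_lit 5) (nat_lit 21) (nat_lit 5) (nat_lit 18) (nat_lit 5) (nat_lit 288) (nat_lit 275) (nat_lit 157))))) (XT.nd (nat_lit 234) (nat_lit 228) (nat_lit 0) (XT.nd (nat_lit 78) (nat_lit 152) (nat_lit 0) (XT.lf (nat_lit 0) (nat_lit 55033053560) (nat_lit 304) (nat_lit 26237035328) (nat_lit 76) (nat_lit 33440221815) (nat_lit 17) (nat_lit 5) (nat_lit 21) (nat_lit 5) (nat_lit 18) (nat_lit 5) (nat_lit 289) (nat_lit 275) (nat_lit 156)) (XT.nd (nat_lit 78) (nat_lit 0) (nat_lit 0) (XT.lf (nat_lit 0) (nat_lit 16470101267) (nat_lit 152) (nat_lit 51419349620) (nat_lit 228) (nat_lit 52901062481) (nat_lit 15) (nat_lit 5) (nat_lit 17) (nat_lit 5) (nat_lit 18) (nat_lit 5) (nat_lit 290) (nat_lit 275) (nat_lit 155)) (XT.lf (nat_lit 0) (nat_lit 64085271227) (nat_lit 152) (nat_lit 18405896412) (nat_lit 228) (nat_lit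 44808625193) (nat_lit 15) (nat_lit 5) (nat_lit 17) (nat_lit 5) (nat_lit 18) (nat_lit 5) (nat_lit 291) (nat_lit 275) (nat_lit 154)))) (XT.nd (nat_lit 156) (nat_lit 76) (nat_lit 0) (XT.nd (nat_lit 78) (nat_lit 152) (nat_lit 0) (XT.lf (nat_lit 0) (nat_lit 98675331540) (nat_lit 228) (nat_lit 19235645942) (nat_lit 76) (nat_lit 16385697195) (nat_lit 15) (nat_lit 5) (nat_lit 18) (nat_lit 5) (nat_lit 16) (nat_lit 5) (nat_lit 292) (nat_lit 275) (nat_lit 153)) (XT.lf (nat_lit 0) (nat_lit 29245853123) (nat_lit 152) (nat_lit 88089332439) (nat_lit 228) (nat_lit 24423649404) (nat_lit 13) (nat_lit 5) (nat_lit 15) (nat_lit 5) (nat_lit 16) (nat_lit 5) (nat_lit 293) (nat_lit 275) (nat_lit 152))) (XT.nd (nat_lit 78) (nat_lit 76) (nat_lit 0) (XT.lf (nat_lit 0) (nat_lit 82699228283) (nat_lit 152) (nat_lit 55314076018) (nat_lit 228) (nat_lit 11762629788) (nat_lit 13) (nat_lit 5) (nat_lit 15) (nat_lit 5)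 (nat_lit 16) (nat_lit 5) (nat_lit 294) (nat_lit 275) (nat_lit 151)) (XT.lf (nat_lit 0) (nat_lit 1815221004) (nat_lit 228) (nat_lit 18052068765) (nat_lit 76) (nat_lit 138563472889) (nat_lit 12) (nat_lit 5) (nat_lit 15) (nat_lit 5) (nat_lit 13) (nat_lit 5) (nat_lit 295) (nat_lit 275) (nat_lit 150))))))) (XT.nd (nat_lit 1014) (nat_lit 152) (nat_lit 0) (XT.nd (nat_lit 468) (nat_lit 228) (nat_lit 0) (XT.nd (nat_lit 234) (nat_lit 152) (nat_lit 0) (XT.nd (nat_lit 78) (nat_lit 0) (nat_lit 0) (XT.lf (nat_lit 0) (nat_lit 17192625933) (nat_lit 228) (nat_lit 131747230674) (nat_lit 76) (nat_lit 18705777262) (nat_lit 10) (nat_lit 5) (nat_lit 13) (nat_lit 5) (nat_lit 11) (nat_lit 5) (nat_lit 296) (nat_lit 275) (nat_lit 149)) (XT.nd (nat_lit 78) (nat_lit 0) (nat_lit 0) (XT.lf (nat_lit 0) (nat_lit 34822258921) (nat_lit 228) (nat_lit 82896062384) (nat_lit 76) (nat_lit 59797613651) (nat_lit 10) (nat_lit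 5) (nat_lit 13) (nat_lit 5) (nat_lit 11) (nat_lit 5) (nat_lit 297) (nat_lit 275) (nat_lit 148)) (XT.lf (nat_lit 0) (nat_lit 53861898166) (nat_lit 228) (nat_lit 30137309951) (nat_lit 76) (nat_lit 104176683971) (nat_lit 10) (nat_lit 5) (nat_lit 13) (nat_lit 5) (nat_lit 11) (nat_lit 5) (nat_lit 298) (nat_lit 275) (nat_lit 147)))) (XT.nd (nat_lit 78) (nat_lit 0) (nat_lit 0) (XT.lf (nat_lit 0) (nat_lit 28255105915) (nat_lit 152) (nat_lit 46848801222) (nat_lit 228) (nat_lit 124530405365) (nat_lit 8) (nat_lit 5) (nat_lit 10) (nat_lit 5) (nat_lit 11) (nat_lit 5) (nat_lit 299) (nat_lit 275) (nat_lit 146)) (XT.nd (nat_lit 78) (nat_lit 0) (nat_lit 0) (XT.lf (nat_lit 0) (nat_lit 93032390918) (nat_lit 152) (nat_lit 5836569917) (nat_lit 228) (nat_lit 113074553400) (nat_lit 8) (nat_lit 5) (nat_lit 10) (nat_lit 5) (nat_lit 11) (nat_lit 5) (nat_lit 300) (nat_lit 275) (nat_lit 145)) (XT.lf (nat_lit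 0) (nat_lit 125459799418) (nat_lit 228) (nat_lit 63170925259) (nat_lit 76) (nat_lit 36532763211) (nat_lit 8) (nat_lit 5) (nat_lit 11) (nat_lit 5) (nat_lit 9) (nat_lit 4) (nat_lit 301) (nat_lit 275) (nat_lit 144))))) (XT.nd (nat_lit 234) (nat_lit 152) (nat_lit 0) (XT.nd (nat_lit 78) (nat_lit 76) (nat_lit 0) (XT.lf (nat_lit 0) (nat_lit 154329224188) (nat_lit 228) (nat_lit 3123526094) (nat_lit 76) (nat_lit 81976205686) (nat_lit 8) (nat_lit 5) (nat_lit 11) (nat_lit 5) (nat_lit 9) (nat_lit 4) (nat_lit 302) (nat_lit 275) (nat_lit 143)) (XT.nd (nat_lit 78) (nat_lit 0) (nat_lit 0) (XT.lf (nat_lit 0) (nat_lit 64977729453) (nat_lit 76) (nat_lit 122092930075) (nat_lit 152) (nat_lit 67640007351) (nat_lit 7) (nat_lit 5) (nat_lit 8) (nat_lit 5) (nat_lit 9) (nat_lit 4) (nat_lit 303) (nat_lit 275) (nat_lit 142)) (XT.lf (nat_lit 0) (nat_lit 138704348142) (nat_lit 76) (nat_lit 83812215118) (nat_lit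 152) (nat_lit 48691540885) (nat_lit 7) (nat_lit 5) (nat_lit 8) (nat_lit 5) (nat_lit 9) (nat_lit 4) (nat_lit 304) (nat_lit 275) (nat_lit 141)))) (XT.nd (nat_lit 156) (nat_lit 152) (nat_lit 0) (XT.nd (nat_lit 78) (nat_lit 0) (nat_lit 0) (XT.lf (nat_lit 0) (nat_lit 218328749105) (nat_lit 76) (nat_lit 42469159470) (nat_lit 152) (nat_lit 28227447914) (nat_lit 7) (nat_lit 5) (nat_lit 8) (nat_lit 5) (nat_lit 9) (nat_lit 4) (nat_lit 305) (nat_lit 275) (nat_lit 140)) (XT.lf (nat_lit 0) (nat_lit 302194006589) (nat_lit 152) (nat_lit 3997685683) (nat_lit 0) (nat_lit 2072118659) (nat_lit 7) (nat_lit 5) (nat_lit 9) (nat_lit 4) (nat_lit 7) (nat_lit 4) (nat_lit 306) (nat_lit 275) (nat_lit 139))) (XT.nd (nat_lit 78) (nat_lit 0) (nat_lit 0) (XT.lf (nat_lit 0) (nat_lit 19837077524) (nat_lit 152) (nat_lit 258861399593) (nat_lit 76) (nat_lit 50078896058) (nat_lit 5) (nat_lit 5) (nat_lit 7) (nat_lit 5)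 (nat_lit 6) (nat_lit 4) (nat_lit 307) (nat_lit 275) (nat_lit 138)) (XT.lf (nat_lit 0) (nat_lit 47600526780) (nat_lit 152) (nat_lit 201114011174) (nat_lit 76) (nat_lit 102195915554) (nat_lit 5) (nat_lit 5) (nat_lit 7) (nat_lit 5) (nat_lit 6) (nat_lit 4) (nat_lit 308) (nat_lit 275) (nat_lit 137)))))) (XT.nd (nat_lit 546) (nat_lit 76) (nat_lit 0) (XT.nd (nat_lit 234) (nat_lit 0) (nat_lit 0) (XT.nd (nat_lit 78) (nat_lit 76) (nat_lit 0) (XT.lf (nat_lit 0) (nat_lit 77584867772) (nat_lit 152) (nat_lit 138747124533) (nat_lit 76) (nat_lit 158482203814) (nat_lit 5) (nat_lit 5) (nat_lit 7) (nat_lit 5) (nat_lit 6) (nat_lit 4) (nat_lit 309) (nat_lit 275) (nat_lit 136)) (XT.nd (nat_lit 78) (nat_lit 76) (nat_lit 0) (XT.lf (nat_lit 0) (nat_lit 109967785484) (nat_lit 152) (nat_lit 71391158121) (nat_lit 76) (nat_lit 219271309211) (nat_lit 5) (nat_lit 5) (nat_lit 7) (nat_lit 5) (nat_lit 6) (nat_lit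 4) (nat_lit 310) (nat_lit 275) (nat_lit 135)) (XT.lf (nat_lit 0) (nat_lit 1424282931) (nat_lit 76) (nat_lit 143551149795) (nat_lit 152) (nat_lit 283533434588) (nat_lit 4) (nat_lit 5) (nat_lit 5) (nat_lit 5) (nat_lit 6) (nat_lit 4) (nat_lit 311) (nat_lit 275) (nat_lit 134)))) (XT.nd (nat_lit 156) (nat_lit 0) (nat_lit 0) (XT.nd (nat_lit 78) (nat_lit 0) (nat_lit 0) (XT.lf (nat_lit 0) (nat_lit 84124792970) (nat_lit 76) (nat_lit 100610707444) (nat_lit 152) (nat_lit 273726126751) (nat_lit 4) (nat_lit 5) (nat_lit 5) (nat_lit 5) (nat_lit 6) (nat_lit 4) (nat_lit 312) (nat_lit 275) (nat_lit 133)) (XT.lf (nat_lit 0) (nat_lit 173441117222) (nat_lit 76) (nat_lit 54235115449) (nat_lit 152) (nat_lit 263134387218) (nat_lit 4) (nat_lit 5) (nat_lit 5) (nat_lit 5) (nat_lit 6) (nat_lit 4) (nat_lit 313) (nat_lit 275) (nat_lit 132))) (XT.nd (nat_lit 78) (nat_lit 0) (nat_lit 0) (XT.lf (nat_lit 0) (nat_lit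 269902537609) (nat_lit 76) (nat_lit 4149555489) (nat_lit 152) (nat_lit 251695450127) (nat_lit 4) (nat_lit 5) (nat_lit 5) (nat_lit 5) (nat_lit 6) (nat_lit 4) (nat_lit 314) (nat_lit 275) (nat_lit 131)) (XT.lf (nat_lit 0) (nat_lit 325339026564) (nat_lit 152) (nat_lit 190599878385) (nat_lit 0) (nat_lit 47444435842) (nat_lit 4) (nat_lit 5) (nat_lit 6) (nat_lit 4) (nat_lit 4) (nat_lit 4) (nat_lit 315) (nat_lit 275) (nat_lit 130))))) (XT.nd (nat_lit 234) (nat_lit 0) (nat_lit 0) (XT.nd (nat_lit 78) (nat_lit 76) (nat_lit 0) (XT.lf (nat_lit 0) (nat_lit 380836581926) (nat_lit 152) (nat_lit 120243109470) (nat_lit 0) (nat_lit 102941698041) (nat_lit 4) (nat_lit 5) (nat_lit 6) (nat_lit 4) (nat_lit 4) (nat_lit 4) (nat_lit 316) (nat_lit 275) (nat_lit 129)) (XT.nd (nat_lit 78) (nat_lit 76) (nat_lit 0) (XT.lf (nat_lit 0) (nat_lit 440773836675) (nat_lit 152) (nat_lit 44257972962) (nat_lit 0) (nat_lit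 162878681344) (nat_lit 4) (nat_lit 5) (nat_lit 6) (nat_lit 4) (nat_lit 4) (nat_lit 4) (nat_lit 317) (nat_lit 275) (nat_lit 128)) (XT.lf (nat_lit 0) (nat_lit 39796600568) (nat_lit 76) (nat_lit 466666483176) (nat_lit 76) (nat_lit 188771076506) (nat_lit 3) (nat_lit 4) (nat_lit 4) (nat_lit 5) (nat_lit 4) (nat_lit 4) (nat_lit 318) (nat_lit 275) (nat_lit 127)))) (XT.nd (nat_lit 156) (nat_lit 0) (nat_lit 0) (XT.nd (nat_lit 78) (nat_lit 0) (nat_lit 0) (XT.lf (nat_lit 0) (nat_lit 133092373160) (nat_lit 76) (nat_lit 445525095001) (nat_lit 76) (nat_lit 167629455610) (nat_lit 3) (nat_lit 4) (nat_lit 4) (nat_lit 5) (nat_lit 4) (nat_lit 4) (nat_lit 319) (nat_lit 275) (nat_lit 126)) (XT.lf (nat_lit 0) (nat_lit 233851662227) (nat_lit 76) (nat_lit 422692454225) (nat_lit 76) (nat_lit 144796599350) (nat_lit 3) (nat_lit 4) (nat_lit 4) (nat_lit 5) (nat_lit 4) (nat_lit 4) (nat_lit 320) (nat_lit 275) (nat_lit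 125))) (XT.nd (nat_lit 78) (nat_lit 0) (nat_lit 0) (XT.lf (nat_lit 0) (nat_lit 342671559851) (nat_lit 76) (nat_lit 398033256309) (nat_lit 76) (nat_lit 120137201913) (nat_lit 3) (nat_lit 4) (nat_lit 4) (nat_lit 5) (nat_lit 4) (nat_lit 4) (nat_lit 321) (nat_lit 275) (nat_lit 124)) (XT.lf (nat_lit 0) (nat_lit 460196924687) (nat_lit 76) (nat_lit 371401372673) (nat_lit 76) (nat_lit 93505133535) (nat_lit 3) (nat_lit 4) (nat_lit 4) (nat_lit 5) (nat_lit 4) (nat_lit 4) (nat_lit 322) (nat_lit 275) (nat_lit 123))))))))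
noncomputable def xc108 : XT := (XT.nd (nat_lit 34788) (nat_lit 0) (nat_lit 228) (XT.nd (nat_lit 1014) (nat_lit 0) (nat_lit 0) (XT.nd (nat_lit 468) (nat_lit 76) (nat_lit 0) (XT.nd (nat_lit 234) (nat_lit 76) (nat_lit 0) (XT.nd (nat_lit 78) (nat_lit 0) (nat_lit 0) (XT.lf (nat_lit 0) (nat_lit 587124203339) (nat_lit 76) (nat_lit 342638984747) (nat_lit 76) (nat_lit 64742574552) (nat_lit 3) (nat_lit 4) (nat_lit 4) (nat_lit 5) (nat_lit 4) (nat_lit 4) (nat_lit 323) (nat_lit 275) (nat_lit 122)) (XT.nd (nat_lit 78) (nat_lit 0) (nat_lit 0) (XT.lf (nat_lit 0) (nat_lit 724205557460) (nat_lit 76) (nat_lit 311575648752) (nat_lit 76) (nat_lit 33679080171) (nat_lit 3) (nat_lit 4) (nat_lit 4) (nat_lit 5) (nat_lit 4) (nat_lit 4) (nat_lit 324) (nat_lit 275) (nat_lit 121)) (XT.lf (nat_lit 0) (nat_lit 872253320999) (nat_lit 76) (nat_lit 278027285659) (nat_lit 76) (nat_lit 130570424) (nat_lit 3) (nat_lit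 4) (nat_lit 4) (nat_lit 5) (nat_lit 4) (nat_lit 4) (nat_lit 325) (nat_lit 275) (nat_lit 120)))) (XT.nd (nat_lit 78) (nat_lit 0) (nat_lit 0) (XT.lf (nat_lit 0) (nat_lit 34295804390) (nat_lit 152) (nat_lit 206561577894) (nat_lit 76) (nat_lit 996911301578) (nat_lit 2) (nat_lit 5) (nat_lit 4) (nat_lit 5) (nat_lit 3) (nat_lit 4) (nat_lit 326) (nat_lit 275) (nat_lit 119)) (XT.nd (nat_lit 78) (nat_lit 0) (nat_lit 0) (XT.lf (nat_lit 0) (nat_lit 71469182719) (nat_lit 152) (nat_lit 129241076701) (nat_lit 76) (nat_lit 1131404264889) (nat_lit 2) (nat_lit 5) (nat_lit 4) (nat_lit 5) (nat_lit 3) (nat_lit 4) (nat_lit 327) (nat_lit 275) (nat_lit 118)) (XT.lf (nat_lit 0) (nat_lit 111616382912) (nat_lit 152) (nat_lit 45735016719) (nat_lit 76) (nat_lit 1276656636473) (nat_lit 2) (nat_lit 5) (nat_lit 4) (nat_lit 5) (nat_lit 3) (nat_lit 4) (nat_lit 328) (nat_lit 275) (nat_lit 117))))) (XT.nd (nat_lit 234)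 (nat_lit 0) (nat_lit 0) (XT.nd (nat_lit 78) (nat_lit 0) (nat_lit 0) (XT.lf (nat_lit 0) (nat_lit 46792187506) (nat_lit 76) (nat_lit 109308480031) (nat_lit 152) (nat_lit 1387862336853) (nat_lit 1) (nat_lit 5) (nat_lit 2) (nat_lit 5) (nat_lit 3) (nat_lit 4) (nat_lit 329) (nat_lit 275) (nat_lit 116)) (XT.nd (nat_lit 78) (nat_lit 0) (nat_lit 0) (XT.lf (nat_lit 0) (nat_lit 149322485616) (nat_lit 76) (nat_lit 56071642459) (nat_lit 152) (nat_lit 1457220207616) (nat_lit 1) (nat_lit 5) (nat_lit 2) (nat_lit 5) (nat_lit 3) (nat_lit 4) (nat_lit 330) (nat_lit 275) (nat_lit 115)) (XT.lf (nat_lit 0) (nat_lit 258665275382) (nat_lit 152) (nat_lit 1530736887242) (nat_lit 0) (nat_lit 1352874271) (nat_lit 1) (nat_lit 5) (nat_lit 3) (nat_lit 4) (nat_lit 1) (nat_lit 4) (nat_lit 331) (nat_lit 275) (nat_lit 114)))) (XT.nd (nat_lit 156) (nat_lit 0) (nat_lit 0) (XT.nd (nat_lit 78) (nat_lit 0) (nat_lit 0) (XT.lf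 (nat_lit 0) (nat_lit 317654483058) (nat_lit 152) (nat_lit 1551033999111) (nat_lit 0) (nat_lit 60342002714) (nat_lit 1) (nat_lit 5) (nat_lit 3) (nat_lit 4) (nat_lit 1) (nat_lit 4) (nat_lit 332) (nat_lit 275) (nat_lit 113)) (XT.lf (nat_lit 0) (nat_lit 381362792429) (nat_lit 152) (nat_lit 1572954940514) (nat_lit 0) (nat_lit 124050238722) (nat_lit 1) (nat_lit 5) (nat_lit 3) (nat_lit 4) (nat_lit 1) (nat_lit 4) (nat_lit 333) (nat_lit 275) (nat_lit 112))) (XT.nd (nat_lit 78) (nat_lit 0) (nat_lit 0) (XT.lf (nat_lit 0) (nat_lit 450167734219) (nat_lit 152) (nat_lit 1596629613327) (nat_lit 0) (nat_lit 192855112583) (nat_lit 1) (nat_lit 5) (nat_lit 3) (nat_lit 4) (nat_lit 1) (nat_lit 4) (nat_lit 334) (nat_lit 275) (nat_lit 111)) (XT.lf (nat_lit 0) (nat_lit 524477041415) (nat_lit 152) (nat_lit 1622198311907) (nat_lit 0) (nat_lit 267164356881) (nat_lit 1) (nat_lit 5) (nat_lit 3) (nat_lit 4) (nat_lit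 1) (nat_lit 4) (nat_lit 335) (nat_lit 275) (nat_lit 110)))))) (XT.nd (nat_lit 33228) (nat_lit 0) (nat_lit 1444) (XT.nd (nat_lit 32994) (nat_lit 0) (nat_lit 1976) (XT.nd (nat_lit 32838) (nat_lit 0) (nat_lit 1976) (XT.lf (nat_lit 0) (nat_lit 604731065467) (nat_lit 152) (nat_lit 1649812554468) (nat_lit 0) (nat_lit 347418322695) (nat_lit 1) (nat_lit 5) (nat_lit 3) (nat_lit 4) (nat_lit 1) (nat_lit 4) (nat_lit 336) (nat_lit 275) (nat_lit 109)) (XT.nd (nat_lit 78) (nat_lit 0) (nat_lit 0) (XT.lf (nat_lit 0) (nat_lit 14025620068) (nat_lit 0) (nat_lit 14025620068) (nat_lit 380) (nat_lit 4992551031) (nat_lit 27) (nat_lit 5) (nat_lit 27) (nat_lit 3) (nat_lit 32) (nat_lit 3) (nat_lit 276) (nat_lit 276) (nat_lit 168)) (XT.lf (nat_lit 0) (nat_lit 55097752447) (nat_lit 0) (nat_lit 3261025031) (nat_lit 380) (nat_lit 10371191076) (nat_lit 27) (nat_lit 5) (nat_lit 27) (nat_lit 3) (nat_lit 32) (nat_lit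 3) (nat_lit 277) (nat_lit 276) (nat_lit 167)))) (XT.nd (nat_lit 78) (nat_lit 0) (nat_lit 0) (XT.lf (nat_lit 76) (nat_lit 12798249768) (nat_lit 0) (nat_lit 48869395157) (nat_lit 456) (nat_lit 9846349558) (nat_lit 28) (nat_lit 5) (nat_lit 27) (nat_lit 5) (nat_lit 33) (nat_lit 5) (nat_lit 278) (nat_lit 276) (nat_lit 166)) (XT.nd (nat_lit 78) (nat_lit 0) (nat_lit 76) (XT.lf (nat_lit 76) (nat_lit 42028548940) (nat_lit 0) (nat_lit 23666825704) (nat_lit 456) (nat_lit 8789048697) (nat_lit 28) (nat_lit 5) (nat_lit 27) (nat_lit 5) (nat_lit 33) (nat_lit 5) (nat_lit 279) (nat_lit 276) (nat_lit 165)) (XT.lf (nat_lit 0) (nat_lit 70129706773) (nat_lit 380) (nat_lit 4181409072) (nat_lit 456) (nat_lit 3374632054) (nat_lit 28) (nat_lit 5) (nat_lit 33) (nat_lit 5) (nat_lit 34) (nat_lit 5) (nat_lit 280) (nat_lit 276) (nat_lit 164))))) (XT.nd (nat_lit 234) (nat_lit 228) (nat_lit 0) (XT.nd (nat_lit 78)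 (nat_lit 380) (nat_lit 0) (XT.lf (nat_lit 76) (nat_lit 27094978186) (nat_lit 0) (nat_lit 49089201542) (nat_lit 456) (nat_lit 4857778370) (nat_lit 29) (nat_lit 5) (nat_lit 28) (nat_lit 5) (nat_lit 34) (nat_lit 5) (nat_lit 281) (nat_lit 276) (nat_lit 163)) (XT.nd (nat_lit 78) (nat_lit 380) (nat_lit 0) (XT.lf (nat_lit 76) (nat_lit 61110581822) (nat_lit 0) (nat_lit 21725847111) (nat_lit 456) (nat_lit 1821173093) (nat_lit 29) (nat_lit 5) (nat_lit 28) (nat_lit 5) (nat_lit 34) (nat_lit 5) (nat_lit 282) (nat_lit 276) (nat_lit 162)) (XT.lf (nat_lit 0) (nat_lit 1813917656) (nat_lit 456) (nat_lit 79000055420) (nat_lit 76) (nat_lit 7711446596) (nat_lit 23) (nat_lit 5) (nat_lit 29) (nat_lit 5) (nat_lit 24) (nat_lit 5) (nat_lit 283) (nat_lit 276) (nat_lit 161)))) (XT.nd (nat_lit 156) (nat_lit 228) (nat_lit 0) (XT.nd (nat_lit 78) (nat_lit 0) (nat_lit 0) (XT.lf (nat_lit 0) (nat_lit 6865451822) (nat_lit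 456) (nat_lit 46697569765) (nat_lit 76) (nat_lit 39037942988) (nat_lit 23) (nat_lit 5) (nat_lit 29) (nat_lit 5) (nat_lit 24) (nat_lit 5) (nat_lit 284) (nat_lit 276) (nat_lit 160)) (XT.lf (nat_lit 0) (nat_lit 12320348816) (nat_lit 456) (nat_lit 11811587430) (nat_lit 76) (nat_lit 72870685250) (nat_lit 23) (nat_lit 5) (nat_lit 29) (nat_lit 5) (nat_lit 24) (nat_lit 5) (nat_lit 285) (nat_lit 276) (nat_lit 159))) (XT.nd (nat_lit 78) (nat_lit 0) (nat_lit 0) (XT.lf (nat_lit 0) (nat_lit 19066813764) (nat_lit 304) (nat_lit 74678560944) (nat_lit 76) (nat_lit 7942629236) (nat_lit 20) (nat_lit 5) (nat_lit 24) (nat_lit 5) (nat_lit 21) (nat_lit 5) (nat_lit 286) (nat_lit 276) (nat_lit 158)) (XT.lf (nat_lit 0) (nat_lit 27310471541) (nat_lit 304) (nat_lit 37750375922) (nat_lit 76) (nat_lit 41610778018) (nat_lit 20) (nat_lit 5) (nat_lit 24) (nat_lit 5) (nat_lit 21) (nat_lit 5) (nat_lit 287) (nat_lit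 276) (nat_lit 157))))))) (XT.nd (nat_lit 1014) (nat_lit 304) (nat_lit 0) (XT.nd (nat_lit 468) (nat_lit 532) (nat_lit 0) (XT.nd (nat_lit 234) (nat_lit 152) (nat_lit 0) (XT.nd (nat_lit 78) (nat_lit 0) (nat_lit 0) (XT.lf (nat_lit 0) (nat_lit 2243657807) (nat_lit 228) (nat_lit 34023307544) (nat_lit 304) (nat_lit 75782709979) (nat_lit 17) (nat_lit 5) (nat_lit 20) (nat_lit 5) (nat_lit 21) (nat_lit 5) (nat_lit 288) (nat_lit 276) (nat_lit 156)) (XT.nd (nat_lit 78) (nat_lit 0) (nat_lit 0) (XT.lf (nat_lit 0) (nat_lit 46986271766) (nat_lit 304) (nat_lit 70206680719) (nat_lit 76) (nat_lit 581318844) (nat_lit 17) (nat_lit 5) (nat_lit 21) (nat_lit 5) (nat_lit 18) (nat_lit 5) (nat_lit 289) (nat_lit 276) (nat_lit 155)) (XT.lf (nat_lit 0) (nat_lit 59446301461) (nat_lit 304) (nat_lit 28323747190) (nat_lit 76) (nat_lit 36116137254) (nat_lit 17) (nat_lit 5) (nat_lit 21) (nat_lit 5) (nat_lit 18) (nat_lit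 5) (nat_lit 290) (nat_lit 276) (nat_lit 154)))) (XT.nd (nat_lit 78) (nat_lit 0) (nat_lit 0) (XT.lf (nat_lit 0) (nat_lit 17799650182) (nat_lit 152) (nat_lit 55531062116) (nat_lit 228) (nat_lit 57122139855) (nat_lit 15) (nat_lit 5) (nat_lit 17) (nat_lit 5) (nat_lit 18) (nat_lit 5) (nat_lit 291) (nat_lit 276) (nat_lit 153)) (XT.nd (nat_lit 78) (nat_lit 0) (nat_lit 0) (XT.lf (nat_lit 0) (nat_lit 69223149234) (nat_lit 152) (nat_lit 19876668612) (nat_lit 228) (nat_lit 48383122964) (nat_lit 15) (nat_lit 5) (nat_lit 17) (nat_lit 5) (nat_lit 18) (nat_lit 5) (nat_lit 292) (nat_lit 276) (nat_lit 152)) (XT.lf (nat_lit 0) (nat_lit 106578059610) (nat_lit 228) (nat_lit 20763524577) (nat_lit 76) (nat_lit 17698047874) (nat_lit 15) (nat_lit 5) (nat_lit 18) (nat_lit 5) (nat_lit 16) (nat_lit 5) (nat_lit 293) (nat_lit 276) (nat_lit 151))))) (XT.nd (nat_lit 234) (nat_lit 304) (nat_lit 0) (XT.nd (nat_lit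 78) (nat_lit 76) (nat_lit 0) (XT.lf (nat_lit 0) (nat_lit 31596216615) (nat_lit 152) (nat_lit 95134098000) (nat_lit 228) (nat_lit 26368487505) (nat_lit 13) (nat_lit 5) (nat_lit 15) (nat_lit 5) (nat_lit 16) (nat_lit 5) (nat_lit 294) (nat_lit 276) (nat_lit 150)) (XT.nd (nat_lit 78) (nat_lit 76) (nat_lit 0) (XT.lf (nat_lit 0) (nat_lit 89325069548) (nat_lit 152) (nat_lit 59736997438) (nat_lit 228) (nat_lit 12695256975) (nat_lit 13) (nat_lit 5) (nat_lit 15) (nat_lit 5) (nat_lit 16) (nat_lit 5) (nat_lit 295) (nat_lit 276) (nat_lit 149)) (XT.lf (nat_lit 0) (nat_lit 1967812605) (nat_lit 228) (nat_lit 19486617376) (nat_lit 76) (nat_lit 149650144630) (nat_lit 12) (nat_lit 5) (nat_lit 15) (nat_lit 5) (nat_lit 13) (nat_lit 5) (nat_lit 296) (nat_lit 276) (nat_lit 148)))) (XT.nd (nat_lit 156) (nat_lit 152) (nat_lit 0) (XT.nd (nat_lit 78) (nat_lit 0) (nat_lit 0) (XT.lf (nat_lit 0) (nat_lit 18575144946)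 (nat_lit 228) (nat_lit 142277072491) (nat_lit 76) (nat_lit 20204443662) (nat_lit 10) (nat_lit 5) (nat_lit 13) (nat_lit 5) (nat_lit 11) (nat_lit 5) (nat_lit 297) (nat_lit 276) (nat_lit 147)) (XT.lf (nat_lit 0) (nat_lit 37614621984) (nat_lit 228) (nat_lit 89518546785) (nat_lit 76) (nat_lit 64583463687) (nat_lit 10) (nat_lit 5) (nat_lit 13) (nat_lit 5) (nat_lit 11) (nat_lit 5) (nat_lit 298) (nat_lit 276) (nat_lit 146))) (XT.nd (nat_lit 78) (nat_lit 152) (nat_lit 0) (XT.lf (nat_lit 0) (nat_lit 58176944788) (nat_lit 228) (nat_lit 32539775683) (nat_lit 76) (nat_lit 112512708451) (nat_lit 10) (nat_lit 5) (nat_lit 13) (nat_lit 5) (nat_lit 11) (nat_lit 5) (nat_lit 299) (nat_lit 276) (nat_lit 145)) (XT.lf (nat_lit 0) (nat_lit 30523817780) (nat_lit 152) (nat_lit 50594244929) (nat_lit 228) (nat_lit 134486483879) (nat_lit 8) (nat_lit 5) (nat_lit 10) (nat_lit 5) (nat_lit 11) (nat_lit 5) (nat_lit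 300) (nat_lit 276) (nat_lit 144)))))) (XT.nd (nat_lit 546) (nat_lit 228) (nat_lit 0) (XT.nd (nat_lit 234) (nat_lit 76) (nat_lit 0) (XT.nd (nat_lit 78) (nat_lit 0) (nat_lit 0) (XT.lf (nat_lit 0) (nat_lit 100482670517) (nat_lit 152) (nat_lit 6301217371) (nat_lit 228) (nat_lit 122114634417) (nat_lit 8) (nat_lit 5) (nat_lit 10) (nat_lit 5) (nat_lit 11) (nat_lit 5) (nat_lit 301) (nat_lit 276) (nat_lit 143)) (XT.nd (nat_lit 78) (nat_lit 0) (nat_lit 0) (XT.lf (nat_lit 0) (nat_lit 135501643534) (nat_lit 228) (nat_lit 68217093164) (nat_lit 76) (nat_lit 39457388136) (nat_lit 8) (nat_lit 5) (nat_lit 11) (nat_lit 5) (nat_lit 9) (nat_lit 4) (nat_lit 302) (nat_lit 276) (nat_lit 142)) (XT.lf (nat_lit 0) (nat_lit 166680247459) (nat_lit 228) (nat_lit 3366458075) (nat_lit 76) (nat_lit 88536157575) (nat_lit 8) (nat_lit 5) (nat_lit 11) (nat_lit 5) (nat_lit 9) (nat_lit 4) (nat_lit 303) (nat_lit 276) (nat_lit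 141)))) (XT.nd (nat_lit 156) (nat_lit 0) (nat_lit 0) (XT.nd (nat_lit 78) (nat_lit 0) (nat_lit 0) (XT.lf (nat_lit 0) (nat_lit 70182721964) (nat_lit 76) (nat_lit 131858091518) (nat_lit 152) (nat_lit 73046314697) (nat_lit 7) (nat_lit 5) (nat_lit 8) (nat_lit 5) (nat_lit 9) (nat_lit 4) (nat_lit 304) (nat_lit 276) (nat_lit 140)) (XT.lf (nat_lit 0) (nat_lit 149806968359) (nat_lit 76) (nat_lit 90515087733) (nat_lit 152) (nat_lit 52582333376) (nat_lit 7) (nat_lit 5) (nat_lit 8) (nat_lit 5) (nat_lit 9) (nat_lit 4) (nat_lit 305) (nat_lit 276) (nat_lit 139))) (XT.nd (nat_lit 78) (nat_lit 0) (nat_lit 0) (XT.lf (nat_lit 0) (nat_lit 235800856780) (nat_lit 76) (nat_lit 45864743528) (nat_lit 152) (nat_lit 30481448581) (nat_lit 7) (nat_lit 5) (nat_lit 8) (nat_lit 5) (nat_lit 9) (nat_lit 4) (nat_lit 306) (nat_lit 276) (nat_lit 138)) (XT.lf (nat_lit 0) (nat_lit 326373143702) (nat_lit 152) (nat_lit 4311855168)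 (nat_lit 0) (nat_lit 2239602242) (nat_lit 7) (nat_lit 5) (nat_lit 9) (nat_lit 4) (nat_lit 7) (nat_lit 4) (nat_lit 307) (nat_lit 276) (nat_lit 137))))) (XT.nd (nat_lit 234) (nat_lit 76) (nat_lit 0) (XT.nd (nat_lit 78) (nat_lit 0) (nat_lit 0) (XT.lf (nat_lit 0) (nat_lit 21427637480) (nat_lit 152) (nat_lit 279564598123) (nat_lit 76) (nat_lit 54087018178) (nat_lit 5) (nat_lit 5) (nat_lit 7) (nat_lit 5) (nat_lit 6) (nat_lit 4) (nat_lit 308) (nat_lit 276) (nat_lit 136)) (XT.nd (nat_lit 78) (nat_lit 0) (nat_lit 0) (XT.lf (nat_lit 0) (nat_lit 51411896472) (nat_lit 152) (nat_lit 217197841848) (nat_lit 76) (nat_lit 110373265128) (nat_lit 5) (nat_lit 5) (nat_lit 7) (nat_lit 5) (nat_lit 6) (nat_lit 4) (nat_lit 309) (nat_lit 276) (nat_lit 135)) (XT.lf (nat_lit 0) (nat_lit 83794738258) (nat_lit 152) (nat_lit 149841996144) (nat_lit 76) (nat_lit 171162332276) (nat_lit 5) (nat_lit 5) (nat_lit 7) (nat_lit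 5) (nat_lit 6) (nat_lit 4) (nat_lit 310) (nat_lit 276) (nat_lit 134)))) (XT.nd (nat_lit 156) (nat_lit 0) (nat_lit 0) (XT.nd (nat_lit 78) (nat_lit 76) (nat_lit 0) (XT.lf (nat_lit 0) (nat_lit 118768061160) (nat_lit 152) (nat_lit 77097915259) (nat_lit 76) (nat_lit 236814451130) (nat_lit 5) (nat_lit 5) (nat_lit 7) (nat_lit 5) (nat_lit 6) (nat_lit 4) (nat_lit 311) (nat_lit 276) (nat_lit 133)) (XT.lf (nat_lit 0) (nat_lit 1542646253) (nat_lit 76) (nat_lit 155033568925) (nat_lit 152) (nat_lit 306213125709) (nat_lit 4) (nat_lit 5) (nat_lit 5) (nat_lit 5) (nat_lit 6) (nat_lit 4) (nat_lit 312) (nat_lit 276) (nat_lit 132))) (XT.nd (nat_lit 78) (nat_lit 0) (nat_lit 0) (XT.lf (nat_lit 0) (nat_lit 90858869637) (nat_lit 76) (nat_lit 108658015100) (nat_lit 152) (nat_lit 295621454255) (nat_lit 4) (nat_lit 5) (nat_lit 5) (nat_lit 5) (nat_lit 6) (nat_lit 4) (nat_lit 313) (nat_lit 276) (nat_lit 131))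 (XT.lf (nat_lit 0) (nat_lit 187320196627) (nat_lit 76) (nat_lit 58572490482) (nat_lit 152) (nat_lit 284182580200) (nat_lit 4) (nat_lit 5) (nat_lit 5) (nat_lit 5) (nat_lit 6) (nat_lit 4) (nat_lit 314) (nat_lit 276) (nat_lit 130))))))))
noncomputable def xc109 : XT := (XT.nd (nat_lit 35022) (nat_lit 0) (nat_lit 304) (XT.nd (nat_lit 1014) (nat_lit 76) (nat_lit 0) (XT.nd (nat_lit 468) (nat_lit 76) (nat_lit 0) (XT.nd (nat_lit 234) (nat_lit 76) (nat_lit 0) (XT.nd (nat_lit 78) (nat_lit 0) (nat_lit 0) (XT.lf (nat_lit 0) (nat_lit 291498249902) (nat_lit 76) (nat_lit 4480191962) (nat_lit 152) (nat_lit 271828717622) (nat_lit 4) (nat_lit 5) (nat_lit 5) (nat_lit 5) (nat_lit 6) (nat_lit 4) (nat_lit 315) (nat_lit 276) (nat_lit 129)) (XT.nd (nat_lit 78) (nat_lit 0) (nat_lit 0) (XT.lf (nat_lit 0) (nat_lit 351368198002) (nat_lit 152) (nat_lit 205844475561) (nat_lit 0) (nat_lit 51241158798) (nat_lit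 4) (nat_lit 5) (nat_lit 6) (nat_lit 4) (nat_lit 4) (nat_lit 4) (nat_lit 316) (nat_lit 276) (nat_lit 128)) (XT.lf (nat_lit 0) (nat_lit 411305405991) (nat_lit 152) (nat_lit 129859416474) (nat_lit 0) (nat_lit 111178115448) (nat_lit 4) (nat_lit 5) (nat_lit 6) (nat_lit 4) (nat_lit 4) (nat_lit 4) (nat_lit 317) (nat_lit 276) (nat_lit 127)))) (XT.nd (nat_lit 78) (nat_lit 76) (nat_lit 0) (XT.lf (nat_lit 0) (nat_lit 476037500564) (nat_lit 152) (nat_lit 47795701767) (nat_lit 0) (nat_lit 175909977299) (nat_lit 4) (nat_lit 5) (nat_lit 6) (nat_lit 4) (nat_lit 4) (nat_lit 4) (nat_lit 318) (nat_lit 276) (nat_lit 126)) (XT.nd (nat_lit 78) (nat_lit 0) (nat_lit 0) (XT.lf (nat_lit 0) (nat_lit 42983163999) (nat_lit 76) (nat_lit 503998661446) (nat_lit 76) (nat_lit 203870922698) (nat_lit 3) (nat_lit 4) (nat_lit 4) (nat_lit 5) (nat_lit 4) (nat_lit 4) (nat_lit 319) (nat_lit 276) (nat_lit 125)) (XT.lf (nat_lit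 0) (nat_lit 143742388370) (nat_lit 76) (nat_lit 481166046690) (nat_lit 76) (nat_lit 181038108421) (nat_lit 3) (nat_lit 4) (nat_lit 4) (nat_lit 5) (nat_lit 4) (nat_lit 4) (nat_lit 320) (nat_lit 276) (nat_lit 124))))) (XT.nd (nat_lit 234) (nat_lit 76) (nat_lit 0) (XT.nd (nat_lit 78) (nat_lit 0) (nat_lit 0) (XT.lf (nat_lit 0) (nat_lit 252562226091) (nat_lit 76) (nat_lit 456506872867) (nat_lit 76) (nat_lit 156378749856) (nat_lit 3) (nat_lit 4) (nat_lit 4) (nat_lit 5) (nat_lit 4) (nat_lit 4) (nat_lit 321) (nat_lit 276) (nat_lit 123)) (XT.nd (nat_lit 78) (nat_lit 0) (nat_lit 0) (XT.lf (nat_lit 0) (nat_lit 370087535460) (nat_lit 76) (nat_lit 429875011539) (nat_lit 76) (nat_lit 129746717471) (nat_lit 3) (nat_lit 4) (nat_lit 4) (nat_lit 5) (nat_lit 4) (nat_lit 4) (nat_lit 322) (nat_lit 276) (nat_lit 122)) (XT.lf (nat_lit 0) (nat_lit 497014762755) (nat_lit 76) (nat_lit 401112644270) (nat_lit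 76) (nat_lit 100984191815) (nat_lit 3) (nat_lit 4) (nat_lit 4) (nat_lit 5) (nat_lit 4) (nat_lit 4) (nat_lit 323) (nat_lit 276) (nat_lit 121)))) (XT.nd (nat_lit 156) (nat_lit 76) (nat_lit 0) (XT.nd (nat_lit 78) (nat_lit 0) (nat_lit 0) (XT.lf (nat_lit 0) (nat_lit 634096069322) (nat_lit 76) (nat_lit 370049327401) (nat_lit 76) (nat_lit 69920728292) (nat_lit 3) (nat_lit 4) (nat_lit 4) (nat_lit 5) (nat_lit 4) (nat_lit 4) (nat_lit 324) (nat_lit 276) (nat_lit 120)) (XT.lf (nat_lit 0) (nat_lit 782143788831) (nat_lit 76) (nat_lit 336500982017) (nat_lit 76) (nat_lit 36372247117) (nat_lit 3) (nat_lit 4) (nat_lit 4) (nat_lit 5) (nat_lit 4) (nat_lit 4) (nat_lit 325) (nat_lit 276) (nat_lit 119))) (XT.nd (nat_lit 78) (nat_lit 76) (nat_lit 0) (XT.lf (nat_lit 0) (nat_lit 942035241100) (nat_lit 76) (nat_lit 300268803109) (nat_lit 76) (nat_lit 139942477) (nat_lit 3) (nat_lit 4) (nat_lit 4) (nat_lit 5)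 (nat_lit 4) (nat_lit 4) (nat_lit 326) (nat_lit 276) (nat_lit 118)) (XT.lf (nat_lit 0) (nat_lit 37040413070) (nat_lit 152) (nat_lit 223084917863) (nat_lit 76) (nat_lit 1076664767426) (nat_lit 2) (nat_lit 5) (nat_lit 4) (nat_lit 5) (nat_lit 3) (nat_lit 4) (nat_lit 327) (nat_lit 276) (nat_lit 117)))))) (XT.nd (nat_lit 546) (nat_lit 0) (nat_lit 0) (XT.nd (nat_lit 234) (nat_lit 0) (nat_lit 0) (XT.nd (nat_lit 78) (nat_lit 76) (nat_lit 0) (XT.lf (nat_lit 0) (nat_lit 77187591716) (nat_lit 152) (nat_lit 139578894075) (nat_lit 76) (nat_lit 1221917126193) (nat_lit 2) (nat_lit 5) (nat_lit 4) (nat_lit 5) (nat_lit 3) (nat_lit 4) (nat_lit 328) (nat_lit 276) (nat_lit 116)) (XT.nd (nat_lit 78) (nat_lit 76) (nat_lit 0) (XT.lf (nat_lit 0) (nat_lit 120546503155) (nat_lit 152) (nat_lit 49392458091) (nat_lit 76) (nat_lit 1378789648977) (nat_lit 2) (nat_lit 5) (nat_lit 4) (nat_lit 5) (nat_lit 3) (nat_lit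 4) (nat_lit 329) (nat_lit 276) (nat_lit 115)) (XT.lf (nat_lit 0) (nat_lit 50536888042) (nat_lit 76) (nat_lit 118052614417) (nat_lit 152) (nat_lit 1498890476058) (nat_lit 1) (nat_lit 5) (nat_lit 2) (nat_lit 5) (nat_lit 3) (nat_lit 4) (nat_lit 330) (nat_lit 276) (nat_lit 114)))) (XT.nd (nat_lit 156) (nat_lit 0) (nat_lit 0) (XT.nd (nat_lit 78) (nat_lit 0) (nat_lit 0) (XT.lf (nat_lit 0) (nat_lit 161269511813) (nat_lit 76) (nat_lit 60556870137) (nat_lit 152) (nat_lit 1573797039278) (nat_lit 1) (nat_lit 5) (nat_lit 2) (nat_lit 5) (nat_lit 3) (nat_lit 4) (nat_lit 331) (nat_lit 276) (nat_lit 113)) (XT.lf (nat_lit 0) (nat_lit 279359178656) (nat_lit 152) (nat_lit 1653194656228) (nat_lit 0) (nat_lit 1461547288) (nat_lit 1) (nat_lit 5) (nat_lit 3) (nat_lit 4) (nat_lit 1) (nat_lit 4) (nat_lit 332) (nat_lit 276) (nat_lit 112))) (XT.nd (nat_lit 78) (nat_lit 0) (nat_lit 0) (XT.lf (nat_lit 0) (nat_lit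 343067472483) (nat_lit 152) (nat_lit 1675115624601) (nat_lit 0) (nat_lit 65169773186) (nat_lit 1) (nat_lit 5) (nat_lit 3) (nat_lit 4) (nat_lit 1) (nat_lit 4) (nat_lit 333) (nat_lit 276) (nat_lit 111)) (XT.lf (nat_lit 0) (nat_lit 411872399880) (nat_lit 152) (nat_lit 1698790322386) (nat_lit 0) (nat_lit 133974637686) (nat_lit 1) (nat_lit 5) (nat_lit 3) (nat_lit 4) (nat_lit 1) (nat_lit 4) (nat_lit 334) (nat_lit 276) (nat_lit 110))))) (XT.nd (nat_lit 33150) (nat_lit 0) (nat_lit 1976) (XT.nd (nat_lit 32994) (nat_lit 0) (nat_lit 1976) (XT.lf (nat_lit 0) (nat_lit 486181693749) (nat_lit 152) (nat_lit 1724359044089) (nat_lit 0) (nat_lit 208283873317) (nat_lit 1) (nat_lit 5) (nat_lit 3) (nat_lit 4) (nat_lit 1) (nat_lit 4) (nat_lit 335) (nat_lit 276) (nat_lit 109)) (XT.nd (nat_lit 78) (nat_lit 0) (nat_lit 0) (XT.lf (nat_lit 0) (nat_lit 15153621990) (nat_lit 0) (nat_lit 15153621990) (nat_lit 380)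 (nat_lit 5378960272) (nat_lit 27) (nat_lit 5) (nat_lit 27) (nat_lit 3) (nat_lit 32) (nat_lit 3) (nat_lit 277) (nat_lit 277) (nat_lit 166)) (XT.lf (nat_lit 0) (nat_lit 59516595452) (nat_lit 0) (nat_lit 3532929842) (nat_lit 380) (nat_lit 11176821839) (nat_lit 27) (nat_lit 5) (nat_lit 27) (nat_lit 3) (nat_lit 32) (nat_lit 3) (nat_lit 278) (nat_lit 277) (nat_lit 165)))) (XT.nd (nat_lit 156) (nat_lit 0) (nat_lit 76) (XT.nd (nat_lit 78) (nat_lit 0) (nat_lit 0) (XT.lf (nat_lit 76) (nat_lit 13835079681) (nat_lit 0) (nat_lit 52786455913) (nat_lit 456) (nat_lit 10611703775) (nat_lit 28) (nat_lit 5) (nat_lit 27) (nat_lit 5) (nat_lit 33) (nat_lit 5) (nat_lit 279) (nat_lit 277) (nat_lit 164)) (XT.lf (nat_lit 76) (nat_lit 45402842051) (nat_lit 0) (nat_lit 25567124671) (nat_lit 456) (nat_lit 9471474677) (nat_lit 28) (nat_lit 5) (nat_lit 27) (nat_lit 5) (nat_lit 33) (nat_lit 5) (nat_lit 280) (nat_lit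 277) (nat_lit 163))) (XT.nd (nat_lit 78) (nat_lit 0) (nat_lit 0) (XT.lf (nat_lit 0) (nat_lit 75757485989) (nat_lit 380) (nat_lit 4503040110) (nat_lit 456) (nat_lit 3638486788) (nat_lit 28) (nat_lit 5) (nat_lit 33) (nat_lit 5) (nat_lit 34) (nat_lit 5) (nat_lit 281) (nat_lit 277) (nat_lit 162)) (XT.lf (nat_lit 76) (nat_lit 29275132010) (nat_lit 0) (nat_lit 53020197646) (nat_lit 456) (nat_lit 5228484227) (nat_lit 29) (nat_lit 5) (nat_lit 28) (nat_lit 5) (nat_lit 34) (nat_lit 5) (nat_lit 282) (nat_lit 277) (nat_lit 161))))))) (XT.nd (nat_lit 1014) (nat_lit 608) (nat_lit 0) (XT.nd (nat_lit 468) (nat_lit 532) (nat_lit 0) (XT.nd (nat_lit 234) (nat_lit 228) (nat_lit 0) (XT.nd (nat_lit 78) (nat_lit 380) (nat_lit 0) (XT.lf (nat_lit 76) (nat_lit 66011053894) (nat_lit 0) (nat_lit 23467488936) (nat_lit 456) (nat_lit 1950277669) (nat_lit 29) (nat_lit 5) (nat_lit 28) (nat_lit 5) (nat_lit 34) (nat_lit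 5) (nat_lit 283) (nat_lit 277) (nat_lit 160)) (XT.nd (nat_lit 78) (nat_lit 0) (nat_lit 0) (XT.lf (nat_lit 0) (nat_lit 1973856541) (nat_lit 456) (nat_lit 85306360735) (nat_lit 76) (nat_lit 8325900993) (nat_lit 23) (nat_lit 5) (nat_lit 29) (nat_lit 5) (nat_lit 24) (nat_lit 5) (nat_lit 284) (nat_lit 277) (nat_lit 159)) (XT.lf (nat_lit 0) (nat_lit 7428415258) (nat_lit 456) (nat_lit 50420690977) (nat_lit 76) (nat_lit 42158699417) (nat_lit 23) (nat_lit 5) (nat_lit 29) (nat_lit 5) (nat_lit 24) (nat_lit 5) (nat_lit 285) (nat_lit 277) (nat_lit 158)))) (XT.nd (nat_lit 78) (nat_lit 228) (nat_lit 0) (XT.lf (nat_lit 0) (nat_lit 13318687174) (nat_lit 456) (nat_lit 12744769638) (nat_lit 76) (nat_lit 78698229876) (nat_lit 23) (nat_lit 5) (nat_lit 29) (nat_lit 5) (nat_lit 24) (nat_lit 5) (nat_lit 286) (nat_lit 277) (nat_lit 157)) (XT.nd (nat_lit 78) (nat_lit 0) (nat_lit 0) (XT.lf (nat_lit 0) (nat_lit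 20604188762) (nat_lit 304) (nat_lit 80640302244) (nat_lit 76) (nat_lit 8577472629) (nat_lit 20) (nat_lit 5) (nat_lit 24) (nat_lit 5) (nat_lit 21) (nat_lit 5) (nat_lit 287) (nat_lit 277) (nat_lit 156)) (XT.lf (nat_lit 0) (nat_lit 29506448058) (nat_lit 304) (nat_lit 40758791574) (nat_lit 76) (nat_lit 44939115310) (nat_lit 20) (nat_lit 5) (nat_lit 24) (nat_lit 5) (nat_lit 21) (nat_lit 5) (nat_lit 288) (nat_lit 277) (nat_lit 155))))) (XT.nd (nat_lit 234) (nat_lit 304) (nat_lit 0) (XT.nd (nat_lit 78) (nat_lit 0) (nat_lit 0) (XT.lf (nat_lit 0) (nat_lit 2434470818) (nat_lit 228) (nat_lit 36744437714) (nat_lit 304) (nat_lit 81833792583) (nat_lit 17) (nat_lit 5) (nat_lit 20) (nat_lit 5) (nat_lit 21) (nat_lit 5) (nat_lit 289) (nat_lit 277) (nat_lit 154)) (XT.nd (nat_lit 78) (nat_lit 0) (nat_lit 0) (XT.lf (nat_lit 0) (nat_lit 50754991671) (nat_lit 304) (nat_lit 75811871691) (nat_lit 76) (nat_lit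 628470365) (nat_lit 17) (nat_lit 5) (nat_lit 21) (nat_lit 5) (nat_lit 18) (nat_lit 5) (nat_lit 290) (nat_lit 277) (nat_lit 153)) (XT.lf (nat_lit 0) (nat_lit 64211096470) (nat_lit 304) (nat_lit 30579143737) (nat_lit 76) (nat_lit 39006026394) (nat_lit 17) (nat_lit 5) (nat_lit 21) (nat_lit 5) (nat_lit 18) (nat_lit 5) (nat_lit 291) (nat_lit 277) (nat_lit 152)))) (XT.nd (nat_lit 156) (nat_lit 152) (nat_lit 0) (XT.nd (nat_lit 78) (nat_lit 0) (nat_lit 0) (XT.lf (nat_lit 0) (nat_lit 19233859520) (nat_lit 152) (nat_lit 59971973462) (nat_lit 228) (nat_lit 61682473780) (nat_lit 15) (nat_lit 5) (nat_lit 17) (nat_lit 5) (nat_lit 18) (nat_lit 5) (nat_lit 292) (nat_lit 277) (nat_lit 151)) (XT.lf (nat_lit 0) (nat_lit 74770480175) (nat_lit 152) (nat_lit 21465345043) (nat_lit 228) (nat_lit 52245034594) (nat_lit 15) (nat_lit 5) (nat_lit 17) (nat_lit 5) (nat_lit 18) (nat_lit 5) (nat_lit 293) (nat_lit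 277) (nat_lit 150))) (XT.nd (nat_lit 78) (nat_lit 152) (nat_lit 0) (XT.lf (nat_lit 0) (nat_lit 115111764551) (nat_lit 228) (nat_lit 22415198929) (nat_lit 76) (nat_lit 19115173344) (nat_lit 15) (nat_lit 5) (nat_lit 18) (nat_lit 5) (nat_lit 16) (nat_lit 5) (nat_lit 294) (nat_lit 277) (nat_lit 149)) (XT.lf (nat_lit 0) (nat_lit 34133083390) (nat_lit 152) (nat_lit 102742784486) (nat_lit 228) (nat_lit 28470204288) (nat_lit 13) (nat_lit 5) (nat_lit 15) (nat_lit 5) (nat_lit 16) (nat_lit 5) (nat_lit 295) (nat_lit 277) (nat_lit 148)))))) (XT.nd (nat_lit 546) (nat_lit 228) (nat_lit 0) (XT.nd (nat_lit 234) (nat_lit 152) (nat_lit 0) (XT.nd (nat_lit 78) (nat_lit 228) (nat_lit 0) (XT.lf (nat_lit 0) (nat_lit 96479565340) (nat_lit 152) (nat_lit 64514067092) (nat_lit 228) (nat_lit 13703690295) (nat_lit 13) (nat_lit 5) (nat_lit 15) (nat_lit 5) (nat_lit 16) (nat_lit 5) (nat_lit 296) (nat_lit 277) (nat_lit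 147)) (XT.nd (nat_lit 78) (nat_lit 152) (nat_lit 0) (XT.lf (nat_lit 0) (nat_lit 2131559562) (nat_lit 228) (nat_lit 21037301833) (nat_lit 76) (nat_lit 161623522721) (nat_lit 12) (nat_lit 5) (nat_lit 15) (nat_lit 5) (nat_lit 13) (nat_lit 5) (nat_lit 297) (nat_lit 277) (nat_lit 146)) (XT.lf (nat_lit 0) (nat_lit 20067251310) (nat_lit 228) (nat_lit 153650719226) (nat_lit 76) (nat_lit 21822688917) (nat_lit 10) (nat_lit 5) (nat_lit 13) (nat_lit 5) (nat_lit 11) (nat_lit 5) (nat_lit 298) (nat_lit 277) (nat_lit 145)))) (XT.nd (nat_lit 156) (nat_lit 152) (nat_lit 0) (XT.nd (nat_lit 78) (nat_lit 0) (nat_lit 0) (XT.lf (nat_lit 0) (nat_lit 40629435048) (nat_lit 228) (nat_lit 96672142506) (nat_lit 76) (nat_lit 69751890562) (nat_lit 10) (nat_lit 5) (nat_lit 13) (nat_lit 5) (nat_lit 11) (nat_lit 5) (nat_lit 299) (nat_lit 277) (nat_lit 144)) (XT.lf (nat_lit 0) (nat_lit 62836325653) (nat_lit 228) (nat_lit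 35135654013) (nat_lit 76) (nat_lit 121515345293) (nat_lit 10) (nat_lit 5) (nat_lit 13) (nat_lit 5) (nat_lit 11) (nat_lit 5) (nat_lit 300) (nat_lit 277) (nat_lit 143))) (XT.nd (nat_lit 78) (nat_lit 0) (nat_lit 0) (XT.lf (nat_lit 0) (nat_lit 32972842022) (nat_lit 152) (nat_lit 54639675135) (nat_lit 228) (nat_lit 145239955131) (nat_lit 8) (nat_lit 5) (nat_lit 10) (nat_lit 5) (nat_lit 11) (nat_lit 5) (nat_lit 301) (nat_lit 277) (nat_lit 142)) (XT.lf (nat_lit 0) (nat_lit 108527875659) (nat_lit 152) (nat_lit 6803361623) (nat_lit 228) (nat_lit 131878761228) (nat_lit 8) (nat_lit 5) (nat_lit 10) (nat_lit 5) (nat_lit 11) (nat_lit 5) (nat_lit 302) (nat_lit 277) (nat_lit 141))))) (XT.nd (nat_lit 234) (nat_lit 152) (nat_lit 0) (XT.nd (nat_lit 78) (nat_lit 76) (nat_lit 0) (XT.lf (nat_lit 0) (nat_lit 146346113290) (nat_lit 228) (nat_lit 73668025333) (nat_lit 76) (nat_lit 42615697181) (nat_lit 8)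 (nat_lit 5) (nat_lit 11) (nat_lit 5) (nat_lit 9) (nat_lit 4) (nat_lit 303) (nat_lit 277) (nat_lit 140)) (XT.nd (nat_lit 78) (nat_lit 76) (nat_lit 0) (XT.lf (nat_lit 0) (nat_lit 180018684176) (nat_lit 228) (nat_lit 3629816124) (nat_lit 76) (nat_lit 95620640916) (nat_lit 8) (nat_lit 5) (nat_lit 11) (nat_lit 5) (nat_lit 9) (nat_lit 4) (nat_lit 304) (nat_lit 277) (nat_lit 139)) (XT.lf (nat_lit 0) (nat_lit 75803147467) (nat_lit 76) (nat_lit 142404790141) (nat_lit 152) (nat_lit 78885824706) (nat_lit 7) (nat_lit 5) (nat_lit 8) (nat_lit 5) (nat_lit 9) (nat_lit 4) (nat_lit 305) (nat_lit 277) (nat_lit 138)))) (XT.nd (nat_lit 156) (nat_lit 152) (nat_lit 0) (XT.nd (nat_lit 78) (nat_lit 0) (nat_lit 0) (XT.lf (nat_lit 0) (nat_lit 161796903371) (nat_lit 76) (nat_lit 97754490400) (nat_lit 152) (nat_lit 56785035633) (nat_lit 7) (nat_lit 5) (nat_lit 8) (nat_lit 5) (nat_lit 9) (nat_lit 4) (nat_lit 306)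 (nat_lit 277) (nat_lit 137)) (XT.lf (nat_lit 0) (nat_lit 254669904528) (nat_lit 76) (nat_lit 49532252315) (nat_lit 152) (nat_lit 32916367788) (nat_lit 7) (nat_lit 5) (nat_lit 8) (nat_lit 5) (nat_lit 9) (nat_lit 4) (nat_lit 307) (nat_lit 277) (nat_lit 136))) (XT.nd (nat_lit 78) (nat_lit 152) (nat_lit 0) (XT.lf (nat_lit 0) (nat_lit 352486095838) (nat_lit 152) (nat_lit 4651963587) (nat_lit 0) (nat_lit 2420239977) (nat_lit 7) (nat_lit 5) (nat_lit 9) (nat_lit 4) (nat_lit 7) (nat_lit 4) (nat_lit 308) (nat_lit 277) (nat_lit 135)) (XT.lf (nat_lit 0) (nat_lit 23144929543) (nat_lit 152) (nat_lit 301924867621) (nat_lit 76) (nat_lit 58415531789) (nat_lit 5) (nat_lit 5) (nat_lit 7) (nat_lit 5) (nat_lit 6) (nat_lit 4) (nat_lit 309) (nat_lit 277) (nat_lit 134))))))))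
noncomputable def xc110 : XT := (XT.nd (nat_lit 35100) (nat_lit 0) (nat_lit 532) (XT.nd (nat_lit 1014) (nat_lit 152) (nat_lit 0) (XT.nd (nat_lit 468) (nat_lit 76) (nat_lit 0) (XT.nd (nat_lit 234) (nat_lit 76) (nat_lit 0) (XT.nd (nat_lit 78) (nat_lit 0) (nat_lit 0) (XT.lf (nat_lit 0) (nat_lit 55527701028) (nat_lit 152) (nat_lit 234569133685) (nat_lit 76) (nat_lit 119204563520) (nat_lit 5) (nat_lit 5) (nat_lit 7) (nat_lit 5) (nat_lit 6) (nat_lit 4) (nat_lit 310) (nat_lit 277) (nat_lit 133)) (XT.nd (nat_lit 78) (nat_lit 0) (nat_lit 0) (XT.lf (nat_lit 0) (nat_lit 90500958836) (nat_lit 152) (nat_lit 161825156288) (nat_lit 76) (nat_lit 184856649582) (nat_lit 5) (nat_lit 5) (nat_lit 7) (nat_lit 5) (nat_lit 6) (nat_lit 4) (nat_lit 311) (nat_lit 277) (nat_lit 132)) (XT.lf (nat_lit 0) (nat_lit 128271951902) (nat_lit 152) (nat_lit 83261860011) (nat_lit 76) (nat_lit 255760839372) (nat_lit 5)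 (nat_lit 5) (nat_lit 7) (nat_lit 5) (nat_lit 6) (nat_lit 4) (nat_lit 312) (nat_lit 277) (nat_lit 131)))) (XT.nd (nat_lit 78) (nat_lit 0) (nat_lit 0) (XT.lf (nat_lit 0) (nat_lit 1669847981) (nat_lit 76) (nat_lit 167434820236) (nat_lit 152) (nat_lit 330707617770) (nat_lit 4) (nat_lit 5) (nat_lit 5) (nat_lit 5) (nat_lit 6) (nat_lit 4) (nat_lit 313) (nat_lit 277) (nat_lit 130)) (XT.nd (nat_lit 78) (nat_lit 0) (nat_lit 0) (XT.lf (nat_lit 0) (nat_lit 98131088493) (nat_lit 76) (nat_lit 117349328343) (nat_lit 152) (nat_lit 319268802081) (nat_lit 4) (nat_lit 5) (nat_lit 5) (nat_lit 5) (nat_lit 6) (nat_lit 4) (nat_lit 314) (nat_lit 277) (nat_lit 129)) (XT.lf (nat_lit 0) (nat_lit 202309061695) (nat_lit 76) (nat_lit 63257060124) (nat_lit 152) (nat_lit 306914993547) (nat_lit 4) (nat_lit 5) (nat_lit 5) (nat_lit 5) (nat_lit 6) (nat_lit 4) (nat_lit 315) (nat_lit 277) (nat_lit 128))))) (XT.nd (nat_lit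 234) (nat_lit 76) (nat_lit 0) (XT.nd (nat_lit 78) (nat_lit 0) (nat_lit 0) (XT.lf (nat_lit 0) (nat_lit 314821118540) (nat_lit 76) (nat_lit 4837468803) (nat_lit 152) (nat_lit 293572984413) (nat_lit 4) (nat_lit 5) (nat_lit 5) (nat_lit 5) (nat_lit 6) (nat_lit 4) (nat_lit 316) (nat_lit 277) (nat_lit 127)) (XT.nd (nat_lit 78) (nat_lit 0) (nat_lit 0) (XT.lf (nat_lit 0) (nat_lit 379479410796) (nat_lit 152) (nat_lit 222309124574) (nat_lit 0) (nat_lit 55341452949) (nat_lit 4) (nat_lit 5) (nat_lit 6) (nat_lit 4) (nat_lit 4) (nat_lit 4) (nat_lit 317) (nat_lit 277) (nat_lit 126)) (XT.lf (nat_lit 0) (nat_lit 444211465280) (nat_lit 152) (nat_lit 140245476244) (nat_lit 0) (nat_lit 120073291950) (nat_lit 4) (nat_lit 5) (nat_lit 6) (nat_lit 4) (nat_lit 4) (nat_lit 4) (nat_lit 318) (nat_lit 277) (nat_lit 125)))) (XT.nd (nat_lit 156) (nat_lit 0) (nat_lit 0) (XT.nd (nat_lit 78) (nat_lit 76) (nat_lit 0)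 (XT.lf (nat_lit 0) (nat_lit 514122006914) (nat_lit 152) (nat_lit 51616863883) (nat_lit 0) (nat_lit 189983634063) (nat_lit 4) (nat_lit 5) (nat_lit 6) (nat_lit 4) (nat_lit 4) (nat_lit 4) (nat_lit 319) (nat_lit 277) (nat_lit 124)) (XT.lf (nat_lit 0) (nat_lit 46424248005) (nat_lit 76) (nat_lit 544317576666) (nat_lit 76) (nat_lit 220179019072) (nat_lit 3) (nat_lit 4) (nat_lit 4) (nat_lit 5) (nat_lit 4) (nat_lit 4) (nat_lit 320) (nat_lit 277) (nat_lit 123))) (XT.nd (nat_lit 78) (nat_lit 0) (nat_lit 0) (XT.lf (nat_lit 0) (nat_lit 155244030259) (nat_lit 76) (nat_lit 519658425151) (nat_lit 76) (nat_lit 195519696500) (nat_lit 3) (nat_lit 4) (nat_lit 4) (nat_lit 5) (nat_lit 4) (nat_lit 4) (nat_lit 321) (nat_lit 277) (nat_lit 122)) (XT.lf (nat_lit 0) (nat_lit 272769288271) (nat_lit 76) (nat_lit 493026584480) (nat_lit 76) (nat_lit 168887697442) (nat_lit 3) (nat_lit 4) (nat_lit 4) (nat_lit 5) (nat_lit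 4) (nat_lit 4) (nat_lit 322) (nat_lit 277) (nat_lit 121)))))) (XT.nd (nat_lit 546) (nat_lit 76) (nat_lit 0) (XT.nd (nat_lit 234) (nat_lit 76) (nat_lit 0) (XT.nd (nat_lit 78) (nat_lit 0) (nat_lit 0) (XT.lf (nat_lit 0) (nat_lit 399696468012) (nat_lit 76) (nat_lit 464264236336) (nat_lit 76) (nat_lit 140125202645) (nat_lit 3) (nat_lit 4) (nat_lit 4) (nat_lit 5) (nat_lit 4) (nat_lit 4) (nat_lit 323) (nat_lit 277) (nat_lit 120)) (XT.nd (nat_lit 78) (nat_lit 0) (nat_lit 0) (XT.lf (nat_lit 0) (nat_lit 536777730549) (nat_lit 76) (nat_lit 433200937176) (nat_lit 76) (nat_lit 109061767694) (nat_lit 3) (nat_lit 4) (nat_lit 4) (nat_lit 5) (nat_lit 4) (nat_lit 4) (nat_lit 324) (nat_lit 277) (nat_lit 119)) (XT.lf (nat_lit 0) (nat_lit 684825409288) (nat_lit 76) (nat_lit 399652608190) (nat_lit 76) (nat_lit 75513312975) (nat_lit 3) (nat_lit 4) (nat_lit 4) (nat_lit 5) (nat_lit 4) (nat_lit 4) (nat_lit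 325) (nat_lit 277) (nat_lit 118)))) (XT.nd (nat_lit 156) (nat_lit 76) (nat_lit 0) (XT.nd (nat_lit 78) (nat_lit 0) (nat_lit 0) (XT.lf (nat_lit 0) (nat_lit 844716823808) (nat_lit 76) (nat_lit 363420444464) (nat_lit 76) (nat_lit 39281032831) (nat_lit 3) (nat_lit 4) (nat_lit 4) (nat_lit 5) (nat_lit 4) (nat_lit 4) (nat_lit 326) (nat_lit 277) (nat_lit 117)) (XT.lf (nat_lit 0) (nat_lit 1017399478786) (nat_lit 76) (nat_lit 324289736882) (nat_lit 76) (nat_lit 150217453) (nat_lit 3) (nat_lit 4) (nat_lit 4) (nat_lit 5) (nat_lit 4) (nat_lit 4) (nat_lit 327) (nat_lit 277) (nat_lit 116))) (XT.nd (nat_lit 78) (nat_lit 0) (nat_lit 0) (XT.lf (nat_lit 0) (nat_lit 40004455726) (nat_lit 152) (nat_lit 240930351327) (nat_lit 76) (nat_lit 1162798430406) (nat_lit 2) (nat_lit 5) (nat_lit 4) (nat_lit 5) (nat_lit 3) (nat_lit 4) (nat_lit 328) (nat_lit 277) (nat_lit 115)) (XT.lf (nat_lit 0) (nat_lit 83363348692)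 (nat_lit 152) (nat_lit 150743946374) (nat_lit 76) (nat_lit 1319670942201) (nat_lit 2) (nat_lit 5) (nat_lit 4) (nat_lit 5) (nat_lit 3) (nat_lit 4) (nat_lit 329) (nat_lit 277) (nat_lit 114))))) (XT.nd (nat_lit 234) (nat_lit 0) (nat_lit 0) (XT.nd (nat_lit 78) (nat_lit 76) (nat_lit 0) (XT.lf (nat_lit 0) (nat_lit 130190917518) (nat_lit 152) (nat_lit 53342688788) (nat_lit 76) (nat_lit 1489093233777) (nat_lit 2) (nat_lit 5) (nat_lit 4) (nat_lit 5) (nat_lit 3) (nat_lit 4) (nat_lit 330) (nat_lit 277) (nat_lit 113)) (XT.nd (nat_lit 78) (nat_lit 0) (nat_lit 0) (XT.lf (nat_lit 0) (nat_lit 54580975518) (nat_lit 76) (nat_lit 127496357163) (nat_lit 152) (nat_lit 1618800987339) (nat_lit 1) (nat_lit 5) (nat_lit 2) (nat_lit 5) (nat_lit 3) (nat_lit 4) (nat_lit 331) (nat_lit 277) (nat_lit 112)) (XT.lf (nat_lit 0) (nat_lit 174172125011) (nat_lit 76) (nat_lit 65400987889) (nat_lit 152) (nat_lit 1699700129454)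 (nat_lit 1) (nat_lit 5) (nat_lit 2) (nat_lit 5) (nat_lit 3) (nat_lit 4) (nat_lit 332) (nat_lit 277) (nat_lit 111)))) (XT.nd (nat_lit 156) (nat_lit 0) (nat_lit 0) (XT.nd (nat_lit 78) (nat_lit 0) (nat_lit 0) (XT.lf (nat_lit 0) (nat_lit 301708497004) (nat_lit 152) (nat_lit 1785449215357) (nat_lit 0) (nat_lit 1578850937) (nat_lit 1) (nat_lit 5) (nat_lit 3) (nat_lit 4) (nat_lit 1) (nat_lit 4) (nat_lit 333) (nat_lit 277) (nat_lit 110)) (XT.lf (nat_lit 0) (nat_lit 370513411074) (nat_lit 152) (nat_lit 1809123936265) (nat_lit 0) (nat_lit 70383706769) (nat_lit 1) (nat_lit 5) (nat_lit 3) (nat_lit 4) (nat_lit 1) (nat_lit 4) (nat_lit 334) (nat_lit 277) (nat_lit 109))) (XT.nd (nat_lit 33072) (nat_lit 0) (nat_lit 1976) (XT.lf (nat_lit 0) (nat_lit 444822692604) (nat_lit 152) (nat_lit 1834692679377) (nat_lit 0) (nat_lit 144692934375) (nat_lit 1) (nat_lit 5) (nat_lit 3) (nat_lit 4) (nat_lit 1) (nat_lit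 4) (nat_lit 335) (nat_lit 277) (nat_lit 108)) (XT.lf (nat_lit 0) (nat_lit 16371014901) (nat_lit 0) (nat_lit 16371014901) (nat_lit 380) (nat_lit 5798136110) (nat_lit 27) (nat_lit 5) (nat_lit 27) (nat_lit 3) (nat_lit 32) (nat_lit 3) (nat_lit 278) (nat_lit 278) (nat_lit 164))))))) (XT.nd (nat_lit 1014) (nat_lit 684) (nat_lit 0) (XT.nd (nat_lit 468) (nat_lit 760) (nat_lit 0) (XT.nd (nat_lit 234) (nat_lit 0) (nat_lit 76) (XT.nd (nat_lit 78) (nat_lit 0) (nat_lit 0) (XT.lf (nat_lit 0) (nat_lit 64287373370) (nat_lit 0) (nat_lit 3825014512) (nat_lit 380) (nat_lit 12050336136) (nat_lit 27) (nat_lit 5) (nat_lit 27) (nat_lit 3) (nat_lit 32) (nat_lit 3) (nat_lit 279) (nat_lit 278) (nat_lit 163)) (XT.nd (nat_lit 78) (nat_lit 0) (nat_lit 0) (XT.lf (nat_lit 76) (nat_lit 14953005681) (nat_lit 0) (nat_lit 57015810265) (nat_lit 456) (nat_lit 11441475340) (nat_lit 28) (nat_lit 5) (nat_lit 27) (nat_lit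 5) (nat_lit 33) (nat_lit 5) (nat_lit 280) (nat_lit 278) (nat_lit 162)) (XT.lf (nat_lit 76) (nat_lit 49045365365) (nat_lit 0) (nat_lit 27618455645) (nat_lit 456) (nat_lit 10211447526) (nat_lit 28) (nat_lit 5) (nat_lit 27) (nat_lit 5) (nat_lit 33) (nat_lit 5) (nat_lit 281) (nat_lit 278) (nat_lit 161)))) (XT.nd (nat_lit 78) (nat_lit 0) (nat_lit 0) (XT.lf (nat_lit 0) (nat_lit 81833004857) (nat_lit 380) (nat_lit 4852239349) (nat_lit 456) (nat_lit 3924322391) (nat_lit 28) (nat_lit 5) (nat_lit 33) (nat_lit 5) (nat_lit 34) (nat_lit 5) (nat_lit 282) (nat_lit 278) (nat_lit 160)) (XT.nd (nat_lit 78) (nat_lit 0) (nat_lit 0) (XT.lf (nat_lit 76) (nat_lit 31627906947) (nat_lit 0) (nat_lit 57265122768) (nat_lit 456) (nat_lit 5631402528) (nat_lit 29) (nat_lit 5) (nat_lit 28) (nat_lit 5) (nat_lit 34) (nat_lit 5) (nat_lit 283) (nat_lit 278) (nat_lit 159)) (XT.lf (nat_lit 76) (nat_lit 71301905221) (nat_lit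 0) (nat_lit 25347952228) (nat_lit 456) (nat_lit 2092077256) (nat_lit 29) (nat_lit 5) (nat_lit 28) (nat_lit 5) (nat_lit 34) (nat_lit 5) (nat_lit 284) (nat_lit 278) (nat_lit 158))))) (XT.nd (nat_lit 234) (nat_lit 456) (nat_lit 0) (XT.nd (nat_lit 78) (nat_lit 0) (nat_lit 0) (XT.lf (nat_lit 0) (nat_lit 2144475518) (nat_lit 456) (nat_lit 92119124807) (nat_lit 76) (nat_lit 8989862879) (nat_lit 23) (nat_lit 5) (nat_lit 29) (nat_lit 5) (nat_lit 24) (nat_lit 5) (nat_lit 285) (nat_lit 278) (nat_lit 157)) (XT.nd (nat_lit 78) (nat_lit 0) (nat_lit 0) (XT.lf (nat_lit 0) (nat_lit 8034457416) (nat_lit 456) (nat_lit 54443471453) (nat_lit 76) (nat_lit 45529441486) (nat_lit 23) (nat_lit 5) (nat_lit 29) (nat_lit 5) (nat_lit 24) (nat_lit 5) (nat_lit 286) (nat_lit 278) (nat_lit 156)) (XT.lf (nat_lit 0) (nat_lit 14395079314) (nat_lit 456) (nat_lit 13754281948) (nat_lit 76) (nat_lit 84992279114) (nat_lit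 23) (nat_lit 5) (nat_lit 29) (nat_lit 5) (nat_lit 24) (nat_lit 5) (nat_lit 287) (nat_lit 278) (nat_lit 155)))) (XT.nd (nat_lit 156) (nat_lit 228) (nat_lit 0) (XT.nd (nat_lit 78) (nat_lit 0) (nat_lit 0) (XT.lf (nat_lit 0) (nat_lit 22262837560) (nat_lit 304) (nat_lit 87080772329) (nat_lit 76) (nat_lit 9263184375) (nat_lit 20) (nat_lit 5) (nat_lit 24) (nat_lit 5) (nat_lit 21) (nat_lit 5) (nat_lit 288) (nat_lit 278) (nat_lit 154)) (XT.lf (nat_lit 0) (nat_lit 31876513623) (nat_lit 304) (nat_lit 44009537405) (nat_lit 76) (nat_lit 48533794476) (nat_lit 20) (nat_lit 5) (nat_lit 24) (nat_lit 5) (nat_lit 21) (nat_lit 5) (nat_lit 289) (nat_lit 278) (nat_lit 153))) (XT.nd (nat_lit 78) (nat_lit 0) (nat_lit 0) (XT.lf (nat_lit 0) (nat_lit 2638933890) (nat_lit 228) (nat_lit 39683363073) (nat_lit 304) (nat_lit 88370607277) (nat_lit 17) (nat_lit 5) (nat_lit 20) (nat_lit 5) (nat_lit 21) (nat_lit 5)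 (nat_lit 290) (nat_lit 278) (nat_lit 152)) (XT.lf (nat_lit 0) (nat_lit 54823808497) (nat_lit 304) (nat_lit 81867096215) (nat_lit 76) (nat_lit 679301846) (nat_lit 17) (nat_lit 5) (nat_lit 21) (nat_lit 5) (nat_lit 18) (nat_lit 5) (nat_lit 291) (nat_lit 278) (nat_lit 151)))))) (XT.nd (nat_lit 546) (nat_lit 304) (nat_lit 0) (XT.nd (nat_lit 234) (nat_lit 228) (nat_lit 0) (XT.nd (nat_lit 78) (nat_lit 152) (nat_lit 0) (XT.lf (nat_lit 0) (nat_lit 69355778162) (nat_lit 304) (nat_lit 33016470411) (nat_lit 76) (nat_lit 42127021331) (nat_lit 17) (nat_lit 5) (nat_lit 21) (nat_lit 5) (nat_lit 18) (nat_lit 5) (nat_lit 292) (nat_lit 278) (nat_lit 150)) (XT.nd (nat_lit 78) (nat_lit 0) (nat_lit 0) (XT.lf (nat_lit 0) (nat_lit 20781345136) (nat_lit 152) (nat_lit 64768382211) (nat_lit 228) (nat_lit 66608980750) (nat_lit 15) (nat_lit 5) (nat_lit 17) (nat_lit 5) (nat_lit 18) (nat_lit 5) (nat_lit 293) (nat_lit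 278) (nat_lit 149)) (XT.lf (nat_lit 0) (nat_lit 80760245307) (nat_lit 152) (nat_lit 23181323454) (nat_lit 228) (nat_lit 56417145757) (nat_lit 15) (nat_lit 5) (nat_lit 17) (nat_lit 5) (nat_lit 18) (nat_lit 5) (nat_lit 294) (nat_lit 278) (nat_lit 148)))) (XT.nd (nat_lit 156) (nat_lit 76) (nat_lit 0) (XT.nd (nat_lit 78) (nat_lit 152) (nat_lit 0) (XT.lf (nat_lit 0) (nat_lit 124327101612) (nat_lit 228) (nat_lit 24200349331) (nat_lit 76) (nat_lit 20645486010) (nat_lit 15) (nat_lit 5) (nat_lit 18) (nat_lit 5) (nat_lit 16) (nat_lit 5) (nat_lit 295) (nat_lit 278) (nat_lit 147)) (XT.lf (nat_lit 0) (nat_lit 36871591384) (nat_lit 152) (nat_lit 110960457114) (nat_lit 228) (nat_lit 30741165780) (nat_lit 13) (nat_lit 5) (nat_lit 15) (nat_lit 5) (nat_lit 16) (nat_lit 5) (nat_lit 296) (nat_lit 278) (nat_lit 146))) (XT.nd (nat_lit 78) (nat_lit 76) (nat_lit 0) (XT.lf (nat_lit 0) (nat_lit 104205209569)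 (nat_lit 152) (nat_lit 69673571967) (nat_lit 228) (nat_lit 14793823619) (nat_lit 13) (nat_lit 5) (nat_lit 15) (nat_lit 5) (nat_lit 16) (nat_lit 5) (nat_lit 297) (nat_lit 278) (nat_lit 145)) (XT.lf (nat_lit 0) (nat_lit 2307504378) (nat_lit 228) (nat_lit 22713217279) (nat_lit 76) (nat_lit 174554576110) (nat_lit 12) (nat_lit 5) (nat_lit 15) (nat_lit 5) (nat_lit 13) (nat_lit 5) (nat_lit 298) (nat_lit 278) (nat_lit 144))))) (XT.nd (nat_lit 234) (nat_lit 152) (nat_lit 0) (XT.nd (nat_lit 78) (nat_lit 0) (nat_lit 0) (XT.lf (nat_lit 0) (nat_lit 21677856697) (nat_lit 228) (nat_lit 165935473040) (nat_lit 76) (nat_lit 23570124197) (nat_lit 10) (nat_lit 5) (nat_lit 13) (nat_lit 5) (nat_lit 11) (nat_lit 5) (nat_lit 299) (nat_lit 278) (nat_lit 143)) (XT.nd (nat_lit 78) (nat_lit 0) (nat_lit 0) (XT.lf (nat_lit 0) (nat_lit 43884628075) (nat_lit 228) (nat_lit 104399151198) (nat_lit 76) (nat_lit 75333541961)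 (nat_lit 10) (nat_lit 5) (nat_lit 13) (nat_lit 5) (nat_lit 11) (nat_lit 5) (nat_lit 300) (nat_lit 278) (nat_lit 142)) (XT.lf (nat_lit 0) (nat_lit 67867711542) (nat_lit 228) (nat_lit 37940244568) (nat_lit 76) (nat_lit 131237961948) (nat_lit 10) (nat_lit 5) (nat_lit 13) (nat_lit 5) (nat_lit 11) (nat_lit 5) (nat_lit 301) (nat_lit 278) (nat_lit 141)))) (XT.nd (nat_lit 156) (nat_lit 0) (nat_lit 0) (XT.nd (nat_lit 78) (nat_lit 0) (nat_lit 0) (XT.lf (nat_lit 0) (nat_lit 35616772625) (nat_lit 152) (nat_lit 59009040686) (nat_lit 228) (nat_lit 156854481224) (nat_lit 8) (nat_lit 5) (nat_lit 10) (nat_lit 5) (nat_lit 11) (nat_lit 5) (nat_lit 302) (nat_lit 278) (nat_lit 140)) (XT.lf (nat_lit 0) (nat_lit 117215756861) (nat_lit 152) (nat_lit 7345956052) (nat_lit 228) (nat_lit 142424737758) (nat_lit 8) (nat_lit 5) (nat_lit 10) (nat_lit 5) (nat_lit 11) (nat_lit 5) (nat_lit 303) (nat_lit 278) (nat_lit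 139))) (XT.nd (nat_lit 78) (nat_lit 0) (nat_lit 0) (XT.lf (nat_lit 0) (nat_lit 158057521724) (nat_lit 228) (nat_lit 79555950141) (nat_lit 76) (nat_lit 46026425859) (nat_lit 8) (nat_lit 5) (nat_lit 11) (nat_lit 5) (nat_lit 9) (nat_lit 4) (nat_lit 304) (nat_lit 278) (nat_lit 138)) (XT.lf (nat_lit 0) (nat_lit 194423622771) (nat_lit 228) (nat_lit 3915092878) (nat_lit 76) (nat_lit 103271655989) (nat_lit 8) (nat_lit 5) (nat_lit 11) (nat_lit 5) (nat_lit 9) (nat_lit 4) (nat_lit 305) (nat_lit 278) (nat_lit 137))))))))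
noncomputable def xc111 : XT := (XT.nd (nat_lit 2106) (nat_lit 0) (nat_lit 0) (XT.nd (nat_lit 1014) (nat_lit 228) (nat_lit 0) (XT.nd (nat_lit 468) (nat_lit 76) (nat_lit 0) (XT.nd (nat_lit 234) (nat_lit 152) (nat_lit 0) (XT.nd (nat_lit 78) (nat_lit 0) (nat_lit 0) (XT.lf (nat_lit 0) (nat_lit 81872378471) (nat_lit 76) (nat_lit 153795502657) (nat_lit 152) (nat_lit 85193094003) (nat_lit 7) (nat_lit 5) (nat_lit 8) (nat_lit 5) (nat_lit 9) (nat_lit 4) (nat_lit 306) (nat_lit 278) (nat_lit 136)) (XT.nd (nat_lit 78) (nat_lit 0) (nat_lit 0) (XT.lf (nat_lit 0) (nat_lit 174745266017) (nat_lit 76) (nat_lit 105573302692) (nat_lit 152) (nat_lit 61324508225) (nat_lit 7) (nat_lit 5) (nat_lit 8) (nat_lit 5) (nat_lit 9) (nat_lit 4) (nat_lit 307) (nat_lit 278) (nat_lit 135)) (XT.lf (nat_lit 0) (nat_lit 275047765757) (nat_lit 76) (nat_lit 53493400148) (nat_lit 152) (nat_lit 35546593639) (nat_lit 7) (nat_lit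 5) (nat_lit 8) (nat_lit 5) (nat_lit 9) (nat_lit 4) (nat_lit 308) (nat_lit 278) (nat_lit 134)))) (XT.nd (nat_lit 78) (nat_lit 152) (nat_lit 0) (XT.lf (nat_lit 0) (nat_lit 380687641804) (nat_lit 152) (nat_lit 5019971158) (nat_lit 0) (nat_lit 2615119083) (nat_lit 7) (nat_lit 5) (nat_lit 9) (nat_lit 4) (nat_lit 7) (nat_lit 4) (nat_lit 309) (nat_lit 278) (nat_lit 133)) (XT.nd (nat_lit 78) (nat_lit 0) (nat_lit 0) (XT.lf (nat_lit 0) (nat_lit 24999165423) (nat_lit 152) (nat_lit 326074657484) (nat_lit 76) (nat_lit 63090105056) (nat_lit 5) (nat_lit 5) (nat_lit 7) (nat_lit 5) (nat_lit 6) (nat_lit 4) (nat_lit 310) (nat_lit 278) (nat_lit 132)) (XT.lf (nat_lit 0) (nat_lit 59972362959) (nat_lit 152) (nat_lit 253330775910) (nat_lit 76) (nat_lit 128742160754) (nat_lit 5) (nat_lit 5) (nat_lit 7) (nat_lit 5) (nat_lit 6) (nat_lit 4) (nat_lit 311) (nat_lit 278) (nat_lit 131))))) (XT.nd (nat_lit 234) (nat_lit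 0) (nat_lit 0) (XT.nd (nat_lit 78) (nat_lit 76) (nat_lit 0) (XT.lf (nat_lit 0) (nat_lit 97743300217) (nat_lit 152) (nat_lit 174767568356) (nat_lit 76) (nat_lit 199646322430) (nat_lit 5) (nat_lit 5) (nat_lit 7) (nat_lit 5) (nat_lit 6) (nat_lit 4) (nat_lit 312) (nat_lit 278) (nat_lit 130)) (XT.nd (nat_lit 78) (nat_lit 76) (nat_lit 0) (XT.lf (nat_lit 0) (nat_lit 138535804975) (nat_lit 152) (nat_lit 89919475075) (nat_lit 76) (nat_lit 276222762894) (nat_lit 5) (nat_lit 5) (nat_lit 7) (nat_lit 5) (nat_lit 6) (nat_lit 4) (nat_lit 313) (nat_lit 278) (nat_lit 129)) (XT.lf (nat_lit 0) (nat_lit 1806685157) (nat_lit 76) (nat_lit 180828376258) (nat_lit 152) (nat_lit 357162034123) (nat_lit 4) (nat_lit 5) (nat_lit 5) (nat_lit 5) (nat_lit 6) (nat_lit 4) (nat_lit 314) (nat_lit 278) (nat_lit 128)))) (XT.nd (nat_lit 156) (nat_lit 0) (nat_lit 0) (XT.nd (nat_lit 78) (nat_lit 0) (nat_lit 0) (XT.lf (nat_lit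 0) (nat_lit 105984584218) (nat_lit 76) (nat_lit 126736136094) (nat_lit 152) (nat_lit 344808275629) (nat_lit 4) (nat_lit 5) (nat_lit 5) (nat_lit 5) (nat_lit 6) (nat_lit 4) (nat_lit 315) (nat_lit 278) (nat_lit 127)) (XT.lf (nat_lit 0) (nat_lit 218496572414) (nat_lit 76) (nat_lit 68316570752) (nat_lit 152) (nat_lit 331466312828) (nat_lit 4) (nat_lit 5) (nat_lit 5) (nat_lit 5) (nat_lit 6) (nat_lit 4) (nat_lit 316) (nat_lit 278) (nat_lit 126))) (XT.nd (nat_lit 78) (nat_lit 0) (nat_lit 0) (XT.lf (nat_lit 0) (nat_lit 340009387453) (nat_lit 76) (nat_lit 5223490213) (nat_lit 152) (nat_lit 317057082237) (nat_lit 4) (nat_lit 5) (nat_lit 5) (nat_lit 5) (nat_lit 6) (nat_lit 4) (nat_lit 317) (nat_lit 278) (nat_lit 125)) (XT.lf (nat_lit 0) (nat_lit 409839269966) (nat_lit 152) (nat_lit 240091360515) (nat_lit 0) (nat_lit 59769627765) (nat_lit 4) (nat_lit 5) (nat_lit 6) (nat_lit 4) (nat_lit 4) (nat_lit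 4) (nat_lit 318) (nat_lit 278) (nat_lit 124)))))) (XT.nd (nat_lit 546) (nat_lit 152) (nat_lit 0) (XT.nd (nat_lit 234) (nat_lit 0) (nat_lit 0) (XT.nd (nat_lit 78) (nat_lit 76) (nat_lit 0) (XT.lf (nat_lit 0) (nat_lit 479749777230) (nat_lit 152) (nat_lit 151462805060) (nat_lit 0) (nat_lit 129679950287) (nat_lit 4) (nat_lit 5) (nat_lit 6) (nat_lit 4) (nat_lit 4) (nat_lit 4) (nat_lit 319) (nat_lit 278) (nat_lit 123)) (XT.nd (nat_lit 78) (nat_lit 76) (nat_lit 0) (XT.lf (nat_lit 0) (nat_lit 555253058882) (nat_lit 152) (nat_lit 55744074768) (nat_lit 0) (nat_lit 205183060881) (nat_lit 4) (nat_lit 5) (nat_lit 6) (nat_lit 4) (nat_lit 4) (nat_lit 4) (nat_lit 320) (nat_lit 278) (nat_lit 122)) (XT.lf (nat_lit 0) (nat_lit 50140271938) (nat_lit 76) (nat_lit 587862144583) (nat_lit 76) (nat_lit 237791988196) (nat_lit 3) (nat_lit 4) (nat_lit 4) (nat_lit 5) (nat_lit 4) (nat_lit 4) (nat_lit 321) (nat_lit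 278) (nat_lit 121)))) (XT.nd (nat_lit 156) (nat_lit 0) (nat_lit 0) (XT.nd (nat_lit 78) (nat_lit 0) (nat_lit 0) (XT.lf (nat_lit 0) (nat_lit 167665482396) (nat_lit 76) (nat_lit 561230323037) (nat_lit 76) (nat_lit 211160019996) (nat_lit 3) (nat_lit 4) (nat_lit 4) (nat_lit 5) (nat_lit 4) (nat_lit 4) (nat_lit 322) (nat_lit 278) (nat_lit 120)) (XT.lf (nat_lit 0) (nat_lit 294592618106) (nat_lit 76) (nat_lit 532467992603) (nat_lit 76) (nat_lit 182397553771) (nat_lit 3) (nat_lit 4) (nat_lit 4) (nat_lit 5) (nat_lit 4) (nat_lit 4) (nat_lit 323) (nat_lit 278) (nat_lit 119))) (XT.nd (nat_lit 78) (nat_lit 0) (nat_lit 0) (XT.lf (nat_lit 0) (nat_lit 431673839874) (nat_lit 76) (nat_lit 501404709840) (nat_lit 76) (nat_lit 151334145276) (nat_lit 3) (nat_lit 4) (nat_lit 4) (nat_lit 5) (nat_lit 4) (nat_lit 4) (nat_lit 324) (nat_lit 278) (nat_lit 118)) (XT.lf (nat_lit 0) (nat_lit 579721480863) (nat_lit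 76) (nat_lit 467856396036) (nat_lit 76) (nat_lit 117785715053) (nat_lit 3) (nat_lit 4) (nat_lit 4) (nat_lit 5) (nat_lit 4) (nat_lit 4) (nat_lit 325) (nat_lit 278) (nat_lit 117))))) (XT.nd (nat_lit 234) (nat_lit 152) (nat_lit 0) (XT.nd (nat_lit 78) (nat_lit 0) (nat_lit 0) (XT.lf (nat_lit 0) (nat_lit 739612860430) (nat_lit 76) (nat_lit 431624246369) (nat_lit 76) (nat_lit 81553457591) (nat_lit 3) (nat_lit 4) (nat_lit 4) (nat_lit 5) (nat_lit 4) (nat_lit 4) (nat_lit 326) (nat_lit 278) (nat_lit 116)) (XT.nd (nat_lit 78) (nat_lit 0) (nat_lit 0) (XT.lf (nat_lit 0) (nat_lit 912295483044) (nat_lit 76) (nat_lit 392493551803) (nat_lit 76) (nat_lit 42422663215) (nat_lit 3) (nat_lit 4) (nat_lit 4) (nat_lit 5) (nat_lit 4) (nat_lit 4) (nat_lit 327) (nat_lit 278) (nat_lit 115)) (XT.lf (nat_lit 0) (nat_lit 1098792653137) (nat_lit 76) (nat_lit 350232426741) (nat_lit 76) (nat_lit 161445736) (nat_lit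 3) (nat_lit 4) (nat_lit 4) (nat_lit 5) (nat_lit 4) (nat_lit 4) (nat_lit 328) (nat_lit 278) (nat_lit 114)))) (XT.nd (nat_lit 156) (nat_lit 76) (nat_lit 0) (XT.nd (nat_lit 78) (nat_lit 0) (nat_lit 0) (XT.lf (nat_lit 0) (nat_lit 43205506294) (nat_lit 152) (nat_lit 260203613482) (nat_lit 76) (nat_lit 1255822717720) (nat_lit 2) (nat_lit 5) (nat_lit 4) (nat_lit 5) (nat_lit 3) (nat_lit 4) (nat_lit 329) (nat_lit 278) (nat_lit 113)) (XT.lf (nat_lit 0) (nat_lit 90033059282) (nat_lit 152) (nat_lit 162802382500) (nat_lit 76) (nat_lit 1425244999875) (nat_lit 2) (nat_lit 5) (nat_lit 4) (nat_lit 5) (nat_lit 3) (nat_lit 4) (nat_lit 330) (nat_lit 278) (nat_lit 112))) (XT.nd (nat_lit 78) (nat_lit 76) (nat_lit 0) (XT.lf (nat_lit 0) (nat_lit 140606786007) (nat_lit 152) (nat_lit 57609104276) (nat_lit 76) (nat_lit 1608221046459) (nat_lit 2) (nat_lit 5) (nat_lit 4) (nat_lit 5) (nat_lit 3) (nat_lit 4) (nat_lit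 331) (nat_lit 278) (nat_lit 111)) (XT.lf (nat_lit 0) (nat_lit 58948427868) (nat_lit 76) (nat_lit 137695665867) (nat_lit 152) (nat_lit 1748304443209) (nat_lit 1) (nat_lit 5) (nat_lit 2) (nat_lit 5) (nat_lit 3) (nat_lit 4) (nat_lit 332) (nat_lit 278) (nat_lit 110))))))) (XT.nd (nat_lit 34164) (nat_lit 0) (nat_lit 532) (XT.nd (nat_lit 33618) (nat_lit 0) (nat_lit 1444) (XT.nd (nat_lit 33384) (nat_lit 0) (nat_lit 1976) (XT.nd (nat_lit 78) (nat_lit 0) (nat_lit 0) (XT.lf (nat_lit 0) (nat_lit 188106797149) (nat_lit 76) (nat_lit 70632696671) (nat_lit 152) (nat_lit 1835675562850) (nat_lit 1) (nat_lit 5) (nat_lit 2) (nat_lit 5) (nat_lit 3) (nat_lit 4) (nat_lit 333) (nat_lit 278) (nat_lit 109)) (XT.nd (nat_lit 33228) (nat_lit 0) (nat_lit 1976) (XT.lf (nat_lit 0) (nat_lit 325845677498) (nat_lit 152) (nat_lit 1928284283785) (nat_lit 0) (nat_lit 1705484686) (nat_lit 1) (nat_lit 5) (nat_lit 3) (nat_lit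 4) (nat_lit 1) (nat_lit 4) (nat_lit 334) (nat_lit 278) (nat_lit 108)) (XT.lf (nat_lit 0) (nat_lit 17685071224) (nat_lit 0) (nat_lit 17685071224) (nat_lit 380) (nat_lit 6252435402) (nat_lit 27) (nat_lit 5) (nat_lit 27) (nat_lit 3) (nat_lit 32) (nat_lit 3) (nat_lit 279) (nat_lit 279) (nat_lit 162)))) (XT.nd (nat_lit 78) (nat_lit 0) (nat_lit 0) (XT.lf (nat_lit 0) (nat_lit 69438465333) (nat_lit 0) (nat_lit 4139117766) (nat_lit 380) (nat_lit 12996674885) (nat_lit 27) (nat_lit 5) (nat_lit 27) (nat_lit 3) (nat_lit 32) (nat_lit 3) (nat_lit 280) (nat_lit 279) (nat_lit 161)) (XT.nd (nat_lit 78) (nat_lit 0) (nat_lit 0) (XT.lf (nat_lit 76) (nat_lit 16158779423) (nat_lit 0) (nat_lit 61582594531) (nat_lit 456) (nat_lit 12340362695) (nat_lit 28) (nat_lit 5) (nat_lit 27) (nat_lit 5) (nat_lit 33) (nat_lit 5) (nat_lit 281) (nat_lit 279) (nat_lit 160)) (XT.lf (nat_lit 76) (nat_lit 52977821711) (nat_lit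 0) (nat_lit 29833042693) (nat_lit 456) (nat_lit 11013149742) (nat_lit 28) (nat_lit 5) (nat_lit 27) (nat_lit 5) (nat_lit 33) (nat_lit 5) (nat_lit 282) (nat_lit 279) (nat_lit 159))))) (XT.nd (nat_lit 234) (nat_lit 608) (nat_lit 0) (XT.nd (nat_lit 78) (nat_lit 0) (nat_lit 0) (XT.lf (nat_lit 0) (nat_lit 88392436730) (nat_lit 380) (nat_lit 5230950072) (nat_lit 456) (nat_lit 4233772864) (nat_lit 28) (nat_lit 5) (nat_lit 33) (nat_lit 5) (nat_lit 34) (nat_lit 5) (nat_lit 283) (nat_lit 279) (nat_lit 158)) (XT.nd (nat_lit 78) (nat_lit 0) (nat_lit 0) (XT.lf (nat_lit 76) (nat_lit 34167368221) (nat_lit 0) (nat_lit 61849169791) (nat_lit 456) (nat_lit 6068745631) (nat_lit 29) (nat_lit 5) (nat_lit 28) (nat_lit 5) (nat_lit 34) (nat_lit 5) (nat_lit 284) (nat_lit 279) (nat_lit 157)) (XT.lf (nat_lit 76) (nat_lit 77014602748) (nat_lit 0) (nat_lit 27378415444) (nat_lit 456) (nat_lit 2247249827) (nat_lit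 29) (nat_lit 5) (nat_lit 28) (nat_lit 5) (nat_lit 34) (nat_lit 5) (nat_lit 285) (nat_lit 279) (nat_lit 156)))) (XT.nd (nat_lit 156) (nat_lit 228) (nat_lit 0) (XT.nd (nat_lit 78) (nat_lit 0) (nat_lit 0) (XT.lf (nat_lit 0) (nat_lit 2326930724) (nat_lit 456) (nat_lit 99478585530) (nat_lit 76) (nat_lit 9707242757) (nat_lit 23) (nat_lit 5) (nat_lit 29) (nat_lit 5) (nat_lit 24) (nat_lit 5) (nat_lit 286) (nat_lit 279) (nat_lit 155)) (XT.lf (nat_lit 0) (nat_lit 8687303978) (nat_lit 456) (nat_lit 58789625779) (nat_lit 76) (nat_lit 49170121665) (nat_lit 23) (nat_lit 5) (nat_lit 29) (nat_lit 5) (nat_lit 24) (nat_lit 5) (nat_lit 287) (nat_lit 279) (nat_lit 154))) (XT.nd (nat_lit 78) (nat_lit 228) (nat_lit 0) (XT.lf (nat_lit 0) (nat_lit 15556028221) (nat_lit 456) (nat_lit 14845991735) (nat_lit 76) (nat_lit 91790110387) (nat_lit 23) (nat_lit 5) (nat_lit 29) (nat_lit 5) (nat_lit 24) (nat_lit 5)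 (nat_lit 288) (nat_lit 279) (nat_lit 153)) (XT.lf (nat_lit 0) (nat_lit 24052706899) (nat_lit 304) (nat_lit 94038014212) (nat_lit 76) (nat_lit 10003822404) (nat_lit 20) (nat_lit 5) (nat_lit 24) (nat_lit 5) (nat_lit 21) (nat_lit 5) (nat_lit 289) (nat_lit 279) (nat_lit 152)))))) (XT.nd (nat_lit 546) (nat_lit 532) (nat_lit 0) (XT.nd (nat_lit 234) (nat_lit 152) (nat_lit 0) (XT.nd (nat_lit 78) (nat_lit 228) (nat_lit 0) (XT.lf (nat_lit 0) (nat_lit 34434822058) (nat_lit 304) (nat_lit 47521763450) (nat_lit 76) (nat_lit 52416112180) (nat_lit 20) (nat_lit 5) (nat_lit 24) (nat_lit 5) (nat_lit 21) (nat_lit 5) (nat_lit 290) (nat_lit 279) (nat_lit 151)) (XT.nd (nat_lit 78) (nat_lit 0) (nat_lit 0) (XT.lf (nat_lit 0) (nat_lit 2858369423) (nat_lit 228) (nat_lit 42857492289) (nat_lit 304) (nat_lit 95431777881) (nat_lit 17) (nat_lit 5) (nat_lit 20) (nat_lit 5) (nat_lit 21) (nat_lit 5) (nat_lit 291) (nat_lit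 279) (nat_lit 150)) (XT.lf (nat_lit 0) (nat_lit 59216929820) (nat_lit 304) (nat_lit 88408126112) (nat_lit 76) (nat_lit 734120832) (nat_lit 17) (nat_lit 5) (nat_lit 21) (nat_lit 5) (nat_lit 18) (nat_lit 5) (nat_lit 292) (nat_lit 279) (nat_lit 149)))) (XT.nd (nat_lit 156) (nat_lit 0) (nat_lit 0) (XT.nd (nat_lit 78) (nat_lit 152) (nat_lit 0) (XT.lf (nat_lit 0) (nat_lit 74910922491) (nat_lit 304) (nat_lit 35650067858) (nat_lit 76) (nat_lit 45497622703) (nat_lit 17) (nat_lit 5) (nat_lit 21) (nat_lit 5) (nat_lit 18) (nat_lit 5) (nat_lit 293) (nat_lit 279) (nat_lit 148)) (XT.lf (nat_lit 0) (nat_lit 22451377485) (nat_lit 152) (nat_lit 69948696129) (nat_lit 228) (nat_lit 71930762540) (nat_lit 15) (nat_lit 5) (nat_lit 17) (nat_lit 5) (nat_lit 18) (nat_lit 5) (nat_lit 294) (nat_lit 279) (nat_lit 147))) (XT.nd (nat_lit 78) (nat_lit 0) (nat_lit 0) (XT.lf (nat_lit 0) (nat_lit 87228032281) (nat_lit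 152) (nat_lit 25034758349) (nat_lit 228) (nat_lit 60924094575) (nat_lit 15) (nat_lit 5) (nat_lit 17) (nat_lit 5) (nat_lit 18) (nat_lit 5) (nat_lit 295) (nat_lit 279) (nat_lit 146)) (XT.lf (nat_lit 0) (nat_lit 134278753191) (nat_lit 228) (nat_lit 26129462401) (nat_lit 76) (nat_lit 22298066934) (nat_lit 15) (nat_lit 5) (nat_lit 18) (nat_lit 5) (nat_lit 16) (nat_lit 5) (nat_lit 296) (nat_lit 279) (nat_lit 145))))) (XT.nd (nat_lit 234) (nat_lit 304) (nat_lit 0) (XT.nd (nat_lit 78) (nat_lit 76) (nat_lit 0) (XT.lf (nat_lit 0) (nat_lit 39828058511) (nat_lit 152) (nat_lit 119835793228) (nat_lit 228) (nat_lit 33194753580) (nat_lit 13) (nat_lit 5) (nat_lit 15) (nat_lit 5) (nat_lit 16) (nat_lit 5) (nat_lit 297) (nat_lit 279) (nat_lit 144)) (XT.nd (nat_lit 78) (nat_lit 76) (nat_lit 0) (XT.lf (nat_lit 0) (nat_lit 112547866906) (nat_lit 152) (nat_lit 75246068414) (nat_lit 228) (nat_lit 15972046674)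 (nat_lit 13) (nat_lit 5) (nat_lit 15) (nat_lit 5) (nat_lit 16) (nat_lit 5) (nat_lit 298) (nat_lit 279) (nat_lit 143)) (XT.lf (nat_lit 0) (nat_lit 2496751549) (nat_lit 228) (nat_lit 24524214390) (nat_lit 76) (nat_lit 188519946633) (nat_lit 12) (nat_lit 5) (nat_lit 15) (nat_lit 5) (nat_lit 13) (nat_lit 5) (nat_lit 299) (nat_lit 279) (nat_lit 142)))) (XT.nd (nat_lit 156) (nat_lit 152) (nat_lit 0) (XT.nd (nat_lit 78) (nat_lit 0) (nat_lit 0) (XT.lf (nat_lit 0) (nat_lit 23416565070) (nat_lit 228) (nat_lit 179204049117) (nat_lit 76) (nat_lit 25457123164) (nat_lit 10) (nat_lit 5) (nat_lit 13) (nat_lit 5) (nat_lit 11) (nat_lit 5) (nat_lit 300) (nat_lit 279) (nat_lit 141)) (XT.lf (nat_lit 0) (nat_lit 47399546319) (nat_lit 228) (nat_lit 112745285362) (nat_lit 76) (nat_lit 81361511458) (nat_lit 10) (nat_lit 5) (nat_lit 13) (nat_lit 5) (nat_lit 11) (nat_lit 5) (nat_lit 301) (nat_lit 279) (nat_lit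 140))) (XT.nd (nat_lit 78) (nat_lit 152) (nat_lit 0) (XT.lf (nat_lit 0) (nat_lit 73300969203) (nat_lit 228) (nat_lit 40970095678) (nat_lit 76) (nat_lit 141738189775) (nat_lit 10) (nat_lit 5) (nat_lit 13) (nat_lit 5) (nat_lit 11) (nat_lit 5) (nat_lit 302) (nat_lit 279) (nat_lit 139)) (XT.lf (nat_lit 0) (nat_lit 38471346980) (nat_lit 152) (nat_lit 63728213477) (nat_lit 228) (nat_lit 169398835678) (nat_lit 8) (nat_lit 5) (nat_lit 10) (nat_lit 5) (nat_lit 11) (nat_lit 5) (nat_lit 303) (nat_lit 279) (nat_lit 138))))))))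
noncomputable def xc112 : XT := (XT.nd (nat_lit 2028) (nat_lit 152) (nat_lit 0) (XT.nd (nat_lit 1014) (nat_lit 76) (nat_lit 0) (XT.nd (nat_lit 468) (nat_lit 228) (nat_lit 0) (XT.nd (nat_lit 234) (nat_lit 76) (nat_lit 0) (XT.nd (nat_lit 78) (nat_lit 0) (nat_lit 0) (XT.lf (nat_lit 0) (nat_lit 126597862359) (nat_lit 152) (nat_lit 7932196922) (nat_lit 228) (nat_lit 153815009330) (nat_lit 8) (nat_lit 5) (nat_lit 10) (nat_lit 5) (nat_lit 11) (nat_lit 5) (nat_lit 304) (nat_lit 279) (nat_lit 137)) (XT.nd (nat_lit 78) (nat_lit 0) (nat_lit 0) (XT.lf (nat_lit 0) (nat_lit 170705312223) (nat_lit 228) (nat_lit 85915696026) (nat_lit 76) (nat_lit 49709802704) (nat_lit 8) (nat_lit 5) (nat_lit 11) (nat_lit 5) (nat_lit 9) (nat_lit 4) (nat_lit 305) (nat_lit 279) (nat_lit 136)) (XT.lf (nat_lit 0) (nat_lit 209980465149) (nat_lit 228) (nat_lit 4223920562) (nat_lit 76) (nat_lit 111534557706) (nat_lit 8)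 (nat_lit 5) (nat_lit 11) (nat_lit 5) (nat_lit 9) (nat_lit 4) (nat_lit 306) (nat_lit 279) (nat_lit 135)))) (XT.nd (nat_lit 78) (nat_lit 0) (nat_lit 0) (XT.lf (nat_lit 0) (nat_lit 88426437615) (nat_lit 76) (nat_lit 166097710517) (nat_lit 152) (nat_lit 92005457951) (nat_lit 7) (nat_lit 5) (nat_lit 8) (nat_lit 5) (nat_lit 9) (nat_lit 4) (nat_lit 307) (nat_lit 279) (nat_lit 134)) (XT.nd (nat_lit 78) (nat_lit 0) (nat_lit 0) (XT.lf (nat_lit 0) (nat_lit 188728839952) (nat_lit 76) (nat_lit 114017840656) (nat_lit 152) (nat_lit 66227613723) (nat_lit 7) (nat_lit 5) (nat_lit 8) (nat_lit 5) (nat_lit 9) (nat_lit 4) (nat_lit 308) (nat_lit 279) (nat_lit 133)) (XT.lf (nat_lit 0) (nat_lit 297055246883) (nat_lit 76) (nat_lit 57771644149) (nat_lit 152) (nat_lit 38387677463) (nat_lit 7) (nat_lit 5) (nat_lit 8) (nat_lit 5) (nat_lit 9) (nat_lit 4) (nat_lit 309) (nat_lit 279) (nat_lit 132))))) (XT.nd (nat_lit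 234) (nat_lit 76) (nat_lit 0) (XT.nd (nat_lit 78) (nat_lit 152) (nat_lit 0) (XT.lf (nat_lit 0) (nat_lit 411144932211) (nat_lit 152) (nat_lit 5418011311) (nat_lit 0) (nat_lit 2825408777) (nat_lit 7) (nat_lit 5) (nat_lit 9) (nat_lit 4) (nat_lit 7) (nat_lit 4) (nat_lit 310) (nat_lit 279) (nat_lit 131)) (XT.nd (nat_lit 78) (nat_lit 0) (nat_lit 0) (XT.lf (nat_lit 0) (nat_lit 27001363331) (nat_lit 152) (nat_lit 352157029648) (nat_lit 76) (nat_lit 68138454342) (nat_lit 5) (nat_lit 5) (nat_lit 7) (nat_lit 5) (nat_lit 6) (nat_lit 4) (nat_lit 311) (nat_lit 279) (nat_lit 130)) (XT.lf (nat_lit 0) (nat_lit 64772248916) (nat_lit 152) (nat_lit 273593904247) (nat_lit 76) (nat_lit 139042589986) (nat_lit 5) (nat_lit 5) (nat_lit 7) (nat_lit 5) (nat_lit 6) (nat_lit 4) (nat_lit 312) (nat_lit 279) (nat_lit 129)))) (XT.nd (nat_lit 156) (nat_lit 76) (nat_lit 0) (XT.nd (nat_lit 78) (nat_lit 0) (nat_lit 0)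 (XT.lf (nat_lit 0) (nat_lit 105564705828) (nat_lit 152) (nat_lit 188745887032) (nat_lit 76) (nat_lit 215619006346) (nat_lit 5) (nat_lit 5) (nat_lit 7) (nat_lit 5) (nat_lit 6) (nat_lit 4) (nat_lit 313) (nat_lit 279) (nat_lit 128)) (XT.lf (nat_lit 0) (nat_lit 149620467145) (nat_lit 152) (nat_lit 97110174940) (nat_lit 76) (nat_lit 298321489594) (nat_lit 5) (nat_lit 5) (nat_lit 7) (nat_lit 5) (nat_lit 6) (nat_lit 4) (nat_lit 314) (nat_lit 279) (nat_lit 127))) (XT.nd (nat_lit 78) (nat_lit 0) (nat_lit 0) (XT.lf (nat_lit 0) (nat_lit 1954005753) (nat_lit 76) (nat_lit 195293592177) (nat_lit 152) (nat_lit 385733116650) (nat_lit 4) (nat_lit 5) (nat_lit 5) (nat_lit 5) (nat_lit 6) (nat_lit 4) (nat_lit 315) (nat_lit 279) (nat_lit 126)) (XT.lf (nat_lit 0) (nat_lit 114465930385) (nat_lit 76) (nat_lit 136874050888) (nat_lit 152) (nat_lit 372391196750) (nat_lit 4) (nat_lit 5) (nat_lit 5) (nat_lit 5)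 (nat_lit 6) (nat_lit 4) (nat_lit 316) (nat_lit 279) (nat_lit 125)))))) (XT.nd (nat_lit 468) (nat_lit 0) (nat_lit 0) (XT.nd (nat_lit 234) (nat_lit 76) (nat_lit 0) (XT.nd (nat_lit 78) (nat_lit 0) (nat_lit 0) (XT.lf (nat_lit 0) (nat_lit 235978686568) (nat_lit 76) (nat_lit 73780992621) (nat_lit 152) (nat_lit 357982005883) (nat_lit 4) (nat_lit 5) (nat_lit 5) (nat_lit 5) (nat_lit 6) (nat_lit 4) (nat_lit 317) (nat_lit 279) (nat_lit 124)) (XT.nd (nat_lit 78) (nat_lit 0) (nat_lit 0) (XT.lf (nat_lit 0) (nat_lit 367212349894) (nat_lit 76) (nat_lit 5640532587) (nat_lit 152) (nat_lit 342420156250) (nat_lit 4) (nat_lit 5) (nat_lit 5) (nat_lit 5) (nat_lit 6) (nat_lit 4) (nat_lit 318) (nat_lit 279) (nat_lit 123)) (XT.lf (nat_lit 0) (nat_lit 442627702977) (nat_lit 152) (nat_lit 259296531131) (nat_lit 0) (nat_lit 64551934079) (nat_lit 4) (nat_lit 5) (nat_lit 6) (nat_lit 4) (nat_lit 4) (nat_lit 4) (nat_lit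 319) (nat_lit 279) (nat_lit 122)))) (XT.nd (nat_lit 78) (nat_lit 76) (nat_lit 0) (XT.lf (nat_lit 0) (nat_lit 518130955162) (nat_lit 152) (nat_lit 163577849627) (nat_lit 0) (nat_lit 140055027878) (nat_lit 4) (nat_lit 5) (nat_lit 6) (nat_lit 4) (nat_lit 4) (nat_lit 4) (nat_lit 320) (nat_lit 279) (nat_lit 121)) (XT.nd (nat_lit 78) (nat_lit 76) (nat_lit 0) (XT.lf (nat_lit 0) (nat_lit 599674410772) (nat_lit 152) (nat_lit 60201767566) (nat_lit 0) (nat_lit 221598336833) (nat_lit 4) (nat_lit 5) (nat_lit 6) (nat_lit 4) (nat_lit 4) (nat_lit 4) (nat_lit 321) (nat_lit 279) (nat_lit 120)) (XT.lf (nat_lit 0) (nat_lit 54153280467) (nat_lit 76) (nat_lit 634890397514) (nat_lit 76) (nat_lit 256814187785) (nat_lit 3) (nat_lit 4) (nat_lit 4) (nat_lit 5) (nat_lit 4) (nat_lit 4) (nat_lit 322) (nat_lit 279) (nat_lit 119))))) (XT.nd (nat_lit 234) (nat_lit 0) (nat_lit 0) (XT.nd (nat_lit 78) (nat_lit 0) (nat_lit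 0) (XT.lf (nat_lit 0) (nat_lit 181080375408) (nat_lit 76) (nat_lit 606128083477) (nat_lit 76) (nat_lit 228051748015) (nat_lit 3) (nat_lit 4) (nat_lit 4) (nat_lit 5) (nat_lit 4) (nat_lit 4) (nat_lit 323) (nat_lit 279) (nat_lit 118)) (XT.nd (nat_lit 78) (nat_lit 0) (nat_lit 0) (XT.lf (nat_lit 0) (nat_lit 318161559426) (nat_lit 76) (nat_lit 575064815897) (nat_lit 76) (nat_lit 196988364017) (nat_lit 3) (nat_lit 4) (nat_lit 4) (nat_lit 5) (nat_lit 4) (nat_lit 4) (nat_lit 324) (nat_lit 279) (nat_lit 117)) (XT.lf (nat_lit 0) (nat_lit 466209165462) (nat_lit 76) (nat_lit 541516516151) (nat_lit 76) (nat_lit 163439956476) (nat_lit 3) (nat_lit 4) (nat_lit 4) (nat_lit 5) (nat_lit 4) (nat_lit 4) (nat_lit 325) (nat_lit 279) (nat_lit 116)))) (XT.nd (nat_lit 156) (nat_lit 0) (nat_lit 0) (XT.nd (nat_lit 78) (nat_lit 0) (nat_lit 0) (XT.lf (nat_lit 0) (nat_lit 626100512664) (nat_lit 76) (nat_lit 505284379500)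 (nat_lit 76) (nat_lit 127207720015) (nat_lit 3) (nat_lit 4) (nat_lit 4) (nat_lit 5) (nat_lit 4) (nat_lit 4) (nat_lit 326) (nat_lit 279) (nat_lit 115)) (XT.lf (nat_lit 0) (nat_lit 798783105312) (nat_lit 76) (nat_lit 466153696987) (nat_lit 76) (nat_lit 88076945084) (nat_lit 3) (nat_lit 4) (nat_lit 4) (nat_lit 5) (nat_lit 4) (nat_lit 4) (nat_lit 327) (nat_lit 279) (nat_lit 114))) (XT.nd (nat_lit 78) (nat_lit 0) (nat_lit 0) (XT.lf (nat_lit 0) (nat_lit 985280247658) (nat_lit 76) (nat_lit 423892583085) (nat_lit 76) (nat_lit 45815745611) (nat_lit 3) (nat_lit 4) (nat_lit 4) (nat_lit 5) (nat_lit 4) (nat_lit 4) (nat_lit 328) (nat_lit 279) (nat_lit 113)) (XT.lf (nat_lit 0) (nat_lit 1186697107954) (nat_lit 76) (nat_lit 378250601563) (nat_lit 76) (nat_lit 173684857) (nat_lit 3) (nat_lit 4) (nat_lit 4) (nat_lit 5) (nat_lit 4) (nat_lit 4) (nat_lit 329) (nat_lit 279) (nat_lit 112))))))) (XT.nd (nat_lit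 34242) (nat_lit 0) (nat_lit 684) (XT.nd (nat_lit 33696) (nat_lit 0) (nat_lit 1672) (XT.nd (nat_lit 234) (nat_lit 76) (nat_lit 0) (XT.nd (nat_lit 78) (nat_lit 0) (nat_lit 0) (XT.lf (nat_lit 0) (nat_lit 46662541886) (nat_lit 152) (nat_lit 281018902946) (nat_lit 76) (nat_lit 1356288889118) (nat_lit 2) (nat_lit 5) (nat_lit 4) (nat_lit 5) (nat_lit 3) (nat_lit 4) (nat_lit 330) (nat_lit 279) (nat_lit 111)) (XT.nd (nat_lit 78) (nat_lit 0) (nat_lit 0) (XT.lf (nat_lit 0) (nat_lit 97236255032) (nat_lit 152) (nat_lit 175825647531) (nat_lit 76) (nat_lit 1539264927625) (nat_lit 2) (nat_lit 5) (nat_lit 4) (nat_lit 5) (nat_lit 3) (nat_lit 4) (nat_lit 331) (nat_lit 279) (nat_lit 110)) (XT.lf (nat_lit 0) (nat_lit 151855839080) (nat_lit 152) (nat_lit 62216975610) (nat_lit 76) (nat_lit 1736879033656) (nat_lit 2) (nat_lit 5) (nat_lit 4) (nat_lit 5) (nat_lit 3) (nat_lit 4) (nat_lit 332) (nat_lit 279) (nat_lit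 109)))) (XT.nd (nat_lit 78) (nat_lit 0) (nat_lit 0) (XT.lf (nat_lit 0) (nat_lit 63665137409) (nat_lit 76) (nat_lit 148710976313) (nat_lit 152) (nat_lit 1888168264443) (nat_lit 1) (nat_lit 5) (nat_lit 2) (nat_lit 5) (nat_lit 3) (nat_lit 4) (nat_lit 333) (nat_lit 279) (nat_lit 108)) (XT.nd (nat_lit 33306) (nat_lit 0) (nat_lit 1976) (XT.lf (nat_lit 0) (nat_lit 203156114359) (nat_lit 76) (nat_lit 76282994976) (nat_lit 152) (nat_lit 1982529113228) (nat_lit 1) (nat_lit 5) (nat_lit 2) (nat_lit 5) (nat_lit 3) (nat_lit 4) (nat_lit 334) (nat_lit 279) (nat_lit 107)) (XT.lf (nat_lit 0) (nat_lit 19103627891) (nat_lit 0) (nat_lit 19103627891) (nat_lit 380) (nat_lit 6744441280) (nat_lit 27) (nat_lit 5) (nat_lit 27) (nat_lit 3) (nat_lit 32) (nat_lit 3) (nat_lit 280) (nat_lit 280) (nat_lit 160))))) (XT.nd (nat_lit 234) (nat_lit 304) (nat_lit 0) (XT.nd (nat_lit 78) (nat_lit 0) (nat_lit 0) (XT.lf (nat_lit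 0) (nat_lit 75000488799) (nat_lit 0) (nat_lit 4477193427) (nat_lit 380) (nat_lit 14021244144) (nat_lit 27) (nat_lit 5) (nat_lit 27) (nat_lit 3) (nat_lit 32) (nat_lit 3) (nat_lit 281) (nat_lit 280) (nat_lit 159)) (XT.nd (nat_lit 78) (nat_lit 0) (nat_lit 0) (XT.lf (nat_lit 76) (nat_lit 17459655034) (nat_lit 0) (nat_lit 66513934127) (nat_lit 456) (nat_lit 13313505058) (nat_lit 28) (nat_lit 5) (nat_lit 27) (nat_lit 5) (nat_lit 33) (nat_lit 5) (nat_lit 282) (nat_lit 280) (nat_lit 158)) (XT.lf (nat_lit 76) (nat_lit 57223615279) (nat_lit 0) (nat_lit 32224067621) (nat_lit 456) (nat_lit 11881158524) (nat_lit 28) (nat_lit 5) (nat_lit 27) (nat_lit 5) (nat_lit 33) (nat_lit 5) (nat_lit 283) (nat_lit 280) (nat_lit 157)))) (XT.nd (nat_lit 156) (nat_lit 380) (nat_lit 0) (XT.nd (nat_lit 78) (nat_lit 0) (nat_lit 0) (XT.lf (nat_lit 0) (nat_lit 95474798306) (nat_lit 380) (nat_lit 5641308429) (nat_lit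 456) (nat_lit 4568620683) (nat_lit 28) (nat_lit 5) (nat_lit 33) (nat_lit 5) (nat_lit 34) (nat_lit 5) (nat_lit 284) (nat_lit 280) (nat_lit 156)) (XT.lf (nat_lit 76) (nat_lit 36908669816) (nat_lit 0) (nat_lit 66799535816) (nat_lit 456) (nat_lit 6542954902) (nat_lit 29) (nat_lit 5) (nat_lit 28) (nat_lit 5) (nat_lit 34) (nat_lit 5) (nat_lit 285) (nat_lit 280) (nat_lit 155))) (XT.nd (nat_lit 78) (nat_lit 380) (nat_lit 0) (XT.lf (nat_lit 76) (nat_lit 83183097022) (nat_lit 0) (nat_lit 29570940941) (nat_lit 456) (nat_lit 2416575758) (nat_lit 29) (nat_lit 5) (nat_lit 28) (nat_lit 5) (nat_lit 34) (nat_lit 5) (nat_lit 286) (nat_lit 280) (nat_lit 154)) (XT.lf (nat_lit 0) (nat_lit 2522427745) (nat_lit 456) (nat_lit 107428239604) (nat_lit 76) (nat_lit 10482271122) (nat_lit 23) (nat_lit 5) (nat_lit 29) (nat_lit 5) (nat_lit 24) (nat_lit 5) (nat_lit 287) (nat_lit 280) (nat_lit 153)))))) (XT.nd (nat_lit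 546) (nat_lit 532) (nat_lit 0) (XT.nd (nat_lit 234) (nat_lit 228) (nat_lit 0) (XT.nd (nat_lit 78) (nat_lit 228) (nat_lit 0) (XT.lf (nat_lit 0) (nat_lit 9390938817) (nat_lit 456) (nat_lit 63484802537) (nat_lit 76) (nat_lit 53102295235) (nat_lit 23) (nat_lit 5) (nat_lit 29) (nat_lit 5) (nat_lit 24) (nat_lit 5) (nat_lit 288) (nat_lit 280) (nat_lit 152)) (XT.nd (nat_lit 78) (nat_lit 228) (nat_lit 0) (XT.lf (nat_lit 0) (nat_lit 16808520221) (nat_lit 456) (nat_lit 16026269866) (nat_lit 76) (nat_lit 99131989438) (nat_lit 23) (nat_lit 5) (nat_lit 29) (nat_lit 5) (nat_lit 24) (nat_lit 5) (nat_lit 289) (nat_lit 280) (nat_lit 151)) (XT.lf (nat_lit 0) (nat_lit 25984504326) (nat_lit 304) (nat_lit 101553150769) (nat_lit 76) (nat_lit 10803770924) (nat_lit 20) (nat_lit 5) (nat_lit 24) (nat_lit 5) (nat_lit 21) (nat_lit 5) (nat_lit 290) (nat_lit 280) (nat_lit 150)))) (XT.nd (nat_lit 156) (nat_lit 0)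 (nat_lit 0) (XT.nd (nat_lit 78) (nat_lit 228) (nat_lit 0) (XT.lf (nat_lit 0) (nat_lit 37196627152) (nat_lit 304) (nat_lit 51316185470) (nat_lit 76) (nat_lit 56609070348) (nat_lit 20) (nat_lit 5) (nat_lit 24) (nat_lit 5) (nat_lit 21) (nat_lit 5) (nat_lit 291) (nat_lit 280) (nat_lit 149)) (XT.lf (nat_lit 0) (nat_lit 3094172740) (nat_lit 228) (nat_lit 46285628855) (nat_lit 304) (nat_lit 103059051613) (nat_lit 17) (nat_lit 5) (nat_lit 20) (nat_lit 5) (nat_lit 21) (nat_lit 5) (nat_lit 292) (nat_lit 280) (nat_lit 148))) (XT.nd (nat_lit 78) (nat_lit 0) (nat_lit 0) (XT.lf (nat_lit 0) (nat_lit 63960471313) (nat_lit 304) (nat_lit 95473627881) (nat_lit 76) (nat_lit 793257597) (nat_lit 17) (nat_lit 5) (nat_lit 21) (nat_lit 5) (nat_lit 18) (nat_lit 5) (nat_lit 293) (nat_lit 280) (nat_lit 147)) (XT.lf (nat_lit 0) (nat_lit 80909525095) (nat_lit 304) (nat_lit 38495454472) (nat_lit 76) (nat_lit 49137809462)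 (nat_lit 17) (nat_lit 5) (nat_lit 21) (nat_lit 5) (nat_lit 18) (nat_lit 5) (nat_lit 294) (nat_lit 280) (nat_lit 146))))) (XT.nd (nat_lit 234) (nat_lit 380) (nat_lit 0) (XT.nd (nat_lit 78) (nat_lit 0) (nat_lit 0) (XT.lf (nat_lit 0) (nat_lit 24253938934) (nat_lit 152) (nat_lit 75543600169) (nat_lit 228) (nat_lit 77679276466) (nat_lit 15) (nat_lit 5) (nat_lit 17) (nat_lit 5) (nat_lit 18) (nat_lit 5) (nat_lit 295) (nat_lit 280) (nat_lit 145)) (XT.nd (nat_lit 78) (nat_lit 0) (nat_lit 0) (XT.lf (nat_lit 0) (nat_lit 94212248244) (nat_lit 152) (nat_lit 27036620823) (nat_lit 228) (nat_lit 65792515588) (nat_lit 15) (nat_lit 5) (nat_lit 17) (nat_lit 5) (nat_lit 18) (nat_lit 5) (nat_lit 296) (nat_lit 280) (nat_lit 144)) (XT.lf (nat_lit 0) (nat_lit 145025754620) (nat_lit 228) (nat_lit 28213891000) (nat_lit 76) (nat_lit 24082719939) (nat_lit 15) (nat_lit 5) (nat_lit 18) (nat_lit 5) (nat_lit 16)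 (nat_lit 5) (nat_lit 297) (nat_lit 280) (nat_lit 143)))) (XT.nd (nat_lit 156) (nat_lit 228) (nat_lit 0) (XT.nd (nat_lit 78) (nat_lit 0) (nat_lit 0) (XT.lf (nat_lit 0) (nat_lit 43020081499) (nat_lit 152) (nat_lit 129421370287) (nat_lit 228) (nat_lit 35845442353) (nat_lit 13) (nat_lit 5) (nat_lit 15) (nat_lit 5) (nat_lit 16) (nat_lit 5) (nat_lit 298) (nat_lit 280) (nat_lit 142)) (XT.lf (nat_lit 0) (nat_lit 121557046542) (nat_lit 152) (nat_lit 81264562777) (nat_lit 228) (nat_lit 17245281228) (nat_lit 13) (nat_lit 5) (nat_lit 15) (nat_lit 5) (nat_lit 16) (nat_lit 5) (nat_lit 299) (nat_lit 280) (nat_lit 141))) (XT.nd (nat_lit 78) (nat_lit 152) (nat_lit 0) (XT.lf (nat_lit 0) (nat_lit 2700475573) (nat_lit 228) (nat_lit 26480955835) (nat_lit 76) (nat_lit 203602403503) (nat_lit 12) (nat_lit 5) (nat_lit 15) (nat_lit 5) (nat_lit 13) (nat_lit 5) (nat_lit 300) (nat_lit 280) (nat_lit 140)) (XT.lf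 (nat_lit 0) (nat_lit 25293731014) (nat_lit 228) (nat_lit 193535004590) (nat_lit 76) (nat_lit 27494883888) (nat_lit 10) (nat_lit 5) (nat_lit 13) (nat_lit 5) (nat_lit 11) (nat_lit 5) (nat_lit 301) (nat_lit 280) (nat_lit 139))))))))
noncomputable def xc113 : XT := (XT.nd (nat_lit 2106) (nat_lit 76) (nat_lit 0) (XT.nd (nat_lit 1014) (nat_lit 152) (nat_lit 0) (XT.nd (nat_lit 468) (nat_lit 228) (nat_lit 0) (XT.nd (nat_lit 234) (nat_lit 0) (nat_lit 0) (XT.nd (nat_lit 78) (nat_lit 152) (nat_lit 0) (XT.lf (nat_lit 0) (nat_lit 51195066263) (nat_lit 228) (nat_lit 121759937399) (nat_lit 76) (nat_lit 87871535033) (nat_lit 10) (nat_lit 5) (nat_lit 13) (nat_lit 5) (nat_lit 11) (nat_lit 5) (nat_lit 302) (nat_lit 280) (nat_lit 138)) (XT.nd (nat_lit 78) (nat_lit 152) (nat_lit 0) (XT.lf (nat_lit 0) (nat_lit 79168339553) (nat_lit 228) (nat_lit 44243100746) (nat_lit 76) (nat_lit 153078265937) (nat_lit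 10) (nat_lit 5) (nat_lit 13) (nat_lit 5) (nat_lit 11) (nat_lit 5) (nat_lit 303) (nat_lit 280) (nat_lit 137)) (XT.lf (nat_lit 0) (nat_lit 41553540803) (nat_lit 152) (nat_lit 68825141283) (nat_lit 228) (nat_lit 182947309710) (nat_lit 8) (nat_lit 5) (nat_lit 10) (nat_lit 5) (nat_lit 11) (nat_lit 5) (nat_lit 304) (nat_lit 280) (nat_lit 136)))) (XT.nd (nat_lit 78) (nat_lit 0) (nat_lit 0) (XT.lf (nat_lit 0) (nat_lit 136729845111) (nat_lit 152) (nat_lit 8565541868) (nat_lit 228) (nat_lit 166117031537) (nat_lit 8) (nat_lit 5) (nat_lit 10) (nat_lit 5) (nat_lit 11) (nat_lit 5) (nat_lit 305) (nat_lit 280) (nat_lit 135)) (XT.nd (nat_lit 78) (nat_lit 0) (nat_lit 0) (XT.lf (nat_lit 0) (nat_lit 184364471049) (nat_lit 228) (nat_lit 92784896388) (nat_lit 76) (nat_lit 53687669548) (nat_lit 8) (nat_lit 5) (nat_lit 11) (nat_lit 5) (nat_lit 9) (nat_lit 4) (nat_lit 306) (nat_lit 280) (nat_lit 134)) (XT.lf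 (nat_lit 0) (nat_lit 226781433702) (nat_lit 228) (nat_lit 4558079280) (nat_lit 76) (nat_lit 120458324755) (nat_lit 8) (nat_lit 5) (nat_lit 11) (nat_lit 5) (nat_lit 9) (nat_lit 4) (nat_lit 307) (nat_lit 280) (nat_lit 133))))) (XT.nd (nat_lit 234) (nat_lit 152) (nat_lit 0) (XT.nd (nat_lit 78) (nat_lit 0) (nat_lit 0) (XT.lf (nat_lit 0) (nat_lit 95504212490) (nat_lit 76) (nat_lit 179384299348) (nat_lit 152) (nat_lit 99363250920) (nat_lit 7) (nat_lit 5) (nat_lit 8) (nat_lit 5) (nat_lit 9) (nat_lit 4) (nat_lit 308) (nat_lit 280) (nat_lit 132)) (XT.nd (nat_lit 78) (nat_lit 0) (nat_lit 0) (XT.lf (nat_lit 0) (nat_lit 203830535913) (nat_lit 76) (nat_lit 123138130861) (nat_lit 152) (nat_lit 71523374982) (nat_lit 7) (nat_lit 5) (nat_lit 8) (nat_lit 5) (nat_lit 9) (nat_lit 4) (nat_lit 309) (nat_lit 280) (nat_lit 131)) (XT.lf (nat_lit 0) (nat_lit 320822804378) (nat_lit 76) (nat_lit 62392322859)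 (nat_lit 152) (nat_lit 41456425142) (nat_lit 7) (nat_lit 5) (nat_lit 8) (nat_lit 5) (nat_lit 9) (nat_lit 4) (nat_lit 310) (nat_lit 280) (nat_lit 130)))) (XT.nd (nat_lit 156) (nat_lit 0) (nat_lit 0) (XT.nd (nat_lit 78) (nat_lit 152) (nat_lit 0) (XT.lf (nat_lit 0) (nat_lit 444038480717) (nat_lit 152) (nat_lit 5848402198) (nat_lit 0) (nat_lit 3052367549) (nat_lit 7) (nat_lit 5) (nat_lit 9) (nat_lit 4) (nat_lit 7) (nat_lit 4) (nat_lit 311) (nat_lit 280) (nat_lit 129)) (XT.lf (nat_lit 0) (nat_lit 29163413991) (nat_lit 152) (nat_lit 380326505227) (nat_lit 76) (nat_lit 73590508812) (nat_lit 5) (nat_lit 5) (nat_lit 7) (nat_lit 5) (nat_lit 6) (nat_lit 4) (nat_lit 312) (nat_lit 280) (nat_lit 128))) (XT.nd (nat_lit 78) (nat_lit 0) (nat_lit 0) (XT.lf (nat_lit 0) (nat_lit 69955826601) (nat_lit 152) (nat_lit 295478558445) (nat_lit 76) (nat_lit 150166902854) (nat_lit 5) (nat_lit 5) (nat_lit 7) (nat_lit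 5) (nat_lit 6) (nat_lit 4) (nat_lit 313) (nat_lit 280) (nat_lit 127)) (XT.lf (nat_lit 0) (nat_lit 114011546898) (nat_lit 152) (nat_lit 203842911568) (nat_lit 76) (nat_lit 232869365436) (nat_lit 5) (nat_lit 5) (nat_lit 7) (nat_lit 5) (nat_lit 6) (nat_lit 4) (nat_lit 314) (nat_lit 280) (nat_lit 126)))))) (XT.nd (nat_lit 546) (nat_lit 76) (nat_lit 0) (XT.nd (nat_lit 234) (nat_lit 0) (nat_lit 0) (XT.nd (nat_lit 78) (nat_lit 76) (nat_lit 0) (XT.lf (nat_lit 0) (nat_lit 161591645816) (nat_lit 152) (nat_lit 104876538540) (nat_lit 76) (nat_lit 322187985226) (nat_lit 5) (nat_lit 5) (nat_lit 7) (nat_lit 5) (nat_lit 6) (nat_lit 4) (nat_lit 315) (nat_lit 280) (nat_lit 125)) (XT.nd (nat_lit 78) (nat_lit 0) (nat_lit 0) (XT.lf (nat_lit 0) (nat_lit 2112714573) (nat_lit 76) (nat_lit 210916175760) (nat_lit 152) (nat_lit 416590154011) (nat_lit 4) (nat_lit 5) (nat_lit 5) (nat_lit 5) (nat_lit 6) (nat_lit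 4) (nat_lit 316) (nat_lit 280) (nat_lit 124)) (XT.lf (nat_lit 0) (nat_lit 123625416260) (nat_lit 76) (nat_lit 147823138115) (nat_lit 152) (nat_lit 402180999924) (nat_lit 4) (nat_lit 5) (nat_lit 5) (nat_lit 5) (nat_lit 6) (nat_lit 4) (nat_lit 317) (nat_lit 280) (nat_lit 123)))) (XT.nd (nat_lit 156) (nat_lit 0) (nat_lit 0) (XT.nd (nat_lit 78) (nat_lit 0) (nat_lit 0) (XT.lf (nat_lit 0) (nat_lit 254859029127) (nat_lit 76) (nat_lit 79682697176) (nat_lit 152) (nat_lit 386619184348) (nat_lit 4) (nat_lit 5) (nat_lit 5) (nat_lit 5) (nat_lit 6) (nat_lit 4) (nat_lit 318) (nat_lit 280) (nat_lit 122)) (XT.lf (nat_lit 0) (nat_lit 396591233842) (nat_lit 76) (nat_lit 6091057736) (nat_lit 152) (nat_lit 369812489116) (nat_lit 4) (nat_lit 5) (nat_lit 5) (nat_lit 5) (nat_lit 6) (nat_lit 4) (nat_lit 319) (nat_lit 280) (nat_lit 121))) (XT.nd (nat_lit 78) (nat_lit 0) (nat_lit 0) (XT.lf (nat_lit 0) (nat_lit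 478039026395) (nat_lit 152) (nat_lit 280038420438) (nat_lit 0) (nat_lit 69716719887) (nat_lit 4) (nat_lit 5) (nat_lit 6) (nat_lit 4) (nat_lit 4) (nat_lit 4) (nat_lit 320) (nat_lit 280) (nat_lit 120)) (XT.lf (nat_lit 0) (nat_lit 559582456741) (nat_lit 152) (nat_lit 176662380205) (nat_lit 0) (nat_lit 151260014443) (nat_lit 4) (nat_lit 5) (nat_lit 6) (nat_lit 4) (nat_lit 4) (nat_lit 4) (nat_lit 321) (nat_lit 280) (nat_lit 119))))) (XT.nd (nat_lit 234) (nat_lit 0) (nat_lit 0) (XT.nd (nat_lit 78) (nat_lit 76) (nat_lit 0) (XT.lf (nat_lit 0) (nat_lit 647649312861) (nat_lit 152) (nat_lit 65016337312) (nat_lit 0) (nat_lit 239326744831) (nat_lit 4) (nat_lit 5) (nat_lit 6) (nat_lit 4) (nat_lit 4) (nat_lit 4) (nat_lit 322) (nat_lit 280) (nat_lit 118)) (XT.nd (nat_lit 78) (nat_lit 0) (nat_lit 0) (XT.lf (nat_lit 0) (nat_lit 58487074774) (nat_lit 76) (nat_lit 685681013201) (nat_lit 76) (nat_lit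 277358328752) (nat_lit 3) (nat_lit 4) (nat_lit 4) (nat_lit 5) (nat_lit 4) (nat_lit 4) (nat_lit 323) (nat_lit 280) (nat_lit 117)) (XT.lf (nat_lit 0) (nat_lit 195568223839) (nat_lit 76) (nat_lit 654617759679) (nat_lit 76) (nat_lit 246294967434) (nat_lit 3) (nat_lit 4) (nat_lit 4) (nat_lit 5) (nat_lit 4) (nat_lit 4) (nat_lit 324) (nat_lit 280) (nat_lit 116)))) (XT.nd (nat_lit 156) (nat_lit 0) (nat_lit 0) (XT.nd (nat_lit 78) (nat_lit 0) (nat_lit 0) (XT.lf (nat_lit 0) (nat_lit 343615797512) (nat_lit 76) (nat_lit 621069472950) (nat_lit 76) (nat_lit 212746580895) (nat_lit 3) (nat_lit 4) (nat_lit 4) (nat_lit 5) (nat_lit 4) (nat_lit 4) (nat_lit 325) (nat_lit 280) (nat_lit 115)) (XT.lf (nat_lit 0) (nat_lit 503507114747) (nat_lit 76) (nat_lit 584837348352) (nat_lit 76) (nat_lit 176514363880) (nat_lit 3) (nat_lit 4) (nat_lit 4) (nat_lit 5) (nat_lit 4) (nat_lit 4) (nat_lit 326) (nat_lit 280) (nat_lit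 114))) (XT.nd (nat_lit 78) (nat_lit 0) (nat_lit 0) (XT.lf (nat_lit 0) (nat_lit 676189679648) (nat_lit 76) (nat_lit 545706676998) (nat_lit 76) (nat_lit 137383606955) (nat_lit 3) (nat_lit 4) (nat_lit 4) (nat_lit 5) (nat_lit 4) (nat_lit 4) (nat_lit 327) (nat_lit 280) (nat_lit 113)) (XT.lf (nat_lit 0) (nat_lit 862686796303) (nat_lit 76) (nat_lit 503445573429) (nat_lit 76) (nat_lit 95122424153) (nat_lit 3) (nat_lit 4) (nat_lit 4) (nat_lit 5) (nat_lit 4) (nat_lit 4) (nat_lit 328) (nat_lit 280) (nat_lit 112))))))) (XT.nd (nat_lit 34398) (nat_lit 0) (nat_lit 608) (XT.nd (nat_lit 33852) (nat_lit 0) (nat_lit 1596) (XT.nd (nat_lit 234) (nat_lit 0) (nat_lit 0) (XT.nd (nat_lit 78) (nat_lit 76) (nat_lit 0) (XT.lf (nat_lit 0) (nat_lit 1064103632809) (nat_lit 76) (nat_lit 457803601475) (nat_lit 76) (nat_lit 49480378836) (nat_lit 3) (nat_lit 4) (nat_lit 4) (nat_lit 5) (nat_lit 4) (nat_lit 4) (nat_lit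 329) (nat_lit 280) (nat_lit 111)) (XT.nd (nat_lit 78) (nat_lit 76) (nat_lit 0) (XT.lf (nat_lit 0) (nat_lit 1281633770422) (nat_lit 76) (nat_lit 408510290191) (nat_lit 76) (nat_lit 186999623) (nat_lit 3) (nat_lit 4) (nat_lit 4) (nat_lit 5) (nat_lit 4) (nat_lit 4) (nat_lit 330) (nat_lit 280) (nat_lit 110)) (XT.lf (nat_lit 0) (nat_lit 50396055428) (nat_lit 152) (nat_lit 303499558173) (nat_lit 76) (nat_lit 1464792303728) (nat_lit 2) (nat_lit 5) (nat_lit 4) (nat_lit 5) (nat_lit 3) (nat_lit 4) (nat_lit 331) (nat_lit 280) (nat_lit 109)))) (XT.nd (nat_lit 78) (nat_lit 0) (nat_lit 0) (XT.lf (nat_lit 0) (nat_lit 105015627834) (nat_lit 152) (nat_lit 189890905807) (nat_lit 76) (nat_lit 1662406402835) (nat_lit 2) (nat_lit 5) (nat_lit 4) (nat_lit 5) (nat_lit 3) (nat_lit 4) (nat_lit 332) (nat_lit 280) (nat_lit 108)) (XT.nd (nat_lit 33462) (nat_lit 0) (nat_lit 1900) (XT.lf (nat_lit 0) (nat_lit 164004743613)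 (nat_lit 152) (nat_lit 67193598912) (nat_lit 76) (nat_lit 1875829616535) (nat_lit 2) (nat_lit 5) (nat_lit 4) (nat_lit 5) (nat_lit 3) (nat_lit 4) (nat_lit 333) (nat_lit 280) (nat_lit 107)) (XT.lf (nat_lit 0) (nat_lit 20635133974) (nat_lit 0) (nat_lit 20635133974) (nat_lit 380) (nat_lit 7276975873) (nat_lit 27) (nat_lit 5) (nat_lit 27) (nat_lit 3) (nat_lit 32) (nat_lit 3) (nat_lit 281) (nat_lit 281) (nat_lit 158))))) (XT.nd (nat_lit 234) (nat_lit 304) (nat_lit 0) (XT.nd (nat_lit 78) (nat_lit 0) (nat_lit 0) (XT.lf (nat_lit 0) (nat_lit 81006483184) (nat_lit 0) (nat_lit 4841324182) (nat_lit 380) (nat_lit 15129942363) (nat_lit 27) (nat_lit 5) (nat_lit 27) (nat_lit 3) (nat_lit 32) (nat_lit 3) (nat_lit 282) (nat_lit 281) (nat_lit 157)) (XT.nd (nat_lit 78) (nat_lit 0) (nat_lit 0) (XT.lf (nat_lit 76) (nat_lit 18863434687) (nat_lit 0) (nat_lit 71839105814) (nat_lit 456) (nat_lit 14366508428)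 (nat_lit 28) (nat_lit 5) (nat_lit 27) (nat_lit 5) (nat_lit 33) (nat_lit 5) (nat_lit 283) (nat_lit 281) (nat_lit 156)) (XT.lf (nat_lit 76) (nat_lit 61807992696) (nat_lit 0) (nat_lit 34805749472) (nat_lit 456) (nat_lit 12820468767) (nat_lit 28) (nat_lit 5) (nat_lit 27) (nat_lit 5) (nat_lit 33) (nat_lit 5) (nat_lit 284) (nat_lit 281) (nat_lit 155)))) (XT.nd (nat_lit 156) (nat_lit 380) (nat_lit 0) (XT.nd (nat_lit 78) (nat_lit 0) (nat_lit 0) (XT.lf (nat_lit 0) (nat_lit 103122184294) (nat_lit 380) (nat_lit 6085653529) (nat_lit 456) (nat_lit 4930806144) (nat_lit 28) (nat_lit 5) (nat_lit 33) (nat_lit 5) (nat_lit 34) (nat_lit 5) (nat_lit 285) (nat_lit 281) (nat_lit 154)) (XT.lf (nat_lit 76) (nat_lit 39868146785) (nat_lit 0) (nat_lit 72145584109) (nat_lit 456) (nat_lit 7056711614) (nat_lit 29) (nat_lit 5) (nat_lit 28) (nat_lit 5) (nat_lit 34) (nat_lit 5) (nat_lit 286) (nat_lit 281) (nat_lit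 153))) (XT.nd (nat_lit 78) (nat_lit 380) (nat_lit 0) (XT.lf (nat_lit 76) (nat_lit 89844025694) (nat_lit 0) (nat_lit 31938547168) (nat_lit 456) (nat_lit 2600939151) (nat_lit 29) (nat_lit 5) (nat_lit 28) (nat_lit 5) (nat_lit 34) (nat_lit 5) (nat_lit 287) (nat_lit 281) (nat_lit 152)) (XT.lf (nat_lit 0) (nat_lit 2732231706) (nat_lit 456) (nat_lit 116015097565) (nat_lit 76) (nat_lit 11319523031) (nat_lit 23) (nat_lit 5) (nat_lit 29) (nat_lit 5) (nat_lit 24) (nat_lit 5) (nat_lit 288) (nat_lit 281) (nat_lit 151)))))) (XT.nd (nat_lit 546) (nat_lit 532) (nat_lit 0) (XT.nd (nat_lit 234) (nat_lit 228) (nat_lit 0) (XT.nd (nat_lit 78) (nat_lit 228) (nat_lit 0) (XT.lf (nat_lit 0) (nat_lit 10149630350) (nat_lit 456) (nat_lit 68556733770) (nat_lit 76) (nat_lit 57349247576) (nat_lit 23) (nat_lit 5) (nat_lit 29) (nat_lit 5) (nat_lit 24) (nat_lit 5) (nat_lit 289) (nat_lit 281) (nat_lit 150)) (XT.nd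 (nat_lit 78) (nat_lit 228) (nat_lit 0) (XT.lf (nat_lit 0) (nat_lit 18160068901) (nat_lit 456) (nat_lit 17302026113) (nat_lit 76) (nat_lit 107061408521) (nat_lit 23) (nat_lit 5) (nat_lit 29) (nat_lit 5) (nat_lit 24) (nat_lit 5) (nat_lit 290) (nat_lit 281) (nat_lit 149)) (XT.lf (nat_lit 0) (nat_lit 28069764051) (nat_lit 304) (nat_lit 109670625927) (nat_lit 76) (nat_lit 11667766296) (nat_lit 20) (nat_lit 5) (nat_lit 24) (nat_lit 5) (nat_lit 21) (nat_lit 5) (nat_lit 291) (nat_lit 281) (nat_lit 148)))) (XT.nd (nat_lit 156) (nat_lit 0) (nat_lit 0) (XT.nd (nat_lit 78) (nat_lit 228) (nat_lit 0) (XT.lf (nat_lit 0) (nat_lit 40178375268) (nat_lit 304) (nat_lit 55415205397) (nat_lit 76) (nat_lit 61137512362) (nat_lit 20) (nat_lit 5) (nat_lit 24) (nat_lit 5) (nat_lit 21) (nat_lit 5) (nat_lit 292) (nat_lit 281) (nat_lit 147)) (XT.lf (nat_lit 0) (nat_lit 3347822612) (nat_lit 228) (nat_lit 49988082372)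 (nat_lit 304) (nat_lit 111297544175) (nat_lit 17) (nat_lit 5) (nat_lit 20) (nat_lit 5) (nat_lit 21) (nat_lit 5) (nat_lit 293) (nat_lit 281) (nat_lit 146))) (XT.nd (nat_lit 78) (nat_lit 0) (nat_lit 0) (XT.lf (nat_lit 0) (nat_lit 69082613466) (nat_lit 304) (nat_lit 103105389579) (nat_lit 76) (nat_lit 857067225) (nat_lit 17) (nat_lit 5) (nat_lit 21) (nat_lit 5) (nat_lit 18) (nat_lit 5) (nat_lit 294) (nat_lit 281) (nat_lit 145)) (XT.lf (nat_lit 0) (nat_lit 87387198628) (nat_lit 304) (nat_lit 41569416263) (nat_lit 76) (nat_lit 53069157386) (nat_lit 17) (nat_lit 5) (nat_lit 21) (nat_lit 5) (nat_lit 18) (nat_lit 5) (nat_lit 295) (nat_lit 281) (nat_lit 144))))) (XT.nd (nat_lit 234) (nat_lit 380) (nat_lit 0) (XT.nd (nat_lit 78) (nat_lit 0) (nat_lit 0) (XT.lf (nat_lit 0) (nat_lit 26199784956) (nat_lit 152) (nat_lit 81586238004) (nat_lit 228) (nat_lit 83888519924) (nat_lit 15) (nat_lit 5) (nat_lit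 17) (nat_lit 5) (nat_lit 18) (nat_lit 5) (nat_lit 296) (nat_lit 281) (nat_lit 143)) (XT.nd (nat_lit 78) (nat_lit 0) (nat_lit 0) (XT.lf (nat_lit 0) (nat_lit 101754349313) (nat_lit 152) (nat_lit 29198763286) (nat_lit 228) (nat_lit 71051195854) (nat_lit 15) (nat_lit 5) (nat_lit 17) (nat_lit 5) (nat_lit 18) (nat_lit 5) (nat_lit 297) (nat_lit 281) (nat_lit 142)) (XT.lf (nat_lit 0) (nat_lit 156631845489) (nat_lit 228) (nat_lit 30465919640) (nat_lit 76) (nat_lit 26010029964) (nat_lit 15) (nat_lit 5) (nat_lit 18) (nat_lit 5) (nat_lit 16) (nat_lit 5) (nat_lit 298) (nat_lit 281) (nat_lit 141)))) (XT.nd (nat_lit 156) (nat_lit 228) (nat_lit 0) (XT.nd (nat_lit 78) (nat_lit 0) (nat_lit 0) (XT.lf (nat_lit 0) (nat_lit 46466641986) (nat_lit 152) (nat_lit 139773977030) (nat_lit 228) (nat_lit 38708884056) (nat_lit 13) (nat_lit 5) (nat_lit 15) (nat_lit 5) (nat_lit 16) (nat_lit 5) (nat_lit 299) (nat_lit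 281) (nat_lit 140)) (XT.lf (nat_lit 0) (nat_lit 131286197272) (nat_lit 152) (nat_lit 87764706614) (nat_lit 228) (nat_lit 18621020685) (nat_lit 13) (nat_lit 5) (nat_lit 15) (nat_lit 5) (nat_lit 16) (nat_lit 5) (nat_lit 300) (nat_lit 281) (nat_lit 139))) (XT.nd (nat_lit 78) (nat_lit 152) (nat_lit 0) (XT.lf (nat_lit 0) (nat_lit 2919929171) (nat_lit 228) (nat_lit 28594977821) (nat_lit 76) (nat_lit 219891334072) (nat_lit 12) (nat_lit 5) (nat_lit 15) (nat_lit 5) (nat_lit 13) (nat_lit 5) (nat_lit 301) (nat_lit 281) (nat_lit 138)) (XT.lf (nat_lit 0) (nat_lit 27320522309) (nat_lit 228) (nat_lit 209013202372) (nat_lit 76) (nat_lit 29695495579) (nat_lit 10) (nat_lit 5) (nat_lit 13) (nat_lit 5) (nat_lit 11) (nat_lit 5) (nat_lit 302) (nat_lit 281) (nat_lit 137))))))))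
noncomputable def xc114 : XT := (XT.nd (nat_lit 2106) (nat_lit 76) (nat_lit 0) (XT.nd (nat_lit 1014) (nat_lit 152) (nat_lit 0) (XT.nd (nat_lit 468) (nat_lit 228) (nat_lit 0) (XT.nd (nat_lit 234) (nat_lit 0) (nat_lit 0) (XT.nd (nat_lit 78) (nat_lit 152) (nat_lit 0) (XT.lf (nat_lit 0) (nat_lit 55293720466) (nat_lit 228) (nat_lit 131496470738) (nat_lit 76) (nat_lit 94902203187) (nat_lit 10) (nat_lit 5) (nat_lit 13) (nat_lit 5) (nat_lit 11) (nat_lit 5) (nat_lit 303) (nat_lit 281) (nat_lit 136)) (XT.nd (nat_lit 78) (nat_lit 152) (nat_lit 0) (XT.lf (nat_lit 0) (nat_lit 85504629775) (nat_lit 228) (nat_lit 47778602831) (nat_lit 76) (nat_lit 165325402537) (nat_lit 10) (nat_lit 5) (nat_lit 13) (nat_lit 5) (nat_lit 11) (nat_lit 5) (nat_lit 304) (nat_lit 281) (nat_lit 135)) (XT.lf (nat_lit 0) (nat_lit 44881670144) (nat_lit 152) (nat_lit 74330012948) (nat_lit 228) (nat_lit 197580151395) (nat_lit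 8) (nat_lit 5) (nat_lit 10) (nat_lit 5) (nat_lit 11) (nat_lit 5) (nat_lit 305) (nat_lit 281) (nat_lit 134)))) (XT.nd (nat_lit 78) (nat_lit 0) (nat_lit 0) (XT.lf (nat_lit 0) (nat_lit 147671793902) (nat_lit 152) (nat_lit 9249729998) (nat_lit 228) (nat_lit 179403668975) (nat_lit 8) (nat_lit 5) (nat_lit 10) (nat_lit 5) (nat_lit 11) (nat_lit 5) (nat_lit 306) (nat_lit 281) (nat_lit 133)) (XT.nd (nat_lit 78) (nat_lit 0) (nat_lit 0) (XT.lf (nat_lit 0) (nat_lit 199115972567) (nat_lit 228) (nat_lit 100204211315) (nat_lit 76) (nat_lit 57983611291) (nat_lit 8) (nat_lit 5) (nat_lit 11) (nat_lit 5) (nat_lit 9) (nat_lit 4) (nat_lit 307) (nat_lit 281) (nat_lit 132)) (XT.lf (nat_lit 0) (nat_lit 244926118616) (nat_lit 228) (nat_lit 4919506378) (nat_lit 76) (nat_lit 130095850160) (nat_lit 8) (nat_lit 5) (nat_lit 11) (nat_lit 5) (nat_lit 9) (nat_lit 4) (nat_lit 308) (nat_lit 281) (nat_lit 131))))) (XT.nd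 (nat_lit 234) (nat_lit 152) (nat_lit 0) (XT.nd (nat_lit 78) (nat_lit 0) (nat_lit 0) (XT.lf (nat_lit 0) (nat_lit 103147687234) (nat_lit 76) (nat_lit 193733990474) (nat_lit 152) (nat_lit 107310044476) (nat_lit 7) (nat_lit 5) (nat_lit 8) (nat_lit 5) (nat_lit 9) (nat_lit 4) (nat_lit 309) (nat_lit 281) (nat_lit 130)) (XT.nd (nat_lit 78) (nat_lit 0) (nat_lit 0) (XT.lf (nat_lit 0) (nat_lit 220139884105) (nat_lit 76) (nat_lit 132988206495) (nat_lit 152) (nat_lit 77243146352) (nat_lit 7) (nat_lit 5) (nat_lit 8) (nat_lit 5) (nat_lit 9) (nat_lit 4) (nat_lit 310) (nat_lit 281) (nat_lit 129)) (XT.lf (nat_lit 0) (nat_lit 346491318839) (nat_lit 76) (nat_lit 67382806063) (nat_lit 152) (nat_lit 44770995980) (nat_lit 7) (nat_lit 5) (nat_lit 8) (nat_lit 5) (nat_lit 9) (nat_lit 4) (nat_lit 311) (nat_lit 281) (nat_lit 128)))) (XT.nd (nat_lit 156) (nat_lit 0) (nat_lit 0) (XT.nd (nat_lit 78) (nat_lit 152)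 (nat_lit 0) (XT.lf (nat_lit 0) (nat_lit 479563234354) (nat_lit 152) (nat_lit 6313659475) (nat_lit 0) (nat_lit 3297350908) (nat_lit 7) (nat_lit 5) (nat_lit 9) (nat_lit 4) (nat_lit 7) (nat_lit 4) (nat_lit 312) (nat_lit 281) (nat_lit 127)) (XT.lf (nat_lit 0) (nat_lit 31498151714) (nat_lit 152) (nat_lit 410749979218) (nat_lit 76) (nat_lit 79478588099) (nat_lit 5) (nat_lit 5) (nat_lit 7) (nat_lit 5) (nat_lit 6) (nat_lit 4) (nat_lit 313) (nat_lit 281) (nat_lit 126))) (XT.nd (nat_lit 78) (nat_lit 0) (nat_lit 0) (XT.lf (nat_lit 0) (nat_lit 75553834029) (nat_lit 152) (nat_lit 319114392725) (nat_lit 76) (nat_lit 162181031547) (nat_lit 5) (nat_lit 5) (nat_lit 7) (nat_lit 5) (nat_lit 6) (nat_lit 4) (nat_lit 314) (nat_lit 281) (nat_lit 125)) (XT.lf (nat_lit 0) (nat_lit 123133897779) (nat_lit 152) (nat_lit 220148075609) (nat_lit 76) (nat_lit 251499633620) (nat_lit 5) (nat_lit 5) (nat_lit 7) (nat_lit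 5) (nat_lit 6) (nat_lit 4) (nat_lit 315) (nat_lit 281) (nat_lit 124)))))) (XT.nd (nat_lit 546) (nat_lit 76) (nat_lit 0) (XT.nd (nat_lit 234) (nat_lit 0) (nat_lit 0) (XT.nd (nat_lit 78) (nat_lit 76) (nat_lit 0) (XT.lf (nat_lit 0) (nat_lit 174520298897) (nat_lit 152) (nat_lit 113264560804) (nat_lit 76) (nat_lit 347963689738) (nat_lit 5) (nat_lit 5) (nat_lit 7) (nat_lit 5) (nat_lit 6) (nat_lit 4) (nat_lit 316) (nat_lit 281) (nat_lit 123)) (XT.nd (nat_lit 78) (nat_lit 0) (nat_lit 0) (XT.lf (nat_lit 0) (nat_lit 2283779373) (nat_lit 76) (nat_lit 227788694966) (nat_lit 152) (nat_lit 449915984326) (nat_lit 4) (nat_lit 5) (nat_lit 5) (nat_lit 5) (nat_lit 6) (nat_lit 4) (nat_lit 317) (nat_lit 281) (nat_lit 122)) (XT.lf (nat_lit 0) (nat_lit 133517345518) (nat_lit 76) (nat_lit 159648271706) (nat_lit 152) (nat_lit 434354200284) (nat_lit 4) (nat_lit 5) (nat_lit 5) (nat_lit 5) (nat_lit 6) (nat_lit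 4) (nat_lit 318) (nat_lit 281) (nat_lit 121)))) (XT.nd (nat_lit 156) (nat_lit 0) (nat_lit 0) (XT.nd (nat_lit 78) (nat_lit 0) (nat_lit 0) (XT.lf (nat_lit 0) (nat_lit 275249506973) (nat_lit 76) (nat_lit 86056648637) (nat_lit 152) (nat_lit 417547534249) (nat_lit 4) (nat_lit 5) (nat_lit 5) (nat_lit 5) (nat_lit 6) (nat_lit 4) (nat_lit 319) (nat_lit 281) (nat_lit 120)) (XT.lf (nat_lit 0) (nat_lit 428320158028) (nat_lit 76) (nat_lit 6577727250) (nat_lit 152) (nat_lit 399396391164) (nat_lit 4) (nat_lit 5) (nat_lit 5) (nat_lit 5) (nat_lit 6) (nat_lit 4) (nat_lit 320) (nat_lit 281) (nat_lit 119))) (XT.nd (nat_lit 78) (nat_lit 0) (nat_lit 0) (XT.lf (nat_lit 0) (nat_lit 516283097734) (nat_lit 152) (nat_lit 302439922413) (nat_lit 0) (nat_lit 75294598529) (nat_lit 4) (nat_lit 5) (nat_lit 6) (nat_lit 4) (nat_lit 4) (nat_lit 4) (nat_lit 321) (nat_lit 281) (nat_lit 118)) (XT.lf (nat_lit 0) (nat_lit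 604349932196) (nat_lit 152) (nat_lit 190793915381) (nat_lit 0) (nat_lit 163361316572) (nat_lit 4) (nat_lit 5) (nat_lit 6) (nat_lit 4) (nat_lit 4) (nat_lit 4) (nat_lit 322) (nat_lit 281) (nat_lit 117))))) (XT.nd (nat_lit 234) (nat_lit 0) (nat_lit 0) (XT.nd (nat_lit 78) (nat_lit 76) (nat_lit 0) (XT.lf (nat_lit 0) (nat_lit 699462071700) (nat_lit 152) (nat_lit 70216296853) (nat_lit 0) (nat_lit 258473348281) (nat_lit 4) (nat_lit 5) (nat_lit 6) (nat_lit 4) (nat_lit 4) (nat_lit 4) (nat_lit 323) (nat_lit 281) (nat_lit 116)) (XT.nd (nat_lit 78) (nat_lit 0) (nat_lit 0) (XT.lf (nat_lit 0) (nat_lit 63167354088) (nat_lit 76) (nat_lit 740534966038) (nat_lit 76) (nat_lit 299546142809) (nat_lit 3) (nat_lit 4) (nat_lit 4) (nat_lit 5) (nat_lit 4) (nat_lit 4) (nat_lit 324) (nat_lit 281) (nat_lit 115)) (XT.lf (nat_lit 0) (nat_lit 211214897794) (nat_lit 76) (nat_lit 706986691362) (nat_lit 76) (nat_lit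 265997775715) (nat_lit 3) (nat_lit 4) (nat_lit 4) (nat_lit 5) (nat_lit 4) (nat_lit 4) (nat_lit 325) (nat_lit 281) (nat_lit 114)))) (XT.nd (nat_lit 156) (nat_lit 0) (nat_lit 0) (XT.nd (nat_lit 78) (nat_lit 0) (nat_lit 0) (XT.lf (nat_lit 0) (nat_lit 371106187283) (nat_lit 76) (nat_lit 670754577923) (nat_lit 76) (nat_lit 229765576706) (nat_lit 3) (nat_lit 4) (nat_lit 4) (nat_lit 5) (nat_lit 4) (nat_lit 4) (nat_lit 326) (nat_lit 281) (nat_lit 113)) (XT.lf (nat_lit 0) (nat_lit 543788726492) (nat_lit 76) (nat_lit 631623916903) (nat_lit 76) (nat_lit 190634836453) (nat_lit 3) (nat_lit 4) (nat_lit 4) (nat_lit 5) (nat_lit 4) (nat_lit 4) (nat_lit 327) (nat_lit 281) (nat_lit 112))) (XT.nd (nat_lit 78) (nat_lit 0) (nat_lit 0) (XT.lf (nat_lit 0) (nat_lit 730285819358) (nat_lit 76) (nat_lit 589362822901) (nat_lit 76) (nat_lit 148373669088) (nat_lit 3) (nat_lit 4) (nat_lit 4) (nat_lit 5) (nat_lit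 4) (nat_lit 4) (nat_lit 328) (nat_lit 281) (nat_lit 111)) (XT.lf (nat_lit 0) (nat_lit 931702633839) (nat_lit 76) (nat_lit 543720859807) (nat_lit 76) (nat_lit 102731638064) (nat_lit 3) (nat_lit 4) (nat_lit 4) (nat_lit 5) (nat_lit 4) (nat_lit 4) (nat_lit 329) (nat_lit 281) (nat_lit 110))))))) (XT.nd (nat_lit 34476) (nat_lit 0) (nat_lit 608) (XT.nd (nat_lit 33930) (nat_lit 0) (nat_lit 1596) (XT.nd (nat_lit 234) (nat_lit 0) (nat_lit 0) (XT.nd (nat_lit 78) (nat_lit 76) (nat_lit 0) (XT.lf (nat_lit 0) (nat_lit 1149232751056) (nat_lit 76) (nat_lit 494427556726) (nat_lit 76) (nat_lit 53438272085) (nat_lit 3) (nat_lit 4) (nat_lit 4) (nat_lit 5) (nat_lit 4) (nat_lit 4) (nat_lit 330) (nat_lit 281) (nat_lit 109)) (XT.nd (nat_lit 78) (nat_lit 76) (nat_lit 0) (XT.lf (nat_lit 0) (nat_lit 1384165238372) (nat_lit 76) (nat_lit 441190805196) (nat_lit 76) (nat_lit 201462318) (nat_lit 3) (nat_lit 4) (nat_lit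 4) (nat_lit 5) (nat_lit 4) (nat_lit 4) (nat_lit 331) (nat_lit 281) (nat_lit 108)) (XT.lf (nat_lit 0) (nat_lit 54428177270) (nat_lit 152) (nat_lit 327778788080) (nat_lit 76) (nat_lit 1581975948212) (nat_lit 2) (nat_lit 5) (nat_lit 4) (nat_lit 5) (nat_lit 3) (nat_lit 4) (nat_lit 332) (nat_lit 281) (nat_lit 107)))) (XT.nd (nat_lit 33540) (nat_lit 0) (nat_lit 1900) (XT.lf (nat_lit 0) (nat_lit 113417283068) (nat_lit 152) (nat_lit 205081497950) (nat_lit 76) (nat_lit 1795399155975) (nat_lit 2) (nat_lit 5) (nat_lit 4) (nat_lit 5) (nat_lit 3) (nat_lit 4) (nat_lit 333) (nat_lit 281) (nat_lit 106)) (XT.nd (nat_lit 78) (nat_lit 0) (nat_lit 0) (XT.lf (nat_lit 0) (nat_lit 22288701767) (nat_lit 0) (nat_lit 22288701767) (nat_lit 380) (nat_lit 7853114816) (nat_lit 27) (nat_lit 5) (nat_lit 27) (nat_lit 3) (nat_lit 32) (nat_lit 3) (nat_lit 282) (nat_lit 282) (nat_lit 156)) (XT.lf (nat_lit 0) (nat_lit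 87492107532) (nat_lit 0) (nat_lit 5233735810) (nat_lit 380) (nat_lit 16329191221) (nat_lit 27) (nat_lit 5) (nat_lit 27) (nat_lit 3) (nat_lit 32) (nat_lit 3) (nat_lit 283) (nat_lit 282) (nat_lit 155))))) (XT.nd (nat_lit 234) (nat_lit 304) (nat_lit 0) (XT.nd (nat_lit 78) (nat_lit 0) (nat_lit 0) (XT.lf (nat_lit 76) (nat_lit 20378517049) (nat_lit 0) (nat_lit 77589712465) (nat_lit 456) (nat_lit 15505474992) (nat_lit 28) (nat_lit 5) (nat_lit 27) (nat_lit 5) (nat_lit 33) (nat_lit 5) (nat_lit 284) (nat_lit 282) (nat_lit 154)) (XT.nd (nat_lit 78) (nat_lit 0) (nat_lit 76) (XT.lf (nat_lit 76) (nat_lit 66758194693) (nat_lit 0) (nat_lit 37593429972) (nat_lit 456) (nat_lit 13836519129) (nat_lit 28) (nat_lit 5) (nat_lit 27) (nat_lit 5) (nat_lit 33) (nat_lit 5) (nat_lit 285) (nat_lit 282) (nat_lit 153)) (XT.lf (nat_lit 0) (nat_lit 111380019843) (nat_lit 380) (nat_lit 6566539097) (nat_lit 456) (nat_lit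 5322437822) (nat_lit 28) (nat_lit 5) (nat_lit 33) (nat_lit 5) (nat_lit 34) (nat_lit 5) (nat_lit 286) (nat_lit 282) (nat_lit 152)))) (XT.nd (nat_lit 156) (nat_lit 380) (nat_lit 0) (XT.nd (nat_lit 78) (nat_lit 0) (nat_lit 0) (XT.lf (nat_lit 76) (nat_lit 43063414185) (nat_lit 0) (nat_lit 77919018756) (nat_lit 456) (nat_lit 7612949777) (nat_lit 29) (nat_lit 5) (nat_lit 28) (nat_lit 5) (nat_lit 34) (nat_lit 5) (nat_lit 287) (nat_lit 282) (nat_lit 151)) (XT.lf (nat_lit 76) (nat_lit 97036932617) (nat_lit 0) (nat_lit 34495286420) (nat_lit 456) (nat_lit 2801330240) (nat_lit 29) (nat_lit 5) (nat_lit 28) (nat_lit 5) (nat_lit 34) (nat_lit 5) (nat_lit 288) (nat_lit 282) (nat_lit 150))) (XT.nd (nat_lit 78) (nat_lit 0) (nat_lit 0) (XT.lf (nat_lit 0) (nat_lit 2957677305) (nat_lit 456) (nat_lit 125289960027) (nat_lit 76) (nat_lit 12223944802) (nat_lit 23) (nat_lit 5) (nat_lit 29) (nat_lit 5) (nat_lit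 24) (nat_lit 5) (nat_lit 289) (nat_lit 282) (nat_lit 149)) (XT.lf (nat_lit 0) (nat_lit 10967959169) (nat_lit 456) (nat_lit 74035397154) (nat_lit 76) (nat_lit 61936131760) (nat_lit 23) (nat_lit 5) (nat_lit 29) (nat_lit 5) (nat_lit 24) (nat_lit 5) (nat_lit 290) (nat_lit 282) (nat_lit 148)))))) (XT.nd (nat_lit 546) (nat_lit 380) (nat_lit 0) (XT.nd (nat_lit 234) (nat_lit 380) (nat_lit 0) (XT.nd (nat_lit 78) (nat_lit 228) (nat_lit 0) (XT.lf (nat_lit 0) (nat_lit 19618761812) (nat_lit 456) (nat_lit 18680748093) (nat_lit 76) (nat_lit 115625343774) (nat_lit 23) (nat_lit 5) (nat_lit 29) (nat_lit 5) (nat_lit 24) (nat_lit 5) (nat_lit 291) (nat_lit 282) (nat_lit 147)) (XT.nd (nat_lit 78) (nat_lit 0) (nat_lit 0) (XT.lf (nat_lit 0) (nat_lit 30320917345) (nat_lit 304) (nat_lit 118438465898) (nat_lit 76) (nat_lit 12600924994) (nat_lit 20) (nat_lit 5) (nat_lit 24) (nat_lit 5) (nat_lit 21) (nat_lit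 5) (nat_lit 292) (nat_lit 282) (nat_lit 146)) (XT.lf (nat_lit 0) (nat_lit 43397804705) (nat_lit 304) (nat_lit 59843042104) (nat_lit 76) (nat_lit 66028270198) (nat_lit 20) (nat_lit 5) (nat_lit 24) (nat_lit 5) (nat_lit 21) (nat_lit 5) (nat_lit 293) (nat_lit 282) (nat_lit 145)))) (XT.nd (nat_lit 156) (nat_lit 152) (nat_lit 0) (XT.nd (nat_lit 78) (nat_lit 0) (nat_lit 0) (XT.lf (nat_lit 0) (nat_lit 3620891950) (nat_lit 228) (nat_lit 53986788777) (nat_lit 304) (nat_lit 120196005145) (nat_lit 17) (nat_lit 5) (nat_lit 20) (nat_lit 5) (nat_lit 21) (nat_lit 5) (nat_lit 294) (nat_lit 282) (nat_lit 144)) (XT.lf (nat_lit 0) (nat_lit 74613770253) (nat_lit 304) (nat_lit 111348566516) (nat_lit 76) (nat_lit 925931832) (nat_lit 17) (nat_lit 5) (nat_lit 21) (nat_lit 5) (nat_lit 18) (nat_lit 5) (nat_lit 295) (nat_lit 282) (nat_lit 143))) (XT.nd (nat_lit 78) (nat_lit 152) (nat_lit 0) (XT.lf (nat_lit 0)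 (nat_lit 94382385360) (nat_lit 304) (nat_lit 44890104537) (nat_lit 76) (nat_lit 57314967041) (nat_lit 17) (nat_lit 5) (nat_lit 21) (nat_lit 5) (nat_lit 18) (nat_lit 5) (nat_lit 296) (nat_lit 282) (nat_lit 142)) (XT.lf (nat_lit 0) (nat_lit 28300509614) (nat_lit 152) (nat_lit 88112408152) (nat_lit 228) (nat_lit 90595230239) (nat_lit 15) (nat_lit 5) (nat_lit 17) (nat_lit 5) (nat_lit 18) (nat_lit 5) (nat_lit 297) (nat_lit 282) (nat_lit 141))))) (XT.nd (nat_lit 234) (nat_lit 228) (nat_lit 0) (XT.nd (nat_lit 78) (nat_lit 152) (nat_lit 0) (XT.lf (nat_lit 0) (nat_lit 109899087871) (nat_lit 152) (nat_lit 31533989449) (nat_lit 228) (nat_lit 76731244042) (nat_lit 15) (nat_lit 5) (nat_lit 17) (nat_lit 5) (nat_lit 18) (nat_lit 5) (nat_lit 298) (nat_lit 282) (nat_lit 140)) (XT.nd (nat_lit 78) (nat_lit 152) (nat_lit 0) (XT.lf (nat_lit 0) (nat_lit 169165848632) (nat_lit 228) (nat_lit 32898835665)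 (nat_lit 76) (nat_lit 28091426008) (nat_lit 15) (nat_lit 5) (nat_lit 18) (nat_lit 5) (nat_lit 16) (nat_lit 5) (nat_lit 299) (nat_lit 282) (nat_lit 139)) (XT.lf (nat_lit 0) (nat_lit 50188220572) (nat_lit 152) (nat_lit 150954949651) (nat_lit 228) (nat_lit 41801999372) (nat_lit 13) (nat_lit 5) (nat_lit 15) (nat_lit 5) (nat_lit 16) (nat_lit 5) (nat_lit 300) (nat_lit 282) (nat_lit 138)))) (XT.nd (nat_lit 156) (nat_lit 152) (nat_lit 0) (XT.nd (nat_lit 78) (nat_lit 76) (nat_lit 0) (XT.lf (nat_lit 0) (nat_lit 141793025672) (nat_lit 152) (nat_lit 94785007642) (nat_lit 228) (nat_lit 20107373257) (nat_lit 13) (nat_lit 5) (nat_lit 15) (nat_lit 5) (nat_lit 16) (nat_lit 5) (nat_lit 301) (nat_lit 282) (nat_lit 137)) (XT.lf (nat_lit 0) (nat_lit 3156451790) (nat_lit 228) (nat_lit 30878757047) (nat_lit 76) (nat_lit 237483273761) (nat_lit 12) (nat_lit 5) (nat_lit 15) (nat_lit 5) (nat_lit 13) (nat_lit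 5) (nat_lit 302) (nat_lit 282) (nat_lit 136))) (XT.nd (nat_lit 78) (nat_lit 0) (nat_lit 0) (XT.lf (nat_lit 0) (nat_lit 29508987150) (nat_lit 228) (nat_lit 225730312587) (nat_lit 76) (nat_lit 32072010551) (nat_lit 10) (nat_lit 5) (nat_lit 13) (nat_lit 5) (nat_lit 11) (nat_lit 5) (nat_lit 303) (nat_lit 282) (nat_lit 135)) (XT.lf (nat_lit 0) (nat_lit 59719832045) (nat_lit 228) (nat_lit 142012534717) (nat_lit 76) (nat_lit 102495189929) (nat_lit 10) (nat_lit 5) (nat_lit 13) (nat_lit 5) (nat_lit 11) (nat_lit 5) (nat_lit 304) (nat_lit 282) (nat_lit 134))))))))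
noncomputable def xc115 : XT := (XT.nd (nat_lit 2106) (nat_lit 0) (nat_lit 0) (XT.nd (nat_lit 1014) (nat_lit 152) (nat_lit 0) (XT.nd (nat_lit 468) (nat_lit 152) (nat_lit 0) (XT.nd (nat_lit 234) (nat_lit 76) (nat_lit 0) (XT.nd (nat_lit 78) (nat_lit 152) (nat_lit 0) (XT.lf (nat_lit 0) (nat_lit 92347420473) (nat_lit 228) (nat_lit 51597508020) (nat_lit 76) (nat_lit 178552185191) (nat_lit 10) (nat_lit 5) (nat_lit 13) (nat_lit 5) (nat_lit 11) (nat_lit 5) (nat_lit 305) (nat_lit 282) (nat_lit 133)) (XT.nd (nat_lit 78) (nat_lit 0) (nat_lit 0) (XT.lf (nat_lit 0) (nat_lit 48475501147) (nat_lit 152) (nat_lit 80275436929) (nat_lit 228) (nat_lit 213384040279) (nat_lit 8) (nat_lit 5) (nat_lit 10) (nat_lit 5) (nat_lit 11) (nat_lit 5) (nat_lit 306) (nat_lit 282) (nat_lit 132)) (XT.lf (nat_lit 0) (nat_lit 159488590554) (nat_lit 152) (nat_lit 9988803718) (nat_lit 228) (nat_lit 193753626172) (nat_lit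 8) (nat_lit 5) (nat_lit 10) (nat_lit 5) (nat_lit 11) (nat_lit 5) (nat_lit 307) (nat_lit 282) (nat_lit 131)))) (XT.nd (nat_lit 78) (nat_lit 76) (nat_lit 0) (XT.lf (nat_lit 0) (nat_lit 215047259833) (nat_lit 228) (nat_lit 108217567438) (nat_lit 76) (nat_lit 62623095958) (nat_lit 8) (nat_lit 5) (nat_lit 11) (nat_lit 5) (nat_lit 9) (nat_lit 4) (nat_lit 308) (nat_lit 282) (nat_lit 130)) (XT.nd (nat_lit 78) (nat_lit 76) (nat_lit 0) (XT.lf (nat_lit 0) (nat_lit 264522068716) (nat_lit 228) (nat_lit 5310306905) (nat_lit 76) (nat_lit 140504254991) (nat_lit 8) (nat_lit 5) (nat_lit 11) (nat_lit 5) (nat_lit 9) (nat_lit 4) (nat_lit 309) (nat_lit 282) (nat_lit 129)) (XT.lf (nat_lit 0) (nat_lit 111402192322) (nat_lit 76) (nat_lit 209231807087) (nat_lit 152) (nat_lit 115892904860) (nat_lit 7) (nat_lit 5) (nat_lit 8) (nat_lit 5) (nat_lit 9) (nat_lit 4) (nat_lit 310) (nat_lit 282) (nat_lit 128))))) (XT.nd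 (nat_lit 234) (nat_lit 152) (nat_lit 0) (XT.nd (nat_lit 78) (nat_lit 0) (nat_lit 0) (XT.lf (nat_lit 0) (nat_lit 237753565676) (nat_lit 76) (nat_lit 143626427251) (nat_lit 152) (nat_lit 83420798826) (nat_lit 7) (nat_lit 5) (nat_lit 8) (nat_lit 5) (nat_lit 9) (nat_lit 4) (nat_lit 311) (nat_lit 282) (nat_lit 127)) (XT.nd (nat_lit 78) (nat_lit 0) (nat_lit 0) (XT.lf (nat_lit 0) (nat_lit 374212930682) (nat_lit 76) (nat_lit 72772656693) (nat_lit 152) (nat_lit 48351009700) (nat_lit 7) (nat_lit 5) (nat_lit 8) (nat_lit 5) (nat_lit 9) (nat_lit 4) (nat_lit 312) (nat_lit 282) (nat_lit 126)) (XT.lf (nat_lit 0) (nat_lit 517929729298) (nat_lit 152) (nat_lit 6816510379) (nat_lit 0) (nat_lit 3561819669) (nat_lit 7) (nat_lit 5) (nat_lit 9) (nat_lit 4) (nat_lit 7) (nat_lit 4) (nat_lit 313) (nat_lit 282) (nat_lit 125)))) (XT.nd (nat_lit 156) (nat_lit 0) (nat_lit 0) (XT.nd (nat_lit 78) (nat_lit 0) (nat_lit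 0) (XT.lf (nat_lit 0) (nat_lit 34019430981) (nat_lit 152) (nat_lit 443607708671) (nat_lit 76) (nat_lit 85837594096) (nat_lit 5) (nat_lit 5) (nat_lit 7) (nat_lit 5) (nat_lit 6) (nat_lit 4) (nat_lit 314) (nat_lit 282) (nat_lit 124)) (XT.lf (nat_lit 0) (nat_lit 81599462167) (nat_lit 152) (nat_lit 344641443324) (nat_lit 76) (nat_lit 175156179764) (nat_lit 5) (nat_lit 5) (nat_lit 7) (nat_lit 5) (nat_lit 6) (nat_lit 4) (nat_lit 315) (nat_lit 282) (nat_lit 123))) (XT.nd (nat_lit 78) (nat_lit 0) (nat_lit 0) (XT.lf (nat_lit 0) (nat_lit 132985833134) (nat_lit 152) (nat_lit 237757976454) (nat_lit 76) (nat_lit 271620220693) (nat_lit 5) (nat_lit 5) (nat_lit 7) (nat_lit 5) (nat_lit 6) (nat_lit 4) (nat_lit 316) (nat_lit 282) (nat_lit 122)) (XT.lf (nat_lit 0) (nat_lit 188483055710) (nat_lit 152) (nat_lit 122323924555) (nat_lit 76) (nat_lit 375801355641) (nat_lit 5) (nat_lit 5) (nat_lit 7) (nat_lit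 5) (nat_lit 6) (nat_lit 4) (nat_lit 317) (nat_lit 282) (nat_lit 121)))))) (XT.nd (nat_lit 546) (nat_lit 76) (nat_lit 0) (XT.nd (nat_lit 234) (nat_lit 0) (nat_lit 0) (XT.nd (nat_lit 78) (nat_lit 0) (nat_lit 0) (XT.lf (nat_lit 0) (nat_lit 2468237239) (nat_lit 76) (nat_lit 246011126250) (nat_lit 152) (nat_lit 485908078226) (nat_lit 4) (nat_lit 5) (nat_lit 5) (nat_lit 5) (nat_lit 6) (nat_lit 4) (nat_lit 318) (nat_lit 282) (nat_lit 120)) (XT.nd (nat_lit 78) (nat_lit 0) (nat_lit 0) (XT.lf (nat_lit 0) (nat_lit 144200358637) (nat_lit 76) (nat_lit 172419518338) (nat_lit 152) (nat_lit 469101439226) (nat_lit 4) (nat_lit 5) (nat_lit 5) (nat_lit 5) (nat_lit 6) (nat_lit 4) (nat_lit 319) (nat_lit 282) (nat_lit 119)) (XT.lf (nat_lit 0) (nat_lit 297270972603) (nat_lit 76) (nat_lit 92940610986) (nat_lit 152) (nat_lit 450950321174) (nat_lit 4) (nat_lit 5) (nat_lit 5) (nat_lit 5) (nat_lit 6) (nat_lit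 4) (nat_lit 320) (nat_lit 282) (nat_lit 118)))) (XT.nd (nat_lit 156) (nat_lit 0) (nat_lit 0) (XT.nd (nat_lit 78) (nat_lit 0) (nat_lit 0) (XT.lf (nat_lit 0) (nat_lit 462587164255) (nat_lit 76) (nat_lit 7103418076) (nat_lit 152) (nat_lit 431347161888) (nat_lit 4) (nat_lit 5) (nat_lit 5) (nat_lit 5) (nat_lit 6) (nat_lit 4) (nat_lit 321) (nat_lit 282) (nat_lit 117)) (XT.lf (nat_lit 0) (nat_lit 557586559363) (nat_lit 152) (nat_lit 326633768762) (nat_lit 0) (nat_lit 81318630275) (nat_lit 4) (nat_lit 5) (nat_lit 6) (nat_lit 4) (nat_lit 4) (nat_lit 4) (nat_lit 322) (nat_lit 282) (nat_lit 116))) (XT.nd (nat_lit 78) (nat_lit 0) (nat_lit 0) (XT.lf (nat_lit 0) (nat_lit 652698680299) (nat_lit 152) (nat_lit 206056180978) (nat_lit 0) (nat_lit 176430651401) (nat_lit 4) (nat_lit 5) (nat_lit 6) (nat_lit 4) (nat_lit 4) (nat_lit 4) (nat_lit 323) (nat_lit 282) (nat_lit 115)) (XT.lf (nat_lit 0) (nat_lit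 755419735147) (nat_lit 152) (nat_lit 75832445384) (nat_lit 0) (nat_lit 279151613832) (nat_lit 4) (nat_lit 5) (nat_lit 6) (nat_lit 4) (nat_lit 4) (nat_lit 4) (nat_lit 324) (nat_lit 282) (nat_lit 114))))) (XT.nd (nat_lit 234) (nat_lit 0) (nat_lit 0) (XT.nd (nat_lit 78) (nat_lit 0) (nat_lit 0) (XT.lf (nat_lit 0) (nat_lit 68221868386) (nat_lit 76) (nat_lit 799777310459) (nat_lit 76) (nat_lit 323509103573) (nat_lit 3) (nat_lit 4) (nat_lit 4) (nat_lit 5) (nat_lit 4) (nat_lit 4) (nat_lit 325) (nat_lit 282) (nat_lit 113)) (XT.nd (nat_lit 78) (nat_lit 0) (nat_lit 0) (XT.lf (nat_lit 0) (nat_lit 228113132183) (nat_lit 76) (nat_lit 763545207354) (nat_lit 76) (nat_lit 287276921235) (nat_lit 3) (nat_lit 4) (nat_lit 4) (nat_lit 5) (nat_lit 4) (nat_lit 4) (nat_lit 326) (nat_lit 282) (nat_lit 112)) (XT.lf (nat_lit 0) (nat_lit 400795647604) (nat_lit 76) (nat_lit 724414555901) (nat_lit 76) (nat_lit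 248146196419) (nat_lit 3) (nat_lit 4) (nat_lit 4) (nat_lit 5) (nat_lit 4) (nat_lit 4) (nat_lit 327) (nat_lit 282) (nat_lit 111)))) (XT.nd (nat_lit 156) (nat_lit 0) (nat_lit 0) (XT.nd (nat_lit 78) (nat_lit 0) (nat_lit 0) (XT.lf (nat_lit 0) (nat_lit 587292718444) (nat_lit 76) (nat_lit 682153470758) (nat_lit 76) (nat_lit 205885043347) (nat_lit 3) (nat_lit 4) (nat_lit 4) (nat_lit 5) (nat_lit 4) (nat_lit 4) (nat_lit 328) (nat_lit 282) (nat_lit 110)) (XT.lf (nat_lit 0) (nat_lit 788709512529) (nat_lit 76) (nat_lit 636511515866) (nat_lit 76) (nat_lit 160243025557) (nat_lit 3) (nat_lit 4) (nat_lit 4) (nat_lit 5) (nat_lit 4) (nat_lit 4) (nat_lit 329) (nat_lit 282) (nat_lit 109))) (XT.nd (nat_lit 78) (nat_lit 0) (nat_lit 0) (XT.lf (nat_lit 0) (nat_lit 1006239610862) (nat_lit 76) (nat_lit 587218220381) (nat_lit 76) (nat_lit 110949671833) (nat_lit 3) (nat_lit 4) (nat_lit 4) (nat_lit 5) (nat_lit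 4) (nat_lit 4) (nat_lit 330) (nat_lit 282) (nat_lit 108)) (XT.lf (nat_lit 0) (nat_lit 1241172080693) (nat_lit 76) (nat_lit 533981475884) (nat_lit 76) (nat_lit 57712873412) (nat_lit 3) (nat_lit 4) (nat_lit 4) (nat_lit 5) (nat_lit 4) (nat_lit 4) (nat_lit 331) (nat_lit 282) (nat_lit 107))))))) (XT.nd (nat_lit 34632) (nat_lit 0) (nat_lit 380) (XT.nd (nat_lit 34086) (nat_lit 0) (nat_lit 1292) (XT.nd (nat_lit 33852) (nat_lit 0) (nat_lit 1824) (XT.nd (nat_lit 33696) (nat_lit 0) (nat_lit 1824) (XT.lf (nat_lit 0) (nat_lit 1494899114435) (nat_lit 76) (nat_lit 476485805371) (nat_lit 76) (nat_lit 217152970) (nat_lit 3) (nat_lit 4) (nat_lit 4) (nat_lit 5) (nat_lit 4) (nat_lit 4) (nat_lit 332) (nat_lit 282) (nat_lit 106)) (XT.nd (nat_lit 78) (nat_lit 0) (nat_lit 0) (XT.lf (nat_lit 0) (nat_lit 24074161655) (nat_lit 0) (nat_lit 24074161655) (nat_lit 380) (nat_lit 8476203571) (nat_lit 27) (nat_lit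 5) (nat_lit 27) (nat_lit 3) (nat_lit 32) (nat_lit 3) (nat_lit 283) (nat_lit 283) (nat_lit 154)) (XT.lf (nat_lit 0) (nat_lit 94495853444) (nat_lit 0) (nat_lit 5656811984) (nat_lit 380) (nat_lit 17625970166) (nat_lit 27) (nat_lit 5) (nat_lit 27) (nat_lit 3) (nat_lit 32) (nat_lit 3) (nat_lit 284) (nat_lit 283) (nat_lit 153)))) (XT.nd (nat_lit 78) (nat_lit 0) (nat_lit 0) (XT.lf (nat_lit 76) (nat_lit 22013948952) (nat_lit 0) (nat_lit 83799871447) (nat_lit 456) (nat_lit 16737036010) (nat_lit 28) (nat_lit 5) (nat_lit 27) (nat_lit 5) (nat_lit 33) (nat_lit 5) (nat_lit 285) (nat_lit 283) (nat_lit 152)) (XT.nd (nat_lit 78) (nat_lit 0) (nat_lit 76) (XT.lf (nat_lit 76) (nat_lit 72103619285) (nat_lit 0) (nat_lit 40603665466) (nat_lit 456) (nat_lit 14935221233) (nat_lit 28) (nat_lit 5) (nat_lit 27) (nat_lit 5) (nat_lit 33) (nat_lit 5) (nat_lit 286) (nat_lit 283) (nat_lit 151)) (XT.lf (nat_lit 0)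 (nat_lit 120297332271) (nat_lit 380) (nat_lit 7086746730) (nat_lit 456) (nat_lit 5745804168) (nat_lit 28) (nat_lit 5) (nat_lit 33) (nat_lit 5) (nat_lit 34) (nat_lit 5) (nat_lit 287) (nat_lit 283) (nat_lit 150))))) (XT.nd (nat_lit 234) (nat_lit 228) (nat_lit 0) (XT.nd (nat_lit 78) (nat_lit 380) (nat_lit 0) (XT.lf (nat_lit 76) (nat_lit 46513473309) (nat_lit 0) (nat_lit 84154073107) (nat_lit 456) (nat_lit 8214870905) (nat_lit 29) (nat_lit 5) (nat_lit 28) (nat_lit 5) (nat_lit 34) (nat_lit 5) (nat_lit 288) (nat_lit 283) (nat_lit 149)) (XT.nd (nat_lit 78) (nat_lit 380) (nat_lit 0) (XT.lf (nat_lit 76) (nat_lit 104804503883) (nat_lit 0) (nat_lit 37256328641) (nat_lit 456) (nat_lit 3018848832) (nat_lit 29) (nat_lit 5) (nat_lit 28) (nat_lit 5) (nat_lit 34) (nat_lit 5) (nat_lit 289) (nat_lit 283) (nat_lit 148)) (XT.lf (nat_lit 0) (nat_lit 3200178889) (nat_lit 456) (nat_lit 135307716721) (nat_lit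 76) (nat_lit 13200882957) (nat_lit 23) (nat_lit 5) (nat_lit 29) (nat_lit 5) (nat_lit 24) (nat_lit 5) (nat_lit 290) (nat_lit 283) (nat_lit 147)))) (XT.nd (nat_lit 156) (nat_lit 228) (nat_lit 0) (XT.nd (nat_lit 78) (nat_lit 0) (nat_lit 0) (XT.lf (nat_lit 0) (nat_lit 11850847198) (nat_lit 456) (nat_lit 79953191789) (nat_lit 76) (nat_lit 66890117274) (nat_lit 23) (nat_lit 5) (nat_lit 29) (nat_lit 5) (nat_lit 24) (nat_lit 5) (nat_lit 291) (nat_lit 283) (nat_lit 146)) (XT.lf (nat_lit 0) (nat_lit 21193310253) (nat_lit 456) (nat_lit 20170543924) (nat_lit 76) (nat_lit 124874533289) (nat_lit 23) (nat_lit 5) (nat_lit 29) (nat_lit 5) (nat_lit 24) (nat_lit 5) (nat_lit 292) (nat_lit 283) (nat_lit 145))) (XT.nd (nat_lit 78) (nat_lit 0) (nat_lit 0) (XT.lf (nat_lit 0) (nat_lit 32751367970) (nat_lit 304) (nat_lit 127908561943) (nat_lit 76) (nat_lit 13608773852) (nat_lit 20) (nat_lit 5) (nat_lit 24)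 (nat_lit 5) (nat_lit 21) (nat_lit 5) (nat_lit 293) (nat_lit 283) (nat_lit 144)) (XT.lf (nat_lit 0) (nat_lit 46874052450) (nat_lit 304) (nat_lit 64625873226) (nat_lit 76) (nat_lit 71310323349) (nat_lit 20) (nat_lit 5) (nat_lit 24) (nat_lit 5) (nat_lit 21) (nat_lit 5) (nat_lit 294) (nat_lit 283) (nat_lit 143)))))) (XT.nd (nat_lit 546) (nat_lit 380) (nat_lit 0) (XT.nd (nat_lit 234) (nat_lit 304) (nat_lit 0) (XT.nd (nat_lit 78) (nat_lit 0) (nat_lit 0) (XT.lf (nat_lit 0) (nat_lit 3915058787) (nat_lit 228) (nat_lit 58305440225) (nat_lit 304) (nat_lit 129807105170) (nat_lit 17) (nat_lit 5) (nat_lit 20) (nat_lit 5) (nat_lit 21) (nat_lit 5) (nat_lit 295) (nat_lit 283) (nat_lit 142)) (XT.nd (nat_lit 78) (nat_lit 0) (nat_lit 0) (XT.lf (nat_lit 0) (nat_lit 80586770801) (nat_lit 304) (nat_lit 120251947183) (nat_lit 76) (nat_lit 1000262919) (nat_lit 17) (nat_lit 5) (nat_lit 21) (nat_lit 5) (nat_lit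 18) (nat_lit 5) (nat_lit 296) (nat_lit 283) (nat_lit 141)) (XT.lf (nat_lit 0) (nat_lit 101936586307) (nat_lit 304) (nat_lit 48477141924) (nat_lit 76) (nat_lit 61900401941) (nat_lit 17) (nat_lit 5) (nat_lit 21) (nat_lit 5) (nat_lit 18) (nat_lit 5) (nat_lit 297) (nat_lit 283) (nat_lit 140)))) (XT.nd (nat_lit 156) (nat_lit 152) (nat_lit 0) (XT.nd (nat_lit 78) (nat_lit 0) (nat_lit 0) (XT.lf (nat_lit 0) (nat_lit 30568615765) (nat_lit 152) (nat_lit 95160775897) (nat_lit 228) (nat_lit 97839100991) (nat_lit 15) (nat_lit 5) (nat_lit 17) (nat_lit 5) (nat_lit 18) (nat_lit 5) (nat_lit 298) (nat_lit 283) (nat_lit 139)) (XT.lf (nat_lit 0) (nat_lit 118694779143) (nat_lit 152) (nat_lit 34056129987) (nat_lit 228) (nat_lit 82866273503) (nat_lit 15) (nat_lit 5) (nat_lit 17) (nat_lit 5) (nat_lit 18) (nat_lit 5) (nat_lit 299) (nat_lit 283) (nat_lit 138))) (XT.nd (nat_lit 78) (nat_lit 152) (nat_lit 0)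 (XT.lf (nat_lit 0) (nat_lit 182702079060) (nat_lit 228) (nat_lit 35527006626) (nat_lit 76) (nat_lit 30339249045) (nat_lit 15) (nat_lit 5) (nat_lit 18) (nat_lit 5) (nat_lit 16) (nat_lit 5) (nat_lit 300) (nat_lit 283) (nat_lit 137)) (XT.lf (nat_lit 0) (nat_lit 54206919531) (nat_lit 152) (nat_lit 163030534974) (nat_lit 228) (nat_lit 45143076838) (nat_lit 13) (nat_lit 5) (nat_lit 15) (nat_lit 5) (nat_lit 16) (nat_lit 5) (nat_lit 301) (nat_lit 283) (nat_lit 136))))) (XT.nd (nat_lit 234) (nat_lit 152) (nat_lit 0) (XT.nd (nat_lit 78) (nat_lit 228) (nat_lit 0) (XT.lf (nat_lit 0) (nat_lit 153139839312) (nat_lit 152) (nat_lit 102367057652) (nat_lit 228) (nat_lit 21713108967) (nat_lit 13) (nat_lit 5) (nat_lit 15) (nat_lit 5) (nat_lit 16) (nat_lit 5) (nat_lit 302) (nat_lit 283) (nat_lit 135)) (XT.nd (nat_lit 78) (nat_lit 152) (nat_lit 0) (XT.lf (nat_lit 0) (nat_lit 3411478465) (nat_lit 228) (nat_lit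 33345783435) (nat_lit 76) (nat_lit 256482478327) (nat_lit 12) (nat_lit 5) (nat_lit 15) (nat_lit 5) (nat_lit 13) (nat_lit 5) (nat_lit 303) (nat_lit 283) (nat_lit 134)) (XT.lf (nat_lit 0) (nat_lit 31872126439) (nat_lit 228) (nat_lit 243785354556) (nat_lit 76) (nat_lit 34638521846) (nat_lit 10) (nat_lit 5) (nat_lit 13) (nat_lit 5) (nat_lit 11) (nat_lit 5) (nat_lit 304) (nat_lit 283) (nat_lit 133)))) (XT.nd (nat_lit 156) (nat_lit 152) (nat_lit 0) (XT.nd (nat_lit 78) (nat_lit 0) (nat_lit 0) (XT.lf (nat_lit 0) (nat_lit 64499659642) (nat_lit 228) (nat_lit 153370405052) (nat_lit 76) (nat_lit 110695499985) (nat_lit 10) (nat_lit 5) (nat_lit 13) (nat_lit 5) (nat_lit 11) (nat_lit 5) (nat_lit 305) (nat_lit 283) (nat_lit 132)) (XT.lf (nat_lit 0) (nat_lit 99737289143) (nat_lit 228) (nat_lit 55722408252) (nat_lit 76) (nat_lit 192837003397) (nat_lit 10) (nat_lit 5) (nat_lit 13) (nat_lit 5) (nat_lit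 11) (nat_lit 5) (nat_lit 306) (nat_lit 283) (nat_lit 131))) (XT.nd (nat_lit 78) (nat_lit 0) (nat_lit 0) (XT.lf (nat_lit 0) (nat_lit 52356368220) (nat_lit 152) (nat_lit 86696634216) (nat_lit 228) (nat_lit 230452600241) (nat_lit 8) (nat_lit 5) (nat_lit 10) (nat_lit 5) (nat_lit 11) (nat_lit 5) (nat_lit 307) (nat_lit 283) (nat_lit 130)) (XT.lf (nat_lit 0) (nat_lit 172250295374) (nat_lit 152) (nat_lit 10787132398) (nat_lit 228) (nat_lit 209251913246) (nat_lit 8) (nat_lit 5) (nat_lit 10) (nat_lit 5) (nat_lit 11) (nat_lit 5) (nat_lit 308) (nat_lit 283) (nat_lit 129))))))))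
noncomputable def xc116 : XT := (XT.nd (nat_lit 35724) (nat_lit 0) (nat_lit 304) (XT.nd (nat_lit 1014) (nat_lit 76) (nat_lit 0) (XT.nd (nat_lit 468) (nat_lit 228) (nat_lit 0) (XT.nd (nat_lit 234) (nat_lit 0) (nat_lit 0) (XT.nd (nat_lit 78) (nat_lit 76) (nat_lit 0) (XT.lf (nat_lit 0) (nat_lit 232252763408) (nat_lit 228) (nat_lit 116872417293) (nat_lit 76) (nat_lit 67633625874) (nat_lit 8) (nat_lit 5) (nat_lit 11) (nat_lit 5) (nat_lit 9) (nat_lit 4) (nat_lit 309) (nat_lit 283) (nat_lit 128)) (XT.nd (nat_lit 78) (nat_lit 76) (nat_lit 0) (XT.lf (nat_lit 0) (nat_lit 285685429388) (nat_lit 228) (nat_lit 5732765217) (nat_lit 76) (nat_lit 151745227094) (nat_lit 8) (nat_lit 5) (nat_lit 11) (nat_lit 5) (nat_lit 9) (nat_lit 4) (nat_lit 310) (nat_lit 283) (nat_lit 127)) (XT.lf (nat_lit 0) (nat_lit 120316674044) (nat_lit 76) (nat_lit 225969577799) (nat_lit 152) (nat_lit 125162671291) (nat_lit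 7) (nat_lit 5) (nat_lit 8) (nat_lit 5) (nat_lit 9) (nat_lit 4) (nat_lit 311) (nat_lit 283) (nat_lit 126)))) (XT.nd (nat_lit 78) (nat_lit 0) (nat_lit 0) (XT.lf (nat_lit 0) (nat_lit 256775986426) (nat_lit 76) (nat_lit 155115824898) (nat_lit 152) (nat_lit 90092920178) (nat_lit 7) (nat_lit 5) (nat_lit 8) (nat_lit 5) (nat_lit 9) (nat_lit 4) (nat_lit 312) (nat_lit 283) (nat_lit 125)) (XT.nd (nat_lit 78) (nat_lit 0) (nat_lit 0) (XT.lf (nat_lit 0) (nat_lit 404151942448) (nat_lit 76) (nat_lit 78593805773) (nat_lit 152) (nat_lit 52217662185) (nat_lit 7) (nat_lit 5) (nat_lit 8) (nat_lit 5) (nat_lit 9) (nat_lit 4) (nat_lit 313) (nat_lit 283) (nat_lit 124)) (XT.lf (nat_lit 0) (nat_lit 559365338949) (nat_lit 152) (nat_lit 7359909181) (nat_lit 0) (nat_lit 3847348824) (nat_lit 7) (nat_lit 5) (nat_lit 9) (nat_lit 4) (nat_lit 7) (nat_lit 4) (nat_lit 314) (nat_lit 283) (nat_lit 123))))) (XT.nd (nat_lit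 234) (nat_lit 76) (nat_lit 0) (XT.nd (nat_lit 78) (nat_lit 0) (nat_lit 0) (XT.lf (nat_lit 0) (nat_lit 36742208992) (nat_lit 152) (nat_lit 479094380162) (nat_lit 76) (nat_lit 92705218006) (nat_lit 5) (nat_lit 5) (nat_lit 7) (nat_lit 5) (nat_lit 6) (nat_lit 4) (nat_lit 315) (nat_lit 283) (nat_lit 122)) (XT.nd (nat_lit 78) (nat_lit 0) (nat_lit 0) (XT.lf (nat_lit 0) (nat_lit 88128552042) (nat_lit 152) (nat_lit 372210957676) (nat_lit 76) (nat_lit 189169244870) (nat_lit 5) (nat_lit 5) (nat_lit 7) (nat_lit 5) (nat_lit 6) (nat_lit 4) (nat_lit 316) (nat_lit 283) (nat_lit 121)) (XT.lf (nat_lit 0) (nat_lit 143625748767) (nat_lit 152) (nat_lit 256776946873) (nat_lit 76) (nat_lit 293350366797) (nat_lit 5) (nat_lit 5) (nat_lit 7) (nat_lit 5) (nat_lit 6) (nat_lit 4) (nat_lit 317) (nat_lit 283) (nat_lit 120)))) (XT.nd (nat_lit 156) (nat_lit 0) (nat_lit 0) (XT.nd (nat_lit 78) (nat_lit 76) (nat_lit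 0) (XT.lf (nat_lit 0) (nat_lit 203562671447) (nat_lit 152) (nat_lit 132108294354) (nat_lit 76) (nat_lit 405865953397) (nat_lit 5) (nat_lit 5) (nat_lit 7) (nat_lit 5) (nat_lit 6) (nat_lit 4) (nat_lit 318) (nat_lit 283) (nat_lit 119)) (XT.lf (nat_lit 0) (nat_lit 2667201290) (nat_lit 76) (nat_lit 265691446808) (nat_lit 152) (nat_lit 524779708668) (nat_lit 4) (nat_lit 5) (nat_lit 5) (nat_lit 5) (nat_lit 6) (nat_lit 4) (nat_lit 319) (nat_lit 283) (nat_lit 118))) (XT.nd (nat_lit 78) (nat_lit 0) (nat_lit 0) (XT.lf (nat_lit 0) (nat_lit 155737780914) (nat_lit 76) (nat_lit 186212552452) (nat_lit 152) (nat_lit 506628613794) (nat_lit 4) (nat_lit 5) (nat_lit 5) (nat_lit 5) (nat_lit 6) (nat_lit 4) (nat_lit 320) (nat_lit 283) (nat_lit 117)) (XT.lf (nat_lit 0) (nat_lit 321053940768) (nat_lit 76) (nat_lit 100375371575) (nat_lit 152) (nat_lit 487025475970) (nat_lit 4) (nat_lit 5) (nat_lit 5) (nat_lit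 5) (nat_lit 6) (nat_lit 4) (nat_lit 321) (nat_lit 283) (nat_lit 116)))))) (XT.nd (nat_lit 468) (nat_lit 0) (nat_lit 0) (XT.nd (nat_lit 234) (nat_lit 76) (nat_lit 0) (XT.nd (nat_lit 78) (nat_lit 0) (nat_lit 0) (XT.lf (nat_lit 0) (nat_lit 499595332170) (nat_lit 76) (nat_lit 7671239402) (nat_lit 152) (nat_lit 465854128452) (nat_lit 4) (nat_lit 5) (nat_lit 5) (nat_lit 5) (nat_lit 6) (nat_lit 4) (nat_lit 322) (nat_lit 283) (nat_lit 115)) (XT.nd (nat_lit 78) (nat_lit 0) (nat_lit 0) (XT.lf (nat_lit 0) (nat_lit 602194181823) (nat_lit 152) (nat_lit 352763315046) (nat_lit 0) (nat_lit 87824518386) (nat_lit 4) (nat_lit 5) (nat_lit 6) (nat_lit 4) (nat_lit 4) (nat_lit 4) (nat_lit 323) (nat_lit 283) (nat_lit 114)) (XT.lf (nat_lit 0) (nat_lit 704915220752) (nat_lit 152) (nat_lit 222539605812) (nat_lit 0) (nat_lit 190545471743) (nat_lit 4) (nat_lit 5) (nat_lit 6) (nat_lit 4) (nat_lit 4) (nat_lit 4)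 (nat_lit 324) (nat_lit 283) (nat_lit 113)))) (XT.nd (nat_lit 78) (nat_lit 76) (nat_lit 0) (XT.lf (nat_lit 0) (nat_lit 815853912134) (nat_lit 152) (nat_lit 81898050603) (nat_lit 0) (nat_lit 301484083893) (nat_lit 4) (nat_lit 5) (nat_lit 6) (nat_lit 4) (nat_lit 4) (nat_lit 4) (nat_lit 325) (nat_lit 283) (nat_lit 112)) (XT.nd (nat_lit 78) (nat_lit 0) (nat_lit 0) (XT.lf (nat_lit 0) (nat_lit 73680583195) (nat_lit 76) (nat_lit 863759107039) (nat_lit 76) (nat_lit 349389205435) (nat_lit 3) (nat_lit 4) (nat_lit 4) (nat_lit 5) (nat_lit 4) (nat_lit 4) (nat_lit 326) (nat_lit 283) (nat_lit 111)) (XT.lf (nat_lit 0) (nat_lit 246363076590) (nat_lit 76) (nat_lit 824628464445) (nat_lit 76) (nat_lit 310258494912) (nat_lit 3) (nat_lit 4) (nat_lit 4) (nat_lit 5) (nat_lit 4) (nat_lit 4) (nat_lit 327) (nat_lit 283) (nat_lit 110))))) (XT.nd (nat_lit 234) (nat_lit 0) (nat_lit 0) (XT.nd (nat_lit 78) (nat_lit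 0) (nat_lit 0) (XT.lf (nat_lit 0) (nat_lit 432860127034) (nat_lit 76) (nat_lit 782367387506) (nat_lit 76) (nat_lit 267997355074) (nat_lit 3) (nat_lit 4) (nat_lit 4) (nat_lit 5) (nat_lit 4) (nat_lit 4) (nat_lit 328) (nat_lit 283) (nat_lit 109)) (XT.nd (nat_lit 78) (nat_lit 0) (nat_lit 0) (XT.lf (nat_lit 0) (nat_lit 634276902236) (nat_lit 76) (nat_lit 736725440209) (nat_lit 76) (nat_lit 222355349539) (nat_lit 3) (nat_lit 4) (nat_lit 4) (nat_lit 5) (nat_lit 4) (nat_lit 4) (nat_lit 329) (nat_lit 283) (nat_lit 108)) (XT.lf (nat_lit 0) (nat_lit 851806983084) (nat_lit 76) (nat_lit 687432151755) (nat_lit 76) (nat_lit 173062007162) (nat_lit 3) (nat_lit 4) (nat_lit 4) (nat_lit 5) (nat_lit 4) (nat_lit 4) (nat_lit 330) (nat_lit 283) (nat_lit 107)))) (XT.nd (nat_lit 33852) (nat_lit 0) (nat_lit 1824) (XT.nd (nat_lit 78) (nat_lit 0) (nat_lit 0) (XT.lf (nat_lit 0) (nat_lit 1086739436724) (nat_lit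 76) (nat_lit 634195413770) (nat_lit 76) (nat_lit 119825219246) (nat_lit 3) (nat_lit 4) (nat_lit 4) (nat_lit 5) (nat_lit 4) (nat_lit 4) (nat_lit 331) (nat_lit 283) (nat_lit 106)) (XT.lf (nat_lit 0) (nat_lit 1340466455475) (nat_lit 76) (nat_lit 576699749287) (nat_lit 76) (nat_lit 62329508532) (nat_lit 3) (nat_lit 4) (nat_lit 4) (nat_lit 5) (nat_lit 4) (nat_lit 4) (nat_lit 332) (nat_lit 283) (nat_lit 105))) (XT.nd (nat_lit 78) (nat_lit 0) (nat_lit 0) (XT.lf (nat_lit 0) (nat_lit 26002121119) (nat_lit 0) (nat_lit 26002121119) (nat_lit 380) (nat_lit 9149875619) (nat_lit 27) (nat_lit 5) (nat_lit 27) (nat_lit 3) (nat_lit 32) (nat_lit 3) (nat_lit 284) (nat_lit 284) (nat_lit 152)) (XT.lf (nat_lit 0) (nat_lit 102059274556) (nat_lit 0) (nat_lit 6113109780) (nat_lit 380) (nat_lit 19027854747) (nat_lit 27) (nat_lit 5) (nat_lit 27) (nat_lit 3) (nat_lit 32) (nat_lit 3) (nat_lit 285) (nat_lit 284)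 (nat_lit 151))))))) (XT.nd (nat_lit 1014) (nat_lit 760) (nat_lit 0) (XT.nd (nat_lit 468) (nat_lit 456) (nat_lit 0) (XT.nd (nat_lit 234) (nat_lit 304) (nat_lit 0) (XT.nd (nat_lit 78) (nat_lit 0) (nat_lit 0) (XT.lf (nat_lit 76) (nat_lit 23779480624) (nat_lit 0) (nat_lit 90506417733) (nat_lit 456) (nat_lit 18068388311) (nat_lit 28) (nat_lit 5) (nat_lit 27) (nat_lit 5) (nat_lit 33) (nat_lit 5) (nat_lit 286) (nat_lit 284) (nat_lit 150)) (XT.nd (nat_lit 78) (nat_lit 0) (nat_lit 76) (XT.lf (nat_lit 76) (nat_lit 77875997491) (nat_lit 0) (nat_lit 43854325899) (nat_lit 456) (nat_lit 16122992097) (nat_lit 28) (nat_lit 5) (nat_lit 27) (nat_lit 5) (nat_lit 33) (nat_lit 5) (nat_lit 287) (nat_lit 284) (nat_lit 149)) (XT.lf (nat_lit 0) (nat_lit 129927043786) (nat_lit 380) (nat_lit 7649300756) (nat_lit 456) (nat_lit 6203386299) (nat_lit 28) (nat_lit 5) (nat_lit 33) (nat_lit 5) (nat_lit 34) (nat_lit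 5) (nat_lit 288) (nat_lit 284) (nat_lit 148)))) (XT.nd (nat_lit 78) (nat_lit 380) (nat_lit 0) (XT.lf (nat_lit 76) (nat_lit 50238825856) (nat_lit 0) (nat_lit 90887713129) (nat_lit 456) (nat_lit 8865960737) (nat_lit 29) (nat_lit 5) (nat_lit 28) (nat_lit 5) (nat_lit 34) (nat_lit 5) (nat_lit 289) (nat_lit 284) (nat_lit 147)) (XT.nd (nat_lit 78) (nat_lit 380) (nat_lit 0) (XT.lf (nat_lit 76) (nat_lit 113192822233) (nat_lit 0) (nat_lit 40238051759) (nat_lit 456) (nat_lit 3254708737) (nat_lit 29) (nat_lit 5) (nat_lit 28) (nat_lit 5) (nat_lit 34) (nat_lit 5) (nat_lit 290) (nat_lit 284) (nat_lit 146)) (XT.lf (nat_lit 0) (nat_lit 3461240696) (nat_lit 456) (nat_lit 146127670042) (nat_lit 76) (nat_lit 14256115607) (nat_lit 23) (nat_lit 5) (nat_lit 29) (nat_lit 5) (nat_lit 24) (nat_lit 5) (nat_lit 291) (nat_lit 284) (nat_lit 145))))) (XT.nd (nat_lit 234) (nat_lit 228) (nat_lit 0) (XT.nd (nat_lit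 78) (nat_lit 228) (nat_lit 0) (XT.lf (nat_lit 0) (nat_lit 12803588581) (nat_lit 456) (nat_lit 86345128598) (nat_lit 76) (nat_lit 72240550742) (nat_lit 23) (nat_lit 5) (nat_lit 29) (nat_lit 5) (nat_lit 24) (nat_lit 5) (nat_lit 292) (nat_lit 284) (nat_lit 144)) (XT.nd (nat_lit 78) (nat_lit 228) (nat_lit 0) (XT.lf (nat_lit 0) (nat_lit 22893102488) (nat_lit 456) (nat_lit 21780188796) (nat_lit 76) (nat_lit 134863777513) (nat_lit 23) (nat_lit 5) (nat_lit 29) (nat_lit 5) (nat_lit 24) (nat_lit 5) (nat_lit 293) (nat_lit 284) (nat_lit 143)) (XT.lf (nat_lit 0) (nat_lit 35375573119) (nat_lit 304) (nat_lit 138136976300) (nat_lit 76) (nat_lit 14697282737) (nat_lit 20) (nat_lit 5) (nat_lit 24) (nat_lit 5) (nat_lit 21) (nat_lit 5) (nat_lit 294) (nat_lit 284) (nat_lit 142)))) (XT.nd (nat_lit 156) (nat_lit 0) (nat_lit 0) (XT.nd (nat_lit 78) (nat_lit 228) (nat_lit 0) (XT.lf (nat_lit 0) (nat_lit 50627768971)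 (nat_lit 304) (nat_lit 69791988826) (nat_lit 76) (nat_lit 77014970492) (nat_lit 20) (nat_lit 5) (nat_lit 24) (nat_lit 5) (nat_lit 21) (nat_lit 5) (nat_lit 295) (nat_lit 284) (nat_lit 141)) (XT.lf (nat_lit 0) (nat_lit 4232117641) (nat_lit 228) (nat_lit 62969625398) (nat_lit 304) (nat_lit 140187746639) (nat_lit 17) (nat_lit 5) (nat_lit 20) (nat_lit 5) (nat_lit 21) (nat_lit 5) (nat_lit 296) (nat_lit 284) (nat_lit 140))) (XT.nd (nat_lit 78) (nat_lit 0) (nat_lit 0) (XT.lf (nat_lit 0) (nat_lit 87037055167) (nat_lit 304) (nat_lit 129868240943) (nat_lit 76) (nat_lit 1080503895) (nat_lit 17) (nat_lit 5) (nat_lit 21) (nat_lit 5) (nat_lit 18) (nat_lit 5) (nat_lit 297) (nat_lit 284) (nat_lit 139)) (XT.lf (nat_lit 0) (nat_lit 110094608306) (nat_lit 304) (nat_lit 52351737338) (nat_lit 76) (nat_lit 66852637747) (nat_lit 17) (nat_lit 5) (nat_lit 21) (nat_lit 5) (nat_lit 18) (nat_lit 5) (nat_lit 298)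 (nat_lit 284) (nat_lit 138)))))) (XT.nd (nat_lit 546) (nat_lit 228) (nat_lit 0) (XT.nd (nat_lit 234) (nat_lit 380) (nat_lit 0) (XT.nd (nat_lit 78) (nat_lit 0) (nat_lit 0) (XT.lf (nat_lit 0) (nat_lit 33017590436) (nat_lit 152) (nat_lit 102773102211) (nat_lit 228) (nat_lit 105663016050) (nat_lit 15) (nat_lit 5) (nat_lit 17) (nat_lit 5) (nat_lit 18) (nat_lit 5) (nat_lit 299) (nat_lit 284) (nat_lit 137)) (XT.nd (nat_lit 78) (nat_lit 0) (nat_lit 0) (XT.lf (nat_lit 0) (nat_lit 128193588706) (nat_lit 152) (nat_lit 36780124314) (nat_lit 228) (nat_lit 89492600365) (nat_lit 15) (nat_lit 5) (nat_lit 17) (nat_lit 5) (nat_lit 18) (nat_lit 5) (nat_lit 300) (nat_lit 284) (nat_lit 136)) (XT.lf (nat_lit 0) (nat_lit 197320785283) (nat_lit 228) (nat_lit 38365964230) (nat_lit 76) (nat_lit 32766825317) (nat_lit 15) (nat_lit 5) (nat_lit 18) (nat_lit 5) (nat_lit 16) (nat_lit 5) (nat_lit 301) (nat_lit 284)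 (nat_lit 135)))) (XT.nd (nat_lit 156) (nat_lit 228) (nat_lit 0) (XT.nd (nat_lit 78) (nat_lit 0) (nat_lit 0) (XT.lf (nat_lit 0) (nat_lit 58546594933) (nat_lit 152) (nat_lit 176072282771) (nat_lit 228) (nat_lit 48751880252) (nat_lit 13) (nat_lit 5) (nat_lit 15) (nat_lit 5) (nat_lit 16) (nat_lit 5) (nat_lit 302) (nat_lit 284) (nat_lit 134)) (XT.lf (nat_lit 0) (nat_lit 165393917049) (nat_lit 152) (nat_lit 110555778744) (nat_lit 228) (nat_lit 23447710709) (nat_lit 13) (nat_lit 5) (nat_lit 15) (nat_lit 5) (nat_lit 16) (nat_lit 5) (nat_lit 303) (nat_lit 284) (nat_lit 133))) (XT.nd (nat_lit 78) (nat_lit 152) (nat_lit 0) (XT.lf (nat_lit 0) (nat_lit 3686549120) (nat_lit 228) (nat_lit 36010639031) (nat_lit 76) (nat_lit 277001541840) (nat_lit 12) (nat_lit 5) (nat_lit 15) (nat_lit 5) (nat_lit 13) (nat_lit 5) (nat_lit 304) (nat_lit 284) (nat_lit 132)) (XT.lf (nat_lit 0) (nat_lit 34423971585) (nat_lit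 228) (nat_lit 263285282511) (nat_lit 76) (nat_lit 37410246984) (nat_lit 10) (nat_lit 5) (nat_lit 13) (nat_lit 5) (nat_lit 11) (nat_lit 5) (nat_lit 305) (nat_lit 284) (nat_lit 131))))) (XT.nd (nat_lit 234) (nat_lit 76) (nat_lit 0) (XT.nd (nat_lit 78) (nat_lit 152) (nat_lit 0) (XT.lf (nat_lit 0) (nat_lit 69661553739) (nat_lit 228) (nat_lit 165637351891) (nat_lit 76) (nat_lit 119551735716) (nat_lit 10) (nat_lit 5) (nat_lit 13) (nat_lit 5) (nat_lit 11) (nat_lit 5) (nat_lit 306) (nat_lit 284) (nat_lit 130)) (XT.nd (nat_lit 78) (nat_lit 152) (nat_lit 0) (XT.lf (nat_lit 0) (nat_lit 107718051279) (nat_lit 228) (nat_lit 60177714279) (nat_lit 76) (nat_lit 208264515272) (nat_lit 10) (nat_lit 5) (nat_lit 13) (nat_lit 5) (nat_lit 11) (nat_lit 5) (nat_lit 307) (nat_lit 284) (nat_lit 129)) (XT.lf (nat_lit 0) (nat_lit 56547301358) (nat_lit 152) (nat_lit 93631646789) (nat_lit 228) (nat_lit 248886953613)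 (nat_lit 8) (nat_lit 5) (nat_lit 10) (nat_lit 5) (nat_lit 11) (nat_lit 5) (nat_lit 308) (nat_lit 284) (nat_lit 128)))) (XT.nd (nat_lit 156) (nat_lit 76) (nat_lit 0) (XT.nd (nat_lit 78) (nat_lit 0) (nat_lit 0) (XT.lf (nat_lit 0) (nat_lit 186032563153) (nat_lit 152) (nat_lit 11649438022) (nat_lit 228) (nat_lit 225990349040) (nat_lit 8) (nat_lit 5) (nat_lit 10) (nat_lit 5) (nat_lit 11) (nat_lit 5) (nat_lit 309) (nat_lit 284) (nat_lit 127)) (XT.lf (nat_lit 0) (nat_lit 250834461493) (nat_lit 228) (nat_lit 126220019713) (nat_lit 76) (nat_lit 73044900854) (nat_lit 8) (nat_lit 5) (nat_lit 11) (nat_lit 5) (nat_lit 9) (nat_lit 4) (nat_lit 310) (nat_lit 284) (nat_lit 126))) (XT.nd (nat_lit 78) (nat_lit 76) (nat_lit 0) (XT.lf (nat_lit 0) (nat_lit 308541631344) (nat_lit 228) (nat_lit 6189357764) (nat_lit 76) (nat_lit 163885386845) (nat_lit 8) (nat_lit 5) (nat_lit 11) (nat_lit 5) (nat_lit 9) (nat_lit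 4) (nat_lit 311) (nat_lit 284) (nat_lit 125)) (XT.lf (nat_lit 0) (nat_lit 129943985279) (nat_lit 76) (nat_lit 244046480567) (nat_lit 152) (nat_lit 135174256703) (nat_lit 7) (nat_lit 5) (nat_lit 8) (nat_lit 5) (nat_lit 9) (nat_lit 4) (nat_lit 312) (nat_lit 284) (nat_lit 124))))))))
noncomputable def xc117 : XT := (XT.nd (nat_lit 35958) (nat_lit 0) (nat_lit 152) (XT.nd (nat_lit 1014) (nat_lit 76) (nat_lit 0) (XT.nd (nat_lit 468) (nat_lit 76) (nat_lit 0) (XT.nd (nat_lit 234) (nat_lit 152) (nat_lit 0) (XT.nd (nat_lit 78) (nat_lit 0) (nat_lit 0) (XT.lf (nat_lit 0) (nat_lit 277319896184) (nat_lit 76) (nat_lit 167524476579) (nat_lit 152) (nat_lit 97299031300) (nat_lit 7) (nat_lit 5) (nat_lit 8) (nat_lit 5) (nat_lit 9) (nat_lit 4) (nat_lit 313) (nat_lit 284) (nat_lit 123)) (XT.nd (nat_lit 78) (nat_lit 0) (nat_lit 0) (XT.lf (nat_lit 0) (nat_lit 436485793069) (nat_lit 76) (nat_lit 84880741428)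 (nat_lit 152) (nat_lit 56393850631) (nat_lit 7) (nat_lit 5) (nat_lit 8) (nat_lit 5) (nat_lit 9) (nat_lit 4) (nat_lit 314) (nat_lit 284) (nat_lit 122)) (XT.lf (nat_lit 0) (nat_lit 604115621712) (nat_lit 152) (nat_lit 7947054086) (nat_lit 0) (nat_lit 4155637056) (nat_lit 7) (nat_lit 5) (nat_lit 9) (nat_lit 4) (nat_lit 7) (nat_lit 4) (nat_lit 315) (nat_lit 284) (nat_lit 121)))) (XT.nd (nat_lit 78) (nat_lit 0) (nat_lit 0) (XT.lf (nat_lit 0) (nat_lit 39682634694) (nat_lit 152) (nat_lit 517420262877) (nat_lit 76) (nat_lit 100122163896) (nat_lit 5) (nat_lit 5) (nat_lit 7) (nat_lit 5) (nat_lit 6) (nat_lit 4) (nat_lit 316) (nat_lit 284) (nat_lit 120)) (XT.nd (nat_lit 78) (nat_lit 0) (nat_lit 0) (XT.lf (nat_lit 0) (nat_lit 95179807485) (nat_lit 152) (nat_lit 401986290126) (nat_lit 76) (nat_lit 204303273764) (nat_lit 5) (nat_lit 5) (nat_lit 7) (nat_lit 5) (nat_lit 6) (nat_lit 4) (nat_lit 317)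 (nat_lit 284) (nat_lit 119)) (XT.lf (nat_lit 0) (nat_lit 155116708002) (nat_lit 152) (nat_lit 277317672841) (nat_lit 76) (nat_lit 316818849200) (nat_lit 5) (nat_lit 5) (nat_lit 7) (nat_lit 5) (nat_lit 6) (nat_lit 4) (nat_lit 318) (nat_lit 284) (nat_lit 118))))) (XT.nd (nat_lit 234) (nat_lit 0) (nat_lit 0) (XT.nd (nat_lit 78) (nat_lit 76) (nat_lit 0) (XT.lf (nat_lit 0) (nat_lit 219848517879) (nat_lit 152) (nat_lit 142675634030) (nat_lit 76) (nat_lit 438335649169) (nat_lit 5) (nat_lit 5) (nat_lit 7) (nat_lit 5) (nat_lit 6) (nat_lit 4) (nat_lit 319) (nat_lit 284) (nat_lit 117)) (XT.nd (nat_lit 78) (nat_lit 0) (nat_lit 0) (XT.lf (nat_lit 0) (nat_lit 2881867750) (nat_lit 76) (nat_lit 286946274263) (nat_lit 152) (nat_lit 566761214464) (nat_lit 4) (nat_lit 5) (nat_lit 5) (nat_lit 5) (nat_lit 6) (nat_lit 4) (nat_lit 320) (nat_lit 284) (nat_lit 116)) (XT.lf (nat_lit 0) (nat_lit 168197998162)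 (nat_lit 76) (nat_lit 201109104527) (nat_lit 152) (nat_lit 547158096511) (nat_lit 4) (nat_lit 5) (nat_lit 5) (nat_lit 5) (nat_lit 6) (nat_lit 4) (nat_lit 321) (nat_lit 284) (nat_lit 115)))) (XT.nd (nat_lit 156) (nat_lit 0) (nat_lit 0) (XT.nd (nat_lit 78) (nat_lit 0) (nat_lit 0) (XT.lf (nat_lit 0) (nat_lit 346739362302) (nat_lit 76) (nat_lit 108404982671) (nat_lit 152) (nat_lit 525986767393) (nat_lit 4) (nat_lit 5) (nat_lit 5) (nat_lit 5) (nat_lit 6) (nat_lit 4) (nat_lit 322) (nat_lit 284) (nat_lit 114)) (XT.lf (nat_lit 0) (nat_lit 539563983071) (nat_lit 76) (nat_lit 8284550934) (nat_lit 152) (nat_lit 503121767381) (nat_lit 4) (nat_lit 5) (nat_lit 5) (nat_lit 5) (nat_lit 6) (nat_lit 4) (nat_lit 323) (nat_lit 284) (nat_lit 113))) (XT.nd (nat_lit 78) (nat_lit 0) (nat_lit 0) (XT.lf (nat_lit 0) (nat_lit 650370314544) (nat_lit 152) (nat_lit 380983389838) (nat_lit 0) (nat_lit 94850820811)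 (nat_lit 4) (nat_lit 5) (nat_lit 6) (nat_lit 4) (nat_lit 4) (nat_lit 4) (nat_lit 324) (nat_lit 284) (nat_lit 112)) (XT.lf (nat_lit 0) (nat_lit 761308992277) (nat_lit 152) (nat_lit 240341857228) (nat_lit 0) (nat_lit 205789425181) (nat_lit 4) (nat_lit 5) (nat_lit 6) (nat_lit 4) (nat_lit 4) (nat_lit 4) (nat_lit 325) (nat_lit 284) (nat_lit 111)))))) (XT.nd (nat_lit 34398) (nat_lit 0) (nat_lit 1520) (XT.nd (nat_lit 234) (nat_lit 0) (nat_lit 0) (XT.nd (nat_lit 78) (nat_lit 76) (nat_lit 0) (XT.lf (nat_lit 0) (nat_lit 881122737943) (nat_lit 152) (nat_lit 88449045533) (nat_lit 0) (nat_lit 325603102917) (nat_lit 4) (nat_lit 5) (nat_lit 6) (nat_lit 4) (nat_lit 4) (nat_lit 4) (nat_lit 326) (nat_lit 284) (nat_lit 110)) (XT.nd (nat_lit 78) (nat_lit 0) (nat_lit 0) (XT.lf (nat_lit 0) (nat_lit 79575857473) (nat_lit 76) (nat_lit 932859502735) (nat_lit 76) (nat_lit 377339804812) (nat_lit 3) (nat_lit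 4) (nat_lit 4) (nat_lit 5) (nat_lit 4) (nat_lit 4) (nat_lit 327) (nat_lit 284) (nat_lit 109)) (XT.lf (nat_lit 0) (nat_lit 266072889034) (nat_lit 76) (nat_lit 890598433391) (nat_lit 76) (nat_lit 335078677229) (nat_lit 3) (nat_lit 4) (nat_lit 4) (nat_lit 5) (nat_lit 4) (nat_lit 4) (nat_lit 328) (nat_lit 284) (nat_lit 108)))) (XT.nd (nat_lit 156) (nat_lit 0) (nat_lit 0) (XT.nd (nat_lit 78) (nat_lit 0) (nat_lit 0) (XT.lf (nat_lit 0) (nat_lit 467489646750) (nat_lit 76) (nat_lit 844956493126) (nat_lit 76) (nat_lit 289436683040) (nat_lit 3) (nat_lit 4) (nat_lit 4) (nat_lit 5) (nat_lit 4) (nat_lit 4) (nat_lit 329) (nat_lit 284) (nat_lit 107)) (XT.lf (nat_lit 0) (nat_lit 685019711408) (nat_lit 76) (nat_lit 795663211185) (nat_lit 76) (nat_lit 240143351169) (nat_lit 3) (nat_lit 4) (nat_lit 4) (nat_lit 5) (nat_lit 4) (nat_lit 4) (nat_lit 330) (nat_lit 284) (nat_lit 106))) (XT.nd (nat_lit 33930)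 (nat_lit 0) (nat_lit 1824) (XT.lf (nat_lit 0) (nat_lit 919952150057) (nat_lit 76) (nat_lit 742426479229) (nat_lit 76) (nat_lit 186906572981) (nat_lit 3) (nat_lit 4) (nat_lit 4) (nat_lit 5) (nat_lit 4) (nat_lit 4) (nat_lit 331) (nat_lit 284) (nat_lit 105)) (XT.lf (nat_lit 0) (nat_lit 28084028233) (nat_lit 0) (nat_lit 28084028233) (nat_lit 380) (nat_lit 9878072598) (nat_lit 27) (nat_lit 5) (nat_lit 27) (nat_lit 3) (nat_lit 32) (nat_lit 3) (nat_lit 285) (nat_lit 285) (nat_lit 150))))) (XT.nd (nat_lit 234) (nat_lit 304) (nat_lit 0) (XT.nd (nat_lit 78) (nat_lit 0) (nat_lit 0) (XT.lf (nat_lit 0) (nat_lit 110227233974) (nat_lit 0) (nat_lit 6605376015) (nat_lit 380) (nat_lit 20543058922) (nat_lit 27) (nat_lit 5) (nat_lit 27) (nat_lit 3) (nat_lit 32) (nat_lit 3) (nat_lit 286) (nat_lit 285) (nat_lit 149)) (XT.nd (nat_lit 78) (nat_lit 0) (nat_lit 0) (XT.lf (nat_lit 76) (nat_lit 25685624873)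 (nat_lit 0) (nat_lit 97749122999) (nat_lit 456) (nat_lit 19507334530) (nat_lit 28) (nat_lit 5) (nat_lit 27) (nat_lit 5) (nat_lit 33) (nat_lit 5) (nat_lit 287) (nat_lit 285) (nat_lit 148)) (XT.lf (nat_lit 76) (nat_lit 84109582660) (nat_lit 0) (nat_lit 47364701459) (nat_lit 456) (nat_lit 17406789941) (nat_lit 28) (nat_lit 5) (nat_lit 27) (nat_lit 5) (nat_lit 33) (nat_lit 5) (nat_lit 288) (nat_lit 285) (nat_lit 147)))) (XT.nd (nat_lit 156) (nat_lit 380) (nat_lit 0) (XT.nd (nat_lit 78) (nat_lit 0) (nat_lit 0) (XT.lf (nat_lit 0) (nat_lit 140326286963) (nat_lit 380) (nat_lit 8257484774) (nat_lit 456) (nat_lit 6697872050) (nat_lit 28) (nat_lit 5) (nat_lit 33) (nat_lit 5) (nat_lit 34) (nat_lit 5) (nat_lit 289) (nat_lit 285) (nat_lit 146)) (XT.lf (nat_lit 76) (nat_lit 54261596775) (nat_lit 0) (nat_lit 98159856871) (nat_lit 456) (nat_lit 9570007965) (nat_lit 29) (nat_lit 5) (nat_lit 28) (nat_lit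 5) (nat_lit 34) (nat_lit 5) (nat_lit 290) (nat_lit 285) (nat_lit 145))) (XT.nd (nat_lit 78) (nat_lit 380) (nat_lit 0) (XT.lf (nat_lit 76) (nat_lit 122251641392) (nat_lit 0) (nat_lit 43458139133) (nat_lit 456) (nat_lit 3510243186) (nat_lit 29) (nat_lit 5) (nat_lit 28) (nat_lit 5) (nat_lit 34) (nat_lit 5) (nat_lit 291) (nat_lit 285) (nat_lit 144)) (XT.lf (nat_lit 0) (nat_lit 3742467366) (nat_lit 456) (nat_lit 157813885003) (nat_lit 76) (nat_lit 15395886416) (nat_lit 23) (nat_lit 5) (nat_lit 29) (nat_lit 5) (nat_lit 24) (nat_lit 5) (nat_lit 292) (nat_lit 285) (nat_lit 143))))))) (XT.nd (nat_lit 1014) (nat_lit 532) (nat_lit 0) (XT.nd (nat_lit 468) (nat_lit 380) (nat_lit 0) (XT.nd (nat_lit 234) (nat_lit 228) (nat_lit 0) (XT.nd (nat_lit 78) (nat_lit 228) (nat_lit 0) (XT.lf (nat_lit 0) (nat_lit 13831882533) (nat_lit 456) (nat_lit 93249036440) (nat_lit 76) (nat_lit 78019129580) (nat_lit 23)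 (nat_lit 5) (nat_lit 29) (nat_lit 5) (nat_lit 24) (nat_lit 5) (nat_lit 293) (nat_lit 285) (nat_lit 142)) (XT.nd (nat_lit 78) (nat_lit 228) (nat_lit 0) (XT.lf (nat_lit 0) (nat_lit 24728260747) (nat_lit 456) (nat_lit 23519175708) (nat_lit 76) (nat_lit 145652263768) (nat_lit 23) (nat_lit 5) (nat_lit 29) (nat_lit 5) (nat_lit 24) (nat_lit 5) (nat_lit 294) (nat_lit 285) (nat_lit 141)) (XT.lf (nat_lit 0) (nat_lit 38209130381) (nat_lit 304) (nat_lit 149184273054) (nat_lit 76) (nat_lit 15872899870) (nat_lit 20) (nat_lit 5) (nat_lit 24) (nat_lit 5) (nat_lit 21) (nat_lit 5) (nat_lit 295) (nat_lit 285) (nat_lit 140)))) (XT.nd (nat_lit 78) (nat_lit 228) (nat_lit 0) (XT.lf (nat_lit 0) (nat_lit 54681241796) (nat_lit 304) (nat_lit 75371957793) (nat_lit 76) (nat_lit 83176014904) (nat_lit 20) (nat_lit 5) (nat_lit 24) (nat_lit 5) (nat_lit 21) (nat_lit 5) (nat_lit 296) (nat_lit 285) (nat_lit 139)) (XT.nd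 (nat_lit 78) (nat_lit 0) (nat_lit 0) (XT.lf (nat_lit 0) (nat_lit 4573991365) (nat_lit 228) (nat_lit 68006981055) (nat_lit 304) (nat_lit 151399399649) (nat_lit 17) (nat_lit 5) (nat_lit 20) (nat_lit 5) (nat_lit 21) (nat_lit 5) (nat_lit 297) (nat_lit 285) (nat_lit 138)) (XT.lf (nat_lit 0) (nat_lit 94002885409) (nat_lit 304) (nat_lit 140254389163) (nat_lit 76) (nat_lit 1167132771) (nat_lit 17) (nat_lit 5) (nat_lit 21) (nat_lit 5) (nat_lit 18) (nat_lit 5) (nat_lit 298) (nat_lit 285) (nat_lit 137))))) (XT.nd (nat_lit 234) (nat_lit 228) (nat_lit 0) (XT.nd (nat_lit 78) (nat_lit 152) (nat_lit 0) (XT.lf (nat_lit 0) (nat_lit 118904830516) (nat_lit 304) (nat_lit 56536810533) (nat_lit 76) (nat_lit 72201023364) (nat_lit 17) (nat_lit 5) (nat_lit 21) (nat_lit 5) (nat_lit 18) (nat_lit 5) (nat_lit 299) (nat_lit 285) (nat_lit 136)) (XT.nd (nat_lit 78) (nat_lit 0) (nat_lit 0) (XT.lf (nat_lit 0) (nat_lit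 35661985848) (nat_lit 152) (nat_lit 110994491063) (nat_lit 228) (nat_lit 114113302686) (nat_lit 15) (nat_lit 5) (nat_lit 17) (nat_lit 5) (nat_lit 18) (nat_lit 5) (nat_lit 300) (nat_lit 285) (nat_lit 135)) (XT.lf (nat_lit 0) (nat_lit 138451842633) (nat_lit 152) (nat_lit 39722108958) (nat_lit 228) (nat_lit 96649457795) (nat_lit 15) (nat_lit 5) (nat_lit 17) (nat_lit 5) (nat_lit 18) (nat_lit 5) (nat_lit 301) (nat_lit 285) (nat_lit 134)))) (XT.nd (nat_lit 156) (nat_lit 76) (nat_lit 0) (XT.nd (nat_lit 78) (nat_lit 152) (nat_lit 0) (XT.lf (nat_lit 0) (nat_lit 213108625659) (nat_lit 228) (nat_lit 41432495376) (nat_lit 76) (nat_lit 35388545441) (nat_lit 15) (nat_lit 5) (nat_lit 18) (nat_lit 5) (nat_lit 16) (nat_lit 5) (nat_lit 302) (nat_lit 285) (nat_lit 133)) (XT.lf (nat_lit 0) (nat_lit 63232999002) (nat_lit 152) (nat_lit 190157469541) (nat_lit 228) (nat_lit 52649764955) (nat_lit 13) (nat_lit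 5) (nat_lit 15) (nat_lit 5) (nat_lit 16) (nat_lit 5) (nat_lit 303) (nat_lit 285) (nat_lit 132))) (XT.nd (nat_lit 78) (nat_lit 76) (nat_lit 0) (XT.lf (nat_lit 0) (nat_lit 178627908629) (nat_lit 152) (nat_lit 119399689330) (nat_lit 228) (nat_lit 25321429679) (nat_lit 13) (nat_lit 5) (nat_lit 15) (nat_lit 5) (nat_lit 16) (nat_lit 5) (nat_lit 304) (nat_lit 285) (nat_lit 131)) (XT.lf (nat_lit 0) (nat_lit 3983318366) (nat_lit 228) (nat_lit 38889083536) (nat_lit 76) (nat_lit 299162064062) (nat_lit 12) (nat_lit 5) (nat_lit 15) (nat_lit 5) (nat_lit 13) (nat_lit 5) (nat_lit 305) (nat_lit 285) (nat_lit 130)))))) (XT.nd (nat_lit 546) (nat_lit 228) (nat_lit 0) (XT.nd (nat_lit 234) (nat_lit 152) (nat_lit 0) (XT.nd (nat_lit 78) (nat_lit 0) (nat_lit 0) (XT.lf (nat_lit 0) (nat_lit 37179668317) (nat_lit 228) (nat_lit 284345618479) (nat_lit 76) (nat_lit 40403618347) (nat_lit 10) (nat_lit 5) (nat_lit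 13) (nat_lit 5) (nat_lit 11) (nat_lit 5) (nat_lit 306) (nat_lit 285) (nat_lit 129)) (XT.nd (nat_lit 78) (nat_lit 0) (nat_lit 0) (XT.lf (nat_lit 0) (nat_lit 75236125265) (nat_lit 228) (nat_lit 178886037604) (nat_lit 76) (nat_lit 129116385317) (nat_lit 10) (nat_lit 5) (nat_lit 13) (nat_lit 5) (nat_lit 11) (nat_lit 5) (nat_lit 307) (nat_lit 285) (nat_lit 128)) (XT.lf (nat_lit 0) (nat_lit 116337020591) (nat_lit 228) (nat_lit 64989799533) (nat_lit 76) (nat_lit 224926149405) (nat_lit 10) (nat_lit 5) (nat_lit 13) (nat_lit 5) (nat_lit 11) (nat_lit 5) (nat_lit 308) (nat_lit 285) (nat_lit 127)))) (XT.nd (nat_lit 156) (nat_lit 0) (nat_lit 0) (XT.nd (nat_lit 78) (nat_lit 0) (nat_lit 0) (XT.lf (nat_lit 0) (nat_lit 61073163383) (nat_lit 152) (nat_lit 101121562822) (nat_lit 228) (nat_lit 268796319841) (nat_lit 8) (nat_lit 5) (nat_lit 10) (nat_lit 5) (nat_lit 11) (nat_lit 5) (nat_lit 309) (nat_lit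 285) (nat_lit 126)) (XT.lf (nat_lit 0) (nat_lit 200917092201) (nat_lit 152) (nat_lit 12580822962) (nat_lit 228) (nat_lit 244068104685) (nat_lit 8) (nat_lit 5) (nat_lit 10) (nat_lit 5) (nat_lit 11) (nat_lit 5) (nat_lit 310) (nat_lit 285) (nat_lit 125))) (XT.nd (nat_lit 78) (nat_lit 0) (nat_lit 0) (XT.lf (nat_lit 0) (nat_lit 270902484714) (nat_lit 228) (nat_lit 136315742892) (nat_lit 76) (nat_lit 78888994388) (nat_lit 8) (nat_lit 5) (nat_lit 11) (nat_lit 5) (nat_lit 9) (nat_lit 4) (nat_lit 311) (nat_lit 285) (nat_lit 124)) (XT.lf (nat_lit 0) (nat_lit 333226134352) (nat_lit 228) (nat_lit 6682767128) (nat_lit 76) (nat_lit 176996682113) (nat_lit 8) (nat_lit 5) (nat_lit 11) (nat_lit 5) (nat_lit 9) (nat_lit 4) (nat_lit 312) (nat_lit 285) (nat_lit 123))))) (XT.nd (nat_lit 234) (nat_lit 152) (nat_lit 0) (XT.nd (nat_lit 78) (nat_lit 0) (nat_lit 0) (XT.lf (nat_lit 0) (nat_lit 140341199327) (nat_lit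 76) (nat_lit 263569630205) (nat_lit 152) (nat_lit 145986972710) (nat_lit 7) (nat_lit 5) (nat_lit 8) (nat_lit 5) (nat_lit 9) (nat_lit 4) (nat_lit 313) (nat_lit 285) (nat_lit 122)) (XT.nd (nat_lit 78) (nat_lit 0) (nat_lit 0) (XT.lf (nat_lit 0) (nat_lit 299507057532) (nat_lit 76) (nat_lit 180925908033) (nat_lit 152) (nat_lit 105081819981) (nat_lit 7) (nat_lit 5) (nat_lit 8) (nat_lit 5) (nat_lit 9) (nat_lit 4) (nat_lit 314) (nat_lit 285) (nat_lit 121)) (XT.lf (nat_lit 0) (nat_lit 471406109898) (nat_lit 76) (nat_lit 91670713082) (nat_lit 152) (nat_lit 60904308845) (nat_lit 7) (nat_lit 5) (nat_lit 8) (nat_lit 5) (nat_lit 9) (nat_lit 4) (nat_lit 315) (nat_lit 285) (nat_lit 120)))) (XT.nd (nat_lit 156) (nat_lit 0) (nat_lit 0) (XT.nd (nat_lit 78) (nat_lit 152) (nat_lit 0) (XT.lf (nat_lit 0) (nat_lit 652445776496) (nat_lit 152) (nat_lit 8581405664) (nat_lit 0) (nat_lit 4488516970) (nat_lit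 7) (nat_lit 5) (nat_lit 9) (nat_lit 4) (nat_lit 7) (nat_lit 4) (nat_lit 316) (nat_lit 285) (nat_lit 119)) (XT.lf (nat_lit 0) (nat_lit 42858144803) (nat_lit 152) (nat_lit 558812454125) (nat_lit 76) (nat_lit 108132390067) (nat_lit 5) (nat_lit 5) (nat_lit 7) (nat_lit 5) (nat_lit 6) (nat_lit 4) (nat_lit 317) (nat_lit 285) (nat_lit 118))) (XT.nd (nat_lit 78) (nat_lit 0) (nat_lit 0) (XT.lf (nat_lit 0) (nat_lit 102795024800) (nat_lit 152) (nat_lit 434143869463) (nat_lit 76) (nat_lit 220647955165) (nat_lit 5) (nat_lit 5) (nat_lit 7) (nat_lit 5) (nat_lit 6) (nat_lit 4) (nat_lit 318) (nat_lit 285) (nat_lit 117)) (XT.lf (nat_lit 0) (nat_lit 167526815676) (nat_lit 152) (nat_lit 299501860860) (nat_lit 76) (nat_lit 342164745562) (nat_lit 5) (nat_lit 5) (nat_lit 7) (nat_lit 5) (nat_lit 6) (nat_lit 4) (nat_lit 319) (nat_lit 285) (nat_lit 116))))))))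
noncomputable def xc118 : XT := (XT.nd (nat_lit 36192) (nat_lit 0) (nat_lit 0) (XT.nd (nat_lit 35100) (nat_lit 0) (nat_lit 912) (XT.nd (nat_lit 468) (nat_lit 76) (nat_lit 0) (XT.nd (nat_lit 234) (nat_lit 0) (nat_lit 0) (XT.nd (nat_lit 78) (nat_lit 76) (nat_lit 0) (XT.lf (nat_lit 0) (nat_lit 237437113229) (nat_lit 152) (nat_lit 154088549745) (nat_lit 76) (nat_lit 473402860756) (nat_lit 5) (nat_lit 5) (nat_lit 7) (nat_lit 5) (nat_lit 6) (nat_lit 4) (nat_lit 320) (nat_lit 285) (nat_lit 115)) (XT.nd (nat_lit 78) (nat_lit 0) (nat_lit 0) (XT.lf (nat_lit 0) (nat_lit 3113523443) (nat_lit 76) (nat_lit 309901557574) (nat_lit 152) (nat_lit 612101364967) (nat_lit 4) (nat_lit 5) (nat_lit 5) (nat_lit 5) (nat_lit 6) (nat_lit 4) (nat_lit 321) (nat_lit 285) (nat_lit 114)) (XT.lf (nat_lit 0) (nat_lit 181654862341) (nat_lit 76) (nat_lit 217197445269) (nat_lit 152) (nat_lit 590930052885) (nat_lit 4)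 (nat_lit 5) (nat_lit 5) (nat_lit 5) (nat_lit 6) (nat_lit 4) (nat_lit 322) (nat_lit 285) (nat_lit 113)))) (XT.nd (nat_lit 78) (nat_lit 0) (nat_lit 0) (XT.lf (nat_lit 0) (nat_lit 374479459737) (nat_lit 76) (nat_lit 117077022377) (nat_lit 152) (nat_lit 568065068648) (nat_lit 4) (nat_lit 5) (nat_lit 5) (nat_lit 5) (nat_lit 6) (nat_lit 4) (nat_lit 323) (nat_lit 285) (nat_lit 112)) (XT.nd (nat_lit 78) (nat_lit 0) (nat_lit 0) (XT.lf (nat_lit 0) (nat_lit 582729979911) (nat_lit 76) (nat_lit 8946982687) (nat_lit 152) (nat_lit 543370916054) (nat_lit 4) (nat_lit 5) (nat_lit 5) (nat_lit 5) (nat_lit 6) (nat_lit 4) (nat_lit 324) (nat_lit 285) (nat_lit 111)) (XT.lf (nat_lit 0) (nat_lit 702400452545) (nat_lit 152) (nat_lit 411461211907) (nat_lit 0) (nat_lit 102439178789) (nat_lit 4) (nat_lit 5) (nat_lit 6) (nat_lit 4) (nat_lit 4) (nat_lit 4) (nat_lit 325) (nat_lit 285) (nat_lit 110))))) (XT.nd (nat_lit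 234) (nat_lit 0) (nat_lit 0) (XT.nd (nat_lit 78) (nat_lit 76) (nat_lit 0) (XT.lf (nat_lit 0) (nat_lit 822214186510) (nat_lit 152) (nat_lit 259568419586) (nat_lit 0) (nat_lit 222252849855) (nat_lit 4) (nat_lit 5) (nat_lit 6) (nat_lit 4) (nat_lit 4) (nat_lit 4) (nat_lit 326) (nat_lit 285) (nat_lit 109)) (XT.nd (nat_lit 78) (nat_lit 76) (nat_lit 0) (XT.lf (nat_lit 0) (nat_lit 951612996654) (nat_lit 152) (nat_lit 95524241193) (nat_lit 0) (nat_lit 351651601762) (nat_lit 4) (nat_lit 5) (nat_lit 6) (nat_lit 4) (nat_lit 4) (nat_lit 4) (nat_lit 327) (nat_lit 285) (nat_lit 108)) (XT.lf (nat_lit 0) (nat_lit 85942635623) (nat_lit 76) (nat_lit 1007487977574) (nat_lit 76) (nat_lit 407526528757) (nat_lit 3) (nat_lit 4) (nat_lit 4) (nat_lit 5) (nat_lit 4) (nat_lit 4) (nat_lit 328) (nat_lit 285) (nat_lit 107)))) (XT.nd (nat_lit 34242) (nat_lit 0) (nat_lit 1824) (XT.nd (nat_lit 34164) (nat_lit 0) (nat_lit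 1824) (XT.lf (nat_lit 0) (nat_lit 287359377149) (nat_lit 76) (nat_lit 961846043821) (nat_lit 76) (nat_lit 361884545074) (nat_lit 3) (nat_lit 4) (nat_lit 4) (nat_lit 5) (nat_lit 4) (nat_lit 4) (nat_lit 329) (nat_lit 285) (nat_lit 106)) (XT.lf (nat_lit 0) (nat_lit 30332240054) (nat_lit 0) (nat_lit 30332240054) (nat_lit 380) (nat_lit 10665066459) (nat_lit 27) (nat_lit 5) (nat_lit 27) (nat_lit 3) (nat_lit 32) (nat_lit 3) (nat_lit 286) (nat_lit 286) (nat_lit 148))) (XT.nd (nat_lit 78) (nat_lit 0) (nat_lit 0) (XT.lf (nat_lit 0) (nat_lit 119048171139) (nat_lit 0) (nat_lit 7136564543) (nat_lit 380) (nat_lit 22180481512) (nat_lit 27) (nat_lit 5) (nat_lit 27) (nat_lit 3) (nat_lit 32) (nat_lit 3) (nat_lit 287) (nat_lit 286) (nat_lit 147)) (XT.lf (nat_lit 76) (nat_lit 27743720576) (nat_lit 0) (nat_lit 105570931995) (nat_lit 456) (nat_lit 21062327288) (nat_lit 28) (nat_lit 5) (nat_lit 27) (nat_lit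 5) (nat_lit 33) (nat_lit 5) (nat_lit 288) (nat_lit 286) (nat_lit 146)))))) (XT.nd (nat_lit 546) (nat_lit 608) (nat_lit 0) (XT.nd (nat_lit 234) (nat_lit 304) (nat_lit 0) (XT.nd (nat_lit 78) (nat_lit 0) (nat_lit 76) (XT.lf (nat_lit 76) (nat_lit 90841354563) (nat_lit 0) (nat_lit 51155617535) (nat_lit 456) (nat_lit 18794153503) (nat_lit 28) (nat_lit 5) (nat_lit 27) (nat_lit 5) (nat_lit 33) (nat_lit 5) (nat_lit 289) (nat_lit 286) (nat_lit 145)) (XT.nd (nat_lit 78) (nat_lit 0) (nat_lit 0) (XT.lf (nat_lit 0) (nat_lit 151556744923) (nat_lit 380) (nat_lit 8914859927) (nat_lit 456) (nat_lit 7232171333) (nat_lit 28) (nat_lit 5) (nat_lit 33) (nat_lit 5) (nat_lit 34) (nat_lit 5) (nat_lit 290) (nat_lit 286) (nat_lit 144)) (XT.lf (nat_lit 76) (nat_lit 58605666536) (nat_lit 0) (nat_lit 106013611377) (nat_lit 456) (nat_lit 10331125037) (nat_lit 29) (nat_lit 5) (nat_lit 28) (nat_lit 5) (nat_lit 34)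 (nat_lit 5) (nat_lit 291) (nat_lit 286) (nat_lit 143)))) (XT.nd (nat_lit 156) (nat_lit 0) (nat_lit 0) (XT.nd (nat_lit 78) (nat_lit 380) (nat_lit 0) (XT.lf (nat_lit 76) (nat_lit 132034681980) (nat_lit 0) (nat_lit 46935684667) (nat_lit 456) (nat_lit 3786911192) (nat_lit 29) (nat_lit 5) (nat_lit 28) (nat_lit 5) (nat_lit 34) (nat_lit 5) (nat_lit 292) (nat_lit 286) (nat_lit 142)) (XT.lf (nat_lit 0) (nat_lit 4045574815) (nat_lit 456) (nat_lit 170435567613) (nat_lit 76) (nat_lit 16626941384) (nat_lit 23) (nat_lit 5) (nat_lit 29) (nat_lit 5) (nat_lit 24) (nat_lit 5) (nat_lit 293) (nat_lit 286) (nat_lit 141))) (XT.nd (nat_lit 78) (nat_lit 0) (nat_lit 0) (XT.lf (nat_lit 0) (nat_lit 14941868376) (nat_lit 456) (nat_lit 100705785104) (nat_lit 76) (nat_lit 84260089626) (nat_lit 23) (nat_lit 5) (nat_lit 29) (nat_lit 5) (nat_lit 24) (nat_lit 5) (nat_lit 294) (nat_lit 286) (nat_lit 140)) (XT.lf (nat_lit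 0) (nat_lit 26709702385) (nat_lit 456) (nat_lit 25397770644) (nat_lit 76) (nat_lit 157303916796) (nat_lit 23) (nat_lit 5) (nat_lit 29) (nat_lit 5) (nat_lit 24) (nat_lit 5) (nat_lit 295) (nat_lit 286) (nat_lit 139))))) (XT.nd (nat_lit 234) (nat_lit 152) (nat_lit 0) (XT.nd (nat_lit 78) (nat_lit 228) (nat_lit 0) (XT.lf (nat_lit 0) (nat_lit 41268871281) (nat_lit 304) (nat_lit 161115875880) (nat_lit 76) (nat_lit 17142589982) (nat_lit 20) (nat_lit 5) (nat_lit 24) (nat_lit 5) (nat_lit 21) (nat_lit 5) (nat_lit 296) (nat_lit 286) (nat_lit 138)) (XT.nd (nat_lit 78) (nat_lit 228) (nat_lit 0) (XT.lf (nat_lit 0) (nat_lit 59058528612) (nat_lit 304) (nat_lit 81398807918) (nat_lit 76) (nat_lit 89829964728) (nat_lit 20) (nat_lit 5) (nat_lit 24) (nat_lit 5) (nat_lit 21) (nat_lit 5) (nat_lit 297) (nat_lit 286) (nat_lit 137)) (XT.lf (nat_lit 0) (nat_lit 4942743590) (nat_lit 228) (nat_lit 73447355749)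 (nat_lit 304) (nat_lit 163508465200) (nat_lit 17) (nat_lit 5) (nat_lit 20) (nat_lit 5) (nat_lit 21) (nat_lit 5) (nat_lit 298) (nat_lit 286) (nat_lit 136)))) (XT.nd (nat_lit 156) (nat_lit 152) (nat_lit 0) (XT.nd (nat_lit 78) (nat_lit 0) (nat_lit 0) (XT.lf (nat_lit 0) (nat_lit 101525573227) (nat_lit 304) (nat_lit 151471901600) (nat_lit 76) (nat_lit 1260665057) (nat_lit 17) (nat_lit 5) (nat_lit 21) (nat_lit 5) (nat_lit 18) (nat_lit 5) (nat_lit 299) (nat_lit 286) (nat_lit 135)) (XT.lf (nat_lit 0) (nat_lit 128419491944) (nat_lit 304) (nat_lit 61057126953) (nat_lit 76) (nat_lit 77977254922) (nat_lit 17) (nat_lit 5) (nat_lit 21) (nat_lit 5) (nat_lit 18) (nat_lit 5) (nat_lit 300) (nat_lit 286) (nat_lit 134))) (XT.nd (nat_lit 78) (nat_lit 0) (nat_lit 0) (XT.lf (nat_lit 0) (nat_lit 38517506596) (nat_lit 152) (nat_lit 119873656550) (nat_lit 228) (nat_lit 123240005235) (nat_lit 15) (nat_lit 5)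 (nat_lit 17) (nat_lit 5) (nat_lit 18) (nat_lit 5) (nat_lit 301) (nat_lit 286) (nat_lit 133)) (XT.lf (nat_lit 0) (nat_lit 149530362155) (nat_lit 152) (nat_lit 42899513047) (nat_lit 228) (nat_lit 104379227690) (nat_lit 15) (nat_lit 5) (nat_lit 17) (nat_lit 5) (nat_lit 18) (nat_lit 5) (nat_lit 302) (nat_lit 286) (nat_lit 132))))))) (XT.nd (nat_lit 1014) (nat_lit 304) (nat_lit 0) (XT.nd (nat_lit 468) (nat_lit 228) (nat_lit 0) (XT.nd (nat_lit 234) (nat_lit 228) (nat_lit 0) (XT.nd (nat_lit 78) (nat_lit 152) (nat_lit 0) (XT.lf (nat_lit 0) (nat_lit 230159182613) (nat_lit 228) (nat_lit 44744740759) (nat_lit 76) (nat_lit 38219949805) (nat_lit 15) (nat_lit 5) (nat_lit 18) (nat_lit 5) (nat_lit 16) (nat_lit 5) (nat_lit 303) (nat_lit 286) (nat_lit 131)) (XT.nd (nat_lit 78) (nat_lit 0) (nat_lit 0) (XT.lf (nat_lit 0) (nat_lit 68293933567) (nat_lit 152) (nat_lit 205369556257) (nat_lit 228) (nat_lit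 56859803664) (nat_lit 13) (nat_lit 5) (nat_lit 15) (nat_lit 5) (nat_lit 16) (nat_lit 5) (nat_lit 304) (nat_lit 286) (nat_lit 130)) (XT.lf (nat_lit 0) (nat_lit 192920265991) (nat_lit 152) (nat_lit 128951191470) (nat_lit 228) (nat_lit 27345345454) (nat_lit 13) (nat_lit 5) (nat_lit 15) (nat_lit 5) (nat_lit 16) (nat_lit 5) (nat_lit 305) (nat_lit 286) (nat_lit 129)))) (XT.nd (nat_lit 78) (nat_lit 152) (nat_lit 0) (XT.lf (nat_lit 0) (nat_lit 4303565896) (nat_lit 228) (nat_lit 41998146933) (nat_lit 76) (nat_lit 323095371157) (nat_lit 12) (nat_lit 5) (nat_lit 15) (nat_lit 5) (nat_lit 13) (nat_lit 5) (nat_lit 306) (nat_lit 286) (nat_lit 128)) (XT.nd (nat_lit 78) (nat_lit 0) (nat_lit 0) (XT.lf (nat_lit 0) (nat_lit 40155566993) (nat_lit 228) (nat_lit 307091136070) (nat_lit 76) (nat_lit 43636380725) (nat_lit 10) (nat_lit 5) (nat_lit 13) (nat_lit 5) (nat_lit 11) (nat_lit 5) (nat_lit 307) (nat_lit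 286) (nat_lit 127)) (XT.lf (nat_lit 0) (nat_lit 81256427518) (nat_lit 228) (nat_lit 193194946643) (nat_lit 76) (nat_lit 139446134023) (nat_lit 10) (nat_lit 5) (nat_lit 13) (nat_lit 5) (nat_lit 11) (nat_lit 5) (nat_lit 308) (nat_lit 286) (nat_lit 126))))) (XT.nd (nat_lit 234) (nat_lit 76) (nat_lit 0) (XT.nd (nat_lit 78) (nat_lit 152) (nat_lit 0) (XT.lf (nat_lit 0) (nat_lit 125645289860) (nat_lit 228) (nat_lit 70187155746) (nat_lit 76) (nat_lit 242920646803) (nat_lit 10) (nat_lit 5) (nat_lit 13) (nat_lit 5) (nat_lit 11) (nat_lit 5) (nat_lit 309) (nat_lit 286) (nat_lit 125)) (XT.nd (nat_lit 78) (nat_lit 0) (nat_lit 0) (XT.lf (nat_lit 0) (nat_lit 65960797931) (nat_lit 152) (nat_lit 109210759975) (nat_lit 228) (nat_lit 290298662207) (nat_lit 8) (nat_lit 5) (nat_lit 10) (nat_lit 5) (nat_lit 11) (nat_lit 5) (nat_lit 310) (nat_lit 286) (nat_lit 124)) (XT.lf (nat_lit 0) (nat_lit 216992109094)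 (nat_lit 152) (nat_lit 13586800028) (nat_lit 228) (nat_lit 263592290818) (nat_lit 8) (nat_lit 5) (nat_lit 10) (nat_lit 5) (nat_lit 11) (nat_lit 5) (nat_lit 311) (nat_lit 286) (nat_lit 123)))) (XT.nd (nat_lit 156) (nat_lit 76) (nat_lit 0) (XT.nd (nat_lit 78) (nat_lit 0) (nat_lit 0) (XT.lf (nat_lit 0) (nat_lit 292575769140) (nat_lit 228) (nat_lit 147219391900) (nat_lit 76) (nat_lit 85200543865) (nat_lit 8) (nat_lit 5) (nat_lit 11) (nat_lit 5) (nat_lit 9) (nat_lit 4) (nat_lit 312) (nat_lit 286) (nat_lit 122)) (XT.lf (nat_lit 0) (nat_lit 359885230330) (nat_lit 228) (nat_lit 7215897365) (nat_lit 76) (nat_lit 191156814762) (nat_lit 8) (nat_lit 5) (nat_lit 11) (nat_lit 5) (nat_lit 9) (nat_lit 4) (nat_lit 313) (nat_lit 286) (nat_lit 121))) (XT.nd (nat_lit 78) (nat_lit 0) (nat_lit 0) (XT.lf (nat_lit 0) (nat_lit 151569948656) (nat_lit 76) (nat_lit 284654712962) (nat_lit 152) (nat_lit 157664880691)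 (nat_lit 7) (nat_lit 5) (nat_lit 8) (nat_lit 5) (nat_lit 9) (nat_lit 4) (nat_lit 314) (nat_lit 286) (nat_lit 120)) (XT.lf (nat_lit 0) (nat_lit 323468967860) (nat_lit 76) (nat_lit 195399529138) (nat_lit 152) (nat_lit 113487393509) (nat_lit 7) (nat_lit 5) (nat_lit 8) (nat_lit 5) (nat_lit 9) (nat_lit 4) (nat_lit 315) (nat_lit 286) (nat_lit 119)))))) (XT.nd (nat_lit 546) (nat_lit 76) (nat_lit 0) (XT.nd (nat_lit 234) (nat_lit 76) (nat_lit 0) (XT.nd (nat_lit 78) (nat_lit 152) (nat_lit 0) (XT.lf (nat_lit 0) (nat_lit 509119844731) (nat_lit 76) (nat_lit 99003952039) (nat_lit 152) (nat_lit 65775753487) (nat_lit 7) (nat_lit 5) (nat_lit 8) (nat_lit 5) (nat_lit 9) (nat_lit 4) (nat_lit 316) (nat_lit 286) (nat_lit 118)) (XT.nd (nat_lit 78) (nat_lit 152) (nat_lit 0) (XT.lf (nat_lit 0) (nat_lit 704642214548) (nat_lit 152) (nat_lit 9266706913) (nat_lit 0) (nat_lit 4847966083) (nat_lit 7) (nat_lit 5)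 (nat_lit 9) (nat_lit 4) (nat_lit 7) (nat_lit 4) (nat_lit 317) (nat_lit 286) (nat_lit 117)) (XT.lf (nat_lit 0) (nat_lit 46287567421) (nat_lit 152) (nat_lit 603516224647) (nat_lit 76) (nat_lit 116783369698) (nat_lit 5) (nat_lit 5) (nat_lit 7) (nat_lit 5) (nat_lit 6) (nat_lit 4) (nat_lit 318) (nat_lit 286) (nat_lit 116)))) (XT.nd (nat_lit 156) (nat_lit 76) (nat_lit 0) (XT.nd (nat_lit 78) (nat_lit 0) (nat_lit 0) (XT.lf (nat_lit 0) (nat_lit 111019340704) (nat_lit 152) (nat_lit 468874244013) (nat_lit 76) (nat_lit 238300151232) (nat_lit 5) (nat_lit 5) (nat_lit 7) (nat_lit 5) (nat_lit 6) (nat_lit 4) (nat_lit 319) (nat_lit 286) (nat_lit 115)) (XT.lf (nat_lit 0) (nat_lit 180929621967) (nat_lit 152) (nat_lit 323460958796) (nat_lit 76) (nat_lit 369538258220) (nat_lit 5) (nat_lit 5) (nat_lit 7) (nat_lit 5) (nat_lit 6) (nat_lit 4) (nat_lit 320) (nat_lit 286) (nat_lit 114))) (XT.nd (nat_lit 78)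 (nat_lit 76) (nat_lit 0) (XT.lf (nat_lit 0) (nat_lit 256432694358) (nat_lit 152) (nat_lit 166414660639) (nat_lit 76) (nat_lit 511275397961) (nat_lit 5) (nat_lit 5) (nat_lit 7) (nat_lit 5) (nat_lit 6) (nat_lit 4) (nat_lit 321) (nat_lit 286) (nat_lit 113)) (XT.lf (nat_lit 0) (nat_lit 3363553769) (nat_lit 76) (nat_lit 334693323272) (nat_lit 152) (nat_lit 661068834028) (nat_lit 4) (nat_lit 5) (nat_lit 5) (nat_lit 5) (nat_lit 6) (nat_lit 4) (nat_lit 322) (nat_lit 286) (nat_lit 112))))) (XT.nd (nat_lit 234) (nat_lit 76) (nat_lit 0) (XT.nd (nat_lit 78) (nat_lit 0) (nat_lit 0) (XT.lf (nat_lit 0) (nat_lit 196188129524) (nat_lit 76) (nat_lit 234572908569) (nat_lit 152) (nat_lit 638203864398) (nat_lit 4) (nat_lit 5) (nat_lit 5) (nat_lit 5) (nat_lit 6) (nat_lit 4) (nat_lit 323) (nat_lit 286) (nat_lit 111)) (XT.nd (nat_lit 78) (nat_lit 0) (nat_lit 0) (XT.lf (nat_lit 0) (nat_lit 404438629660) (nat_lit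 76) (nat_lit 126442876461) (nat_lit 152) (nat_lit 613509725327) (nat_lit 4) (nat_lit 5) (nat_lit 5) (nat_lit 5) (nat_lit 6) (nat_lit 4) (nat_lit 324) (nat_lit 286) (nat_lit 110)) (XT.lf (nat_lit 0) (nat_lit 629349131215) (nat_lit 76) (nat_lit 9662456389) (nat_lit 152) (nat_lit 586840081177) (nat_lit 4) (nat_lit 5) (nat_lit 5) (nat_lit 5) (nat_lit 6) (nat_lit 4) (nat_lit 325) (nat_lit 286) (nat_lit 109)))) (XT.nd (nat_lit 156) (nat_lit 76) (nat_lit 0) (XT.nd (nat_lit 78) (nat_lit 0) (nat_lit 0) (XT.lf (nat_lit 0) (nat_lit 758592928425) (nat_lit 152) (nat_lit 444377380877) (nat_lit 0) (nat_lit 110634563703) (nat_lit 4) (nat_lit 5) (nat_lit 6) (nat_lit 4) (nat_lit 4) (nat_lit 4) (nat_lit 326) (nat_lit 286) (nat_lit 108)) (XT.lf (nat_lit 0) (nat_lit 887991728538) (nat_lit 152) (nat_lit 280333219095) (nat_lit 0) (nat_lit 240033309891) (nat_lit 4) (nat_lit 5) (nat_lit 6) (nat_lit 4) (nat_lit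 4) (nat_lit 4) (nat_lit 327) (nat_lit 286) (nat_lit 107))) (XT.nd (nat_lit 78) (nat_lit 76) (nat_lit 0) (XT.lf (nat_lit 0) (nat_lit 1027742413338) (nat_lit 152) (nat_lit 103165556361) (nat_lit 0) (nat_lit 379783944762) (nat_lit 4) (nat_lit 5) (nat_lit 6) (nat_lit 4) (nat_lit 4) (nat_lit 4) (nat_lit 328) (nat_lit 286) (nat_lit 106)) (XT.lf (nat_lit 0) (nat_lit 92818654800) (nat_lit 76) (nat_lit 1088086771112) (nat_lit 76) (nat_lit 440128256304) (nat_lit 3) (nat_lit 4) (nat_lit 4) (nat_lit 5) (nat_lit 4) (nat_lit 4) (nat_lit 329) (nat_lit 286) (nat_lit 105))))))))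
noncomputable def xc119 : XT := (XT.nd (nat_lit 2106) (nat_lit 304) (nat_lit 0) (XT.nd (nat_lit 1014) (nat_lit 684) (nat_lit 0) (XT.nd (nat_lit 468) (nat_lit 760) (nat_lit 0) (XT.nd (nat_lit 234) (nat_lit 0) (nat_lit 0) (XT.nd (nat_lit 78) (nat_lit 0) (nat_lit 0) (XT.lf (nat_lit 0) (nat_lit 32760096317) (nat_lit 0) (nat_lit 32760096317) (nat_lit 380) (nat_lit 11515483756) (nat_lit 27) (nat_lit 5) (nat_lit 27) (nat_lit 3) (nat_lit 32) (nat_lit 3) (nat_lit 287) (nat_lit 287) (nat_lit 146)) (XT.nd (nat_lit 78) (nat_lit 0) (nat_lit 0) (XT.lf (nat_lit 0) (nat_lit 128574389754) (nat_lit 0) (nat_lit 7709854631) (nat_lit 380) (nat_lit 23949757033) (nat_lit 27) (nat_lit 5) (nat_lit 27) (nat_lit 3) (nat_lit 32) (nat_lit 3) (nat_lit 288) (nat_lit 287) (nat_lit 145)) (XT.lf (nat_lit 76) (nat_lit 29966000898) (nat_lit 0) (nat_lit 114018217628) (nat_lit 456) (nat_lit 22742517515) (nat_lit 28) (nat_lit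 5) (nat_lit 27) (nat_lit 5) (nat_lit 33) (nat_lit 5) (nat_lit 289) (nat_lit 287) (nat_lit 144)))) (XT.nd (nat_lit 78) (nat_lit 0) (nat_lit 76) (XT.lf (nat_lit 76) (nat_lit 98111239479) (nat_lit 0) (nat_lit 55249558672) (nat_lit 456) (nat_lit 20293245083) (nat_lit 28) (nat_lit 5) (nat_lit 27) (nat_lit 5) (nat_lit 33) (nat_lit 5) (nat_lit 290) (nat_lit 287) (nat_lit 143)) (XT.nd (nat_lit 78) (nat_lit 0) (nat_lit 0) (XT.lf (nat_lit 0) (nat_lit 163685018229) (nat_lit 380) (nat_lit 9625284978) (nat_lit 456) (nat_lit 7809432899) (nat_lit 28) (nat_lit 5) (nat_lit 33) (nat_lit 5) (nat_lit 34) (nat_lit 5) (nat_lit 291) (nat_lit 287) (nat_lit 142)) (XT.lf (nat_lit 76) (nat_lit 63296813634) (nat_lit 0) (nat_lit 114495528439) (nat_lit 456) (nat_lit 11153771106) (nat_lit 29) (nat_lit 5) (nat_lit 28) (nat_lit 5) (nat_lit 34) (nat_lit 5) (nat_lit 292) (nat_lit 287) (nat_lit 141))))) (XT.nd (nat_lit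 234) (nat_lit 456) (nat_lit 0) (XT.nd (nat_lit 78) (nat_lit 380) (nat_lit 0) (XT.lf (nat_lit 76) (nat_lit 142599950775) (nat_lit 0) (nat_lit 50691306248) (nat_lit 456) (nat_lit 4086304889) (nat_lit 29) (nat_lit 5) (nat_lit 28) (nat_lit 5) (nat_lit 34) (nat_lit 5) (nat_lit 293) (nat_lit 287) (nat_lit 140)) (XT.nd (nat_lit 78) (nat_lit 0) (nat_lit 0) (XT.lf (nat_lit 0) (nat_lit 4372401579) (nat_lit 456) (nat_lit 184067473900) (nat_lit 76) (nat_lit 17956568621) (nat_lit 23) (nat_lit 5) (nat_lit 29) (nat_lit 5) (nat_lit 24) (nat_lit 5) (nat_lit 294) (nat_lit 287) (nat_lit 139)) (XT.lf (nat_lit 0) (nat_lit 16140163012) (nat_lit 456) (nat_lit 108759526503) (nat_lit 76) (nat_lit 91000407839) (nat_lit 23) (nat_lit 5) (nat_lit 29) (nat_lit 5) (nat_lit 24) (nat_lit 5) (nat_lit 295) (nat_lit 287) (nat_lit 138)))) (XT.nd (nat_lit 156) (nat_lit 228) (nat_lit 0) (XT.nd (nat_lit 78) (nat_lit 228)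 (nat_lit 0) (XT.lf (nat_lit 0) (nat_lit 28849205581) (nat_lit 456) (nat_lit 27427072472) (nat_lit 76) (nat_lit 169887777401) (nat_lit 23) (nat_lit 5) (nat_lit 29) (nat_lit 5) (nat_lit 24) (nat_lit 5) (nat_lit 296) (nat_lit 287) (nat_lit 137)) (XT.lf (nat_lit 0) (nat_lit 44572961976) (nat_lit 304) (nat_lit 174002454749) (nat_lit 76) (nat_lit 18513875544) (nat_lit 20) (nat_lit 5) (nat_lit 24) (nat_lit 5) (nat_lit 21) (nat_lit 5) (nat_lit 297) (nat_lit 287) (nat_lit 136))) (XT.nd (nat_lit 78) (nat_lit 228) (nat_lit 0) (XT.lf (nat_lit 0) (nat_lit 63785600710) (nat_lit 304) (nat_lit 87908220698) (nat_lit 76) (nat_lit 97016249279) (nat_lit 20) (nat_lit 5) (nat_lit 24) (nat_lit 5) (nat_lit 21) (nat_lit 5) (nat_lit 298) (nat_lit 287) (nat_lit 135)) (XT.lf (nat_lit 0) (nat_lit 5340591846) (nat_lit 228) (nat_lit 79322986637) (nat_lit 304) (nat_lit 176586667775) (nat_lit 17) (nat_lit 5) (nat_lit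 20) (nat_lit 5) (nat_lit 21) (nat_lit 5) (nat_lit 299) (nat_lit 287) (nat_lit 134)))))) (XT.nd (nat_lit 546) (nat_lit 380) (nat_lit 0) (XT.nd (nat_lit 234) (nat_lit 152) (nat_lit 0) (XT.nd (nat_lit 78) (nat_lit 152) (nat_lit 0) (XT.lf (nat_lit 0) (nat_lit 109649725555) (nat_lit 304) (nat_lit 163587220003) (nat_lit 76) (nat_lit 1361656863) (nat_lit 17) (nat_lit 5) (nat_lit 21) (nat_lit 5) (nat_lit 18) (nat_lit 5) (nat_lit 300) (nat_lit 287) (nat_lit 133)) (XT.nd (nat_lit 78) (nat_lit 152) (nat_lit 0) (XT.lf (nat_lit 0) (nat_lit 138695001734) (nat_lit 304) (nat_lit 65939443661) (nat_lit 76) (nat_lit 84215563650) (nat_lit 17) (nat_lit 5) (nat_lit 21) (nat_lit 5) (nat_lit 18) (nat_lit 5) (nat_lit 301) (nat_lit 287) (nat_lit 132)) (XT.lf (nat_lit 0) (nat_lit 41601103523) (nat_lit 152) (nat_lit 129463211456) (nat_lit 228) (nat_lit 133097180906) (nat_lit 15) (nat_lit 5) (nat_lit 17) (nat_lit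 5) (nat_lit 18) (nat_lit 5) (nat_lit 302) (nat_lit 287) (nat_lit 131)))) (XT.nd (nat_lit 156) (nat_lit 152) (nat_lit 0) (XT.nd (nat_lit 78) (nat_lit 0) (nat_lit 0) (XT.lf (nat_lit 0) (nat_lit 161494824830) (nat_lit 152) (nat_lit 46331161482) (nat_lit 228) (nat_lit 112727691139) (nat_lit 15) (nat_lit 5) (nat_lit 17) (nat_lit 5) (nat_lit 18) (nat_lit 5) (nat_lit 303) (nat_lit 287) (nat_lit 130)) (XT.lf (nat_lit 0) (nat_lit 248573517789) (nat_lit 228) (nat_lit 48322301633) (nat_lit 76) (nat_lit 41277820763) (nat_lit 15) (nat_lit 5) (nat_lit 18) (nat_lit 5) (nat_lit 16) (nat_lit 5) (nat_lit 304) (nat_lit 287) (nat_lit 129))) (XT.nd (nat_lit 78) (nat_lit 0) (nat_lit 0) (XT.lf (nat_lit 0) (nat_lit 73759415541) (nat_lit 152) (nat_lit 221798682789) (nat_lit 228) (nat_lit 61406922587) (nat_lit 13) (nat_lit 5) (nat_lit 15) (nat_lit 5) (nat_lit 16) (nat_lit 5) (nat_lit 305) (nat_lit 287) (nat_lit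 128)) (XT.lf (nat_lit 0) (nat_lit 208355708834) (nat_lit 152) (nat_lit 139266881261) (nat_lit 228) (nat_lit 29531431081) (nat_lit 13) (nat_lit 5) (nat_lit 15) (nat_lit 5) (nat_lit 16) (nat_lit 5) (nat_lit 306) (nat_lit 287) (nat_lit 127))))) (XT.nd (nat_lit 234) (nat_lit 152) (nat_lit 0) (XT.nd (nat_lit 78) (nat_lit 152) (nat_lit 0) (XT.lf (nat_lit 0) (nat_lit 4649207531) (nat_lit 228) (nat_lit 45356229752) (nat_lit 76) (nat_lit 348943294034) (nat_lit 12) (nat_lit 5) (nat_lit 15) (nat_lit 5) (nat_lit 13) (nat_lit 5) (nat_lit 307) (nat_lit 287) (nat_lit 126)) (XT.nd (nat_lit 78) (nat_lit 0) (nat_lit 0) (XT.lf (nat_lit 0) (nat_lit 43369319974) (nat_lit 228) (nat_lit 331656599205) (nat_lit 76) (nat_lit 47127696629) (nat_lit 10) (nat_lit 5) (nat_lit 13) (nat_lit 5) (nat_lit 11) (nat_lit 5) (nat_lit 308) (nat_lit 287) (nat_lit 125)) (XT.lf (nat_lit 0) (nat_lit 87758152480) (nat_lit 228)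 (nat_lit 208648850013) (nat_lit 76) (nat_lit 150602200157) (nat_lit 10) (nat_lit 5) (nat_lit 13) (nat_lit 5) (nat_lit 11) (nat_lit 5) (nat_lit 309) (nat_lit 287) (nat_lit 124)))) (XT.nd (nat_lit 156) (nat_lit 0) (nat_lit 0) (XT.nd (nat_lit 78) (nat_lit 152) (nat_lit 0) (XT.lf (nat_lit 0) (nat_lit 135698034124) (nat_lit 228) (nat_lit 75800561205) (nat_lit 76) (nat_lit 262354646151) (nat_lit 10) (nat_lit 5) (nat_lit 13) (nat_lit 5) (nat_lit 11) (nat_lit 5) (nat_lit 310) (nat_lit 287) (nat_lit 123)) (XT.lf (nat_lit 0) (nat_lit 71239189096) (nat_lit 152) (nat_lit 117947168208) (nat_lit 228) (nat_lit 313521386441) (nat_lit 8) (nat_lit 5) (nat_lit 10) (nat_lit 5) (nat_lit 11) (nat_lit 5) (nat_lit 311) (nat_lit 287) (nat_lit 122))) (XT.nd (nat_lit 78) (nat_lit 0) (nat_lit 0) (XT.lf (nat_lit 0) (nat_lit 234352892016) (nat_lit 152) (nat_lit 14673324988) (nat_lit 228) (nat_lit 284678591914)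 (nat_lit 8) (nat_lit 5) (nat_lit 10) (nat_lit 5) (nat_lit 11) (nat_lit 5) (nat_lit 312) (nat_lit 287) (nat_lit 121)) (XT.lf (nat_lit 0) (nat_lit 315982761440) (nat_lit 228) (nat_lit 158995562573) (nat_lit 76) (nat_lit 92016955967) (nat_lit 8) (nat_lit 5) (nat_lit 11) (nat_lit 5) (nat_lit 9) (nat_lit 4) (nat_lit 313) (nat_lit 287) (nat_lit 120))))))) (XT.nd (nat_lit 1014) (nat_lit 0) (nat_lit 0) (XT.nd (nat_lit 468) (nat_lit 76) (nat_lit 0) (XT.nd (nat_lit 234) (nat_lit 152) (nat_lit 0) (XT.nd (nat_lit 78) (nat_lit 76) (nat_lit 0) (XT.lf (nat_lit 0) (nat_lit 388676910580) (nat_lit 228) (nat_lit 7791890748) (nat_lit 76) (nat_lit 206449701232) (nat_lit 8) (nat_lit 5) (nat_lit 11) (nat_lit 5) (nat_lit 9) (nat_lit 4) (nat_lit 314) (nat_lit 287) (nat_lit 119)) (XT.nd (nat_lit 78) (nat_lit 0) (nat_lit 0) (XT.lf (nat_lit 0) (nat_lit 163696790590) (nat_lit 76) (nat_lit 307426671909) (nat_lit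 152) (nat_lit 170277171080) (nat_lit 7) (nat_lit 5) (nat_lit 8) (nat_lit 5) (nat_lit 9) (nat_lit 4) (nat_lit 315) (nat_lit 287) (nat_lit 118)) (XT.lf (nat_lit 0) (nat_lit 349347639030) (nat_lit 76) (nat_lit 211031104349) (nat_lit 152) (nat_lit 122565551596) (nat_lit 7) (nat_lit 5) (nat_lit 8) (nat_lit 5) (nat_lit 9) (nat_lit 4) (nat_lit 316) (nat_lit 287) (nat_lit 117)))) (XT.nd (nat_lit 78) (nat_lit 152) (nat_lit 0) (XT.lf (nat_lit 0) (nat_lit 549850500589) (nat_lit 76) (nat_lit 106923909757) (nat_lit 152) (nat_lit 71037042105) (nat_lit 7) (nat_lit 5) (nat_lit 8) (nat_lit 5) (nat_lit 9) (nat_lit 4) (nat_lit 317) (nat_lit 287) (nat_lit 116)) (XT.nd (nat_lit 78) (nat_lit 152) (nat_lit 0) (XT.lf (nat_lit 0) (nat_lit 761014256949) (nat_lit 152) (nat_lit 10007005054) (nat_lit 0) (nat_lit 5236118660) (nat_lit 7) (nat_lit 5) (nat_lit 9) (nat_lit 4) (nat_lit 7) (nat_lit 4) (nat_lit 318)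 (nat_lit 287) (nat_lit 115)) (XT.lf (nat_lit 0) (nat_lit 49991233852) (nat_lit 152) (nat_lit 651796471686) (nat_lit 76) (nat_lit 126126372287) (nat_lit 5) (nat_lit 5) (nat_lit 7) (nat_lit 5) (nat_lit 6) (nat_lit 4) (nat_lit 319) (nat_lit 287) (nat_lit 114))))) (XT.nd (nat_lit 234) (nat_lit 76) (nat_lit 0) (XT.nd (nat_lit 78) (nat_lit 0) (nat_lit 0) (XT.lf (nat_lit 0) (nat_lit 119901500032) (nat_lit 152) (nat_lit 506383210448) (nat_lit 76) (nat_lit 257364471676) (nat_lit 5) (nat_lit 5) (nat_lit 7) (nat_lit 5) (nat_lit 6) (nat_lit 4) (nat_lit 320) (nat_lit 287) (nat_lit 113)) (XT.nd (nat_lit 78) (nat_lit 0) (nat_lit 0) (XT.lf (nat_lit 0) (nat_lit 195404558457) (nat_lit 152) (nat_lit 349336934495) (nat_lit 76) (nat_lit 399101604382) (nat_lit 5) (nat_lit 5) (nat_lit 7) (nat_lit 5) (nat_lit 6) (nat_lit 4) (nat_lit 321) (nat_lit 287) (nat_lit 112)) (XT.lf (nat_lit 0) (nat_lit 276947834660)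 (nat_lit 152) (nat_lit 179726999226) (nat_lit 76) (nat_lit 552177694154) (nat_lit 5) (nat_lit 5) (nat_lit 7) (nat_lit 5) (nat_lit 6) (nat_lit 4) (nat_lit 322) (nat_lit 287) (nat_lit 111)))) (XT.nd (nat_lit 156) (nat_lit 0) (nat_lit 0) (XT.nd (nat_lit 78) (nat_lit 0) (nat_lit 0) (XT.lf (nat_lit 0) (nat_lit 3633451214) (nat_lit 76) (nat_lit 361468481428) (nat_lit 152) (nat_lit 713953791937) (nat_lit 4) (nat_lit 5) (nat_lit 5) (nat_lit 5) (nat_lit 6) (nat_lit 4) (nat_lit 323) (nat_lit 287) (nat_lit 110)) (XT.lf (nat_lit 0) (nat_lit 211883932796) (nat_lit 76) (nat_lit 253338456342) (nat_lit 152) (nat_lit 689259665389) (nat_lit 4) (nat_lit 5) (nat_lit 5) (nat_lit 5) (nat_lit 6) (nat_lit 4) (nat_lit 324) (nat_lit 287) (nat_lit 109))) (XT.nd (nat_lit 78) (nat_lit 0) (nat_lit 0) (XT.lf (nat_lit 0) (nat_lit 436794417172) (nat_lit 76) (nat_lit 136558042770) (nat_lit 152) (nat_lit 662590032834)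 (nat_lit 4) (nat_lit 5) (nat_lit 5) (nat_lit 5) (nat_lit 6) (nat_lit 4) (nat_lit 325) (nat_lit 287) (nat_lit 108)) (XT.lf (nat_lit 0) (nat_lit 679697707212) (nat_lit 76) (nat_lit 10435208634) (nat_lit 152) (nat_lit 633786852006) (nat_lit 4) (nat_lit 5) (nat_lit 5) (nat_lit 5) (nat_lit 6) (nat_lit 4) (nat_lit 326) (nat_lit 287) (nat_lit 107)))))) (XT.nd (nat_lit 34866) (nat_lit 0) (nat_lit 1216) (XT.nd (nat_lit 34554) (nat_lit 0) (nat_lit 1748) (XT.nd (nat_lit 78) (nat_lit 0) (nat_lit 0) (XT.lf (nat_lit 0) (nat_lit 819280739651) (nat_lit 152) (nat_lit 479926947219) (nat_lit 0) (nat_lit 119485543658) (nat_lit 4) (nat_lit 5) (nat_lit 6) (nat_lit 4) (nat_lit 4) (nat_lit 4) (nat_lit 327) (nat_lit 287) (nat_lit 106)) (XT.nd (nat_lit 34398) (nat_lit 0) (nat_lit 1748) (XT.lf (nat_lit 0) (nat_lit 959031415850) (nat_lit 152) (nat_lit 302759298727) (nat_lit 0) (nat_lit 259236173626) (nat_lit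 4) (nat_lit 5) (nat_lit 6) (nat_lit 4) (nat_lit 4) (nat_lit 4) (nat_lit 328) (nat_lit 287) (nat_lit 105)) (XT.lf (nat_lit 0) (nat_lit 35381998894) (nat_lit 0) (nat_lit 35381998894) (nat_lit 380) (nat_lit 12434332179) (nat_lit 27) (nat_lit 5) (nat_lit 27) (nat_lit 3) (nat_lit 32) (nat_lit 3) (nat_lit 288) (nat_lit 288) (nat_lit 144)))) (XT.nd (nat_lit 156) (nat_lit 0) (nat_lit 0) (XT.nd (nat_lit 78) (nat_lit 0) (nat_lit 0) (XT.lf (nat_lit 0) (nat_lit 138862368476) (nat_lit 0) (nat_lit 8328670542) (nat_lit 380) (nat_lit 25861311155) (nat_lit 27) (nat_lit 5) (nat_lit 27) (nat_lit 3) (nat_lit 32) (nat_lit 3) (nat_lit 289) (nat_lit 288) (nat_lit 143)) (XT.lf (nat_lit 76) (nat_lit 32365666665) (nat_lit 0) (nat_lit 123141056273) (nat_lit 456) (nat_lit 24557807156) (nat_lit 28) (nat_lit 5) (nat_lit 27) (nat_lit 5) (nat_lit 33) (nat_lit 5) (nat_lit 290) (nat_lit 288) (nat_lit 142))) (XT.nd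 (nat_lit 78) (nat_lit 0) (nat_lit 76) (XT.lf (nat_lit 76) (nat_lit 105962347615) (nat_lit 0) (nat_lit 59670802288) (nat_lit 456) (nat_lit 21912897505) (nat_lit 28) (nat_lit 5) (nat_lit 27) (nat_lit 5) (nat_lit 33) (nat_lit 5) (nat_lit 291) (nat_lit 288) (nat_lit 141)) (XT.lf (nat_lit 0) (nat_lit 176783020745) (nat_lit 380) (nat_lit 10392938312) (nat_lit 456) (nat_lit 8433062582) (nat_lit 28) (nat_lit 5) (nat_lit 33) (nat_lit 5) (nat_lit 34) (nat_lit 5) (nat_lit 292) (nat_lit 288) (nat_lit 140))))) (XT.nd (nat_lit 234) (nat_lit 228) (nat_lit 0) (XT.nd (nat_lit 78) (nat_lit 380) (nat_lit 0) (XT.lf (nat_lit 76) (nat_lit 68362868202) (nat_lit 0) (nat_lit 123655880721) (nat_lit 456) (nat_lit 12042777240) (nat_lit 29) (nat_lit 5) (nat_lit 28) (nat_lit 5) (nat_lit 34) (nat_lit 5) (nat_lit 293) (nat_lit 288) (nat_lit 139)) (XT.nd (nat_lit 78) (nat_lit 380) (nat_lit 0) (XT.lf (nat_lit 76)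 (nat_lit 154010085242) (nat_lit 0) (nat_lit 54747268161) (nat_lit 456) (nat_lit 4410157841) (nat_lit 29) (nat_lit 5) (nat_lit 28) (nat_lit 5) (nat_lit 34) (nat_lit 5) (nat_lit 294) (nat_lit 288) (nat_lit 138)) (XT.lf (nat_lit 0) (nat_lit 4724920711) (nat_lit 456) (nat_lit 198790351989) (nat_lit 76) (nat_lit 19392641372) (nat_lit 23) (nat_lit 5) (nat_lit 29) (nat_lit 5) (nat_lit 24) (nat_lit 5) (nat_lit 295) (nat_lit 288) (nat_lit 137)))) (XT.nd (nat_lit 156) (nat_lit 228) (nat_lit 0) (XT.nd (nat_lit 78) (nat_lit 0) (nat_lit 0) (XT.lf (nat_lit 0) (nat_lit 17433901057) (nat_lit 456) (nat_lit 117457955454) (nat_lit 76) (nat_lit 98280021264) (nat_lit 23) (nat_lit 5) (nat_lit 29) (nat_lit 5) (nat_lit 24) (nat_lit 5) (nat_lit 296) (nat_lit 288) (nat_lit 136)) (XT.lf (nat_lit 0) (nat_lit 31159479995) (nat_lit 456) (nat_lit 29619077928) (nat_lit 76) (nat_lit 183478411443) (nat_lit 23) (nat_lit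 5) (nat_lit 29) (nat_lit 5) (nat_lit 24) (nat_lit 5) (nat_lit 297) (nat_lit 288) (nat_lit 135))) (XT.nd (nat_lit 78) (nat_lit 0) (nat_lit 0) (XT.lf (nat_lit 0) (nat_lit 48141011720) (nat_lit 304) (nat_lit 187920343857) (nat_lit 76) (nat_lit 19994881303) (nat_lit 20) (nat_lit 5) (nat_lit 24) (nat_lit 5) (nat_lit 21) (nat_lit 5) (nat_lit 298) (nat_lit 288) (nat_lit 134)) (XT.lf (nat_lit 0) (nat_lit 68890497642) (nat_lit 304) (nat_lit 94938741992) (nat_lit 76) (nat_lit 104777452662) (nat_lit 20) (nat_lit 5) (nat_lit 24) (nat_lit 5) (nat_lit 21) (nat_lit 5) (nat_lit 299) (nat_lit 288) (nat_lit 133))))))))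
noncomputable def xc120 : XT := (XT.nd (nat_lit 2028) (nat_lit 0) (nat_lit 0) (XT.nd (nat_lit 1014) (nat_lit 304) (nat_lit 0) (XT.nd (nat_lit 468) (nat_lit 532) (nat_lit 0) (XT.nd (nat_lit 234) (nat_lit 152) (nat_lit 0) (XT.nd (nat_lit 78) (nat_lit 0) (nat_lit 0) (XT.lf (nat_lit 0) (nat_lit 5769921471) (nat_lit 228) (nat_lit 85668690476) (nat_lit 304) (nat_lit 190711479592) (nat_lit 17) (nat_lit 5) (nat_lit 20) (nat_lit 5) (nat_lit 21) (nat_lit 5) (nat_lit 300) (nat_lit 288) (nat_lit 132)) (XT.nd (nat_lit 78) (nat_lit 0) (nat_lit 0) (XT.lf (nat_lit 0) (nat_lit 118423509557) (nat_lit 304) (nat_lit 176672111077) (nat_lit 76) (nat_lit 1470708240) (nat_lit 17) (nat_lit 5) (nat_lit 21) (nat_lit 5) (nat_lit 18) (nat_lit 5) (nat_lit 301) (nat_lit 288) (nat_lit 131)) (XT.lf (nat_lit 0) (nat_lit 149792274056) (nat_lit 304) (nat_lit 71212667185) (nat_lit 76) (nat_lit 90952918768) (nat_lit 17)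 (nat_lit 5) (nat_lit 21) (nat_lit 5) (nat_lit 18) (nat_lit 5) (nat_lit 302) (nat_lit 288) (nat_lit 130)))) (XT.nd (nat_lit 78) (nat_lit 0) (nat_lit 0) (XT.lf (nat_lit 0) (nat_lit 44931074864) (nat_lit 152) (nat_lit 139819978920) (nat_lit 228) (nat_lit 143743219484) (nat_lit 15) (nat_lit 5) (nat_lit 17) (nat_lit 5) (nat_lit 18) (nat_lit 5) (nat_lit 303) (nat_lit 288) (nat_lit 129)) (XT.nd (nat_lit 78) (nat_lit 0) (nat_lit 0) (XT.lf (nat_lit 0) (nat_lit 174416154390) (nat_lit 152) (nat_lit 50037386388) (nat_lit 228) (nat_lit 121744299120) (nat_lit 15) (nat_lit 5) (nat_lit 17) (nat_lit 5) (nat_lit 18) (nat_lit 5) (nat_lit 304) (nat_lit 288) (nat_lit 128)) (XT.lf (nat_lit 0) (nat_lit 268460771440) (nat_lit 228) (nat_lit 52186355323) (nat_lit 76) (nat_lit 44580282169) (nat_lit 15) (nat_lit 5) (nat_lit 18) (nat_lit 5) (nat_lit 16) (nat_lit 5) (nat_lit 305) (nat_lit 288) (nat_lit 127)))))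 (XT.nd (nat_lit 234) (nat_lit 304) (nat_lit 0) (XT.nd (nat_lit 78) (nat_lit 76) (nat_lit 0) (XT.lf (nat_lit 0) (nat_lit 79661855417) (nat_lit 152) (nat_lit 239542201925) (nat_lit 228) (nat_lit 66318048608) (nat_lit 13) (nat_lit 5) (nat_lit 15) (nat_lit 5) (nat_lit 16) (nat_lit 5) (nat_lit 306) (nat_lit 288) (nat_lit 126)) (XT.nd (nat_lit 78) (nat_lit 76) (nat_lit 0) (XT.lf (nat_lit 0) (nat_lit 225025727237) (nat_lit 152) (nat_lit 150407884088) (nat_lit 228) (nat_lit 31892623543) (nat_lit 13) (nat_lit 5) (nat_lit 15) (nat_lit 5) (nat_lit 16) (nat_lit 5) (nat_lit 307) (nat_lit 288) (nat_lit 125)) (XT.lf (nat_lit 0) (nat_lit 5022306996) (nat_lit 228) (nat_lit 48983211555) (nat_lit 76) (nat_lit 376859008916) (nat_lit 12) (nat_lit 5) (nat_lit 15) (nat_lit 5) (nat_lit 13) (nat_lit 5) (nat_lit 308) (nat_lit 288) (nat_lit 124)))) (XT.nd (nat_lit 156) (nat_lit 152) (nat_lit 0) (XT.nd (nat_lit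 78) (nat_lit 0) (nat_lit 0) (XT.lf (nat_lit 0) (nat_lit 46839986646) (nat_lit 228) (nat_lit 358187560141) (nat_lit 76) (nat_lit 50898259963) (nat_lit 10) (nat_lit 5) (nat_lit 13) (nat_lit 5) (nat_lit 11) (nat_lit 5) (nat_lit 309) (nat_lit 288) (nat_lit 123)) (XT.lf (nat_lit 0) (nat_lit 94779842711) (nat_lit 228) (nat_lit 225339307087) (nat_lit 76) (nat_lit 162650698025) (nat_lit 10) (nat_lit 5) (nat_lit 13) (nat_lit 5) (nat_lit 11) (nat_lit 5) (nat_lit 310) (nat_lit 288) (nat_lit 122))) (XT.nd (nat_lit 78) (nat_lit 152) (nat_lit 0) (XT.lf (nat_lit 0) (nat_lit 146554837995) (nat_lit 228) (nat_lit 81863262651) (nat_lit 76) (nat_lit 283343315857) (nat_lit 10) (nat_lit 5) (nat_lit 13) (nat_lit 5) (nat_lit 11) (nat_lit 5) (nat_lit 311) (nat_lit 288) (nat_lit 121)) (XT.lf (nat_lit 0) (nat_lit 76939633663) (nat_lit 152) (nat_lit 127382553663) (nat_lit 228) (nat_lit 338602095349) (nat_lit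 8) (nat_lit 5) (nat_lit 10) (nat_lit 5) (nat_lit 11) (nat_lit 5) (nat_lit 312) (nat_lit 288) (nat_lit 120)))))) (XT.nd (nat_lit 468) (nat_lit 228) (nat_lit 0) (XT.nd (nat_lit 234) (nat_lit 76) (nat_lit 0) (XT.nd (nat_lit 78) (nat_lit 0) (nat_lit 0) (XT.lf (nat_lit 0) (nat_lit 253102335821) (nat_lit 152) (nat_lit 15846831726) (nat_lit 228) (nat_lit 307451951482) (nat_lit 8) (nat_lit 5) (nat_lit 10) (nat_lit 5) (nat_lit 11) (nat_lit 5) (nat_lit 313) (nat_lit 288) (nat_lit 119)) (XT.nd (nat_lit 78) (nat_lit 0) (nat_lit 0) (XT.lf (nat_lit 0) (nat_lit 341262180339) (nat_lit 228) (nat_lit 171714023870) (nat_lit 76) (nat_lit 99378628453) (nat_lit 8) (nat_lit 5) (nat_lit 11) (nat_lit 5) (nat_lit 9) (nat_lit 4) (nat_lit 314) (nat_lit 288) (nat_lit 118)) (XT.lf (nat_lit 0) (nat_lit 419771802301) (nat_lit 228) (nat_lit 8414145981) (nat_lit 76) (nat_lit 222965969931) (nat_lit 8) (nat_lit 5) (nat_lit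 11) (nat_lit 5) (nat_lit 9) (nat_lit 4) (nat_lit 315) (nat_lit 288) (nat_lit 117)))) (XT.nd (nat_lit 78) (nat_lit 0) (nat_lit 0) (XT.lf (nat_lit 0) (nat_lit 176793602117) (nat_lit 76) (nat_lit 332020447217) (nat_lit 152) (nat_lit 183898573106) (nat_lit 7) (nat_lit 5) (nat_lit 8) (nat_lit 5) (nat_lit 9) (nat_lit 4) (nat_lit 316) (nat_lit 288) (nat_lit 116)) (XT.nd (nat_lit 78) (nat_lit 0) (nat_lit 0) (XT.lf (nat_lit 0) (nat_lit 377296439301) (nat_lit 76) (nat_lit 227913260804) (nat_lit 152) (nat_lit 132370081222) (nat_lit 7) (nat_lit 5) (nat_lit 8) (nat_lit 5) (nat_lit 9) (nat_lit 4) (nat_lit 317) (nat_lit 288) (nat_lit 115)) (XT.lf (nat_lit 0) (nat_lit 593839456514) (nat_lit 76) (nat_lit 115477515229) (nat_lit 152) (nat_lit 76719343899) (nat_lit 7) (nat_lit 5) (nat_lit 8) (nat_lit 5) (nat_lit 9) (nat_lit 4) (nat_lit 318) (nat_lit 288) (nat_lit 114))))) (XT.nd (nat_lit 234) (nat_lit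 76) (nat_lit 0) (XT.nd (nat_lit 78) (nat_lit 152) (nat_lit 0) (XT.lf (nat_lit 0) (nat_lit 821895967838) (nat_lit 152) (nat_lit 10806675187) (nat_lit 0) (nat_lit 5655278464) (nat_lit 7) (nat_lit 5) (nat_lit 9) (nat_lit 4) (nat_lit 7) (nat_lit 4) (nat_lit 319) (nat_lit 288) (nat_lit 113)) (XT.nd (nat_lit 78) (nat_lit 0) (nat_lit 0) (XT.lf (nat_lit 0) (nat_lit 53991099292) (nat_lit 152) (nat_lit 703939288416) (nat_lit 76) (nat_lit 136216767574) (nat_lit 5) (nat_lit 5) (nat_lit 7) (nat_lit 5) (nat_lit 6) (nat_lit 4) (nat_lit 320) (nat_lit 288) (nat_lit 112)) (XT.lf (nat_lit 0) (nat_lit 129494144787) (nat_lit 152) (nat_lit 546893033020) (nat_lit 76) (nat_lit 277953893766) (nat_lit 5) (nat_lit 5) (nat_lit 7) (nat_lit 5) (nat_lit 6) (nat_lit 4) (nat_lit 321) (nat_lit 288) (nat_lit 111)))) (XT.nd (nat_lit 156) (nat_lit 76) (nat_lit 0) (XT.nd (nat_lit 78) (nat_lit 0) (nat_lit 0) (XT.lf (nat_lit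 0) (nat_lit 211037409016) (nat_lit 152) (nat_lit 377283116787) (nat_lit 76) (nat_lit 431029977506) (nat_lit 5) (nat_lit 5) (nat_lit 7) (nat_lit 5) (nat_lit 6) (nat_lit 4) (nat_lit 322) (nat_lit 288) (nat_lit 110)) (XT.lf (nat_lit 0) (nat_lit 299104111323) (nat_lit 152) (nat_lit 194104443917) (nat_lit 76) (nat_lit 596352136329) (nat_lit 5) (nat_lit 5) (nat_lit 7) (nat_lit 5) (nat_lit 6) (nat_lit 4) (nat_lit 323) (nat_lit 288) (nat_lit 109))) (XT.nd (nat_lit 78) (nat_lit 0) (nat_lit 0) (XT.lf (nat_lit 0) (nat_lit 3924824451) (nat_lit 76) (nat_lit 390385696134) (nat_lit 152) (nat_lit 771069624773) (nat_lit 4) (nat_lit 5) (nat_lit 5) (nat_lit 5) (nat_lit 6) (nat_lit 4) (nat_lit 324) (nat_lit 288) (nat_lit 108)) (XT.lf (nat_lit 0) (nat_lit 228835292920) (nat_lit 76) (nat_lit 273605288582) (nat_lit 152) (nat_lit 744400002954) (nat_lit 4) (nat_lit 5) (nat_lit 5) (nat_lit 5) (nat_lit 6) (nat_lit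 4) (nat_lit 325) (nat_lit 288) (nat_lit 107))))))) (XT.nd (nat_lit 35490) (nat_lit 0) (nat_lit 304) (XT.nd (nat_lit 34944) (nat_lit 0) (nat_lit 1216) (XT.nd (nat_lit 34710) (nat_lit 0) (nat_lit 1748) (XT.nd (nat_lit 78) (nat_lit 0) (nat_lit 0) (XT.lf (nat_lit 0) (nat_lit 471738568231) (nat_lit 76) (nat_lit 147482460019) (nat_lit 152) (nat_lit 715596832067) (nat_lit 4) (nat_lit 5) (nat_lit 5) (nat_lit 5) (nat_lit 6) (nat_lit 4) (nat_lit 326) (nat_lit 288) (nat_lit 106)) (XT.nd (nat_lit 34554) (nat_lit 0) (nat_lit 1748) (XT.lf (nat_lit 0) (nat_lit 734074077201) (nat_lit 76) (nat_lit 11269815905) (nat_lit 152) (nat_lit 684489426653) (nat_lit 4) (nat_lit 5) (nat_lit 5) (nat_lit 5) (nat_lit 6) (nat_lit 4) (nat_lit 327) (nat_lit 288) (nat_lit 105)) (XT.lf (nat_lit 0) (nat_lit 38213497483) (nat_lit 0) (nat_lit 38213497483) (nat_lit 380) (nat_lit 13427029475) (nat_lit 27) (nat_lit 5) (nat_lit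 27) (nat_lit 3) (nat_lit 32) (nat_lit 3) (nat_lit 289) (nat_lit 289) (nat_lit 142)))) (XT.nd (nat_lit 78) (nat_lit 0) (nat_lit 0) (XT.lf (nat_lit 0) (nat_lit 149973096243) (nat_lit 0) (nat_lit 8996702476) (nat_lit 380) (nat_lit 27926421088) (nat_lit 27) (nat_lit 5) (nat_lit 27) (nat_lit 3) (nat_lit 32) (nat_lit 3) (nat_lit 290) (nat_lit 289) (nat_lit 141)) (XT.nd (nat_lit 78) (nat_lit 0) (nat_lit 0) (XT.lf (nat_lit 76) (nat_lit 34956965348) (nat_lit 0) (nat_lit 132993524962) (nat_lit 456) (nat_lit 26518906557) (nat_lit 28) (nat_lit 5) (nat_lit 27) (nat_lit 5) (nat_lit 33) (nat_lit 5) (nat_lit 291) (nat_lit 289) (nat_lit 140)) (XT.lf (nat_lit 76) (nat_lit 114441229267) (nat_lit 0) (nat_lit 64445562940) (nat_lit 456) (nat_lit 23662665258) (nat_lit 28) (nat_lit 5) (nat_lit 27) (nat_lit 5) (nat_lit 33) (nat_lit 5) (nat_lit 292) (nat_lit 289) (nat_lit 139))))) (XT.nd (nat_lit 234) (nat_lit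 608) (nat_lit 0) (XT.nd (nat_lit 78) (nat_lit 0) (nat_lit 0) (XT.lf (nat_lit 0) (nat_lit 190928406794) (nat_lit 380) (nat_lit 11222341943) (nat_lit 456) (nat_lit 9106743127) (nat_lit 28) (nat_lit 5) (nat_lit 33) (nat_lit 5) (nat_lit 34) (nat_lit 5) (nat_lit 293) (nat_lit 289) (nat_lit 138)) (XT.nd (nat_lit 78) (nat_lit 0) (nat_lit 0) (XT.lf (nat_lit 76) (nat_lit 73833877663) (nat_lit 0) (nat_lit 133548959895) (nat_lit 456) (nat_lit 13003374013) (nat_lit 29) (nat_lit 5) (nat_lit 28) (nat_lit 5) (nat_lit 34) (nat_lit 5) (nat_lit 294) (nat_lit 289) (nat_lit 137)) (XT.lf (nat_lit 76) (nat_lit 166332725399) (nat_lit 0) (nat_lit 59127613241) (nat_lit 456) (nat_lit 4760354351) (nat_lit 29) (nat_lit 5) (nat_lit 28) (nat_lit 5) (nat_lit 34) (nat_lit 5) (nat_lit 295) (nat_lit 289) (nat_lit 136)))) (XT.nd (nat_lit 156) (nat_lit 228) (nat_lit 0) (XT.nd (nat_lit 78) (nat_lit 0) (nat_lit 0) (XT.lf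 (nat_lit 0) (nat_lit 5105252335) (nat_lit 456) (nat_lit 214691419807) (nat_lit 76) (nat_lit 20943664532) (nat_lit 23) (nat_lit 5) (nat_lit 29) (nat_lit 5) (nat_lit 24) (nat_lit 5) (nat_lit 296) (nat_lit 289) (nat_lit 135)) (XT.lf (nat_lit 0) (nat_lit 18830777926) (nat_lit 456) (nat_lit 126852591574) (nat_lit 76) (nat_lit 106142063567) (nat_lit 23) (nat_lit 5) (nat_lit 29) (nat_lit 5) (nat_lit 24) (nat_lit 5) (nat_lit 297) (nat_lit 289) (nat_lit 134))) (XT.nd (nat_lit 78) (nat_lit 228) (nat_lit 0) (XT.lf (nat_lit 0) (nat_lit 33654242825) (nat_lit 456) (nat_lit 31986752018) (nat_lit 76) (nat_lit 198156351582) (nat_lit 23) (nat_lit 5) (nat_lit 29) (nat_lit 5) (nat_lit 24) (nat_lit 5) (nat_lit 298) (nat_lit 289) (nat_lit 133)) (XT.lf (nat_lit 0) (nat_lit 51994189764) (nat_lit 304) (nat_lit 202951993252) (nat_lit 76) (nat_lit 21594382401) (nat_lit 20) (nat_lit 5) (nat_lit 24) (nat_lit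 5) (nat_lit 21) (nat_lit 5) (nat_lit 299) (nat_lit 289) (nat_lit 132)))))) (XT.nd (nat_lit 546) (nat_lit 532) (nat_lit 0) (XT.nd (nat_lit 234) (nat_lit 152) (nat_lit 0) (XT.nd (nat_lit 78) (nat_lit 228) (nat_lit 0) (XT.lf (nat_lit 0) (nat_lit 74403494033) (nat_lit 304) (nat_lit 102532009764) (nat_lit 76) (nat_lit 113159566091) (nat_lit 20) (nat_lit 5) (nat_lit 24) (nat_lit 5) (nat_lit 21) (nat_lit 5) (nat_lit 300) (nat_lit 289) (nat_lit 131)) (XT.nd (nat_lit 78) (nat_lit 0) (nat_lit 0) (XT.lf (nat_lit 0) (nat_lit 6233300406) (nat_lit 228) (nat_lit 92522069895) (nat_lit 304) (nat_lit 205966579024) (nat_lit 17) (nat_lit 5) (nat_lit 20) (nat_lit 5) (nat_lit 21) (nat_lit 5) (nat_lit 301) (nat_lit 289) (nat_lit 130)) (XT.lf (nat_lit 0) (nat_lit 127898938639) (nat_lit 304) (nat_lit 190804091103) (nat_lit 76) (nat_lit 1588466775) (nat_lit 17) (nat_lit 5) (nat_lit 21) (nat_lit 5) (nat_lit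 18) (nat_lit 5) (nat_lit 302) (nat_lit 289) (nat_lit 129)))) (XT.nd (nat_lit 156) (nat_lit 0) (nat_lit 0) (XT.nd (nat_lit 78) (nat_lit 152) (nat_lit 0) (XT.lf (nat_lit 0) (nat_lit 161777089608) (nat_lit 304) (nat_lit 76908024208) (nat_lit 76) (nat_lit 98229246599) (nat_lit 17) (nat_lit 5) (nat_lit 21) (nat_lit 5) (nat_lit 18) (nat_lit 5) (nat_lit 303) (nat_lit 289) (nat_lit 128)) (XT.lf (nat_lit 0) (nat_lit 48527175272) (nat_lit 152) (nat_lit 151005329074) (nat_lit 228) (nat_lit 155241188792) (nat_lit 15) (nat_lit 5) (nat_lit 17) (nat_lit 5) (nat_lit 18) (nat_lit 5) (nat_lit 304) (nat_lit 289) (nat_lit 127))) (XT.nd (nat_lit 78) (nat_lit 0) (nat_lit 0) (XT.lf (nat_lit 0) (nat_lit 188370941573) (nat_lit 152) (nat_lit 54040147522) (nat_lit 228) (nat_lit 131482465040) (nat_lit 15) (nat_lit 5) (nat_lit 17) (nat_lit 5) (nat_lit 18) (nat_lit 5) (nat_lit 305) (nat_lit 289) (nat_lit 126))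 (XT.lf (nat_lit 0) (nat_lit 289938809620) (nat_lit 228) (nat_lit 56359780174) (nat_lit 76) (nat_lit 48146906856) (nat_lit 15) (nat_lit 5) (nat_lit 18) (nat_lit 5) (nat_lit 16) (nat_lit 5) (nat_lit 306) (nat_lit 289) (nat_lit 125))))) (XT.nd (nat_lit 234) (nat_lit 304) (nat_lit 0) (XT.nd (nat_lit 78) (nat_lit 76) (nat_lit 0) (XT.lf (nat_lit 0) (nat_lit 86036249866) (nat_lit 152) (nat_lit 258705256159) (nat_lit 228) (nat_lit 71622268400) (nat_lit 13) (nat_lit 5) (nat_lit 15) (nat_lit 5) (nat_lit 16) (nat_lit 5) (nat_lit 307) (nat_lit 289) (nat_lit 124)) (XT.nd (nat_lit 78) (nat_lit 76) (nat_lit 0) (XT.lf (nat_lit 0) (nat_lit 243029124320) (nat_lit 152) (nat_lit 162440216741) (nat_lit 228) (nat_lit 34442900004) (nat_lit 13) (nat_lit 5) (nat_lit 15) (nat_lit 5) (nat_lit 16) (nat_lit 5) (nat_lit 308) (nat_lit 289) (nat_lit 123)) (XT.lf (nat_lit 0) (nat_lit 5425088523) (nat_lit 228) (nat_lit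 52900568259) (nat_lit 76) (nat_lit 407007945128) (nat_lit 12) (nat_lit 5) (nat_lit 15) (nat_lit 5) (nat_lit 13) (nat_lit 5) (nat_lit 309) (nat_lit 289) (nat_lit 122)))) (XT.nd (nat_lit 156) (nat_lit 152) (nat_lit 0) (XT.nd (nat_lit 78) (nat_lit 0) (nat_lit 0) (XT.lf (nat_lit 0) (nat_lit 50588146719) (nat_lit 228) (nat_lit 386841221501) (nat_lit 76) (nat_lit 54970418774) (nat_lit 10) (nat_lit 5) (nat_lit 13) (nat_lit 5) (nat_lit 11) (nat_lit 5) (nat_lit 310) (nat_lit 289) (nat_lit 121)) (XT.lf (nat_lit 0) (nat_lit 102363120073) (nat_lit 228) (nat_lit 243365207718) (nat_lit 76) (nat_lit 175663029806) (nat_lit 10) (nat_lit 5) (nat_lit 13) (nat_lit 5) (nat_lit 11) (nat_lit 5) (nat_lit 311) (nat_lit 289) (nat_lit 120))) (XT.nd (nat_lit 78) (nat_lit 152) (nat_lit 0) (XT.lf (nat_lit 0) (nat_lit 158280049058) (nat_lit 228) (nat_lit 88411171870) (nat_lit 76) (nat_lit 306011036625) (nat_lit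 10) (nat_lit 5) (nat_lit 13) (nat_lit 5) (nat_lit 11) (nat_lit 5) (nat_lit 312) (nat_lit 289) (nat_lit 119)) (XT.lf (nat_lit 0) (nat_lit 83095926989) (nat_lit 152) (nat_lit 137572825307) (nat_lit 228) (nat_lit 365689403916) (nat_lit 8) (nat_lit 5) (nat_lit 10) (nat_lit 5) (nat_lit 11) (nat_lit 5) (nat_lit 313) (nat_lit 289) (nat_lit 118))))))))
noncomputable def xc121 : XT := (XT.nd (nat_lit 36738) (nat_lit 0) (nat_lit 76) (XT.nd (nat_lit 35646) (nat_lit 0) (nat_lit 988) (XT.nd (nat_lit 468) (nat_lit 228) (nat_lit 0) (XT.nd (nat_lit 234) (nat_lit 76) (nat_lit 0) (XT.nd (nat_lit 78) (nat_lit 0) (nat_lit 0) (XT.lf (nat_lit 0) (nat_lit 273351562162) (nat_lit 152) (nat_lit 17114270256) (nat_lit 228) (nat_lit 332047312174) (nat_lit 8) (nat_lit 5) (nat_lit 10) (nat_lit 5) (nat_lit 11) (nat_lit 5) (nat_lit 314) (nat_lit 289) (nat_lit 117)) (XT.nd (nat_lit 78) (nat_lit 0) (nat_lit 0) (XT.lf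 (nat_lit 0) (nat_lit 368563838909) (nat_lit 228) (nat_lit 185450130939) (nat_lit 76) (nat_lit 107329189656) (nat_lit 8) (nat_lit 5) (nat_lit 11) (nat_lit 5) (nat_lit 9) (nat_lit 4) (nat_lit 315) (nat_lit 289) (nat_lit 116)) (XT.lf (nat_lit 0) (nat_lit 453354179950) (nat_lit 228) (nat_lit 9086337992) (nat_lit 76) (nat_lit 240803498384) (nat_lit 8) (nat_lit 5) (nat_lit 11) (nat_lit 5) (nat_lit 9) (nat_lit 4) (nat_lit 316) (nat_lit 289) (nat_lit 115)))) (XT.nd (nat_lit 78) (nat_lit 0) (nat_lit 0) (XT.lf (nat_lit 0) (nat_lit 190938006164) (nat_lit 76) (nat_lit 358581775686) (nat_lit 152) (nat_lit 198609797379) (nat_lit 7) (nat_lit 5) (nat_lit 8) (nat_lit 5) (nat_lit 9) (nat_lit 4) (nat_lit 317) (nat_lit 289) (nat_lit 114)) (XT.nd (nat_lit 78) (nat_lit 0) (nat_lit 0) (XT.lf (nat_lit 0) (nat_lit 407481002480) (nat_lit 76) (nat_lit 246146037123) (nat_lit 152) (nat_lit 142959075151) (nat_lit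 7) (nat_lit 5) (nat_lit 8) (nat_lit 5) (nat_lit 9) (nat_lit 4) (nat_lit 318) (nat_lit 289) (nat_lit 113)) (XT.lf (nat_lit 0) (nat_lit 641347398253) (nat_lit 76) (nat_lit 124715452980) (nat_lit 152) (nat_lit 82856324217) (nat_lit 7) (nat_lit 5) (nat_lit 8) (nat_lit 5) (nat_lit 9) (nat_lit 4) (nat_lit 319) (nat_lit 289) (nat_lit 112))))) (XT.nd (nat_lit 234) (nat_lit 76) (nat_lit 0) (XT.nd (nat_lit 78) (nat_lit 152) (nat_lit 0) (XT.lf (nat_lit 0) (nat_lit 887648134234) (nat_lit 152) (nat_lit 11670445939) (nat_lit 0) (nat_lit 6107932489) (nat_lit 7) (nat_lit 5) (nat_lit 9) (nat_lit 4) (nat_lit 7) (nat_lit 4) (nat_lit 320) (nat_lit 289) (nat_lit 111)) (XT.nd (nat_lit 78) (nat_lit 0) (nat_lit 0) (XT.lf (nat_lit 0) (nat_lit 58310873118) (nat_lit 152) (nat_lit 760253659022) (nat_lit 76) (nat_lit 147114353754) (nat_lit 5) (nat_lit 5) (nat_lit 7) (nat_lit 5) (nat_lit 6) (nat_lit 4) (nat_lit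 321) (nat_lit 289) (nat_lit 110)) (XT.lf (nat_lit 0) (nat_lit 139854126260) (nat_lit 152) (nat_lit 590643760415) (nat_lit 76) (nat_lit 300190431910) (nat_lit 5) (nat_lit 5) (nat_lit 7) (nat_lit 5) (nat_lit 6) (nat_lit 4) (nat_lit 322) (nat_lit 289) (nat_lit 109)))) (XT.nd (nat_lit 156) (nat_lit 76) (nat_lit 0) (XT.nd (nat_lit 78) (nat_lit 0) (nat_lit 0) (XT.lf (nat_lit 0) (nat_lit 227920818302) (nat_lit 152) (nat_lit 407465103865) (nat_lit 76) (nat_lit 465512585561) (nat_lit 5) (nat_lit 5) (nat_lit 7) (nat_lit 5) (nat_lit 6) (nat_lit 4) (nat_lit 323) (nat_lit 289) (nat_lit 108)) (XT.lf (nat_lit 0) (nat_lit 323032825938) (nat_lit 152) (nat_lit 209632186222) (nat_lit 76) (nat_lit 644060501545) (nat_lit 5) (nat_lit 5) (nat_lit 7) (nat_lit 5) (nat_lit 6) (nat_lit 4) (nat_lit 324) (nat_lit 289) (nat_lit 107))) (XT.nd (nat_lit 78) (nat_lit 0) (nat_lit 0) (XT.lf (nat_lit 0) (nat_lit 4239408092)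 (nat_lit 76) (nat_lit 421616325652) (nat_lit 152) (nat_lit 832754791361) (nat_lit 4) (nat_lit 5) (nat_lit 5) (nat_lit 5) (nat_lit 6) (nat_lit 4) (nat_lit 325) (nat_lit 289) (nat_lit 106)) (XT.lf (nat_lit 0) (nat_lit 247142669765) (nat_lit 76) (nat_lit 295493502250) (nat_lit 152) (nat_lit 803951629677) (nat_lit 4) (nat_lit 5) (nat_lit 5) (nat_lit 5) (nat_lit 6) (nat_lit 4) (nat_lit 326) (nat_lit 289) (nat_lit 105)))))) (XT.nd (nat_lit 546) (nat_lit 760) (nat_lit 0) (XT.nd (nat_lit 234) (nat_lit 0) (nat_lit 0) (XT.nd (nat_lit 78) (nat_lit 0) (nat_lit 0) (XT.lf (nat_lit 0) (nat_lit 41271382045) (nat_lit 0) (nat_lit 41271382045) (nat_lit 380) (nat_lit 14499434908) (nat_lit 27) (nat_lit 5) (nat_lit 27) (nat_lit 3) (nat_lit 32) (nat_lit 3) (nat_lit 290) (nat_lit 290) (nat_lit 140)) (XT.nd (nat_lit 78) (nat_lit 0) (nat_lit 0) (XT.lf (nat_lit 0) (nat_lit 161972434246) (nat_lit 0) (nat_lit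 9717928977) (nat_lit 380) (nat_lit 30157281209) (nat_lit 27) (nat_lit 5) (nat_lit 27) (nat_lit 3) (nat_lit 32) (nat_lit 3) (nat_lit 291) (nat_lit 290) (nat_lit 139)) (XT.lf (nat_lit 76) (nat_lit 37755276134) (nat_lit 0) (nat_lit 143634022209) (nat_lit 456) (nat_lit 28637396816) (nat_lit 28) (nat_lit 5) (nat_lit 27) (nat_lit 5) (nat_lit 33) (nat_lit 5) (nat_lit 292) (nat_lit 290) (nat_lit 138)))) (XT.nd (nat_lit 156) (nat_lit 0) (nat_lit 76) (XT.nd (nat_lit 78) (nat_lit 0) (nat_lit 76) (XT.lf (nat_lit 76) (nat_lit 123598151273) (nat_lit 0) (nat_lit 69602148021) (nat_lit 456) (nat_lit 25552880084) (nat_lit 28) (nat_lit 5) (nat_lit 27) (nat_lit 5) (nat_lit 33) (nat_lit 5) (nat_lit 293) (nat_lit 290) (nat_lit 137)) (XT.lf (nat_lit 0) (nat_lit 206205032210) (nat_lit 380) (nat_lit 12118387672) (nat_lit 456) (nat_lit 9834455706) (nat_lit 28) (nat_lit 5) (nat_lit 33) (nat_lit 5) (nat_lit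 34) (nat_lit 5) (nat_lit 294) (nat_lit 290) (nat_lit 136))) (XT.nd (nat_lit 78) (nat_lit 0) (nat_lit 0) (XT.lf (nat_lit 76) (nat_lit 79742285412) (nat_lit 0) (nat_lit 144233398563) (nat_lit 456) (nat_lit 14041221603) (nat_lit 29) (nat_lit 5) (nat_lit 28) (nat_lit 5) (nat_lit 34) (nat_lit 5) (nat_lit 295) (nat_lit 290) (nat_lit 135)) (XT.lf (nat_lit 76) (nat_lit 179640915223) (nat_lit 0) (nat_lit 63858305519) (nat_lit 456) (nat_lit 5138939800) (nat_lit 29) (nat_lit 5) (nat_lit 28) (nat_lit 5) (nat_lit 34) (nat_lit 5) (nat_lit 296) (nat_lit 290) (nat_lit 134))))) (XT.nd (nat_lit 234) (nat_lit 456) (nat_lit 0) (XT.nd (nat_lit 78) (nat_lit 0) (nat_lit 0) (XT.lf (nat_lit 0) (nat_lit 5515676952) (nat_lit 456) (nat_lit 231864881246) (nat_lit 76) (nat_lit 22618824918) (nat_lit 23) (nat_lit 5) (nat_lit 29) (nat_lit 5) (nat_lit 24) (nat_lit 5) (nat_lit 297) (nat_lit 290) (nat_lit 133)) (XT.nd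 (nat_lit 78) (nat_lit 0) (nat_lit 0) (XT.lf (nat_lit 0) (nat_lit 20339096114) (nat_lit 456) (nat_lit 136999083951) (nat_lit 76) (nat_lit 114633120526) (nat_lit 23) (nat_lit 5) (nat_lit 29) (nat_lit 5) (nat_lit 24) (nat_lit 5) (nat_lit 298) (nat_lit 290) (nat_lit 132)) (XT.lf (nat_lit 0) (nat_lit 36348300726) (nat_lit 456) (nat_lit 34544104263) (nat_lit 76) (nat_lit 214008574407) (nat_lit 23) (nat_lit 5) (nat_lit 29) (nat_lit 5) (nat_lit 24) (nat_lit 5) (nat_lit 299) (nat_lit 290) (nat_lit 131)))) (XT.nd (nat_lit 156) (nat_lit 228) (nat_lit 0) (XT.nd (nat_lit 78) (nat_lit 0) (nat_lit 0) (XT.lf (nat_lit 0) (nat_lit 56155351409) (nat_lit 304) (nat_lit 219186456799) (nat_lit 76) (nat_lit 23321856341) (nat_lit 20) (nat_lit 5) (nat_lit 24) (nat_lit 5) (nat_lit 21) (nat_lit 5) (nat_lit 300) (nat_lit 290) (nat_lit 130)) (XT.lf (nat_lit 0) (nat_lit 80357279541) (nat_lit 304) (nat_lit 110733000255)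 (nat_lit 76) (nat_lit 122212260405) (nat_lit 20) (nat_lit 5) (nat_lit 24) (nat_lit 5) (nat_lit 21) (nat_lit 5) (nat_lit 301) (nat_lit 290) (nat_lit 129))) (XT.nd (nat_lit 78) (nat_lit 0) (nat_lit 0) (XT.lf (nat_lit 0) (nat_lit 6733494975) (nat_lit 228) (nat_lit 99923736190) (nat_lit 304) (nat_lit 222442345903) (nat_lit 17) (nat_lit 5) (nat_lit 20) (nat_lit 5) (nat_lit 21) (nat_lit 5) (nat_lit 302) (nat_lit 290) (nat_lit 128)) (XT.lf (nat_lit 0) (nat_lit 138132181164) (nat_lit 304) (nat_lit 206066884732) (nat_lit 76) (nat_lit 1715631459) (nat_lit 17) (nat_lit 5) (nat_lit 21) (nat_lit 5) (nat_lit 18) (nat_lit 5) (nat_lit 303) (nat_lit 290) (nat_lit 127))))))) (XT.nd (nat_lit 1014) (nat_lit 228) (nat_lit 0) (XT.nd (nat_lit 468) (nat_lit 380) (nat_lit 0) (XT.nd (nat_lit 234) (nat_lit 152) (nat_lit 0) (XT.nd (nat_lit 78) (nat_lit 152) (nat_lit 0) (XT.lf (nat_lit 0) (nat_lit 174720485881)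 (nat_lit 304) (nat_lit 83059246089) (nat_lit 76) (nat_lit 106087667199) (nat_lit 17) (nat_lit 5) (nat_lit 21) (nat_lit 5) (nat_lit 18) (nat_lit 5) (nat_lit 304) (nat_lit 290) (nat_lit 126)) (XT.nd (nat_lit 78) (nat_lit 0) (nat_lit 0) (XT.lf (nat_lit 0) (nat_lit 52410733398) (nat_lit 152) (nat_lit 163085542644) (nat_lit 228) (nat_lit 167659207961) (nat_lit 15) (nat_lit 5) (nat_lit 17) (nat_lit 5) (nat_lit 18) (nat_lit 5) (nat_lit 305) (nat_lit 290) (nat_lit 125)) (XT.lf (nat_lit 0) (nat_lit 203441898477) (nat_lit 152) (nat_lit 58363162327) (nat_lit 228) (nat_lit 141999880823) (nat_lit 15) (nat_lit 5) (nat_lit 17) (nat_lit 5) (nat_lit 18) (nat_lit 5) (nat_lit 306) (nat_lit 290) (nat_lit 124)))) (XT.nd (nat_lit 78) (nat_lit 152) (nat_lit 0) (XT.lf (nat_lit 0) (nat_lit 313134923018) (nat_lit 228) (nat_lit 60867290662) (nat_lit 76) (nat_lit 51998832685) (nat_lit 15) (nat_lit 5) (nat_lit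 18) (nat_lit 5) (nat_lit 16) (nat_lit 5) (nat_lit 307) (nat_lit 290) (nat_lit 123)) (XT.nd (nat_lit 78) (nat_lit 0) (nat_lit 0) (XT.lf (nat_lit 0) (nat_lit 92920389580) (nat_lit 152) (nat_lit 279401400657) (nat_lit 228) (nat_lit 77351000406) (nat_lit 13) (nat_lit 5) (nat_lit 15) (nat_lit 5) (nat_lit 16) (nat_lit 5) (nat_lit 308) (nat_lit 290) (nat_lit 122)) (XT.lf (nat_lit 0) (nat_lit 262472602159) (nat_lit 152) (nat_lit 175435178530) (nat_lit 228) (nat_lit 37197360277) (nat_lit 13) (nat_lit 5) (nat_lit 15) (nat_lit 5) (nat_lit 16) (nat_lit 5) (nat_lit 309) (nat_lit 290) (nat_lit 121))))) (XT.nd (nat_lit 234) (nat_lit 152) (nat_lit 0) (XT.nd (nat_lit 78) (nat_lit 152) (nat_lit 0) (XT.lf (nat_lit 0) (nat_lit 5859950343) (nat_lit 228) (nat_lit 57131498990) (nat_lit 76) (nat_lit 439568765495) (nat_lit 12) (nat_lit 5) (nat_lit 15) (nat_lit 5) (nat_lit 13) (nat_lit 5) (nat_lit 310) (nat_lit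 290) (nat_lit 120)) (XT.nd (nat_lit 78) (nat_lit 0) (nat_lit 0) (XT.lf (nat_lit 0) (nat_lit 54636022480) (nat_lit 228) (nat_lit 417787367429) (nat_lit 76) (nat_lit 59368307775) (nat_lit 10) (nat_lit 5) (nat_lit 13) (nat_lit 5) (nat_lit 11) (nat_lit 5) (nat_lit 311) (nat_lit 290) (nat_lit 119)) (XT.lf (nat_lit 0) (nat_lit 110552932663) (nat_lit 228) (nat_lit 262833357861) (nat_lit 76) (nat_lit 189716308764) (nat_lit 10) (nat_lit 5) (nat_lit 13) (nat_lit 5) (nat_lit 11) (nat_lit 5) (nat_lit 312) (nat_lit 290) (nat_lit 118)))) (XT.nd (nat_lit 156) (nat_lit 0) (nat_lit 0) (XT.nd (nat_lit 78) (nat_lit 152) (nat_lit 0) (XT.lf (nat_lit 0) (nat_lit 170943159450) (nat_lit 228) (nat_lit 95483078143) (nat_lit 76) (nat_lit 330492138604) (nat_lit 10) (nat_lit 5) (nat_lit 13) (nat_lit 5) (nat_lit 11) (nat_lit 5) (nat_lit 313) (nat_lit 290) (nat_lit 117)) (XT.lf (nat_lit 0) (nat_lit 89744563626)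 (nat_lit 152) (nat_lit 148578366138) (nat_lit 228) (nat_lit 394943819723) (nat_lit 8) (nat_lit 5) (nat_lit 10) (nat_lit 5) (nat_lit 11) (nat_lit 5) (nat_lit 314) (nat_lit 290) (nat_lit 116))) (XT.nd (nat_lit 78) (nat_lit 0) (nat_lit 0) (XT.lf (nat_lit 0) (nat_lit 295220578317) (nat_lit 152) (nat_lit 18483147809) (nat_lit 228) (nat_lit 358610415199) (nat_lit 8) (nat_lit 5) (nat_lit 10) (nat_lit 5) (nat_lit 11) (nat_lit 5) (nat_lit 315) (nat_lit 290) (nat_lit 115)) (XT.lf (nat_lit 0) (nat_lit 398049532564) (nat_lit 228) (nat_lit 200285271352) (nat_lit 76) (nat_lit 115915757105) (nat_lit 8) (nat_lit 5) (nat_lit 11) (nat_lit 5) (nat_lit 9) (nat_lit 4) (nat_lit 316) (nat_lit 290) (nat_lit 114)))))) (XT.nd (nat_lit 546) (nat_lit 0) (nat_lit 0) (XT.nd (nat_lit 234) (nat_lit 152) (nat_lit 0) (XT.nd (nat_lit 78) (nat_lit 76) (nat_lit 0) (XT.lf (nat_lit 0) (nat_lit 489623057441) (nat_lit 228)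 (nat_lit 9812439419) (nat_lit 76) (nat_lit 260067993325) (nat_lit 8) (nat_lit 5) (nat_lit 11) (nat_lit 5) (nat_lit 9) (nat_lit 4) (nat_lit 317) (nat_lit 290) (nat_lit 113)) (XT.nd (nat_lit 78) (nat_lit 0) (nat_lit 0) (XT.lf (nat_lit 0) (nat_lit 206213831875) (nat_lit 76) (nat_lit 387268054273) (nat_lit 152) (nat_lit 214498013976) (nat_lit 7) (nat_lit 5) (nat_lit 8) (nat_lit 5) (nat_lit 9) (nat_lit 4) (nat_lit 318) (nat_lit 290) (nat_lit 112)) (XT.lf (nat_lit 0) (nat_lit 440080209732) (nat_lit 76) (nat_lit 265837476142) (nat_lit 152) (nat_lit 154395275983) (nat_lit 7) (nat_lit 5) (nat_lit 8) (nat_lit 5) (nat_lit 9) (nat_lit 4) (nat_lit 319) (nat_lit 290) (nat_lit 111)))) (XT.nd (nat_lit 156) (nat_lit 152) (nat_lit 0) (XT.nd (nat_lit 78) (nat_lit 0) (nat_lit 0) (XT.lf (nat_lit 0) (nat_lit 692655863311) (nat_lit 76) (nat_lit 134692463337) (nat_lit 152) (nat_lit 89484343877) (nat_lit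 7) (nat_lit 5) (nat_lit 8) (nat_lit 5) (nat_lit 9) (nat_lit 4) (nat_lit 320) (nat_lit 290) (nat_lit 110)) (XT.lf (nat_lit 0) (nat_lit 958660404184) (nat_lit 152) (nat_lit 12603427238) (nat_lit 0) (nat_lit 6596765775) (nat_lit 7) (nat_lit 5) (nat_lit 9) (nat_lit 4) (nat_lit 7) (nat_lit 4) (nat_lit 321) (nat_lit 290) (nat_lit 109))) (XT.nd (nat_lit 78) (nat_lit 0) (nat_lit 0) (XT.lf (nat_lit 0) (nat_lit 62976159532) (nat_lit 152) (nat_lit 821073289478) (nat_lit 76) (nat_lit 158883711909) (nat_lit 5) (nat_lit 5) (nat_lit 7) (nat_lit 5) (nat_lit 6) (nat_lit 4) (nat_lit 322) (nat_lit 290) (nat_lit 108)) (XT.lf (nat_lit 0) (nat_lit 151042842070) (nat_lit 152) (nat_lit 637894648039) (nat_lit 76) (nat_lit 324205860772) (nat_lit 5) (nat_lit 5) (nat_lit 7) (nat_lit 5) (nat_lit 6) (nat_lit 4) (nat_lit 323) (nat_lit 290) (nat_lit 107))))) (XT.nd (nat_lit 35022) (nat_lit 0) (nat_lit 1672) (XT.nd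 (nat_lit 78) (nat_lit 0) (nat_lit 0) (XT.lf (nat_lit 0) (nat_lit 246154840904) (nat_lit 152) (nat_lit 440061744388) (nat_lit 76) (nat_lit 502753772322) (nat_lit 5) (nat_lit 5) (nat_lit 7) (nat_lit 5) (nat_lit 6) (nat_lit 4) (nat_lit 324) (nat_lit 290) (nat_lit 106)) (XT.nd (nat_lit 34866) (nat_lit 0) (nat_lit 1672) (XT.lf (nat_lit 0) (nat_lit 348875782696) (nat_lit 152) (nat_lit 226402235391) (nat_lit 76) (nat_lit 695585508258) (nat_lit 5) (nat_lit 5) (nat_lit 7) (nat_lit 5) (nat_lit 6) (nat_lit 4) (nat_lit 325) (nat_lit 290) (nat_lit 105)) (XT.lf (nat_lit 0) (nat_lit 44573782564) (nat_lit 0) (nat_lit 44573782564) (nat_lit 380) (nat_lit 15657883420) (nat_lit 27) (nat_lit 5) (nat_lit 27) (nat_lit 3) (nat_lit 32) (nat_lit 3) (nat_lit 291) (nat_lit 291) (nat_lit 138)))) (XT.nd (nat_lit 156) (nat_lit 0) (nat_lit 0) (XT.nd (nat_lit 78) (nat_lit 0) (nat_lit 0) (XT.lf (nat_lit 0) (nat_lit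 174931506681) (nat_lit 0) (nat_lit 10496640990) (nat_lit 380) (nat_lit 32567074297) (nat_lit 27) (nat_lit 5) (nat_lit 27) (nat_lit 3) (nat_lit 32) (nat_lit 3) (nat_lit 292) (nat_lit 291) (nat_lit 137)) (XT.lf (nat_lit 76) (nat_lit 40777201618) (nat_lit 0) (nat_lit 155125614398) (nat_lit 456) (nat_lit 30925797455) (nat_lit 28) (nat_lit 5) (nat_lit 27) (nat_lit 5) (nat_lit 33) (nat_lit 5) (nat_lit 293) (nat_lit 291) (nat_lit 136))) (XT.nd (nat_lit 78) (nat_lit 0) (nat_lit 76) (XT.lf (nat_lit 76) (nat_lit 133487395405) (nat_lit 0) (nat_lit 75171125801) (nat_lit 456) (nat_lit 27594711318) (nat_lit 28) (nat_lit 5) (nat_lit 27) (nat_lit 5) (nat_lit 33) (nat_lit 5) (nat_lit 294) (nat_lit 291) (nat_lit 135)) (XT.lf (nat_lit 0) (nat_lit 222703451996) (nat_lit 380) (nat_lit 13086365521) (nat_lit 456) (nat_lit 10620503253) (nat_lit 28) (nat_lit 5) (nat_lit 33) (nat_lit 5) (nat_lit 34) (nat_lit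 5) (nat_lit 295) (nat_lit 291) (nat_lit 134))))))))
noncomputable def xc122 : XT := (XT.nd (nat_lit 2106) (nat_lit 152) (nat_lit 0) (XT.nd (nat_lit 1014) (nat_lit 608) (nat_lit 0) (XT.nd (nat_lit 468) (nat_lit 380) (nat_lit 0) (XT.nd (nat_lit 234) (nat_lit 228) (nat_lit 0) (XT.nd (nat_lit 78) (nat_lit 380) (nat_lit 0) (XT.lf (nat_lit 76) (nat_lit 86123123607) (nat_lit 0) (nat_lit 155772517872) (nat_lit 456) (nat_lit 15162442574) (nat_lit 29) (nat_lit 5) (nat_lit 28) (nat_lit 5) (nat_lit 34) (nat_lit 5) (nat_lit 296) (nat_lit 291) (nat_lit 133)) (XT.nd (nat_lit 78) (nat_lit 380) (nat_lit 0) (XT.lf (nat_lit 76) (nat_lit 194013535999) (nat_lit 0) (nat_lit 68967384242) (nat_lit 456) (nat_lit 5548132060) (nat_lit 29) (nat_lit 5) (nat_lit 28) (nat_lit 5) (nat_lit 34) (nat_lit 5) (nat_lit 297) (nat_lit 291) (nat_lit 132)) (XT.lf (nat_lit 0) (nat_lit 5958649584) (nat_lit 456) (nat_lit 250412483830)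 (nat_lit 76) (nat_lit 24428045609) (nat_lit 23) (nat_lit 5) (nat_lit 29) (nat_lit 5) (nat_lit 24) (nat_lit 5) (nat_lit 298) (nat_lit 291) (nat_lit 131)))) (XT.nd (nat_lit 78) (nat_lit 228) (nat_lit 0) (XT.lf (nat_lit 0) (nat_lit 21967814985) (nat_lit 456) (nat_lit 147957540374) (nat_lit 76) (nat_lit 123803506000) (nat_lit 23) (nat_lit 5) (nat_lit 29) (nat_lit 5) (nat_lit 24) (nat_lit 5) (nat_lit 299) (nat_lit 291) (nat_lit 130)) (XT.nd (nat_lit 78) (nat_lit 228) (nat_lit 0) (XT.lf (nat_lit 0) (nat_lit 39257638100) (nat_lit 456) (nat_lit 37306271222) (nat_lit 76) (nat_lit 231129015759) (nat_lit 23) (nat_lit 5) (nat_lit 29) (nat_lit 5) (nat_lit 24) (nat_lit 5) (nat_lit 300) (nat_lit 291) (nat_lit 129)) (XT.lf (nat_lit 0) (nat_lit 60649173951) (nat_lit 304) (nat_lit 236719919370) (nat_lit 76) (nat_lit 25187539131) (nat_lit 20) (nat_lit 5) (nat_lit 24) (nat_lit 5) (nat_lit 21) (nat_lit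 5) (nat_lit 301) (nat_lit 291) (nat_lit 128))))) (XT.nd (nat_lit 234) (nat_lit 152) (nat_lit 0) (XT.nd (nat_lit 78) (nat_lit 228) (nat_lit 0) (XT.lf (nat_lit 0) (nat_lit 86787153043) (nat_lit 304) (nat_lit 119590294005) (nat_lit 76) (nat_lit 131989180388) (nat_lit 20) (nat_lit 5) (nat_lit 24) (nat_lit 5) (nat_lit 21) (nat_lit 5) (nat_lit 302) (nat_lit 291) (nat_lit 127)) (XT.nd (nat_lit 78) (nat_lit 0) (nat_lit 0) (XT.lf (nat_lit 0) (nat_lit 7273486761) (nat_lit 228) (nat_lit 107917549954) (nat_lit 304) (nat_lit 240236396603) (nat_lit 17) (nat_lit 5) (nat_lit 20) (nat_lit 5) (nat_lit 21) (nat_lit 5) (nat_lit 303) (nat_lit 291) (nat_lit 126)) (XT.lf (nat_lit 0) (nat_lit 149183893717) (nat_lit 304) (nat_lit 222550920645) (nat_lit 76) (nat_lit 1852956857) (nat_lit 17) (nat_lit 5) (nat_lit 21) (nat_lit 5) (nat_lit 18) (nat_lit 5) (nat_lit 304) (nat_lit 291) (nat_lit 125)))) (XT.nd (nat_lit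 156) (nat_lit 0) (nat_lit 0) (XT.nd (nat_lit 78) (nat_lit 152) (nat_lit 0) (XT.lf (nat_lit 0) (nat_lit 188699178511) (nat_lit 304) (nat_lit 89702768308) (nat_lit 76) (nat_lit 114574749910) (nat_lit 17) (nat_lit 5) (nat_lit 21) (nat_lit 5) (nat_lit 18) (nat_lit 5) (nat_lit 305) (nat_lit 291) (nat_lit 124)) (XT.lf (nat_lit 0) (nat_lit 56604778716) (nat_lit 152) (nat_lit 176132203651) (nat_lit 228) (nat_lit 181070850690) (nat_lit 15) (nat_lit 5) (nat_lit 17) (nat_lit 5) (nat_lit 18) (nat_lit 5) (nat_lit 306) (nat_lit 291) (nat_lit 123))) (XT.nd (nat_lit 78) (nat_lit 0) (nat_lit 0) (XT.lf (nat_lit 0) (nat_lit 219718349102) (nat_lit 152) (nat_lit 63032046420) (nat_lit 228) (nat_lit 153358858410) (nat_lit 15) (nat_lit 5) (nat_lit 17) (nat_lit 5) (nat_lit 18) (nat_lit 5) (nat_lit 307) (nat_lit 291) (nat_lit 122)) (XT.lf (nat_lit 0) (nat_lit 338186581596) (nat_lit 228) (nat_lit 65735583444)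 (nat_lit 76) (nat_lit 56158887859) (nat_lit 15) (nat_lit 5) (nat_lit 18) (nat_lit 5) (nat_lit 16) (nat_lit 5) (nat_lit 308) (nat_lit 291) (nat_lit 121)))))) (XT.nd (nat_lit 546) (nat_lit 76) (nat_lit 0) (XT.nd (nat_lit 234) (nat_lit 304) (nat_lit 0) (XT.nd (nat_lit 78) (nat_lit 76) (nat_lit 0) (XT.lf (nat_lit 0) (nat_lit 100355083611) (nat_lit 152) (nat_lit 301753276089) (nat_lit 228) (nat_lit 83538180691) (nat_lit 13) (nat_lit 5) (nat_lit 15) (nat_lit 5) (nat_lit 16) (nat_lit 5) (nat_lit 309) (nat_lit 291) (nat_lit 120)) (XT.nd (nat_lit 78) (nat_lit 76) (nat_lit 0) (XT.lf (nat_lit 0) (nat_lit 283471394466) (nat_lit 152) (nat_lit 189469773719) (nat_lit 228) (nat_lit 40172316000) (nat_lit 13) (nat_lit 5) (nat_lit 15) (nat_lit 5) (nat_lit 16) (nat_lit 5) (nat_lit 310) (nat_lit 291) (nat_lit 119)) (XT.lf (nat_lit 0) (nat_lit 6329479171) (nat_lit 228) (nat_lit 61701063209) (nat_lit 76)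 (nat_lit 474734425133) (nat_lit 12) (nat_lit 5) (nat_lit 15) (nat_lit 5) (nat_lit 13) (nat_lit 5) (nat_lit 311) (nat_lit 291) (nat_lit 118)))) (XT.nd (nat_lit 156) (nat_lit 152) (nat_lit 0) (XT.nd (nat_lit 78) (nat_lit 0) (nat_lit 0) (XT.lf (nat_lit 0) (nat_lit 59007610746) (nat_lit 228) (nat_lit 451209369347) (nat_lit 76) (nat_lit 64117991447) (nat_lit 10) (nat_lit 5) (nat_lit 13) (nat_lit 5) (nat_lit 11) (nat_lit 5) (nat_lit 312) (nat_lit 291) (nat_lit 117)) (XT.lf (nat_lit 0) (nat_lit 119397821413) (nat_lit 228) (nat_lit 283859112160) (nat_lit 76) (nat_lit 204893816289) (nat_lit 10) (nat_lit 5) (nat_lit 13) (nat_lit 5) (nat_lit 11) (nat_lit 5) (nat_lit 313) (nat_lit 291) (nat_lit 116))) (XT.nd (nat_lit 78) (nat_lit 152) (nat_lit 0) (XT.lf (nat_lit 0) (nat_lit 184619217888) (nat_lit 228) (nat_lit 103120877793) (nat_lit 76) (nat_lit 356931697492) (nat_lit 10) (nat_lit 5) (nat_lit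 13) (nat_lit 5) (nat_lit 11) (nat_lit 5) (nat_lit 314) (nat_lit 291) (nat_lit 115)) (XT.lf (nat_lit 0) (nat_lit 96924953885) (nat_lit 152) (nat_lit 160464390922) (nat_lit 228) (nat_lit 426538693866) (nat_lit 8) (nat_lit 5) (nat_lit 10) (nat_lit 5) (nat_lit 11) (nat_lit 5) (nat_lit 315) (nat_lit 291) (nat_lit 114))))) (XT.nd (nat_lit 234) (nat_lit 76) (nat_lit 0) (XT.nd (nat_lit 78) (nat_lit 0) (nat_lit 0) (XT.lf (nat_lit 0) (nat_lit 318838988628) (nat_lit 152) (nat_lit 19961573238) (nat_lit 228) (nat_lit 387298663752) (nat_lit 8) (nat_lit 5) (nat_lit 10) (nat_lit 5) (nat_lit 11) (nat_lit 5) (nat_lit 316) (nat_lit 291) (nat_lit 113)) (XT.nd (nat_lit 78) (nat_lit 0) (nat_lit 0) (XT.lf (nat_lit 0) (nat_lit 429893998035) (nat_lit 228) (nat_lit 216307347123) (nat_lit 76) (nat_lit 125189216812) (nat_lit 8) (nat_lit 5) (nat_lit 11) (nat_lit 5) (nat_lit 9) (nat_lit 4) (nat_lit 317) (nat_lit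 291) (nat_lit 112)) (XT.lf (nat_lit 0) (nat_lit 528793367652) (nat_lit 228) (nat_lit 10596743890) (nat_lit 76) (nat_lit 280873617179) (nat_lit 8) (nat_lit 5) (nat_lit 11) (nat_lit 5) (nat_lit 9) (nat_lit 4) (nat_lit 318) (nat_lit 291) (nat_lit 111)))) (XT.nd (nat_lit 156) (nat_lit 0) (nat_lit 0) (XT.nd (nat_lit 78) (nat_lit 0) (nat_lit 0) (XT.lf (nat_lit 0) (nat_lit 222711611622) (nat_lit 76) (nat_lit 418249272734) (nat_lit 152) (nat_lit 231657368817) (nat_lit 7) (nat_lit 5) (nat_lit 8) (nat_lit 5) (nat_lit 9) (nat_lit 4) (nat_lit 319) (nat_lit 291) (nat_lit 110)) (XT.lf (nat_lit 0) (nat_lit 475287249841) (nat_lit 76) (nat_lit 287104265084) (nat_lit 152) (nat_lit 166746447805) (nat_lit 7) (nat_lit 5) (nat_lit 8) (nat_lit 5) (nat_lit 9) (nat_lit 4) (nat_lit 320) (nat_lit 291) (nat_lit 109))) (XT.nd (nat_lit 78) (nat_lit 0) (nat_lit 0) (XT.lf (nat_lit 0) (nat_lit 748068909534) (nat_lit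 76) (nat_lit 145467666748) (nat_lit 152) (nat_lit 96642674482) (nat_lit 7) (nat_lit 5) (nat_lit 8) (nat_lit 5) (nat_lit 9) (nat_lit 4) (nat_lit 321) (nat_lit 291) (nat_lit 108)) (XT.lf (nat_lit 0) (nat_lit 1035353595926) (nat_lit 152) (nat_lit 13611140395) (nat_lit 0) (nat_lit 7124677379) (nat_lit 7) (nat_lit 5) (nat_lit 9) (nat_lit 4) (nat_lit 7) (nat_lit 4) (nat_lit 322) (nat_lit 291) (nat_lit 107))))))) (XT.nd (nat_lit 35880) (nat_lit 0) (nat_lit 380) (XT.nd (nat_lit 35334) (nat_lit 0) (nat_lit 1368) (XT.nd (nat_lit 35100) (nat_lit 0) (nat_lit 1672) (XT.nd (nat_lit 78) (nat_lit 0) (nat_lit 0) (XT.lf (nat_lit 0) (nat_lit 68014609433) (nat_lit 152) (nat_lit 886758584850) (nat_lit 76) (nat_lit 171594588778) (nat_lit 5) (nat_lit 5) (nat_lit 7) (nat_lit 5) (nat_lit 6) (nat_lit 4) (nat_lit 323) (nat_lit 291) (nat_lit 106)) (XT.nd (nat_lit 78) (nat_lit 0) (nat_lit 0) (XT.lf (nat_lit 0)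 (nat_lit 163126600118) (nat_lit 152) (nat_lit 688925694154) (nat_lit 76) (nat_lit 350142496223) (nat_lit 5) (nat_lit 5) (nat_lit 7) (nat_lit 5) (nat_lit 6) (nat_lit 4) (nat_lit 324) (nat_lit 291) (nat_lit 105)) (XT.lf (nat_lit 0) (nat_lit 265847534364) (nat_lit 152) (nat_lit 475266197154) (nat_lit 76) (nat_lit 542974228358) (nat_lit 5) (nat_lit 5) (nat_lit 7) (nat_lit 5) (nat_lit 6) (nat_lit 4) (nat_lit 325) (nat_lit 291) (nat_lit 104)))) (XT.nd (nat_lit 78) (nat_lit 0) (nat_lit 0) (XT.lf (nat_lit 0) (nat_lit 48140276694) (nat_lit 0) (nat_lit 48140276694) (nat_lit 380) (nat_lit 16909222700) (nat_lit 27) (nat_lit 5) (nat_lit 27) (nat_lit 3) (nat_lit 32) (nat_lit 3) (nat_lit 292) (nat_lit 292) (nat_lit 136)) (XT.nd (nat_lit 78) (nat_lit 0) (nat_lit 0) (XT.lf (nat_lit 0) (nat_lit 188927122632) (nat_lit 0) (nat_lit 11337467686) (nat_lit 380) (nat_lit 35170048773) (nat_lit 27) (nat_lit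 5) (nat_lit 27) (nat_lit 3) (nat_lit 32) (nat_lit 3) (nat_lit 293) (nat_lit 292) (nat_lit 135)) (XT.lf (nat_lit 76) (nat_lit 44040666664) (nat_lit 0) (nat_lit 167536409789) (nat_lit 456) (nat_lit 33397639796) (nat_lit 28) (nat_lit 5) (nat_lit 27) (nat_lit 5) (nat_lit 33) (nat_lit 5) (nat_lit 294) (nat_lit 292) (nat_lit 134))))) (XT.nd (nat_lit 234) (nat_lit 304) (nat_lit 0) (XT.nd (nat_lit 78) (nat_lit 0) (nat_lit 76) (XT.lf (nat_lit 76) (nat_lit 144167580479) (nat_lit 0) (nat_lit 81185506826) (nat_lit 456) (nat_lit 29800231320) (nat_lit 28) (nat_lit 5) (nat_lit 27) (nat_lit 5) (nat_lit 33) (nat_lit 5) (nat_lit 295) (nat_lit 292) (nat_lit 133)) (XT.nd (nat_lit 78) (nat_lit 0) (nat_lit 0) (XT.lf (nat_lit 0) (nat_lit 240521457587) (nat_lit 380) (nat_lit 14131994616) (nat_lit 456) (nat_lit 11469535739) (nat_lit 28) (nat_lit 5) (nat_lit 33) (nat_lit 5) (nat_lit 34) (nat_lit 5) (nat_lit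 296) (nat_lit 292) (nat_lit 132)) (XT.lf (nat_lit 76) (nat_lit 93014221235) (nat_lit 0) (nat_lit 168234702897) (nat_lit 456) (nat_lit 16373657494) (nat_lit 29) (nat_lit 5) (nat_lit 28) (nat_lit 5) (nat_lit 34) (nat_lit 5) (nat_lit 297) (nat_lit 292) (nat_lit 131)))) (XT.nd (nat_lit 156) (nat_lit 0) (nat_lit 0) (XT.nd (nat_lit 78) (nat_lit 380) (nat_lit 0) (XT.lf (nat_lit 76) (nat_lit 209535774192) (nat_lit 0) (nat_lit 74485130162) (nat_lit 456) (nat_lit 5990334028) (nat_lit 29) (nat_lit 5) (nat_lit 28) (nat_lit 5) (nat_lit 34) (nat_lit 5) (nat_lit 298) (nat_lit 292) (nat_lit 130)) (XT.lf (nat_lit 0) (nat_lit 6436814866) (nat_lit 456) (nat_lit 270444121154) (nat_lit 76) (nat_lit 26382044658) (nat_lit 23) (nat_lit 5) (nat_lit 29) (nat_lit 5) (nat_lit 24) (nat_lit 5) (nat_lit 299) (nat_lit 292) (nat_lit 129))) (XT.nd (nat_lit 78) (nat_lit 0) (nat_lit 0) (XT.lf (nat_lit 0) (nat_lit 23726604365)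 (nat_lit 456) (nat_lit 159792883065) (nat_lit 76) (nat_lit 133707559998) (nat_lit 23) (nat_lit 5) (nat_lit 29) (nat_lit 5) (nat_lit 24) (nat_lit 5) (nat_lit 300) (nat_lit 292) (nat_lit 128)) (XT.lf (nat_lit 0) (nat_lit 42399512279) (nat_lit 456) (nat_lit 40289605755) (nat_lit 76) (nat_lit 249619127314) (nat_lit 23) (nat_lit 5) (nat_lit 29) (nat_lit 5) (nat_lit 24) (nat_lit 5) (nat_lit 301) (nat_lit 292) (nat_lit 127)))))) (XT.nd (nat_lit 546) (nat_lit 380) (nat_lit 0) (XT.nd (nat_lit 234) (nat_lit 152) (nat_lit 0) (XT.nd (nat_lit 78) (nat_lit 228) (nat_lit 0) (XT.lf (nat_lit 0) (nat_lit 65502303367) (nat_lit 304) (nat_lit 255656266373) (nat_lit 76) (nat_lit 27202485920) (nat_lit 20) (nat_lit 5) (nat_lit 24) (nat_lit 5) (nat_lit 21) (nat_lit 5) (nat_lit 302) (nat_lit 292) (nat_lit 126)) (XT.nd (nat_lit 78) (nat_lit 228) (nat_lit 0) (XT.lf (nat_lit 0) (nat_lit 93731232230) (nat_lit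 304) (nat_lit 129156363315) (nat_lit 76) (nat_lit 142548262651) (nat_lit 20) (nat_lit 5) (nat_lit 24) (nat_lit 5) (nat_lit 21) (nat_lit 5) (nat_lit 303) (nat_lit 292) (nat_lit 125)) (XT.lf (nat_lit 0) (nat_lit 7856490692) (nat_lit 228) (nat_lit 116550880965) (nat_lit 304) (nat_lit 259454162094) (nat_lit 17) (nat_lit 5) (nat_lit 20) (nat_lit 5) (nat_lit 21) (nat_lit 5) (nat_lit 304) (nat_lit 292) (nat_lit 124)))) (XT.nd (nat_lit 156) (nat_lit 152) (nat_lit 0) (XT.nd (nat_lit 78) (nat_lit 0) (nat_lit 0) (XT.lf (nat_lit 0) (nat_lit 161119580917) (nat_lit 304) (nat_lit 240353867012) (nat_lit 76) (nat_lit 2001257605) (nat_lit 17) (nat_lit 5) (nat_lit 21) (nat_lit 5) (nat_lit 18) (nat_lit 5) (nat_lit 305) (nat_lit 292) (nat_lit 123)) (XT.lf (nat_lit 0) (nat_lit 203796016220) (nat_lit 304) (nat_lit 96877945990) (nat_lit 76) (nat_lit 123740789346) (nat_lit 17) (nat_lit 5) (nat_lit 21) (nat_lit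 5) (nat_lit 18) (nat_lit 5) (nat_lit 306) (nat_lit 292) (nat_lit 122))) (XT.nd (nat_lit 78) (nat_lit 0) (nat_lit 0) (XT.lf (nat_lit 0) (nat_lit 61134178371) (nat_lit 152) (nat_lit 190222623560) (nat_lit 228) (nat_lit 195555580895) (nat_lit 15) (nat_lit 5) (nat_lit 17) (nat_lit 5) (nat_lit 18) (nat_lit 5) (nat_lit 307) (nat_lit 292) (nat_lit 121)) (XT.lf (nat_lit 0) (nat_lit 237296759028) (nat_lit 152) (nat_lit 68074465335) (nat_lit 228) (nat_lit 165626698703) (nat_lit 15) (nat_lit 5) (nat_lit 17) (nat_lit 5) (nat_lit 18) (nat_lit 5) (nat_lit 308) (nat_lit 292) (nat_lit 120))))) (XT.nd (nat_lit 234) (nat_lit 228) (nat_lit 0) (XT.nd (nat_lit 78) (nat_lit 152) (nat_lit 0) (XT.lf (nat_lit 0) (nat_lit 365242249496) (nat_lit 228) (nat_lit 70993495216) (nat_lit 76) (nat_lit 60651726254) (nat_lit 15) (nat_lit 5) (nat_lit 18) (nat_lit 5) (nat_lit 16) (nat_lit 5) (nat_lit 309) (nat_lit 292)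 (nat_lit 119)) (XT.nd (nat_lit 78) (nat_lit 0) (nat_lit 0) (XT.lf (nat_lit 0) (nat_lit 108384401535) (nat_lit 152) (nat_lit 325893335312) (nat_lit 228) (nat_lit 90220463758) (nat_lit 13) (nat_lit 5) (nat_lit 15) (nat_lit 5) (nat_lit 16) (nat_lit 5) (nat_lit 310) (nat_lit 292) (nat_lit 118)) (XT.lf (nat_lit 0) (nat_lit 306149949759) (nat_lit 152) (nat_lit 204627167779) (nat_lit 228) (nat_lit 43385387031) (nat_lit 13) (nat_lit 5) (nat_lit 15) (nat_lit 5) (nat_lit 16) (nat_lit 5) (nat_lit 311) (nat_lit 292) (nat_lit 117)))) (XT.nd (nat_lit 156) (nat_lit 0) (nat_lit 0) (XT.nd (nat_lit 78) (nat_lit 152) (nat_lit 0) (XT.lf (nat_lit 0) (nat_lit 6836465763) (nat_lit 228) (nat_lit 66636328906) (nat_lit 76) (nat_lit 512713314944) (nat_lit 12) (nat_lit 5) (nat_lit 15) (nat_lit 5) (nat_lit 13) (nat_lit 5) (nat_lit 312) (nat_lit 292) (nat_lit 116)) (XT.lf (nat_lit 0) (nat_lit 63728825288) (nat_lit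 228) (nat_lit 487305272293) (nat_lit 76) (nat_lit 69247618562) (nat_lit 10) (nat_lit 5) (nat_lit 13) (nat_lit 5) (nat_lit 11) (nat_lit 5) (nat_lit 313) (nat_lit 292) (nat_lit 115))) (XT.nd (nat_lit 78) (nat_lit 0) (nat_lit 0) (XT.lf (nat_lit 0) (nat_lit 128950207943) (nat_lit 228) (nat_lit 306567057243) (nat_lit 76) (nat_lit 221285495481) (nat_lit 10) (nat_lit 5) (nat_lit 13) (nat_lit 5) (nat_lit 11) (nat_lit 5) (nat_lit 314) (nat_lit 292) (nat_lit 114)) (XT.lf (nat_lit 0) (nat_lit 199389274594) (nat_lit 228) (nat_lit 111369822192) (nat_lit 76) (nat_lit 385486394300) (nat_lit 10) (nat_lit 5) (nat_lit 13) (nat_lit 5) (nat_lit 11) (nat_lit 5) (nat_lit 315) (nat_lit 292) (nat_lit 113))))))))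
noncomputable def xc123 : XT := (XT.nd (nat_lit 37128) (nat_lit 0) (nat_lit 152) (XT.nd (nat_lit 36036) (nat_lit 0) (nat_lit 760) (XT.nd (nat_lit 468) (nat_lit 152) (nat_lit 0) (XT.nd (nat_lit 234) (nat_lit 76) (nat_lit 0) (XT.nd (nat_lit 78) (nat_lit 0) (nat_lit 0) (XT.lf (nat_lit 0) (nat_lit 104679657645) (nat_lit 152) (nat_lit 173301332571) (nat_lit 228) (nat_lit 460661248022) (nat_lit 8) (nat_lit 5) (nat_lit 10) (nat_lit 5) (nat_lit 11) (nat_lit 5) (nat_lit 316) (nat_lit 292) (nat_lit 112)) (XT.nd (nat_lit 78) (nat_lit 0) (nat_lit 0) (XT.lf (nat_lit 0) (nat_lit 344346762764) (nat_lit 152) (nat_lit 21558305000) (nat_lit 228) (nat_lit 418282055599) (nat_lit 8) (nat_lit 5) (nat_lit 10) (nat_lit 5) (nat_lit 11) (nat_lit 5) (nat_lit 317) (nat_lit 292) (nat_lit 111)) (XT.lf (nat_lit 0) (nat_lit 464285949004) (nat_lit 228) (nat_lit 233611295371) (nat_lit 76) (nat_lit 135204524887) (nat_lit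 8) (nat_lit 5) (nat_lit 11) (nat_lit 5) (nat_lit 9) (nat_lit 4) (nat_lit 318) (nat_lit 292) (nat_lit 110)))) (XT.nd (nat_lit 78) (nat_lit 76) (nat_lit 0) (XT.lf (nat_lit 0) (nat_lit 571097236256) (nat_lit 228) (nat_lit 11443891251) (nat_lit 76) (nat_lit 303343664636) (nat_lit 8) (nat_lit 5) (nat_lit 11) (nat_lit 5) (nat_lit 9) (nat_lit 4) (nat_lit 319) (nat_lit 292) (nat_lit 109)) (XT.nd (nat_lit 78) (nat_lit 0) (nat_lit 0) (XT.lf (nat_lit 0) (nat_lit 240529117711) (nat_lit 76) (nat_lit 451709020896) (nat_lit 152) (nat_lit 250189541417) (nat_lit 7) (nat_lit 5) (nat_lit 8) (nat_lit 5) (nat_lit 9) (nat_lit 4) (nat_lit 320) (nat_lit 292) (nat_lit 108)) (XT.lf (nat_lit 0) (nat_lit 513310764234) (nat_lit 76) (nat_lit 310072426979) (nat_lit 152) (nat_lit 180085777607) (nat_lit 7) (nat_lit 5) (nat_lit 8) (nat_lit 5) (nat_lit 9) (nat_lit 4) (nat_lit 321) (nat_lit 292) (nat_lit 107))))) (XT.nd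 (nat_lit 35256) (nat_lit 0) (nat_lit 1672) (XT.nd (nat_lit 78) (nat_lit 152) (nat_lit 0) (XT.lf (nat_lit 0) (nat_lit 807914917117) (nat_lit 76) (nat_lit 157104914058) (nat_lit 152) (nat_lit 104373731012) (nat_lit 7) (nat_lit 5) (nat_lit 8) (nat_lit 5) (nat_lit 9) (nat_lit 4) (nat_lit 322) (nat_lit 292) (nat_lit 106)) (XT.nd (nat_lit 78) (nat_lit 152) (nat_lit 0) (XT.lf (nat_lit 0) (nat_lit 1118182191733) (nat_lit 152) (nat_lit 14699550641) (nat_lit 0) (nat_lit 7694797609) (nat_lit 7) (nat_lit 5) (nat_lit 9) (nat_lit 4) (nat_lit 7) (nat_lit 4) (nat_lit 323) (nat_lit 292) (nat_lit 105)) (XT.lf (nat_lit 0) (nat_lit 73456084375) (nat_lit 152) (nat_lit 957698784853) (nat_lit 76) (nat_lit 185322310129) (nat_lit 5) (nat_lit 5) (nat_lit 7) (nat_lit 5) (nat_lit 6) (nat_lit 4) (nat_lit 324) (nat_lit 292) (nat_lit 104)))) (XT.nd (nat_lit 156) (nat_lit 0) (nat_lit 0) (XT.nd (nat_lit 78) (nat_lit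 0) (nat_lit 0) (XT.lf (nat_lit 0) (nat_lit 51992005967) (nat_lit 0) (nat_lit 51992005967) (nat_lit 380) (nat_lit 18260853355) (nat_lit 27) (nat_lit 5) (nat_lit 27) (nat_lit 3) (nat_lit 32) (nat_lit 3) (nat_lit 293) (nat_lit 293) (nat_lit 134)) (XT.lf (nat_lit 0) (nat_lit 204042231587) (nat_lit 0) (nat_lit 12245404245) (nat_lit 380) (nat_lit 37981602376) (nat_lit 27) (nat_lit 5) (nat_lit 27) (nat_lit 3) (nat_lit 32) (nat_lit 3) (nat_lit 294) (nat_lit 293) (nat_lit 133))) (XT.nd (nat_lit 78) (nat_lit 0) (nat_lit 0) (XT.lf (nat_lit 76) (nat_lit 47565025036) (nat_lit 0) (nat_lit 180939962351) (nat_lit 456) (nat_lit 36067546439) (nat_lit 28) (nat_lit 5) (nat_lit 27) (nat_lit 5) (nat_lit 33) (nat_lit 5) (nat_lit 295) (nat_lit 293) (nat_lit 132)) (XT.lf (nat_lit 76) (nat_lit 155702010102) (nat_lit 0) (nat_lit 87680939761) (nat_lit 456) (nat_lit 32182486363) (nat_lit 28) (nat_lit 5) (nat_lit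 27) (nat_lit 5) (nat_lit 33) (nat_lit 5) (nat_lit 296) (nat_lit 293) (nat_lit 131)))))) (XT.nd (nat_lit 546) (nat_lit 380) (nat_lit 0) (XT.nd (nat_lit 234) (nat_lit 608) (nat_lit 0) (XT.nd (nat_lit 78) (nat_lit 0) (nat_lit 0) (XT.lf (nat_lit 0) (nat_lit 259764656903) (nat_lit 380) (nat_lit 15261456664) (nat_lit 456) (nat_lit 12386577529) (nat_lit 28) (nat_lit 5) (nat_lit 33) (nat_lit 5) (nat_lit 34) (nat_lit 5) (nat_lit 297) (nat_lit 293) (nat_lit 130)) (XT.nd (nat_lit 78) (nat_lit 0) (nat_lit 0) (XT.lf (nat_lit 76) (nat_lit 100456428669) (nat_lit 0) (nat_lit 181693807999) (nat_lit 456) (nat_lit 17682023614) (nat_lit 29) (nat_lit 5) (nat_lit 28) (nat_lit 5) (nat_lit 34) (nat_lit 5) (nat_lit 298) (nat_lit 293) (nat_lit 129)) (XT.lf (nat_lit 76) (nat_lit 226299626623) (nat_lit 0) (nat_lit 80444245084) (nat_lit 456) (nat_lit 6468147343) (nat_lit 29) (nat_lit 5) (nat_lit 28) (nat_lit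 5) (nat_lit 34) (nat_lit 5) (nat_lit 299) (nat_lit 293) (nat_lit 128)))) (XT.nd (nat_lit 156) (nat_lit 228) (nat_lit 0) (XT.nd (nat_lit 78) (nat_lit 0) (nat_lit 0) (XT.lf (nat_lit 0) (nat_lit 6953023187) (nat_lit 456) (nat_lit 292078483681) (nat_lit 76) (nat_lit 28492398525) (nat_lit 23) (nat_lit 5) (nat_lit 29) (nat_lit 5) (nat_lit 24) (nat_lit 5) (nat_lit 300) (nat_lit 293) (nat_lit 127)) (XT.lf (nat_lit 0) (nat_lit 25625902280) (nat_lit 456) (nat_lit 172575233002) (nat_lit 76) (nat_lit 144403970626) (nat_lit 23) (nat_lit 5) (nat_lit 29) (nat_lit 5) (nat_lit 24) (nat_lit 5) (nat_lit 301) (nat_lit 293) (nat_lit 126))) (XT.nd (nat_lit 78) (nat_lit 228) (nat_lit 0) (XT.lf (nat_lit 0) (nat_lit 45792556193) (nat_lit 456) (nat_lit 43511773559) (nat_lit 76) (nat_lit 269588477710) (nat_lit 23) (nat_lit 5) (nat_lit 29) (nat_lit 5) (nat_lit 24) (nat_lit 5) (nat_lit 302) (nat_lit 293) (nat_lit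 125)) (XT.lf (nat_lit 0) (nat_lit 70743512584) (nat_lit 304) (nat_lit 276107698970) (nat_lit 76) (nat_lit 29378636490) (nat_lit 20) (nat_lit 5) (nat_lit 24) (nat_lit 5) (nat_lit 21) (nat_lit 5) (nat_lit 303) (nat_lit 293) (nat_lit 124))))) (XT.nd (nat_lit 234) (nat_lit 152) (nat_lit 0) (XT.nd (nat_lit 78) (nat_lit 228) (nat_lit 0) (XT.lf (nat_lit 0) (nat_lit 101230679834) (nat_lit 304) (nat_lit 139487882831) (nat_lit 76) (nat_lit 153952078938) (nat_lit 20) (nat_lit 5) (nat_lit 24) (nat_lit 5) (nat_lit 21) (nat_lit 5) (nat_lit 304) (nat_lit 293) (nat_lit 123)) (XT.nd (nat_lit 78) (nat_lit 0) (nat_lit 0) (XT.lf (nat_lit 0) (nat_lit 8485974444) (nat_lit 228) (nat_lit 125874888868) (nat_lit 304) (nat_lit 280209512348) (nat_lit 17) (nat_lit 5) (nat_lit 20) (nat_lit 5) (nat_lit 21) (nat_lit 5) (nat_lit 305) (nat_lit 293) (nat_lit 122)) (XT.lf (nat_lit 0) (nat_lit 174009983898) (nat_lit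 304) (nat_lit 259581209907) (nat_lit 76) (nat_lit 2161413254) (nat_lit 17) (nat_lit 5) (nat_lit 21) (nat_lit 5) (nat_lit 18) (nat_lit 5) (nat_lit 306) (nat_lit 293) (nat_lit 121)))) (XT.nd (nat_lit 156) (nat_lit 0) (nat_lit 0) (XT.nd (nat_lit 78) (nat_lit 152) (nat_lit 0) (XT.lf (nat_lit 0) (nat_lit 220100472062) (nat_lit 304) (nat_lit 104627286794) (nat_lit 76) (nat_lit 133640103457) (nat_lit 17) (nat_lit 5) (nat_lit 21) (nat_lit 5) (nat_lit 18) (nat_lit 5) (nat_lit 307) (nat_lit 293) (nat_lit 120)) (XT.lf (nat_lit 0) (nat_lit 66025784861) (nat_lit 152) (nat_lit 205440299372) (nat_lit 228) (nat_lit 211199223311) (nat_lit 15) (nat_lit 5) (nat_lit 17) (nat_lit 5) (nat_lit 18) (nat_lit 5) (nat_lit 308) (nat_lit 293) (nat_lit 119))) (XT.nd (nat_lit 78) (nat_lit 0) (nat_lit 0) (XT.lf (nat_lit 0) (nat_lit 256281307362) (nat_lit 152) (nat_lit 73520298421) (nat_lit 228) (nat_lit 178876090104)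 (nat_lit 15) (nat_lit 5) (nat_lit 17) (nat_lit 5) (nat_lit 18) (nat_lit 5) (nat_lit 309) (nat_lit 293) (nat_lit 118)) (XT.lf (nat_lit 0) (nat_lit 394462265063) (nat_lit 228) (nat_lit 76672173304) (nat_lit 76) (nat_lit 65503973550) (nat_lit 15) (nat_lit 5) (nat_lit 18) (nat_lit 5) (nat_lit 16) (nat_lit 5) (nat_lit 310) (nat_lit 293) (nat_lit 117))))))) (XT.nd (nat_lit 36192) (nat_lit 0) (nat_lit 760) (XT.nd (nat_lit 468) (nat_lit 228) (nat_lit 0) (XT.nd (nat_lit 234) (nat_lit 152) (nat_lit 0) (XT.nd (nat_lit 78) (nat_lit 76) (nat_lit 0) (XT.lf (nat_lit 0) (nat_lit 117055934895) (nat_lit 152) (nat_lit 351964628214) (nat_lit 228) (nat_lit 97437439518) (nat_lit 13) (nat_lit 5) (nat_lit 15) (nat_lit 5) (nat_lit 16) (nat_lit 5) (nat_lit 311) (nat_lit 293) (nat_lit 116)) (XT.nd (nat_lit 78) (nat_lit 76) (nat_lit 0) (XT.lf (nat_lit 0) (nat_lit 330642669108) (nat_lit 152) (nat_lit 220997180161)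 (nat_lit 228) (nat_lit 46855605641) (nat_lit 13) (nat_lit 5) (nat_lit 15) (nat_lit 5) (nat_lit 16) (nat_lit 5) (nat_lit 312) (nat_lit 293) (nat_lit 115)) (XT.lf (nat_lit 0) (nat_lit 7383921654) (nat_lit 228) (nat_lit 71966532750) (nat_lit 76) (nat_lit 553730496568) (nat_lit 12) (nat_lit 5) (nat_lit 15) (nat_lit 5) (nat_lit 13) (nat_lit 5) (nat_lit 313) (nat_lit 293) (nat_lit 114)))) (XT.nd (nat_lit 78) (nat_lit 0) (nat_lit 0) (XT.lf (nat_lit 0) (nat_lit 68827650585) (nat_lit 228) (nat_lit 526288968251) (nat_lit 76) (nat_lit 74787589055) (nat_lit 10) (nat_lit 5) (nat_lit 13) (nat_lit 5) (nat_lit 11) (nat_lit 5) (nat_lit 314) (nat_lit 293) (nat_lit 113)) (XT.nd (nat_lit 78) (nat_lit 0) (nat_lit 0) (XT.lf (nat_lit 0) (nat_lit 139266705388) (nat_lit 228) (nat_lit 331091749762) (nat_lit 76) (nat_lit 238988484200) (nat_lit 10) (nat_lit 5) (nat_lit 13) (nat_lit 5) (nat_lit 11) (nat_lit 5)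 (nat_lit 315) (nat_lit 293) (nat_lit 112)) (XT.lf (nat_lit 0) (nat_lit 215340861755) (nat_lit 228) (nat_lit 120278785690) (nat_lit 76) (nat_lit 416325443882) (nat_lit 10) (nat_lit 5) (nat_lit 13) (nat_lit 5) (nat_lit 11) (nat_lit 5) (nat_lit 316) (nat_lit 293) (nat_lit 111))))) (XT.nd (nat_lit 234) (nat_lit 76) (nat_lit 0) (XT.nd (nat_lit 78) (nat_lit 0) (nat_lit 0) (XT.lf (nat_lit 0) (nat_lit 113054636780) (nat_lit 152) (nat_lit 187165259456) (nat_lit 228) (nat_lit 497513683740) (nat_lit 8) (nat_lit 5) (nat_lit 10) (nat_lit 5) (nat_lit 11) (nat_lit 5) (nat_lit 317) (nat_lit 293) (nat_lit 110)) (XT.nd (nat_lit 78) (nat_lit 0) (nat_lit 0) (XT.lf (nat_lit 0) (nat_lit 371895065381) (nat_lit 152) (nat_lit 23282802992) (nat_lit 228) (nat_lit 451744190303) (nat_lit 8) (nat_lit 5) (nat_lit 10) (nat_lit 5) (nat_lit 11) (nat_lit 5) (nat_lit 318) (nat_lit 293) (nat_lit 109)) (XT.lf (nat_lit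 0) (nat_lit 501429194545) (nat_lit 228) (nat_lit 252299650715) (nat_lit 76) (nat_lit 146021033251) (nat_lit 8) (nat_lit 5) (nat_lit 11) (nat_lit 5) (nat_lit 9) (nat_lit 4) (nat_lit 319) (nat_lit 293) (nat_lit 108)))) (XT.nd (nat_lit 156) (nat_lit 0) (nat_lit 0) (XT.nd (nat_lit 78) (nat_lit 76) (nat_lit 0) (XT.lf (nat_lit 0) (nat_lit 616785357398) (nat_lit 228) (nat_lit 12358894879) (nat_lit 76) (nat_lit 327611293338) (nat_lit 8) (nat_lit 5) (nat_lit 11) (nat_lit 5) (nat_lit 9) (nat_lit 4) (nat_lit 320) (nat_lit 293) (nat_lit 107)) (XT.lf (nat_lit 0) (nat_lit 259771941948) (nat_lit 76) (nat_lit 487845576539) (nat_lit 152) (nat_lit 270204347302) (nat_lit 7) (nat_lit 5) (nat_lit 8) (nat_lit 5) (nat_lit 9) (nat_lit 4) (nat_lit 321) (nat_lit 293) (nat_lit 106))) (XT.nd (nat_lit 78) (nat_lit 0) (nat_lit 0) (XT.lf (nat_lit 0) (nat_lit 554376083540) (nat_lit 76) (nat_lit 334878067407) (nat_lit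 152) (nat_lit 194492308863) (nat_lit 7) (nat_lit 5) (nat_lit 8) (nat_lit 5) (nat_lit 9) (nat_lit 4) (nat_lit 322) (nat_lit 293) (nat_lit 105)) (XT.lf (nat_lit 0) (nat_lit 872548534715) (nat_lit 76) (nat_lit 169673164840) (nat_lit 152) (nat_lit 112723323056) (nat_lit 7) (nat_lit 5) (nat_lit 8) (nat_lit 5) (nat_lit 9) (nat_lit 4) (nat_lit 323) (nat_lit 293) (nat_lit 104)))))) (XT.nd (nat_lit 546) (nat_lit 760) (nat_lit 0) (XT.nd (nat_lit 234) (nat_lit 0) (nat_lit 0) (XT.nd (nat_lit 78) (nat_lit 0) (nat_lit 0) (XT.lf (nat_lit 0) (nat_lit 56151801234) (nat_lit 0) (nat_lit 56151801234) (nat_lit 380) (nat_lit 19720772412) (nat_lit 27) (nat_lit 5) (nat_lit 27) (nat_lit 3) (nat_lit 32) (nat_lit 3) (nat_lit 294) (nat_lit 294) (nat_lit 132)) (XT.nd (nat_lit 78) (nat_lit 0) (nat_lit 0) (XT.lf (nat_lit 0) (nat_lit 220366415278) (nat_lit 0) (nat_lit 13225841749) (nat_lit 380) (nat_lit 41018372766)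 (nat_lit 27) (nat_lit 5) (nat_lit 27) (nat_lit 3) (nat_lit 32) (nat_lit 3) (nat_lit 295) (nat_lit 294) (nat_lit 131)) (XT.lf (nat_lit 76) (nat_lit 51371174432) (nat_lit 0) (nat_lit 195415707847) (nat_lit 456) (nat_lit 38951317318) (nat_lit 28) (nat_lit 5) (nat_lit 27) (nat_lit 5) (nat_lit 33) (nat_lit 5) (nat_lit 296) (nat_lit 294) (nat_lit 130)))) (XT.nd (nat_lit 156) (nat_lit 0) (nat_lit 76) (XT.nd (nat_lit 78) (nat_lit 0) (nat_lit 76) (XT.lf (nat_lit 76) (nat_lit 168159048125) (nat_lit 0) (nat_lit 94695922819) (nat_lit 456) (nat_lit 34755573386) (nat_lit 28) (nat_lit 5) (nat_lit 27) (nat_lit 5) (nat_lit 33) (nat_lit 5) (nat_lit 297) (nat_lit 294) (nat_lit 129)) (XT.lf (nat_lit 0) (nat_lit 280547100638) (nat_lit 380) (nat_lit 16481432251) (nat_lit 456) (nat_lit 13377056998) (nat_lit 28) (nat_lit 5) (nat_lit 33) (nat_lit 5) (nat_lit 34) (nat_lit 5) (nat_lit 298) (nat_lit 294) (nat_lit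 128))) (XT.nd (nat_lit 78) (nat_lit 0) (nat_lit 0) (XT.lf (nat_lit 76) (nat_lit 108493860088) (nat_lit 0) (nat_lit 196229594592) (nat_lit 456) (nat_lit 19095276794) (nat_lit 29) (nat_lit 5) (nat_lit 28) (nat_lit 5) (nat_lit 34) (nat_lit 5) (nat_lit 299) (nat_lit 294) (nat_lit 127)) (XT.lf (nat_lit 76) (nat_lit 244404445943) (nat_lit 0) (nat_lit 86880045759) (nat_lit 456) (nat_lit 6984387362) (nat_lit 29) (nat_lit 5) (nat_lit 28) (nat_lit 5) (nat_lit 34) (nat_lit 5) (nat_lit 300) (nat_lit 294) (nat_lit 126))))) (XT.nd (nat_lit 234) (nat_lit 456) (nat_lit 0) (XT.nd (nat_lit 78) (nat_lit 0) (nat_lit 0) (XT.lf (nat_lit 0) (nat_lit 7510347973) (nat_lit 456) (nat_lit 315443761719) (nat_lit 76) (nat_lit 30771610618) (nat_lit 23) (nat_lit 5) (nat_lit 29) (nat_lit 5) (nat_lit 24) (nat_lit 5) (nat_lit 301) (nat_lit 294) (nat_lit 125)) (XT.nd (nat_lit 78) (nat_lit 0) (nat_lit 0) (XT.lf (nat_lit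 0) (nat_lit 27676977176) (nat_lit 456) (nat_lit 186380325108) (nat_lit 76) (nat_lit 155956121805) (nat_lit 23) (nat_lit 5) (nat_lit 29) (nat_lit 5) (nat_lit 24) (nat_lit 5) (nat_lit 302) (nat_lit 294) (nat_lit 124)) (XT.lf (nat_lit 0) (nat_lit 49456889127) (nat_lit 456) (nat_lit 46991857542) (nat_lit 76) (nat_lit 291155401787) (nat_lit 23) (nat_lit 5) (nat_lit 29) (nat_lit 5) (nat_lit 24) (nat_lit 5) (nat_lit 303) (nat_lit 294) (nat_lit 123)))) (XT.nd (nat_lit 156) (nat_lit 228) (nat_lit 0) (XT.nd (nat_lit 78) (nat_lit 0) (nat_lit 0) (XT.lf (nat_lit 0) (nat_lit 76403872318) (nat_lit 304) (nat_lit 298195398638) (nat_lit 76) (nat_lit 31728885997) (nat_lit 20) (nat_lit 5) (nat_lit 24) (nat_lit 5) (nat_lit 21) (nat_lit 5) (nat_lit 304) (nat_lit 294) (nat_lit 122)) (XT.lf (nat_lit 0) (nat_lit 109329947857) (nat_lit 304) (nat_lit 150646065078) (nat_lit 76) (nat_lit 166268206908) (nat_lit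 20) (nat_lit 5) (nat_lit 24) (nat_lit 5) (nat_lit 21) (nat_lit 5) (nat_lit 305) (nat_lit 294) (nat_lit 121))) (XT.nd (nat_lit 78) (nat_lit 0) (nat_lit 0) (XT.lf (nat_lit 0) (nat_lit 9165679301) (nat_lit 228) (nat_lit 135944826331) (nat_lit 304) (nat_lit 302625430817) (nat_lit 17) (nat_lit 5) (nat_lit 20) (nat_lit 5) (nat_lit 21) (nat_lit 5) (nat_lit 306) (nat_lit 294) (nat_lit 120)) (XT.lf (nat_lit 0) (nat_lit 187931499781) (nat_lit 304) (nat_lit 280346878111) (nat_lit 76) (nat_lit 2334373502) (nat_lit 17) (nat_lit 5) (nat_lit 21) (nat_lit 5) (nat_lit 18) (nat_lit 5) (nat_lit 307) (nat_lit 294) (nat_lit 119))))))))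
noncomputable def xc124 : XT := (XT.nd (nat_lit 37362) (nat_lit 0) (nat_lit 76) (XT.nd (nat_lit 1014) (nat_lit 76) (nat_lit 0) (XT.nd (nat_lit 468) (nat_lit 380) (nat_lit 0) (XT.nd (nat_lit 234) (nat_lit 152) (nat_lit 0) (XT.nd (nat_lit 78) (nat_lit 152) (nat_lit 0) (XT.lf (nat_lit 0) (nat_lit 237709173874) (nat_lit 304) (nat_lit 112996702526) (nat_lit 76) (nat_lit 144331355427) (nat_lit 17) (nat_lit 5) (nat_lit 21) (nat_lit 5) (nat_lit 18) (nat_lit 5) (nat_lit 308) (nat_lit 294) (nat_lit 118)) (XT.nd (nat_lit 78) (nat_lit 0) (nat_lit 0) (XT.lf (nat_lit 0) (nat_lit 71308595438) (nat_lit 152) (nat_lit 221875408376) (nat_lit 228) (nat_lit 228094471828) (nat_lit 15) (nat_lit 5) (nat_lit 17) (nat_lit 5) (nat_lit 18) (nat_lit 5) (nat_lit 309) (nat_lit 294) (nat_lit 117)) (XT.lf (nat_lit 0) (nat_lit 276784504347) (nat_lit 152) (nat_lit 79401815863) (nat_lit 228) (nat_lit 193185539028) (nat_lit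 15) (nat_lit 5) (nat_lit 17) (nat_lit 5) (nat_lit 18) (nat_lit 5) (nat_lit 310) (nat_lit 294) (nat_lit 116)))) (XT.nd (nat_lit 78) (nat_lit 152) (nat_lit 0) (XT.lf (nat_lit 0) (nat_lit 426019791199) (nat_lit 228) (nat_lit 82805259986) (nat_lit 76) (nat_lit 70744385052) (nat_lit 15) (nat_lit 5) (nat_lit 18) (nat_lit 5) (nat_lit 16) (nat_lit 5) (nat_lit 311) (nat_lit 294) (nat_lit 115)) (XT.nd (nat_lit 78) (nat_lit 0) (nat_lit 0) (XT.lf (nat_lit 0) (nat_lit 126421079472) (nat_lit 152) (nat_lit 380121649359) (nat_lit 228) (nat_lit 105231867685) (nat_lit 13) (nat_lit 5) (nat_lit 15) (nat_lit 5) (nat_lit 16) (nat_lit 5) (nat_lit 312) (nat_lit 294) (nat_lit 114)) (XT.lf (nat_lit 0) (nat_lit 357094702808) (nat_lit 152) (nat_lit 238676816508) (nat_lit 228) (nat_lit 50603529098) (nat_lit 13) (nat_lit 5) (nat_lit 15) (nat_lit 5) (nat_lit 16) (nat_lit 5) (nat_lit 313) (nat_lit 294) (nat_lit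 113))))) (XT.nd (nat_lit 234) (nat_lit 152) (nat_lit 0) (XT.nd (nat_lit 78) (nat_lit 152) (nat_lit 0) (XT.lf (nat_lit 0) (nat_lit 7975097175) (nat_lit 228) (nat_lit 77723253116) (nat_lit 76) (nat_lit 598029036111) (nat_lit 12) (nat_lit 5) (nat_lit 15) (nat_lit 5) (nat_lit 13) (nat_lit 5) (nat_lit 314) (nat_lit 294) (nat_lit 112)) (XT.nd (nat_lit 78) (nat_lit 0) (nat_lit 0) (XT.lf (nat_lit 0) (nat_lit 74334307826) (nat_lit 228) (nat_lit 568391463434) (nat_lit 76) (nat_lit 80770734218) (nat_lit 10) (nat_lit 5) (nat_lit 13) (nat_lit 5) (nat_lit 11) (nat_lit 5) (nat_lit 315) (nat_lit 294) (nat_lit 111)) (XT.lf (nat_lit 0) (nat_lit 150408454036) (nat_lit 228) (nat_lit 357578513560) (nat_lit 76) (nat_lit 258107690750) (nat_lit 10) (nat_lit 5) (nat_lit 13) (nat_lit 5) (nat_lit 11) (nat_lit 5) (nat_lit 316) (nat_lit 294) (nat_lit 110)))) (XT.nd (nat_lit 156) (nat_lit 0) (nat_lit 0) (XT.nd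 (nat_lit 78) (nat_lit 152) (nat_lit 0) (XT.lf (nat_lit 0) (nat_lit 232568512378) (nat_lit 228) (nat_lit 129900555042) (nat_lit 76) (nat_lit 449631597738) (nat_lit 10) (nat_lit 5) (nat_lit 13) (nat_lit 5) (nat_lit 11) (nat_lit 5) (nat_lit 317) (nat_lit 294) (nat_lit 109)) (XT.lf (nat_lit 0) (nat_lit 122099527719) (nat_lit 152) (nat_lit 202138326132) (nat_lit 228) (nat_lit 537314380528) (nat_lit 8) (nat_lit 5) (nat_lit 10) (nat_lit 5) (nat_lit 11) (nat_lit 5) (nat_lit 318) (nat_lit 294) (nat_lit 108))) (XT.nd (nat_lit 78) (nat_lit 0) (nat_lit 0) (XT.lf (nat_lit 0) (nat_lit 401647152090) (nat_lit 152) (nat_lit 25145284564) (nat_lit 228) (nat_lit 487883357091) (nat_lit 8) (nat_lit 5) (nat_lit 10) (nat_lit 5) (nat_lit 11) (nat_lit 5) (nat_lit 319) (nat_lit 294) (nat_lit 107)) (XT.lf (nat_lit 0) (nat_lit 541543846999) (nat_lit 228) (nat_lit 272483152705) (nat_lit 76) (nat_lit 157702841402)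 (nat_lit 8) (nat_lit 5) (nat_lit 11) (nat_lit 5) (nat_lit 9) (nat_lit 4) (nat_lit 320) (nat_lit 294) (nat_lit 106)))))) (XT.nd (nat_lit 35802) (nat_lit 0) (nat_lit 988) (XT.nd (nat_lit 35568) (nat_lit 0) (nat_lit 1520) (XT.nd (nat_lit 78) (nat_lit 76) (nat_lit 0) (XT.lf (nat_lit 0) (nat_lit 666128479407) (nat_lit 228) (nat_lit 13347171222) (nat_lit 76) (nat_lit 353820313001) (nat_lit 8) (nat_lit 5) (nat_lit 11) (nat_lit 5) (nat_lit 9) (nat_lit 4) (nat_lit 321) (nat_lit 294) (nat_lit 105)) (XT.nd (nat_lit 35412) (nat_lit 0) (nat_lit 1520) (XT.lf (nat_lit 0) (nat_lit 280554121532) (nat_lit 76) (nat_lit 526873080319) (nat_lit 152) (nat_lit 291820388649) (nat_lit 7) (nat_lit 5) (nat_lit 8) (nat_lit 5) (nat_lit 9) (nat_lit 4) (nat_lit 322) (nat_lit 294) (nat_lit 104)) (XT.lf (nat_lit 0) (nat_lit 60644318094) (nat_lit 0) (nat_lit 60644318094) (nat_lit 380) (nat_lit 21297620408) (nat_lit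 27) (nat_lit 5) (nat_lit 27) (nat_lit 3) (nat_lit 32) (nat_lit 3) (nat_lit 295) (nat_lit 295) (nat_lit 130)))) (XT.nd (nat_lit 78) (nat_lit 0) (nat_lit 0) (XT.lf (nat_lit 0) (nat_lit 237996418799) (nat_lit 0) (nat_lit 14284599388) (nat_lit 380) (nat_lit 44298335557) (nat_lit 27) (nat_lit 5) (nat_lit 27) (nat_lit 3) (nat_lit 32) (nat_lit 3) (nat_lit 296) (nat_lit 295) (nat_lit 129)) (XT.nd (nat_lit 78) (nat_lit 0) (nat_lit 0) (XT.lf (nat_lit 76) (nat_lit 55481680623) (nat_lit 0) (nat_lit 211049434731) (nat_lit 456) (nat_lit 42066022809) (nat_lit 28) (nat_lit 5) (nat_lit 27) (nat_lit 5) (nat_lit 33) (nat_lit 5) (nat_lit 297) (nat_lit 295) (nat_lit 128)) (XT.lf (nat_lit 76) (nat_lit 181612524046) (nat_lit 0) (nat_lit 102272032068) (nat_lit 456) (nat_lit 37534723059) (nat_lit 28) (nat_lit 5) (nat_lit 27) (nat_lit 5) (nat_lit 33) (nat_lit 5) (nat_lit 298) (nat_lit 295) (nat_lit 127)))))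 (XT.nd (nat_lit 234) (nat_lit 608) (nat_lit 0) (XT.nd (nat_lit 78) (nat_lit 0) (nat_lit 0) (XT.lf (nat_lit 0) (nat_lit 302991958525) (nat_lit 380) (nat_lit 17799140121) (nat_lit 456) (nat_lit 14446838557) (nat_lit 28) (nat_lit 5) (nat_lit 33) (nat_lit 5) (nat_lit 34) (nat_lit 5) (nat_lit 299) (nat_lit 295) (nat_lit 126)) (XT.nd (nat_lit 78) (nat_lit 0) (nat_lit 0) (XT.lf (nat_lit 76) (nat_lit 117174155182) (nat_lit 0) (nat_lit 211928203890) (nat_lit 456) (nat_lit 20621776929) (nat_lit 29) (nat_lit 5) (nat_lit 28) (nat_lit 5) (nat_lit 34) (nat_lit 5) (nat_lit 300) (nat_lit 295) (nat_lit 125)) (XT.lf (nat_lit 76) (nat_lit 263957529663) (nat_lit 0) (nat_lit 93830673244) (nat_lit 456) (nat_lit 7542099455) (nat_lit 29) (nat_lit 5) (nat_lit 28) (nat_lit 5) (nat_lit 34) (nat_lit 5) (nat_lit 301) (nat_lit 295) (nat_lit 124)))) (XT.nd (nat_lit 156) (nat_lit 228) (nat_lit 0) (XT.nd (nat_lit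 78) (nat_lit 0) (nat_lit 0) (XT.lf (nat_lit 0) (nat_lit 8112104250) (nat_lit 456) (nat_lit 340678404756) (nat_lit 76) (nat_lit 33233185328) (nat_lit 23) (nat_lit 5) (nat_lit 29) (nat_lit 5) (nat_lit 24) (nat_lit 5) (nat_lit 302) (nat_lit 295) (nat_lit 123)) (XT.lf (nat_lit 0) (nat_lit 29891995016) (nat_lit 456) (nat_lit 201289956764) (nat_lit 76) (nat_lit 168432468827) (nat_lit 23) (nat_lit 5) (nat_lit 29) (nat_lit 5) (nat_lit 24) (nat_lit 5) (nat_lit 303) (nat_lit 295) (nat_lit 122))) (XT.nd (nat_lit 78) (nat_lit 228) (nat_lit 0) (XT.lf (nat_lit 0) (nat_lit 53414236244) (nat_lit 456) (nat_lit 50750470633) (nat_lit 76) (nat_lit 314447701780) (nat_lit 23) (nat_lit 5) (nat_lit 29) (nat_lit 5) (nat_lit 24) (nat_lit 5) (nat_lit 304) (nat_lit 295) (nat_lit 121)) (XT.lf (nat_lit 0) (nat_lit 82516935471) (nat_lit 304) (nat_lit 322050244993) (nat_lit 76) (nat_lit 34267161372) (nat_lit 20)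 (nat_lit 5) (nat_lit 24) (nat_lit 5) (nat_lit 21) (nat_lit 5) (nat_lit 305) (nat_lit 295) (nat_lit 120))))))) (XT.nd (nat_lit 1014) (nat_lit 152) (nat_lit 0) (XT.nd (nat_lit 468) (nat_lit 380) (nat_lit 0) (XT.nd (nat_lit 234) (nat_lit 152) (nat_lit 0) (XT.nd (nat_lit 78) (nat_lit 228) (nat_lit 0) (XT.lf (nat_lit 0) (nat_lit 118077041248) (nat_lit 304) (nat_lit 162697022936) (nat_lit 76) (nat_lit 179569630585) (nat_lit 20) (nat_lit 5) (nat_lit 24) (nat_lit 5) (nat_lit 21) (nat_lit 5) (nat_lit 306) (nat_lit 295) (nat_lit 119)) (XT.nd (nat_lit 78) (nat_lit 0) (nat_lit 0) (XT.lf (nat_lit 0) (nat_lit 9899642579) (nat_lit 228) (nat_lit 146820366444) (nat_lit 304) (nat_lit 326834742958) (nat_lit 17) (nat_lit 5) (nat_lit 20) (nat_lit 5) (nat_lit 21) (nat_lit 5) (nat_lit 307) (nat_lit 295) (nat_lit 118)) (XT.lf (nat_lit 0) (nat_lit 202966634622) (nat_lit 304) (nat_lit 302773917979) (nat_lit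 76) (nat_lit 2521163839) (nat_lit 17) (nat_lit 5) (nat_lit 21) (nat_lit 5) (nat_lit 18) (nat_lit 5) (nat_lit 308) (nat_lit 295) (nat_lit 117)))) (XT.nd (nat_lit 78) (nat_lit 152) (nat_lit 0) (XT.lf (nat_lit 0) (nat_lit 256726477098) (nat_lit 304) (nat_lit 122035780968) (nat_lit 76) (nat_lit 155877901320) (nat_lit 17) (nat_lit 5) (nat_lit 21) (nat_lit 5) (nat_lit 18) (nat_lit 5) (nat_lit 309) (nat_lit 295) (nat_lit 116)) (XT.nd (nat_lit 78) (nat_lit 0) (nat_lit 0) (XT.lf (nat_lit 0) (nat_lit 77013924181) (nat_lit 152) (nat_lit 239625342499) (nat_lit 228) (nat_lit 246341438570) (nat_lit 15) (nat_lit 5) (nat_lit 17) (nat_lit 5) (nat_lit 18) (nat_lit 5) (nat_lit 310) (nat_lit 295) (nat_lit 115)) (XT.lf (nat_lit 0) (nat_lit 298927858314) (nat_lit 152) (nat_lit 85753869885) (nat_lit 228) (nat_lit 208639834923) (nat_lit 15) (nat_lit 5) (nat_lit 17) (nat_lit 5) (nat_lit 18) (nat_lit 5) (nat_lit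 311) (nat_lit 295) (nat_lit 114))))) (XT.nd (nat_lit 234) (nat_lit 228) (nat_lit 0) (XT.nd (nat_lit 78) (nat_lit 152) (nat_lit 0) (XT.lf (nat_lit 0) (nat_lit 460101841685) (nat_lit 228) (nat_lit 89429091638) (nat_lit 76) (nat_lit 76404016118) (nat_lit 15) (nat_lit 5) (nat_lit 18) (nat_lit 5) (nat_lit 16) (nat_lit 5) (nat_lit 312) (nat_lit 295) (nat_lit 113)) (XT.nd (nat_lit 78) (nat_lit 0) (nat_lit 0) (XT.lf (nat_lit 0) (nat_lit 136535340063) (nat_lit 152) (nat_lit 410531253469) (nat_lit 228) (nat_lit 113649930995) (nat_lit 13) (nat_lit 5) (nat_lit 15) (nat_lit 5) (nat_lit 16) (nat_lit 5) (nat_lit 313) (nat_lit 295) (nat_lit 112)) (XT.lf (nat_lit 0) (nat_lit 385662810729) (nat_lit 152) (nat_lit 257770843460) (nat_lit 228) (nat_lit 54651361328) (nat_lit 13) (nat_lit 5) (nat_lit 15) (nat_lit 5) (nat_lit 16) (nat_lit 5) (nat_lit 314) (nat_lit 295) (nat_lit 111)))) (XT.nd (nat_lit 156)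 (nat_lit 0) (nat_lit 0) (XT.nd (nat_lit 78) (nat_lit 152) (nat_lit 0) (XT.lf (nat_lit 0) (nat_lit 8613500859) (nat_lit 228) (nat_lit 83940597030) (nat_lit 76) (nat_lit 645871444578) (nat_lit 12) (nat_lit 5) (nat_lit 15) (nat_lit 5) (nat_lit 13) (nat_lit 5) (nat_lit 315) (nat_lit 295) (nat_lit 110)) (XT.lf (nat_lit 0) (nat_lit 80281434135) (nat_lit 228) (nat_lit 613862247006) (nat_lit 76) (nat_lit 87232511301) (nat_lit 10) (nat_lit 5) (nat_lit 13) (nat_lit 5) (nat_lit 11) (nat_lit 5) (nat_lit 316) (nat_lit 295) (nat_lit 109))) (XT.nd (nat_lit 78) (nat_lit 0) (nat_lit 0) (XT.lf (nat_lit 0) (nat_lit 162441483768) (nat_lit 228) (nat_lit 386184300661) (nat_lit 76) (nat_lit 278756415589) (nat_lit 10) (nat_lit 5) (nat_lit 13) (nat_lit 5) (nat_lit 11) (nat_lit 5) (nat_lit 317) (nat_lit 295) (nat_lit 108)) (XT.lf (nat_lit 0) (nat_lit 251174320599) (nat_lit 228) (nat_lit 140292142053) (nat_lit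 76) (nat_lit 485602227019) (nat_lit 10) (nat_lit 5) (nat_lit 13) (nat_lit 5) (nat_lit 11) (nat_lit 5) (nat_lit 318) (nat_lit 295) (nat_lit 107)))))) (XT.nd (nat_lit 36036) (nat_lit 0) (nat_lit 912) (XT.nd (nat_lit 35724) (nat_lit 0) (nat_lit 1444) (XT.nd (nat_lit 78) (nat_lit 0) (nat_lit 0) (XT.lf (nat_lit 0) (nat_lit 131867935750) (nat_lit 152) (nat_lit 218309260123) (nat_lit 228) (nat_lit 580299189825) (nat_lit 8) (nat_lit 5) (nat_lit 10) (nat_lit 5) (nat_lit 11) (nat_lit 5) (nat_lit 319) (nat_lit 295) (nat_lit 106)) (XT.nd (nat_lit 78) (nat_lit 0) (nat_lit 0) (XT.lf (nat_lit 0) (nat_lit 433779337047) (nat_lit 152) (nat_lit 27156785015) (nat_lit 228) (nat_lit 526913709783) (nat_lit 8) (nat_lit 5) (nat_lit 10) (nat_lit 5) (nat_lit 11) (nat_lit 5) (nat_lit 320) (nat_lit 295) (nat_lit 105)) (XT.lf (nat_lit 0) (nat_lit 584867626442) (nat_lit 228) (nat_lit 294281401914) (nat_lit 76)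 (nat_lit 170319176303) (nat_lit 8) (nat_lit 5) (nat_lit 11) (nat_lit 5) (nat_lit 9) (nat_lit 4) (nat_lit 321) (nat_lit 295) (nat_lit 104)))) (XT.nd (nat_lit 156) (nat_lit 0) (nat_lit 0) (XT.nd (nat_lit 78) (nat_lit 0) (nat_lit 0) (XT.lf (nat_lit 0) (nat_lit 65496183124) (nat_lit 0) (nat_lit 65496183124) (nat_lit 380) (nat_lit 23000732341) (nat_lit 27) (nat_lit 5) (nat_lit 27) (nat_lit 3) (nat_lit 32) (nat_lit 3) (nat_lit 296) (nat_lit 296) (nat_lit 128)) (XT.lf (nat_lit 0) (nat_lit 257036724123) (nat_lit 0) (nat_lit 15427959159) (nat_lit 380) (nat_lit 47840910366) (nat_lit 27) (nat_lit 5) (nat_lit 27) (nat_lit 3) (nat_lit 32) (nat_lit 3) (nat_lit 297) (nat_lit 296) (nat_lit 127))) (XT.nd (nat_lit 78) (nat_lit 0) (nat_lit 0) (XT.lf (nat_lit 76) (nat_lit 59920911434) (nat_lit 0) (nat_lit 227933792679) (nat_lit 456) (nat_lit 45430104451) (nat_lit 28) (nat_lit 5) (nat_lit 27) (nat_lit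 5) (nat_lit 33) (nat_lit 5) (nat_lit 298) (nat_lit 296) (nat_lit 126)) (XT.lf (nat_lit 76) (nat_lit 196142170749) (nat_lit 0) (nat_lit 110454167938) (nat_lit 456) (nat_lit 40536389623) (nat_lit 28) (nat_lit 5) (nat_lit 27) (nat_lit 5) (nat_lit 33) (nat_lit 5) (nat_lit 299) (nat_lit 296) (nat_lit 125))))) (XT.nd (nat_lit 234) (nat_lit 608) (nat_lit 0) (XT.nd (nat_lit 78) (nat_lit 0) (nat_lit 0) (XT.lf (nat_lit 0) (nat_lit 327232249565) (nat_lit 380) (nat_lit 19222379706) (nat_lit 456) (nat_lit 15602257280) (nat_lit 28) (nat_lit 5) (nat_lit 33) (nat_lit 5) (nat_lit 34) (nat_lit 5) (nat_lit 300) (nat_lit 296) (nat_lit 124)) (XT.nd (nat_lit 78) (nat_lit 0) (nat_lit 0) (XT.lf (nat_lit 76) (nat_lit 126548761711) (nat_lit 0) (nat_lit 228882667445) (nat_lit 456) (nat_lit 22270557143) (nat_lit 29) (nat_lit 5) (nat_lit 28) (nat_lit 5) (nat_lit 34) (nat_lit 5) (nat_lit 301) (nat_lit 296) (nat_lit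 123)) (XT.lf (nat_lit 76) (nat_lit 285074756216) (nat_lit 0) (nat_lit 101337318996) (nat_lit 456) (nat_lit 8144576725) (nat_lit 29) (nat_lit 5) (nat_lit 28) (nat_lit 5) (nat_lit 34) (nat_lit 5) (nat_lit 302) (nat_lit 296) (nat_lit 122)))) (XT.nd (nat_lit 156) (nat_lit 228) (nat_lit 0) (XT.nd (nat_lit 78) (nat_lit 0) (nat_lit 0) (XT.lf (nat_lit 0) (nat_lit 8761868576) (nat_lit 456) (nat_lit 367931941624) (nat_lit 76) (nat_lit 35891708004) (nat_lit 23) (nat_lit 5) (nat_lit 29) (nat_lit 5) (nat_lit 24) (nat_lit 5) (nat_lit 303) (nat_lit 296) (nat_lit 121)) (XT.lf (nat_lit 0) (nat_lit 32284091642) (nat_lit 456) (nat_lit 217392472275) (nat_lit 76) (nat_lit 181906943973) (nat_lit 23) (nat_lit 5) (nat_lit 29) (nat_lit 5) (nat_lit 24) (nat_lit 5) (nat_lit 304) (nat_lit 296) (nat_lit 120))) (XT.nd (nat_lit 78) (nat_lit 228) (nat_lit 0) (XT.lf (nat_lit 0) (nat_lit 57688057574) (nat_lit 456)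 (nat_lit 54809877700) (nat_lit 76) (nat_lit 339603404626) (nat_lit 23) (nat_lit 5) (nat_lit 29) (nat_lit 5) (nat_lit 24) (nat_lit 5) (nat_lit 305) (nat_lit 296) (nat_lit 119)) (XT.lf (nat_lit 0) (nat_lit 89118936199) (nat_lit 304) (nat_lit 347813591122) (nat_lit 76) (nat_lit 37008503842) (nat_lit 20) (nat_lit 5) (nat_lit 24) (nat_lit 5) (nat_lit 21) (nat_lit 5) (nat_lit 306) (nat_lit 296) (nat_lit 118))))))))
noncomputable def xc125 : XT := (XT.nd (nat_lit 37752) (nat_lit 0) (nat_lit 152) (XT.nd (nat_lit 1014) (nat_lit 152) (nat_lit 0) (XT.nd (nat_lit 468) (nat_lit 380) (nat_lit 0) (XT.nd (nat_lit 234) (nat_lit 152) (nat_lit 0) (XT.nd (nat_lit 78) (nat_lit 228) (nat_lit 0) (XT.lf (nat_lit 0) (nat_lit 127523802595) (nat_lit 304) (nat_lit 175712161187) (nat_lit 76) (nat_lit 193935172848) (nat_lit 20) (nat_lit 5) (nat_lit 24) (nat_lit 5) (nat_lit 21) (nat_lit 5) (nat_lit 307) (nat_lit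 296) (nat_lit 117)) (XT.nd (nat_lit 78) (nat_lit 0) (nat_lit 0) (XT.lf (nat_lit 0) (nat_lit 10692221783) (nat_lit 228) (nat_lit 158565956327) (nat_lit 304) (nat_lit 352980903119) (nat_lit 17) (nat_lit 5) (nat_lit 20) (nat_lit 5) (nat_lit 21) (nat_lit 5) (nat_lit 308) (nat_lit 296) (nat_lit 116)) (XT.lf (nat_lit 0) (nat_lit 219204492533) (nat_lit 304) (nat_lit 326995222380) (nat_lit 76) (nat_lit 2722891630) (nat_lit 17) (nat_lit 5) (nat_lit 21) (nat_lit 5) (nat_lit 18) (nat_lit 5) (nat_lit 309) (nat_lit 296) (nat_lit 115)))) (XT.nd (nat_lit 78) (nat_lit 152) (nat_lit 0) (XT.lf (nat_lit 0) (nat_lit 277265083360) (nat_lit 304) (nat_lit 131798079522) (nat_lit 76) (nat_lit 168348165542) (nat_lit 17) (nat_lit 5) (nat_lit 21) (nat_lit 5) (nat_lit 18) (nat_lit 5) (nat_lit 310) (nat_lit 296) (nat_lit 114)) (XT.nd (nat_lit 78) (nat_lit 0) (nat_lit 0) (XT.lf (nat_lit 0) (nat_lit 83175587763)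 (nat_lit 152) (nat_lit 258795285411) (nat_lit 228) (nat_lit 266048246964) (nat_lit 15) (nat_lit 5) (nat_lit 17) (nat_lit 5) (nat_lit 18) (nat_lit 5) (nat_lit 311) (nat_lit 296) (nat_lit 113)) (XT.lf (nat_lit 0) (nat_lit 322842595911) (nat_lit 152) (nat_lit 92614101245) (nat_lit 228) (nat_lit 225330552559) (nat_lit 15) (nat_lit 5) (nat_lit 17) (nat_lit 5) (nat_lit 18) (nat_lit 5) (nat_lit 312) (nat_lit 296) (nat_lit 112))))) (XT.nd (nat_lit 234) (nat_lit 228) (nat_lit 0) (XT.nd (nat_lit 78) (nat_lit 152) (nat_lit 0) (XT.lf (nat_lit 0) (nat_lit 496910389560) (nat_lit 228) (nat_lit 96582913869) (nat_lit 76) (nat_lit 82516406219) (nat_lit 15) (nat_lit 5) (nat_lit 18) (nat_lit 5) (nat_lit 16) (nat_lit 5) (nat_lit 313) (nat_lit 296) (nat_lit 111)) (XT.nd (nat_lit 78) (nat_lit 0) (nat_lit 0) (XT.lf (nat_lit 0) (nat_lit 147458659580) (nat_lit 152) (nat_lit 443373644146) (nat_lit 228) (nat_lit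 122741508717) (nat_lit 13) (nat_lit 5) (nat_lit 15) (nat_lit 5) (nat_lit 16) (nat_lit 5) (nat_lit 314) (nat_lit 296) (nat_lit 110)) (XT.lf (nat_lit 0) (nat_lit 416516291432) (nat_lit 152) (nat_lit 278392409454) (nat_lit 228) (nat_lit 59023084348) (nat_lit 13) (nat_lit 5) (nat_lit 15) (nat_lit 5) (nat_lit 16) (nat_lit 5) (nat_lit 315) (nat_lit 296) (nat_lit 109)))) (XT.nd (nat_lit 156) (nat_lit 0) (nat_lit 0) (XT.nd (nat_lit 78) (nat_lit 152) (nat_lit 0) (XT.lf (nat_lit 0) (nat_lit 9302920356) (nat_lit 228) (nat_lit 90655402118) (nat_lit 76) (nat_lit 697541233513) (nat_lit 12) (nat_lit 5) (nat_lit 15) (nat_lit 5) (nat_lit 13) (nat_lit 5) (nat_lit 316) (nat_lit 296) (nat_lit 108)) (XT.lf (nat_lit 0) (nat_lit 86704276097) (nat_lit 228) (nat_lit 662970769374) (nat_lit 76) (nat_lit 94211213667) (nat_lit 10) (nat_lit 5) (nat_lit 13) (nat_lit 5) (nat_lit 11) (nat_lit 5) (nat_lit 317) (nat_lit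 296) (nat_lit 107))) (XT.nd (nat_lit 78) (nat_lit 0) (nat_lit 0) (XT.lf (nat_lit 0) (nat_lit 175437105461) (nat_lit 228) (nat_lit 417078621202) (nat_lit 76) (nat_lit 301057022782) (nat_lit 10) (nat_lit 5) (nat_lit 13) (nat_lit 5) (nat_lit 11) (nat_lit 5) (nat_lit 318) (nat_lit 296) (nat_lit 106)) (XT.lf (nat_lit 0) (nat_lit 271268546795) (nat_lit 228) (nat_lit 151515121277) (nat_lit 76) (nat_lit 524450492169) (nat_lit 10) (nat_lit 5) (nat_lit 13) (nat_lit 5) (nat_lit 11) (nat_lit 5) (nat_lit 319) (nat_lit 296) (nat_lit 105)))))) (XT.nd (nat_lit 36192) (nat_lit 0) (nat_lit 684) (XT.nd (nat_lit 35880) (nat_lit 0) (nat_lit 1444) (XT.nd (nat_lit 35724) (nat_lit 0) (nat_lit 1444) (XT.lf (nat_lit 0) (nat_lit 142417752822) (nat_lit 152) (nat_lit 235773887679) (nat_lit 228) (nat_lit 626722832535) (nat_lit 8) (nat_lit 5) (nat_lit 10) (nat_lit 5) (nat_lit 11) (nat_lit 5) (nat_lit 320) (nat_lit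 296) (nat_lit 104)) (XT.nd (nat_lit 78) (nat_lit 0) (nat_lit 0) (XT.lf (nat_lit 0) (nat_lit 70736151765) (nat_lit 0) (nat_lit 70736151765) (nat_lit 380) (nat_lit 24840192764) (nat_lit 27) (nat_lit 5) (nat_lit 27) (nat_lit 3) (nat_lit 32) (nat_lit 3) (nat_lit 297) (nat_lit 297) (nat_lit 126)) (XT.lf (nat_lit 0) (nat_lit 277600169443) (nat_lit 0) (nat_lit 16662703282) (nat_lit 380) (nat_lit 51667075483) (nat_lit 27) (nat_lit 5) (nat_lit 27) (nat_lit 3) (nat_lit 32) (nat_lit 3) (nat_lit 298) (nat_lit 297) (nat_lit 125)))) (XT.nd (nat_lit 156) (nat_lit 0) (nat_lit 76) (XT.nd (nat_lit 78) (nat_lit 0) (nat_lit 0) (XT.lf (nat_lit 76) (nat_lit 64715181367) (nat_lit 0) (nat_lit 246168841747) (nat_lit 456) (nat_lit 49063483843) (nat_lit 28) (nat_lit 5) (nat_lit 27) (nat_lit 5) (nat_lit 33) (nat_lit 5) (nat_lit 299) (nat_lit 297) (nat_lit 124)) (XT.lf (nat_lit 76) (nat_lit 211834097204) (nat_lit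 0) (nat_lit 119290821422) (nat_lit 456) (nat_lit 43778348048) (nat_lit 28) (nat_lit 5) (nat_lit 27) (nat_lit 5) (nat_lit 33) (nat_lit 5) (nat_lit 300) (nat_lit 297) (nat_lit 123))) (XT.nd (nat_lit 78) (nat_lit 0) (nat_lit 0) (XT.lf (nat_lit 0) (nat_lit 353411630591) (nat_lit 380) (nat_lit 20759577127) (nat_lit 456) (nat_lit 16850156345) (nat_lit 28) (nat_lit 5) (nat_lit 33) (nat_lit 5) (nat_lit 34) (nat_lit 5) (nat_lit 301) (nat_lit 297) (nat_lit 122)) (XT.lf (nat_lit 76) (nat_lit 136673240592) (nat_lit 0) (nat_lit 247193458519) (nat_lit 456) (nat_lit 24051377005) (nat_lit 29) (nat_lit 5) (nat_lit 28) (nat_lit 5) (nat_lit 34) (nat_lit 5) (nat_lit 302) (nat_lit 297) (nat_lit 121))))) (XT.nd (nat_lit 234) (nat_lit 456) (nat_lit 0) (XT.nd (nat_lit 78) (nat_lit 380) (nat_lit 0) (XT.lf (nat_lit 76) (nat_lit 307881271847) (nat_lit 0) (nat_lit 109444469033) (nat_lit 456) (nat_lit 8795379244)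 (nat_lit 29) (nat_lit 5) (nat_lit 28) (nat_lit 5) (nat_lit 34) (nat_lit 5) (nat_lit 303) (nat_lit 297) (nat_lit 120)) (XT.nd (nat_lit 78) (nat_lit 0) (nat_lit 0) (XT.lf (nat_lit 0) (nat_lit 9463500493) (nat_lit 456) (nat_lit 397365866370) (nat_lit 76) (nat_lit 38762931347) (nat_lit 23) (nat_lit 5) (nat_lit 29) (nat_lit 5) (nat_lit 24) (nat_lit 5) (nat_lit 304) (nat_lit 297) (nat_lit 119)) (XT.lf (nat_lit 0) (nat_lit 34867450854) (nat_lit 456) (nat_lit 234783286184) (nat_lit 76) (nat_lit 196459394585) (nat_lit 23) (nat_lit 5) (nat_lit 29) (nat_lit 5) (nat_lit 24) (nat_lit 5) (nat_lit 305) (nat_lit 297) (nat_lit 118)))) (XT.nd (nat_lit 156) (nat_lit 228) (nat_lit 0) (XT.nd (nat_lit 78) (nat_lit 228) (nat_lit 0) (XT.lf (nat_lit 0) (nat_lit 62303687254) (nat_lit 456) (nat_lit 59194127293) (nat_lit 76) (nat_lit 366771579861) (nat_lit 23) (nat_lit 5) (nat_lit 29) (nat_lit 5) (nat_lit 24)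 (nat_lit 5) (nat_lit 306) (nat_lit 297) (nat_lit 117)) (XT.lf (nat_lit 0) (nat_lit 96249004843) (nat_lit 304) (nat_lit 375638101019) (nat_lit 76) (nat_lit 39969158053) (nat_lit 20) (nat_lit 5) (nat_lit 24) (nat_lit 5) (nat_lit 21) (nat_lit 5) (nat_lit 307) (nat_lit 297) (nat_lit 116))) (XT.nd (nat_lit 78) (nat_lit 228) (nat_lit 0) (XT.lf (nat_lit 0) (nat_lit 137726219532) (nat_lit 304) (nat_lit 189768599460) (nat_lit 76) (nat_lit 209449962511) (nat_lit 20) (nat_lit 5) (nat_lit 24) (nat_lit 5) (nat_lit 21) (nat_lit 5) (nat_lit 308) (nat_lit 297) (nat_lit 115)) (XT.lf (nat_lit 0) (nat_lit 11548120613) (nat_lit 228) (nat_lit 171251199027) (nat_lit 304) (nat_lit 381218844438) (nat_lit 17) (nat_lit 5) (nat_lit 20) (nat_lit 5) (nat_lit 21) (nat_lit 5) (nat_lit 309) (nat_lit 297) (nat_lit 114))))))) (XT.nd (nat_lit 36816) (nat_lit 0) (nat_lit 380) (XT.nd (nat_lit 468) (nat_lit 228) (nat_lit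 0) (XT.nd (nat_lit 234) (nat_lit 152) (nat_lit 0) (XT.nd (nat_lit 78) (nat_lit 152) (nat_lit 0) (XT.lf (nat_lit 0) (nat_lit 236741303875) (nat_lit 304) (nat_lit 353154318020) (nat_lit 76) (nat_lit 2940752698) (nat_lit 17) (nat_lit 5) (nat_lit 21) (nat_lit 5) (nat_lit 18) (nat_lit 5) (nat_lit 310) (nat_lit 297) (nat_lit 113)) (XT.nd (nat_lit 78) (nat_lit 152) (nat_lit 0) (XT.lf (nat_lit 0) (nat_lit 299446708491) (nat_lit 304) (nat_lit 142341442411) (nat_lit 76) (nat_lit 181816046319) (nat_lit 17) (nat_lit 5) (nat_lit 21) (nat_lit 5) (nat_lit 18) (nat_lit 5) (nat_lit 311) (nat_lit 297) (nat_lit 112)) (XT.lf (nat_lit 0) (nat_lit 89830106017) (nat_lit 152) (nat_lit 279498835808) (nat_lit 228) (nat_lit 287331672315) (nat_lit 15) (nat_lit 5) (nat_lit 17) (nat_lit 5) (nat_lit 18) (nat_lit 5) (nat_lit 312) (nat_lit 297) (nat_lit 111)))) (XT.nd (nat_lit 78) (nat_lit 152) (nat_lit 0) (XT.lf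 (nat_lit 0) (nat_lit 348670439911) (nat_lit 152) (nat_lit 100023162275) (nat_lit 228) (nat_lit 243356594536) (nat_lit 15) (nat_lit 5) (nat_lit 17) (nat_lit 5) (nat_lit 18) (nat_lit 5) (nat_lit 313) (nat_lit 297) (nat_lit 110)) (XT.nd (nat_lit 78) (nat_lit 152) (nat_lit 0) (XT.lf (nat_lit 0) (nat_lit 536663564123) (nat_lit 228) (nat_lit 104309113938) (nat_lit 76) (nat_lit 89117777712) (nat_lit 15) (nat_lit 5) (nat_lit 18) (nat_lit 5) (nat_lit 16) (nat_lit 5) (nat_lit 314) (nat_lit 297) (nat_lit 109)) (XT.lf (nat_lit 0) (nat_lit 159255774424) (nat_lit 152) (nat_lit 478843441712) (nat_lit 228) (nat_lit 132560472112) (nat_lit 13) (nat_lit 5) (nat_lit 15) (nat_lit 5) (nat_lit 16) (nat_lit 5) (nat_lit 315) (nat_lit 297) (nat_lit 108))))) (XT.nd (nat_lit 234) (nat_lit 0) (nat_lit 0) (XT.nd (nat_lit 78) (nat_lit 228) (nat_lit 0) (XT.lf (nat_lit 0) (nat_lit 449837985560) (nat_lit 152) (nat_lit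 300663715205) (nat_lit 228) (nat_lit 63744600260) (nat_lit 13) (nat_lit 5) (nat_lit 15) (nat_lit 5) (nat_lit 16) (nat_lit 5) (nat_lit 316) (nat_lit 297) (nat_lit 107)) (XT.nd (nat_lit 78) (nat_lit 152) (nat_lit 0) (XT.lf (nat_lit 0) (nat_lit 10047444990) (nat_lit 228) (nat_lit 97907454765) (nat_lit 76) (nat_lit 753344595097) (nat_lit 12) (nat_lit 5) (nat_lit 15) (nat_lit 5) (nat_lit 13) (nat_lit 5) (nat_lit 317) (nat_lit 297) (nat_lit 106)) (XT.lf (nat_lit 0) (nat_lit 93640898732) (nat_lit 228) (nat_lit 716008038783) (nat_lit 76) (nat_lit 101748197748) (nat_lit 10) (nat_lit 5) (nat_lit 13) (nat_lit 5) (nat_lit 11) (nat_lit 5) (nat_lit 318) (nat_lit 297) (nat_lit 105)))) (XT.nd (nat_lit 35958) (nat_lit 0) (nat_lit 1292) (XT.nd (nat_lit 35880) (nat_lit 0) (nat_lit 1292) (XT.lf (nat_lit 0) (nat_lit 189472333665) (nat_lit 228) (nat_lit 450444547805) (nat_lit 76) (nat_lit 325141665149)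 (nat_lit 10) (nat_lit 5) (nat_lit 13) (nat_lit 5) (nat_lit 11) (nat_lit 5) (nat_lit 319) (nat_lit 297) (nat_lit 104)) (XT.lf (nat_lit 0) (nat_lit 76395278809) (nat_lit 0) (nat_lit 76395278809) (nat_lit 380) (nat_lit 26826895355) (nat_lit 27) (nat_lit 5) (nat_lit 27) (nat_lit 3) (nat_lit 32) (nat_lit 3) (nat_lit 298) (nat_lit 298) (nat_lit 124))) (XT.nd (nat_lit 78) (nat_lit 0) (nat_lit 0) (XT.lf (nat_lit 0) (nat_lit 299808618004) (nat_lit 0) (nat_lit 17996154550) (nat_lit 380) (nat_lit 55799491836) (nat_lit 27) (nat_lit 5) (nat_lit 27) (nat_lit 3) (nat_lit 32) (nat_lit 3) (nat_lit 299) (nat_lit 298) (nat_lit 123)) (XT.lf (nat_lit 76) (nat_lit 69892907723) (nat_lit 0) (nat_lit 265862645428) (nat_lit 456) (nat_lit 52987680380) (nat_lit 28) (nat_lit 5) (nat_lit 27) (nat_lit 5) (nat_lit 33) (nat_lit 5) (nat_lit 300) (nat_lit 298) (nat_lit 122)))))) (XT.nd (nat_lit 546) (nat_lit 608) (nat_lit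 0) (XT.nd (nat_lit 234) (nat_lit 304) (nat_lit 0) (XT.nd (nat_lit 78) (nat_lit 0) (nat_lit 76) (XT.lf (nat_lit 76) (nat_lit 228781298912) (nat_lit 0) (nat_lit 128834361527) (nat_lit 456) (nat_lit 47279799067) (nat_lit 28) (nat_lit 5) (nat_lit 27) (nat_lit 5) (nat_lit 33) (nat_lit 5) (nat_lit 301) (nat_lit 298) (nat_lit 121)) (XT.nd (nat_lit 78) (nat_lit 0) (nat_lit 0) (XT.lf (nat_lit 0) (nat_lit 381685247820) (nat_lit 380) (nat_lit 22419834933) (nat_lit 456) (nat_lit 18197927496) (nat_lit 28) (nat_lit 5) (nat_lit 33) (nat_lit 5) (nat_lit 34) (nat_lit 5) (nat_lit 302) (nat_lit 298) (nat_lit 120)) (XT.lf (nat_lit 76) (nat_lit 147607595334) (nat_lit 0) (nat_lit 266969087531) (nat_lit 456) (nat_lit 25974780110) (nat_lit 29) (nat_lit 5) (nat_lit 28) (nat_lit 5) (nat_lit 34) (nat_lit 5) (nat_lit 303) (nat_lit 298) (nat_lit 119)))) (XT.nd (nat_lit 156) (nat_lit 0) (nat_lit 0) (XT.nd (nat_lit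 78) (nat_lit 380) (nat_lit 0) (XT.lf (nat_lit 76) (nat_lit 332512232386) (nat_lit 0) (nat_lit 118200167603) (nat_lit 456) (nat_lit 9498354903) (nat_lit 29) (nat_lit 5) (nat_lit 28) (nat_lit 5) (nat_lit 34) (nat_lit 5) (nat_lit 304) (nat_lit 298) (nat_lit 118)) (XT.lf (nat_lit 0) (nat_lit 10221165606) (nat_lit 456) (nat_lit 429154595057) (nat_lit 76) (nat_lit 41863868721) (nat_lit 23) (nat_lit 5) (nat_lit 29) (nat_lit 5) (nat_lit 24) (nat_lit 5) (nat_lit 305) (nat_lit 298) (nat_lit 117))) (XT.nd (nat_lit 78) (nat_lit 0) (nat_lit 0) (XT.lf (nat_lit 0) (nat_lit 37657388657) (nat_lit 456) (nat_lit 253565448501) (nat_lit 76) (nat_lit 212176056213) (nat_lit 23) (nat_lit 5) (nat_lit 29) (nat_lit 5) (nat_lit 24) (nat_lit 5) (nat_lit 306) (nat_lit 298) (nat_lit 116)) (XT.lf (nat_lit 0) (nat_lit 67288483841) (nat_lit 456) (nat_lit 63929193979) (nat_lit 76) (nat_lit 396113222973) (nat_lit 23)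 (nat_lit 5) (nat_lit 29) (nat_lit 5) (nat_lit 24) (nat_lit 5) (nat_lit 307) (nat_lit 298) (nat_lit 115))))) (XT.nd (nat_lit 234) (nat_lit 152) (nat_lit 0) (XT.nd (nat_lit 78) (nat_lit 228) (nat_lit 0) (XT.lf (nat_lit 0) (nat_lit 103949399979) (nat_lit 304) (nat_lit 405688654080) (nat_lit 76) (nat_lit 43166668323) (nat_lit 20) (nat_lit 5) (nat_lit 24) (nat_lit 5) (nat_lit 21) (nat_lit 5) (nat_lit 308) (nat_lit 298) (nat_lit 114)) (XT.nd (nat_lit 78) (nat_lit 228) (nat_lit 0) (XT.lf (nat_lit 0) (nat_lit 148744756677) (nat_lit 304) (nat_lit 204949629064) (nat_lit 76) (nat_lit 226205938796) (nat_lit 20) (nat_lit 5) (nat_lit 24) (nat_lit 5) (nat_lit 21) (nat_lit 5) (nat_lit 309) (nat_lit 298) (nat_lit 113)) (XT.lf (nat_lit 0) (nat_lit 12472417011) (nat_lit 228) (nat_lit 184951265965) (nat_lit 304) (nat_lit 411715896807) (nat_lit 17) (nat_lit 5) (nat_lit 20) (nat_lit 5) (nat_lit 21) (nat_lit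 5) (nat_lit 310) (nat_lit 298) (nat_lit 112)))) (XT.nd (nat_lit 156) (nat_lit 152) (nat_lit 0) (XT.nd (nat_lit 78) (nat_lit 0) (nat_lit 0) (XT.lf (nat_lit 0) (nat_lit 255680995650) (nat_lit 304) (nat_lit 381406215801) (nat_lit 76) (nat_lit 3176038408) (nat_lit 17) (nat_lit 5) (nat_lit 21) (nat_lit 5) (nat_lit 18) (nat_lit 5) (nat_lit 311) (nat_lit 298) (nat_lit 111)) (XT.lf (nat_lit 0) (nat_lit 323402803934) (nat_lit 304) (nat_lit 153728343303) (nat_lit 76) (nat_lit 196361353630) (nat_lit 17) (nat_lit 5) (nat_lit 21) (nat_lit 5) (nat_lit 18) (nat_lit 5) (nat_lit 312) (nat_lit 298) (nat_lit 110))) (XT.nd (nat_lit 78) (nat_lit 0) (nat_lit 0) (XT.lf (nat_lit 0) (nat_lit 97016918506) (nat_lit 152) (nat_lit 301858680571) (nat_lit 228) (nat_lit 310317833668) (nat_lit 15) (nat_lit 5) (nat_lit 17) (nat_lit 5) (nat_lit 18) (nat_lit 5) (nat_lit 313) (nat_lit 298) (nat_lit 109)) (XT.lf (nat_lit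 0) (nat_lit 376564449185) (nat_lit 152) (nat_lit 108024957756) (nat_lit 228) (nat_lit 262824777253) (nat_lit 15) (nat_lit 5) (nat_lit 17) (nat_lit 5) (nat_lit 18) (nat_lit 5) (nat_lit 314) (nat_lit 298) (nat_lit 108))))))))
noncomputable def xc126 : XT := (XT.nd (nat_lit 74178) (nat_lit 0) (nat_lit 228) (XT.nd (nat_lit 36972) (nat_lit 0) (nat_lit 76) (XT.nd (nat_lit 36426) (nat_lit 0) (nat_lit 836) (XT.nd (nat_lit 234) (nat_lit 76) (nat_lit 0) (XT.nd (nat_lit 78) (nat_lit 152) (nat_lit 0) (XT.lf (nat_lit 0) (nat_lit 579596943662) (nat_lit 228) (nat_lit 112653471790) (nat_lit 76) (nat_lit 96247250508) (nat_lit 15) (nat_lit 5) (nat_lit 18) (nat_lit 5) (nat_lit 16) (nat_lit 5) (nat_lit 315) (nat_lit 298) (nat_lit 107)) (XT.nd (nat_lit 78) (nat_lit 0) (nat_lit 0) (XT.lf (nat_lit 0) (nat_lit 171996598242) (nat_lit 152) (nat_lit 517150836489) (nat_lit 228) (nat_lit 143165003552) (nat_lit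 13) (nat_lit 5) (nat_lit 15) (nat_lit 5) (nat_lit 16) (nat_lit 5) (nat_lit 316) (nat_lit 298) (nat_lit 106)) (XT.lf (nat_lit 0) (nat_lit 485825359464) (nat_lit 152) (nat_lit 324716737829) (nat_lit 228) (nat_lit 68843884643) (nat_lit 13) (nat_lit 5) (nat_lit 15) (nat_lit 5) (nat_lit 16) (nat_lit 5) (nat_lit 317) (nat_lit 298) (nat_lit 105)))) (XT.nd (nat_lit 36036) (nat_lit 0) (nat_lit 1140) (XT.lf (nat_lit 0) (nat_lit 10851490079) (nat_lit 228) (nat_lit 105739725768) (nat_lit 76) (nat_lit 813612216633) (nat_lit 12) (nat_lit 5) (nat_lit 15) (nat_lit 5) (nat_lit 13) (nat_lit 5) (nat_lit 318) (nat_lit 298) (nat_lit 104)) (XT.nd (nat_lit 78) (nat_lit 0) (nat_lit 0) (XT.lf (nat_lit 0) (nat_lit 82507102505) (nat_lit 0) (nat_lit 82507102505) (nat_lit 380) (nat_lit 28972607315) (nat_lit 27) (nat_lit 5) (nat_lit 27) (nat_lit 3) (nat_lit 32) (nat_lit 3) (nat_lit 299) (nat_lit 299) (nat_lit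 122)) (XT.lf (nat_lit 0) (nat_lit 323793680391) (nat_lit 0) (nat_lit 19436219861) (nat_lit 380) (nat_lit 60262636982) (nat_lit 27) (nat_lit 5) (nat_lit 27) (nat_lit 3) (nat_lit 32) (nat_lit 3) (nat_lit 300) (nat_lit 299) (nat_lit 121))))) (XT.nd (nat_lit 234) (nat_lit 304) (nat_lit 0) (XT.nd (nat_lit 78) (nat_lit 0) (nat_lit 0) (XT.lf (nat_lit 76) (nat_lit 75484779167) (nat_lit 0) (nat_lit 287131911128) (nat_lit 456) (nat_lit 57225938491) (nat_lit 28) (nat_lit 5) (nat_lit 27) (nat_lit 5) (nat_lit 33) (nat_lit 5) (nat_lit 301) (nat_lit 299) (nat_lit 120)) (XT.nd (nat_lit 78) (nat_lit 0) (nat_lit 76) (XT.lf (nat_lit 76) (nat_lit 247084209146) (nat_lit 0) (nat_lit 139141345694) (nat_lit 456) (nat_lit 51061482697) (nat_lit 28) (nat_lit 5) (nat_lit 27) (nat_lit 5) (nat_lit 33) (nat_lit 5) (nat_lit 302) (nat_lit 299) (nat_lit 119)) (XT.lf (nat_lit 0) (nat_lit 412220656449) (nat_lit 380)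 (nat_lit 24212985887) (nat_lit 456) (nat_lit 19653554772) (nat_lit 28) (nat_lit 5) (nat_lit 33) (nat_lit 5) (nat_lit 34) (nat_lit 5) (nat_lit 303) (nat_lit 299) (nat_lit 118)))) (XT.nd (nat_lit 156) (nat_lit 380) (nat_lit 0) (XT.nd (nat_lit 78) (nat_lit 0) (nat_lit 0) (XT.lf (nat_lit 76) (nat_lit 159416627767) (nat_lit 0) (nat_lit 288326745133) (nat_lit 456) (nat_lit 28052156333) (nat_lit 29) (nat_lit 5) (nat_lit 28) (nat_lit 5) (nat_lit 34) (nat_lit 5) (nat_lit 304) (nat_lit 299) (nat_lit 117)) (XT.lf (nat_lit 76) (nat_lit 359113604316) (nat_lit 0) (nat_lit 127656301936) (nat_lit 456) (nat_lit 10257662012) (nat_lit 29) (nat_lit 5) (nat_lit 28) (nat_lit 5) (nat_lit 34) (nat_lit 5) (nat_lit 305) (nat_lit 299) (nat_lit 116))) (XT.nd (nat_lit 78) (nat_lit 0) (nat_lit 0) (XT.lf (nat_lit 0) (nat_lit 11039360461) (nat_lit 456) (nat_lit 463486499164) (nat_lit 76) (nat_lit 45212894942) (nat_lit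 23) (nat_lit 5) (nat_lit 29) (nat_lit 5) (nat_lit 24) (nat_lit 5) (nat_lit 306) (nat_lit 299) (nat_lit 115)) (XT.lf (nat_lit 0) (nat_lit 40670444200) (nat_lit 456) (nat_lit 273850255217) (nat_lit 76) (nat_lit 229150063602) (nat_lit 23) (nat_lit 5) (nat_lit 29) (nat_lit 5) (nat_lit 24) (nat_lit 5) (nat_lit 307) (nat_lit 299) (nat_lit 114)))))) (XT.nd (nat_lit 546) (nat_lit 152) (nat_lit 0) (XT.nd (nat_lit 234) (nat_lit 380) (nat_lit 0) (XT.nd (nat_lit 78) (nat_lit 228) (nat_lit 0) (XT.lf (nat_lit 0) (nat_lit 72671992596) (nat_lit 456) (nat_lit 69043132123) (nat_lit 76) (nat_lit 427802209415) (nat_lit 23) (nat_lit 5) (nat_lit 29) (nat_lit 5) (nat_lit 24) (nat_lit 5) (nat_lit 308) (nat_lit 299) (nat_lit 113)) (XT.nd (nat_lit 78) (nat_lit 0) (nat_lit 0) (XT.lf (nat_lit 0) (nat_lit 112265758998) (nat_lit 304) (nat_lit 438143322005) (nat_lit 76) (nat_lit 46619982607) (nat_lit 20) (nat_lit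 5) (nat_lit 24) (nat_lit 5) (nat_lit 21) (nat_lit 5) (nat_lit 309) (nat_lit 299) (nat_lit 112)) (XT.lf (nat_lit 0) (nat_lit 160644714082) (nat_lit 304) (nat_lit 221345206425) (nat_lit 76) (nat_lit 244302396138) (nat_lit 20) (nat_lit 5) (nat_lit 24) (nat_lit 5) (nat_lit 21) (nat_lit 5) (nat_lit 310) (nat_lit 299) (nat_lit 111)))) (XT.nd (nat_lit 156) (nat_lit 152) (nat_lit 0) (XT.nd (nat_lit 78) (nat_lit 0) (nat_lit 0) (XT.lf (nat_lit 0) (nat_lit 13470593388) (nat_lit 228) (nat_lit 199747342393) (nat_lit 304) (nat_lit 444652778302) (nat_lit 17) (nat_lit 5) (nat_lit 20) (nat_lit 5) (nat_lit 21) (nat_lit 5) (nat_lit 311) (nat_lit 299) (nat_lit 110)) (XT.lf (nat_lit 0) (nat_lit 276135807491) (nat_lit 304) (nat_lit 411918329268) (nat_lit 76) (nat_lit 3430143338) (nat_lit 17) (nat_lit 5) (nat_lit 21) (nat_lit 5) (nat_lit 18) (nat_lit 5) (nat_lit 312) (nat_lit 299) (nat_lit 109))) (XT.nd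 (nat_lit 78) (nat_lit 152) (nat_lit 0) (XT.lf (nat_lit 0) (nat_lit 349275335831) (nat_lit 304) (nat_lit 166026255400) (nat_lit 76) (nat_lit 212070282159) (nat_lit 17) (nat_lit 5) (nat_lit 21) (nat_lit 5) (nat_lit 18) (nat_lit 5) (nat_lit 313) (nat_lit 299) (nat_lit 108)) (XT.lf (nat_lit 0) (nat_lit 104778618357) (nat_lit 152) (nat_lit 326007321775) (nat_lit 228) (nat_lit 335142941060) (nat_lit 15) (nat_lit 5) (nat_lit 17) (nat_lit 5) (nat_lit 18) (nat_lit 5) (nat_lit 314) (nat_lit 299) (nat_lit 107))))) (XT.nd (nat_lit 36348) (nat_lit 0) (nat_lit 1064) (XT.nd (nat_lit 78) (nat_lit 152) (nat_lit 0) (XT.lf (nat_lit 0) (nat_lit 406689925833) (nat_lit 152) (nat_lit 116666905078) (nat_lit 228) (nat_lit 283850463784) (nat_lit 15) (nat_lit 5) (nat_lit 17) (nat_lit 5) (nat_lit 18) (nat_lit 5) (nat_lit 315) (nat_lit 299) (nat_lit 106)) (XT.nd (nat_lit 78) (nat_lit 152) (nat_lit 0) (XT.lf (nat_lit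 0) (nat_lit 625964951564) (nat_lit 228) (nat_lit 121665431235) (nat_lit 76) (nat_lit 103947073911) (nat_lit 15) (nat_lit 5) (nat_lit 18) (nat_lit 5) (nat_lit 16) (nat_lit 5) (nat_lit 316) (nat_lit 299) (nat_lit 105)) (XT.lf (nat_lit 0) (nat_lit 185756636342) (nat_lit 152) (nat_lit 558522834340) (nat_lit 228) (nat_lit 154617941209) (nat_lit 13) (nat_lit 5) (nat_lit 15) (nat_lit 5) (nat_lit 16) (nat_lit 5) (nat_lit 317) (nat_lit 299) (nat_lit 104)))) (XT.nd (nat_lit 156) (nat_lit 0) (nat_lit 0) (XT.nd (nat_lit 78) (nat_lit 0) (nat_lit 0) (XT.lf (nat_lit 0) (nat_lit 89107843366) (nat_lit 0) (nat_lit 89107843366) (nat_lit 380) (nat_lit 31290038955) (nat_lit 27) (nat_lit 5) (nat_lit 27) (nat_lit 3) (nat_lit 32) (nat_lit 3) (nat_lit 300) (nat_lit 300) (nat_lit 120)) (XT.lf (nat_lit 0) (nat_lit 349697494565) (nat_lit 0) (nat_lit 20991437192) (nat_lit 380) (nat_lit 65082949893) (nat_lit 27)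 (nat_lit 5) (nat_lit 27) (nat_lit 3) (nat_lit 32) (nat_lit 3) (nat_lit 301) (nat_lit 300) (nat_lit 119))) (XT.nd (nat_lit 78) (nat_lit 0) (nat_lit 0) (XT.lf (nat_lit 76) (nat_lit 81523937723) (nat_lit 0) (nat_lit 310102681838) (nat_lit 456) (nat_lit 61803365148) (nat_lit 28) (nat_lit 5) (nat_lit 27) (nat_lit 5) (nat_lit 33) (nat_lit 5) (nat_lit 302) (nat_lit 300) (nat_lit 118)) (XT.lf (nat_lit 76) (nat_lit 266851294232) (nat_lit 0) (nat_lit 150272855035) (nat_lit 456) (nat_lit 55145800923) (nat_lit 28) (nat_lit 5) (nat_lit 27) (nat_lit 5) (nat_lit 33) (nat_lit 5) (nat_lit 303) (nat_lit 300) (nat_lit 117))))))) (XT.nd (nat_lit 37284) (nat_lit 0) (nat_lit 152) (XT.nd (nat_lit 468) (nat_lit 608) (nat_lit 0) (XT.nd (nat_lit 234) (nat_lit 380) (nat_lit 0) (XT.nd (nat_lit 78) (nat_lit 0) (nat_lit 0) (XT.lf (nat_lit 0) (nat_lit 445198813770) (nat_lit 380) (nat_lit 26149651095) (nat_lit 456)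 (nat_lit 21225661750) (nat_lit 28) (nat_lit 5) (nat_lit 33) (nat_lit 5) (nat_lit 34) (nat_lit 5) (nat_lit 304) (nat_lit 300) (nat_lit 116)) (XT.nd (nat_lit 78) (nat_lit 0) (nat_lit 0) (XT.lf (nat_lit 76) (nat_lit 172170322192) (nat_lit 0) (nat_lit 311392996711) (nat_lit 456) (nat_lit 30295809133) (nat_lit 29) (nat_lit 5) (nat_lit 28) (nat_lit 5) (nat_lit 34) (nat_lit 5) (nat_lit 305) (nat_lit 300) (nat_lit 115)) (XT.lf (nat_lit 76) (nat_lit 387843029886) (nat_lit 0) (nat_lit 137868909764) (nat_lit 456) (nat_lit 11077793763) (nat_lit 29) (nat_lit 5) (nat_lit 28) (nat_lit 5) (nat_lit 34) (nat_lit 5) (nat_lit 306) (nat_lit 300) (nat_lit 114)))) (XT.nd (nat_lit 78) (nat_lit 0) (nat_lit 0) (XT.lf (nat_lit 0) (nat_lit 11922939345) (nat_lit 456) (nat_lit 500565021722) (nat_lit 76) (nat_lit 48829855141) (nat_lit 23) (nat_lit 5) (nat_lit 29) (nat_lit 5) (nat_lit 24) (nat_lit 5) (nat_lit 307)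 (nat_lit 300) (nat_lit 113)) (XT.nd (nat_lit 78) (nat_lit 0) (nat_lit 0) (XT.lf (nat_lit 0) (nat_lit 43924477928) (nat_lit 456) (nat_lit 295757907695) (nat_lit 76) (nat_lit 247482002582) (nat_lit 23) (nat_lit 5) (nat_lit 29) (nat_lit 5) (nat_lit 24) (nat_lit 5) (nat_lit 308) (nat_lit 300) (nat_lit 112)) (XT.lf (nat_lit 0) (nat_lit 78486120699) (nat_lit 456) (nat_lit 74566242008) (nat_lit 76) (nat_lit 462026324957) (nat_lit 23) (nat_lit 5) (nat_lit 29) (nat_lit 5) (nat_lit 24) (nat_lit 5) (nat_lit 309) (nat_lit 300) (nat_lit 111))))) (XT.nd (nat_lit 234) (nat_lit 152) (nat_lit 0) (XT.nd (nat_lit 78) (nat_lit 228) (nat_lit 0) (XT.lf (nat_lit 0) (nat_lit 121247368673) (nat_lit 304) (nat_lit 473194423910) (nat_lit 76) (nat_lit 50349564770) (nat_lit 20) (nat_lit 5) (nat_lit 24) (nat_lit 5) (nat_lit 21) (nat_lit 5) (nat_lit 310) (nat_lit 300) (nat_lit 110)) (XT.nd (nat_lit 78) (nat_lit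 228) (nat_lit 0) (XT.lf (nat_lit 0) (nat_lit 173496614315) (nat_lit 304) (nat_lit 239052486036) (nat_lit 76) (nat_lit 263846572602) (nat_lit 20) (nat_lit 5) (nat_lit 24) (nat_lit 5) (nat_lit 21) (nat_lit 5) (nat_lit 311) (nat_lit 300) (nat_lit 109)) (XT.lf (nat_lit 0) (nat_lit 14548569232) (nat_lit 228) (nat_lit 215727108481) (nat_lit 304) (nat_lit 480224665991) (nat_lit 17) (nat_lit 5) (nat_lit 20) (nat_lit 5) (nat_lit 21) (nat_lit 5) (nat_lit 312) (nat_lit 300) (nat_lit 108)))) (XT.nd (nat_lit 156) (nat_lit 152) (nat_lit 0) (XT.nd (nat_lit 78) (nat_lit 0) (nat_lit 0) (XT.lf (nat_lit 0) (nat_lit 298226956889) (nat_lit 304) (nat_lit 444871466566) (nat_lit 76) (nat_lit 3704573544) (nat_lit 17) (nat_lit 5) (nat_lit 21) (nat_lit 5) (nat_lit 18) (nat_lit 5) (nat_lit 313) (nat_lit 300) (nat_lit 107)) (XT.lf (nat_lit 0) (nat_lit 377217626400) (nat_lit 304) (nat_lit 179308051162) (nat_lit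 76) (nat_lit 229035922083) (nat_lit 17) (nat_lit 5) (nat_lit 21) (nat_lit 5) (nat_lit 18) (nat_lit 5) (nat_lit 314) (nat_lit 300) (nat_lit 106))) (XT.nd (nat_lit 78) (nat_lit 0) (nat_lit 0) (XT.lf (nat_lit 0) (nat_lit 113161204782) (nat_lit 152) (nat_lit 352087861870) (nat_lit 228) (nat_lit 361954102595) (nat_lit 15) (nat_lit 5) (nat_lit 17) (nat_lit 5) (nat_lit 18) (nat_lit 5) (nat_lit 315) (nat_lit 300) (nat_lit 105)) (XT.lf (nat_lit 0) (nat_lit 439225394860) (nat_lit 152) (nat_lit 126000215219) (nat_lit 228) (nat_lit 306558247415) (nat_lit 15) (nat_lit 5) (nat_lit 17) (nat_lit 5) (nat_lit 18) (nat_lit 5) (nat_lit 316) (nat_lit 300) (nat_lit 104)))))) (XT.nd (nat_lit 546) (nat_lit 760) (nat_lit 0) (XT.nd (nat_lit 234) (nat_lit 0) (nat_lit 0) (XT.nd (nat_lit 78) (nat_lit 0) (nat_lit 0) (XT.lf (nat_lit 0) (nat_lit 96236618864) (nat_lit 0) (nat_lit 96236618864) (nat_lit 380) (nat_lit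 33792918902) (nat_lit 27) (nat_lit 5) (nat_lit 27) (nat_lit 3) (nat_lit 32) (nat_lit 3) (nat_lit 301) (nat_lit 301) (nat_lit 118)) (XT.nd (nat_lit 78) (nat_lit 0) (nat_lit 0) (XT.lf (nat_lit 0) (nat_lit 377673568257) (nat_lit 0) (nat_lit 22671026294) (nat_lit 380) (nat_lit 70288987422) (nat_lit 27) (nat_lit 5) (nat_lit 27) (nat_lit 3) (nat_lit 32) (nat_lit 3) (nat_lit 302) (nat_lit 301) (nat_lit 117)) (XT.lf (nat_lit 76) (nat_lit 88046175292) (nat_lit 0) (nat_lit 334911083130) (nat_lit 456) (nat_lit 66747078443) (nat_lit 28) (nat_lit 5) (nat_lit 27) (nat_lit 5) (nat_lit 33) (nat_lit 5) (nat_lit 303) (nat_lit 301) (nat_lit 116)))) (XT.nd (nat_lit 156) (nat_lit 0) (nat_lit 76) (XT.nd (nat_lit 78) (nat_lit 0) (nat_lit 76) (XT.lf (nat_lit 76) (nat_lit 288199696428) (nat_lit 0) (nat_lit 162294856350) (nat_lit 456) (nat_lit 59556950258) (nat_lit 28) (nat_lit 5) (nat_lit 27) (nat_lit 5)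 (nat_lit 33) (nat_lit 5) (nat_lit 304) (nat_lit 301) (nat_lit 115)) (XT.lf (nat_lit 0) (nat_lit 480815151660) (nat_lit 380) (nat_lit 28241302827) (nat_lit 456) (nat_lit 22923562595) (nat_lit 28) (nat_lit 5) (nat_lit 33) (nat_lit 5) (nat_lit 34) (nat_lit 5) (nat_lit 305) (nat_lit 301) (nat_lit 114))) (XT.nd (nat_lit 78) (nat_lit 0) (nat_lit 0) (XT.lf (nat_lit 76) (nat_lit 185944260213) (nat_lit 0) (nat_lit 336304532442) (nat_lit 456) (nat_lit 32719028299) (nat_lit 29) (nat_lit 5) (nat_lit 28) (nat_lit 5) (nat_lit 34) (nat_lit 5) (nat_lit 306) (nat_lit 301) (nat_lit 113)) (XT.lf (nat_lit 76) (nat_lit 418870761393) (nat_lit 0) (nat_lit 148898511429) (nat_lit 456) (nat_lit 11963604704) (nat_lit 29) (nat_lit 5) (nat_lit 28) (nat_lit 5) (nat_lit 34) (nat_lit 5) (nat_lit 307) (nat_lit 301) (nat_lit 112))))) (XT.nd (nat_lit 234) (nat_lit 456) (nat_lit 0) (XT.nd (nat_lit 78) (nat_lit 0) (nat_lit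 0) (XT.lf (nat_lit 0) (nat_lit 12877143189) (nat_lit 456) (nat_lit 540609882776) (nat_lit 76) (nat_lit 52736182341) (nat_lit 23) (nat_lit 5) (nat_lit 29) (nat_lit 5) (nat_lit 24) (nat_lit 5) (nat_lit 308) (nat_lit 301) (nat_lit 111)) (XT.nd (nat_lit 78) (nat_lit 0) (nat_lit 0) (XT.lf (nat_lit 0) (nat_lit 47438777547) (nat_lit 456) (nat_lit 319418224862) (nat_lit 76) (nat_lit 267280506112) (nat_lit 23) (nat_lit 5) (nat_lit 29) (nat_lit 5) (nat_lit 24) (nat_lit 5) (nat_lit 309) (nat_lit 301) (nat_lit 110)) (XT.lf (nat_lit 0) (nat_lit 84765326452) (nat_lit 456) (nat_lit 80531249287) (nat_lit 76) (nat_lit 498988378475) (nat_lit 23) (nat_lit 5) (nat_lit 29) (nat_lit 5) (nat_lit 24) (nat_lit 5) (nat_lit 310) (nat_lit 301) (nat_lit 109)))) (XT.nd (nat_lit 156) (nat_lit 228) (nat_lit 0) (XT.nd (nat_lit 78) (nat_lit 0) (nat_lit 0) (XT.lf (nat_lit 0) (nat_lit 130947457340) (nat_lit 304) (nat_lit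 511049665876) (nat_lit 76) (nat_lit 54377515852) (nat_lit 20) (nat_lit 5) (nat_lit 24) (nat_lit 5) (nat_lit 21) (nat_lit 5) (nat_lit 311) (nat_lit 301) (nat_lit 108)) (XT.lf (nat_lit 0) (nat_lit 187376620472) (nat_lit 304) (nat_lit 258176396079) (nat_lit 76) (nat_lit 284954285355) (nat_lit 20) (nat_lit 5) (nat_lit 24) (nat_lit 5) (nat_lit 21) (nat_lit 5) (nat_lit 312) (nat_lit 301) (nat_lit 107))) (XT.nd (nat_lit 78) (nat_lit 0) (nat_lit 0) (XT.lf (nat_lit 0) (nat_lit 15712736299) (nat_lit 228) (nat_lit 232985258895) (nat_lit 304) (nat_lit 518642352425) (nat_lit 17) (nat_lit 5) (nat_lit 20) (nat_lit 5) (nat_lit 21) (nat_lit 5) (nat_lit 313) (nat_lit 301) (nat_lit 106)) (XT.lf (nat_lit 0) (nat_lit 322085357609) (nat_lit 304) (nat_lit 480460901789) (nat_lit 76) (nat_lit 4000955493) (nat_lit 17) (nat_lit 5) (nat_lit 21) (nat_lit 5) (nat_lit 18) (nat_lit 5) (nat_lit 314) (nat_lit 301)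 (nat_lit 105))))))))
noncomputable def xc127 : XT := (XT.nd (nat_lit 111852) (nat_lit 0) (nat_lit 456) (XT.nd (nat_lit 37440) (nat_lit 0) (nat_lit 0) (XT.nd (nat_lit 36894) (nat_lit 0) (nat_lit 228) (XT.nd (nat_lit 36660) (nat_lit 0) (nat_lit 760) (XT.nd (nat_lit 36504) (nat_lit 0) (nat_lit 760) (XT.lf (nat_lit 0) (nat_lit 407395262594) (nat_lit 304) (nat_lit 193652434049) (nat_lit 76) (nat_lit 247358810725) (nat_lit 17) (nat_lit 5) (nat_lit 21) (nat_lit 5) (nat_lit 18) (nat_lit 5) (nat_lit 315) (nat_lit 301) (nat_lit 104)) (XT.nd (nat_lit 78) (nat_lit 0) (nat_lit 0) (XT.lf (nat_lit 0) (nat_lit 103935675284) (nat_lit 0) (nat_lit 103935675284) (nat_lit 380) (nat_lit 36496075348) (nat_lit 27) (nat_lit 5) (nat_lit 27) (nat_lit 3) (nat_lit 32) (nat_lit 3) (nat_lit 302) (nat_lit 302) (nat_lit 116)) (XT.lf (nat_lit 0) (nat_lit 407887688737) (nat_lit 0) (nat_lit 24484943418) (nat_lit 380)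 (nat_lit 75911593331) (nat_lit 27) (nat_lit 5) (nat_lit 27) (nat_lit 3) (nat_lit 32) (nat_lit 3) (nat_lit 303) (nat_lit 302) (nat_lit 115)))) (XT.nd (nat_lit 78) (nat_lit 0) (nat_lit 0) (XT.lf (nat_lit 76) (nat_lit 95090145850) (nat_lit 0) (nat_lit 361704129885) (nat_lit 456) (nat_lit 72086368109) (nat_lit 28) (nat_lit 5) (nat_lit 27) (nat_lit 5) (nat_lit 33) (nat_lit 5) (nat_lit 304) (nat_lit 302) (nat_lit 114)) (XT.nd (nat_lit 78) (nat_lit 0) (nat_lit 76) (XT.lf (nat_lit 76) (nat_lit 311255928193) (nat_lit 0) (nat_lit 175278593103) (nat_lit 456) (nat_lit 64321064974) (nat_lit 28) (nat_lit 5) (nat_lit 27) (nat_lit 5) (nat_lit 33) (nat_lit 5) (nat_lit 305) (nat_lit 302) (nat_lit 113)) (XT.lf (nat_lit 0) (nat_lit 519280734839) (nat_lit 380) (nat_lit 30500332400) (nat_lit 456) (nat_lit 24757317206) (nat_lit 28) (nat_lit 5) (nat_lit 33) (nat_lit 5) (nat_lit 34) (nat_lit 5) (nat_lit 306)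 (nat_lit 302) (nat_lit 112))))) (XT.nd (nat_lit 234) (nat_lit 228) (nat_lit 0) (XT.nd (nat_lit 78) (nat_lit 380) (nat_lit 0) (XT.lf (nat_lit 76) (nat_lit 200820068730) (nat_lit 0) (nat_lit 363208977337) (nat_lit 456) (nat_lit 35336168563) (nat_lit 29) (nat_lit 5) (nat_lit 28) (nat_lit 5) (nat_lit 34) (nat_lit 5) (nat_lit 307) (nat_lit 302) (nat_lit 111)) (XT.nd (nat_lit 78) (nat_lit 380) (nat_lit 0) (XT.lf (nat_lit 76) (nat_lit 452380670175) (nat_lit 0) (nat_lit 160810468547) (nat_lit 456) (nat_lit 12920339376) (nat_lit 29) (nat_lit 5) (nat_lit 28) (nat_lit 5) (nat_lit 34) (nat_lit 5) (nat_lit 308) (nat_lit 302) (nat_lit 110)) (XT.lf (nat_lit 0) (nat_lit 13907630741) (nat_lit 456) (nat_lit 583858381316) (nat_lit 76) (nat_lit 56955024449) (nat_lit 23) (nat_lit 5) (nat_lit 29) (nat_lit 5) (nat_lit 24) (nat_lit 5) (nat_lit 309) (nat_lit 302) (nat_lit 109)))) (XT.nd (nat_lit 156) (nat_lit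 228) (nat_lit 0) (XT.nd (nat_lit 78) (nat_lit 0) (nat_lit 0) (XT.lf (nat_lit 0) (nat_lit 51234172434) (nat_lit 456) (nat_lit 344971412405) (nat_lit 76) (nat_lit 288662898010) (nat_lit 23) (nat_lit 5) (nat_lit 29) (nat_lit 5) (nat_lit 24) (nat_lit 5) (nat_lit 310) (nat_lit 302) (nat_lit 108)) (XT.lf (nat_lit 0) (nat_lit 91546823571) (nat_lit 456) (nat_lit 86973498817) (nat_lit 76) (nat_lit 538907403761) (nat_lit 23) (nat_lit 5) (nat_lit 29) (nat_lit 5) (nat_lit 24) (nat_lit 5) (nat_lit 311) (nat_lit 302) (nat_lit 107))) (XT.nd (nat_lit 78) (nat_lit 0) (nat_lit 0) (XT.lf (nat_lit 0) (nat_lit 141423510419) (nat_lit 304) (nat_lit 551933371702) (nat_lit 76) (nat_lit 58727705032) (nat_lit 20) (nat_lit 5) (nat_lit 24) (nat_lit 5) (nat_lit 21) (nat_lit 5) (nat_lit 312) (nat_lit 302) (nat_lit 106)) (XT.lf (nat_lit 0) (nat_lit 202366987603) (nat_lit 304) (nat_lit 278830260132) (nat_lit 76)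 (nat_lit 307750616991) (nat_lit 20) (nat_lit 5) (nat_lit 24) (nat_lit 5) (nat_lit 21) (nat_lit 5) (nat_lit 313) (nat_lit 302) (nat_lit 105)))))) (XT.nd (nat_lit 37128) (nat_lit 0) (nat_lit 228) (XT.nd (nat_lit 36816) (nat_lit 0) (nat_lit 760) (XT.nd (nat_lit 36660) (nat_lit 0) (nat_lit 760) (XT.lf (nat_lit 0) (nat_lit 16969996567) (nat_lit 228) (nat_lit 251624063948) (nat_lit 304) (nat_lit 560133494696) (nat_lit 17) (nat_lit 5) (nat_lit 20) (nat_lit 5) (nat_lit 21) (nat_lit 5) (nat_lit 314) (nat_lit 302) (nat_lit 104)) (XT.nd (nat_lit 78) (nat_lit 0) (nat_lit 0) (XT.lf (nat_lit 0) (nat_lit 112250638112) (nat_lit 0) (nat_lit 112250638112) (nat_lit 380) (nat_lit 39415523836) (nat_lit 27) (nat_lit 5) (nat_lit 27) (nat_lit 3) (nat_lit 32) (nat_lit 3) (nat_lit 303) (nat_lit 303) (nat_lit 114)) (XT.lf (nat_lit 0) (nat_lit 440518905328) (nat_lit 0) (nat_lit 26443940383) (nat_lit 380) (nat_lit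 81984080910) (nat_lit 27) (nat_lit 5) (nat_lit 27) (nat_lit 3) (nat_lit 32) (nat_lit 3) (nat_lit 304) (nat_lit 303) (nat_lit 113)))) (XT.nd (nat_lit 156) (nat_lit 0) (nat_lit 76) (XT.nd (nat_lit 78) (nat_lit 0) (nat_lit 0) (XT.lf (nat_lit 76) (nat_lit 102697594602) (nat_lit 0) (nat_lit 390640597539) (nat_lit 456) (nat_lit 77852868942) (nat_lit 28) (nat_lit 5) (nat_lit 27) (nat_lit 5) (nat_lit 33) (nat_lit 5) (nat_lit 305) (nat_lit 303) (nat_lit 112)) (XT.lf (nat_lit 76) (nat_lit 336156621971) (nat_lit 0) (nat_lit 189301007647) (nat_lit 456) (nat_lit 69466371824) (nat_lit 28) (nat_lit 5) (nat_lit 27) (nat_lit 5) (nat_lit 33) (nat_lit 5) (nat_lit 306) (nat_lit 303) (nat_lit 111))) (XT.nd (nat_lit 78) (nat_lit 0) (nat_lit 0) (XT.lf (nat_lit 0) (nat_lit 560823511739) (nat_lit 380) (nat_lit 32940123521) (nat_lit 456) (nat_lit 26737790788) (nat_lit 28) (nat_lit 5) (nat_lit 33) (nat_lit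 5) (nat_lit 34) (nat_lit 5) (nat_lit 307) (nat_lit 303) (nat_lit 110)) (XT.lf (nat_lit 76) (nat_lit 216885903738) (nat_lit 0) (nat_lit 392265766083) (nat_lit 456) (nat_lit 38162734545) (nat_lit 29) (nat_lit 5) (nat_lit 28) (nat_lit 5) (nat_lit 34) (nat_lit 5) (nat_lit 308) (nat_lit 303) (nat_lit 109))))) (XT.nd (nat_lit 234) (nat_lit 228) (nat_lit 0) (XT.nd (nat_lit 78) (nat_lit 380) (nat_lit 0) (XT.lf (nat_lit 76) (nat_lit 488571336299) (nat_lit 0) (nat_lit 173675371363) (nat_lit 456) (nat_lit 13953663283) (nat_lit 29) (nat_lit 5) (nat_lit 28) (nat_lit 5) (nat_lit 34) (nat_lit 5) (nat_lit 309) (nat_lit 303) (nat_lit 108)) (XT.nd (nat_lit 78) (nat_lit 0) (nat_lit 0) (XT.lf (nat_lit 0) (nat_lit 15020512203) (nat_lit 456) (nat_lit 630566801408) (nat_lit 76) (nat_lit 61511381414) (nat_lit 23) (nat_lit 5) (nat_lit 29) (nat_lit 5) (nat_lit 24) (nat_lit 5) (nat_lit 310) (nat_lit 303) (nat_lit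 107)) (XT.lf (nat_lit 0) (nat_lit 55333157157) (nat_lit 456) (nat_lit 372568893533) (nat_lit 76) (nat_lit 311755888191) (nat_lit 23) (nat_lit 5) (nat_lit 29) (nat_lit 5) (nat_lit 24) (nat_lit 5) (nat_lit 311) (nat_lit 303) (nat_lit 106)))) (XT.nd (nat_lit 36894) (nat_lit 0) (nat_lit 532) (XT.nd (nat_lit 78) (nat_lit 228) (nat_lit 0) (XT.lf (nat_lit 0) (nat_lit 98870801798) (nat_lit 456) (nat_lit 93931164033) (nat_lit 76) (nat_lit 582019957489) (nat_lit 23) (nat_lit 5) (nat_lit 29) (nat_lit 5) (nat_lit 24) (nat_lit 5) (nat_lit 312) (nat_lit 303) (nat_lit 105)) (XT.lf (nat_lit 0) (nat_lit 152737611153) (nat_lit 304) (nat_lit 596087812147) (nat_lit 76) (nat_lit 63425911071) (nat_lit 20) (nat_lit 5) (nat_lit 24) (nat_lit 5) (nat_lit 21) (nat_lit 5) (nat_lit 313) (nat_lit 303) (nat_lit 104))) (XT.nd (nat_lit 78) (nat_lit 0) (nat_lit 0) (XT.lf (nat_lit 0) (nat_lit 121230782444) (nat_lit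 0) (nat_lit 121230782444) (nat_lit 380) (nat_lit 42568562091) (nat_lit 27) (nat_lit 5) (nat_lit 27) (nat_lit 3) (nat_lit 32) (nat_lit 3) (nat_lit 304) (nat_lit 304) (nat_lit 112)) (XT.lf (nat_lit 0) (nat_lit 475760590501) (nat_lit 0) (nat_lit 28559628360) (nat_lit 380) (nat_lit 88542430249) (nat_lit 27) (nat_lit 5) (nat_lit 27) (nat_lit 3) (nat_lit 32) (nat_lit 3) (nat_lit 305) (nat_lit 304) (nat_lit 111))))))) (XT.nd (nat_lit 37908) (nat_lit 0) (nat_lit 0) (XT.nd (nat_lit 468) (nat_lit 0) (nat_lit 0) (XT.nd (nat_lit 234) (nat_lit 304) (nat_lit 0) (XT.nd (nat_lit 78) (nat_lit 0) (nat_lit 0) (XT.lf (nat_lit 76) (nat_lit 110913605432) (nat_lit 0) (nat_lit 421891963024) (nat_lit 456) (nat_lit 84080748135) (nat_lit 28) (nat_lit 5) (nat_lit 27) (nat_lit 5) (nat_lit 33) (nat_lit 5) (nat_lit 306) (nat_lit 304) (nat_lit 110)) (XT.nd (nat_lit 78) (nat_lit 0) (nat_lit 76) (XT.lf (nat_lit 76)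 (nat_lit 363049339934) (nat_lit 0) (nat_lit 204445197223) (nat_lit 456) (nat_lit 75023357198) (nat_lit 28) (nat_lit 5) (nat_lit 27) (nat_lit 5) (nat_lit 33) (nat_lit 5) (nat_lit 307) (nat_lit 304) (nat_lit 109)) (XT.lf (nat_lit 0) (nat_lit 605689665408) (nat_lit 380) (nat_lit 35575131524) (nat_lit 456) (nat_lit 28876718206) (nat_lit 28) (nat_lit 5) (nat_lit 33) (nat_lit 5) (nat_lit 34) (nat_lit 5) (nat_lit 308) (nat_lit 304) (nat_lit 108)))) (XT.nd (nat_lit 78) (nat_lit 380) (nat_lit 0) (XT.lf (nat_lit 76) (nat_lit 234236972805) (nat_lit 0) (nat_lit 423647087862) (nat_lit 456) (nat_lit 41215472527) (nat_lit 29) (nat_lit 5) (nat_lit 28) (nat_lit 5) (nat_lit 34) (nat_lit 5) (nat_lit 309) (nat_lit 304) (nat_lit 107)) (XT.nd (nat_lit 78) (nat_lit 380) (nat_lit 0) (XT.lf (nat_lit 76) (nat_lit 527657225395) (nat_lit 0) (nat_lit 187569457083) (nat_lit 456) (nat_lit 15069696363) (nat_lit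 29) (nat_lit 5) (nat_lit 28) (nat_lit 5) (nat_lit 34) (nat_lit 5) (nat_lit 310) (nat_lit 304) (nat_lit 106)) (XT.lf (nat_lit 0) (nat_lit 16222385520) (nat_lit 456) (nat_lit 681011930831) (nat_lit 76) (nat_lit 66432253353) (nat_lit 23) (nat_lit 5) (nat_lit 29) (nat_lit 5) (nat_lit 24) (nat_lit 5) (nat_lit 311) (nat_lit 304) (nat_lit 105))))) (XT.nd (nat_lit 37128) (nat_lit 0) (nat_lit 304) (XT.nd (nat_lit 36972) (nat_lit 0) (nat_lit 304) (XT.lf (nat_lit 0) (nat_lit 59760024860) (nat_lit 456) (nat_lit 402374206230) (nat_lit 76) (nat_lit 336696323531) (nat_lit 23) (nat_lit 5) (nat_lit 29) (nat_lit 5) (nat_lit 24) (nat_lit 5) (nat_lit 312) (nat_lit 304) (nat_lit 104)) (XT.nd (nat_lit 78) (nat_lit 0) (nat_lit 0) (XT.lf (nat_lit 0) (nat_lit 130929325015) (nat_lit 0) (nat_lit 130929325015) (nat_lit 380) (nat_lit 45973872460) (nat_lit 27) (nat_lit 5) (nat_lit 27) (nat_lit 3) (nat_lit 32)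 (nat_lit 3) (nat_lit 305) (nat_lit 305) (nat_lit 110)) (XT.lf (nat_lit 0) (nat_lit 513821585843) (nat_lit 0) (nat_lit 30844546731) (nat_lit 380) (nat_lit 95625501339) (nat_lit 27) (nat_lit 5) (nat_lit 27) (nat_lit 3) (nat_lit 32) (nat_lit 3) (nat_lit 306) (nat_lit 305) (nat_lit 109)))) (XT.nd (nat_lit 156) (nat_lit 0) (nat_lit 76) (XT.nd (nat_lit 78) (nat_lit 0) (nat_lit 0) (XT.lf (nat_lit 76) (nat_lit 119786868130) (nat_lit 0) (nat_lit 455643420959) (nat_lit 456) (nat_lit 90806907642) (nat_lit 28) (nat_lit 5) (nat_lit 27) (nat_lit 5) (nat_lit 33) (nat_lit 5) (nat_lit 307) (nat_lit 305) (nat_lit 108)) (XT.lf (nat_lit 76) (nat_lit 392093448484) (nat_lit 0) (nat_lit 220800906420) (nat_lit 456) (nat_lit 81024947677) (nat_lit 28) (nat_lit 5) (nat_lit 27) (nat_lit 5) (nat_lit 33) (nat_lit 5) (nat_lit 308) (nat_lit 305) (nat_lit 107))) (XT.nd (nat_lit 78) (nat_lit 0) (nat_lit 0) (XT.lf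 (nat_lit 0) (nat_lit 654145072463) (nat_lit 380) (nat_lit 38420968968) (nat_lit 456) (nat_lit 31186773490) (nat_lit 28) (nat_lit 5) (nat_lit 33) (nat_lit 5) (nat_lit 34) (nat_lit 5) (nat_lit 309) (nat_lit 305) (nat_lit 106)) (XT.lf (nat_lit 76) (nat_lit 252976099326) (nat_lit 0) (nat_lit 457538906754) (nat_lit 456) (nat_lit 44512469605) (nat_lit 29) (nat_lit 5) (nat_lit 28) (nat_lit 5) (nat_lit 34) (nat_lit 5) (nat_lit 310) (nat_lit 305) (nat_lit 105)))))) (XT.nd (nat_lit 37518) (nat_lit 0) (nat_lit 304) (XT.nd (nat_lit 37206) (nat_lit 0) (nat_lit 304) (XT.nd (nat_lit 78) (nat_lit 380) (nat_lit 0) (XT.lf (nat_lit 76) (nat_lit 569869959627) (nat_lit 0) (nat_lit 202575061671) (nat_lit 456) (nat_lit 16275049178) (nat_lit 29) (nat_lit 5) (nat_lit 28) (nat_lit 5) (nat_lit 34) (nat_lit 5) (nat_lit 311) (nat_lit 305) (nat_lit 104)) (XT.nd (nat_lit 37050) (nat_lit 0) (nat_lit 304) (XT.lf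 (nat_lit 0) (nat_lit 17520375557) (nat_lit 456) (nat_lit 735492701237) (nat_lit 76) (nat_lit 71746800551) (nat_lit 23) (nat_lit 5) (nat_lit 29) (nat_lit 5) (nat_lit 24) (nat_lit 5) (nat_lit 312) (nat_lit 305) (nat_lit 103)) (XT.lf (nat_lit 0) (nat_lit 141403739582) (nat_lit 0) (nat_lit 141403739582) (nat_lit 380) (nat_lit 49651632567) (nat_lit 27) (nat_lit 5) (nat_lit 27) (nat_lit 3) (nat_lit 32) (nat_lit 3) (nat_lit 306) (nat_lit 306) (nat_lit 108)))) (XT.nd (nat_lit 156) (nat_lit 0) (nat_lit 0) (XT.nd (nat_lit 78) (nat_lit 0) (nat_lit 0) (XT.lf (nat_lit 0) (nat_lit 554927439685) (nat_lit 0) (nat_lit 33312237444) (nat_lit 380) (nat_lit 103275264242) (nat_lit 27) (nat_lit 5) (nat_lit 27) (nat_lit 3) (nat_lit 32) (nat_lit 3) (nat_lit 307) (nat_lit 306) (nat_lit 107)) (XT.lf (nat_lit 76) (nat_lit 129369966984) (nat_lit 0) (nat_lit 492094981135) (nat_lit 456) (nat_lit 98071202756) (nat_lit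 28) (nat_lit 5) (nat_lit 27) (nat_lit 5) (nat_lit 33) (nat_lit 5) (nat_lit 308) (nat_lit 306) (nat_lit 106))) (XT.nd (nat_lit 78) (nat_lit 0) (nat_lit 76) (XT.lf (nat_lit 76) (nat_lit 423461062699) (nat_lit 0) (nat_lit 238465059026) (nat_lit 456) (nat_lit 87506705068) (nat_lit 28) (nat_lit 5) (nat_lit 27) (nat_lit 5) (nat_lit 33) (nat_lit 5) (nat_lit 309) (nat_lit 306) (nat_lit 105)) (XT.lf (nat_lit 0) (nat_lit 706476878725) (nat_lit 380) (nat_lit 41494498099) (nat_lit 456) (nat_lit 33681644920) (nat_lit 28) (nat_lit 5) (nat_lit 33) (nat_lit 5) (nat_lit 34) (nat_lit 5) (nat_lit 310) (nat_lit 306) (nat_lit 104))))) (XT.nd (nat_lit 37362) (nat_lit 0) (nat_lit 0) (XT.nd (nat_lit 37206) (nat_lit 76) (nat_lit 0) (XT.lf (nat_lit 76) (nat_lit 273214331902) (nat_lit 0) (nat_lit 494142063758) (nat_lit 456) (nat_lit 48073260791) (nat_lit 29) (nat_lit 5) (nat_lit 28) (nat_lit 5) (nat_lit 34)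 (nat_lit 5) (nat_lit 311) (nat_lit 306) (nat_lit 103)) (XT.nd (nat_lit 78) (nat_lit 0) (nat_lit 0) (XT.lf (nat_lit 0) (nat_lit 152716097533) (nat_lit 0) (nat_lit 152716097533) (nat_lit 380) (nat_lit 53623634837) (nat_lit 27) (nat_lit 5) (nat_lit 27) (nat_lit 3) (nat_lit 32) (nat_lit 3) (nat_lit 307) (nat_lit 307) (nat_lit 106)) (XT.lf (nat_lit 0) (nat_lit 599321743719) (nat_lit 0) (nat_lit 35977325299) (nat_lit 380) (nat_lit 111537047724) (nat_lit 27) (nat_lit 5) (nat_lit 27) (nat_lit 3) (nat_lit 32) (nat_lit 3) (nat_lit 308) (nat_lit 307) (nat_lit 105)))) (XT.nd (nat_lit 37440) (nat_lit 0) (nat_lit 0) (XT.nd (nat_lit 78) (nat_lit 0) (nat_lit 0) (XT.lf (nat_lit 76) (nat_lit 139719692431) (nat_lit 0) (nat_lit 531462653785) (nat_lit 456) (nat_lit 105916678214) (nat_lit 28) (nat_lit 5) (nat_lit 27) (nat_lit 5) (nat_lit 33) (nat_lit 5) (nat_lit 309) (nat_lit 307) (nat_lit 104)) (XT.lf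 (nat_lit 76) (nat_lit 457338066316) (nat_lit 0) (nat_lit 257542332414) (nat_lit 456) (nat_lit 94507037063) (nat_lit 28) (nat_lit 5) (nat_lit 27) (nat_lit 5) (nat_lit 33) (nat_lit 5) (nat_lit 310) (nat_lit 307) (nat_lit 103))) (XT.nd (nat_lit 78) (nat_lit 0) (nat_lit 0) (XT.lf (nat_lit 0) (nat_lit 164933435734) (nat_lit 0) (nat_lit 164933435734) (nat_lit 380) (nat_lit 57913415597) (nat_lit 27) (nat_lit 5) (nat_lit 27) (nat_lit 3) (nat_lit 32) (nat_lit 3) (nat_lit 308) (nat_lit 308) (nat_lit 104)) (XT.lf (nat_lit 0) (nat_lit 647267576546) (nat_lit 0) (nat_lit 38855604652) (nat_lit 380) (nat_lit 120459807788) (nat_lit 27) (nat_lit 5) (nat_lit 27) (nat_lit 3) (nat_lit 32) (nat_lit 3) (nat_lit 309) (nat_lit 308) (nat_lit 103))))))))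

set_option maxRecDepth 10000000 in
noncomputable def Tp : PT := (PT.nd (nat_lit 4586010) (PT.nd (nat_lit 4361760) pc0 pc1) (PT.nd (nat_lit 112632) pc2 pc3))

set_option maxRecDepth 10000000 in
noncomputable def Tx : XT := (XT.nd (nat_lit 7042854) (nat_lit 0) (nat_lit 76) XT.nil (XT.nd (nat_lit 4536870) (nat_lit 0) (nat_lit 0) (XT.nd (nat_lit 2207946) (nat_lit 0) (nat_lit 0) (XT.nd (nat_lit 1534026) (nat_lit 0) (nat_lit 0) (XT.nd (nat_lit 1083732) (nat_lit 0) (nat_lit 0) (XT.nd (nat_lit 748332) (nat_lit 0) (nat_lit 0) (XT.nd (nat_lit 523380) (nat_lit 0) (nat_lit 0) (XT.nd (nat_lit 337584) (nat_lit 0) (nat_lit 0) (XT.nd (nat_lit 225030) (nat_lit 0) (nat_lit 0) xc0 xc1) (XT.nd (nat_lit 111072) (nat_lit 0) (nat_lit 0) xc2 xc3)) (XT.nd (nat_lit 113100) (nat_lit 0) (nat_lit 0) (XT.nd (nat_lit 39156) (nat_lit 0) (nat_lit 0) xc4 xc5) (XT.nd (nat_lit 38844) (nat_lit 0) (nat_lit 0) xc6 xc7)))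 (XT.nd (nat_lit 186030) (nat_lit 0) (nat_lit 0) (XT.nd (nat_lit 76518) (nat_lit 0) (nat_lit 0) (XT.nd (nat_lit 38298) (nat_lit 0) (nat_lit 0) xc8 xc9) (XT.nd (nat_lit 38064) (nat_lit 0) (nat_lit 0) xc10 xc11)) (XT.nd (nat_lit 74958) (nat_lit 0) (nat_lit 0) (XT.nd (nat_lit 37518) (nat_lit 0) (nat_lit 0) xc12 xc13) (XT.nd (nat_lit 37284) (nat_lit 0) (nat_lit 0) xc14 xc15)))) (XT.nd (nat_lit 227682) (nat_lit 0) (nat_lit 0) (XT.nd (nat_lit 114504) (nat_lit 0) (nat_lit 0) (XT.nd (nat_lit 41106) (nat_lit 0) (nat_lit 0) (XT.nd (nat_lit 4134) (nat_lit 0) (nat_lit 0) xc16 xc17) (XT.nd (nat_lit 36738) (nat_lit 0) (nat_lit 0) xc18 xc19)) (XT.nd (nat_lit 72774) (nat_lit 0) (nat_lit 0) (XT.nd (nat_lit 36426) (nat_lit 0) (nat_lit 0) xc20 xc21) (XT.nd (nat_lit 4212) (nat_lit 0) (nat_lit 0) xc22 xc23))) (XT.nd (nat_lit 112008) (nat_lit 0) (nat_lit 0) (XT.nd (nat_lit 71994) (nat_lit 0) (nat_lit 0)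 (XT.nd (nat_lit 36036) (nat_lit 0) (nat_lit 0) xc24 xc25) (XT.nd (nat_lit 4212) (nat_lit 0) (nat_lit 0) xc26 xc27)) (XT.nd (nat_lit 71058) (nat_lit 0) (nat_lit 0) (XT.nd (nat_lit 35568) (nat_lit 0) (nat_lit 0) xc28 xc29) (XT.nd (nat_lit 4212) (nat_lit 0) (nat_lit 0) xc30 xc31))))) (XT.nd (nat_lit 340470) (nat_lit 0) (nat_lit 0) (XT.nd (nat_lit 186810) (nat_lit 0) (nat_lit 0) (XT.nd (nat_lit 78468) (nat_lit 0) (nat_lit 0) (XT.nd (nat_lit 39312) (nat_lit 0) (nat_lit 0) (XT.nd (nat_lit 4134) (nat_lit 0) (nat_lit 0) xc32 xc33) (XT.nd (nat_lit 34944) (nat_lit 0) (nat_lit 0) xc34 xc35)) (XT.nd (nat_lit 69498) (nat_lit 0) (nat_lit 0) (XT.nd (nat_lit 34788) (nat_lit 0) (nat_lit 0) xc36 xc37) (XT.nd (nat_lit 4212) (nat_lit 0) (nat_lit 0) xc38 xc39))) (XT.nd (nat_lit 77142) (nat_lit 0) (nat_lit 0) (XT.nd (nat_lit 38610) (nat_lit 0) (nat_lit 0) (XT.nd (nat_lit 4134) (nat_lit 0) (nat_lit 0) xc40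 xc41) (XT.nd (nat_lit 34320) (nat_lit 0) (nat_lit 0) xc42 xc43)) (XT.nd (nat_lit 38298) (nat_lit 0) (nat_lit 0) (XT.nd (nat_lit 34086) (nat_lit 0) (nat_lit 0) xc44 xc45) (XT.nd (nat_lit 34008) (nat_lit 0) (nat_lit 0) xc46 xc47)))) (XT.nd (nat_lit 180882) (nat_lit 0) (nat_lit 0) (XT.nd (nat_lit 75816) (nat_lit 0) (nat_lit 0) (XT.nd (nat_lit 37986) (nat_lit 0) (nat_lit 0) (XT.nd (nat_lit 33774) (nat_lit 0) (nat_lit 0) xc48 xc49) (XT.nd (nat_lit 33618) (nat_lit 0) (nat_lit 0) xc50 xc51)) (XT.nd (nat_lit 37674) (nat_lit 0) (nat_lit 0) (XT.nd (nat_lit 33462) (nat_lit 0) (nat_lit 0) xc52 xc53) (XT.nd (nat_lit 33618) (nat_lit 0) (nat_lit 0) xc54 xc55))) (XT.nd (nat_lit 76128) (nat_lit 0) (nat_lit 0) (XT.nd (nat_lit 37986) (nat_lit 0) (nat_lit 0) (XT.nd (nat_lit 4134) (nat_lit 76) (nat_lit 0) xc56 xc57) (XT.nd (nat_lit 4212) (nat_lit 0) (nat_lit 0) xc58 xc59)) (XT.nd (nat_lit 38142) (nat_lit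 0) (nat_lit 0) (XT.nd (nat_lit 4134) (nat_lit 0) (nat_lit 0) xc60 xc61) (XT.nd (nat_lit 4212) (nat_lit 0) (nat_lit 0) xc62 xc63)))))) (XT.nd (nat_lit 751218) (nat_lit 0) (nat_lit 0) (XT.nd (nat_lit 340158) (nat_lit 0) (nat_lit 0) (XT.nd (nat_lit 153972) (nat_lit 0) (nat_lit 0) (XT.nd (nat_lit 76752) (nat_lit 0) (nat_lit 0) (XT.nd (nat_lit 38298) (nat_lit 0) (nat_lit 0) (XT.nd (nat_lit 4134) (nat_lit 0) (nat_lit 0) xc64 xc65) (XT.nd (nat_lit 4134) (nat_lit 0) (nat_lit 0) xc66 xc67)) (XT.nd (nat_lit 38532) (nat_lit 0) (nat_lit 0) (XT.nd (nat_lit 34320) (nat_lit 0) (nat_lit 0) xc68 xc69) (XT.nd (nat_lit 34476) (nat_lit 0) (nat_lit 0) xc70 xc71))) (XT.nd (nat_lit 108030) (nat_lit 0) (nat_lit 0) (XT.nd (nat_lit 38688) (nat_lit 0) (nat_lit 0) (XT.nd (nat_lit 34476) (nat_lit 0) (nat_lit 0) xc72 xc73) (XT.nd (nat_lit 34632) (nat_lit 0) (nat_lit 0) xc74 xc75)) (XT.nd (nat_lit 39000) (nat_lit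 0) (nat_lit 0) (XT.nd (nat_lit 4134) (nat_lit 0) (nat_lit 0) xc76 xc77) (XT.nd (nat_lit 4212) (nat_lit 0) (nat_lit 0) xc78 xc79)))) (XT.nd (nat_lit 188448) (nat_lit 0) (nat_lit 0) (XT.nd (nat_lit 109356) (nat_lit 0) (nat_lit 0) (XT.nd (nat_lit 39156) (nat_lit 0) (nat_lit 0) (XT.nd (nat_lit 34944) (nat_lit 0) (nat_lit 0) xc80 xc81) (XT.nd (nat_lit 35022) (nat_lit 0) (nat_lit 0) xc82 xc83)) (XT.nd (nat_lit 39468) (nat_lit 0) (nat_lit 0) (XT.nd (nat_lit 4134) (nat_lit 0) (nat_lit 0) xc84 xc85) (XT.nd (nat_lit 35412) (nat_lit 0) (nat_lit 0) xc86 xc87))) (XT.nd (nat_lit 110838) (nat_lit 0) (nat_lit 0) (XT.nd (nat_lit 70980) (nat_lit 0) (nat_lit 0) (XT.nd (nat_lit 35412) (nat_lit 0) (nat_lit 0) xc88 xc89) (XT.nd (nat_lit 4212) (nat_lit 0) (nat_lit 0) xc90 xc91)) (XT.nd (nat_lit 39936) (nat_lit 0) (nat_lit 0) (XT.nd (nat_lit 35724) (nat_lit 0) (nat_lit 0) xc92 xc93) (XT.nd (nat_lit 35880)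 (nat_lit 0) (nat_lit 0) xc94 xc95))))) (XT.nd (nat_lit 489216) (nat_lit 0) (nat_lit 0) (XT.nd (nat_lit 226122) (nat_lit 0) (nat_lit 0) (XT.nd (nat_lit 112554) (nat_lit 0) (nat_lit 0) (XT.nd (nat_lit 40170) (nat_lit 0) (nat_lit 0) (XT.nd (nat_lit 4134) (nat_lit 0) (nat_lit 0) xc96 xc97) (XT.nd (nat_lit 36114) (nat_lit 0) (nat_lit 0) xc98 xc99)) (XT.nd (nat_lit 40482) (nat_lit 0) (nat_lit 0) (XT.nd (nat_lit 4134) (nat_lit 0) (nat_lit 0) xc100 xc101) (XT.nd (nat_lit 36504) (nat_lit 0) (nat_lit 0) xc102 xc103))) (XT.nd (nat_lit 114504) (nat_lit 0) (nat_lit 0) (XT.nd (nat_lit 73398) (nat_lit 0) (nat_lit 0) (XT.nd (nat_lit 36582) (nat_lit 0) (nat_lit 0) xc104 xc105) (XT.nd (nat_lit 4212) (nat_lit 0) (nat_lit 0) xc106 xc107)) (XT.nd (nat_lit 74022) (nat_lit 0) (nat_lit 0) (XT.nd (nat_lit 36894) (nat_lit 0) (nat_lit 0) xc108 xc109) (XT.nd (nat_lit 37206) (nat_lit 0) (nat_lit 0) xc110 xc111))))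 (XT.nd (nat_lit 337350) (nat_lit 0) (nat_lit 228) (XT.nd (nat_lit 150462) (nat_lit 0) (nat_lit 152) (XT.nd (nat_lit 74958) (nat_lit 0) (nat_lit 76) (XT.nd (nat_lit 37362) (nat_lit 0) (nat_lit 76) xc112 xc113) (XT.nd (nat_lit 37674) (nat_lit 0) (nat_lit 76) xc114 xc115)) (XT.nd (nat_lit 75894) (nat_lit 0) (nat_lit 0) (XT.nd (nat_lit 37830) (nat_lit 0) (nat_lit 0) xc116 xc117) (XT.nd (nat_lit 72462) (nat_lit 0) (nat_lit 76) xc118 xc119))) (XT.nd (nat_lit 225732) (nat_lit 0) (nat_lit 228) (XT.nd (nat_lit 112242) (nat_lit 0) (nat_lit 76) (XT.nd (nat_lit 38610) (nat_lit 0) (nat_lit 0) xc120 xc121) (XT.nd (nat_lit 39078) (nat_lit 0) (nat_lit 0) xc122 xc123)) (XT.nd (nat_lit 150618) (nat_lit 0) (nat_lit 380) (XT.nd (nat_lit 74958) (nat_lit 0) (nat_lit 76) xc124 xc125) (XT.nd (nat_lit 112554) (nat_lit 0) (nat_lit 380) xc126 xc127))))))) XT.nil))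

set_option maxRecDepth 10000000 in
noncomputable def Te : XT := XT.nil

set_option maxRecDepth 10000000 in
noncomputable def Tz : ZL := (ZL.cons (nat_lit 76) (nat_lit 6) (nat_lit 152008689648213342118) (ZL.cons (nat_lit 152) (nat_lit 6) (nat_lit 147748066368996466234) (ZL.cons (nat_lit 228) (nat_lit 3) (nat_lit 73671700527387908532) (ZL.cons (nat_lit 304) (nat_lit 6) (nat_lit 143146593227442240276) (ZL.cons (nat_lit 380) (nat_lit 6) (nat_lit 139393396193902486856) (ZL.cons (nat_lit 456) (nat_lit 3) (nat_lit 69509353044071313258) (ZL.cons (nat_lit 532) (nat_lit 6) (nat_lit 135339943397679553162) (ZL.cons (nat_lit 608) (nat_lit 6) (nat_lit 132088505080850276076) (ZL.cons (nat_lit 684) (nat_lit 3) (nat_lit 65870784898869647140) (ZL.cons (nat_lit 760) (nat_lit 6) (nat_lit 129245123355036547696) (ZL.cons (nat_lit 836) (nat_lit 6) (nat_lit 128576951698674656826) (ZL.cons (nat_lit 912)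 (nat_lit 6) (nat_lit 126792948550752064442) (ZL.cons (nat_lit 988) (nat_lit 6) (nat_lit 125827335808046739248) (ZL.cons (nat_lit 1064) (nat_lit 3) (nat_lit 62753049717397915087) (ZL.cons (nat_lit 1140) (nat_lit 6) (nat_lit 123476428105762931658) (ZL.cons (nat_lit 1216) (nat_lit 6) (nat_lit 122857750646168588260) (ZL.cons (nat_lit 1292) (nat_lit 6) (nat_lit 121510297286920811494) (ZL.cons (nat_lit 1368) (nat_lit 6) (nat_lit 120616211414045510388) (ZL.cons (nat_lit 1444) (nat_lit 3) (nat_lit 60159385163851038032) (ZL.cons (nat_lit 1520) (nat_lit 6) (nat_lit 119917292205927240270) (ZL.cons (nat_lit 1596) (nat_lit 6) (nat_lit 118768198542976978320) (ZL.cons (nat_lit 1672) (nat_lit 6) (nat_lit 118195349043352586288) (ZL.cons (nat_lit 1748) (nat_lit 6) (nat_lit 118687972832672626450) (ZL.cons (nat_lit 1824) (nat_lit 6) (nat_lit 117302760845578882240) (ZL.cons (nat_lit 1900) (nat_lit 6)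 (nat_lit 116474903555879529364) (ZL.cons (nat_lit 1976) (nat_lit 3) (nat_lit 58099747571299285828) (ZL.cons (nat_lit 2052) (nat_lit 6) (nat_lit 115126097966333798438) (ZL.cons (nat_lit 2128) (nat_lit 6) (nat_lit 115487090321772274838) (ZL.cons (nat_lit 2204) (nat_lit 6) (nat_lit 116211214246607381574) (ZL.cons (nat_lit 2280) (nat_lit 6) (nat_lit 115147238632764546438) (ZL.cons (nat_lit 2356) (nat_lit 6) (nat_lit 114616822429408627886) (ZL.cons (nat_lit 2432) (nat_lit 3) (nat_lit 56726811265353388533) (ZL.cons (nat_lit 2508) (nat_lit 6) (nat_lit 113641060869107524430) (ZL.cons (nat_lit 2584) (nat_lit 6) (nat_lit 114204486630018807980) (ZL.cons (nat_lit 2660) (nat_lit 6) (nat_lit 113437952102519407168) (ZL.cons (nat_lit 2736) (nat_lit 3) (nat_lit 56591472156222223162) (ZL.cons (nat_lit 2812) (nat_lit 6) (nat_lit 112266026519823937382) (ZL.cons (nat_lit 2888) (nat_lit 6) (nat_lit 112655898263697491896)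 (ZL.cons (nat_lit 2964) (nat_lit 6) (nat_lit 112164772149479048792) (ZL.cons (nat_lit 3040) (nat_lit 3) (nat_lit 55676919461111027703) (ZL.cons (nat_lit 3116) (nat_lit 6) (nat_lit 111556272327694862556) (ZL.cons (nat_lit 3192) (nat_lit 3) (nat_lit 55660077001775690148) (ZL.cons (nat_lit 3268) (nat_lit 6) (nat_lit 110899092520167941424) (ZL.cons (nat_lit 3344) (nat_lit 1) (nat_lit 18446744073709551617) ZL.nil))))))))))))))))))))))))))))))))))))))))))))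

noncomputable def vl : XL := ⟨(nat_lit 0), (nat_lit 76), (nat_lit 335034215), (nat_lit 228), (nat_lit 115281847), (nat_lit 76), (nat_lit 335034215), (nat_lit 1), (nat_lit 5), (nat_lit 3), (nat_lit 4), (nat_lit 1), (nat_lit 4), (nat_lit 0), (nat_lit 0), (nat_lit 0)⟩

noncomputable def cp0 : Nat := (nat_lit 27322347292132413871773616671812585783519870530998110794422759283555513050992245533229575785115367822888178745234400690037193592058650751139785325207529736257293619022683811742094178651404429766732464628957773907446139010465218127576325900084868014385714824907588532324693745029004229444383660188054996512967083840139463341121755506402324006775911160637237236434656754787720908776321189025351934589215719730710644928117129649445627297086233534556479596626901921167814508522987045282131551244982929617064408531387378346701082135422611278476604394885380050283036556564211603057820885398831217723917859810201657579702559173551196899061759747734508766056272291541741657564805266860919442140259531905015058713022220170212069888428969299907927598586065738438204369238532631247012213066114071878062538434829909227749873841293742076844014545509248961972931889246455662098283079087662768071386120729472088301783634197875544636967564726089480338712478797795412971034564033213619588091991541135582835174681934897152329610380316124381184)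

noncomputable def cp1 : Nat := (nat_lit 26717944303580673287870291342944466507873299872614561016242299906278682758841236730633892752200007382193928216846635448263564294227277483491446141867709035182427370320368276615037935472491079865868126485539897331425643755926601891866744792169073484927288766165098982468599645197230288163012036312054290976029018454344028904774203728823113564142982729218500839422612971688012497121238183073563821109975140304559755610726335019836479997360044152390825029967588503838914301848855252907780869159280848366997968560776937970394765049480588218485284030831308481141797918198054350545995983419279140003658027722010394503129239366574976473791716715249717069319277414800803275703085869944267220735299409605082095409211136799839488032237292393026165385925832569217457770441821899530641136211645078174494004978162631212123624329131936333386596559652980202264931188030816981366111565024546478804055093263637786534170966437303972797998842325196308365254747461048398378458084634994505300078608498844631628762080592910456546005380037661949952)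

noncomputable def rc0 : Nat := (nat_lit 26717944303580673287870291342944466507873299872614561016242299906278682758841236730633892752200007382193928216846635448263564294227277483491446141867709035182427370320368276615037935472491079865868126485539897331425643755926601891866744792169073484927288766165098982468599645197230288163012036312054290976029018454344028904774203728823113564142982729218500839422612971688012497121238183073563821109975140304559755610726335019836479997360044152390825029967588503838914301848855252907780869159280848366997968560776937970394765049480588218485284030831308481141797918198054350545995983419279140003658027722010394503129239366574976473791716715249717069319277414800803275703085869944267220735299409605082095409211136799839488032237292393026165385925832569217457770441821899530641136211645078174494004978162631212123624329131936333386596559652980202264931188030816981366111565024546478804055093263637786534170966437303972797998842325196308365254747461048398378458084634994505300078608498844631628762080592910456546005380037661949952)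

end Vale.Agent.Lib.P154.PChain.BY.S2
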